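import Vale.Agent.Lib.P154.PChain.BP.R5_0

set_option linter.all false

namespace Vale.Agent.Lib.P154.PChain.BP.S6

open Vale.Agent.Lib.P154.Chain

noncomputable def pc0 : PT := (PT.nd (nat_lit 3060096) (PT.nd (nat_lit 2857062) (PT.nd (nat_lit 2735304) (PT.nd (nat_lit 2694666) (PT.nd (nat_lit 2654106) (PT.nd (nat_lit 2613546) PT.nil (PT.lf (nat_lit 76) (nat_lit 3) (nat_lit 1) (nat_lit 1) (nat_lit 163) (nat_lit 64) (nat_lit 163))) (PT.nd (nat_lit 78) (PT.lf (nat_lit 152) (nat_lit 6) (nat_lit 2) (nat_lit 3) (nat_lit 162) (nat_lit 65) (nat_lit 163)) (PT.lf (nat_lit 152) (nat_lit 6) (nat_lit 2) (nat_lit 1) (nat_lit 163) (nat_lit 65) (nat_lit 162)))) (PT.nd (nat_lit 78) (PT.lf (nat_lit 228) (nat_lit 6) (nat_lit 3) (nat_lit 3) (nat_lit 161) (nat_lit 66) (nat_lit 163)) (PT.nd (nat_lit 78) (PT.lf (nat_lit 304) (nat_lit 3) (nat_lit 4) (nat_lit 1) (nat_lit 162) (nat_lit 66) (nat_lit 162)) (PT.lf (nat_lit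 228) (nat_lit 6) (nat_lit 3) (nat_lit 1) (nat_lit 163) (nat_lit 66) (nat_lit 161))))) (PT.nd (nat_lit 40638) (PT.nd (nat_lit 78) (PT.lf (nat_lit 380) (nat_lit 6) (nat_lit 5) (nat_lit 3) (nat_lit 161) (nat_lit 67) (nat_lit 162)) (PT.nd (nat_lit 40482) (PT.lf (nat_lit 380) (nat_lit 6) (nat_lit 5) (nat_lit 1) (nat_lit 162) (nat_lit 67) (nat_lit 161)) (PT.lf (nat_lit 456) (nat_lit 6) (nat_lit 6) (nat_lit 3) (nat_lit 160) (nat_lit 68) (nat_lit 162)))) (PT.nd (nat_lit 40560) (PT.nd (nat_lit 78) (PT.lf (nat_lit 532) (nat_lit 3) (nat_lit 7) (nat_lit 1) (nat_lit 161) (nat_lit 68) (nat_lit 161)) (PT.lf (nat_lit 456) (nat_lit 6) (nat_lit 6) (nat_lit 1) (nat_lit 162) (nat_lit 68) (nat_lit 160))) (PT.nd (nat_lit 78) (PT.lf (nat_lit 608) (nat_lit 6) (nat_lit 8) (nat_lit 3) (nat_lit 160) (nat_lit 69) (nat_lit 161)) (PT.lf (nat_lit 608) (nat_lit 6) (nat_lit 8) (nat_lit 1) (nat_lit 161) (nat_lit 69) (nat_lit 160))))))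 (PT.nd (nat_lit 81354) (PT.nd (nat_lit 40638) (PT.nd (nat_lit 78) (PT.lf (nat_lit 684) (nat_lit 6) (nat_lit 9) (nat_lit 3) (nat_lit 159) (nat_lit 70) (nat_lit 161)) (PT.nd (nat_lit 78) (PT.lf (nat_lit 760) (nat_lit 3) (nat_lit 10) (nat_lit 1) (nat_lit 160) (nat_lit 70) (nat_lit 160)) (PT.lf (nat_lit 684) (nat_lit 6) (nat_lit 9) (nat_lit 1) (nat_lit 161) (nat_lit 70) (nat_lit 159)))) (PT.nd (nat_lit 40560) (PT.nd (nat_lit 78) (PT.lf (nat_lit 836) (nat_lit 6) (nat_lit 11) (nat_lit 3) (nat_lit 159) (nat_lit 71) (nat_lit 160)) (PT.lf (nat_lit 836) (nat_lit 6) (nat_lit 11) (nat_lit 1) (nat_lit 160) (nat_lit 71) (nat_lit 159))) (PT.nd (nat_lit 78) (PT.lf (nat_lit 912) (nat_lit 6) (nat_lit 12) (nat_lit 3) (nat_lit 158) (nat_lit 72) (nat_lit 160)) (PT.lf (nat_lit 988) (nat_lit 3) (nat_lit 13) (nat_lit 1) (nat_lit 159) (nat_lit 72) (nat_lit 159))))) (PT.nd (nat_lit 81042) (PT.nd (nat_lit 40482) (PT.lf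 (nat_lit 912) (nat_lit 6) (nat_lit 12) (nat_lit 1) (nat_lit 160) (nat_lit 72) (nat_lit 158)) (PT.nd (nat_lit 78) (PT.lf (nat_lit 1064) (nat_lit 6) (nat_lit 14) (nat_lit 3) (nat_lit 158) (nat_lit 73) (nat_lit 159)) (PT.lf (nat_lit 1064) (nat_lit 6) (nat_lit 14) (nat_lit 1) (nat_lit 159) (nat_lit 73) (nat_lit 158)))) (PT.nd (nat_lit 156) (PT.nd (nat_lit 78) (PT.lf (nat_lit 1140) (nat_lit 6) (nat_lit 15) (nat_lit 3) (nat_lit 157) (nat_lit 74) (nat_lit 159)) (PT.lf (nat_lit 1216) (nat_lit 3) (nat_lit 16) (nat_lit 1) (nat_lit 158) (nat_lit 74) (nat_lit 158))) (PT.nd (nat_lit 40404) (PT.lf (nat_lit 1140) (nat_lit 6) (nat_lit 15) (nat_lit 1) (nat_lit 159) (nat_lit 74) (nat_lit 157)) (PT.lf (nat_lit 1292) (nat_lit 6) (nat_lit 17) (nat_lit 3) (nat_lit 156) (nat_lit 75) (nat_lit 159))))))) (PT.nd (nat_lit 162318) (PT.nd (nat_lit 81120) (PT.nd (nat_lit 40560) (PT.nd (nat_lit 78) (PT.lf (nat_lit 1368) (nat_lit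 6) (nat_lit 18) (nat_lit 3) (nat_lit 157) (nat_lit 75) (nat_lit 158)) (PT.nd (nat_lit 78) (PT.lf (nat_lit 1368) (nat_lit 6) (nat_lit 18) (nat_lit 1) (nat_lit 158) (nat_lit 75) (nat_lit 157)) (PT.lf (nat_lit 1292) (nat_lit 6) (nat_lit 17) (nat_lit 1) (nat_lit 159) (nat_lit 75) (nat_lit 156)))) (PT.nd (nat_lit 78) (PT.lf (nat_lit 1444) (nat_lit 6) (nat_lit 19) (nat_lit 3) (nat_lit 156) (nat_lit 76) (nat_lit 158)) (PT.nd (nat_lit 78) (PT.lf (nat_lit 1520) (nat_lit 3) (nat_lit 20) (nat_lit 1) (nat_lit 157) (nat_lit 76) (nat_lit 157)) (PT.lf (nat_lit 1444) (nat_lit 6) (nat_lit 19) (nat_lit 1) (nat_lit 158) (nat_lit 76) (nat_lit 156))))) (PT.nd (nat_lit 234) (PT.nd (nat_lit 78) (PT.lf (nat_lit 1596) (nat_lit 6) (nat_lit 21) (nat_lit 3) (nat_lit 155) (nat_lit 77) (nat_lit 158)) (PT.nd (nat_lit 78) (PT.lf (nat_lit 1672) (nat_lit 6) (nat_lit 22) (nat_lit 3) (nat_lit 156) (nat_lit 77) (nat_lit 157)) (PT.lf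 (nat_lit 1672) (nat_lit 6) (nat_lit 22) (nat_lit 1) (nat_lit 157) (nat_lit 77) (nat_lit 156)))) (PT.nd (nat_lit 40482) (PT.nd (nat_lit 40404) (PT.lf (nat_lit 1596) (nat_lit 6) (nat_lit 21) (nat_lit 1) (nat_lit 158) (nat_lit 77) (nat_lit 155)) (PT.lf (nat_lit 1748) (nat_lit 6) (nat_lit 23) (nat_lit 3) (nat_lit 155) (nat_lit 78) (nat_lit 157))) (PT.nd (nat_lit 78) (PT.lf (nat_lit 1824) (nat_lit 3) (nat_lit 24) (nat_lit 1) (nat_lit 156) (nat_lit 78) (nat_lit 156)) (PT.lf (nat_lit 1748) (nat_lit 6) (nat_lit 23) (nat_lit 1) (nat_lit 157) (nat_lit 78) (nat_lit 155)))))) (PT.nd (nat_lit 81198) (PT.nd (nat_lit 234) (PT.nd (nat_lit 78) (PT.lf (nat_lit 1900) (nat_lit 6) (nat_lit 25) (nat_lit 3) (nat_lit 154) (nat_lit 79) (nat_lit 157)) (PT.nd (nat_lit 78) (PT.lf (nat_lit 1976) (nat_lit 6) (nat_lit 26) (nat_lit 3) (nat_lit 155) (nat_lit 79) (nat_lit 156)) (PT.lf (nat_lit 1976) (nat_lit 6) (nat_lit 26) (nat_lit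 1) (nat_lit 156) (nat_lit 79) (nat_lit 155)))) (PT.nd (nat_lit 40482) (PT.nd (nat_lit 40404) (PT.lf (nat_lit 1900) (nat_lit 6) (nat_lit 25) (nat_lit 1) (nat_lit 157) (nat_lit 79) (nat_lit 154)) (PT.lf (nat_lit 2052) (nat_lit 6) (nat_lit 27) (nat_lit 3) (nat_lit 154) (nat_lit 80) (nat_lit 156))) (PT.nd (nat_lit 78) (PT.lf (nat_lit 2128) (nat_lit 3) (nat_lit 28) (nat_lit 1) (nat_lit 155) (nat_lit 80) (nat_lit 155)) (PT.lf (nat_lit 2052) (nat_lit 6) (nat_lit 27) (nat_lit 1) (nat_lit 156) (nat_lit 80) (nat_lit 154))))) (PT.nd (nat_lit 234) (PT.nd (nat_lit 78) (PT.lf (nat_lit 2204) (nat_lit 6) (nat_lit 29) (nat_lit 3) (nat_lit 153) (nat_lit 81) (nat_lit 156)) (PT.nd (nat_lit 78) (PT.lf (nat_lit 2280) (nat_lit 6) (nat_lit 30) (nat_lit 3) (nat_lit 154) (nat_lit 81) (nat_lit 155)) (PT.lf (nat_lit 2280) (nat_lit 6) (nat_lit 30) (nat_lit 1) (nat_lit 155) (nat_lit 81) (nat_lit 154)))) (PT.nd (nat_lit 40404)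 (PT.nd (nat_lit 40326) (PT.lf (nat_lit 2204) (nat_lit 6) (nat_lit 29) (nat_lit 1) (nat_lit 156) (nat_lit 81) (nat_lit 153)) (PT.lf (nat_lit 2356) (nat_lit 6) (nat_lit 31) (nat_lit 3) (nat_lit 152) (nat_lit 82) (nat_lit 156))) (PT.nd (nat_lit 78) (PT.lf (nat_lit 2432) (nat_lit 6) (nat_lit 32) (nat_lit 3) (nat_lit 153) (nat_lit 82) (nat_lit 155)) (PT.lf (nat_lit 2508) (nat_lit 3) (nat_lit 33) (nat_lit 1) (nat_lit 154) (nat_lit 82) (nat_lit 154))))))))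
noncomputable def pc1 : PT := (PT.nd (nat_lit 243438) (PT.nd (nat_lit 121758) (PT.nd (nat_lit 80964) (PT.nd (nat_lit 40482) (PT.nd (nat_lit 78) (PT.lf (nat_lit 2432) (nat_lit 6) (nat_lit 32) (nat_lit 1) (nat_lit 155) (nat_lit 82) (nat_lit 153)) (PT.nd (nat_lit 40326) (PT.lf (nat_lit 2356) (nat_lit 6) (nat_lit 31) (nat_lit 1) (nat_lit 156) (nat_lit 82) (nat_lit 152)) (PT.lf (nat_lit 2584) (nat_lit 6) (nat_lit 34) (nat_lit 3) (nat_lit 152) (nat_lit 83) (nat_lit 155)))) (PT.nd (nat_lit 78) (PT.lf (nat_lit 2660) (nat_lit 6) (nat_lit 35) (nat_lit 3) (nat_lit 153) (nat_lit 83) (nat_lit 154)) (PT.nd (nat_lit 78) (PT.lf (nat_lit 2660) (nat_lit 6) (nat_lit 35) (nat_lit 1) (nat_lit 154) (nat_lit 83) (nat_lit 153)) (PT.lf (nat_lit 2584) (nat_lit 6) (nat_lit 34) (nat_lit 1) (nat_lit 155) (nat_lit 83) (nat_lit 152))))) (PT.nd (nat_lit 234) (PT.nd (nat_lit 78) (PT.lf (nat_lit 2736) (nat_lit 6) (nat_lit 36)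 (nat_lit 3) (nat_lit 151) (nat_lit 84) (nat_lit 155)) (PT.nd (nat_lit 78) (PT.lf (nat_lit 2812) (nat_lit 6) (nat_lit 37) (nat_lit 3) (nat_lit 152) (nat_lit 84) (nat_lit 154)) (PT.lf (nat_lit 2888) (nat_lit 3) (nat_lit 38) (nat_lit 1) (nat_lit 153) (nat_lit 84) (nat_lit 153)))) (PT.nd (nat_lit 40404) (PT.nd (nat_lit 78) (PT.lf (nat_lit 2812) (nat_lit 6) (nat_lit 37) (nat_lit 1) (nat_lit 154) (nat_lit 84) (nat_lit 152)) (PT.lf (nat_lit 2736) (nat_lit 6) (nat_lit 36) (nat_lit 1) (nat_lit 155) (nat_lit 84) (nat_lit 151))) (PT.nd (nat_lit 78) (PT.lf (nat_lit 2964) (nat_lit 6) (nat_lit 39) (nat_lit 3) (nat_lit 151) (nat_lit 85) (nat_lit 154)) (PT.lf (nat_lit 3040) (nat_lit 6) (nat_lit 40) (nat_lit 3) (nat_lit 152) (nat_lit 85) (nat_lit 153)))))) (PT.nd (nat_lit 80964) (PT.nd (nat_lit 40482) (PT.nd (nat_lit 78) (PT.lf (nat_lit 3040) (nat_lit 6) (nat_lit 40) (nat_lit 1) (nat_lit 153) (nat_lit 85) (nat_lit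 152)) (PT.nd (nat_lit 40326) (PT.lf (nat_lit 2964) (nat_lit 6) (nat_lit 39) (nat_lit 1) (nat_lit 154) (nat_lit 85) (nat_lit 151)) (PT.lf (nat_lit 3116) (nat_lit 6) (nat_lit 41) (nat_lit 3) (nat_lit 150) (nat_lit 86) (nat_lit 154)))) (PT.nd (nat_lit 156) (PT.nd (nat_lit 78) (PT.lf (nat_lit 3192) (nat_lit 6) (nat_lit 42) (nat_lit 3) (nat_lit 151) (nat_lit 86) (nat_lit 153)) (PT.lf (nat_lit 3268) (nat_lit 3) (nat_lit 43) (nat_lit 1) (nat_lit 152) (nat_lit 86) (nat_lit 152))) (PT.nd (nat_lit 78) (PT.lf (nat_lit 3192) (nat_lit 6) (nat_lit 42) (nat_lit 1) (nat_lit 153) (nat_lit 86) (nat_lit 151)) (PT.lf (nat_lit 3116) (nat_lit 6) (nat_lit 41) (nat_lit 1) (nat_lit 154) (nat_lit 86) (nat_lit 150))))) (PT.nd (nat_lit 234) (PT.nd (nat_lit 78) (PT.lf (nat_lit 3344) (nat_lit 6) (nat_lit 44) (nat_lit 3) (nat_lit 149) (nat_lit 87) (nat_lit 154)) (PT.nd (nat_lit 78) (PT.lf (nat_lit 3420) (nat_lit 6) (nat_lit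 45) (nat_lit 3) (nat_lit 150) (nat_lit 87) (nat_lit 153)) (PT.lf (nat_lit 3496) (nat_lit 6) (nat_lit 46) (nat_lit 3) (nat_lit 151) (nat_lit 87) (nat_lit 152)))) (PT.nd (nat_lit 156) (PT.nd (nat_lit 78) (PT.lf (nat_lit 3496) (nat_lit 6) (nat_lit 46) (nat_lit 1) (nat_lit 152) (nat_lit 87) (nat_lit 151)) (PT.lf (nat_lit 3420) (nat_lit 6) (nat_lit 45) (nat_lit 1) (nat_lit 153) (nat_lit 87) (nat_lit 150))) (PT.nd (nat_lit 40248) (PT.lf (nat_lit 3344) (nat_lit 6) (nat_lit 44) (nat_lit 1) (nat_lit 154) (nat_lit 87) (nat_lit 149)) (PT.lf (nat_lit 3572) (nat_lit 6) (nat_lit 47) (nat_lit 3) (nat_lit 149) (nat_lit 88) (nat_lit 153))))))) (PT.nd (nat_lit 81432) (PT.nd (nat_lit 40716) (PT.nd (nat_lit 234) (PT.nd (nat_lit 78) (PT.lf (nat_lit 3648) (nat_lit 6) (nat_lit 48) (nat_lit 3) (nat_lit 150) (nat_lit 88) (nat_lit 152)) (PT.nd (nat_lit 78) (PT.lf (nat_lit 3724) (nat_lit 3) (nat_lit 49) (nat_lit 1) (nat_lit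 151) (nat_lit 88) (nat_lit 151)) (PT.lf (nat_lit 3648) (nat_lit 6) (nat_lit 48) (nat_lit 1) (nat_lit 152) (nat_lit 88) (nat_lit 150)))) (PT.nd (nat_lit 40326) (PT.nd (nat_lit 40248) (PT.lf (nat_lit 3572) (nat_lit 6) (nat_lit 47) (nat_lit 1) (nat_lit 153) (nat_lit 88) (nat_lit 149)) (PT.lf (nat_lit 3800) (nat_lit 6) (nat_lit 50) (nat_lit 3) (nat_lit 148) (nat_lit 89) (nat_lit 153))) (PT.nd (nat_lit 78) (PT.lf (nat_lit 3876) (nat_lit 6) (nat_lit 51) (nat_lit 3) (nat_lit 149) (nat_lit 89) (nat_lit 152)) (PT.lf (nat_lit 3952) (nat_lit 6) (nat_lit 52) (nat_lit 3) (nat_lit 150) (nat_lit 89) (nat_lit 151))))) (PT.nd (nat_lit 40404) (PT.nd (nat_lit 78) (PT.lf (nat_lit 3952) (nat_lit 6) (nat_lit 52) (nat_lit 1) (nat_lit 151) (nat_lit 89) (nat_lit 150)) (PT.nd (nat_lit 78) (PT.lf (nat_lit 3876) (nat_lit 6) (nat_lit 51) (nat_lit 1) (nat_lit 152) (nat_lit 89) (nat_lit 149)) (PT.lf (nat_lit 3800) (nat_lit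 6) (nat_lit 50) (nat_lit 1) (nat_lit 153) (nat_lit 89) (nat_lit 148)))) (PT.nd (nat_lit 156) (PT.nd (nat_lit 78) (PT.lf (nat_lit 4028) (nat_lit 6) (nat_lit 53) (nat_lit 3) (nat_lit 148) (nat_lit 90) (nat_lit 152)) (PT.lf (nat_lit 4104) (nat_lit 6) (nat_lit 54) (nat_lit 3) (nat_lit 149) (nat_lit 90) (nat_lit 151))) (PT.nd (nat_lit 78) (PT.lf (nat_lit 4180) (nat_lit 3) (nat_lit 55) (nat_lit 1) (nat_lit 150) (nat_lit 90) (nat_lit 150)) (PT.lf (nat_lit 4104) (nat_lit 6) (nat_lit 54) (nat_lit 1) (nat_lit 151) (nat_lit 90) (nat_lit 149)))))) (PT.nd (nat_lit 80808) (PT.nd (nat_lit 40404) (PT.nd (nat_lit 40248) (PT.lf (nat_lit 4028) (nat_lit 6) (nat_lit 53) (nat_lit 1) (nat_lit 152) (nat_lit 90) (nat_lit 148)) (PT.nd (nat_lit 78) (PT.lf (nat_lit 4256) (nat_lit 6) (nat_lit 56) (nat_lit 3) (nat_lit 147) (nat_lit 91) (nat_lit 152)) (PT.lf (nat_lit 4332) (nat_lit 6) (nat_lit 57) (nat_lit 3) (nat_lit 148)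 (nat_lit 91) (nat_lit 151)))) (PT.nd (nat_lit 156) (PT.nd (nat_lit 78) (PT.lf (nat_lit 4408) (nat_lit 6) (nat_lit 58) (nat_lit 3) (nat_lit 149) (nat_lit 91) (nat_lit 150)) (PT.lf (nat_lit 4408) (nat_lit 6) (nat_lit 58) (nat_lit 1) (nat_lit 150) (nat_lit 91) (nat_lit 149))) (PT.nd (nat_lit 78) (PT.lf (nat_lit 4332) (nat_lit 6) (nat_lit 57) (nat_lit 1) (nat_lit 151) (nat_lit 91) (nat_lit 148)) (PT.lf (nat_lit 4256) (nat_lit 6) (nat_lit 56) (nat_lit 1) (nat_lit 152) (nat_lit 91) (nat_lit 147))))) (PT.nd (nat_lit 234) (PT.nd (nat_lit 78) (PT.lf (nat_lit 4484) (nat_lit 6) (nat_lit 59) (nat_lit 3) (nat_lit 146) (nat_lit 92) (nat_lit 152)) (PT.nd (nat_lit 78) (PT.lf (nat_lit 4560) (nat_lit 6) (nat_lit 60) (nat_lit 3) (nat_lit 147) (nat_lit 92) (nat_lit 151)) (PT.lf (nat_lit 4636) (nat_lit 6) (nat_lit 61) (nat_lit 3) (nat_lit 148) (nat_lit 92) (nat_lit 150)))) (PT.nd (nat_lit 156) (PT.nd (nat_lit 78)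 (PT.lf (nat_lit 4712) (nat_lit 3) (nat_lit 62) (nat_lit 1) (nat_lit 149) (nat_lit 92) (nat_lit 149)) (PT.lf (nat_lit 4636) (nat_lit 6) (nat_lit 61) (nat_lit 1) (nat_lit 150) (nat_lit 92) (nat_lit 148))) (PT.nd (nat_lit 78) (PT.lf (nat_lit 4560) (nat_lit 6) (nat_lit 60) (nat_lit 1) (nat_lit 151) (nat_lit 92) (nat_lit 147)) (PT.lf (nat_lit 4484) (nat_lit 6) (nat_lit 59) (nat_lit 1) (nat_lit 152) (nat_lit 92) (nat_lit 146))))))))
noncomputable def pc2 : PT := (PT.nd (nat_lit 122226) (PT.nd (nat_lit 81120) (PT.nd (nat_lit 40560) (PT.nd (nat_lit 234) (PT.nd (nat_lit 78) (PT.lf (nat_lit 4788) (nat_lit 6) (nat_lit 63) (nat_lit 3) (nat_lit 146) (nat_lit 93) (nat_lit 151)) (PT.nd (nat_lit 78) (PT.lf (nat_lit 4864) (nat_lit 6) (nat_lit 64) (nat_lit 3) (nat_lit 147) (nat_lit 93) (nat_lit 150)) (PT.lf (nat_lit 4940) (nat_lit 6) (nat_lit 65) (nat_lit 3) (nat_lit 148) (nat_lit 93) (nat_lit 149)))) (PT.nd (nat_lit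 78) (PT.lf (nat_lit 4940) (nat_lit 6) (nat_lit 65) (nat_lit 1) (nat_lit 149) (nat_lit 93) (nat_lit 148)) (PT.nd (nat_lit 78) (PT.lf (nat_lit 4864) (nat_lit 6) (nat_lit 64) (nat_lit 1) (nat_lit 150) (nat_lit 93) (nat_lit 147)) (PT.lf (nat_lit 4788) (nat_lit 6) (nat_lit 63) (nat_lit 1) (nat_lit 151) (nat_lit 93) (nat_lit 146))))) (PT.nd (nat_lit 234) (PT.nd (nat_lit 78) (PT.lf (nat_lit 5016) (nat_lit 6) (nat_lit 66) (nat_lit 3) (nat_lit 145) (nat_lit 94) (nat_lit 151)) (PT.nd (nat_lit 78) (PT.lf (nat_lit 5092) (nat_lit 6) (nat_lit 67) (nat_lit 3) (nat_lit 146) (nat_lit 94) (nat_lit 150)) (PT.lf (nat_lit 5168) (nat_lit 6) (nat_lit 68) (nat_lit 3) (nat_lit 147) (nat_lit 94) (nat_lit 149)))) (PT.nd (nat_lit 156) (PT.nd (nat_lit 78) (PT.lf (nat_lit 5244) (nat_lit 3) (nat_lit 69) (nat_lit 1) (nat_lit 148) (nat_lit 94) (nat_lit 148)) (PT.lf (nat_lit 5168) (nat_lit 6) (nat_lit 68) (nat_lit 1) (nat_lit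 149) (nat_lit 94) (nat_lit 147))) (PT.nd (nat_lit 78) (PT.lf (nat_lit 5092) (nat_lit 6) (nat_lit 67) (nat_lit 1) (nat_lit 150) (nat_lit 94) (nat_lit 146)) (PT.lf (nat_lit 5016) (nat_lit 6) (nat_lit 66) (nat_lit 1) (nat_lit 151) (nat_lit 94) (nat_lit 145)))))) (PT.nd (nat_lit 546) (PT.nd (nat_lit 234) (PT.nd (nat_lit 78) (PT.lf (nat_lit 5320) (nat_lit 6) (nat_lit 70) (nat_lit 3) (nat_lit 144) (nat_lit 95) (nat_lit 151)) (PT.nd (nat_lit 78) (PT.lf (nat_lit 5396) (nat_lit 6) (nat_lit 71) (nat_lit 3) (nat_lit 145) (nat_lit 95) (nat_lit 150)) (PT.lf (nat_lit 5472) (nat_lit 6) (nat_lit 72) (nat_lit 3) (nat_lit 146) (nat_lit 95) (nat_lit 149)))) (PT.nd (nat_lit 156) (PT.nd (nat_lit 78) (PT.lf (nat_lit 5548) (nat_lit 6) (nat_lit 73) (nat_lit 3) (nat_lit 147) (nat_lit 95) (nat_lit 148)) (PT.lf (nat_lit 5548) (nat_lit 6) (nat_lit 73) (nat_lit 1) (nat_lit 148) (nat_lit 95) (nat_lit 147))) (PT.nd (nat_lit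 78) (PT.lf (nat_lit 5472) (nat_lit 6) (nat_lit 72) (nat_lit 1) (nat_lit 149) (nat_lit 95) (nat_lit 146)) (PT.lf (nat_lit 5396) (nat_lit 6) (nat_lit 71) (nat_lit 1) (nat_lit 150) (nat_lit 95) (nat_lit 145))))) (PT.nd (nat_lit 40248) (PT.nd (nat_lit 40092) (PT.lf (nat_lit 5320) (nat_lit 6) (nat_lit 70) (nat_lit 1) (nat_lit 151) (nat_lit 95) (nat_lit 144)) (PT.nd (nat_lit 78) (PT.lf (nat_lit 5624) (nat_lit 6) (nat_lit 74) (nat_lit 3) (nat_lit 144) (nat_lit 96) (nat_lit 150)) (PT.lf (nat_lit 5700) (nat_lit 6) (nat_lit 75) (nat_lit 3) (nat_lit 145) (nat_lit 96) (nat_lit 149)))) (PT.nd (nat_lit 156) (PT.nd (nat_lit 78) (PT.lf (nat_lit 5776) (nat_lit 6) (nat_lit 76) (nat_lit 3) (nat_lit 146) (nat_lit 96) (nat_lit 148)) (PT.lf (nat_lit 5852) (nat_lit 3) (nat_lit 77) (nat_lit 1) (nat_lit 147) (nat_lit 96) (nat_lit 147))) (PT.nd (nat_lit 78) (PT.lf (nat_lit 5776) (nat_lit 6) (nat_lit 76) (nat_lit 1) (nat_lit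 148) (nat_lit 96) (nat_lit 146)) (PT.lf (nat_lit 5700) (nat_lit 6) (nat_lit 75) (nat_lit 1) (nat_lit 149) (nat_lit 96) (nat_lit 145))))))) (PT.nd (nat_lit 81042) (PT.nd (nat_lit 40560) (PT.nd (nat_lit 40248) (PT.nd (nat_lit 40092) (PT.lf (nat_lit 5624) (nat_lit 6) (nat_lit 74) (nat_lit 1) (nat_lit 150) (nat_lit 96) (nat_lit 144)) (PT.nd (nat_lit 78) (PT.lf (nat_lit 5928) (nat_lit 6) (nat_lit 78) (nat_lit 3) (nat_lit 143) (nat_lit 97) (nat_lit 150)) (PT.lf (nat_lit 6004) (nat_lit 6) (nat_lit 79) (nat_lit 3) (nat_lit 144) (nat_lit 97) (nat_lit 149)))) (PT.nd (nat_lit 156) (PT.nd (nat_lit 78) (PT.lf (nat_lit 6080) (nat_lit 6) (nat_lit 80) (nat_lit 3) (nat_lit 145) (nat_lit 97) (nat_lit 148)) (PT.lf (nat_lit 6156) (nat_lit 6) (nat_lit 81) (nat_lit 3) (nat_lit 146) (nat_lit 97) (nat_lit 147))) (PT.nd (nat_lit 78) (PT.lf (nat_lit 6156) (nat_lit 6) (nat_lit 81) (nat_lit 1) (nat_lit 147) (nat_lit 97)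 (nat_lit 146)) (PT.lf (nat_lit 6080) (nat_lit 6) (nat_lit 80) (nat_lit 1) (nat_lit 148) (nat_lit 97) (nat_lit 145))))) (PT.nd (nat_lit 40170) (PT.nd (nat_lit 78) (PT.lf (nat_lit 6004) (nat_lit 6) (nat_lit 79) (nat_lit 1) (nat_lit 149) (nat_lit 97) (nat_lit 144)) (PT.nd (nat_lit 40014) (PT.lf (nat_lit 5928) (nat_lit 6) (nat_lit 78) (nat_lit 1) (nat_lit 150) (nat_lit 97) (nat_lit 143)) (PT.lf (nat_lit 6232) (nat_lit 6) (nat_lit 82) (nat_lit 3) (nat_lit 142) (nat_lit 98) (nat_lit 150)))) (PT.nd (nat_lit 156) (PT.nd (nat_lit 78) (PT.lf (nat_lit 6308) (nat_lit 6) (nat_lit 83) (nat_lit 3) (nat_lit 143) (nat_lit 98) (nat_lit 149)) (PT.lf (nat_lit 6384) (nat_lit 6) (nat_lit 84) (nat_lit 3) (nat_lit 144) (nat_lit 98) (nat_lit 148))) (PT.nd (nat_lit 78) (PT.lf (nat_lit 6460) (nat_lit 6) (nat_lit 85) (nat_lit 3) (nat_lit 145) (nat_lit 98) (nat_lit 147)) (PT.lf (nat_lit 6536) (nat_lit 3) (nat_lit 86) (nat_lit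 1) (nat_lit 146) (nat_lit 98) (nat_lit 146)))))) (PT.nd (nat_lit 40482) (PT.nd (nat_lit 234) (PT.nd (nat_lit 78) (PT.lf (nat_lit 6460) (nat_lit 6) (nat_lit 85) (nat_lit 1) (nat_lit 147) (nat_lit 98) (nat_lit 145)) (PT.nd (nat_lit 78) (PT.lf (nat_lit 6384) (nat_lit 6) (nat_lit 84) (nat_lit 1) (nat_lit 148) (nat_lit 98) (nat_lit 144)) (PT.lf (nat_lit 6308) (nat_lit 6) (nat_lit 83) (nat_lit 1) (nat_lit 149) (nat_lit 98) (nat_lit 143)))) (PT.nd (nat_lit 40092) (PT.nd (nat_lit 40014) (PT.lf (nat_lit 6232) (nat_lit 6) (nat_lit 82) (nat_lit 1) (nat_lit 150) (nat_lit 98) (nat_lit 142)) (PT.lf (nat_lit 6612) (nat_lit 6) (nat_lit 87) (nat_lit 3) (nat_lit 142) (nat_lit 99) (nat_lit 149))) (PT.nd (nat_lit 78) (PT.lf (nat_lit 6688) (nat_lit 6) (nat_lit 88) (nat_lit 3) (nat_lit 143) (nat_lit 99) (nat_lit 148)) (PT.lf (nat_lit 6764) (nat_lit 6) (nat_lit 89) (nat_lit 3) (nat_lit 144) (nat_lit 99) (nat_lit 147)))))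 (PT.nd (nat_lit 234) (PT.nd (nat_lit 78) (PT.lf (nat_lit 6840) (nat_lit 6) (nat_lit 90) (nat_lit 3) (nat_lit 145) (nat_lit 99) (nat_lit 146)) (PT.nd (nat_lit 78) (PT.lf (nat_lit 6840) (nat_lit 6) (nat_lit 90) (nat_lit 1) (nat_lit 146) (nat_lit 99) (nat_lit 145)) (PT.lf (nat_lit 6764) (nat_lit 6) (nat_lit 89) (nat_lit 1) (nat_lit 147) (nat_lit 99) (nat_lit 144)))) (PT.nd (nat_lit 40092) (PT.nd (nat_lit 78) (PT.lf (nat_lit 6688) (nat_lit 6) (nat_lit 88) (nat_lit 1) (nat_lit 148) (nat_lit 99) (nat_lit 143)) (PT.lf (nat_lit 6612) (nat_lit 6) (nat_lit 87) (nat_lit 1) (nat_lit 149) (nat_lit 99) (nat_lit 142))) (PT.nd (nat_lit 78) (PT.lf (nat_lit 6916) (nat_lit 6) (nat_lit 91) (nat_lit 3) (nat_lit 141) (nat_lit 100) (nat_lit 149)) (PT.lf (nat_lit 6992) (nat_lit 6) (nat_lit 92) (nat_lit 3) (nat_lit 142) (nat_lit 100) (nat_lit 148))))))))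
noncomputable def pc3 : PT := (PT.nd (nat_lit 121680) (PT.nd (nat_lit 40872) (PT.nd (nat_lit 468) (PT.nd (nat_lit 234) (PT.nd (nat_lit 78) (PT.lf (nat_lit 7068) (nat_lit 6) (nat_lit 93) (nat_lit 3) (nat_lit 143) (nat_lit 100) (nat_lit 147)) (PT.nd (nat_lit 78) (PT.lf (nat_lit 7144) (nat_lit 6) (nat_lit 94) (nat_lit 3) (nat_lit 144) (nat_lit 100) (nat_lit 146)) (PT.lf (nat_lit 7220) (nat_lit 3) (nat_lit 95) (nat_lit 1) (nat_lit 145) (nat_lit 100) (nat_lit 145)))) (PT.nd (nat_lit 78) (PT.lf (nat_lit 7144) (nat_lit 6) (nat_lit 94) (nat_lit 1) (nat_lit 146) (nat_lit 100) (nat_lit 144)) (PT.nd (nat_lit 78) (PT.lf (nat_lit 7068) (nat_lit 6) (nat_lit 93) (nat_lit 1) (nat_lit 147) (nat_lit 100) (nat_lit 143)) (PT.lf (nat_lit 6992) (nat_lit 6) (nat_lit 92) (nat_lit 1) (nat_lit 148) (nat_lit 100) (nat_lit 142))))) (PT.nd (nat_lit 40092) (PT.nd (nat_lit 39936) (PT.lf (nat_lit 6916) (nat_lit 6) (nat_lit 91)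 (nat_lit 1) (nat_lit 149) (nat_lit 100) (nat_lit 141)) (PT.nd (nat_lit 78) (PT.lf (nat_lit 7296) (nat_lit 6) (nat_lit 96) (nat_lit 3) (nat_lit 140) (nat_lit 101) (nat_lit 149)) (PT.lf (nat_lit 7372) (nat_lit 6) (nat_lit 97) (nat_lit 3) (nat_lit 141) (nat_lit 101) (nat_lit 148)))) (PT.nd (nat_lit 156) (PT.nd (nat_lit 78) (PT.lf (nat_lit 7448) (nat_lit 6) (nat_lit 98) (nat_lit 3) (nat_lit 142) (nat_lit 101) (nat_lit 147)) (PT.lf (nat_lit 7524) (nat_lit 6) (nat_lit 99) (nat_lit 3) (nat_lit 143) (nat_lit 101) (nat_lit 146))) (PT.nd (nat_lit 78) (PT.lf (nat_lit 7600) (nat_lit 6) (nat_lit 100) (nat_lit 3) (nat_lit 144) (nat_lit 101) (nat_lit 145)) (PT.lf (nat_lit 7600) (nat_lit 6) (nat_lit 100) (nat_lit 1) (nat_lit 145) (nat_lit 101) (nat_lit 144)))))) (PT.nd (nat_lit 40404) (PT.nd (nat_lit 234) (PT.nd (nat_lit 78) (PT.lf (nat_lit 7524) (nat_lit 6) (nat_lit 99) (nat_lit 1) (nat_lit 146) (nat_lit 101)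 (nat_lit 143)) (PT.nd (nat_lit 78) (PT.lf (nat_lit 7448) (nat_lit 6) (nat_lit 98) (nat_lit 1) (nat_lit 147) (nat_lit 101) (nat_lit 142)) (PT.lf (nat_lit 7372) (nat_lit 6) (nat_lit 97) (nat_lit 1) (nat_lit 148) (nat_lit 101) (nat_lit 141)))) (PT.nd (nat_lit 40014) (PT.nd (nat_lit 39936) (PT.lf (nat_lit 7296) (nat_lit 6) (nat_lit 96) (nat_lit 1) (nat_lit 149) (nat_lit 101) (nat_lit 140)) (PT.lf (nat_lit 7676) (nat_lit 6) (nat_lit 101) (nat_lit 3) (nat_lit 140) (nat_lit 102) (nat_lit 148))) (PT.nd (nat_lit 78) (PT.lf (nat_lit 7752) (nat_lit 6) (nat_lit 102) (nat_lit 3) (nat_lit 141) (nat_lit 102) (nat_lit 147)) (PT.lf (nat_lit 7828) (nat_lit 6) (nat_lit 103) (nat_lit 3) (nat_lit 142) (nat_lit 102) (nat_lit 146))))) (PT.nd (nat_lit 234) (PT.nd (nat_lit 78) (PT.lf (nat_lit 7904) (nat_lit 6) (nat_lit 104) (nat_lit 3) (nat_lit 143) (nat_lit 102) (nat_lit 145)) (PT.nd (nat_lit 78) (PT.lf (nat_lit 7980)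 (nat_lit 3) (nat_lit 105) (nat_lit 1) (nat_lit 144) (nat_lit 102) (nat_lit 144)) (PT.lf (nat_lit 7904) (nat_lit 6) (nat_lit 104) (nat_lit 1) (nat_lit 145) (nat_lit 102) (nat_lit 143)))) (PT.nd (nat_lit 156) (PT.nd (nat_lit 78) (PT.lf (nat_lit 7828) (nat_lit 6) (nat_lit 103) (nat_lit 1) (nat_lit 146) (nat_lit 102) (nat_lit 142)) (PT.lf (nat_lit 7752) (nat_lit 6) (nat_lit 102) (nat_lit 1) (nat_lit 147) (nat_lit 102) (nat_lit 141))) (PT.nd (nat_lit 39936) (PT.lf (nat_lit 7676) (nat_lit 6) (nat_lit 101) (nat_lit 1) (nat_lit 148) (nat_lit 102) (nat_lit 140)) (PT.lf (nat_lit 8056) (nat_lit 6) (nat_lit 106) (nat_lit 3) (nat_lit 139) (nat_lit 103) (nat_lit 148))))))) (PT.nd (nat_lit 40872) (PT.nd (nat_lit 546) (PT.nd (nat_lit 234) (PT.nd (nat_lit 78) (PT.lf (nat_lit 8132) (nat_lit 6) (nat_lit 107) (nat_lit 3) (nat_lit 140) (nat_lit 103) (nat_lit 147)) (PT.nd (nat_lit 78) (PT.lf (nat_lit 8208) (nat_lit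 6) (nat_lit 108) (nat_lit 3) (nat_lit 141) (nat_lit 103) (nat_lit 146)) (PT.lf (nat_lit 8284) (nat_lit 6) (nat_lit 109) (nat_lit 3) (nat_lit 142) (nat_lit 103) (nat_lit 145)))) (PT.nd (nat_lit 156) (PT.nd (nat_lit 78) (PT.lf (nat_lit 8360) (nat_lit 6) (nat_lit 110) (nat_lit 3) (nat_lit 143) (nat_lit 103) (nat_lit 144)) (PT.lf (nat_lit 8360) (nat_lit 6) (nat_lit 110) (nat_lit 1) (nat_lit 144) (nat_lit 103) (nat_lit 143))) (PT.nd (nat_lit 78) (PT.lf (nat_lit 8284) (nat_lit 6) (nat_lit 109) (nat_lit 1) (nat_lit 145) (nat_lit 103) (nat_lit 142)) (PT.lf (nat_lit 8208) (nat_lit 6) (nat_lit 108) (nat_lit 1) (nat_lit 146) (nat_lit 103) (nat_lit 141))))) (PT.nd (nat_lit 40014) (PT.nd (nat_lit 78) (PT.lf (nat_lit 8132) (nat_lit 6) (nat_lit 107) (nat_lit 1) (nat_lit 147) (nat_lit 103) (nat_lit 140)) (PT.nd (nat_lit 39858) (PT.lf (nat_lit 8056) (nat_lit 6) (nat_lit 106) (nat_lit 1) (nat_lit 148) (nat_lit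 103) (nat_lit 139)) (PT.lf (nat_lit 8436) (nat_lit 6) (nat_lit 111) (nat_lit 3) (nat_lit 138) (nat_lit 104) (nat_lit 148)))) (PT.nd (nat_lit 156) (PT.nd (nat_lit 78) (PT.lf (nat_lit 8512) (nat_lit 6) (nat_lit 112) (nat_lit 3) (nat_lit 139) (nat_lit 104) (nat_lit 147)) (PT.lf (nat_lit 8588) (nat_lit 6) (nat_lit 113) (nat_lit 3) (nat_lit 140) (nat_lit 104) (nat_lit 146))) (PT.nd (nat_lit 78) (PT.lf (nat_lit 8664) (nat_lit 6) (nat_lit 114) (nat_lit 3) (nat_lit 141) (nat_lit 104) (nat_lit 145)) (PT.lf (nat_lit 8740) (nat_lit 6) (nat_lit 115) (nat_lit 3) (nat_lit 142) (nat_lit 104) (nat_lit 144)))))) (PT.nd (nat_lit 40326) (PT.nd (nat_lit 234) (PT.nd (nat_lit 78) (PT.lf (nat_lit 8816) (nat_lit 3) (nat_lit 116) (nat_lit 1) (nat_lit 143) (nat_lit 104) (nat_lit 143)) (PT.nd (nat_lit 78) (PT.lf (nat_lit 8740) (nat_lit 6) (nat_lit 115) (nat_lit 1) (nat_lit 144) (nat_lit 104) (nat_lit 142)) (PT.lf (nat_lit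 8664) (nat_lit 6) (nat_lit 114) (nat_lit 1) (nat_lit 145) (nat_lit 104) (nat_lit 141)))) (PT.nd (nat_lit 156) (PT.nd (nat_lit 78) (PT.lf (nat_lit 8588) (nat_lit 6) (nat_lit 113) (nat_lit 1) (nat_lit 146) (nat_lit 104) (nat_lit 140)) (PT.lf (nat_lit 8512) (nat_lit 6) (nat_lit 112) (nat_lit 1) (nat_lit 147) (nat_lit 104) (nat_lit 139))) (PT.nd (nat_lit 39858) (PT.lf (nat_lit 8436) (nat_lit 6) (nat_lit 111) (nat_lit 1) (nat_lit 148) (nat_lit 104) (nat_lit 138)) (PT.lf (nat_lit 8892) (nat_lit 6) (nat_lit 117) (nat_lit 3) (nat_lit 138) (nat_lit 105) (nat_lit 147))))) (PT.nd (nat_lit 234) (PT.nd (nat_lit 78) (PT.lf (nat_lit 8968) (nat_lit 6) (nat_lit 118) (nat_lit 3) (nat_lit 139) (nat_lit 105) (nat_lit 146)) (PT.nd (nat_lit 78) (PT.lf (nat_lit 9044) (nat_lit 6) (nat_lit 119) (nat_lit 3) (nat_lit 140) (nat_lit 105) (nat_lit 145)) (PT.lf (nat_lit 9120) (nat_lit 6) (nat_lit 120) (nat_lit 3) (nat_lit 141)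 (nat_lit 105) (nat_lit 144)))) (PT.nd (nat_lit 156) (PT.nd (nat_lit 78) (PT.lf (nat_lit 9196) (nat_lit 6) (nat_lit 121) (nat_lit 3) (nat_lit 142) (nat_lit 105) (nat_lit 143)) (PT.lf (nat_lit 9196) (nat_lit 6) (nat_lit 121) (nat_lit 1) (nat_lit 143) (nat_lit 105) (nat_lit 142))) (PT.nd (nat_lit 78) (PT.lf (nat_lit 9120) (nat_lit 6) (nat_lit 120) (nat_lit 1) (nat_lit 144) (nat_lit 105) (nat_lit 141)) (PT.lf (nat_lit 9044) (nat_lit 6) (nat_lit 119) (nat_lit 1) (nat_lit 145) (nat_lit 105) (nat_lit 140))))))))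
noncomputable def pc4 : PT := (PT.nd (nat_lit 121212) (PT.nd (nat_lit 80496) (PT.nd (nat_lit 40248) (PT.nd (nat_lit 40014) (PT.nd (nat_lit 78) (PT.lf (nat_lit 8968) (nat_lit 6) (nat_lit 118) (nat_lit 1) (nat_lit 146) (nat_lit 105) (nat_lit 139)) (PT.nd (nat_lit 39858) (PT.lf (nat_lit 8892) (nat_lit 6) (nat_lit 117) (nat_lit 1) (nat_lit 147) (nat_lit 105) (nat_lit 138)) (PT.lf (nat_lit 9272) (nat_lit 6) (nat_lit 122) (nat_lit 3) (nat_lit 137) (nat_lit 106) (nat_lit 147)))) (PT.nd (nat_lit 78) (PT.lf (nat_lit 9348) (nat_lit 6) (nat_lit 123) (nat_lit 3) (nat_lit 138) (nat_lit 106) (nat_lit 146)) (PT.nd (nat_lit 78) (PT.lf (nat_lit 9424) (nat_lit 6) (nat_lit 124) (nat_lit 3) (nat_lit 139) (nat_lit 106) (nat_lit 145)) (PT.lf (nat_lit 9500) (nat_lit 6) (nat_lit 125) (nat_lit 3) (nat_lit 140) (nat_lit 106) (nat_lit 144))))) (PT.nd (nat_lit 234) (PT.nd (nat_lit 78) (PT.lf (nat_lit 9576) (nat_lit 6) (nat_lit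 126) (nat_lit 3) (nat_lit 141) (nat_lit 106) (nat_lit 143)) (PT.nd (nat_lit 78) (PT.lf (nat_lit 9652) (nat_lit 3) (nat_lit 127) (nat_lit 1) (nat_lit 142) (nat_lit 106) (nat_lit 142)) (PT.lf (nat_lit 9576) (nat_lit 6) (nat_lit 126) (nat_lit 1) (nat_lit 143) (nat_lit 106) (nat_lit 141)))) (PT.nd (nat_lit 156) (PT.nd (nat_lit 78) (PT.lf (nat_lit 9500) (nat_lit 6) (nat_lit 125) (nat_lit 1) (nat_lit 144) (nat_lit 106) (nat_lit 140)) (PT.lf (nat_lit 9424) (nat_lit 6) (nat_lit 124) (nat_lit 1) (nat_lit 145) (nat_lit 106) (nat_lit 139))) (PT.nd (nat_lit 78) (PT.lf (nat_lit 9348) (nat_lit 6) (nat_lit 123) (nat_lit 1) (nat_lit 146) (nat_lit 106) (nat_lit 138)) (PT.lf (nat_lit 9272) (nat_lit 6) (nat_lit 122) (nat_lit 1) (nat_lit 147) (nat_lit 106) (nat_lit 137)))))) (PT.nd (nat_lit 546) (PT.nd (nat_lit 234) (PT.nd (nat_lit 78) (PT.lf (nat_lit 9728) (nat_lit 6) (nat_lit 128) (nat_lit 3) (nat_lit 136) (nat_lit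 107) (nat_lit 147)) (PT.nd (nat_lit 78) (PT.lf (nat_lit 9804) (nat_lit 6) (nat_lit 129) (nat_lit 3) (nat_lit 137) (nat_lit 107) (nat_lit 146)) (PT.lf (nat_lit 9880) (nat_lit 6) (nat_lit 130) (nat_lit 3) (nat_lit 138) (nat_lit 107) (nat_lit 145)))) (PT.nd (nat_lit 156) (PT.nd (nat_lit 78) (PT.lf (nat_lit 9956) (nat_lit 6) (nat_lit 131) (nat_lit 3) (nat_lit 139) (nat_lit 107) (nat_lit 144)) (PT.lf (nat_lit 10032) (nat_lit 6) (nat_lit 132) (nat_lit 3) (nat_lit 140) (nat_lit 107) (nat_lit 143))) (PT.nd (nat_lit 78) (PT.lf (nat_lit 10108) (nat_lit 6) (nat_lit 133) (nat_lit 3) (nat_lit 141) (nat_lit 107) (nat_lit 142)) (PT.lf (nat_lit 10108) (nat_lit 6) (nat_lit 133) (nat_lit 1) (nat_lit 142) (nat_lit 107) (nat_lit 141))))) (PT.nd (nat_lit 234) (PT.nd (nat_lit 78) (PT.lf (nat_lit 10032) (nat_lit 6) (nat_lit 132) (nat_lit 1) (nat_lit 143) (nat_lit 107) (nat_lit 140)) (PT.nd (nat_lit 78) (PT.lf (nat_lit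 9956) (nat_lit 6) (nat_lit 131) (nat_lit 1) (nat_lit 144) (nat_lit 107) (nat_lit 139)) (PT.lf (nat_lit 9880) (nat_lit 6) (nat_lit 130) (nat_lit 1) (nat_lit 145) (nat_lit 107) (nat_lit 138)))) (PT.nd (nat_lit 39780) (PT.nd (nat_lit 78) (PT.lf (nat_lit 9804) (nat_lit 6) (nat_lit 129) (nat_lit 1) (nat_lit 146) (nat_lit 107) (nat_lit 137)) (PT.lf (nat_lit 9728) (nat_lit 6) (nat_lit 128) (nat_lit 1) (nat_lit 147) (nat_lit 107) (nat_lit 136))) (PT.nd (nat_lit 78) (PT.lf (nat_lit 10184) (nat_lit 6) (nat_lit 134) (nat_lit 3) (nat_lit 135) (nat_lit 108) (nat_lit 147)) (PT.lf (nat_lit 10260) (nat_lit 6) (nat_lit 135) (nat_lit 3) (nat_lit 136) (nat_lit 108) (nat_lit 146))))))) (PT.nd (nat_lit 40638) (PT.nd (nat_lit 546) (PT.nd (nat_lit 234) (PT.nd (nat_lit 78) (PT.lf (nat_lit 10336) (nat_lit 6) (nat_lit 136) (nat_lit 3) (nat_lit 137) (nat_lit 108) (nat_lit 145)) (PT.nd (nat_lit 78) (PT.lf (nat_lit 10412)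 (nat_lit 6) (nat_lit 137) (nat_lit 3) (nat_lit 138) (nat_lit 108) (nat_lit 144)) (PT.lf (nat_lit 10488) (nat_lit 6) (nat_lit 138) (nat_lit 3) (nat_lit 139) (nat_lit 108) (nat_lit 143)))) (PT.nd (nat_lit 156) (PT.nd (nat_lit 78) (PT.lf (nat_lit 10564) (nat_lit 6) (nat_lit 139) (nat_lit 3) (nat_lit 140) (nat_lit 108) (nat_lit 142)) (PT.lf (nat_lit 10640) (nat_lit 3) (nat_lit 140) (nat_lit 1) (nat_lit 141) (nat_lit 108) (nat_lit 141))) (PT.nd (nat_lit 78) (PT.lf (nat_lit 10564) (nat_lit 6) (nat_lit 139) (nat_lit 1) (nat_lit 142) (nat_lit 108) (nat_lit 140)) (PT.lf (nat_lit 10488) (nat_lit 6) (nat_lit 138) (nat_lit 1) (nat_lit 143) (nat_lit 108) (nat_lit 139))))) (PT.nd (nat_lit 234) (PT.nd (nat_lit 78) (PT.lf (nat_lit 10412) (nat_lit 6) (nat_lit 137) (nat_lit 1) (nat_lit 144) (nat_lit 108) (nat_lit 138)) (PT.nd (nat_lit 78) (PT.lf (nat_lit 10336) (nat_lit 6) (nat_lit 136) (nat_lit 1) (nat_lit 145)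 (nat_lit 108) (nat_lit 137)) (PT.lf (nat_lit 10260) (nat_lit 6) (nat_lit 135) (nat_lit 1) (nat_lit 146) (nat_lit 108) (nat_lit 136)))) (PT.nd (nat_lit 39702) (PT.nd (nat_lit 39624) (PT.lf (nat_lit 10184) (nat_lit 6) (nat_lit 134) (nat_lit 1) (nat_lit 147) (nat_lit 108) (nat_lit 135)) (PT.lf (nat_lit 10716) (nat_lit 6) (nat_lit 141) (nat_lit 3) (nat_lit 134) (nat_lit 109) (nat_lit 147))) (PT.nd (nat_lit 78) (PT.lf (nat_lit 10792) (nat_lit 6) (nat_lit 142) (nat_lit 3) (nat_lit 135) (nat_lit 109) (nat_lit 146)) (PT.lf (nat_lit 10868) (nat_lit 6) (nat_lit 143) (nat_lit 3) (nat_lit 136) (nat_lit 109) (nat_lit 145)))))) (PT.nd (nat_lit 546) (PT.nd (nat_lit 234) (PT.nd (nat_lit 78) (PT.lf (nat_lit 10944) (nat_lit 6) (nat_lit 144) (nat_lit 3) (nat_lit 137) (nat_lit 109) (nat_lit 144)) (PT.nd (nat_lit 78) (PT.lf (nat_lit 11020) (nat_lit 6) (nat_lit 145) (nat_lit 3) (nat_lit 138) (nat_lit 109) (nat_lit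 143)) (PT.lf (nat_lit 11096) (nat_lit 6) (nat_lit 146) (nat_lit 3) (nat_lit 139) (nat_lit 109) (nat_lit 142)))) (PT.nd (nat_lit 156) (PT.nd (nat_lit 78) (PT.lf (nat_lit 11172) (nat_lit 6) (nat_lit 147) (nat_lit 3) (nat_lit 140) (nat_lit 109) (nat_lit 141)) (PT.lf (nat_lit 11172) (nat_lit 6) (nat_lit 147) (nat_lit 1) (nat_lit 141) (nat_lit 109) (nat_lit 140))) (PT.nd (nat_lit 78) (PT.lf (nat_lit 11096) (nat_lit 6) (nat_lit 146) (nat_lit 1) (nat_lit 142) (nat_lit 109) (nat_lit 139)) (PT.lf (nat_lit 11020) (nat_lit 6) (nat_lit 145) (nat_lit 1) (nat_lit 143) (nat_lit 109) (nat_lit 138))))) (PT.nd (nat_lit 234) (PT.nd (nat_lit 78) (PT.lf (nat_lit 10944) (nat_lit 6) (nat_lit 144) (nat_lit 1) (nat_lit 144) (nat_lit 109) (nat_lit 137)) (PT.nd (nat_lit 78) (PT.lf (nat_lit 10868) (nat_lit 6) (nat_lit 143) (nat_lit 1) (nat_lit 145) (nat_lit 109) (nat_lit 136)) (PT.lf (nat_lit 10792) (nat_lit 6) (nat_lit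 142) (nat_lit 1) (nat_lit 146) (nat_lit 109) (nat_lit 135)))) (PT.nd (nat_lit 39702) (PT.nd (nat_lit 39624) (PT.lf (nat_lit 10716) (nat_lit 6) (nat_lit 141) (nat_lit 1) (nat_lit 147) (nat_lit 109) (nat_lit 134)) (PT.lf (nat_lit 11248) (nat_lit 6) (nat_lit 148) (nat_lit 3) (nat_lit 134) (nat_lit 110) (nat_lit 146))) (PT.nd (nat_lit 78) (PT.lf (nat_lit 11324) (nat_lit 6) (nat_lit 149) (nat_lit 3) (nat_lit 135) (nat_lit 110) (nat_lit 145)) (PT.lf (nat_lit 11400) (nat_lit 6) (nat_lit 150) (nat_lit 3) (nat_lit 136) (nat_lit 110) (nat_lit 144))))))))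
noncomputable def pc5 : PT := (PT.nd (nat_lit 81120) (PT.nd (nat_lit 40560) (PT.nd (nat_lit 468) (PT.nd (nat_lit 234) (PT.nd (nat_lit 78) (PT.lf (nat_lit 11476) (nat_lit 6) (nat_lit 151) (nat_lit 3) (nat_lit 137) (nat_lit 110) (nat_lit 143)) (PT.nd (nat_lit 78) (PT.lf (nat_lit 11552) (nat_lit 6) (nat_lit 152) (nat_lit 3) (nat_lit 138) (nat_lit 110) (nat_lit 142)) (PT.lf (nat_lit 11628) (nat_lit 6) (nat_lit 153) (nat_lit 3) (nat_lit 139) (nat_lit 110) (nat_lit 141)))) (PT.nd (nat_lit 78) (PT.lf (nat_lit 11704) (nat_lit 3) (nat_lit 154) (nat_lit 1) (nat_lit 140) (nat_lit 110) (nat_lit 140)) (PT.nd (nat_lit 78) (PT.lf (nat_lit 11628) (nat_lit 6) (nat_lit 153) (nat_lit 1) (nat_lit 141) (nat_lit 110) (nat_lit 139)) (PT.lf (nat_lit 11552) (nat_lit 6) (nat_lit 152) (nat_lit 1) (nat_lit 142) (nat_lit 110) (nat_lit 138))))) (PT.nd (nat_lit 234) (PT.nd (nat_lit 78) (PT.lf (nat_lit 11476) (nat_lit 6) (nat_lit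 151) (nat_lit 1) (nat_lit 143) (nat_lit 110) (nat_lit 137)) (PT.nd (nat_lit 78) (PT.lf (nat_lit 11400) (nat_lit 6) (nat_lit 150) (nat_lit 1) (nat_lit 144) (nat_lit 110) (nat_lit 136)) (PT.lf (nat_lit 11324) (nat_lit 6) (nat_lit 149) (nat_lit 1) (nat_lit 145) (nat_lit 110) (nat_lit 135)))) (PT.nd (nat_lit 39702) (PT.nd (nat_lit 39624) (PT.lf (nat_lit 11248) (nat_lit 6) (nat_lit 148) (nat_lit 1) (nat_lit 146) (nat_lit 110) (nat_lit 134)) (PT.lf (nat_lit 11780) (nat_lit 6) (nat_lit 155) (nat_lit 3) (nat_lit 133) (nat_lit 111) (nat_lit 146))) (PT.nd (nat_lit 78) (PT.lf (nat_lit 11856) (nat_lit 6) (nat_lit 156) (nat_lit 3) (nat_lit 134) (nat_lit 111) (nat_lit 145)) (PT.lf (nat_lit 11932) (nat_lit 6) (nat_lit 157) (nat_lit 3) (nat_lit 135) (nat_lit 111) (nat_lit 144)))))) (PT.nd (nat_lit 546) (PT.nd (nat_lit 234) (PT.nd (nat_lit 78) (PT.lf (nat_lit 12008) (nat_lit 6) (nat_lit 158) (nat_lit 3) (nat_lit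 136) (nat_lit 111) (nat_lit 143)) (PT.nd (nat_lit 78) (PT.lf (nat_lit 12084) (nat_lit 6) (nat_lit 159) (nat_lit 3) (nat_lit 137) (nat_lit 111) (nat_lit 142)) (PT.lf (nat_lit 12160) (nat_lit 6) (nat_lit 160) (nat_lit 3) (nat_lit 138) (nat_lit 111) (nat_lit 141)))) (PT.nd (nat_lit 156) (PT.nd (nat_lit 78) (PT.lf (nat_lit 12236) (nat_lit 6) (nat_lit 161) (nat_lit 3) (nat_lit 139) (nat_lit 111) (nat_lit 140)) (PT.lf (nat_lit 12236) (nat_lit 6) (nat_lit 161) (nat_lit 1) (nat_lit 140) (nat_lit 111) (nat_lit 139))) (PT.nd (nat_lit 78) (PT.lf (nat_lit 12160) (nat_lit 6) (nat_lit 160) (nat_lit 1) (nat_lit 141) (nat_lit 111) (nat_lit 138)) (PT.lf (nat_lit 12084) (nat_lit 6) (nat_lit 159) (nat_lit 1) (nat_lit 142) (nat_lit 111) (nat_lit 137))))) (PT.nd (nat_lit 234) (PT.nd (nat_lit 78) (PT.lf (nat_lit 12008) (nat_lit 6) (nat_lit 158) (nat_lit 1) (nat_lit 143) (nat_lit 111) (nat_lit 136)) (PT.nd (nat_lit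 78) (PT.lf (nat_lit 11932) (nat_lit 6) (nat_lit 157) (nat_lit 1) (nat_lit 144) (nat_lit 111) (nat_lit 135)) (PT.lf (nat_lit 11856) (nat_lit 6) (nat_lit 156) (nat_lit 1) (nat_lit 145) (nat_lit 111) (nat_lit 134)))) (PT.nd (nat_lit 39624) (PT.nd (nat_lit 39546) (PT.lf (nat_lit 11780) (nat_lit 6) (nat_lit 155) (nat_lit 1) (nat_lit 146) (nat_lit 111) (nat_lit 133)) (PT.lf (nat_lit 12312) (nat_lit 6) (nat_lit 162) (nat_lit 3) (nat_lit 132) (nat_lit 112) (nat_lit 146))) (PT.nd (nat_lit 78) (PT.lf (nat_lit 12388) (nat_lit 6) (nat_lit 163) (nat_lit 3) (nat_lit 133) (nat_lit 112) (nat_lit 145)) (PT.lf (nat_lit 12464) (nat_lit 6) (nat_lit 164) (nat_lit 3) (nat_lit 134) (nat_lit 112) (nat_lit 144))))))) (PT.nd (nat_lit 40482) (PT.nd (nat_lit 546) (PT.nd (nat_lit 234) (PT.nd (nat_lit 78) (PT.lf (nat_lit 12540) (nat_lit 6) (nat_lit 165) (nat_lit 3) (nat_lit 135) (nat_lit 112) (nat_lit 143)) (PT.nd (nat_lit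 78) (PT.lf (nat_lit 12616) (nat_lit 6) (nat_lit 166) (nat_lit 3) (nat_lit 136) (nat_lit 112) (nat_lit 142)) (PT.lf (nat_lit 12692) (nat_lit 6) (nat_lit 167) (nat_lit 3) (nat_lit 137) (nat_lit 112) (nat_lit 141)))) (PT.nd (nat_lit 156) (PT.nd (nat_lit 78) (PT.lf (nat_lit 12768) (nat_lit 6) (nat_lit 168) (nat_lit 3) (nat_lit 138) (nat_lit 112) (nat_lit 140)) (PT.lf (nat_lit 12844) (nat_lit 3) (nat_lit 169) (nat_lit 1) (nat_lit 139) (nat_lit 112) (nat_lit 139))) (PT.nd (nat_lit 78) (PT.lf (nat_lit 12768) (nat_lit 6) (nat_lit 168) (nat_lit 1) (nat_lit 140) (nat_lit 112) (nat_lit 138)) (PT.lf (nat_lit 12692) (nat_lit 6) (nat_lit 167) (nat_lit 1) (nat_lit 141) (nat_lit 112) (nat_lit 137))))) (PT.nd (nat_lit 234) (PT.nd (nat_lit 78) (PT.lf (nat_lit 12616) (nat_lit 6) (nat_lit 166) (nat_lit 1) (nat_lit 142) (nat_lit 112) (nat_lit 136)) (PT.nd (nat_lit 78) (PT.lf (nat_lit 12540) (nat_lit 6) (nat_lit 165)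 (nat_lit 1) (nat_lit 143) (nat_lit 112) (nat_lit 135)) (PT.lf (nat_lit 12464) (nat_lit 6) (nat_lit 164) (nat_lit 1) (nat_lit 144) (nat_lit 112) (nat_lit 134)))) (PT.nd (nat_lit 39546) (PT.nd (nat_lit 78) (PT.lf (nat_lit 12388) (nat_lit 6) (nat_lit 163) (nat_lit 1) (nat_lit 145) (nat_lit 112) (nat_lit 133)) (PT.lf (nat_lit 12312) (nat_lit 6) (nat_lit 162) (nat_lit 1) (nat_lit 146) (nat_lit 112) (nat_lit 132))) (PT.nd (nat_lit 78) (PT.lf (nat_lit 12920) (nat_lit 6) (nat_lit 170) (nat_lit 3) (nat_lit 131) (nat_lit 113) (nat_lit 146)) (PT.lf (nat_lit 12996) (nat_lit 6) (nat_lit 171) (nat_lit 3) (nat_lit 132) (nat_lit 113) (nat_lit 145)))))) (PT.nd (nat_lit 546) (PT.nd (nat_lit 234) (PT.nd (nat_lit 78) (PT.lf (nat_lit 13072) (nat_lit 6) (nat_lit 172) (nat_lit 3) (nat_lit 133) (nat_lit 113) (nat_lit 144)) (PT.nd (nat_lit 78) (PT.lf (nat_lit 13148) (nat_lit 6) (nat_lit 173) (nat_lit 3) (nat_lit 134)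 (nat_lit 113) (nat_lit 143)) (PT.lf (nat_lit 13224) (nat_lit 6) (nat_lit 174) (nat_lit 3) (nat_lit 135) (nat_lit 113) (nat_lit 142)))) (PT.nd (nat_lit 156) (PT.nd (nat_lit 78) (PT.lf (nat_lit 13300) (nat_lit 6) (nat_lit 175) (nat_lit 3) (nat_lit 136) (nat_lit 113) (nat_lit 141)) (PT.lf (nat_lit 13376) (nat_lit 6) (nat_lit 176) (nat_lit 3) (nat_lit 137) (nat_lit 113) (nat_lit 140))) (PT.nd (nat_lit 78) (PT.lf (nat_lit 13452) (nat_lit 6) (nat_lit 177) (nat_lit 3) (nat_lit 138) (nat_lit 113) (nat_lit 139)) (PT.lf (nat_lit 13452) (nat_lit 6) (nat_lit 177) (nat_lit 1) (nat_lit 139) (nat_lit 113) (nat_lit 138))))) (PT.nd (nat_lit 234) (PT.nd (nat_lit 78) (PT.lf (nat_lit 13376) (nat_lit 6) (nat_lit 176) (nat_lit 1) (nat_lit 140) (nat_lit 113) (nat_lit 137)) (PT.nd (nat_lit 78) (PT.lf (nat_lit 13300) (nat_lit 6) (nat_lit 175) (nat_lit 1) (nat_lit 141) (nat_lit 113) (nat_lit 136)) (PT.lf (nat_lit 13224)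 (nat_lit 6) (nat_lit 174) (nat_lit 1) (nat_lit 142) (nat_lit 113) (nat_lit 135)))) (PT.nd (nat_lit 156) (PT.nd (nat_lit 78) (PT.lf (nat_lit 13148) (nat_lit 6) (nat_lit 173) (nat_lit 1) (nat_lit 143) (nat_lit 113) (nat_lit 134)) (PT.lf (nat_lit 13072) (nat_lit 6) (nat_lit 172) (nat_lit 1) (nat_lit 144) (nat_lit 113) (nat_lit 133))) (PT.nd (nat_lit 78) (PT.lf (nat_lit 12996) (nat_lit 6) (nat_lit 171) (nat_lit 1) (nat_lit 145) (nat_lit 113) (nat_lit 132)) (PT.lf (nat_lit 12920) (nat_lit 6) (nat_lit 170) (nat_lit 1) (nat_lit 146) (nat_lit 113) (nat_lit 131))))))))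
noncomputable def pc6 : PT := (PT.nd (nat_lit 41418) (PT.nd (nat_lit 1014) (PT.nd (nat_lit 468) (PT.nd (nat_lit 234) (PT.nd (nat_lit 78) (PT.lf (nat_lit 13528) (nat_lit 6) (nat_lit 178) (nat_lit 3) (nat_lit 130) (nat_lit 114) (nat_lit 146)) (PT.nd (nat_lit 78) (PT.lf (nat_lit 13604) (nat_lit 6) (nat_lit 179) (nat_lit 3) (nat_lit 131) (nat_lit 114) (nat_lit 145)) (PT.lf (nat_lit 13680) (nat_lit 6) (nat_lit 180) (nat_lit 3) (nat_lit 132) (nat_lit 114) (nat_lit 144)))) (PT.nd (nat_lit 78) (PT.lf (nat_lit 13756) (nat_lit 6) (nat_lit 181) (nat_lit 3) (nat_lit 133) (nat_lit 114) (nat_lit 143)) (PT.nd (nat_lit 78) (PT.lf (nat_lit 13832) (nat_lit 6) (nat_lit 182) (nat_lit 3) (nat_lit 134) (nat_lit 114) (nat_lit 142)) (PT.lf (nat_lit 13908) (nat_lit 6) (nat_lit 183) (nat_lit 3) (nat_lit 135) (nat_lit 114) (nat_lit 141))))) (PT.nd (nat_lit 234) (PT.nd (nat_lit 78) (PT.lf (nat_lit 13984) (nat_lit 6) (nat_lit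 184) (nat_lit 3) (nat_lit 136) (nat_lit 114) (nat_lit 140)) (PT.nd (nat_lit 78) (PT.lf (nat_lit 14060) (nat_lit 6) (nat_lit 185) (nat_lit 3) (nat_lit 137) (nat_lit 114) (nat_lit 139)) (PT.lf (nat_lit 14136) (nat_lit 3) (nat_lit 186) (nat_lit 1) (nat_lit 138) (nat_lit 114) (nat_lit 138)))) (PT.nd (nat_lit 156) (PT.nd (nat_lit 78) (PT.lf (nat_lit 14060) (nat_lit 6) (nat_lit 185) (nat_lit 1) (nat_lit 139) (nat_lit 114) (nat_lit 137)) (PT.lf (nat_lit 13984) (nat_lit 6) (nat_lit 184) (nat_lit 1) (nat_lit 140) (nat_lit 114) (nat_lit 136))) (PT.nd (nat_lit 78) (PT.lf (nat_lit 13908) (nat_lit 6) (nat_lit 183) (nat_lit 1) (nat_lit 141) (nat_lit 114) (nat_lit 135)) (PT.lf (nat_lit 13832) (nat_lit 6) (nat_lit 182) (nat_lit 1) (nat_lit 142) (nat_lit 114) (nat_lit 134)))))) (PT.nd (nat_lit 39858) (PT.nd (nat_lit 234) (PT.nd (nat_lit 78) (PT.lf (nat_lit 13756) (nat_lit 6) (nat_lit 181) (nat_lit 1) (nat_lit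 143) (nat_lit 114) (nat_lit 133)) (PT.nd (nat_lit 78) (PT.lf (nat_lit 13680) (nat_lit 6) (nat_lit 180) (nat_lit 1) (nat_lit 144) (nat_lit 114) (nat_lit 132)) (PT.lf (nat_lit 13604) (nat_lit 6) (nat_lit 179) (nat_lit 1) (nat_lit 145) (nat_lit 114) (nat_lit 131)))) (PT.nd (nat_lit 39468) (PT.nd (nat_lit 39390) (PT.lf (nat_lit 13528) (nat_lit 6) (nat_lit 178) (nat_lit 1) (nat_lit 146) (nat_lit 114) (nat_lit 130)) (PT.lf (nat_lit 14744) (nat_lit 6) (nat_lit 194) (nat_lit 3) (nat_lit 130) (nat_lit 115) (nat_lit 145))) (PT.nd (nat_lit 78) (PT.lf (nat_lit 14820) (nat_lit 6) (nat_lit 195) (nat_lit 3) (nat_lit 131) (nat_lit 115) (nat_lit 144)) (PT.lf (nat_lit 14896) (nat_lit 6) (nat_lit 196) (nat_lit 3) (nat_lit 132) (nat_lit 115) (nat_lit 143))))) (PT.nd (nat_lit 234) (PT.nd (nat_lit 78) (PT.lf (nat_lit 14972) (nat_lit 6) (nat_lit 197) (nat_lit 3) (nat_lit 133) (nat_lit 115) (nat_lit 142)) (PT.nd (nat_lit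 78) (PT.lf (nat_lit 15048) (nat_lit 6) (nat_lit 198) (nat_lit 3) (nat_lit 134) (nat_lit 115) (nat_lit 141)) (PT.lf (nat_lit 15124) (nat_lit 6) (nat_lit 199) (nat_lit 3) (nat_lit 135) (nat_lit 115) (nat_lit 140)))) (PT.nd (nat_lit 156) (PT.nd (nat_lit 78) (PT.lf (nat_lit 15200) (nat_lit 6) (nat_lit 200) (nat_lit 3) (nat_lit 136) (nat_lit 115) (nat_lit 139)) (PT.lf (nat_lit 15276) (nat_lit 6) (nat_lit 201) (nat_lit 3) (nat_lit 137) (nat_lit 115) (nat_lit 138))) (PT.nd (nat_lit 78) (PT.lf (nat_lit 15276) (nat_lit 6) (nat_lit 201) (nat_lit 1) (nat_lit 138) (nat_lit 115) (nat_lit 137)) (PT.lf (nat_lit 15200) (nat_lit 6) (nat_lit 200) (nat_lit 1) (nat_lit 139) (nat_lit 115) (nat_lit 136))))))) (PT.nd (nat_lit 40404) (PT.nd (nat_lit 39858) (PT.nd (nat_lit 234) (PT.nd (nat_lit 78) (PT.lf (nat_lit 15124) (nat_lit 6) (nat_lit 199) (nat_lit 1) (nat_lit 140) (nat_lit 115) (nat_lit 135)) (PT.nd (nat_lit 78)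 (PT.lf (nat_lit 15048) (nat_lit 6) (nat_lit 198) (nat_lit 1) (nat_lit 141) (nat_lit 115) (nat_lit 134)) (PT.lf (nat_lit 14972) (nat_lit 6) (nat_lit 197) (nat_lit 1) (nat_lit 142) (nat_lit 115) (nat_lit 133)))) (PT.nd (nat_lit 156) (PT.nd (nat_lit 78) (PT.lf (nat_lit 14896) (nat_lit 6) (nat_lit 196) (nat_lit 1) (nat_lit 143) (nat_lit 115) (nat_lit 132)) (PT.lf (nat_lit 14820) (nat_lit 6) (nat_lit 195) (nat_lit 1) (nat_lit 144) (nat_lit 115) (nat_lit 131))) (PT.nd (nat_lit 39390) (PT.lf (nat_lit 14744) (nat_lit 6) (nat_lit 194) (nat_lit 1) (nat_lit 145) (nat_lit 115) (nat_lit 130)) (PT.lf (nat_lit 14668) (nat_lit 6) (nat_lit 193) (nat_lit 3) (nat_lit 129) (nat_lit 116) (nat_lit 145))))) (PT.nd (nat_lit 234) (PT.nd (nat_lit 78) (PT.lf (nat_lit 15884) (nat_lit 6) (nat_lit 209) (nat_lit 3) (nat_lit 130) (nat_lit 116) (nat_lit 144)) (PT.nd (nat_lit 78) (PT.lf (nat_lit 15960) (nat_lit 6) (nat_lit 210)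 (nat_lit 3) (nat_lit 131) (nat_lit 116) (nat_lit 143)) (PT.lf (nat_lit 16036) (nat_lit 6) (nat_lit 211) (nat_lit 3) (nat_lit 132) (nat_lit 116) (nat_lit 142)))) (PT.nd (nat_lit 156) (PT.nd (nat_lit 78) (PT.lf (nat_lit 16112) (nat_lit 6) (nat_lit 212) (nat_lit 3) (nat_lit 133) (nat_lit 116) (nat_lit 141)) (PT.lf (nat_lit 16188) (nat_lit 6) (nat_lit 213) (nat_lit 3) (nat_lit 134) (nat_lit 116) (nat_lit 140))) (PT.nd (nat_lit 78) (PT.lf (nat_lit 16264) (nat_lit 6) (nat_lit 214) (nat_lit 3) (nat_lit 135) (nat_lit 116) (nat_lit 139)) (PT.lf (nat_lit 16340) (nat_lit 6) (nat_lit 215) (nat_lit 3) (nat_lit 136) (nat_lit 116) (nat_lit 138)))))) (PT.nd (nat_lit 546) (PT.nd (nat_lit 234) (PT.nd (nat_lit 78) (PT.lf (nat_lit 16416) (nat_lit 3) (nat_lit 216) (nat_lit 1) (nat_lit 137) (nat_lit 116) (nat_lit 137)) (PT.nd (nat_lit 78) (PT.lf (nat_lit 16340) (nat_lit 6) (nat_lit 215) (nat_lit 1) (nat_lit 138) (nat_lit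 116) (nat_lit 136)) (PT.lf (nat_lit 16264) (nat_lit 6) (nat_lit 214) (nat_lit 1) (nat_lit 139) (nat_lit 116) (nat_lit 135)))) (PT.nd (nat_lit 156) (PT.nd (nat_lit 78) (PT.lf (nat_lit 16188) (nat_lit 6) (nat_lit 213) (nat_lit 1) (nat_lit 140) (nat_lit 116) (nat_lit 134)) (PT.lf (nat_lit 16112) (nat_lit 6) (nat_lit 212) (nat_lit 1) (nat_lit 141) (nat_lit 116) (nat_lit 133))) (PT.nd (nat_lit 78) (PT.lf (nat_lit 16036) (nat_lit 6) (nat_lit 211) (nat_lit 1) (nat_lit 142) (nat_lit 116) (nat_lit 132)) (PT.lf (nat_lit 15960) (nat_lit 6) (nat_lit 210) (nat_lit 1) (nat_lit 143) (nat_lit 116) (nat_lit 131))))) (PT.nd (nat_lit 39468) (PT.nd (nat_lit 78) (PT.lf (nat_lit 15884) (nat_lit 6) (nat_lit 209) (nat_lit 1) (nat_lit 144) (nat_lit 116) (nat_lit 130)) (PT.nd (nat_lit 39312) (PT.lf (nat_lit 14668) (nat_lit 6) (nat_lit 193) (nat_lit 1) (nat_lit 145) (nat_lit 116) (nat_lit 129)) (PT.lf (nat_lit 14592) (nat_lit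 6) (nat_lit 192) (nat_lit 3) (nat_lit 128) (nat_lit 117) (nat_lit 145)))) (PT.nd (nat_lit 156) (PT.nd (nat_lit 78) (PT.lf (nat_lit 15808) (nat_lit 6) (nat_lit 208) (nat_lit 3) (nat_lit 129) (nat_lit 117) (nat_lit 144)) (PT.lf (nat_lit 16948) (nat_lit 6) (nat_lit 223) (nat_lit 3) (nat_lit 130) (nat_lit 117) (nat_lit 143))) (PT.nd (nat_lit 78) (PT.lf (nat_lit 17024) (nat_lit 6) (nat_lit 224) (nat_lit 3) (nat_lit 131) (nat_lit 117) (nat_lit 142)) (PT.lf (nat_lit 17100) (nat_lit 6) (nat_lit 225) (nat_lit 3) (nat_lit 132) (nat_lit 117) (nat_lit 141))))))))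
noncomputable def pc7 : PT := (PT.nd (nat_lit 41262) (PT.nd (nat_lit 40170) (PT.nd (nat_lit 468) (PT.nd (nat_lit 234) (PT.nd (nat_lit 78) (PT.lf (nat_lit 17176) (nat_lit 6) (nat_lit 226) (nat_lit 3) (nat_lit 133) (nat_lit 117) (nat_lit 140)) (PT.nd (nat_lit 78) (PT.lf (nat_lit 17252) (nat_lit 6) (nat_lit 227) (nat_lit 3) (nat_lit 134) (nat_lit 117) (nat_lit 139)) (PT.lf (nat_lit 17328) (nat_lit 6) (nat_lit 228) (nat_lit 3) (nat_lit 135) (nat_lit 117) (nat_lit 138)))) (PT.nd (nat_lit 78) (PT.lf (nat_lit 17404) (nat_lit 6) (nat_lit 229) (nat_lit 3) (nat_lit 136) (nat_lit 117) (nat_lit 137)) (PT.nd (nat_lit 78) (PT.lf (nat_lit 17404) (nat_lit 6) (nat_lit 229) (nat_lit 1) (nat_lit 137) (nat_lit 117) (nat_lit 136)) (PT.lf (nat_lit 17328) (nat_lit 6) (nat_lit 228) (nat_lit 1) (nat_lit 138) (nat_lit 117) (nat_lit 135))))) (PT.nd (nat_lit 234) (PT.nd (nat_lit 78) (PT.lf (nat_lit 17252) (nat_lit 6) (nat_lit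 227) (nat_lit 1) (nat_lit 139) (nat_lit 117) (nat_lit 134)) (PT.nd (nat_lit 78) (PT.lf (nat_lit 17176) (nat_lit 6) (nat_lit 226) (nat_lit 1) (nat_lit 140) (nat_lit 117) (nat_lit 133)) (PT.lf (nat_lit 17100) (nat_lit 6) (nat_lit 225) (nat_lit 1) (nat_lit 141) (nat_lit 117) (nat_lit 132)))) (PT.nd (nat_lit 156) (PT.nd (nat_lit 78) (PT.lf (nat_lit 17024) (nat_lit 6) (nat_lit 224) (nat_lit 1) (nat_lit 142) (nat_lit 117) (nat_lit 131)) (PT.lf (nat_lit 16948) (nat_lit 6) (nat_lit 223) (nat_lit 1) (nat_lit 143) (nat_lit 117) (nat_lit 130))) (PT.nd (nat_lit 78) (PT.lf (nat_lit 15808) (nat_lit 6) (nat_lit 208) (nat_lit 1) (nat_lit 144) (nat_lit 117) (nat_lit 129)) (PT.lf (nat_lit 14592) (nat_lit 6) (nat_lit 192) (nat_lit 1) (nat_lit 145) (nat_lit 117) (nat_lit 128)))))) (PT.nd (nat_lit 546) (PT.nd (nat_lit 234) (PT.nd (nat_lit 78) (PT.lf (nat_lit 14516) (nat_lit 6) (nat_lit 191) (nat_lit 3) (nat_lit 127)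 (nat_lit 118) (nat_lit 145)) (PT.nd (nat_lit 78) (PT.lf (nat_lit 15732) (nat_lit 6) (nat_lit 207) (nat_lit 3) (nat_lit 128) (nat_lit 118) (nat_lit 144)) (PT.lf (nat_lit 16872) (nat_lit 6) (nat_lit 222) (nat_lit 3) (nat_lit 129) (nat_lit 118) (nat_lit 143)))) (PT.nd (nat_lit 156) (PT.nd (nat_lit 78) (PT.lf (nat_lit 17936) (nat_lit 6) (nat_lit 236) (nat_lit 3) (nat_lit 130) (nat_lit 118) (nat_lit 142)) (PT.lf (nat_lit 18012) (nat_lit 6) (nat_lit 237) (nat_lit 3) (nat_lit 131) (nat_lit 118) (nat_lit 141))) (PT.nd (nat_lit 78) (PT.lf (nat_lit 18088) (nat_lit 6) (nat_lit 238) (nat_lit 3) (nat_lit 132) (nat_lit 118) (nat_lit 140)) (PT.lf (nat_lit 18164) (nat_lit 6) (nat_lit 239) (nat_lit 3) (nat_lit 133) (nat_lit 118) (nat_lit 139))))) (PT.nd (nat_lit 234) (PT.nd (nat_lit 78) (PT.lf (nat_lit 18240) (nat_lit 6) (nat_lit 240) (nat_lit 3) (nat_lit 134) (nat_lit 118) (nat_lit 138)) (PT.nd (nat_lit 78) (PT.lf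 (nat_lit 18316) (nat_lit 6) (nat_lit 241) (nat_lit 3) (nat_lit 135) (nat_lit 118) (nat_lit 137)) (PT.lf (nat_lit 18392) (nat_lit 3) (nat_lit 242) (nat_lit 1) (nat_lit 136) (nat_lit 118) (nat_lit 136)))) (PT.nd (nat_lit 156) (PT.nd (nat_lit 78) (PT.lf (nat_lit 18316) (nat_lit 6) (nat_lit 241) (nat_lit 1) (nat_lit 137) (nat_lit 118) (nat_lit 135)) (PT.lf (nat_lit 18240) (nat_lit 6) (nat_lit 240) (nat_lit 1) (nat_lit 138) (nat_lit 118) (nat_lit 134))) (PT.nd (nat_lit 78) (PT.lf (nat_lit 18164) (nat_lit 6) (nat_lit 239) (nat_lit 1) (nat_lit 139) (nat_lit 118) (nat_lit 133)) (PT.lf (nat_lit 18088) (nat_lit 6) (nat_lit 238) (nat_lit 1) (nat_lit 140) (nat_lit 118) (nat_lit 132))))))) (PT.nd (nat_lit 40170) (PT.nd (nat_lit 39624) (PT.nd (nat_lit 234) (PT.nd (nat_lit 78) (PT.lf (nat_lit 18012) (nat_lit 6) (nat_lit 237) (nat_lit 1) (nat_lit 141) (nat_lit 118) (nat_lit 131)) (PT.nd (nat_lit 78) (PT.lf (nat_lit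 17936) (nat_lit 6) (nat_lit 236) (nat_lit 1) (nat_lit 142) (nat_lit 118) (nat_lit 130)) (PT.lf (nat_lit 16872) (nat_lit 6) (nat_lit 222) (nat_lit 1) (nat_lit 143) (nat_lit 118) (nat_lit 129)))) (PT.nd (nat_lit 39234) (PT.nd (nat_lit 78) (PT.lf (nat_lit 15732) (nat_lit 6) (nat_lit 207) (nat_lit 1) (nat_lit 144) (nat_lit 118) (nat_lit 128)) (PT.lf (nat_lit 14516) (nat_lit 6) (nat_lit 191) (nat_lit 1) (nat_lit 145) (nat_lit 118) (nat_lit 127))) (PT.nd (nat_lit 78) (PT.lf (nat_lit 14440) (nat_lit 6) (nat_lit 190) (nat_lit 3) (nat_lit 126) (nat_lit 119) (nat_lit 145)) (PT.lf (nat_lit 15656) (nat_lit 6) (nat_lit 206) (nat_lit 3) (nat_lit 127) (nat_lit 119) (nat_lit 144))))) (PT.nd (nat_lit 234) (PT.nd (nat_lit 78) (PT.lf (nat_lit 16796) (nat_lit 6) (nat_lit 221) (nat_lit 3) (nat_lit 128) (nat_lit 119) (nat_lit 143)) (PT.nd (nat_lit 78) (PT.lf (nat_lit 17860) (nat_lit 6) (nat_lit 235) (nat_lit 3) (nat_lit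 129) (nat_lit 119) (nat_lit 142)) (PT.lf (nat_lit 18848) (nat_lit 6) (nat_lit 248) (nat_lit 3) (nat_lit 130) (nat_lit 119) (nat_lit 141)))) (PT.nd (nat_lit 156) (PT.nd (nat_lit 78) (PT.lf (nat_lit 18924) (nat_lit 6) (nat_lit 249) (nat_lit 3) (nat_lit 131) (nat_lit 119) (nat_lit 140)) (PT.lf (nat_lit 19000) (nat_lit 6) (nat_lit 250) (nat_lit 3) (nat_lit 132) (nat_lit 119) (nat_lit 139))) (PT.nd (nat_lit 78) (PT.lf (nat_lit 19076) (nat_lit 6) (nat_lit 251) (nat_lit 3) (nat_lit 133) (nat_lit 119) (nat_lit 138)) (PT.lf (nat_lit 19152) (nat_lit 6) (nat_lit 252) (nat_lit 3) (nat_lit 134) (nat_lit 119) (nat_lit 137)))))) (PT.nd (nat_lit 546) (PT.nd (nat_lit 234) (PT.nd (nat_lit 78) (PT.lf (nat_lit 19228) (nat_lit 6) (nat_lit 253) (nat_lit 3) (nat_lit 135) (nat_lit 119) (nat_lit 136)) (PT.nd (nat_lit 78) (PT.lf (nat_lit 19228) (nat_lit 6) (nat_lit 253) (nat_lit 1) (nat_lit 136) (nat_lit 119) (nat_lit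 135)) (PT.lf (nat_lit 19152) (nat_lit 6) (nat_lit 252) (nat_lit 1) (nat_lit 137) (nat_lit 119) (nat_lit 134)))) (PT.nd (nat_lit 156) (PT.nd (nat_lit 78) (PT.lf (nat_lit 19076) (nat_lit 6) (nat_lit 251) (nat_lit 1) (nat_lit 138) (nat_lit 119) (nat_lit 133)) (PT.lf (nat_lit 19000) (nat_lit 6) (nat_lit 250) (nat_lit 1) (nat_lit 139) (nat_lit 119) (nat_lit 132))) (PT.nd (nat_lit 78) (PT.lf (nat_lit 18924) (nat_lit 6) (nat_lit 249) (nat_lit 1) (nat_lit 140) (nat_lit 119) (nat_lit 131)) (PT.lf (nat_lit 18848) (nat_lit 6) (nat_lit 248) (nat_lit 1) (nat_lit 141) (nat_lit 119) (nat_lit 130))))) (PT.nd (nat_lit 234) (PT.nd (nat_lit 78) (PT.lf (nat_lit 17860) (nat_lit 6) (nat_lit 235) (nat_lit 1) (nat_lit 142) (nat_lit 119) (nat_lit 129)) (PT.nd (nat_lit 78) (PT.lf (nat_lit 16796) (nat_lit 6) (nat_lit 221) (nat_lit 1) (nat_lit 143) (nat_lit 119) (nat_lit 128)) (PT.lf (nat_lit 15656) (nat_lit 6) (nat_lit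 206) (nat_lit 1) (nat_lit 144) (nat_lit 119) (nat_lit 127)))) (PT.nd (nat_lit 39156) (PT.nd (nat_lit 39078) (PT.lf (nat_lit 14440) (nat_lit 6) (nat_lit 190) (nat_lit 1) (nat_lit 145) (nat_lit 119) (nat_lit 126)) (PT.lf (nat_lit 14364) (nat_lit 6) (nat_lit 189) (nat_lit 3) (nat_lit 125) (nat_lit 120) (nat_lit 145))) (PT.nd (nat_lit 78) (PT.lf (nat_lit 15580) (nat_lit 6) (nat_lit 205) (nat_lit 3) (nat_lit 126) (nat_lit 120) (nat_lit 144)) (PT.lf (nat_lit 16720) (nat_lit 6) (nat_lit 220) (nat_lit 3) (nat_lit 127) (nat_lit 120) (nat_lit 143))))))))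
noncomputable def pc8 : PT := (PT.nd (nat_lit 41028) (PT.nd (nat_lit 1014) (PT.nd (nat_lit 468) (PT.nd (nat_lit 234) (PT.nd (nat_lit 78) (PT.lf (nat_lit 17784) (nat_lit 6) (nat_lit 234) (nat_lit 3) (nat_lit 128) (nat_lit 120) (nat_lit 142)) (PT.nd (nat_lit 78) (PT.lf (nat_lit 18772) (nat_lit 6) (nat_lit 247) (nat_lit 3) (nat_lit 129) (nat_lit 120) (nat_lit 141)) (PT.lf (nat_lit 19684) (nat_lit 6) (nat_lit 259) (nat_lit 3) (nat_lit 130) (nat_lit 120) (nat_lit 140)))) (PT.nd (nat_lit 78) (PT.lf (nat_lit 19760) (nat_lit 6) (nat_lit 260) (nat_lit 3) (nat_lit 131) (nat_lit 120) (nat_lit 139)) (PT.nd (nat_lit 78) (PT.lf (nat_lit 19836) (nat_lit 6) (nat_lit 261) (nat_lit 3) (nat_lit 132) (nat_lit 120) (nat_lit 138)) (PT.lf (nat_lit 19912) (nat_lit 6) (nat_lit 262) (nat_lit 3) (nat_lit 133) (nat_lit 120) (nat_lit 137))))) (PT.nd (nat_lit 234) (PT.nd (nat_lit 78) (PT.lf (nat_lit 19988) (nat_lit 6) (nat_lit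 263) (nat_lit 3) (nat_lit 134) (nat_lit 120) (nat_lit 136)) (PT.nd (nat_lit 78) (PT.lf (nat_lit 20064) (nat_lit 3) (nat_lit 264) (nat_lit 1) (nat_lit 135) (nat_lit 120) (nat_lit 135)) (PT.lf (nat_lit 19988) (nat_lit 6) (nat_lit 263) (nat_lit 1) (nat_lit 136) (nat_lit 120) (nat_lit 134)))) (PT.nd (nat_lit 156) (PT.nd (nat_lit 78) (PT.lf (nat_lit 19912) (nat_lit 6) (nat_lit 262) (nat_lit 1) (nat_lit 137) (nat_lit 120) (nat_lit 133)) (PT.lf (nat_lit 19836) (nat_lit 6) (nat_lit 261) (nat_lit 1) (nat_lit 138) (nat_lit 120) (nat_lit 132))) (PT.nd (nat_lit 78) (PT.lf (nat_lit 19760) (nat_lit 6) (nat_lit 260) (nat_lit 1) (nat_lit 139) (nat_lit 120) (nat_lit 131)) (PT.lf (nat_lit 19684) (nat_lit 6) (nat_lit 259) (nat_lit 1) (nat_lit 140) (nat_lit 120) (nat_lit 130)))))) (PT.nd (nat_lit 39468) (PT.nd (nat_lit 234) (PT.nd (nat_lit 78) (PT.lf (nat_lit 18772) (nat_lit 6) (nat_lit 247) (nat_lit 1) (nat_lit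 141) (nat_lit 120) (nat_lit 129)) (PT.nd (nat_lit 78) (PT.lf (nat_lit 17784) (nat_lit 6) (nat_lit 234) (nat_lit 1) (nat_lit 142) (nat_lit 120) (nat_lit 128)) (PT.lf (nat_lit 16720) (nat_lit 6) (nat_lit 220) (nat_lit 1) (nat_lit 143) (nat_lit 120) (nat_lit 127)))) (PT.nd (nat_lit 39078) (PT.nd (nat_lit 78) (PT.lf (nat_lit 15580) (nat_lit 6) (nat_lit 205) (nat_lit 1) (nat_lit 144) (nat_lit 120) (nat_lit 126)) (PT.lf (nat_lit 14364) (nat_lit 6) (nat_lit 189) (nat_lit 1) (nat_lit 145) (nat_lit 120) (nat_lit 125))) (PT.nd (nat_lit 78) (PT.lf (nat_lit 14288) (nat_lit 6) (nat_lit 188) (nat_lit 3) (nat_lit 124) (nat_lit 121) (nat_lit 145)) (PT.lf (nat_lit 15504) (nat_lit 6) (nat_lit 204) (nat_lit 3) (nat_lit 125) (nat_lit 121) (nat_lit 144))))) (PT.nd (nat_lit 234) (PT.nd (nat_lit 78) (PT.lf (nat_lit 16644) (nat_lit 6) (nat_lit 219) (nat_lit 3) (nat_lit 126) (nat_lit 121) (nat_lit 143)) (PT.nd (nat_lit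 78) (PT.lf (nat_lit 17708) (nat_lit 6) (nat_lit 233) (nat_lit 3) (nat_lit 127) (nat_lit 121) (nat_lit 142)) (PT.lf (nat_lit 18696) (nat_lit 6) (nat_lit 246) (nat_lit 3) (nat_lit 128) (nat_lit 121) (nat_lit 141)))) (PT.nd (nat_lit 156) (PT.nd (nat_lit 78) (PT.lf (nat_lit 19608) (nat_lit 6) (nat_lit 258) (nat_lit 3) (nat_lit 129) (nat_lit 121) (nat_lit 140)) (PT.lf (nat_lit 20444) (nat_lit 6) (nat_lit 269) (nat_lit 3) (nat_lit 130) (nat_lit 121) (nat_lit 139))) (PT.nd (nat_lit 78) (PT.lf (nat_lit 20520) (nat_lit 6) (nat_lit 270) (nat_lit 3) (nat_lit 131) (nat_lit 121) (nat_lit 138)) (PT.lf (nat_lit 20596) (nat_lit 6) (nat_lit 271) (nat_lit 3) (nat_lit 132) (nat_lit 121) (nat_lit 137))))))) (PT.nd (nat_lit 39936) (PT.nd (nat_lit 546) (PT.nd (nat_lit 234) (PT.nd (nat_lit 78) (PT.lf (nat_lit 20672) (nat_lit 6) (nat_lit 272) (nat_lit 3) (nat_lit 133) (nat_lit 121) (nat_lit 136)) (PT.nd (nat_lit 78)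 (PT.lf (nat_lit 20748) (nat_lit 6) (nat_lit 273) (nat_lit 3) (nat_lit 134) (nat_lit 121) (nat_lit 135)) (PT.lf (nat_lit 20748) (nat_lit 6) (nat_lit 273) (nat_lit 1) (nat_lit 135) (nat_lit 121) (nat_lit 134)))) (PT.nd (nat_lit 156) (PT.nd (nat_lit 78) (PT.lf (nat_lit 20672) (nat_lit 6) (nat_lit 272) (nat_lit 1) (nat_lit 136) (nat_lit 121) (nat_lit 133)) (PT.lf (nat_lit 20596) (nat_lit 6) (nat_lit 271) (nat_lit 1) (nat_lit 137) (nat_lit 121) (nat_lit 132))) (PT.nd (nat_lit 78) (PT.lf (nat_lit 20520) (nat_lit 6) (nat_lit 270) (nat_lit 1) (nat_lit 138) (nat_lit 121) (nat_lit 131)) (PT.lf (nat_lit 20444) (nat_lit 6) (nat_lit 269) (nat_lit 1) (nat_lit 139) (nat_lit 121) (nat_lit 130))))) (PT.nd (nat_lit 234) (PT.nd (nat_lit 78) (PT.lf (nat_lit 19608) (nat_lit 6) (nat_lit 258) (nat_lit 1) (nat_lit 140) (nat_lit 121) (nat_lit 129)) (PT.nd (nat_lit 78) (PT.lf (nat_lit 18696) (nat_lit 6) (nat_lit 246) (nat_lit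 1) (nat_lit 141) (nat_lit 121) (nat_lit 128)) (PT.lf (nat_lit 17708) (nat_lit 6) (nat_lit 233) (nat_lit 1) (nat_lit 142) (nat_lit 121) (nat_lit 127)))) (PT.nd (nat_lit 156) (PT.nd (nat_lit 78) (PT.lf (nat_lit 16644) (nat_lit 6) (nat_lit 219) (nat_lit 1) (nat_lit 143) (nat_lit 121) (nat_lit 126)) (PT.lf (nat_lit 15504) (nat_lit 6) (nat_lit 204) (nat_lit 1) (nat_lit 144) (nat_lit 121) (nat_lit 125))) (PT.nd (nat_lit 38922) (PT.lf (nat_lit 14288) (nat_lit 6) (nat_lit 188) (nat_lit 1) (nat_lit 145) (nat_lit 121) (nat_lit 124)) (PT.lf (nat_lit 14212) (nat_lit 6) (nat_lit 187) (nat_lit 3) (nat_lit 123) (nat_lit 122) (nat_lit 145)))))) (PT.nd (nat_lit 546) (PT.nd (nat_lit 234) (PT.nd (nat_lit 78) (PT.lf (nat_lit 15428) (nat_lit 6) (nat_lit 203) (nat_lit 3) (nat_lit 124) (nat_lit 122) (nat_lit 144)) (PT.nd (nat_lit 78) (PT.lf (nat_lit 16568) (nat_lit 6) (nat_lit 218) (nat_lit 3) (nat_lit 125) (nat_lit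 122) (nat_lit 143)) (PT.lf (nat_lit 17632) (nat_lit 6) (nat_lit 232) (nat_lit 3) (nat_lit 126) (nat_lit 122) (nat_lit 142)))) (PT.nd (nat_lit 156) (PT.nd (nat_lit 78) (PT.lf (nat_lit 18620) (nat_lit 6) (nat_lit 245) (nat_lit 3) (nat_lit 127) (nat_lit 122) (nat_lit 141)) (PT.lf (nat_lit 19532) (nat_lit 6) (nat_lit 257) (nat_lit 3) (nat_lit 128) (nat_lit 122) (nat_lit 140))) (PT.nd (nat_lit 78) (PT.lf (nat_lit 20368) (nat_lit 6) (nat_lit 268) (nat_lit 3) (nat_lit 129) (nat_lit 122) (nat_lit 139)) (PT.lf (nat_lit 21128) (nat_lit 6) (nat_lit 278) (nat_lit 3) (nat_lit 130) (nat_lit 122) (nat_lit 138))))) (PT.nd (nat_lit 234) (PT.nd (nat_lit 78) (PT.lf (nat_lit 21204) (nat_lit 6) (nat_lit 279) (nat_lit 3) (nat_lit 131) (nat_lit 122) (nat_lit 137)) (PT.nd (nat_lit 78) (PT.lf (nat_lit 21280) (nat_lit 6) (nat_lit 280) (nat_lit 3) (nat_lit 132) (nat_lit 122) (nat_lit 136)) (PT.lf (nat_lit 21356) (nat_lit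 6) (nat_lit 281) (nat_lit 3) (nat_lit 133) (nat_lit 122) (nat_lit 135)))) (PT.nd (nat_lit 156) (PT.nd (nat_lit 78) (PT.lf (nat_lit 21432) (nat_lit 3) (nat_lit 282) (nat_lit 1) (nat_lit 134) (nat_lit 122) (nat_lit 134)) (PT.lf (nat_lit 21356) (nat_lit 6) (nat_lit 281) (nat_lit 1) (nat_lit 135) (nat_lit 122) (nat_lit 133))) (PT.nd (nat_lit 78) (PT.lf (nat_lit 21280) (nat_lit 6) (nat_lit 280) (nat_lit 1) (nat_lit 136) (nat_lit 122) (nat_lit 132)) (PT.lf (nat_lit 21204) (nat_lit 6) (nat_lit 279) (nat_lit 1) (nat_lit 137) (nat_lit 122) (nat_lit 131))))))))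
noncomputable def pc9 : PT := (PT.nd (nat_lit 40872) (PT.nd (nat_lit 39780) (PT.nd (nat_lit 468) (PT.nd (nat_lit 234) (PT.nd (nat_lit 78) (PT.lf (nat_lit 21128) (nat_lit 6) (nat_lit 278) (nat_lit 1) (nat_lit 138) (nat_lit 122) (nat_lit 130)) (PT.nd (nat_lit 78) (PT.lf (nat_lit 20368) (nat_lit 6) (nat_lit 268) (nat_lit 1) (nat_lit 139) (nat_lit 122) (nat_lit 129)) (PT.lf (nat_lit 19532) (nat_lit 6) (nat_lit 257) (nat_lit 1) (nat_lit 140) (nat_lit 122) (nat_lit 128)))) (PT.nd (nat_lit 78) (PT.lf (nat_lit 18620) (nat_lit 6) (nat_lit 245) (nat_lit 1) (nat_lit 141) (nat_lit 122) (nat_lit 127)) (PT.nd (nat_lit 78) (PT.lf (nat_lit 17632) (nat_lit 6) (nat_lit 232) (nat_lit 1) (nat_lit 142) (nat_lit 122) (nat_lit 126)) (PT.lf (nat_lit 16568) (nat_lit 6) (nat_lit 218) (nat_lit 1) (nat_lit 143) (nat_lit 122) (nat_lit 125))))) (PT.nd (nat_lit 39000) (PT.nd (nat_lit 78) (PT.lf (nat_lit 15428) (nat_lit 6) (nat_lit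 203) (nat_lit 1) (nat_lit 144) (nat_lit 122) (nat_lit 124)) (PT.nd (nat_lit 38844) (PT.lf (nat_lit 14212) (nat_lit 6) (nat_lit 187) (nat_lit 1) (nat_lit 145) (nat_lit 122) (nat_lit 123)) (PT.lf (nat_lit 14212) (nat_lit 6) (nat_lit 187) (nat_lit 5) (nat_lit 122) (nat_lit 123) (nat_lit 145)))) (PT.nd (nat_lit 156) (PT.nd (nat_lit 78) (PT.lf (nat_lit 15352) (nat_lit 3) (nat_lit 202) (nat_lit 3) (nat_lit 123) (nat_lit 123) (nat_lit 144)) (PT.lf (nat_lit 16492) (nat_lit 6) (nat_lit 217) (nat_lit 3) (nat_lit 124) (nat_lit 123) (nat_lit 143))) (PT.nd (nat_lit 78) (PT.lf (nat_lit 17556) (nat_lit 6) (nat_lit 231) (nat_lit 3) (nat_lit 125) (nat_lit 123) (nat_lit 142)) (PT.lf (nat_lit 18544) (nat_lit 6) (nat_lit 244) (nat_lit 3) (nat_lit 126) (nat_lit 123) (nat_lit 141)))))) (PT.nd (nat_lit 546) (PT.nd (nat_lit 234) (PT.nd (nat_lit 78) (PT.lf (nat_lit 19456) (nat_lit 6) (nat_lit 256) (nat_lit 3) (nat_lit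 127) (nat_lit 123) (nat_lit 140)) (PT.nd (nat_lit 78) (PT.lf (nat_lit 20292) (nat_lit 6) (nat_lit 267) (nat_lit 3) (nat_lit 128) (nat_lit 123) (nat_lit 139)) (PT.lf (nat_lit 21052) (nat_lit 6) (nat_lit 277) (nat_lit 3) (nat_lit 129) (nat_lit 123) (nat_lit 138)))) (PT.nd (nat_lit 156) (PT.nd (nat_lit 78) (PT.lf (nat_lit 21736) (nat_lit 6) (nat_lit 286) (nat_lit 3) (nat_lit 130) (nat_lit 123) (nat_lit 137)) (PT.lf (nat_lit 21812) (nat_lit 6) (nat_lit 287) (nat_lit 3) (nat_lit 131) (nat_lit 123) (nat_lit 136))) (PT.nd (nat_lit 78) (PT.lf (nat_lit 21888) (nat_lit 6) (nat_lit 288) (nat_lit 3) (nat_lit 132) (nat_lit 123) (nat_lit 135)) (PT.lf (nat_lit 21964) (nat_lit 6) (nat_lit 289) (nat_lit 3) (nat_lit 133) (nat_lit 123) (nat_lit 134))))) (PT.nd (nat_lit 234) (PT.nd (nat_lit 78) (PT.lf (nat_lit 21964) (nat_lit 6) (nat_lit 289) (nat_lit 1) (nat_lit 134) (nat_lit 123) (nat_lit 133)) (PT.nd (nat_lit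 78) (PT.lf (nat_lit 21888) (nat_lit 6) (nat_lit 288) (nat_lit 1) (nat_lit 135) (nat_lit 123) (nat_lit 132)) (PT.lf (nat_lit 21812) (nat_lit 6) (nat_lit 287) (nat_lit 1) (nat_lit 136) (nat_lit 123) (nat_lit 131)))) (PT.nd (nat_lit 156) (PT.nd (nat_lit 78) (PT.lf (nat_lit 21736) (nat_lit 6) (nat_lit 286) (nat_lit 1) (nat_lit 137) (nat_lit 123) (nat_lit 130)) (PT.lf (nat_lit 21052) (nat_lit 6) (nat_lit 277) (nat_lit 1) (nat_lit 138) (nat_lit 123) (nat_lit 129))) (PT.nd (nat_lit 78) (PT.lf (nat_lit 20292) (nat_lit 6) (nat_lit 267) (nat_lit 1) (nat_lit 139) (nat_lit 123) (nat_lit 128)) (PT.lf (nat_lit 19456) (nat_lit 6) (nat_lit 256) (nat_lit 1) (nat_lit 140) (nat_lit 123) (nat_lit 127))))))) (PT.nd (nat_lit 39780) (PT.nd (nat_lit 39234) (PT.nd (nat_lit 234) (PT.nd (nat_lit 78) (PT.lf (nat_lit 18544) (nat_lit 6) (nat_lit 244) (nat_lit 1) (nat_lit 141) (nat_lit 123) (nat_lit 126)) (PT.nd (nat_lit 78)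 (PT.lf (nat_lit 17556) (nat_lit 6) (nat_lit 231) (nat_lit 1) (nat_lit 142) (nat_lit 123) (nat_lit 125)) (PT.lf (nat_lit 16492) (nat_lit 6) (nat_lit 217) (nat_lit 1) (nat_lit 143) (nat_lit 123) (nat_lit 124)))) (PT.nd (nat_lit 38844) (PT.nd (nat_lit 78) (PT.lf (nat_lit 15352) (nat_lit 3) (nat_lit 202) (nat_lit 0) (nat_lit 144) (nat_lit 123) (nat_lit 123)) (PT.lf (nat_lit 14212) (nat_lit 6) (nat_lit 187) (nat_lit 0) (nat_lit 145) (nat_lit 123) (nat_lit 122))) (PT.nd (nat_lit 78) (PT.lf (nat_lit 14288) (nat_lit 6) (nat_lit 188) (nat_lit 5) (nat_lit 121) (nat_lit 124) (nat_lit 145)) (PT.lf (nat_lit 15428) (nat_lit 6) (nat_lit 203) (nat_lit 5) (nat_lit 122) (nat_lit 124) (nat_lit 144))))) (PT.nd (nat_lit 234) (PT.nd (nat_lit 78) (PT.lf (nat_lit 16492) (nat_lit 6) (nat_lit 217) (nat_lit 5) (nat_lit 123) (nat_lit 124) (nat_lit 143)) (PT.nd (nat_lit 78) (PT.lf (nat_lit 17480) (nat_lit 3) (nat_lit 230)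 (nat_lit 3) (nat_lit 124) (nat_lit 124) (nat_lit 142)) (PT.lf (nat_lit 18468) (nat_lit 6) (nat_lit 243) (nat_lit 3) (nat_lit 125) (nat_lit 124) (nat_lit 141)))) (PT.nd (nat_lit 156) (PT.nd (nat_lit 78) (PT.lf (nat_lit 19380) (nat_lit 6) (nat_lit 255) (nat_lit 3) (nat_lit 126) (nat_lit 124) (nat_lit 140)) (PT.lf (nat_lit 20216) (nat_lit 6) (nat_lit 266) (nat_lit 3) (nat_lit 127) (nat_lit 124) (nat_lit 139))) (PT.nd (nat_lit 78) (PT.lf (nat_lit 20976) (nat_lit 6) (nat_lit 276) (nat_lit 3) (nat_lit 128) (nat_lit 124) (nat_lit 138)) (PT.lf (nat_lit 21660) (nat_lit 6) (nat_lit 285) (nat_lit 3) (nat_lit 129) (nat_lit 124) (nat_lit 137)))))) (PT.nd (nat_lit 546) (PT.nd (nat_lit 234) (PT.nd (nat_lit 78) (PT.lf (nat_lit 22268) (nat_lit 6) (nat_lit 293) (nat_lit 3) (nat_lit 130) (nat_lit 124) (nat_lit 136)) (PT.nd (nat_lit 78) (PT.lf (nat_lit 22344) (nat_lit 6) (nat_lit 294) (nat_lit 3) (nat_lit 131) (nat_lit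 124) (nat_lit 135)) (PT.lf (nat_lit 22420) (nat_lit 6) (nat_lit 295) (nat_lit 3) (nat_lit 132) (nat_lit 124) (nat_lit 134)))) (PT.nd (nat_lit 156) (PT.nd (nat_lit 78) (PT.lf (nat_lit 22496) (nat_lit 3) (nat_lit 296) (nat_lit 1) (nat_lit 133) (nat_lit 124) (nat_lit 133)) (PT.lf (nat_lit 22420) (nat_lit 6) (nat_lit 295) (nat_lit 1) (nat_lit 134) (nat_lit 124) (nat_lit 132))) (PT.nd (nat_lit 78) (PT.lf (nat_lit 22344) (nat_lit 6) (nat_lit 294) (nat_lit 1) (nat_lit 135) (nat_lit 124) (nat_lit 131)) (PT.lf (nat_lit 22268) (nat_lit 6) (nat_lit 293) (nat_lit 1) (nat_lit 136) (nat_lit 124) (nat_lit 130))))) (PT.nd (nat_lit 234) (PT.nd (nat_lit 78) (PT.lf (nat_lit 21660) (nat_lit 6) (nat_lit 285) (nat_lit 1) (nat_lit 137) (nat_lit 124) (nat_lit 129)) (PT.nd (nat_lit 78) (PT.lf (nat_lit 20976) (nat_lit 6) (nat_lit 276) (nat_lit 1) (nat_lit 138) (nat_lit 124) (nat_lit 128)) (PT.lf (nat_lit 20216) (nat_lit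 6) (nat_lit 266) (nat_lit 1) (nat_lit 139) (nat_lit 124) (nat_lit 127)))) (PT.nd (nat_lit 156) (PT.nd (nat_lit 78) (PT.lf (nat_lit 19380) (nat_lit 6) (nat_lit 255) (nat_lit 1) (nat_lit 140) (nat_lit 124) (nat_lit 126)) (PT.lf (nat_lit 18468) (nat_lit 6) (nat_lit 243) (nat_lit 1) (nat_lit 141) (nat_lit 124) (nat_lit 125))) (PT.nd (nat_lit 78) (PT.lf (nat_lit 17480) (nat_lit 3) (nat_lit 230) (nat_lit 0) (nat_lit 142) (nat_lit 124) (nat_lit 124)) (PT.lf (nat_lit 16492) (nat_lit 6) (nat_lit 217) (nat_lit 0) (nat_lit 143) (nat_lit 124) (nat_lit 123))))))))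
noncomputable def pc10 : PT := (PT.nd (nat_lit 40716) (PT.nd (nat_lit 39624) (PT.nd (nat_lit 39078) (PT.nd (nat_lit 38844) (PT.nd (nat_lit 78) (PT.lf (nat_lit 15428) (nat_lit 6) (nat_lit 203) (nat_lit 0) (nat_lit 144) (nat_lit 124) (nat_lit 122)) (PT.nd (nat_lit 38688) (PT.lf (nat_lit 14288) (nat_lit 6) (nat_lit 188) (nat_lit 0) (nat_lit 145) (nat_lit 124) (nat_lit 121)) (PT.lf (nat_lit 14364) (nat_lit 6) (nat_lit 189) (nat_lit 5) (nat_lit 120) (nat_lit 125) (nat_lit 145)))) (PT.nd (nat_lit 78) (PT.lf (nat_lit 15504) (nat_lit 6) (nat_lit 204) (nat_lit 5) (nat_lit 121) (nat_lit 125) (nat_lit 144)) (PT.nd (nat_lit 78) (PT.lf (nat_lit 16568) (nat_lit 6) (nat_lit 218) (nat_lit 5) (nat_lit 122) (nat_lit 125) (nat_lit 143)) (PT.lf (nat_lit 17556) (nat_lit 6) (nat_lit 231) (nat_lit 5) (nat_lit 123) (nat_lit 125) (nat_lit 142))))) (PT.nd (nat_lit 234) (PT.nd (nat_lit 78) (PT.lf (nat_lit 18468) (nat_lit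 6) (nat_lit 243) (nat_lit 5) (nat_lit 124) (nat_lit 125) (nat_lit 141)) (PT.nd (nat_lit 78) (PT.lf (nat_lit 19304) (nat_lit 3) (nat_lit 254) (nat_lit 3) (nat_lit 125) (nat_lit 125) (nat_lit 140)) (PT.lf (nat_lit 20140) (nat_lit 6) (nat_lit 265) (nat_lit 3) (nat_lit 126) (nat_lit 125) (nat_lit 139)))) (PT.nd (nat_lit 156) (PT.nd (nat_lit 78) (PT.lf (nat_lit 20900) (nat_lit 6) (nat_lit 275) (nat_lit 3) (nat_lit 127) (nat_lit 125) (nat_lit 138)) (PT.lf (nat_lit 21584) (nat_lit 6) (nat_lit 284) (nat_lit 3) (nat_lit 128) (nat_lit 125) (nat_lit 137))) (PT.nd (nat_lit 78) (PT.lf (nat_lit 22192) (nat_lit 6) (nat_lit 292) (nat_lit 3) (nat_lit 129) (nat_lit 125) (nat_lit 136)) (PT.lf (nat_lit 22724) (nat_lit 6) (nat_lit 299) (nat_lit 3) (nat_lit 130) (nat_lit 125) (nat_lit 135)))))) (PT.nd (nat_lit 546) (PT.nd (nat_lit 234) (PT.nd (nat_lit 78) (PT.lf (nat_lit 22800) (nat_lit 6) (nat_lit 300) (nat_lit 3)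 (nat_lit 131) (nat_lit 125) (nat_lit 134)) (PT.nd (nat_lit 78) (PT.lf (nat_lit 22876) (nat_lit 6) (nat_lit 301) (nat_lit 3) (nat_lit 132) (nat_lit 125) (nat_lit 133)) (PT.lf (nat_lit 22876) (nat_lit 6) (nat_lit 301) (nat_lit 1) (nat_lit 133) (nat_lit 125) (nat_lit 132)))) (PT.nd (nat_lit 156) (PT.nd (nat_lit 78) (PT.lf (nat_lit 22800) (nat_lit 6) (nat_lit 300) (nat_lit 1) (nat_lit 134) (nat_lit 125) (nat_lit 131)) (PT.lf (nat_lit 22724) (nat_lit 6) (nat_lit 299) (nat_lit 1) (nat_lit 135) (nat_lit 125) (nat_lit 130))) (PT.nd (nat_lit 78) (PT.lf (nat_lit 22192) (nat_lit 6) (nat_lit 292) (nat_lit 1) (nat_lit 136) (nat_lit 125) (nat_lit 129)) (PT.lf (nat_lit 21584) (nat_lit 6) (nat_lit 284) (nat_lit 1) (nat_lit 137) (nat_lit 125) (nat_lit 128))))) (PT.nd (nat_lit 234) (PT.nd (nat_lit 78) (PT.lf (nat_lit 20900) (nat_lit 6) (nat_lit 275) (nat_lit 1) (nat_lit 138) (nat_lit 125) (nat_lit 127)) (PT.nd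 (nat_lit 78) (PT.lf (nat_lit 20140) (nat_lit 6) (nat_lit 265) (nat_lit 1) (nat_lit 139) (nat_lit 125) (nat_lit 126)) (PT.lf (nat_lit 19304) (nat_lit 3) (nat_lit 254) (nat_lit 0) (nat_lit 140) (nat_lit 125) (nat_lit 125)))) (PT.nd (nat_lit 156) (PT.nd (nat_lit 78) (PT.lf (nat_lit 18468) (nat_lit 6) (nat_lit 243) (nat_lit 0) (nat_lit 141) (nat_lit 125) (nat_lit 124)) (PT.lf (nat_lit 17556) (nat_lit 6) (nat_lit 231) (nat_lit 0) (nat_lit 142) (nat_lit 125) (nat_lit 123))) (PT.nd (nat_lit 78) (PT.lf (nat_lit 16568) (nat_lit 6) (nat_lit 218) (nat_lit 0) (nat_lit 143) (nat_lit 125) (nat_lit 122)) (PT.lf (nat_lit 15504) (nat_lit 6) (nat_lit 204) (nat_lit 0) (nat_lit 144) (nat_lit 125) (nat_lit 121))))))) (PT.nd (nat_lit 39624) (PT.nd (nat_lit 39078) (PT.nd (nat_lit 38766) (PT.nd (nat_lit 38610) (PT.lf (nat_lit 14364) (nat_lit 6) (nat_lit 189) (nat_lit 0) (nat_lit 145) (nat_lit 125) (nat_lit 120)) (PT.nd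 (nat_lit 78) (PT.lf (nat_lit 14440) (nat_lit 6) (nat_lit 190) (nat_lit 5) (nat_lit 119) (nat_lit 126) (nat_lit 145)) (PT.lf (nat_lit 15580) (nat_lit 6) (nat_lit 205) (nat_lit 5) (nat_lit 120) (nat_lit 126) (nat_lit 144)))) (PT.nd (nat_lit 156) (PT.nd (nat_lit 78) (PT.lf (nat_lit 16644) (nat_lit 6) (nat_lit 219) (nat_lit 5) (nat_lit 121) (nat_lit 126) (nat_lit 143)) (PT.lf (nat_lit 17632) (nat_lit 6) (nat_lit 232) (nat_lit 5) (nat_lit 122) (nat_lit 126) (nat_lit 142))) (PT.nd (nat_lit 78) (PT.lf (nat_lit 18544) (nat_lit 6) (nat_lit 244) (nat_lit 5) (nat_lit 123) (nat_lit 126) (nat_lit 141)) (PT.lf (nat_lit 19380) (nat_lit 6) (nat_lit 255) (nat_lit 5) (nat_lit 124) (nat_lit 126) (nat_lit 140))))) (PT.nd (nat_lit 234) (PT.nd (nat_lit 78) (PT.lf (nat_lit 20140) (nat_lit 6) (nat_lit 265) (nat_lit 5) (nat_lit 125) (nat_lit 126) (nat_lit 139)) (PT.nd (nat_lit 78) (PT.lf (nat_lit 20824) (nat_lit 3) (nat_lit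 274) (nat_lit 3) (nat_lit 126) (nat_lit 126) (nat_lit 138)) (PT.lf (nat_lit 21508) (nat_lit 6) (nat_lit 283) (nat_lit 3) (nat_lit 127) (nat_lit 126) (nat_lit 137)))) (PT.nd (nat_lit 156) (PT.nd (nat_lit 78) (PT.lf (nat_lit 22116) (nat_lit 6) (nat_lit 291) (nat_lit 3) (nat_lit 128) (nat_lit 126) (nat_lit 136)) (PT.lf (nat_lit 22648) (nat_lit 6) (nat_lit 298) (nat_lit 3) (nat_lit 129) (nat_lit 126) (nat_lit 135))) (PT.nd (nat_lit 78) (PT.lf (nat_lit 23104) (nat_lit 6) (nat_lit 304) (nat_lit 3) (nat_lit 130) (nat_lit 126) (nat_lit 134)) (PT.lf (nat_lit 23180) (nat_lit 6) (nat_lit 305) (nat_lit 3) (nat_lit 131) (nat_lit 126) (nat_lit 133)))))) (PT.nd (nat_lit 546) (PT.nd (nat_lit 234) (PT.nd (nat_lit 78) (PT.lf (nat_lit 23256) (nat_lit 3) (nat_lit 306) (nat_lit 1) (nat_lit 132) (nat_lit 126) (nat_lit 132)) (PT.nd (nat_lit 78) (PT.lf (nat_lit 23180) (nat_lit 6) (nat_lit 305) (nat_lit 1) (nat_lit 133)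 (nat_lit 126) (nat_lit 131)) (PT.lf (nat_lit 23104) (nat_lit 6) (nat_lit 304) (nat_lit 1) (nat_lit 134) (nat_lit 126) (nat_lit 130)))) (PT.nd (nat_lit 156) (PT.nd (nat_lit 78) (PT.lf (nat_lit 22648) (nat_lit 6) (nat_lit 298) (nat_lit 1) (nat_lit 135) (nat_lit 126) (nat_lit 129)) (PT.lf (nat_lit 22116) (nat_lit 6) (nat_lit 291) (nat_lit 1) (nat_lit 136) (nat_lit 126) (nat_lit 128))) (PT.nd (nat_lit 78) (PT.lf (nat_lit 21508) (nat_lit 6) (nat_lit 283) (nat_lit 1) (nat_lit 137) (nat_lit 126) (nat_lit 127)) (PT.lf (nat_lit 20824) (nat_lit 3) (nat_lit 274) (nat_lit 0) (nat_lit 138) (nat_lit 126) (nat_lit 126))))) (PT.nd (nat_lit 234) (PT.nd (nat_lit 78) (PT.lf (nat_lit 20140) (nat_lit 6) (nat_lit 265) (nat_lit 0) (nat_lit 139) (nat_lit 126) (nat_lit 125)) (PT.nd (nat_lit 78) (PT.lf (nat_lit 19380) (nat_lit 6) (nat_lit 255) (nat_lit 0) (nat_lit 140) (nat_lit 126) (nat_lit 124)) (PT.lf (nat_lit 18544)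 (nat_lit 6) (nat_lit 244) (nat_lit 0) (nat_lit 141) (nat_lit 126) (nat_lit 123)))) (PT.nd (nat_lit 156) (PT.nd (nat_lit 78) (PT.lf (nat_lit 17632) (nat_lit 6) (nat_lit 232) (nat_lit 0) (nat_lit 142) (nat_lit 126) (nat_lit 122)) (PT.lf (nat_lit 16644) (nat_lit 6) (nat_lit 219) (nat_lit 0) (nat_lit 143) (nat_lit 126) (nat_lit 121))) (PT.nd (nat_lit 78) (PT.lf (nat_lit 15580) (nat_lit 6) (nat_lit 205) (nat_lit 0) (nat_lit 144) (nat_lit 126) (nat_lit 120)) (PT.lf (nat_lit 14440) (nat_lit 6) (nat_lit 190) (nat_lit 0) (nat_lit 145) (nat_lit 126) (nat_lit 119))))))))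
noncomputable def pc11 : PT := (PT.nd (nat_lit 2106) (PT.nd (nat_lit 1014) (PT.nd (nat_lit 468) (PT.nd (nat_lit 234) (PT.nd (nat_lit 78) (PT.lf (nat_lit 14516) (nat_lit 6) (nat_lit 191) (nat_lit 5) (nat_lit 118) (nat_lit 127) (nat_lit 145)) (PT.nd (nat_lit 78) (PT.lf (nat_lit 15656) (nat_lit 6) (nat_lit 206) (nat_lit 5) (nat_lit 119) (nat_lit 127) (nat_lit 144)) (PT.lf (nat_lit 16720) (nat_lit 6) (nat_lit 220) (nat_lit 5) (nat_lit 120) (nat_lit 127) (nat_lit 143)))) (PT.nd (nat_lit 78) (PT.lf (nat_lit 17708) (nat_lit 6) (nat_lit 233) (nat_lit 5) (nat_lit 121) (nat_lit 127) (nat_lit 142)) (PT.nd (nat_lit 78) (PT.lf (nat_lit 18620) (nat_lit 6) (nat_lit 245) (nat_lit 5) (nat_lit 122) (nat_lit 127) (nat_lit 141)) (PT.lf (nat_lit 19456) (nat_lit 6) (nat_lit 256) (nat_lit 5) (nat_lit 123) (nat_lit 127) (nat_lit 140))))) (PT.nd (nat_lit 234) (PT.nd (nat_lit 78) (PT.lf (nat_lit 20216) (nat_lit 6) (nat_lit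 266) (nat_lit 5) (nat_lit 124) (nat_lit 127) (nat_lit 139)) (PT.nd (nat_lit 78) (PT.lf (nat_lit 20900) (nat_lit 6) (nat_lit 275) (nat_lit 5) (nat_lit 125) (nat_lit 127) (nat_lit 138)) (PT.lf (nat_lit 21508) (nat_lit 6) (nat_lit 283) (nat_lit 5) (nat_lit 126) (nat_lit 127) (nat_lit 137)))) (PT.nd (nat_lit 156) (PT.nd (nat_lit 78) (PT.lf (nat_lit 22040) (nat_lit 3) (nat_lit 290) (nat_lit 3) (nat_lit 127) (nat_lit 127) (nat_lit 136)) (PT.lf (nat_lit 22572) (nat_lit 6) (nat_lit 297) (nat_lit 3) (nat_lit 128) (nat_lit 127) (nat_lit 135))) (PT.nd (nat_lit 78) (PT.lf (nat_lit 23028) (nat_lit 6) (nat_lit 303) (nat_lit 3) (nat_lit 129) (nat_lit 127) (nat_lit 134)) (PT.lf (nat_lit 23408) (nat_lit 6) (nat_lit 308) (nat_lit 3) (nat_lit 130) (nat_lit 127) (nat_lit 133)))))) (PT.nd (nat_lit 546) (PT.nd (nat_lit 234) (PT.nd (nat_lit 78) (PT.lf (nat_lit 23484) (nat_lit 6) (nat_lit 309) (nat_lit 3) (nat_lit 131)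 (nat_lit 127) (nat_lit 132)) (PT.nd (nat_lit 78) (PT.lf (nat_lit 23484) (nat_lit 6) (nat_lit 309) (nat_lit 1) (nat_lit 132) (nat_lit 127) (nat_lit 131)) (PT.lf (nat_lit 23408) (nat_lit 6) (nat_lit 308) (nat_lit 1) (nat_lit 133) (nat_lit 127) (nat_lit 130)))) (PT.nd (nat_lit 156) (PT.nd (nat_lit 78) (PT.lf (nat_lit 23028) (nat_lit 6) (nat_lit 303) (nat_lit 1) (nat_lit 134) (nat_lit 127) (nat_lit 129)) (PT.lf (nat_lit 22572) (nat_lit 6) (nat_lit 297) (nat_lit 1) (nat_lit 135) (nat_lit 127) (nat_lit 128))) (PT.nd (nat_lit 78) (PT.lf (nat_lit 22040) (nat_lit 3) (nat_lit 290) (nat_lit 0) (nat_lit 136) (nat_lit 127) (nat_lit 127)) (PT.lf (nat_lit 21508) (nat_lit 6) (nat_lit 283) (nat_lit 0) (nat_lit 137) (nat_lit 127) (nat_lit 126))))) (PT.nd (nat_lit 234) (PT.nd (nat_lit 78) (PT.lf (nat_lit 20900) (nat_lit 6) (nat_lit 275) (nat_lit 0) (nat_lit 138) (nat_lit 127) (nat_lit 125)) (PT.nd (nat_lit 78) (PT.lf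 (nat_lit 20216) (nat_lit 6) (nat_lit 266) (nat_lit 0) (nat_lit 139) (nat_lit 127) (nat_lit 124)) (PT.lf (nat_lit 19456) (nat_lit 6) (nat_lit 256) (nat_lit 0) (nat_lit 140) (nat_lit 127) (nat_lit 123)))) (PT.nd (nat_lit 156) (PT.nd (nat_lit 78) (PT.lf (nat_lit 18620) (nat_lit 6) (nat_lit 245) (nat_lit 0) (nat_lit 141) (nat_lit 127) (nat_lit 122)) (PT.lf (nat_lit 17708) (nat_lit 6) (nat_lit 233) (nat_lit 0) (nat_lit 142) (nat_lit 127) (nat_lit 121))) (PT.nd (nat_lit 78) (PT.lf (nat_lit 16720) (nat_lit 6) (nat_lit 220) (nat_lit 0) (nat_lit 143) (nat_lit 127) (nat_lit 120)) (PT.lf (nat_lit 15656) (nat_lit 6) (nat_lit 206) (nat_lit 0) (nat_lit 144) (nat_lit 127) (nat_lit 119))))))) (PT.nd (nat_lit 39468) (PT.nd (nat_lit 38922) (PT.nd (nat_lit 38610) (PT.nd (nat_lit 38454) (PT.lf (nat_lit 14516) (nat_lit 6) (nat_lit 191) (nat_lit 0) (nat_lit 145) (nat_lit 127) (nat_lit 118)) (PT.nd (nat_lit 78) (PT.lf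 (nat_lit 14592) (nat_lit 6) (nat_lit 192) (nat_lit 5) (nat_lit 117) (nat_lit 128) (nat_lit 145)) (PT.lf (nat_lit 15732) (nat_lit 6) (nat_lit 207) (nat_lit 5) (nat_lit 118) (nat_lit 128) (nat_lit 144)))) (PT.nd (nat_lit 156) (PT.nd (nat_lit 78) (PT.lf (nat_lit 16796) (nat_lit 6) (nat_lit 221) (nat_lit 5) (nat_lit 119) (nat_lit 128) (nat_lit 143)) (PT.lf (nat_lit 17784) (nat_lit 6) (nat_lit 234) (nat_lit 5) (nat_lit 120) (nat_lit 128) (nat_lit 142))) (PT.nd (nat_lit 78) (PT.lf (nat_lit 18696) (nat_lit 6) (nat_lit 246) (nat_lit 5) (nat_lit 121) (nat_lit 128) (nat_lit 141)) (PT.lf (nat_lit 19532) (nat_lit 6) (nat_lit 257) (nat_lit 5) (nat_lit 122) (nat_lit 128) (nat_lit 140))))) (PT.nd (nat_lit 234) (PT.nd (nat_lit 78) (PT.lf (nat_lit 20292) (nat_lit 6) (nat_lit 267) (nat_lit 5) (nat_lit 123) (nat_lit 128) (nat_lit 139)) (PT.nd (nat_lit 78) (PT.lf (nat_lit 20976) (nat_lit 6) (nat_lit 276) (nat_lit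 5) (nat_lit 124) (nat_lit 128) (nat_lit 138)) (PT.lf (nat_lit 21584) (nat_lit 6) (nat_lit 284) (nat_lit 5) (nat_lit 125) (nat_lit 128) (nat_lit 137)))) (PT.nd (nat_lit 156) (PT.nd (nat_lit 78) (PT.lf (nat_lit 22116) (nat_lit 6) (nat_lit 291) (nat_lit 5) (nat_lit 126) (nat_lit 128) (nat_lit 136)) (PT.lf (nat_lit 22572) (nat_lit 6) (nat_lit 297) (nat_lit 5) (nat_lit 127) (nat_lit 128) (nat_lit 135))) (PT.nd (nat_lit 78) (PT.lf (nat_lit 22952) (nat_lit 3) (nat_lit 302) (nat_lit 3) (nat_lit 128) (nat_lit 128) (nat_lit 134)) (PT.lf (nat_lit 23332) (nat_lit 6) (nat_lit 307) (nat_lit 3) (nat_lit 129) (nat_lit 128) (nat_lit 133)))))) (PT.nd (nat_lit 546) (PT.nd (nat_lit 234) (PT.nd (nat_lit 78) (PT.lf (nat_lit 23636) (nat_lit 6) (nat_lit 311) (nat_lit 3) (nat_lit 130) (nat_lit 128) (nat_lit 132)) (PT.nd (nat_lit 78) (PT.lf (nat_lit 23712) (nat_lit 3) (nat_lit 312) (nat_lit 1) (nat_lit 131) (nat_lit 128)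 (nat_lit 131)) (PT.lf (nat_lit 23636) (nat_lit 6) (nat_lit 311) (nat_lit 1) (nat_lit 132) (nat_lit 128) (nat_lit 130)))) (PT.nd (nat_lit 156) (PT.nd (nat_lit 78) (PT.lf (nat_lit 23332) (nat_lit 6) (nat_lit 307) (nat_lit 1) (nat_lit 133) (nat_lit 128) (nat_lit 129)) (PT.lf (nat_lit 22952) (nat_lit 3) (nat_lit 302) (nat_lit 0) (nat_lit 134) (nat_lit 128) (nat_lit 128))) (PT.nd (nat_lit 78) (PT.lf (nat_lit 22572) (nat_lit 6) (nat_lit 297) (nat_lit 0) (nat_lit 135) (nat_lit 128) (nat_lit 127)) (PT.lf (nat_lit 22116) (nat_lit 6) (nat_lit 291) (nat_lit 0) (nat_lit 136) (nat_lit 128) (nat_lit 126))))) (PT.nd (nat_lit 234) (PT.nd (nat_lit 78) (PT.lf (nat_lit 21584) (nat_lit 6) (nat_lit 284) (nat_lit 0) (nat_lit 137) (nat_lit 128) (nat_lit 125)) (PT.nd (nat_lit 78) (PT.lf (nat_lit 20976) (nat_lit 6) (nat_lit 276) (nat_lit 0) (nat_lit 138) (nat_lit 128) (nat_lit 124)) (PT.lf (nat_lit 20292) (nat_lit 6)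 (nat_lit 267) (nat_lit 0) (nat_lit 139) (nat_lit 128) (nat_lit 123)))) (PT.nd (nat_lit 156) (PT.nd (nat_lit 78) (PT.lf (nat_lit 19532) (nat_lit 6) (nat_lit 257) (nat_lit 0) (nat_lit 140) (nat_lit 128) (nat_lit 122)) (PT.lf (nat_lit 18696) (nat_lit 6) (nat_lit 246) (nat_lit 0) (nat_lit 141) (nat_lit 128) (nat_lit 121))) (PT.nd (nat_lit 78) (PT.lf (nat_lit 17784) (nat_lit 6) (nat_lit 234) (nat_lit 0) (nat_lit 142) (nat_lit 128) (nat_lit 120)) (PT.lf (nat_lit 16796) (nat_lit 6) (nat_lit 221) (nat_lit 0) (nat_lit 143) (nat_lit 128) (nat_lit 119))))))))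
noncomputable def pc12 : PT := (PT.nd (nat_lit 40404) (PT.nd (nat_lit 39312) (PT.nd (nat_lit 38766) (PT.nd (nat_lit 38532) (PT.nd (nat_lit 78) (PT.lf (nat_lit 15732) (nat_lit 6) (nat_lit 207) (nat_lit 0) (nat_lit 144) (nat_lit 128) (nat_lit 118)) (PT.nd (nat_lit 38376) (PT.lf (nat_lit 14592) (nat_lit 6) (nat_lit 192) (nat_lit 0) (nat_lit 145) (nat_lit 128) (nat_lit 117)) (PT.lf (nat_lit 14668) (nat_lit 6) (nat_lit 193) (nat_lit 5) (nat_lit 116) (nat_lit 129) (nat_lit 145)))) (PT.nd (nat_lit 78) (PT.lf (nat_lit 15808) (nat_lit 6) (nat_lit 208) (nat_lit 5) (nat_lit 117) (nat_lit 129) (nat_lit 144)) (PT.nd (nat_lit 78) (PT.lf (nat_lit 16872) (nat_lit 6) (nat_lit 222) (nat_lit 5) (nat_lit 118) (nat_lit 129) (nat_lit 143)) (PT.lf (nat_lit 17860) (nat_lit 6) (nat_lit 235) (nat_lit 5) (nat_lit 119) (nat_lit 129) (nat_lit 142))))) (PT.nd (nat_lit 234) (PT.nd (nat_lit 78) (PT.lf (nat_lit 18772) (nat_lit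 6) (nat_lit 247) (nat_lit 5) (nat_lit 120) (nat_lit 129) (nat_lit 141)) (PT.nd (nat_lit 78) (PT.lf (nat_lit 19608) (nat_lit 6) (nat_lit 258) (nat_lit 5) (nat_lit 121) (nat_lit 129) (nat_lit 140)) (PT.lf (nat_lit 20368) (nat_lit 6) (nat_lit 268) (nat_lit 5) (nat_lit 122) (nat_lit 129) (nat_lit 139)))) (PT.nd (nat_lit 156) (PT.nd (nat_lit 78) (PT.lf (nat_lit 21052) (nat_lit 6) (nat_lit 277) (nat_lit 5) (nat_lit 123) (nat_lit 129) (nat_lit 138)) (PT.lf (nat_lit 21660) (nat_lit 6) (nat_lit 285) (nat_lit 5) (nat_lit 124) (nat_lit 129) (nat_lit 137))) (PT.nd (nat_lit 78) (PT.lf (nat_lit 22192) (nat_lit 6) (nat_lit 292) (nat_lit 5) (nat_lit 125) (nat_lit 129) (nat_lit 136)) (PT.lf (nat_lit 22648) (nat_lit 6) (nat_lit 298) (nat_lit 5) (nat_lit 126) (nat_lit 129) (nat_lit 135)))))) (PT.nd (nat_lit 546) (PT.nd (nat_lit 234) (PT.nd (nat_lit 78) (PT.lf (nat_lit 23028) (nat_lit 6) (nat_lit 303) (nat_lit 5)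 (nat_lit 127) (nat_lit 129) (nat_lit 134)) (PT.nd (nat_lit 78) (PT.lf (nat_lit 23332) (nat_lit 6) (nat_lit 307) (nat_lit 5) (nat_lit 128) (nat_lit 129) (nat_lit 133)) (PT.lf (nat_lit 23560) (nat_lit 3) (nat_lit 310) (nat_lit 3) (nat_lit 129) (nat_lit 129) (nat_lit 132)))) (PT.nd (nat_lit 156) (PT.nd (nat_lit 78) (PT.lf (nat_lit 23788) (nat_lit 6) (nat_lit 313) (nat_lit 3) (nat_lit 130) (nat_lit 129) (nat_lit 131)) (PT.lf (nat_lit 23788) (nat_lit 6) (nat_lit 313) (nat_lit 1) (nat_lit 131) (nat_lit 129) (nat_lit 130))) (PT.nd (nat_lit 78) (PT.lf (nat_lit 23560) (nat_lit 3) (nat_lit 310) (nat_lit 0) (nat_lit 132) (nat_lit 129) (nat_lit 129)) (PT.lf (nat_lit 23332) (nat_lit 6) (nat_lit 307) (nat_lit 0) (nat_lit 133) (nat_lit 129) (nat_lit 128))))) (PT.nd (nat_lit 234) (PT.nd (nat_lit 78) (PT.lf (nat_lit 23028) (nat_lit 6) (nat_lit 303) (nat_lit 0) (nat_lit 134) (nat_lit 129) (nat_lit 127)) (PT.nd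 (nat_lit 78) (PT.lf (nat_lit 22648) (nat_lit 6) (nat_lit 298) (nat_lit 0) (nat_lit 135) (nat_lit 129) (nat_lit 126)) (PT.lf (nat_lit 22192) (nat_lit 6) (nat_lit 292) (nat_lit 0) (nat_lit 136) (nat_lit 129) (nat_lit 125)))) (PT.nd (nat_lit 156) (PT.nd (nat_lit 78) (PT.lf (nat_lit 21660) (nat_lit 6) (nat_lit 285) (nat_lit 0) (nat_lit 137) (nat_lit 129) (nat_lit 124)) (PT.lf (nat_lit 21052) (nat_lit 6) (nat_lit 277) (nat_lit 0) (nat_lit 138) (nat_lit 129) (nat_lit 123))) (PT.nd (nat_lit 78) (PT.lf (nat_lit 20368) (nat_lit 6) (nat_lit 268) (nat_lit 0) (nat_lit 139) (nat_lit 129) (nat_lit 122)) (PT.lf (nat_lit 19608) (nat_lit 6) (nat_lit 258) (nat_lit 0) (nat_lit 140) (nat_lit 129) (nat_lit 121))))))) (PT.nd (nat_lit 39234) (PT.nd (nat_lit 38688) (PT.nd (nat_lit 234) (PT.nd (nat_lit 78) (PT.lf (nat_lit 18772) (nat_lit 6) (nat_lit 247) (nat_lit 0) (nat_lit 141) (nat_lit 129) (nat_lit 120)) (PT.nd (nat_lit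 78) (PT.lf (nat_lit 17860) (nat_lit 6) (nat_lit 235) (nat_lit 0) (nat_lit 142) (nat_lit 129) (nat_lit 119)) (PT.lf (nat_lit 16872) (nat_lit 6) (nat_lit 222) (nat_lit 0) (nat_lit 143) (nat_lit 129) (nat_lit 118)))) (PT.nd (nat_lit 38298) (PT.nd (nat_lit 78) (PT.lf (nat_lit 15808) (nat_lit 6) (nat_lit 208) (nat_lit 0) (nat_lit 144) (nat_lit 129) (nat_lit 117)) (PT.lf (nat_lit 14668) (nat_lit 6) (nat_lit 193) (nat_lit 0) (nat_lit 145) (nat_lit 129) (nat_lit 116))) (PT.nd (nat_lit 78) (PT.lf (nat_lit 13528) (nat_lit 6) (nat_lit 178) (nat_lit 5) (nat_lit 114) (nat_lit 130) (nat_lit 146)) (PT.lf (nat_lit 14744) (nat_lit 6) (nat_lit 194) (nat_lit 5) (nat_lit 115) (nat_lit 130) (nat_lit 145))))) (PT.nd (nat_lit 234) (PT.nd (nat_lit 78) (PT.lf (nat_lit 15884) (nat_lit 6) (nat_lit 209) (nat_lit 5) (nat_lit 116) (nat_lit 130) (nat_lit 144)) (PT.nd (nat_lit 78) (PT.lf (nat_lit 16948) (nat_lit 6) (nat_lit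 223) (nat_lit 5) (nat_lit 117) (nat_lit 130) (nat_lit 143)) (PT.lf (nat_lit 17936) (nat_lit 6) (nat_lit 236) (nat_lit 5) (nat_lit 118) (nat_lit 130) (nat_lit 142)))) (PT.nd (nat_lit 156) (PT.nd (nat_lit 78) (PT.lf (nat_lit 18848) (nat_lit 6) (nat_lit 248) (nat_lit 5) (nat_lit 119) (nat_lit 130) (nat_lit 141)) (PT.lf (nat_lit 19684) (nat_lit 6) (nat_lit 259) (nat_lit 5) (nat_lit 120) (nat_lit 130) (nat_lit 140))) (PT.nd (nat_lit 78) (PT.lf (nat_lit 20444) (nat_lit 6) (nat_lit 269) (nat_lit 5) (nat_lit 121) (nat_lit 130) (nat_lit 139)) (PT.lf (nat_lit 21128) (nat_lit 6) (nat_lit 278) (nat_lit 5) (nat_lit 122) (nat_lit 130) (nat_lit 138)))))) (PT.nd (nat_lit 546) (PT.nd (nat_lit 234) (PT.nd (nat_lit 78) (PT.lf (nat_lit 21736) (nat_lit 6) (nat_lit 286) (nat_lit 5) (nat_lit 123) (nat_lit 130) (nat_lit 137)) (PT.nd (nat_lit 78) (PT.lf (nat_lit 22268) (nat_lit 6) (nat_lit 293) (nat_lit 5) (nat_lit 124)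 (nat_lit 130) (nat_lit 136)) (PT.lf (nat_lit 22724) (nat_lit 6) (nat_lit 299) (nat_lit 5) (nat_lit 125) (nat_lit 130) (nat_lit 135)))) (PT.nd (nat_lit 156) (PT.nd (nat_lit 78) (PT.lf (nat_lit 23104) (nat_lit 6) (nat_lit 304) (nat_lit 5) (nat_lit 126) (nat_lit 130) (nat_lit 134)) (PT.lf (nat_lit 23408) (nat_lit 6) (nat_lit 308) (nat_lit 5) (nat_lit 127) (nat_lit 130) (nat_lit 133))) (PT.nd (nat_lit 78) (PT.lf (nat_lit 23636) (nat_lit 6) (nat_lit 311) (nat_lit 5) (nat_lit 128) (nat_lit 130) (nat_lit 132)) (PT.lf (nat_lit 23788) (nat_lit 6) (nat_lit 313) (nat_lit 5) (nat_lit 129) (nat_lit 130) (nat_lit 131))))) (PT.nd (nat_lit 234) (PT.nd (nat_lit 78) (PT.lf (nat_lit 23864) (nat_lit 1) (nat_lit 314) (nat_lit 0) (nat_lit 130) (nat_lit 130) (nat_lit 130)) (PT.nd (nat_lit 78) (PT.lf (nat_lit 23788) (nat_lit 6) (nat_lit 313) (nat_lit 0) (nat_lit 131) (nat_lit 130) (nat_lit 129)) (PT.lf (nat_lit 23636)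 (nat_lit 6) (nat_lit 311) (nat_lit 0) (nat_lit 132) (nat_lit 130) (nat_lit 128)))) (PT.nd (nat_lit 156) (PT.nd (nat_lit 78) (PT.lf (nat_lit 23408) (nat_lit 6) (nat_lit 308) (nat_lit 0) (nat_lit 133) (nat_lit 130) (nat_lit 127)) (PT.lf (nat_lit 23104) (nat_lit 6) (nat_lit 304) (nat_lit 0) (nat_lit 134) (nat_lit 130) (nat_lit 126))) (PT.nd (nat_lit 78) (PT.lf (nat_lit 22724) (nat_lit 6) (nat_lit 299) (nat_lit 0) (nat_lit 135) (nat_lit 130) (nat_lit 125)) (PT.lf (nat_lit 22268) (nat_lit 6) (nat_lit 293) (nat_lit 0) (nat_lit 136) (nat_lit 130) (nat_lit 124))))))))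
noncomputable def pc13 : PT := (PT.nd (nat_lit 40092) (PT.nd (nat_lit 39000) (PT.nd (nat_lit 468) (PT.nd (nat_lit 234) (PT.nd (nat_lit 78) (PT.lf (nat_lit 21736) (nat_lit 6) (nat_lit 286) (nat_lit 0) (nat_lit 137) (nat_lit 130) (nat_lit 123)) (PT.nd (nat_lit 78) (PT.lf (nat_lit 21128) (nat_lit 6) (nat_lit 278) (nat_lit 0) (nat_lit 138) (nat_lit 130) (nat_lit 122)) (PT.lf (nat_lit 20444) (nat_lit 6) (nat_lit 269) (nat_lit 0) (nat_lit 139) (nat_lit 130) (nat_lit 121)))) (PT.nd (nat_lit 78) (PT.lf (nat_lit 19684) (nat_lit 6) (nat_lit 259) (nat_lit 0) (nat_lit 140) (nat_lit 130) (nat_lit 120)) (PT.nd (nat_lit 78) (PT.lf (nat_lit 18848) (nat_lit 6) (nat_lit 248) (nat_lit 0) (nat_lit 141) (nat_lit 130) (nat_lit 119)) (PT.lf (nat_lit 17936) (nat_lit 6) (nat_lit 236) (nat_lit 0) (nat_lit 142) (nat_lit 130) (nat_lit 118))))) (PT.nd (nat_lit 234) (PT.nd (nat_lit 78) (PT.lf (nat_lit 16948) (nat_lit 6) (nat_lit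 223) (nat_lit 0) (nat_lit 143) (nat_lit 130) (nat_lit 117)) (PT.nd (nat_lit 78) (PT.lf (nat_lit 15884) (nat_lit 6) (nat_lit 209) (nat_lit 0) (nat_lit 144) (nat_lit 130) (nat_lit 116)) (PT.lf (nat_lit 14744) (nat_lit 6) (nat_lit 194) (nat_lit 0) (nat_lit 145) (nat_lit 130) (nat_lit 115)))) (PT.nd (nat_lit 38142) (PT.nd (nat_lit 38064) (PT.lf (nat_lit 13528) (nat_lit 6) (nat_lit 178) (nat_lit 0) (nat_lit 146) (nat_lit 130) (nat_lit 114)) (PT.lf (nat_lit 12920) (nat_lit 6) (nat_lit 170) (nat_lit 5) (nat_lit 113) (nat_lit 131) (nat_lit 146))) (PT.nd (nat_lit 78) (PT.lf (nat_lit 13604) (nat_lit 6) (nat_lit 179) (nat_lit 5) (nat_lit 114) (nat_lit 131) (nat_lit 145)) (PT.lf (nat_lit 14820) (nat_lit 6) (nat_lit 195) (nat_lit 5) (nat_lit 115) (nat_lit 131) (nat_lit 144)))))) (PT.nd (nat_lit 546) (PT.nd (nat_lit 234) (PT.nd (nat_lit 78) (PT.lf (nat_lit 15960) (nat_lit 6) (nat_lit 210) (nat_lit 5) (nat_lit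 116) (nat_lit 131) (nat_lit 143)) (PT.nd (nat_lit 78) (PT.lf (nat_lit 17024) (nat_lit 6) (nat_lit 224) (nat_lit 5) (nat_lit 117) (nat_lit 131) (nat_lit 142)) (PT.lf (nat_lit 18012) (nat_lit 6) (nat_lit 237) (nat_lit 5) (nat_lit 118) (nat_lit 131) (nat_lit 141)))) (PT.nd (nat_lit 156) (PT.nd (nat_lit 78) (PT.lf (nat_lit 18924) (nat_lit 6) (nat_lit 249) (nat_lit 5) (nat_lit 119) (nat_lit 131) (nat_lit 140)) (PT.lf (nat_lit 19760) (nat_lit 6) (nat_lit 260) (nat_lit 5) (nat_lit 120) (nat_lit 131) (nat_lit 139))) (PT.nd (nat_lit 78) (PT.lf (nat_lit 20520) (nat_lit 6) (nat_lit 270) (nat_lit 5) (nat_lit 121) (nat_lit 131) (nat_lit 138)) (PT.lf (nat_lit 21204) (nat_lit 6) (nat_lit 279) (nat_lit 5) (nat_lit 122) (nat_lit 131) (nat_lit 137))))) (PT.nd (nat_lit 234) (PT.nd (nat_lit 78) (PT.lf (nat_lit 21812) (nat_lit 6) (nat_lit 287) (nat_lit 5) (nat_lit 123) (nat_lit 131) (nat_lit 136)) (PT.nd (nat_lit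 78) (PT.lf (nat_lit 22344) (nat_lit 6) (nat_lit 294) (nat_lit 5) (nat_lit 124) (nat_lit 131) (nat_lit 135)) (PT.lf (nat_lit 22800) (nat_lit 6) (nat_lit 300) (nat_lit 5) (nat_lit 125) (nat_lit 131) (nat_lit 134)))) (PT.nd (nat_lit 156) (PT.nd (nat_lit 78) (PT.lf (nat_lit 23180) (nat_lit 6) (nat_lit 305) (nat_lit 5) (nat_lit 126) (nat_lit 131) (nat_lit 133)) (PT.lf (nat_lit 23484) (nat_lit 6) (nat_lit 309) (nat_lit 5) (nat_lit 127) (nat_lit 131) (nat_lit 132))) (PT.nd (nat_lit 78) (PT.lf (nat_lit 23712) (nat_lit 3) (nat_lit 312) (nat_lit 4) (nat_lit 128) (nat_lit 131) (nat_lit 131)) (PT.lf (nat_lit 23788) (nat_lit 6) (nat_lit 313) (nat_lit 4) (nat_lit 129) (nat_lit 131) (nat_lit 130))))))) (PT.nd (nat_lit 1092) (PT.nd (nat_lit 546) (PT.nd (nat_lit 234) (PT.nd (nat_lit 78) (PT.lf (nat_lit 23788) (nat_lit 6) (nat_lit 313) (nat_lit 2) (nat_lit 130) (nat_lit 131) (nat_lit 129)) (PT.nd (nat_lit 78) (PT.lf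 (nat_lit 23712) (nat_lit 3) (nat_lit 312) (nat_lit 0) (nat_lit 131) (nat_lit 131) (nat_lit 128)) (PT.lf (nat_lit 23484) (nat_lit 6) (nat_lit 309) (nat_lit 0) (nat_lit 132) (nat_lit 131) (nat_lit 127)))) (PT.nd (nat_lit 156) (PT.nd (nat_lit 78) (PT.lf (nat_lit 23180) (nat_lit 6) (nat_lit 305) (nat_lit 0) (nat_lit 133) (nat_lit 131) (nat_lit 126)) (PT.lf (nat_lit 22800) (nat_lit 6) (nat_lit 300) (nat_lit 0) (nat_lit 134) (nat_lit 131) (nat_lit 125))) (PT.nd (nat_lit 78) (PT.lf (nat_lit 22344) (nat_lit 6) (nat_lit 294) (nat_lit 0) (nat_lit 135) (nat_lit 131) (nat_lit 124)) (PT.lf (nat_lit 21812) (nat_lit 6) (nat_lit 287) (nat_lit 0) (nat_lit 136) (nat_lit 131) (nat_lit 123))))) (PT.nd (nat_lit 234) (PT.nd (nat_lit 78) (PT.lf (nat_lit 21204) (nat_lit 6) (nat_lit 279) (nat_lit 0) (nat_lit 137) (nat_lit 131) (nat_lit 122)) (PT.nd (nat_lit 78) (PT.lf (nat_lit 20520) (nat_lit 6) (nat_lit 270) (nat_lit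 0) (nat_lit 138) (nat_lit 131) (nat_lit 121)) (PT.lf (nat_lit 19760) (nat_lit 6) (nat_lit 260) (nat_lit 0) (nat_lit 139) (nat_lit 131) (nat_lit 120)))) (PT.nd (nat_lit 156) (PT.nd (nat_lit 78) (PT.lf (nat_lit 18924) (nat_lit 6) (nat_lit 249) (nat_lit 0) (nat_lit 140) (nat_lit 131) (nat_lit 119)) (PT.lf (nat_lit 18012) (nat_lit 6) (nat_lit 237) (nat_lit 0) (nat_lit 141) (nat_lit 131) (nat_lit 118))) (PT.nd (nat_lit 78) (PT.lf (nat_lit 17024) (nat_lit 6) (nat_lit 224) (nat_lit 0) (nat_lit 142) (nat_lit 131) (nat_lit 117)) (PT.lf (nat_lit 15960) (nat_lit 6) (nat_lit 210) (nat_lit 0) (nat_lit 143) (nat_lit 131) (nat_lit 116)))))) (PT.nd (nat_lit 38454) (PT.nd (nat_lit 38142) (PT.nd (nat_lit 78) (PT.lf (nat_lit 14820) (nat_lit 6) (nat_lit 195) (nat_lit 0) (nat_lit 144) (nat_lit 131) (nat_lit 115)) (PT.nd (nat_lit 78) (PT.lf (nat_lit 13604) (nat_lit 6) (nat_lit 179) (nat_lit 0) (nat_lit 145) (nat_lit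 131) (nat_lit 114)) (PT.lf (nat_lit 12920) (nat_lit 6) (nat_lit 170) (nat_lit 0) (nat_lit 146) (nat_lit 131) (nat_lit 113)))) (PT.nd (nat_lit 156) (PT.nd (nat_lit 78) (PT.lf (nat_lit 12312) (nat_lit 6) (nat_lit 162) (nat_lit 5) (nat_lit 112) (nat_lit 132) (nat_lit 146)) (PT.lf (nat_lit 12996) (nat_lit 6) (nat_lit 171) (nat_lit 5) (nat_lit 113) (nat_lit 132) (nat_lit 145))) (PT.nd (nat_lit 78) (PT.lf (nat_lit 13680) (nat_lit 6) (nat_lit 180) (nat_lit 5) (nat_lit 114) (nat_lit 132) (nat_lit 144)) (PT.lf (nat_lit 14896) (nat_lit 6) (nat_lit 196) (nat_lit 5) (nat_lit 115) (nat_lit 132) (nat_lit 143))))) (PT.nd (nat_lit 234) (PT.nd (nat_lit 78) (PT.lf (nat_lit 16036) (nat_lit 6) (nat_lit 211) (nat_lit 5) (nat_lit 116) (nat_lit 132) (nat_lit 142)) (PT.nd (nat_lit 78) (PT.lf (nat_lit 17100) (nat_lit 6) (nat_lit 225) (nat_lit 5) (nat_lit 117) (nat_lit 132) (nat_lit 141)) (PT.lf (nat_lit 18088) (nat_lit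 6) (nat_lit 238) (nat_lit 5) (nat_lit 118) (nat_lit 132) (nat_lit 140)))) (PT.nd (nat_lit 156) (PT.nd (nat_lit 78) (PT.lf (nat_lit 19000) (nat_lit 6) (nat_lit 250) (nat_lit 5) (nat_lit 119) (nat_lit 132) (nat_lit 139)) (PT.lf (nat_lit 19836) (nat_lit 6) (nat_lit 261) (nat_lit 5) (nat_lit 120) (nat_lit 132) (nat_lit 138))) (PT.nd (nat_lit 78) (PT.lf (nat_lit 20596) (nat_lit 6) (nat_lit 271) (nat_lit 5) (nat_lit 121) (nat_lit 132) (nat_lit 137)) (PT.lf (nat_lit 21280) (nat_lit 6) (nat_lit 280) (nat_lit 5) (nat_lit 122) (nat_lit 132) (nat_lit 136))))))))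
noncomputable def pc14 : PT := (PT.nd (nat_lit 39936) (PT.nd (nat_lit 1014) (PT.nd (nat_lit 468) (PT.nd (nat_lit 234) (PT.nd (nat_lit 78) (PT.lf (nat_lit 21888) (nat_lit 6) (nat_lit 288) (nat_lit 5) (nat_lit 123) (nat_lit 132) (nat_lit 135)) (PT.nd (nat_lit 78) (PT.lf (nat_lit 22420) (nat_lit 6) (nat_lit 295) (nat_lit 5) (nat_lit 124) (nat_lit 132) (nat_lit 134)) (PT.lf (nat_lit 22876) (nat_lit 6) (nat_lit 301) (nat_lit 5) (nat_lit 125) (nat_lit 132) (nat_lit 133)))) (PT.nd (nat_lit 78) (PT.lf (nat_lit 23256) (nat_lit 3) (nat_lit 306) (nat_lit 4) (nat_lit 126) (nat_lit 132) (nat_lit 132)) (PT.nd (nat_lit 78) (PT.lf (nat_lit 23484) (nat_lit 6) (nat_lit 309) (nat_lit 4) (nat_lit 127) (nat_lit 132) (nat_lit 131)) (PT.lf (nat_lit 23636) (nat_lit 6) (nat_lit 311) (nat_lit 4) (nat_lit 128) (nat_lit 132) (nat_lit 130))))) (PT.nd (nat_lit 234) (PT.nd (nat_lit 78) (PT.lf (nat_lit 23560) (nat_lit 3) (nat_lit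 310) (nat_lit 2) (nat_lit 129) (nat_lit 132) (nat_lit 129)) (PT.nd (nat_lit 78) (PT.lf (nat_lit 23636) (nat_lit 6) (nat_lit 311) (nat_lit 2) (nat_lit 130) (nat_lit 132) (nat_lit 128)) (PT.lf (nat_lit 23484) (nat_lit 6) (nat_lit 309) (nat_lit 2) (nat_lit 131) (nat_lit 132) (nat_lit 127)))) (PT.nd (nat_lit 156) (PT.nd (nat_lit 78) (PT.lf (nat_lit 23256) (nat_lit 3) (nat_lit 306) (nat_lit 0) (nat_lit 132) (nat_lit 132) (nat_lit 126)) (PT.lf (nat_lit 22876) (nat_lit 6) (nat_lit 301) (nat_lit 0) (nat_lit 133) (nat_lit 132) (nat_lit 125))) (PT.nd (nat_lit 78) (PT.lf (nat_lit 22420) (nat_lit 6) (nat_lit 295) (nat_lit 0) (nat_lit 134) (nat_lit 132) (nat_lit 124)) (PT.lf (nat_lit 21888) (nat_lit 6) (nat_lit 288) (nat_lit 0) (nat_lit 135) (nat_lit 132) (nat_lit 123)))))) (PT.nd (nat_lit 546) (PT.nd (nat_lit 234) (PT.nd (nat_lit 78) (PT.lf (nat_lit 21280) (nat_lit 6) (nat_lit 280) (nat_lit 0) (nat_lit 136)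 (nat_lit 132) (nat_lit 122)) (PT.nd (nat_lit 78) (PT.lf (nat_lit 20596) (nat_lit 6) (nat_lit 271) (nat_lit 0) (nat_lit 137) (nat_lit 132) (nat_lit 121)) (PT.lf (nat_lit 19836) (nat_lit 6) (nat_lit 261) (nat_lit 0) (nat_lit 138) (nat_lit 132) (nat_lit 120)))) (PT.nd (nat_lit 156) (PT.nd (nat_lit 78) (PT.lf (nat_lit 19000) (nat_lit 6) (nat_lit 250) (nat_lit 0) (nat_lit 139) (nat_lit 132) (nat_lit 119)) (PT.lf (nat_lit 18088) (nat_lit 6) (nat_lit 238) (nat_lit 0) (nat_lit 140) (nat_lit 132) (nat_lit 118))) (PT.nd (nat_lit 78) (PT.lf (nat_lit 17100) (nat_lit 6) (nat_lit 225) (nat_lit 0) (nat_lit 141) (nat_lit 132) (nat_lit 117)) (PT.lf (nat_lit 16036) (nat_lit 6) (nat_lit 211) (nat_lit 0) (nat_lit 142) (nat_lit 132) (nat_lit 116))))) (PT.nd (nat_lit 234) (PT.nd (nat_lit 78) (PT.lf (nat_lit 14896) (nat_lit 6) (nat_lit 196) (nat_lit 0) (nat_lit 143) (nat_lit 132) (nat_lit 115)) (PT.nd (nat_lit 78) (PT.lf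 (nat_lit 13680) (nat_lit 6) (nat_lit 180) (nat_lit 0) (nat_lit 144) (nat_lit 132) (nat_lit 114)) (PT.lf (nat_lit 12996) (nat_lit 6) (nat_lit 171) (nat_lit 0) (nat_lit 145) (nat_lit 132) (nat_lit 113)))) (PT.nd (nat_lit 37986) (PT.nd (nat_lit 37908) (PT.lf (nat_lit 12312) (nat_lit 6) (nat_lit 162) (nat_lit 0) (nat_lit 146) (nat_lit 132) (nat_lit 112)) (PT.lf (nat_lit 11780) (nat_lit 6) (nat_lit 155) (nat_lit 5) (nat_lit 111) (nat_lit 133) (nat_lit 146))) (PT.nd (nat_lit 78) (PT.lf (nat_lit 12388) (nat_lit 6) (nat_lit 163) (nat_lit 5) (nat_lit 112) (nat_lit 133) (nat_lit 145)) (PT.lf (nat_lit 13072) (nat_lit 6) (nat_lit 172) (nat_lit 5) (nat_lit 113) (nat_lit 133) (nat_lit 144))))))) (PT.nd (nat_lit 1092) (PT.nd (nat_lit 546) (PT.nd (nat_lit 234) (PT.nd (nat_lit 78) (PT.lf (nat_lit 13756) (nat_lit 6) (nat_lit 181) (nat_lit 5) (nat_lit 114) (nat_lit 133) (nat_lit 143)) (PT.nd (nat_lit 78) (PT.lf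 (nat_lit 14972) (nat_lit 6) (nat_lit 197) (nat_lit 5) (nat_lit 115) (nat_lit 133) (nat_lit 142)) (PT.lf (nat_lit 16112) (nat_lit 6) (nat_lit 212) (nat_lit 5) (nat_lit 116) (nat_lit 133) (nat_lit 141)))) (PT.nd (nat_lit 156) (PT.nd (nat_lit 78) (PT.lf (nat_lit 17176) (nat_lit 6) (nat_lit 226) (nat_lit 5) (nat_lit 117) (nat_lit 133) (nat_lit 140)) (PT.lf (nat_lit 18164) (nat_lit 6) (nat_lit 239) (nat_lit 5) (nat_lit 118) (nat_lit 133) (nat_lit 139))) (PT.nd (nat_lit 78) (PT.lf (nat_lit 19076) (nat_lit 6) (nat_lit 251) (nat_lit 5) (nat_lit 119) (nat_lit 133) (nat_lit 138)) (PT.lf (nat_lit 19912) (nat_lit 6) (nat_lit 262) (nat_lit 5) (nat_lit 120) (nat_lit 133) (nat_lit 137))))) (PT.nd (nat_lit 234) (PT.nd (nat_lit 78) (PT.lf (nat_lit 20672) (nat_lit 6) (nat_lit 272) (nat_lit 5) (nat_lit 121) (nat_lit 133) (nat_lit 136)) (PT.nd (nat_lit 78) (PT.lf (nat_lit 21356) (nat_lit 6) (nat_lit 281) (nat_lit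 5) (nat_lit 122) (nat_lit 133) (nat_lit 135)) (PT.lf (nat_lit 21964) (nat_lit 6) (nat_lit 289) (nat_lit 5) (nat_lit 123) (nat_lit 133) (nat_lit 134)))) (PT.nd (nat_lit 156) (PT.nd (nat_lit 78) (PT.lf (nat_lit 22496) (nat_lit 3) (nat_lit 296) (nat_lit 4) (nat_lit 124) (nat_lit 133) (nat_lit 133)) (PT.lf (nat_lit 22876) (nat_lit 6) (nat_lit 301) (nat_lit 4) (nat_lit 125) (nat_lit 133) (nat_lit 132))) (PT.nd (nat_lit 78) (PT.lf (nat_lit 23180) (nat_lit 6) (nat_lit 305) (nat_lit 4) (nat_lit 126) (nat_lit 133) (nat_lit 131)) (PT.lf (nat_lit 23408) (nat_lit 6) (nat_lit 308) (nat_lit 4) (nat_lit 127) (nat_lit 133) (nat_lit 130)))))) (PT.nd (nat_lit 546) (PT.nd (nat_lit 234) (PT.nd (nat_lit 78) (PT.lf (nat_lit 23332) (nat_lit 6) (nat_lit 307) (nat_lit 4) (nat_lit 128) (nat_lit 133) (nat_lit 129)) (PT.nd (nat_lit 78) (PT.lf (nat_lit 23332) (nat_lit 6) (nat_lit 307) (nat_lit 2) (nat_lit 129) (nat_lit 133)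 (nat_lit 128)) (PT.lf (nat_lit 23408) (nat_lit 6) (nat_lit 308) (nat_lit 2) (nat_lit 130) (nat_lit 133) (nat_lit 127)))) (PT.nd (nat_lit 156) (PT.nd (nat_lit 78) (PT.lf (nat_lit 23180) (nat_lit 6) (nat_lit 305) (nat_lit 2) (nat_lit 131) (nat_lit 133) (nat_lit 126)) (PT.lf (nat_lit 22876) (nat_lit 6) (nat_lit 301) (nat_lit 2) (nat_lit 132) (nat_lit 133) (nat_lit 125))) (PT.nd (nat_lit 78) (PT.lf (nat_lit 22496) (nat_lit 3) (nat_lit 296) (nat_lit 0) (nat_lit 133) (nat_lit 133) (nat_lit 124)) (PT.lf (nat_lit 21964) (nat_lit 6) (nat_lit 289) (nat_lit 0) (nat_lit 134) (nat_lit 133) (nat_lit 123))))) (PT.nd (nat_lit 234) (PT.nd (nat_lit 78) (PT.lf (nat_lit 21356) (nat_lit 6) (nat_lit 281) (nat_lit 0) (nat_lit 135) (nat_lit 133) (nat_lit 122)) (PT.nd (nat_lit 78) (PT.lf (nat_lit 20672) (nat_lit 6) (nat_lit 272) (nat_lit 0) (nat_lit 136) (nat_lit 133) (nat_lit 121)) (PT.lf (nat_lit 19912) (nat_lit 6)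 (nat_lit 262) (nat_lit 0) (nat_lit 137) (nat_lit 133) (nat_lit 120)))) (PT.nd (nat_lit 156) (PT.nd (nat_lit 78) (PT.lf (nat_lit 19076) (nat_lit 6) (nat_lit 251) (nat_lit 0) (nat_lit 138) (nat_lit 133) (nat_lit 119)) (PT.lf (nat_lit 18164) (nat_lit 6) (nat_lit 239) (nat_lit 0) (nat_lit 139) (nat_lit 133) (nat_lit 118))) (PT.nd (nat_lit 78) (PT.lf (nat_lit 17176) (nat_lit 6) (nat_lit 226) (nat_lit 0) (nat_lit 140) (nat_lit 133) (nat_lit 117)) (PT.lf (nat_lit 16112) (nat_lit 6) (nat_lit 212) (nat_lit 0) (nat_lit 141) (nat_lit 133) (nat_lit 116))))))))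
noncomputable def pc15 : PT := (PT.nd (nat_lit 39780) (PT.nd (nat_lit 38688) (PT.nd (nat_lit 38142) (PT.nd (nat_lit 234) (PT.nd (nat_lit 78) (PT.lf (nat_lit 14972) (nat_lit 6) (nat_lit 197) (nat_lit 0) (nat_lit 142) (nat_lit 133) (nat_lit 115)) (PT.nd (nat_lit 78) (PT.lf (nat_lit 13756) (nat_lit 6) (nat_lit 181) (nat_lit 0) (nat_lit 143) (nat_lit 133) (nat_lit 114)) (PT.lf (nat_lit 13072) (nat_lit 6) (nat_lit 172) (nat_lit 0) (nat_lit 144) (nat_lit 133) (nat_lit 113)))) (PT.nd (nat_lit 78) (PT.lf (nat_lit 12388) (nat_lit 6) (nat_lit 163) (nat_lit 0) (nat_lit 145) (nat_lit 133) (nat_lit 112)) (PT.nd (nat_lit 37752) (PT.lf (nat_lit 11780) (nat_lit 6) (nat_lit 155) (nat_lit 0) (nat_lit 146) (nat_lit 133) (nat_lit 111)) (PT.lf (nat_lit 10716) (nat_lit 6) (nat_lit 141) (nat_lit 5) (nat_lit 109) (nat_lit 134) (nat_lit 147))))) (PT.nd (nat_lit 234) (PT.nd (nat_lit 78) (PT.lf (nat_lit 11248) (nat_lit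 6) (nat_lit 148) (nat_lit 5) (nat_lit 110) (nat_lit 134) (nat_lit 146)) (PT.nd (nat_lit 78) (PT.lf (nat_lit 11856) (nat_lit 6) (nat_lit 156) (nat_lit 5) (nat_lit 111) (nat_lit 134) (nat_lit 145)) (PT.lf (nat_lit 12464) (nat_lit 6) (nat_lit 164) (nat_lit 5) (nat_lit 112) (nat_lit 134) (nat_lit 144)))) (PT.nd (nat_lit 156) (PT.nd (nat_lit 78) (PT.lf (nat_lit 13148) (nat_lit 6) (nat_lit 173) (nat_lit 5) (nat_lit 113) (nat_lit 134) (nat_lit 143)) (PT.lf (nat_lit 13832) (nat_lit 6) (nat_lit 182) (nat_lit 5) (nat_lit 114) (nat_lit 134) (nat_lit 142))) (PT.nd (nat_lit 78) (PT.lf (nat_lit 15048) (nat_lit 6) (nat_lit 198) (nat_lit 5) (nat_lit 115) (nat_lit 134) (nat_lit 141)) (PT.lf (nat_lit 16188) (nat_lit 6) (nat_lit 213) (nat_lit 5) (nat_lit 116) (nat_lit 134) (nat_lit 140)))))) (PT.nd (nat_lit 546) (PT.nd (nat_lit 234) (PT.nd (nat_lit 78) (PT.lf (nat_lit 17252) (nat_lit 6) (nat_lit 227) (nat_lit 5)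 (nat_lit 117) (nat_lit 134) (nat_lit 139)) (PT.nd (nat_lit 78) (PT.lf (nat_lit 18240) (nat_lit 6) (nat_lit 240) (nat_lit 5) (nat_lit 118) (nat_lit 134) (nat_lit 138)) (PT.lf (nat_lit 19152) (nat_lit 6) (nat_lit 252) (nat_lit 5) (nat_lit 119) (nat_lit 134) (nat_lit 137)))) (PT.nd (nat_lit 156) (PT.nd (nat_lit 78) (PT.lf (nat_lit 19988) (nat_lit 6) (nat_lit 263) (nat_lit 5) (nat_lit 120) (nat_lit 134) (nat_lit 136)) (PT.lf (nat_lit 20748) (nat_lit 6) (nat_lit 273) (nat_lit 5) (nat_lit 121) (nat_lit 134) (nat_lit 135))) (PT.nd (nat_lit 78) (PT.lf (nat_lit 21432) (nat_lit 3) (nat_lit 282) (nat_lit 4) (nat_lit 122) (nat_lit 134) (nat_lit 134)) (PT.lf (nat_lit 21964) (nat_lit 6) (nat_lit 289) (nat_lit 4) (nat_lit 123) (nat_lit 134) (nat_lit 133))))) (PT.nd (nat_lit 234) (PT.nd (nat_lit 78) (PT.lf (nat_lit 22420) (nat_lit 6) (nat_lit 295) (nat_lit 4) (nat_lit 124) (nat_lit 134) (nat_lit 132)) (PT.nd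 (nat_lit 78) (PT.lf (nat_lit 22800) (nat_lit 6) (nat_lit 300) (nat_lit 4) (nat_lit 125) (nat_lit 134) (nat_lit 131)) (PT.lf (nat_lit 23104) (nat_lit 6) (nat_lit 304) (nat_lit 4) (nat_lit 126) (nat_lit 134) (nat_lit 130)))) (PT.nd (nat_lit 156) (PT.nd (nat_lit 78) (PT.lf (nat_lit 23028) (nat_lit 6) (nat_lit 303) (nat_lit 4) (nat_lit 127) (nat_lit 134) (nat_lit 129)) (PT.lf (nat_lit 22952) (nat_lit 3) (nat_lit 302) (nat_lit 2) (nat_lit 128) (nat_lit 134) (nat_lit 128))) (PT.nd (nat_lit 78) (PT.lf (nat_lit 23028) (nat_lit 6) (nat_lit 303) (nat_lit 2) (nat_lit 129) (nat_lit 134) (nat_lit 127)) (PT.lf (nat_lit 23104) (nat_lit 6) (nat_lit 304) (nat_lit 2) (nat_lit 130) (nat_lit 134) (nat_lit 126))))))) (PT.nd (nat_lit 1092) (PT.nd (nat_lit 546) (PT.nd (nat_lit 234) (PT.nd (nat_lit 78) (PT.lf (nat_lit 22800) (nat_lit 6) (nat_lit 300) (nat_lit 2) (nat_lit 131) (nat_lit 134) (nat_lit 125)) (PT.nd (nat_lit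 78) (PT.lf (nat_lit 22420) (nat_lit 6) (nat_lit 295) (nat_lit 2) (nat_lit 132) (nat_lit 134) (nat_lit 124)) (PT.lf (nat_lit 21964) (nat_lit 6) (nat_lit 289) (nat_lit 2) (nat_lit 133) (nat_lit 134) (nat_lit 123)))) (PT.nd (nat_lit 156) (PT.nd (nat_lit 78) (PT.lf (nat_lit 21432) (nat_lit 3) (nat_lit 282) (nat_lit 0) (nat_lit 134) (nat_lit 134) (nat_lit 122)) (PT.lf (nat_lit 20748) (nat_lit 6) (nat_lit 273) (nat_lit 0) (nat_lit 135) (nat_lit 134) (nat_lit 121))) (PT.nd (nat_lit 78) (PT.lf (nat_lit 19988) (nat_lit 6) (nat_lit 263) (nat_lit 0) (nat_lit 136) (nat_lit 134) (nat_lit 120)) (PT.lf (nat_lit 19152) (nat_lit 6) (nat_lit 252) (nat_lit 0) (nat_lit 137) (nat_lit 134) (nat_lit 119))))) (PT.nd (nat_lit 234) (PT.nd (nat_lit 78) (PT.lf (nat_lit 18240) (nat_lit 6) (nat_lit 240) (nat_lit 0) (nat_lit 138) (nat_lit 134) (nat_lit 118)) (PT.nd (nat_lit 78) (PT.lf (nat_lit 17252) (nat_lit 6) (nat_lit 227)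 (nat_lit 0) (nat_lit 139) (nat_lit 134) (nat_lit 117)) (PT.lf (nat_lit 16188) (nat_lit 6) (nat_lit 213) (nat_lit 0) (nat_lit 140) (nat_lit 134) (nat_lit 116)))) (PT.nd (nat_lit 156) (PT.nd (nat_lit 78) (PT.lf (nat_lit 15048) (nat_lit 6) (nat_lit 198) (nat_lit 0) (nat_lit 141) (nat_lit 134) (nat_lit 115)) (PT.lf (nat_lit 13832) (nat_lit 6) (nat_lit 182) (nat_lit 0) (nat_lit 142) (nat_lit 134) (nat_lit 114))) (PT.nd (nat_lit 78) (PT.lf (nat_lit 13148) (nat_lit 6) (nat_lit 173) (nat_lit 0) (nat_lit 143) (nat_lit 134) (nat_lit 113)) (PT.lf (nat_lit 12464) (nat_lit 6) (nat_lit 164) (nat_lit 0) (nat_lit 144) (nat_lit 134) (nat_lit 112)))))) (PT.nd (nat_lit 38064) (PT.nd (nat_lit 37752) (PT.nd (nat_lit 78) (PT.lf (nat_lit 11856) (nat_lit 6) (nat_lit 156) (nat_lit 0) (nat_lit 145) (nat_lit 134) (nat_lit 111)) (PT.nd (nat_lit 78) (PT.lf (nat_lit 11248) (nat_lit 6) (nat_lit 148) (nat_lit 0) (nat_lit 146)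 (nat_lit 134) (nat_lit 110)) (PT.lf (nat_lit 10716) (nat_lit 6) (nat_lit 141) (nat_lit 0) (nat_lit 147) (nat_lit 134) (nat_lit 109)))) (PT.nd (nat_lit 156) (PT.nd (nat_lit 78) (PT.lf (nat_lit 10184) (nat_lit 6) (nat_lit 134) (nat_lit 5) (nat_lit 108) (nat_lit 135) (nat_lit 147)) (PT.lf (nat_lit 10792) (nat_lit 6) (nat_lit 142) (nat_lit 5) (nat_lit 109) (nat_lit 135) (nat_lit 146))) (PT.nd (nat_lit 78) (PT.lf (nat_lit 11324) (nat_lit 6) (nat_lit 149) (nat_lit 5) (nat_lit 110) (nat_lit 135) (nat_lit 145)) (PT.lf (nat_lit 11932) (nat_lit 6) (nat_lit 157) (nat_lit 5) (nat_lit 111) (nat_lit 135) (nat_lit 144))))) (PT.nd (nat_lit 234) (PT.nd (nat_lit 78) (PT.lf (nat_lit 12540) (nat_lit 6) (nat_lit 165) (nat_lit 5) (nat_lit 112) (nat_lit 135) (nat_lit 143)) (PT.nd (nat_lit 78) (PT.lf (nat_lit 13224) (nat_lit 6) (nat_lit 174) (nat_lit 5) (nat_lit 113) (nat_lit 135) (nat_lit 142)) (PT.lf (nat_lit 13908)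 (nat_lit 6) (nat_lit 183) (nat_lit 5) (nat_lit 114) (nat_lit 135) (nat_lit 141)))) (PT.nd (nat_lit 156) (PT.nd (nat_lit 78) (PT.lf (nat_lit 15124) (nat_lit 6) (nat_lit 199) (nat_lit 5) (nat_lit 115) (nat_lit 135) (nat_lit 140)) (PT.lf (nat_lit 16264) (nat_lit 6) (nat_lit 214) (nat_lit 5) (nat_lit 116) (nat_lit 135) (nat_lit 139))) (PT.nd (nat_lit 78) (PT.lf (nat_lit 17328) (nat_lit 6) (nat_lit 228) (nat_lit 5) (nat_lit 117) (nat_lit 135) (nat_lit 138)) (PT.lf (nat_lit 18316) (nat_lit 6) (nat_lit 241) (nat_lit 5) (nat_lit 118) (nat_lit 135) (nat_lit 137))))))))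
noncomputable def pc16 : PT := (PT.nd (nat_lit 2106) (PT.nd (nat_lit 1014) (PT.nd (nat_lit 468) (PT.nd (nat_lit 234) (PT.nd (nat_lit 78) (PT.lf (nat_lit 19228) (nat_lit 6) (nat_lit 253) (nat_lit 5) (nat_lit 119) (nat_lit 135) (nat_lit 136)) (PT.nd (nat_lit 78) (PT.lf (nat_lit 20064) (nat_lit 3) (nat_lit 264) (nat_lit 4) (nat_lit 120) (nat_lit 135) (nat_lit 135)) (PT.lf (nat_lit 20748) (nat_lit 6) (nat_lit 273) (nat_lit 4) (nat_lit 121) (nat_lit 135) (nat_lit 134)))) (PT.nd (nat_lit 78) (PT.lf (nat_lit 21356) (nat_lit 6) (nat_lit 281) (nat_lit 4) (nat_lit 122) (nat_lit 135) (nat_lit 133)) (PT.nd (nat_lit 78) (PT.lf (nat_lit 21888) (nat_lit 6) (nat_lit 288) (nat_lit 4) (nat_lit 123) (nat_lit 135) (nat_lit 132)) (PT.lf (nat_lit 22344) (nat_lit 6) (nat_lit 294) (nat_lit 4) (nat_lit 124) (nat_lit 135) (nat_lit 131))))) (PT.nd (nat_lit 234) (PT.nd (nat_lit 78) (PT.lf (nat_lit 22724) (nat_lit 6) (nat_lit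 299) (nat_lit 4) (nat_lit 125) (nat_lit 135) (nat_lit 130)) (PT.nd (nat_lit 78) (PT.lf (nat_lit 22648) (nat_lit 6) (nat_lit 298) (nat_lit 4) (nat_lit 126) (nat_lit 135) (nat_lit 129)) (PT.lf (nat_lit 22572) (nat_lit 6) (nat_lit 297) (nat_lit 4) (nat_lit 127) (nat_lit 135) (nat_lit 128)))) (PT.nd (nat_lit 156) (PT.nd (nat_lit 78) (PT.lf (nat_lit 22572) (nat_lit 6) (nat_lit 297) (nat_lit 2) (nat_lit 128) (nat_lit 135) (nat_lit 127)) (PT.lf (nat_lit 22648) (nat_lit 6) (nat_lit 298) (nat_lit 2) (nat_lit 129) (nat_lit 135) (nat_lit 126))) (PT.nd (nat_lit 78) (PT.lf (nat_lit 22724) (nat_lit 6) (nat_lit 299) (nat_lit 2) (nat_lit 130) (nat_lit 135) (nat_lit 125)) (PT.lf (nat_lit 22344) (nat_lit 6) (nat_lit 294) (nat_lit 2) (nat_lit 131) (nat_lit 135) (nat_lit 124)))))) (PT.nd (nat_lit 546) (PT.nd (nat_lit 234) (PT.nd (nat_lit 78) (PT.lf (nat_lit 21888) (nat_lit 6) (nat_lit 288) (nat_lit 2) (nat_lit 132)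 (nat_lit 135) (nat_lit 123)) (PT.nd (nat_lit 78) (PT.lf (nat_lit 21356) (nat_lit 6) (nat_lit 281) (nat_lit 2) (nat_lit 133) (nat_lit 135) (nat_lit 122)) (PT.lf (nat_lit 20748) (nat_lit 6) (nat_lit 273) (nat_lit 2) (nat_lit 134) (nat_lit 135) (nat_lit 121)))) (PT.nd (nat_lit 156) (PT.nd (nat_lit 78) (PT.lf (nat_lit 20064) (nat_lit 3) (nat_lit 264) (nat_lit 0) (nat_lit 135) (nat_lit 135) (nat_lit 120)) (PT.lf (nat_lit 19228) (nat_lit 6) (nat_lit 253) (nat_lit 0) (nat_lit 136) (nat_lit 135) (nat_lit 119))) (PT.nd (nat_lit 78) (PT.lf (nat_lit 18316) (nat_lit 6) (nat_lit 241) (nat_lit 0) (nat_lit 137) (nat_lit 135) (nat_lit 118)) (PT.lf (nat_lit 17328) (nat_lit 6) (nat_lit 228) (nat_lit 0) (nat_lit 138) (nat_lit 135) (nat_lit 117))))) (PT.nd (nat_lit 234) (PT.nd (nat_lit 78) (PT.lf (nat_lit 16264) (nat_lit 6) (nat_lit 214) (nat_lit 0) (nat_lit 139) (nat_lit 135) (nat_lit 116)) (PT.nd (nat_lit 78) (PT.lf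 (nat_lit 15124) (nat_lit 6) (nat_lit 199) (nat_lit 0) (nat_lit 140) (nat_lit 135) (nat_lit 115)) (PT.lf (nat_lit 13908) (nat_lit 6) (nat_lit 183) (nat_lit 0) (nat_lit 141) (nat_lit 135) (nat_lit 114)))) (PT.nd (nat_lit 156) (PT.nd (nat_lit 78) (PT.lf (nat_lit 13224) (nat_lit 6) (nat_lit 174) (nat_lit 0) (nat_lit 142) (nat_lit 135) (nat_lit 113)) (PT.lf (nat_lit 12540) (nat_lit 6) (nat_lit 165) (nat_lit 0) (nat_lit 143) (nat_lit 135) (nat_lit 112))) (PT.nd (nat_lit 78) (PT.lf (nat_lit 11932) (nat_lit 6) (nat_lit 157) (nat_lit 0) (nat_lit 144) (nat_lit 135) (nat_lit 111)) (PT.lf (nat_lit 11324) (nat_lit 6) (nat_lit 149) (nat_lit 0) (nat_lit 145) (nat_lit 135) (nat_lit 110))))))) (PT.nd (nat_lit 38532) (PT.nd (nat_lit 37986) (PT.nd (nat_lit 37674) (PT.nd (nat_lit 78) (PT.lf (nat_lit 10792) (nat_lit 6) (nat_lit 142) (nat_lit 0) (nat_lit 146) (nat_lit 135) (nat_lit 109)) (PT.nd (nat_lit 37518) (PT.lf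 (nat_lit 10184) (nat_lit 6) (nat_lit 134) (nat_lit 0) (nat_lit 147) (nat_lit 135) (nat_lit 108)) (PT.lf (nat_lit 9728) (nat_lit 6) (nat_lit 128) (nat_lit 5) (nat_lit 107) (nat_lit 136) (nat_lit 147)))) (PT.nd (nat_lit 156) (PT.nd (nat_lit 78) (PT.lf (nat_lit 10260) (nat_lit 6) (nat_lit 135) (nat_lit 5) (nat_lit 108) (nat_lit 136) (nat_lit 146)) (PT.lf (nat_lit 10868) (nat_lit 6) (nat_lit 143) (nat_lit 5) (nat_lit 109) (nat_lit 136) (nat_lit 145))) (PT.nd (nat_lit 78) (PT.lf (nat_lit 11400) (nat_lit 6) (nat_lit 150) (nat_lit 5) (nat_lit 110) (nat_lit 136) (nat_lit 144)) (PT.lf (nat_lit 12008) (nat_lit 6) (nat_lit 158) (nat_lit 5) (nat_lit 111) (nat_lit 136) (nat_lit 143))))) (PT.nd (nat_lit 234) (PT.nd (nat_lit 78) (PT.lf (nat_lit 12616) (nat_lit 6) (nat_lit 166) (nat_lit 5) (nat_lit 112) (nat_lit 136) (nat_lit 142)) (PT.nd (nat_lit 78) (PT.lf (nat_lit 13300) (nat_lit 6) (nat_lit 175) (nat_lit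 5) (nat_lit 113) (nat_lit 136) (nat_lit 141)) (PT.lf (nat_lit 13984) (nat_lit 6) (nat_lit 184) (nat_lit 5) (nat_lit 114) (nat_lit 136) (nat_lit 140)))) (PT.nd (nat_lit 156) (PT.nd (nat_lit 78) (PT.lf (nat_lit 15200) (nat_lit 6) (nat_lit 200) (nat_lit 5) (nat_lit 115) (nat_lit 136) (nat_lit 139)) (PT.lf (nat_lit 16340) (nat_lit 6) (nat_lit 215) (nat_lit 5) (nat_lit 116) (nat_lit 136) (nat_lit 138))) (PT.nd (nat_lit 78) (PT.lf (nat_lit 17404) (nat_lit 6) (nat_lit 229) (nat_lit 5) (nat_lit 117) (nat_lit 136) (nat_lit 137)) (PT.lf (nat_lit 18392) (nat_lit 3) (nat_lit 242) (nat_lit 4) (nat_lit 118) (nat_lit 136) (nat_lit 136)))))) (PT.nd (nat_lit 546) (PT.nd (nat_lit 234) (PT.nd (nat_lit 78) (PT.lf (nat_lit 19228) (nat_lit 6) (nat_lit 253) (nat_lit 4) (nat_lit 119) (nat_lit 136) (nat_lit 135)) (PT.nd (nat_lit 78) (PT.lf (nat_lit 19988) (nat_lit 6) (nat_lit 263) (nat_lit 4) (nat_lit 120) (nat_lit 136)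 (nat_lit 134)) (PT.lf (nat_lit 20672) (nat_lit 6) (nat_lit 272) (nat_lit 4) (nat_lit 121) (nat_lit 136) (nat_lit 133)))) (PT.nd (nat_lit 156) (PT.nd (nat_lit 78) (PT.lf (nat_lit 21280) (nat_lit 6) (nat_lit 280) (nat_lit 4) (nat_lit 122) (nat_lit 136) (nat_lit 132)) (PT.lf (nat_lit 21812) (nat_lit 6) (nat_lit 287) (nat_lit 4) (nat_lit 123) (nat_lit 136) (nat_lit 131))) (PT.nd (nat_lit 78) (PT.lf (nat_lit 22268) (nat_lit 6) (nat_lit 293) (nat_lit 4) (nat_lit 124) (nat_lit 136) (nat_lit 130)) (PT.lf (nat_lit 22192) (nat_lit 6) (nat_lit 292) (nat_lit 4) (nat_lit 125) (nat_lit 136) (nat_lit 129))))) (PT.nd (nat_lit 234) (PT.nd (nat_lit 78) (PT.lf (nat_lit 22116) (nat_lit 6) (nat_lit 291) (nat_lit 4) (nat_lit 126) (nat_lit 136) (nat_lit 128)) (PT.nd (nat_lit 78) (PT.lf (nat_lit 22040) (nat_lit 3) (nat_lit 290) (nat_lit 2) (nat_lit 127) (nat_lit 136) (nat_lit 127)) (PT.lf (nat_lit 22116) (nat_lit 6)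 (nat_lit 291) (nat_lit 2) (nat_lit 128) (nat_lit 136) (nat_lit 126)))) (PT.nd (nat_lit 156) (PT.nd (nat_lit 78) (PT.lf (nat_lit 22192) (nat_lit 6) (nat_lit 292) (nat_lit 2) (nat_lit 129) (nat_lit 136) (nat_lit 125)) (PT.lf (nat_lit 22268) (nat_lit 6) (nat_lit 293) (nat_lit 2) (nat_lit 130) (nat_lit 136) (nat_lit 124))) (PT.nd (nat_lit 78) (PT.lf (nat_lit 21812) (nat_lit 6) (nat_lit 287) (nat_lit 2) (nat_lit 131) (nat_lit 136) (nat_lit 123)) (PT.lf (nat_lit 21280) (nat_lit 6) (nat_lit 280) (nat_lit 2) (nat_lit 132) (nat_lit 136) (nat_lit 122))))))))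
noncomputable def pc17 : PT := (PT.nd (nat_lit 39468) (PT.nd (nat_lit 1014) (PT.nd (nat_lit 468) (PT.nd (nat_lit 234) (PT.nd (nat_lit 78) (PT.lf (nat_lit 20672) (nat_lit 6) (nat_lit 272) (nat_lit 2) (nat_lit 133) (nat_lit 136) (nat_lit 121)) (PT.nd (nat_lit 78) (PT.lf (nat_lit 19988) (nat_lit 6) (nat_lit 263) (nat_lit 2) (nat_lit 134) (nat_lit 136) (nat_lit 120)) (PT.lf (nat_lit 19228) (nat_lit 6) (nat_lit 253) (nat_lit 2) (nat_lit 135) (nat_lit 136) (nat_lit 119)))) (PT.nd (nat_lit 78) (PT.lf (nat_lit 18392) (nat_lit 3) (nat_lit 242) (nat_lit 0) (nat_lit 136) (nat_lit 136) (nat_lit 118)) (PT.nd (nat_lit 78) (PT.lf (nat_lit 17404) (nat_lit 6) (nat_lit 229) (nat_lit 0) (nat_lit 137) (nat_lit 136) (nat_lit 117)) (PT.lf (nat_lit 16340) (nat_lit 6) (nat_lit 215) (nat_lit 0) (nat_lit 138) (nat_lit 136) (nat_lit 116))))) (PT.nd (nat_lit 234) (PT.nd (nat_lit 78) (PT.lf (nat_lit 15200) (nat_lit 6) (nat_lit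 200) (nat_lit 0) (nat_lit 139) (nat_lit 136) (nat_lit 115)) (PT.nd (nat_lit 78) (PT.lf (nat_lit 13984) (nat_lit 6) (nat_lit 184) (nat_lit 0) (nat_lit 140) (nat_lit 136) (nat_lit 114)) (PT.lf (nat_lit 13300) (nat_lit 6) (nat_lit 175) (nat_lit 0) (nat_lit 141) (nat_lit 136) (nat_lit 113)))) (PT.nd (nat_lit 156) (PT.nd (nat_lit 78) (PT.lf (nat_lit 12616) (nat_lit 6) (nat_lit 166) (nat_lit 0) (nat_lit 142) (nat_lit 136) (nat_lit 112)) (PT.lf (nat_lit 12008) (nat_lit 6) (nat_lit 158) (nat_lit 0) (nat_lit 143) (nat_lit 136) (nat_lit 111))) (PT.nd (nat_lit 78) (PT.lf (nat_lit 11400) (nat_lit 6) (nat_lit 150) (nat_lit 0) (nat_lit 144) (nat_lit 136) (nat_lit 110)) (PT.lf (nat_lit 10868) (nat_lit 6) (nat_lit 143) (nat_lit 0) (nat_lit 145) (nat_lit 136) (nat_lit 109)))))) (PT.nd (nat_lit 37908) (PT.nd (nat_lit 37596) (PT.nd (nat_lit 78) (PT.lf (nat_lit 10260) (nat_lit 6) (nat_lit 135) (nat_lit 0) (nat_lit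 146) (nat_lit 136) (nat_lit 108)) (PT.nd (nat_lit 37440) (PT.lf (nat_lit 9728) (nat_lit 6) (nat_lit 128) (nat_lit 0) (nat_lit 147) (nat_lit 136) (nat_lit 107)) (PT.lf (nat_lit 9272) (nat_lit 6) (nat_lit 122) (nat_lit 5) (nat_lit 106) (nat_lit 137) (nat_lit 147)))) (PT.nd (nat_lit 156) (PT.nd (nat_lit 78) (PT.lf (nat_lit 9804) (nat_lit 6) (nat_lit 129) (nat_lit 5) (nat_lit 107) (nat_lit 137) (nat_lit 146)) (PT.lf (nat_lit 10336) (nat_lit 6) (nat_lit 136) (nat_lit 5) (nat_lit 108) (nat_lit 137) (nat_lit 145))) (PT.nd (nat_lit 78) (PT.lf (nat_lit 10944) (nat_lit 6) (nat_lit 144) (nat_lit 5) (nat_lit 109) (nat_lit 137) (nat_lit 144)) (PT.lf (nat_lit 11476) (nat_lit 6) (nat_lit 151) (nat_lit 5) (nat_lit 110) (nat_lit 137) (nat_lit 143))))) (PT.nd (nat_lit 234) (PT.nd (nat_lit 78) (PT.lf (nat_lit 12084) (nat_lit 6) (nat_lit 159) (nat_lit 5) (nat_lit 111) (nat_lit 137) (nat_lit 142)) (PT.nd (nat_lit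 78) (PT.lf (nat_lit 12692) (nat_lit 6) (nat_lit 167) (nat_lit 5) (nat_lit 112) (nat_lit 137) (nat_lit 141)) (PT.lf (nat_lit 13376) (nat_lit 6) (nat_lit 176) (nat_lit 5) (nat_lit 113) (nat_lit 137) (nat_lit 140)))) (PT.nd (nat_lit 156) (PT.nd (nat_lit 78) (PT.lf (nat_lit 14060) (nat_lit 6) (nat_lit 185) (nat_lit 5) (nat_lit 114) (nat_lit 137) (nat_lit 139)) (PT.lf (nat_lit 15276) (nat_lit 6) (nat_lit 201) (nat_lit 5) (nat_lit 115) (nat_lit 137) (nat_lit 138))) (PT.nd (nat_lit 78) (PT.lf (nat_lit 16416) (nat_lit 3) (nat_lit 216) (nat_lit 4) (nat_lit 116) (nat_lit 137) (nat_lit 137)) (PT.lf (nat_lit 17404) (nat_lit 6) (nat_lit 229) (nat_lit 4) (nat_lit 117) (nat_lit 137) (nat_lit 136))))))) (PT.nd (nat_lit 1092) (PT.nd (nat_lit 546) (PT.nd (nat_lit 234) (PT.nd (nat_lit 78) (PT.lf (nat_lit 18316) (nat_lit 6) (nat_lit 241) (nat_lit 4) (nat_lit 118) (nat_lit 137) (nat_lit 135)) (PT.nd (nat_lit 78) (PT.lf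 (nat_lit 19152) (nat_lit 6) (nat_lit 252) (nat_lit 4) (nat_lit 119) (nat_lit 137) (nat_lit 134)) (PT.lf (nat_lit 19912) (nat_lit 6) (nat_lit 262) (nat_lit 4) (nat_lit 120) (nat_lit 137) (nat_lit 133)))) (PT.nd (nat_lit 156) (PT.nd (nat_lit 78) (PT.lf (nat_lit 20596) (nat_lit 6) (nat_lit 271) (nat_lit 4) (nat_lit 121) (nat_lit 137) (nat_lit 132)) (PT.lf (nat_lit 21204) (nat_lit 6) (nat_lit 279) (nat_lit 4) (nat_lit 122) (nat_lit 137) (nat_lit 131))) (PT.nd (nat_lit 78) (PT.lf (nat_lit 21736) (nat_lit 6) (nat_lit 286) (nat_lit 4) (nat_lit 123) (nat_lit 137) (nat_lit 130)) (PT.lf (nat_lit 21660) (nat_lit 6) (nat_lit 285) (nat_lit 4) (nat_lit 124) (nat_lit 137) (nat_lit 129))))) (PT.nd (nat_lit 234) (PT.nd (nat_lit 78) (PT.lf (nat_lit 21584) (nat_lit 6) (nat_lit 284) (nat_lit 4) (nat_lit 125) (nat_lit 137) (nat_lit 128)) (PT.nd (nat_lit 78) (PT.lf (nat_lit 21508) (nat_lit 6) (nat_lit 283) (nat_lit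 4) (nat_lit 126) (nat_lit 137) (nat_lit 127)) (PT.lf (nat_lit 21508) (nat_lit 6) (nat_lit 283) (nat_lit 2) (nat_lit 127) (nat_lit 137) (nat_lit 126)))) (PT.nd (nat_lit 156) (PT.nd (nat_lit 78) (PT.lf (nat_lit 21584) (nat_lit 6) (nat_lit 284) (nat_lit 2) (nat_lit 128) (nat_lit 137) (nat_lit 125)) (PT.lf (nat_lit 21660) (nat_lit 6) (nat_lit 285) (nat_lit 2) (nat_lit 129) (nat_lit 137) (nat_lit 124))) (PT.nd (nat_lit 78) (PT.lf (nat_lit 21736) (nat_lit 6) (nat_lit 286) (nat_lit 2) (nat_lit 130) (nat_lit 137) (nat_lit 123)) (PT.lf (nat_lit 21204) (nat_lit 6) (nat_lit 279) (nat_lit 2) (nat_lit 131) (nat_lit 137) (nat_lit 122)))))) (PT.nd (nat_lit 546) (PT.nd (nat_lit 234) (PT.nd (nat_lit 78) (PT.lf (nat_lit 20596) (nat_lit 6) (nat_lit 271) (nat_lit 2) (nat_lit 132) (nat_lit 137) (nat_lit 121)) (PT.nd (nat_lit 78) (PT.lf (nat_lit 19912) (nat_lit 6) (nat_lit 262) (nat_lit 2) (nat_lit 133) (nat_lit 137)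 (nat_lit 120)) (PT.lf (nat_lit 19152) (nat_lit 6) (nat_lit 252) (nat_lit 2) (nat_lit 134) (nat_lit 137) (nat_lit 119)))) (PT.nd (nat_lit 156) (PT.nd (nat_lit 78) (PT.lf (nat_lit 18316) (nat_lit 6) (nat_lit 241) (nat_lit 2) (nat_lit 135) (nat_lit 137) (nat_lit 118)) (PT.lf (nat_lit 17404) (nat_lit 6) (nat_lit 229) (nat_lit 2) (nat_lit 136) (nat_lit 137) (nat_lit 117))) (PT.nd (nat_lit 78) (PT.lf (nat_lit 16416) (nat_lit 3) (nat_lit 216) (nat_lit 0) (nat_lit 137) (nat_lit 137) (nat_lit 116)) (PT.lf (nat_lit 15276) (nat_lit 6) (nat_lit 201) (nat_lit 0) (nat_lit 138) (nat_lit 137) (nat_lit 115))))) (PT.nd (nat_lit 234) (PT.nd (nat_lit 78) (PT.lf (nat_lit 14060) (nat_lit 6) (nat_lit 185) (nat_lit 0) (nat_lit 139) (nat_lit 137) (nat_lit 114)) (PT.nd (nat_lit 78) (PT.lf (nat_lit 13376) (nat_lit 6) (nat_lit 176) (nat_lit 0) (nat_lit 140) (nat_lit 137) (nat_lit 113)) (PT.lf (nat_lit 12692) (nat_lit 6)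 (nat_lit 167) (nat_lit 0) (nat_lit 141) (nat_lit 137) (nat_lit 112)))) (PT.nd (nat_lit 156) (PT.nd (nat_lit 78) (PT.lf (nat_lit 12084) (nat_lit 6) (nat_lit 159) (nat_lit 0) (nat_lit 142) (nat_lit 137) (nat_lit 111)) (PT.lf (nat_lit 11476) (nat_lit 6) (nat_lit 151) (nat_lit 0) (nat_lit 143) (nat_lit 137) (nat_lit 110))) (PT.nd (nat_lit 78) (PT.lf (nat_lit 10944) (nat_lit 6) (nat_lit 144) (nat_lit 0) (nat_lit 144) (nat_lit 137) (nat_lit 109)) (PT.lf (nat_lit 10336) (nat_lit 6) (nat_lit 136) (nat_lit 0) (nat_lit 145) (nat_lit 137) (nat_lit 108))))))))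
noncomputable def pc18 : PT := (PT.nd (nat_lit 39312) (PT.nd (nat_lit 38220) (PT.nd (nat_lit 37674) (PT.nd (nat_lit 37440) (PT.nd (nat_lit 78) (PT.lf (nat_lit 9804) (nat_lit 6) (nat_lit 129) (nat_lit 0) (nat_lit 146) (nat_lit 137) (nat_lit 107)) (PT.nd (nat_lit 37284) (PT.lf (nat_lit 9272) (nat_lit 6) (nat_lit 122) (nat_lit 0) (nat_lit 147) (nat_lit 137) (nat_lit 106)) (PT.lf (nat_lit 8436) (nat_lit 6) (nat_lit 111) (nat_lit 5) (nat_lit 104) (nat_lit 138) (nat_lit 148)))) (PT.nd (nat_lit 78) (PT.lf (nat_lit 8892) (nat_lit 6) (nat_lit 117) (nat_lit 5) (nat_lit 105) (nat_lit 138) (nat_lit 147)) (PT.nd (nat_lit 78) (PT.lf (nat_lit 9348) (nat_lit 6) (nat_lit 123) (nat_lit 5) (nat_lit 106) (nat_lit 138) (nat_lit 146)) (PT.lf (nat_lit 9880) (nat_lit 6) (nat_lit 130) (nat_lit 5) (nat_lit 107) (nat_lit 138) (nat_lit 145))))) (PT.nd (nat_lit 234) (PT.nd (nat_lit 78) (PT.lf (nat_lit 10412) (nat_lit 6) (nat_lit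 137) (nat_lit 5) (nat_lit 108) (nat_lit 138) (nat_lit 144)) (PT.nd (nat_lit 78) (PT.lf (nat_lit 11020) (nat_lit 6) (nat_lit 145) (nat_lit 5) (nat_lit 109) (nat_lit 138) (nat_lit 143)) (PT.lf (nat_lit 11552) (nat_lit 6) (nat_lit 152) (nat_lit 5) (nat_lit 110) (nat_lit 138) (nat_lit 142)))) (PT.nd (nat_lit 156) (PT.nd (nat_lit 78) (PT.lf (nat_lit 12160) (nat_lit 6) (nat_lit 160) (nat_lit 5) (nat_lit 111) (nat_lit 138) (nat_lit 141)) (PT.lf (nat_lit 12768) (nat_lit 6) (nat_lit 168) (nat_lit 5) (nat_lit 112) (nat_lit 138) (nat_lit 140))) (PT.nd (nat_lit 78) (PT.lf (nat_lit 13452) (nat_lit 6) (nat_lit 177) (nat_lit 5) (nat_lit 113) (nat_lit 138) (nat_lit 139)) (PT.lf (nat_lit 14136) (nat_lit 3) (nat_lit 186) (nat_lit 4) (nat_lit 114) (nat_lit 138) (nat_lit 138)))))) (PT.nd (nat_lit 546) (PT.nd (nat_lit 234) (PT.nd (nat_lit 78) (PT.lf (nat_lit 15276) (nat_lit 6) (nat_lit 201) (nat_lit 4) (nat_lit 115)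 (nat_lit 138) (nat_lit 137)) (PT.nd (nat_lit 78) (PT.lf (nat_lit 16340) (nat_lit 6) (nat_lit 215) (nat_lit 4) (nat_lit 116) (nat_lit 138) (nat_lit 136)) (PT.lf (nat_lit 17328) (nat_lit 6) (nat_lit 228) (nat_lit 4) (nat_lit 117) (nat_lit 138) (nat_lit 135)))) (PT.nd (nat_lit 156) (PT.nd (nat_lit 78) (PT.lf (nat_lit 18240) (nat_lit 6) (nat_lit 240) (nat_lit 4) (nat_lit 118) (nat_lit 138) (nat_lit 134)) (PT.lf (nat_lit 19076) (nat_lit 6) (nat_lit 251) (nat_lit 4) (nat_lit 119) (nat_lit 138) (nat_lit 133))) (PT.nd (nat_lit 78) (PT.lf (nat_lit 19836) (nat_lit 6) (nat_lit 261) (nat_lit 4) (nat_lit 120) (nat_lit 138) (nat_lit 132)) (PT.lf (nat_lit 20520) (nat_lit 6) (nat_lit 270) (nat_lit 4) (nat_lit 121) (nat_lit 138) (nat_lit 131))))) (PT.nd (nat_lit 234) (PT.nd (nat_lit 78) (PT.lf (nat_lit 21128) (nat_lit 6) (nat_lit 278) (nat_lit 4) (nat_lit 122) (nat_lit 138) (nat_lit 130)) (PT.nd (nat_lit 78) (PT.lf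 (nat_lit 21052) (nat_lit 6) (nat_lit 277) (nat_lit 4) (nat_lit 123) (nat_lit 138) (nat_lit 129)) (PT.lf (nat_lit 20976) (nat_lit 6) (nat_lit 276) (nat_lit 4) (nat_lit 124) (nat_lit 138) (nat_lit 128)))) (PT.nd (nat_lit 156) (PT.nd (nat_lit 78) (PT.lf (nat_lit 20900) (nat_lit 6) (nat_lit 275) (nat_lit 4) (nat_lit 125) (nat_lit 138) (nat_lit 127)) (PT.lf (nat_lit 20824) (nat_lit 3) (nat_lit 274) (nat_lit 2) (nat_lit 126) (nat_lit 138) (nat_lit 126))) (PT.nd (nat_lit 78) (PT.lf (nat_lit 20900) (nat_lit 6) (nat_lit 275) (nat_lit 2) (nat_lit 127) (nat_lit 138) (nat_lit 125)) (PT.lf (nat_lit 20976) (nat_lit 6) (nat_lit 276) (nat_lit 2) (nat_lit 128) (nat_lit 138) (nat_lit 124))))))) (PT.nd (nat_lit 1092) (PT.nd (nat_lit 546) (PT.nd (nat_lit 234) (PT.nd (nat_lit 78) (PT.lf (nat_lit 21052) (nat_lit 6) (nat_lit 277) (nat_lit 2) (nat_lit 129) (nat_lit 138) (nat_lit 123)) (PT.nd (nat_lit 78) (PT.lf (nat_lit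 21128) (nat_lit 6) (nat_lit 278) (nat_lit 2) (nat_lit 130) (nat_lit 138) (nat_lit 122)) (PT.lf (nat_lit 20520) (nat_lit 6) (nat_lit 270) (nat_lit 2) (nat_lit 131) (nat_lit 138) (nat_lit 121)))) (PT.nd (nat_lit 156) (PT.nd (nat_lit 78) (PT.lf (nat_lit 19836) (nat_lit 6) (nat_lit 261) (nat_lit 2) (nat_lit 132) (nat_lit 138) (nat_lit 120)) (PT.lf (nat_lit 19076) (nat_lit 6) (nat_lit 251) (nat_lit 2) (nat_lit 133) (nat_lit 138) (nat_lit 119))) (PT.nd (nat_lit 78) (PT.lf (nat_lit 18240) (nat_lit 6) (nat_lit 240) (nat_lit 2) (nat_lit 134) (nat_lit 138) (nat_lit 118)) (PT.lf (nat_lit 17328) (nat_lit 6) (nat_lit 228) (nat_lit 2) (nat_lit 135) (nat_lit 138) (nat_lit 117))))) (PT.nd (nat_lit 234) (PT.nd (nat_lit 78) (PT.lf (nat_lit 16340) (nat_lit 6) (nat_lit 215) (nat_lit 2) (nat_lit 136) (nat_lit 138) (nat_lit 116)) (PT.nd (nat_lit 78) (PT.lf (nat_lit 15276) (nat_lit 6) (nat_lit 201) (nat_lit 2) (nat_lit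 137) (nat_lit 138) (nat_lit 115)) (PT.lf (nat_lit 14136) (nat_lit 3) (nat_lit 186) (nat_lit 0) (nat_lit 138) (nat_lit 138) (nat_lit 114)))) (PT.nd (nat_lit 156) (PT.nd (nat_lit 78) (PT.lf (nat_lit 13452) (nat_lit 6) (nat_lit 177) (nat_lit 0) (nat_lit 139) (nat_lit 138) (nat_lit 113)) (PT.lf (nat_lit 12768) (nat_lit 6) (nat_lit 168) (nat_lit 0) (nat_lit 140) (nat_lit 138) (nat_lit 112))) (PT.nd (nat_lit 78) (PT.lf (nat_lit 12160) (nat_lit 6) (nat_lit 160) (nat_lit 0) (nat_lit 141) (nat_lit 138) (nat_lit 111)) (PT.lf (nat_lit 11552) (nat_lit 6) (nat_lit 152) (nat_lit 0) (nat_lit 142) (nat_lit 138) (nat_lit 110)))))) (PT.nd (nat_lit 37596) (PT.nd (nat_lit 234) (PT.nd (nat_lit 78) (PT.lf (nat_lit 11020) (nat_lit 6) (nat_lit 145) (nat_lit 0) (nat_lit 143) (nat_lit 138) (nat_lit 109)) (PT.nd (nat_lit 78) (PT.lf (nat_lit 10412) (nat_lit 6) (nat_lit 137) (nat_lit 0) (nat_lit 144) (nat_lit 138) (nat_lit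 108)) (PT.lf (nat_lit 9880) (nat_lit 6) (nat_lit 130) (nat_lit 0) (nat_lit 145) (nat_lit 138) (nat_lit 107)))) (PT.nd (nat_lit 156) (PT.nd (nat_lit 78) (PT.lf (nat_lit 9348) (nat_lit 6) (nat_lit 123) (nat_lit 0) (nat_lit 146) (nat_lit 138) (nat_lit 106)) (PT.lf (nat_lit 8892) (nat_lit 6) (nat_lit 117) (nat_lit 0) (nat_lit 147) (nat_lit 138) (nat_lit 105))) (PT.nd (nat_lit 37128) (PT.lf (nat_lit 8436) (nat_lit 6) (nat_lit 111) (nat_lit 0) (nat_lit 148) (nat_lit 138) (nat_lit 104)) (PT.lf (nat_lit 8056) (nat_lit 6) (nat_lit 106) (nat_lit 5) (nat_lit 103) (nat_lit 139) (nat_lit 148))))) (PT.nd (nat_lit 234) (PT.nd (nat_lit 78) (PT.lf (nat_lit 8512) (nat_lit 6) (nat_lit 112) (nat_lit 5) (nat_lit 104) (nat_lit 139) (nat_lit 147)) (PT.nd (nat_lit 78) (PT.lf (nat_lit 8968) (nat_lit 6) (nat_lit 118) (nat_lit 5) (nat_lit 105) (nat_lit 139) (nat_lit 146)) (PT.lf (nat_lit 9424) (nat_lit 6) (nat_lit 124)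 (nat_lit 5) (nat_lit 106) (nat_lit 139) (nat_lit 145)))) (PT.nd (nat_lit 156) (PT.nd (nat_lit 78) (PT.lf (nat_lit 9956) (nat_lit 6) (nat_lit 131) (nat_lit 5) (nat_lit 107) (nat_lit 139) (nat_lit 144)) (PT.lf (nat_lit 10488) (nat_lit 6) (nat_lit 138) (nat_lit 5) (nat_lit 108) (nat_lit 139) (nat_lit 143))) (PT.nd (nat_lit 78) (PT.lf (nat_lit 11096) (nat_lit 6) (nat_lit 146) (nat_lit 5) (nat_lit 109) (nat_lit 139) (nat_lit 142)) (PT.lf (nat_lit 11628) (nat_lit 6) (nat_lit 153) (nat_lit 5) (nat_lit 110) (nat_lit 139) (nat_lit 141))))))))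
noncomputable def pc19 : PT := (PT.nd (nat_lit 2106) (PT.nd (nat_lit 1014) (PT.nd (nat_lit 468) (PT.nd (nat_lit 234) (PT.nd (nat_lit 78) (PT.lf (nat_lit 12236) (nat_lit 6) (nat_lit 161) (nat_lit 5) (nat_lit 111) (nat_lit 139) (nat_lit 140)) (PT.nd (nat_lit 78) (PT.lf (nat_lit 12844) (nat_lit 3) (nat_lit 169) (nat_lit 4) (nat_lit 112) (nat_lit 139) (nat_lit 139)) (PT.lf (nat_lit 13452) (nat_lit 6) (nat_lit 177) (nat_lit 4) (nat_lit 113) (nat_lit 139) (nat_lit 138)))) (PT.nd (nat_lit 78) (PT.lf (nat_lit 14060) (nat_lit 6) (nat_lit 185) (nat_lit 4) (nat_lit 114) (nat_lit 139) (nat_lit 137)) (PT.nd (nat_lit 78) (PT.lf (nat_lit 15200) (nat_lit 6) (nat_lit 200) (nat_lit 4) (nat_lit 115) (nat_lit 139) (nat_lit 136)) (PT.lf (nat_lit 16264) (nat_lit 6) (nat_lit 214) (nat_lit 4) (nat_lit 116) (nat_lit 139) (nat_lit 135))))) (PT.nd (nat_lit 234) (PT.nd (nat_lit 78) (PT.lf (nat_lit 17252) (nat_lit 6) (nat_lit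 227) (nat_lit 4) (nat_lit 117) (nat_lit 139) (nat_lit 134)) (PT.nd (nat_lit 78) (PT.lf (nat_lit 18164) (nat_lit 6) (nat_lit 239) (nat_lit 4) (nat_lit 118) (nat_lit 139) (nat_lit 133)) (PT.lf (nat_lit 19000) (nat_lit 6) (nat_lit 250) (nat_lit 4) (nat_lit 119) (nat_lit 139) (nat_lit 132)))) (PT.nd (nat_lit 156) (PT.nd (nat_lit 78) (PT.lf (nat_lit 19760) (nat_lit 6) (nat_lit 260) (nat_lit 4) (nat_lit 120) (nat_lit 139) (nat_lit 131)) (PT.lf (nat_lit 20444) (nat_lit 6) (nat_lit 269) (nat_lit 4) (nat_lit 121) (nat_lit 139) (nat_lit 130))) (PT.nd (nat_lit 78) (PT.lf (nat_lit 20368) (nat_lit 6) (nat_lit 268) (nat_lit 4) (nat_lit 122) (nat_lit 139) (nat_lit 129)) (PT.lf (nat_lit 20292) (nat_lit 6) (nat_lit 267) (nat_lit 4) (nat_lit 123) (nat_lit 139) (nat_lit 128)))))) (PT.nd (nat_lit 546) (PT.nd (nat_lit 234) (PT.nd (nat_lit 78) (PT.lf (nat_lit 20216) (nat_lit 6) (nat_lit 266) (nat_lit 4) (nat_lit 124)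 (nat_lit 139) (nat_lit 127)) (PT.nd (nat_lit 78) (PT.lf (nat_lit 20140) (nat_lit 6) (nat_lit 265) (nat_lit 4) (nat_lit 125) (nat_lit 139) (nat_lit 126)) (PT.lf (nat_lit 20140) (nat_lit 6) (nat_lit 265) (nat_lit 2) (nat_lit 126) (nat_lit 139) (nat_lit 125)))) (PT.nd (nat_lit 156) (PT.nd (nat_lit 78) (PT.lf (nat_lit 20216) (nat_lit 6) (nat_lit 266) (nat_lit 2) (nat_lit 127) (nat_lit 139) (nat_lit 124)) (PT.lf (nat_lit 20292) (nat_lit 6) (nat_lit 267) (nat_lit 2) (nat_lit 128) (nat_lit 139) (nat_lit 123))) (PT.nd (nat_lit 78) (PT.lf (nat_lit 20368) (nat_lit 6) (nat_lit 268) (nat_lit 2) (nat_lit 129) (nat_lit 139) (nat_lit 122)) (PT.lf (nat_lit 20444) (nat_lit 6) (nat_lit 269) (nat_lit 2) (nat_lit 130) (nat_lit 139) (nat_lit 121))))) (PT.nd (nat_lit 234) (PT.nd (nat_lit 78) (PT.lf (nat_lit 19760) (nat_lit 6) (nat_lit 260) (nat_lit 2) (nat_lit 131) (nat_lit 139) (nat_lit 120)) (PT.nd (nat_lit 78) (PT.lf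 (nat_lit 19000) (nat_lit 6) (nat_lit 250) (nat_lit 2) (nat_lit 132) (nat_lit 139) (nat_lit 119)) (PT.lf (nat_lit 18164) (nat_lit 6) (nat_lit 239) (nat_lit 2) (nat_lit 133) (nat_lit 139) (nat_lit 118)))) (PT.nd (nat_lit 156) (PT.nd (nat_lit 78) (PT.lf (nat_lit 17252) (nat_lit 6) (nat_lit 227) (nat_lit 2) (nat_lit 134) (nat_lit 139) (nat_lit 117)) (PT.lf (nat_lit 16264) (nat_lit 6) (nat_lit 214) (nat_lit 2) (nat_lit 135) (nat_lit 139) (nat_lit 116))) (PT.nd (nat_lit 78) (PT.lf (nat_lit 15200) (nat_lit 6) (nat_lit 200) (nat_lit 2) (nat_lit 136) (nat_lit 139) (nat_lit 115)) (PT.lf (nat_lit 14060) (nat_lit 6) (nat_lit 185) (nat_lit 2) (nat_lit 137) (nat_lit 139) (nat_lit 114))))))) (PT.nd (nat_lit 37986) (PT.nd (nat_lit 546) (PT.nd (nat_lit 234) (PT.nd (nat_lit 78) (PT.lf (nat_lit 13452) (nat_lit 6) (nat_lit 177) (nat_lit 2) (nat_lit 138) (nat_lit 139) (nat_lit 113)) (PT.nd (nat_lit 78) (PT.lf (nat_lit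 12844) (nat_lit 3) (nat_lit 169) (nat_lit 0) (nat_lit 139) (nat_lit 139) (nat_lit 112)) (PT.lf (nat_lit 12236) (nat_lit 6) (nat_lit 161) (nat_lit 0) (nat_lit 140) (nat_lit 139) (nat_lit 111)))) (PT.nd (nat_lit 156) (PT.nd (nat_lit 78) (PT.lf (nat_lit 11628) (nat_lit 6) (nat_lit 153) (nat_lit 0) (nat_lit 141) (nat_lit 139) (nat_lit 110)) (PT.lf (nat_lit 11096) (nat_lit 6) (nat_lit 146) (nat_lit 0) (nat_lit 142) (nat_lit 139) (nat_lit 109))) (PT.nd (nat_lit 78) (PT.lf (nat_lit 10488) (nat_lit 6) (nat_lit 138) (nat_lit 0) (nat_lit 143) (nat_lit 139) (nat_lit 108)) (PT.lf (nat_lit 9956) (nat_lit 6) (nat_lit 131) (nat_lit 0) (nat_lit 144) (nat_lit 139) (nat_lit 107))))) (PT.nd (nat_lit 234) (PT.nd (nat_lit 78) (PT.lf (nat_lit 9424) (nat_lit 6) (nat_lit 124) (nat_lit 0) (nat_lit 145) (nat_lit 139) (nat_lit 106)) (PT.nd (nat_lit 78) (PT.lf (nat_lit 8968) (nat_lit 6) (nat_lit 118) (nat_lit 0) (nat_lit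 146) (nat_lit 139) (nat_lit 105)) (PT.lf (nat_lit 8512) (nat_lit 6) (nat_lit 112) (nat_lit 0) (nat_lit 147) (nat_lit 139) (nat_lit 104)))) (PT.nd (nat_lit 37050) (PT.nd (nat_lit 36972) (PT.lf (nat_lit 8056) (nat_lit 6) (nat_lit 106) (nat_lit 0) (nat_lit 148) (nat_lit 139) (nat_lit 103)) (PT.lf (nat_lit 7296) (nat_lit 6) (nat_lit 96) (nat_lit 5) (nat_lit 101) (nat_lit 140) (nat_lit 149))) (PT.nd (nat_lit 78) (PT.lf (nat_lit 7676) (nat_lit 6) (nat_lit 101) (nat_lit 5) (nat_lit 102) (nat_lit 140) (nat_lit 148)) (PT.lf (nat_lit 8132) (nat_lit 6) (nat_lit 107) (nat_lit 5) (nat_lit 103) (nat_lit 140) (nat_lit 147)))))) (PT.nd (nat_lit 546) (PT.nd (nat_lit 234) (PT.nd (nat_lit 78) (PT.lf (nat_lit 8588) (nat_lit 6) (nat_lit 113) (nat_lit 5) (nat_lit 104) (nat_lit 140) (nat_lit 146)) (PT.nd (nat_lit 78) (PT.lf (nat_lit 9044) (nat_lit 6) (nat_lit 119) (nat_lit 5) (nat_lit 105) (nat_lit 140) (nat_lit 145))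 (PT.lf (nat_lit 9500) (nat_lit 6) (nat_lit 125) (nat_lit 5) (nat_lit 106) (nat_lit 140) (nat_lit 144)))) (PT.nd (nat_lit 156) (PT.nd (nat_lit 78) (PT.lf (nat_lit 10032) (nat_lit 6) (nat_lit 132) (nat_lit 5) (nat_lit 107) (nat_lit 140) (nat_lit 143)) (PT.lf (nat_lit 10564) (nat_lit 6) (nat_lit 139) (nat_lit 5) (nat_lit 108) (nat_lit 140) (nat_lit 142))) (PT.nd (nat_lit 78) (PT.lf (nat_lit 11172) (nat_lit 6) (nat_lit 147) (nat_lit 5) (nat_lit 109) (nat_lit 140) (nat_lit 141)) (PT.lf (nat_lit 11704) (nat_lit 3) (nat_lit 154) (nat_lit 4) (nat_lit 110) (nat_lit 140) (nat_lit 140))))) (PT.nd (nat_lit 234) (PT.nd (nat_lit 78) (PT.lf (nat_lit 12236) (nat_lit 6) (nat_lit 161) (nat_lit 4) (nat_lit 111) (nat_lit 140) (nat_lit 139)) (PT.nd (nat_lit 78) (PT.lf (nat_lit 12768) (nat_lit 6) (nat_lit 168) (nat_lit 4) (nat_lit 112) (nat_lit 140) (nat_lit 138)) (PT.lf (nat_lit 13376) (nat_lit 6) (nat_lit 176) (nat_lit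 4) (nat_lit 113) (nat_lit 140) (nat_lit 137)))) (PT.nd (nat_lit 156) (PT.nd (nat_lit 78) (PT.lf (nat_lit 13984) (nat_lit 6) (nat_lit 184) (nat_lit 4) (nat_lit 114) (nat_lit 140) (nat_lit 136)) (PT.lf (nat_lit 15124) (nat_lit 6) (nat_lit 199) (nat_lit 4) (nat_lit 115) (nat_lit 140) (nat_lit 135))) (PT.nd (nat_lit 78) (PT.lf (nat_lit 16188) (nat_lit 6) (nat_lit 213) (nat_lit 4) (nat_lit 116) (nat_lit 140) (nat_lit 134)) (PT.lf (nat_lit 17176) (nat_lit 6) (nat_lit 226) (nat_lit 4) (nat_lit 117) (nat_lit 140) (nat_lit 133))))))))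
noncomputable def pc20 : PT := (PT.nd (nat_lit 2106) (PT.nd (nat_lit 1014) (PT.nd (nat_lit 468) (PT.nd (nat_lit 234) (PT.nd (nat_lit 78) (PT.lf (nat_lit 18088) (nat_lit 6) (nat_lit 238) (nat_lit 4) (nat_lit 118) (nat_lit 140) (nat_lit 132)) (PT.nd (nat_lit 78) (PT.lf (nat_lit 18924) (nat_lit 6) (nat_lit 249) (nat_lit 4) (nat_lit 119) (nat_lit 140) (nat_lit 131)) (PT.lf (nat_lit 19684) (nat_lit 6) (nat_lit 259) (nat_lit 4) (nat_lit 120) (nat_lit 140) (nat_lit 130)))) (PT.nd (nat_lit 78) (PT.lf (nat_lit 19608) (nat_lit 6) (nat_lit 258) (nat_lit 4) (nat_lit 121) (nat_lit 140) (nat_lit 129)) (PT.nd (nat_lit 78) (PT.lf (nat_lit 19532) (nat_lit 6) (nat_lit 257) (nat_lit 4) (nat_lit 122) (nat_lit 140) (nat_lit 128)) (PT.lf (nat_lit 19456) (nat_lit 6) (nat_lit 256) (nat_lit 4) (nat_lit 123) (nat_lit 140) (nat_lit 127))))) (PT.nd (nat_lit 234) (PT.nd (nat_lit 78) (PT.lf (nat_lit 19380) (nat_lit 6) (nat_lit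 255) (nat_lit 4) (nat_lit 124) (nat_lit 140) (nat_lit 126)) (PT.nd (nat_lit 78) (PT.lf (nat_lit 19304) (nat_lit 3) (nat_lit 254) (nat_lit 2) (nat_lit 125) (nat_lit 140) (nat_lit 125)) (PT.lf (nat_lit 19380) (nat_lit 6) (nat_lit 255) (nat_lit 2) (nat_lit 126) (nat_lit 140) (nat_lit 124)))) (PT.nd (nat_lit 156) (PT.nd (nat_lit 78) (PT.lf (nat_lit 19456) (nat_lit 6) (nat_lit 256) (nat_lit 2) (nat_lit 127) (nat_lit 140) (nat_lit 123)) (PT.lf (nat_lit 19532) (nat_lit 6) (nat_lit 257) (nat_lit 2) (nat_lit 128) (nat_lit 140) (nat_lit 122))) (PT.nd (nat_lit 78) (PT.lf (nat_lit 19608) (nat_lit 6) (nat_lit 258) (nat_lit 2) (nat_lit 129) (nat_lit 140) (nat_lit 121)) (PT.lf (nat_lit 19684) (nat_lit 6) (nat_lit 259) (nat_lit 2) (nat_lit 130) (nat_lit 140) (nat_lit 120)))))) (PT.nd (nat_lit 546) (PT.nd (nat_lit 234) (PT.nd (nat_lit 78) (PT.lf (nat_lit 18924) (nat_lit 6) (nat_lit 249) (nat_lit 2) (nat_lit 131)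 (nat_lit 140) (nat_lit 119)) (PT.nd (nat_lit 78) (PT.lf (nat_lit 18088) (nat_lit 6) (nat_lit 238) (nat_lit 2) (nat_lit 132) (nat_lit 140) (nat_lit 118)) (PT.lf (nat_lit 17176) (nat_lit 6) (nat_lit 226) (nat_lit 2) (nat_lit 133) (nat_lit 140) (nat_lit 117)))) (PT.nd (nat_lit 156) (PT.nd (nat_lit 78) (PT.lf (nat_lit 16188) (nat_lit 6) (nat_lit 213) (nat_lit 2) (nat_lit 134) (nat_lit 140) (nat_lit 116)) (PT.lf (nat_lit 15124) (nat_lit 6) (nat_lit 199) (nat_lit 2) (nat_lit 135) (nat_lit 140) (nat_lit 115))) (PT.nd (nat_lit 78) (PT.lf (nat_lit 13984) (nat_lit 6) (nat_lit 184) (nat_lit 2) (nat_lit 136) (nat_lit 140) (nat_lit 114)) (PT.lf (nat_lit 13376) (nat_lit 6) (nat_lit 176) (nat_lit 2) (nat_lit 137) (nat_lit 140) (nat_lit 113))))) (PT.nd (nat_lit 234) (PT.nd (nat_lit 78) (PT.lf (nat_lit 12768) (nat_lit 6) (nat_lit 168) (nat_lit 2) (nat_lit 138) (nat_lit 140) (nat_lit 112)) (PT.nd (nat_lit 78) (PT.lf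 (nat_lit 12236) (nat_lit 6) (nat_lit 161) (nat_lit 2) (nat_lit 139) (nat_lit 140) (nat_lit 111)) (PT.lf (nat_lit 11704) (nat_lit 3) (nat_lit 154) (nat_lit 0) (nat_lit 140) (nat_lit 140) (nat_lit 110)))) (PT.nd (nat_lit 156) (PT.nd (nat_lit 78) (PT.lf (nat_lit 11172) (nat_lit 6) (nat_lit 147) (nat_lit 0) (nat_lit 141) (nat_lit 140) (nat_lit 109)) (PT.lf (nat_lit 10564) (nat_lit 6) (nat_lit 139) (nat_lit 0) (nat_lit 142) (nat_lit 140) (nat_lit 108))) (PT.nd (nat_lit 78) (PT.lf (nat_lit 10032) (nat_lit 6) (nat_lit 132) (nat_lit 0) (nat_lit 143) (nat_lit 140) (nat_lit 107)) (PT.lf (nat_lit 9500) (nat_lit 6) (nat_lit 125) (nat_lit 0) (nat_lit 144) (nat_lit 140) (nat_lit 106))))))) (PT.nd (nat_lit 37830) (PT.nd (nat_lit 37284) (PT.nd (nat_lit 234) (PT.nd (nat_lit 78) (PT.lf (nat_lit 9044) (nat_lit 6) (nat_lit 119) (nat_lit 0) (nat_lit 145) (nat_lit 140) (nat_lit 105)) (PT.nd (nat_lit 78) (PT.lf (nat_lit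 8588) (nat_lit 6) (nat_lit 113) (nat_lit 0) (nat_lit 146) (nat_lit 140) (nat_lit 104)) (PT.lf (nat_lit 8132) (nat_lit 6) (nat_lit 107) (nat_lit 0) (nat_lit 147) (nat_lit 140) (nat_lit 103)))) (PT.nd (nat_lit 36894) (PT.nd (nat_lit 78) (PT.lf (nat_lit 7676) (nat_lit 6) (nat_lit 101) (nat_lit 0) (nat_lit 148) (nat_lit 140) (nat_lit 102)) (PT.lf (nat_lit 7296) (nat_lit 6) (nat_lit 96) (nat_lit 0) (nat_lit 149) (nat_lit 140) (nat_lit 101))) (PT.nd (nat_lit 78) (PT.lf (nat_lit 6916) (nat_lit 6) (nat_lit 91) (nat_lit 5) (nat_lit 100) (nat_lit 141) (nat_lit 149)) (PT.lf (nat_lit 7372) (nat_lit 6) (nat_lit 97) (nat_lit 5) (nat_lit 101) (nat_lit 141) (nat_lit 148))))) (PT.nd (nat_lit 234) (PT.nd (nat_lit 78) (PT.lf (nat_lit 7752) (nat_lit 6) (nat_lit 102) (nat_lit 5) (nat_lit 102) (nat_lit 141) (nat_lit 147)) (PT.nd (nat_lit 78) (PT.lf (nat_lit 8208) (nat_lit 6) (nat_lit 108) (nat_lit 5) (nat_lit 103)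 (nat_lit 141) (nat_lit 146)) (PT.lf (nat_lit 8664) (nat_lit 6) (nat_lit 114) (nat_lit 5) (nat_lit 104) (nat_lit 141) (nat_lit 145)))) (PT.nd (nat_lit 156) (PT.nd (nat_lit 78) (PT.lf (nat_lit 9120) (nat_lit 6) (nat_lit 120) (nat_lit 5) (nat_lit 105) (nat_lit 141) (nat_lit 144)) (PT.lf (nat_lit 9576) (nat_lit 6) (nat_lit 126) (nat_lit 5) (nat_lit 106) (nat_lit 141) (nat_lit 143))) (PT.nd (nat_lit 78) (PT.lf (nat_lit 10108) (nat_lit 6) (nat_lit 133) (nat_lit 5) (nat_lit 107) (nat_lit 141) (nat_lit 142)) (PT.lf (nat_lit 10640) (nat_lit 3) (nat_lit 140) (nat_lit 4) (nat_lit 108) (nat_lit 141) (nat_lit 141)))))) (PT.nd (nat_lit 546) (PT.nd (nat_lit 234) (PT.nd (nat_lit 78) (PT.lf (nat_lit 11172) (nat_lit 6) (nat_lit 147) (nat_lit 4) (nat_lit 109) (nat_lit 141) (nat_lit 140)) (PT.nd (nat_lit 78) (PT.lf (nat_lit 11628) (nat_lit 6) (nat_lit 153) (nat_lit 4) (nat_lit 110) (nat_lit 141) (nat_lit 139)) (PT.lf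 (nat_lit 12160) (nat_lit 6) (nat_lit 160) (nat_lit 4) (nat_lit 111) (nat_lit 141) (nat_lit 138)))) (PT.nd (nat_lit 156) (PT.nd (nat_lit 78) (PT.lf (nat_lit 12692) (nat_lit 6) (nat_lit 167) (nat_lit 4) (nat_lit 112) (nat_lit 141) (nat_lit 137)) (PT.lf (nat_lit 13300) (nat_lit 6) (nat_lit 175) (nat_lit 4) (nat_lit 113) (nat_lit 141) (nat_lit 136))) (PT.nd (nat_lit 78) (PT.lf (nat_lit 13908) (nat_lit 6) (nat_lit 183) (nat_lit 4) (nat_lit 114) (nat_lit 141) (nat_lit 135)) (PT.lf (nat_lit 15048) (nat_lit 6) (nat_lit 198) (nat_lit 4) (nat_lit 115) (nat_lit 141) (nat_lit 134))))) (PT.nd (nat_lit 234) (PT.nd (nat_lit 78) (PT.lf (nat_lit 16112) (nat_lit 6) (nat_lit 212) (nat_lit 4) (nat_lit 116) (nat_lit 141) (nat_lit 133)) (PT.nd (nat_lit 78) (PT.lf (nat_lit 17100) (nat_lit 6) (nat_lit 225) (nat_lit 4) (nat_lit 117) (nat_lit 141) (nat_lit 132)) (PT.lf (nat_lit 18012) (nat_lit 6) (nat_lit 237) (nat_lit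 4) (nat_lit 118) (nat_lit 141) (nat_lit 131)))) (PT.nd (nat_lit 156) (PT.nd (nat_lit 78) (PT.lf (nat_lit 18848) (nat_lit 6) (nat_lit 248) (nat_lit 4) (nat_lit 119) (nat_lit 141) (nat_lit 130)) (PT.lf (nat_lit 18772) (nat_lit 6) (nat_lit 247) (nat_lit 4) (nat_lit 120) (nat_lit 141) (nat_lit 129))) (PT.nd (nat_lit 78) (PT.lf (nat_lit 18696) (nat_lit 6) (nat_lit 246) (nat_lit 4) (nat_lit 121) (nat_lit 141) (nat_lit 128)) (PT.lf (nat_lit 18620) (nat_lit 6) (nat_lit 245) (nat_lit 4) (nat_lit 122) (nat_lit 141) (nat_lit 127))))))))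
noncomputable def pc21 : PT := (PT.nd (nat_lit 38688) (PT.nd (nat_lit 1014) (PT.nd (nat_lit 468) (PT.nd (nat_lit 234) (PT.nd (nat_lit 78) (PT.lf (nat_lit 18544) (nat_lit 6) (nat_lit 244) (nat_lit 4) (nat_lit 123) (nat_lit 141) (nat_lit 126)) (PT.nd (nat_lit 78) (PT.lf (nat_lit 18468) (nat_lit 6) (nat_lit 243) (nat_lit 4) (nat_lit 124) (nat_lit 141) (nat_lit 125)) (PT.lf (nat_lit 18468) (nat_lit 6) (nat_lit 243) (nat_lit 2) (nat_lit 125) (nat_lit 141) (nat_lit 124)))) (PT.nd (nat_lit 78) (PT.lf (nat_lit 18544) (nat_lit 6) (nat_lit 244) (nat_lit 2) (nat_lit 126) (nat_lit 141) (nat_lit 123)) (PT.nd (nat_lit 78) (PT.lf (nat_lit 18620) (nat_lit 6) (nat_lit 245) (nat_lit 2) (nat_lit 127) (nat_lit 141) (nat_lit 122)) (PT.lf (nat_lit 18696) (nat_lit 6) (nat_lit 246) (nat_lit 2) (nat_lit 128) (nat_lit 141) (nat_lit 121))))) (PT.nd (nat_lit 234) (PT.nd (nat_lit 78) (PT.lf (nat_lit 18772) (nat_lit 6) (nat_lit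 247) (nat_lit 2) (nat_lit 129) (nat_lit 141) (nat_lit 120)) (PT.nd (nat_lit 78) (PT.lf (nat_lit 18848) (nat_lit 6) (nat_lit 248) (nat_lit 2) (nat_lit 130) (nat_lit 141) (nat_lit 119)) (PT.lf (nat_lit 18012) (nat_lit 6) (nat_lit 237) (nat_lit 2) (nat_lit 131) (nat_lit 141) (nat_lit 118)))) (PT.nd (nat_lit 156) (PT.nd (nat_lit 78) (PT.lf (nat_lit 17100) (nat_lit 6) (nat_lit 225) (nat_lit 2) (nat_lit 132) (nat_lit 141) (nat_lit 117)) (PT.lf (nat_lit 16112) (nat_lit 6) (nat_lit 212) (nat_lit 2) (nat_lit 133) (nat_lit 141) (nat_lit 116))) (PT.nd (nat_lit 78) (PT.lf (nat_lit 15048) (nat_lit 6) (nat_lit 198) (nat_lit 2) (nat_lit 134) (nat_lit 141) (nat_lit 115)) (PT.lf (nat_lit 13908) (nat_lit 6) (nat_lit 183) (nat_lit 2) (nat_lit 135) (nat_lit 141) (nat_lit 114)))))) (PT.nd (nat_lit 546) (PT.nd (nat_lit 234) (PT.nd (nat_lit 78) (PT.lf (nat_lit 13300) (nat_lit 6) (nat_lit 175) (nat_lit 2) (nat_lit 136)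 (nat_lit 141) (nat_lit 113)) (PT.nd (nat_lit 78) (PT.lf (nat_lit 12692) (nat_lit 6) (nat_lit 167) (nat_lit 2) (nat_lit 137) (nat_lit 141) (nat_lit 112)) (PT.lf (nat_lit 12160) (nat_lit 6) (nat_lit 160) (nat_lit 2) (nat_lit 138) (nat_lit 141) (nat_lit 111)))) (PT.nd (nat_lit 156) (PT.nd (nat_lit 78) (PT.lf (nat_lit 11628) (nat_lit 6) (nat_lit 153) (nat_lit 2) (nat_lit 139) (nat_lit 141) (nat_lit 110)) (PT.lf (nat_lit 11172) (nat_lit 6) (nat_lit 147) (nat_lit 2) (nat_lit 140) (nat_lit 141) (nat_lit 109))) (PT.nd (nat_lit 78) (PT.lf (nat_lit 10640) (nat_lit 3) (nat_lit 140) (nat_lit 0) (nat_lit 141) (nat_lit 141) (nat_lit 108)) (PT.lf (nat_lit 10108) (nat_lit 6) (nat_lit 133) (nat_lit 0) (nat_lit 142) (nat_lit 141) (nat_lit 107))))) (PT.nd (nat_lit 234) (PT.nd (nat_lit 78) (PT.lf (nat_lit 9576) (nat_lit 6) (nat_lit 126) (nat_lit 0) (nat_lit 143) (nat_lit 141) (nat_lit 106)) (PT.nd (nat_lit 78) (PT.lf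 (nat_lit 9120) (nat_lit 6) (nat_lit 120) (nat_lit 0) (nat_lit 144) (nat_lit 141) (nat_lit 105)) (PT.lf (nat_lit 8664) (nat_lit 6) (nat_lit 114) (nat_lit 0) (nat_lit 145) (nat_lit 141) (nat_lit 104)))) (PT.nd (nat_lit 156) (PT.nd (nat_lit 78) (PT.lf (nat_lit 8208) (nat_lit 6) (nat_lit 108) (nat_lit 0) (nat_lit 146) (nat_lit 141) (nat_lit 103)) (PT.lf (nat_lit 7752) (nat_lit 6) (nat_lit 102) (nat_lit 0) (nat_lit 147) (nat_lit 141) (nat_lit 102))) (PT.nd (nat_lit 78) (PT.lf (nat_lit 7372) (nat_lit 6) (nat_lit 97) (nat_lit 0) (nat_lit 148) (nat_lit 141) (nat_lit 101)) (PT.lf (nat_lit 6916) (nat_lit 6) (nat_lit 91) (nat_lit 0) (nat_lit 149) (nat_lit 141) (nat_lit 100))))))) (PT.nd (nat_lit 1092) (PT.nd (nat_lit 546) (PT.nd (nat_lit 234) (PT.nd (nat_lit 78) (PT.lf (nat_lit 6232) (nat_lit 6) (nat_lit 82) (nat_lit 5) (nat_lit 98) (nat_lit 142) (nat_lit 150)) (PT.nd (nat_lit 78) (PT.lf (nat_lit 6612) (nat_lit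 6) (nat_lit 87) (nat_lit 5) (nat_lit 99) (nat_lit 142) (nat_lit 149)) (PT.lf (nat_lit 6992) (nat_lit 6) (nat_lit 92) (nat_lit 5) (nat_lit 100) (nat_lit 142) (nat_lit 148)))) (PT.nd (nat_lit 156) (PT.nd (nat_lit 78) (PT.lf (nat_lit 7448) (nat_lit 6) (nat_lit 98) (nat_lit 5) (nat_lit 101) (nat_lit 142) (nat_lit 147)) (PT.lf (nat_lit 7828) (nat_lit 6) (nat_lit 103) (nat_lit 5) (nat_lit 102) (nat_lit 142) (nat_lit 146))) (PT.nd (nat_lit 78) (PT.lf (nat_lit 8284) (nat_lit 6) (nat_lit 109) (nat_lit 5) (nat_lit 103) (nat_lit 142) (nat_lit 145)) (PT.lf (nat_lit 8740) (nat_lit 6) (nat_lit 115) (nat_lit 5) (nat_lit 104) (nat_lit 142) (nat_lit 144))))) (PT.nd (nat_lit 234) (PT.nd (nat_lit 78) (PT.lf (nat_lit 9196) (nat_lit 6) (nat_lit 121) (nat_lit 5) (nat_lit 105) (nat_lit 142) (nat_lit 143)) (PT.nd (nat_lit 78) (PT.lf (nat_lit 9652) (nat_lit 3) (nat_lit 127) (nat_lit 4) (nat_lit 106) (nat_lit 142) (nat_lit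 142)) (PT.lf (nat_lit 10108) (nat_lit 6) (nat_lit 133) (nat_lit 4) (nat_lit 107) (nat_lit 142) (nat_lit 141)))) (PT.nd (nat_lit 156) (PT.nd (nat_lit 78) (PT.lf (nat_lit 10564) (nat_lit 6) (nat_lit 139) (nat_lit 4) (nat_lit 108) (nat_lit 142) (nat_lit 140)) (PT.lf (nat_lit 11096) (nat_lit 6) (nat_lit 146) (nat_lit 4) (nat_lit 109) (nat_lit 142) (nat_lit 139))) (PT.nd (nat_lit 78) (PT.lf (nat_lit 11552) (nat_lit 6) (nat_lit 152) (nat_lit 4) (nat_lit 110) (nat_lit 142) (nat_lit 138)) (PT.lf (nat_lit 12084) (nat_lit 6) (nat_lit 159) (nat_lit 4) (nat_lit 111) (nat_lit 142) (nat_lit 137)))))) (PT.nd (nat_lit 546) (PT.nd (nat_lit 234) (PT.nd (nat_lit 78) (PT.lf (nat_lit 12616) (nat_lit 6) (nat_lit 166) (nat_lit 4) (nat_lit 112) (nat_lit 142) (nat_lit 136)) (PT.nd (nat_lit 78) (PT.lf (nat_lit 13224) (nat_lit 6) (nat_lit 174) (nat_lit 4) (nat_lit 113) (nat_lit 142) (nat_lit 135)) (PT.lf (nat_lit 13832)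 (nat_lit 6) (nat_lit 182) (nat_lit 4) (nat_lit 114) (nat_lit 142) (nat_lit 134)))) (PT.nd (nat_lit 156) (PT.nd (nat_lit 78) (PT.lf (nat_lit 14972) (nat_lit 6) (nat_lit 197) (nat_lit 4) (nat_lit 115) (nat_lit 142) (nat_lit 133)) (PT.lf (nat_lit 16036) (nat_lit 6) (nat_lit 211) (nat_lit 4) (nat_lit 116) (nat_lit 142) (nat_lit 132))) (PT.nd (nat_lit 78) (PT.lf (nat_lit 17024) (nat_lit 6) (nat_lit 224) (nat_lit 4) (nat_lit 117) (nat_lit 142) (nat_lit 131)) (PT.lf (nat_lit 17936) (nat_lit 6) (nat_lit 236) (nat_lit 4) (nat_lit 118) (nat_lit 142) (nat_lit 130))))) (PT.nd (nat_lit 234) (PT.nd (nat_lit 78) (PT.lf (nat_lit 17860) (nat_lit 6) (nat_lit 235) (nat_lit 4) (nat_lit 119) (nat_lit 142) (nat_lit 129)) (PT.nd (nat_lit 78) (PT.lf (nat_lit 17784) (nat_lit 6) (nat_lit 234) (nat_lit 4) (nat_lit 120) (nat_lit 142) (nat_lit 128)) (PT.lf (nat_lit 17708) (nat_lit 6) (nat_lit 233) (nat_lit 4) (nat_lit 121)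 (nat_lit 142) (nat_lit 127)))) (PT.nd (nat_lit 156) (PT.nd (nat_lit 78) (PT.lf (nat_lit 17632) (nat_lit 6) (nat_lit 232) (nat_lit 4) (nat_lit 122) (nat_lit 142) (nat_lit 126)) (PT.lf (nat_lit 17556) (nat_lit 6) (nat_lit 231) (nat_lit 4) (nat_lit 123) (nat_lit 142) (nat_lit 125))) (PT.nd (nat_lit 78) (PT.lf (nat_lit 17480) (nat_lit 3) (nat_lit 230) (nat_lit 2) (nat_lit 124) (nat_lit 142) (nat_lit 124)) (PT.lf (nat_lit 17556) (nat_lit 6) (nat_lit 231) (nat_lit 2) (nat_lit 125) (nat_lit 142) (nat_lit 123))))))))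
noncomputable def pc22 : PT := (PT.nd (nat_lit 38532) (PT.nd (nat_lit 1014) (PT.nd (nat_lit 468) (PT.nd (nat_lit 234) (PT.nd (nat_lit 78) (PT.lf (nat_lit 17632) (nat_lit 6) (nat_lit 232) (nat_lit 2) (nat_lit 126) (nat_lit 142) (nat_lit 122)) (PT.nd (nat_lit 78) (PT.lf (nat_lit 17708) (nat_lit 6) (nat_lit 233) (nat_lit 2) (nat_lit 127) (nat_lit 142) (nat_lit 121)) (PT.lf (nat_lit 17784) (nat_lit 6) (nat_lit 234) (nat_lit 2) (nat_lit 128) (nat_lit 142) (nat_lit 120)))) (PT.nd (nat_lit 78) (PT.lf (nat_lit 17860) (nat_lit 6) (nat_lit 235) (nat_lit 2) (nat_lit 129) (nat_lit 142) (nat_lit 119)) (PT.nd (nat_lit 78) (PT.lf (nat_lit 17936) (nat_lit 6) (nat_lit 236) (nat_lit 2) (nat_lit 130) (nat_lit 142) (nat_lit 118)) (PT.lf (nat_lit 17024) (nat_lit 6) (nat_lit 224) (nat_lit 2) (nat_lit 131) (nat_lit 142) (nat_lit 117))))) (PT.nd (nat_lit 234) (PT.nd (nat_lit 78) (PT.lf (nat_lit 16036) (nat_lit 6) (nat_lit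 211) (nat_lit 2) (nat_lit 132) (nat_lit 142) (nat_lit 116)) (PT.nd (nat_lit 78) (PT.lf (nat_lit 14972) (nat_lit 6) (nat_lit 197) (nat_lit 2) (nat_lit 133) (nat_lit 142) (nat_lit 115)) (PT.lf (nat_lit 13832) (nat_lit 6) (nat_lit 182) (nat_lit 2) (nat_lit 134) (nat_lit 142) (nat_lit 114)))) (PT.nd (nat_lit 156) (PT.nd (nat_lit 78) (PT.lf (nat_lit 13224) (nat_lit 6) (nat_lit 174) (nat_lit 2) (nat_lit 135) (nat_lit 142) (nat_lit 113)) (PT.lf (nat_lit 12616) (nat_lit 6) (nat_lit 166) (nat_lit 2) (nat_lit 136) (nat_lit 142) (nat_lit 112))) (PT.nd (nat_lit 78) (PT.lf (nat_lit 12084) (nat_lit 6) (nat_lit 159) (nat_lit 2) (nat_lit 137) (nat_lit 142) (nat_lit 111)) (PT.lf (nat_lit 11552) (nat_lit 6) (nat_lit 152) (nat_lit 2) (nat_lit 138) (nat_lit 142) (nat_lit 110)))))) (PT.nd (nat_lit 546) (PT.nd (nat_lit 234) (PT.nd (nat_lit 78) (PT.lf (nat_lit 11096) (nat_lit 6) (nat_lit 146) (nat_lit 2) (nat_lit 139)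 (nat_lit 142) (nat_lit 109)) (PT.nd (nat_lit 78) (PT.lf (nat_lit 10564) (nat_lit 6) (nat_lit 139) (nat_lit 2) (nat_lit 140) (nat_lit 142) (nat_lit 108)) (PT.lf (nat_lit 10108) (nat_lit 6) (nat_lit 133) (nat_lit 2) (nat_lit 141) (nat_lit 142) (nat_lit 107)))) (PT.nd (nat_lit 156) (PT.nd (nat_lit 78) (PT.lf (nat_lit 9652) (nat_lit 3) (nat_lit 127) (nat_lit 0) (nat_lit 142) (nat_lit 142) (nat_lit 106)) (PT.lf (nat_lit 9196) (nat_lit 6) (nat_lit 121) (nat_lit 0) (nat_lit 143) (nat_lit 142) (nat_lit 105))) (PT.nd (nat_lit 78) (PT.lf (nat_lit 8740) (nat_lit 6) (nat_lit 115) (nat_lit 0) (nat_lit 144) (nat_lit 142) (nat_lit 104)) (PT.lf (nat_lit 8284) (nat_lit 6) (nat_lit 109) (nat_lit 0) (nat_lit 145) (nat_lit 142) (nat_lit 103))))) (PT.nd (nat_lit 234) (PT.nd (nat_lit 78) (PT.lf (nat_lit 7828) (nat_lit 6) (nat_lit 103) (nat_lit 0) (nat_lit 146) (nat_lit 142) (nat_lit 102)) (PT.nd (nat_lit 78) (PT.lf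 (nat_lit 7448) (nat_lit 6) (nat_lit 98) (nat_lit 0) (nat_lit 147) (nat_lit 142) (nat_lit 101)) (PT.lf (nat_lit 6992) (nat_lit 6) (nat_lit 92) (nat_lit 0) (nat_lit 148) (nat_lit 142) (nat_lit 100)))) (PT.nd (nat_lit 36582) (PT.nd (nat_lit 78) (PT.lf (nat_lit 6612) (nat_lit 6) (nat_lit 87) (nat_lit 0) (nat_lit 149) (nat_lit 142) (nat_lit 99)) (PT.lf (nat_lit 6232) (nat_lit 6) (nat_lit 82) (nat_lit 0) (nat_lit 150) (nat_lit 142) (nat_lit 98))) (PT.nd (nat_lit 78) (PT.lf (nat_lit 5928) (nat_lit 6) (nat_lit 78) (nat_lit 5) (nat_lit 97) (nat_lit 143) (nat_lit 150)) (PT.lf (nat_lit 6308) (nat_lit 6) (nat_lit 83) (nat_lit 5) (nat_lit 98) (nat_lit 143) (nat_lit 149))))))) (PT.nd (nat_lit 1092) (PT.nd (nat_lit 546) (PT.nd (nat_lit 234) (PT.nd (nat_lit 78) (PT.lf (nat_lit 6688) (nat_lit 6) (nat_lit 88) (nat_lit 5) (nat_lit 99) (nat_lit 143) (nat_lit 148)) (PT.nd (nat_lit 78) (PT.lf (nat_lit 7068) (nat_lit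 6) (nat_lit 93) (nat_lit 5) (nat_lit 100) (nat_lit 143) (nat_lit 147)) (PT.lf (nat_lit 7524) (nat_lit 6) (nat_lit 99) (nat_lit 5) (nat_lit 101) (nat_lit 143) (nat_lit 146)))) (PT.nd (nat_lit 156) (PT.nd (nat_lit 78) (PT.lf (nat_lit 7904) (nat_lit 6) (nat_lit 104) (nat_lit 5) (nat_lit 102) (nat_lit 143) (nat_lit 145)) (PT.lf (nat_lit 8360) (nat_lit 6) (nat_lit 110) (nat_lit 5) (nat_lit 103) (nat_lit 143) (nat_lit 144))) (PT.nd (nat_lit 78) (PT.lf (nat_lit 8816) (nat_lit 3) (nat_lit 116) (nat_lit 4) (nat_lit 104) (nat_lit 143) (nat_lit 143)) (PT.lf (nat_lit 9196) (nat_lit 6) (nat_lit 121) (nat_lit 4) (nat_lit 105) (nat_lit 143) (nat_lit 142))))) (PT.nd (nat_lit 234) (PT.nd (nat_lit 78) (PT.lf (nat_lit 9576) (nat_lit 6) (nat_lit 126) (nat_lit 4) (nat_lit 106) (nat_lit 143) (nat_lit 141)) (PT.nd (nat_lit 78) (PT.lf (nat_lit 10032) (nat_lit 6) (nat_lit 132) (nat_lit 4) (nat_lit 107) (nat_lit 143) (nat_lit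 140)) (PT.lf (nat_lit 10488) (nat_lit 6) (nat_lit 138) (nat_lit 4) (nat_lit 108) (nat_lit 143) (nat_lit 139)))) (PT.nd (nat_lit 156) (PT.nd (nat_lit 78) (PT.lf (nat_lit 11020) (nat_lit 6) (nat_lit 145) (nat_lit 4) (nat_lit 109) (nat_lit 143) (nat_lit 138)) (PT.lf (nat_lit 11476) (nat_lit 6) (nat_lit 151) (nat_lit 4) (nat_lit 110) (nat_lit 143) (nat_lit 137))) (PT.nd (nat_lit 78) (PT.lf (nat_lit 12008) (nat_lit 6) (nat_lit 158) (nat_lit 4) (nat_lit 111) (nat_lit 143) (nat_lit 136)) (PT.lf (nat_lit 12540) (nat_lit 6) (nat_lit 165) (nat_lit 4) (nat_lit 112) (nat_lit 143) (nat_lit 135)))))) (PT.nd (nat_lit 546) (PT.nd (nat_lit 234) (PT.nd (nat_lit 78) (PT.lf (nat_lit 13148) (nat_lit 6) (nat_lit 173) (nat_lit 4) (nat_lit 113) (nat_lit 143) (nat_lit 134)) (PT.nd (nat_lit 78) (PT.lf (nat_lit 13756) (nat_lit 6) (nat_lit 181) (nat_lit 4) (nat_lit 114) (nat_lit 143) (nat_lit 133)) (PT.lf (nat_lit 14896)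 (nat_lit 6) (nat_lit 196) (nat_lit 4) (nat_lit 115) (nat_lit 143) (nat_lit 132)))) (PT.nd (nat_lit 156) (PT.nd (nat_lit 78) (PT.lf (nat_lit 15960) (nat_lit 6) (nat_lit 210) (nat_lit 4) (nat_lit 116) (nat_lit 143) (nat_lit 131)) (PT.lf (nat_lit 16948) (nat_lit 6) (nat_lit 223) (nat_lit 4) (nat_lit 117) (nat_lit 143) (nat_lit 130))) (PT.nd (nat_lit 78) (PT.lf (nat_lit 16872) (nat_lit 6) (nat_lit 222) (nat_lit 4) (nat_lit 118) (nat_lit 143) (nat_lit 129)) (PT.lf (nat_lit 16796) (nat_lit 6) (nat_lit 221) (nat_lit 4) (nat_lit 119) (nat_lit 143) (nat_lit 128))))) (PT.nd (nat_lit 234) (PT.nd (nat_lit 78) (PT.lf (nat_lit 16720) (nat_lit 6) (nat_lit 220) (nat_lit 4) (nat_lit 120) (nat_lit 143) (nat_lit 127)) (PT.nd (nat_lit 78) (PT.lf (nat_lit 16644) (nat_lit 6) (nat_lit 219) (nat_lit 4) (nat_lit 121) (nat_lit 143) (nat_lit 126)) (PT.lf (nat_lit 16568) (nat_lit 6) (nat_lit 218) (nat_lit 4) (nat_lit 122)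 (nat_lit 143) (nat_lit 125)))) (PT.nd (nat_lit 156) (PT.nd (nat_lit 78) (PT.lf (nat_lit 16492) (nat_lit 6) (nat_lit 217) (nat_lit 4) (nat_lit 123) (nat_lit 143) (nat_lit 124)) (PT.lf (nat_lit 16492) (nat_lit 6) (nat_lit 217) (nat_lit 2) (nat_lit 124) (nat_lit 143) (nat_lit 123))) (PT.nd (nat_lit 78) (PT.lf (nat_lit 16568) (nat_lit 6) (nat_lit 218) (nat_lit 2) (nat_lit 125) (nat_lit 143) (nat_lit 122)) (PT.lf (nat_lit 16644) (nat_lit 6) (nat_lit 219) (nat_lit 2) (nat_lit 126) (nat_lit 143) (nat_lit 121))))))))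
noncomputable def pc23 : PT := (PT.nd (nat_lit 38376) (PT.nd (nat_lit 1014) (PT.nd (nat_lit 468) (PT.nd (nat_lit 234) (PT.nd (nat_lit 78) (PT.lf (nat_lit 16720) (nat_lit 6) (nat_lit 220) (nat_lit 2) (nat_lit 127) (nat_lit 143) (nat_lit 120)) (PT.nd (nat_lit 78) (PT.lf (nat_lit 16796) (nat_lit 6) (nat_lit 221) (nat_lit 2) (nat_lit 128) (nat_lit 143) (nat_lit 119)) (PT.lf (nat_lit 16872) (nat_lit 6) (nat_lit 222) (nat_lit 2) (nat_lit 129) (nat_lit 143) (nat_lit 118)))) (PT.nd (nat_lit 78) (PT.lf (nat_lit 16948) (nat_lit 6) (nat_lit 223) (nat_lit 2) (nat_lit 130) (nat_lit 143) (nat_lit 117)) (PT.nd (nat_lit 78) (PT.lf (nat_lit 15960) (nat_lit 6) (nat_lit 210) (nat_lit 2) (nat_lit 131) (nat_lit 143) (nat_lit 116)) (PT.lf (nat_lit 14896) (nat_lit 6) (nat_lit 196) (nat_lit 2) (nat_lit 132) (nat_lit 143) (nat_lit 115))))) (PT.nd (nat_lit 234) (PT.nd (nat_lit 78) (PT.lf (nat_lit 13756) (nat_lit 6) (nat_lit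 181) (nat_lit 2) (nat_lit 133) (nat_lit 143) (nat_lit 114)) (PT.nd (nat_lit 78) (PT.lf (nat_lit 13148) (nat_lit 6) (nat_lit 173) (nat_lit 2) (nat_lit 134) (nat_lit 143) (nat_lit 113)) (PT.lf (nat_lit 12540) (nat_lit 6) (nat_lit 165) (nat_lit 2) (nat_lit 135) (nat_lit 143) (nat_lit 112)))) (PT.nd (nat_lit 156) (PT.nd (nat_lit 78) (PT.lf (nat_lit 12008) (nat_lit 6) (nat_lit 158) (nat_lit 2) (nat_lit 136) (nat_lit 143) (nat_lit 111)) (PT.lf (nat_lit 11476) (nat_lit 6) (nat_lit 151) (nat_lit 2) (nat_lit 137) (nat_lit 143) (nat_lit 110))) (PT.nd (nat_lit 78) (PT.lf (nat_lit 11020) (nat_lit 6) (nat_lit 145) (nat_lit 2) (nat_lit 138) (nat_lit 143) (nat_lit 109)) (PT.lf (nat_lit 10488) (nat_lit 6) (nat_lit 138) (nat_lit 2) (nat_lit 139) (nat_lit 143) (nat_lit 108)))))) (PT.nd (nat_lit 546) (PT.nd (nat_lit 234) (PT.nd (nat_lit 78) (PT.lf (nat_lit 10032) (nat_lit 6) (nat_lit 132) (nat_lit 2) (nat_lit 140)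 (nat_lit 143) (nat_lit 107)) (PT.nd (nat_lit 78) (PT.lf (nat_lit 9576) (nat_lit 6) (nat_lit 126) (nat_lit 2) (nat_lit 141) (nat_lit 143) (nat_lit 106)) (PT.lf (nat_lit 9196) (nat_lit 6) (nat_lit 121) (nat_lit 2) (nat_lit 142) (nat_lit 143) (nat_lit 105)))) (PT.nd (nat_lit 156) (PT.nd (nat_lit 78) (PT.lf (nat_lit 8816) (nat_lit 3) (nat_lit 116) (nat_lit 0) (nat_lit 143) (nat_lit 143) (nat_lit 104)) (PT.lf (nat_lit 8360) (nat_lit 6) (nat_lit 110) (nat_lit 0) (nat_lit 144) (nat_lit 143) (nat_lit 103))) (PT.nd (nat_lit 78) (PT.lf (nat_lit 7904) (nat_lit 6) (nat_lit 104) (nat_lit 0) (nat_lit 145) (nat_lit 143) (nat_lit 102)) (PT.lf (nat_lit 7524) (nat_lit 6) (nat_lit 99) (nat_lit 0) (nat_lit 146) (nat_lit 143) (nat_lit 101))))) (PT.nd (nat_lit 234) (PT.nd (nat_lit 78) (PT.lf (nat_lit 7068) (nat_lit 6) (nat_lit 93) (nat_lit 0) (nat_lit 147) (nat_lit 143) (nat_lit 100)) (PT.nd (nat_lit 78) (PT.lf (nat_lit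 6688) (nat_lit 6) (nat_lit 88) (nat_lit 0) (nat_lit 148) (nat_lit 143) (nat_lit 99)) (PT.lf (nat_lit 6308) (nat_lit 6) (nat_lit 83) (nat_lit 0) (nat_lit 149) (nat_lit 143) (nat_lit 98)))) (PT.nd (nat_lit 36426) (PT.nd (nat_lit 36348) (PT.lf (nat_lit 5928) (nat_lit 6) (nat_lit 78) (nat_lit 0) (nat_lit 150) (nat_lit 143) (nat_lit 97)) (PT.lf (nat_lit 5320) (nat_lit 6) (nat_lit 70) (nat_lit 5) (nat_lit 95) (nat_lit 144) (nat_lit 151))) (PT.nd (nat_lit 78) (PT.lf (nat_lit 5624) (nat_lit 6) (nat_lit 74) (nat_lit 5) (nat_lit 96) (nat_lit 144) (nat_lit 150)) (PT.lf (nat_lit 6004) (nat_lit 6) (nat_lit 79) (nat_lit 5) (nat_lit 97) (nat_lit 144) (nat_lit 149))))))) (PT.nd (nat_lit 1092) (PT.nd (nat_lit 546) (PT.nd (nat_lit 234) (PT.nd (nat_lit 78) (PT.lf (nat_lit 6384) (nat_lit 6) (nat_lit 84) (nat_lit 5) (nat_lit 98) (nat_lit 144) (nat_lit 148)) (PT.nd (nat_lit 78) (PT.lf (nat_lit 6764) (nat_lit 6) (nat_lit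 89) (nat_lit 5) (nat_lit 99) (nat_lit 144) (nat_lit 147)) (PT.lf (nat_lit 7144) (nat_lit 6) (nat_lit 94) (nat_lit 5) (nat_lit 100) (nat_lit 144) (nat_lit 146)))) (PT.nd (nat_lit 156) (PT.nd (nat_lit 78) (PT.lf (nat_lit 7600) (nat_lit 6) (nat_lit 100) (nat_lit 5) (nat_lit 101) (nat_lit 144) (nat_lit 145)) (PT.lf (nat_lit 7980) (nat_lit 3) (nat_lit 105) (nat_lit 4) (nat_lit 102) (nat_lit 144) (nat_lit 144))) (PT.nd (nat_lit 78) (PT.lf (nat_lit 8360) (nat_lit 6) (nat_lit 110) (nat_lit 4) (nat_lit 103) (nat_lit 144) (nat_lit 143)) (PT.lf (nat_lit 8740) (nat_lit 6) (nat_lit 115) (nat_lit 4) (nat_lit 104) (nat_lit 144) (nat_lit 142))))) (PT.nd (nat_lit 234) (PT.nd (nat_lit 78) (PT.lf (nat_lit 9120) (nat_lit 6) (nat_lit 120) (nat_lit 4) (nat_lit 105) (nat_lit 144) (nat_lit 141)) (PT.nd (nat_lit 78) (PT.lf (nat_lit 9500) (nat_lit 6) (nat_lit 125) (nat_lit 4) (nat_lit 106) (nat_lit 144) (nat_lit 140))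 (PT.lf (nat_lit 9956) (nat_lit 6) (nat_lit 131) (nat_lit 4) (nat_lit 107) (nat_lit 144) (nat_lit 139)))) (PT.nd (nat_lit 156) (PT.nd (nat_lit 78) (PT.lf (nat_lit 10412) (nat_lit 6) (nat_lit 137) (nat_lit 4) (nat_lit 108) (nat_lit 144) (nat_lit 138)) (PT.lf (nat_lit 10944) (nat_lit 6) (nat_lit 144) (nat_lit 4) (nat_lit 109) (nat_lit 144) (nat_lit 137))) (PT.nd (nat_lit 78) (PT.lf (nat_lit 11400) (nat_lit 6) (nat_lit 150) (nat_lit 4) (nat_lit 110) (nat_lit 144) (nat_lit 136)) (PT.lf (nat_lit 11932) (nat_lit 6) (nat_lit 157) (nat_lit 4) (nat_lit 111) (nat_lit 144) (nat_lit 135)))))) (PT.nd (nat_lit 546) (PT.nd (nat_lit 234) (PT.nd (nat_lit 78) (PT.lf (nat_lit 12464) (nat_lit 6) (nat_lit 164) (nat_lit 4) (nat_lit 112) (nat_lit 144) (nat_lit 134)) (PT.nd (nat_lit 78) (PT.lf (nat_lit 13072) (nat_lit 6) (nat_lit 172) (nat_lit 4) (nat_lit 113) (nat_lit 144) (nat_lit 133)) (PT.lf (nat_lit 13680) (nat_lit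 6) (nat_lit 180) (nat_lit 4) (nat_lit 114) (nat_lit 144) (nat_lit 132)))) (PT.nd (nat_lit 156) (PT.nd (nat_lit 78) (PT.lf (nat_lit 14820) (nat_lit 6) (nat_lit 195) (nat_lit 4) (nat_lit 115) (nat_lit 144) (nat_lit 131)) (PT.lf (nat_lit 15884) (nat_lit 6) (nat_lit 209) (nat_lit 4) (nat_lit 116) (nat_lit 144) (nat_lit 130))) (PT.nd (nat_lit 78) (PT.lf (nat_lit 15808) (nat_lit 6) (nat_lit 208) (nat_lit 4) (nat_lit 117) (nat_lit 144) (nat_lit 129)) (PT.lf (nat_lit 15732) (nat_lit 6) (nat_lit 207) (nat_lit 4) (nat_lit 118) (nat_lit 144) (nat_lit 128))))) (PT.nd (nat_lit 234) (PT.nd (nat_lit 78) (PT.lf (nat_lit 15656) (nat_lit 6) (nat_lit 206) (nat_lit 4) (nat_lit 119) (nat_lit 144) (nat_lit 127)) (PT.nd (nat_lit 78) (PT.lf (nat_lit 15580) (nat_lit 6) (nat_lit 205) (nat_lit 4) (nat_lit 120) (nat_lit 144) (nat_lit 126)) (PT.lf (nat_lit 15504) (nat_lit 6) (nat_lit 204) (nat_lit 4) (nat_lit 121) (nat_lit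 144) (nat_lit 125)))) (PT.nd (nat_lit 156) (PT.nd (nat_lit 78) (PT.lf (nat_lit 15428) (nat_lit 6) (nat_lit 203) (nat_lit 4) (nat_lit 122) (nat_lit 144) (nat_lit 124)) (PT.lf (nat_lit 15352) (nat_lit 3) (nat_lit 202) (nat_lit 2) (nat_lit 123) (nat_lit 144) (nat_lit 123))) (PT.nd (nat_lit 78) (PT.lf (nat_lit 15428) (nat_lit 6) (nat_lit 203) (nat_lit 2) (nat_lit 124) (nat_lit 144) (nat_lit 122)) (PT.lf (nat_lit 15504) (nat_lit 6) (nat_lit 204) (nat_lit 2) (nat_lit 125) (nat_lit 144) (nat_lit 121))))))))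
noncomputable def pc24 : PT := (PT.nd (nat_lit 38220) (PT.nd (nat_lit 1014) (PT.nd (nat_lit 468) (PT.nd (nat_lit 234) (PT.nd (nat_lit 78) (PT.lf (nat_lit 15580) (nat_lit 6) (nat_lit 205) (nat_lit 2) (nat_lit 126) (nat_lit 144) (nat_lit 120)) (PT.nd (nat_lit 78) (PT.lf (nat_lit 15656) (nat_lit 6) (nat_lit 206) (nat_lit 2) (nat_lit 127) (nat_lit 144) (nat_lit 119)) (PT.lf (nat_lit 15732) (nat_lit 6) (nat_lit 207) (nat_lit 2) (nat_lit 128) (nat_lit 144) (nat_lit 118)))) (PT.nd (nat_lit 78) (PT.lf (nat_lit 15808) (nat_lit 6) (nat_lit 208) (nat_lit 2) (nat_lit 129) (nat_lit 144) (nat_lit 117)) (PT.nd (nat_lit 78) (PT.lf (nat_lit 15884) (nat_lit 6) (nat_lit 209) (nat_lit 2) (nat_lit 130) (nat_lit 144) (nat_lit 116)) (PT.lf (nat_lit 14820) (nat_lit 6) (nat_lit 195) (nat_lit 2) (nat_lit 131) (nat_lit 144) (nat_lit 115))))) (PT.nd (nat_lit 234) (PT.nd (nat_lit 78) (PT.lf (nat_lit 13680) (nat_lit 6) (nat_lit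 180) (nat_lit 2) (nat_lit 132) (nat_lit 144) (nat_lit 114)) (PT.nd (nat_lit 78) (PT.lf (nat_lit 13072) (nat_lit 6) (nat_lit 172) (nat_lit 2) (nat_lit 133) (nat_lit 144) (nat_lit 113)) (PT.lf (nat_lit 12464) (nat_lit 6) (nat_lit 164) (nat_lit 2) (nat_lit 134) (nat_lit 144) (nat_lit 112)))) (PT.nd (nat_lit 156) (PT.nd (nat_lit 78) (PT.lf (nat_lit 11932) (nat_lit 6) (nat_lit 157) (nat_lit 2) (nat_lit 135) (nat_lit 144) (nat_lit 111)) (PT.lf (nat_lit 11400) (nat_lit 6) (nat_lit 150) (nat_lit 2) (nat_lit 136) (nat_lit 144) (nat_lit 110))) (PT.nd (nat_lit 78) (PT.lf (nat_lit 10944) (nat_lit 6) (nat_lit 144) (nat_lit 2) (nat_lit 137) (nat_lit 144) (nat_lit 109)) (PT.lf (nat_lit 10412) (nat_lit 6) (nat_lit 137) (nat_lit 2) (nat_lit 138) (nat_lit 144) (nat_lit 108)))))) (PT.nd (nat_lit 546) (PT.nd (nat_lit 234) (PT.nd (nat_lit 78) (PT.lf (nat_lit 9956) (nat_lit 6) (nat_lit 131) (nat_lit 2) (nat_lit 139)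 (nat_lit 144) (nat_lit 107)) (PT.nd (nat_lit 78) (PT.lf (nat_lit 9500) (nat_lit 6) (nat_lit 125) (nat_lit 2) (nat_lit 140) (nat_lit 144) (nat_lit 106)) (PT.lf (nat_lit 9120) (nat_lit 6) (nat_lit 120) (nat_lit 2) (nat_lit 141) (nat_lit 144) (nat_lit 105)))) (PT.nd (nat_lit 156) (PT.nd (nat_lit 78) (PT.lf (nat_lit 8740) (nat_lit 6) (nat_lit 115) (nat_lit 2) (nat_lit 142) (nat_lit 144) (nat_lit 104)) (PT.lf (nat_lit 8360) (nat_lit 6) (nat_lit 110) (nat_lit 2) (nat_lit 143) (nat_lit 144) (nat_lit 103))) (PT.nd (nat_lit 78) (PT.lf (nat_lit 7980) (nat_lit 3) (nat_lit 105) (nat_lit 0) (nat_lit 144) (nat_lit 144) (nat_lit 102)) (PT.lf (nat_lit 7600) (nat_lit 6) (nat_lit 100) (nat_lit 0) (nat_lit 145) (nat_lit 144) (nat_lit 101))))) (PT.nd (nat_lit 234) (PT.nd (nat_lit 78) (PT.lf (nat_lit 7144) (nat_lit 6) (nat_lit 94) (nat_lit 0) (nat_lit 146) (nat_lit 144) (nat_lit 100)) (PT.nd (nat_lit 78) (PT.lf (nat_lit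 6764) (nat_lit 6) (nat_lit 89) (nat_lit 0) (nat_lit 147) (nat_lit 144) (nat_lit 99)) (PT.lf (nat_lit 6384) (nat_lit 6) (nat_lit 84) (nat_lit 0) (nat_lit 148) (nat_lit 144) (nat_lit 98)))) (PT.nd (nat_lit 156) (PT.nd (nat_lit 78) (PT.lf (nat_lit 6004) (nat_lit 6) (nat_lit 79) (nat_lit 0) (nat_lit 149) (nat_lit 144) (nat_lit 97)) (PT.lf (nat_lit 5624) (nat_lit 6) (nat_lit 74) (nat_lit 0) (nat_lit 150) (nat_lit 144) (nat_lit 96))) (PT.nd (nat_lit 36192) (PT.lf (nat_lit 5320) (nat_lit 6) (nat_lit 70) (nat_lit 0) (nat_lit 151) (nat_lit 144) (nat_lit 95)) (PT.lf (nat_lit 5016) (nat_lit 6) (nat_lit 66) (nat_lit 5) (nat_lit 94) (nat_lit 145) (nat_lit 151))))))) (PT.nd (nat_lit 1092) (PT.nd (nat_lit 546) (PT.nd (nat_lit 234) (PT.nd (nat_lit 78) (PT.lf (nat_lit 5396) (nat_lit 6) (nat_lit 71) (nat_lit 5) (nat_lit 95) (nat_lit 145) (nat_lit 150)) (PT.nd (nat_lit 78) (PT.lf (nat_lit 5700) (nat_lit 6) (nat_lit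 75) (nat_lit 5) (nat_lit 96) (nat_lit 145) (nat_lit 149)) (PT.lf (nat_lit 6080) (nat_lit 6) (nat_lit 80) (nat_lit 5) (nat_lit 97) (nat_lit 145) (nat_lit 148)))) (PT.nd (nat_lit 156) (PT.nd (nat_lit 78) (PT.lf (nat_lit 6460) (nat_lit 6) (nat_lit 85) (nat_lit 5) (nat_lit 98) (nat_lit 145) (nat_lit 147)) (PT.lf (nat_lit 6840) (nat_lit 6) (nat_lit 90) (nat_lit 5) (nat_lit 99) (nat_lit 145) (nat_lit 146))) (PT.nd (nat_lit 78) (PT.lf (nat_lit 7220) (nat_lit 3) (nat_lit 95) (nat_lit 4) (nat_lit 100) (nat_lit 145) (nat_lit 145)) (PT.lf (nat_lit 7600) (nat_lit 6) (nat_lit 100) (nat_lit 4) (nat_lit 101) (nat_lit 145) (nat_lit 144))))) (PT.nd (nat_lit 234) (PT.nd (nat_lit 78) (PT.lf (nat_lit 7904) (nat_lit 6) (nat_lit 104) (nat_lit 4) (nat_lit 102) (nat_lit 145) (nat_lit 143)) (PT.nd (nat_lit 78) (PT.lf (nat_lit 8284) (nat_lit 6) (nat_lit 109) (nat_lit 4) (nat_lit 103) (nat_lit 145) (nat_lit 142)) (PT.lf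 (nat_lit 8664) (nat_lit 6) (nat_lit 114) (nat_lit 4) (nat_lit 104) (nat_lit 145) (nat_lit 141)))) (PT.nd (nat_lit 156) (PT.nd (nat_lit 78) (PT.lf (nat_lit 9044) (nat_lit 6) (nat_lit 119) (nat_lit 4) (nat_lit 105) (nat_lit 145) (nat_lit 140)) (PT.lf (nat_lit 9424) (nat_lit 6) (nat_lit 124) (nat_lit 4) (nat_lit 106) (nat_lit 145) (nat_lit 139))) (PT.nd (nat_lit 78) (PT.lf (nat_lit 9880) (nat_lit 6) (nat_lit 130) (nat_lit 4) (nat_lit 107) (nat_lit 145) (nat_lit 138)) (PT.lf (nat_lit 10336) (nat_lit 6) (nat_lit 136) (nat_lit 4) (nat_lit 108) (nat_lit 145) (nat_lit 137)))))) (PT.nd (nat_lit 546) (PT.nd (nat_lit 234) (PT.nd (nat_lit 78) (PT.lf (nat_lit 10868) (nat_lit 6) (nat_lit 143) (nat_lit 4) (nat_lit 109) (nat_lit 145) (nat_lit 136)) (PT.nd (nat_lit 78) (PT.lf (nat_lit 11324) (nat_lit 6) (nat_lit 149) (nat_lit 4) (nat_lit 110) (nat_lit 145) (nat_lit 135)) (PT.lf (nat_lit 11856) (nat_lit 6) (nat_lit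 156) (nat_lit 4) (nat_lit 111) (nat_lit 145) (nat_lit 134)))) (PT.nd (nat_lit 156) (PT.nd (nat_lit 78) (PT.lf (nat_lit 12388) (nat_lit 6) (nat_lit 163) (nat_lit 4) (nat_lit 112) (nat_lit 145) (nat_lit 133)) (PT.lf (nat_lit 12996) (nat_lit 6) (nat_lit 171) (nat_lit 4) (nat_lit 113) (nat_lit 145) (nat_lit 132))) (PT.nd (nat_lit 78) (PT.lf (nat_lit 13604) (nat_lit 6) (nat_lit 179) (nat_lit 4) (nat_lit 114) (nat_lit 145) (nat_lit 131)) (PT.lf (nat_lit 14744) (nat_lit 6) (nat_lit 194) (nat_lit 4) (nat_lit 115) (nat_lit 145) (nat_lit 130))))) (PT.nd (nat_lit 234) (PT.nd (nat_lit 78) (PT.lf (nat_lit 14668) (nat_lit 6) (nat_lit 193) (nat_lit 4) (nat_lit 116) (nat_lit 145) (nat_lit 129)) (PT.nd (nat_lit 78) (PT.lf (nat_lit 14592) (nat_lit 6) (nat_lit 192) (nat_lit 4) (nat_lit 117) (nat_lit 145) (nat_lit 128)) (PT.lf (nat_lit 14516) (nat_lit 6) (nat_lit 191) (nat_lit 4) (nat_lit 118) (nat_lit 145) (nat_lit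 127)))) (PT.nd (nat_lit 156) (PT.nd (nat_lit 78) (PT.lf (nat_lit 14440) (nat_lit 6) (nat_lit 190) (nat_lit 4) (nat_lit 119) (nat_lit 145) (nat_lit 126)) (PT.lf (nat_lit 14364) (nat_lit 6) (nat_lit 189) (nat_lit 4) (nat_lit 120) (nat_lit 145) (nat_lit 125))) (PT.nd (nat_lit 78) (PT.lf (nat_lit 14288) (nat_lit 6) (nat_lit 188) (nat_lit 4) (nat_lit 121) (nat_lit 145) (nat_lit 124)) (PT.lf (nat_lit 14212) (nat_lit 6) (nat_lit 187) (nat_lit 4) (nat_lit 122) (nat_lit 145) (nat_lit 123))))))))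
noncomputable def pc25 : PT := (PT.nd (nat_lit 2106) (PT.nd (nat_lit 1014) (PT.nd (nat_lit 468) (PT.nd (nat_lit 234) (PT.nd (nat_lit 78) (PT.lf (nat_lit 14212) (nat_lit 6) (nat_lit 187) (nat_lit 2) (nat_lit 123) (nat_lit 145) (nat_lit 122)) (PT.nd (nat_lit 78) (PT.lf (nat_lit 14288) (nat_lit 6) (nat_lit 188) (nat_lit 2) (nat_lit 124) (nat_lit 145) (nat_lit 121)) (PT.lf (nat_lit 14364) (nat_lit 6) (nat_lit 189) (nat_lit 2) (nat_lit 125) (nat_lit 145) (nat_lit 120)))) (PT.nd (nat_lit 78) (PT.lf (nat_lit 14440) (nat_lit 6) (nat_lit 190) (nat_lit 2) (nat_lit 126) (nat_lit 145) (nat_lit 119)) (PT.nd (nat_lit 78) (PT.lf (nat_lit 14516) (nat_lit 6) (nat_lit 191) (nat_lit 2) (nat_lit 127) (nat_lit 145) (nat_lit 118)) (PT.lf (nat_lit 14592) (nat_lit 6) (nat_lit 192) (nat_lit 2) (nat_lit 128) (nat_lit 145) (nat_lit 117))))) (PT.nd (nat_lit 234) (PT.nd (nat_lit 78) (PT.lf (nat_lit 14668) (nat_lit 6) (nat_lit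 193) (nat_lit 2) (nat_lit 129) (nat_lit 145) (nat_lit 116)) (PT.nd (nat_lit 78) (PT.lf (nat_lit 14744) (nat_lit 6) (nat_lit 194) (nat_lit 2) (nat_lit 130) (nat_lit 145) (nat_lit 115)) (PT.lf (nat_lit 13604) (nat_lit 6) (nat_lit 179) (nat_lit 2) (nat_lit 131) (nat_lit 145) (nat_lit 114)))) (PT.nd (nat_lit 156) (PT.nd (nat_lit 78) (PT.lf (nat_lit 12996) (nat_lit 6) (nat_lit 171) (nat_lit 2) (nat_lit 132) (nat_lit 145) (nat_lit 113)) (PT.lf (nat_lit 12388) (nat_lit 6) (nat_lit 163) (nat_lit 2) (nat_lit 133) (nat_lit 145) (nat_lit 112))) (PT.nd (nat_lit 78) (PT.lf (nat_lit 11856) (nat_lit 6) (nat_lit 156) (nat_lit 2) (nat_lit 134) (nat_lit 145) (nat_lit 111)) (PT.lf (nat_lit 11324) (nat_lit 6) (nat_lit 149) (nat_lit 2) (nat_lit 135) (nat_lit 145) (nat_lit 110)))))) (PT.nd (nat_lit 546) (PT.nd (nat_lit 234) (PT.nd (nat_lit 78) (PT.lf (nat_lit 10868) (nat_lit 6) (nat_lit 143) (nat_lit 2) (nat_lit 136)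 (nat_lit 145) (nat_lit 109)) (PT.nd (nat_lit 78) (PT.lf (nat_lit 10336) (nat_lit 6) (nat_lit 136) (nat_lit 2) (nat_lit 137) (nat_lit 145) (nat_lit 108)) (PT.lf (nat_lit 9880) (nat_lit 6) (nat_lit 130) (nat_lit 2) (nat_lit 138) (nat_lit 145) (nat_lit 107)))) (PT.nd (nat_lit 156) (PT.nd (nat_lit 78) (PT.lf (nat_lit 9424) (nat_lit 6) (nat_lit 124) (nat_lit 2) (nat_lit 139) (nat_lit 145) (nat_lit 106)) (PT.lf (nat_lit 9044) (nat_lit 6) (nat_lit 119) (nat_lit 2) (nat_lit 140) (nat_lit 145) (nat_lit 105))) (PT.nd (nat_lit 78) (PT.lf (nat_lit 8664) (nat_lit 6) (nat_lit 114) (nat_lit 2) (nat_lit 141) (nat_lit 145) (nat_lit 104)) (PT.lf (nat_lit 8284) (nat_lit 6) (nat_lit 109) (nat_lit 2) (nat_lit 142) (nat_lit 145) (nat_lit 103))))) (PT.nd (nat_lit 234) (PT.nd (nat_lit 78) (PT.lf (nat_lit 7904) (nat_lit 6) (nat_lit 104) (nat_lit 2) (nat_lit 143) (nat_lit 145) (nat_lit 102)) (PT.nd (nat_lit 78) (PT.lf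 (nat_lit 7600) (nat_lit 6) (nat_lit 100) (nat_lit 2) (nat_lit 144) (nat_lit 145) (nat_lit 101)) (PT.lf (nat_lit 7220) (nat_lit 3) (nat_lit 95) (nat_lit 0) (nat_lit 145) (nat_lit 145) (nat_lit 100)))) (PT.nd (nat_lit 156) (PT.nd (nat_lit 78) (PT.lf (nat_lit 6840) (nat_lit 6) (nat_lit 90) (nat_lit 0) (nat_lit 146) (nat_lit 145) (nat_lit 99)) (PT.lf (nat_lit 6460) (nat_lit 6) (nat_lit 85) (nat_lit 0) (nat_lit 147) (nat_lit 145) (nat_lit 98))) (PT.nd (nat_lit 78) (PT.lf (nat_lit 6080) (nat_lit 6) (nat_lit 80) (nat_lit 0) (nat_lit 148) (nat_lit 145) (nat_lit 97)) (PT.lf (nat_lit 5700) (nat_lit 6) (nat_lit 75) (nat_lit 0) (nat_lit 149) (nat_lit 145) (nat_lit 96))))))) (PT.nd (nat_lit 37050) (PT.nd (nat_lit 36504) (PT.nd (nat_lit 36192) (PT.nd (nat_lit 78) (PT.lf (nat_lit 5396) (nat_lit 6) (nat_lit 71) (nat_lit 0) (nat_lit 150) (nat_lit 145) (nat_lit 95)) (PT.nd (nat_lit 36036) (PT.lf (nat_lit 5016)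 (nat_lit 6) (nat_lit 66) (nat_lit 0) (nat_lit 151) (nat_lit 145) (nat_lit 94)) (PT.lf (nat_lit 4484) (nat_lit 6) (nat_lit 59) (nat_lit 5) (nat_lit 92) (nat_lit 146) (nat_lit 152)))) (PT.nd (nat_lit 156) (PT.nd (nat_lit 78) (PT.lf (nat_lit 4788) (nat_lit 6) (nat_lit 63) (nat_lit 5) (nat_lit 93) (nat_lit 146) (nat_lit 151)) (PT.lf (nat_lit 5092) (nat_lit 6) (nat_lit 67) (nat_lit 5) (nat_lit 94) (nat_lit 146) (nat_lit 150))) (PT.nd (nat_lit 78) (PT.lf (nat_lit 5472) (nat_lit 6) (nat_lit 72) (nat_lit 5) (nat_lit 95) (nat_lit 146) (nat_lit 149)) (PT.lf (nat_lit 5776) (nat_lit 6) (nat_lit 76) (nat_lit 5) (nat_lit 96) (nat_lit 146) (nat_lit 148))))) (PT.nd (nat_lit 234) (PT.nd (nat_lit 78) (PT.lf (nat_lit 6156) (nat_lit 6) (nat_lit 81) (nat_lit 5) (nat_lit 97) (nat_lit 146) (nat_lit 147)) (PT.nd (nat_lit 78) (PT.lf (nat_lit 6536) (nat_lit 3) (nat_lit 86) (nat_lit 4) (nat_lit 98) (nat_lit 146) (nat_lit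 146)) (PT.lf (nat_lit 6840) (nat_lit 6) (nat_lit 90) (nat_lit 4) (nat_lit 99) (nat_lit 146) (nat_lit 145)))) (PT.nd (nat_lit 156) (PT.nd (nat_lit 78) (PT.lf (nat_lit 7144) (nat_lit 6) (nat_lit 94) (nat_lit 4) (nat_lit 100) (nat_lit 146) (nat_lit 144)) (PT.lf (nat_lit 7524) (nat_lit 6) (nat_lit 99) (nat_lit 4) (nat_lit 101) (nat_lit 146) (nat_lit 143))) (PT.nd (nat_lit 78) (PT.lf (nat_lit 7828) (nat_lit 6) (nat_lit 103) (nat_lit 4) (nat_lit 102) (nat_lit 146) (nat_lit 142)) (PT.lf (nat_lit 8208) (nat_lit 6) (nat_lit 108) (nat_lit 4) (nat_lit 103) (nat_lit 146) (nat_lit 141)))))) (PT.nd (nat_lit 546) (PT.nd (nat_lit 234) (PT.nd (nat_lit 78) (PT.lf (nat_lit 8588) (nat_lit 6) (nat_lit 113) (nat_lit 4) (nat_lit 104) (nat_lit 146) (nat_lit 140)) (PT.nd (nat_lit 78) (PT.lf (nat_lit 8968) (nat_lit 6) (nat_lit 118) (nat_lit 4) (nat_lit 105) (nat_lit 146) (nat_lit 139)) (PT.lf (nat_lit 9348) (nat_lit 6)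 (nat_lit 123) (nat_lit 4) (nat_lit 106) (nat_lit 146) (nat_lit 138)))) (PT.nd (nat_lit 156) (PT.nd (nat_lit 78) (PT.lf (nat_lit 9804) (nat_lit 6) (nat_lit 129) (nat_lit 4) (nat_lit 107) (nat_lit 146) (nat_lit 137)) (PT.lf (nat_lit 10260) (nat_lit 6) (nat_lit 135) (nat_lit 4) (nat_lit 108) (nat_lit 146) (nat_lit 136))) (PT.nd (nat_lit 78) (PT.lf (nat_lit 10792) (nat_lit 6) (nat_lit 142) (nat_lit 4) (nat_lit 109) (nat_lit 146) (nat_lit 135)) (PT.lf (nat_lit 11248) (nat_lit 6) (nat_lit 148) (nat_lit 4) (nat_lit 110) (nat_lit 146) (nat_lit 134))))) (PT.nd (nat_lit 234) (PT.nd (nat_lit 78) (PT.lf (nat_lit 11780) (nat_lit 6) (nat_lit 155) (nat_lit 4) (nat_lit 111) (nat_lit 146) (nat_lit 133)) (PT.nd (nat_lit 78) (PT.lf (nat_lit 12312) (nat_lit 6) (nat_lit 162) (nat_lit 4) (nat_lit 112) (nat_lit 146) (nat_lit 132)) (PT.lf (nat_lit 12920) (nat_lit 6) (nat_lit 170) (nat_lit 4) (nat_lit 113) (nat_lit 146)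 (nat_lit 131)))) (PT.nd (nat_lit 1326) (PT.nd (nat_lit 1248) (PT.lf (nat_lit 13528) (nat_lit 6) (nat_lit 178) (nat_lit 4) (nat_lit 114) (nat_lit 146) (nat_lit 130)) (PT.lf (nat_lit 13528) (nat_lit 6) (nat_lit 178) (nat_lit 2) (nat_lit 130) (nat_lit 146) (nat_lit 114))) (PT.nd (nat_lit 78) (PT.lf (nat_lit 12920) (nat_lit 6) (nat_lit 170) (nat_lit 2) (nat_lit 131) (nat_lit 146) (nat_lit 113)) (PT.lf (nat_lit 12312) (nat_lit 6) (nat_lit 162) (nat_lit 2) (nat_lit 132) (nat_lit 146) (nat_lit 112))))))))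
noncomputable def pc26 : PT := (PT.nd (nat_lit 37908) (PT.nd (nat_lit 1014) (PT.nd (nat_lit 468) (PT.nd (nat_lit 234) (PT.nd (nat_lit 78) (PT.lf (nat_lit 11780) (nat_lit 6) (nat_lit 155) (nat_lit 2) (nat_lit 133) (nat_lit 146) (nat_lit 111)) (PT.nd (nat_lit 78) (PT.lf (nat_lit 11248) (nat_lit 6) (nat_lit 148) (nat_lit 2) (nat_lit 134) (nat_lit 146) (nat_lit 110)) (PT.lf (nat_lit 10792) (nat_lit 6) (nat_lit 142) (nat_lit 2) (nat_lit 135) (nat_lit 146) (nat_lit 109)))) (PT.nd (nat_lit 78) (PT.lf (nat_lit 10260) (nat_lit 6) (nat_lit 135) (nat_lit 2) (nat_lit 136) (nat_lit 146) (nat_lit 108)) (PT.nd (nat_lit 78) (PT.lf (nat_lit 9804) (nat_lit 6) (nat_lit 129) (nat_lit 2) (nat_lit 137) (nat_lit 146) (nat_lit 107)) (PT.lf (nat_lit 9348) (nat_lit 6) (nat_lit 123) (nat_lit 2) (nat_lit 138) (nat_lit 146) (nat_lit 106))))) (PT.nd (nat_lit 234) (PT.nd (nat_lit 78) (PT.lf (nat_lit 8968) (nat_lit 6) (nat_lit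 118) (nat_lit 2) (nat_lit 139) (nat_lit 146) (nat_lit 105)) (PT.nd (nat_lit 78) (PT.lf (nat_lit 8588) (nat_lit 6) (nat_lit 113) (nat_lit 2) (nat_lit 140) (nat_lit 146) (nat_lit 104)) (PT.lf (nat_lit 8208) (nat_lit 6) (nat_lit 108) (nat_lit 2) (nat_lit 141) (nat_lit 146) (nat_lit 103)))) (PT.nd (nat_lit 156) (PT.nd (nat_lit 78) (PT.lf (nat_lit 7828) (nat_lit 6) (nat_lit 103) (nat_lit 2) (nat_lit 142) (nat_lit 146) (nat_lit 102)) (PT.lf (nat_lit 7524) (nat_lit 6) (nat_lit 99) (nat_lit 2) (nat_lit 143) (nat_lit 146) (nat_lit 101))) (PT.nd (nat_lit 78) (PT.lf (nat_lit 7144) (nat_lit 6) (nat_lit 94) (nat_lit 2) (nat_lit 144) (nat_lit 146) (nat_lit 100)) (PT.lf (nat_lit 6840) (nat_lit 6) (nat_lit 90) (nat_lit 2) (nat_lit 145) (nat_lit 146) (nat_lit 99)))))) (PT.nd (nat_lit 36348) (PT.nd (nat_lit 234) (PT.nd (nat_lit 78) (PT.lf (nat_lit 6536) (nat_lit 3) (nat_lit 86) (nat_lit 0) (nat_lit 146) (nat_lit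 146) (nat_lit 98)) (PT.nd (nat_lit 78) (PT.lf (nat_lit 6156) (nat_lit 6) (nat_lit 81) (nat_lit 0) (nat_lit 147) (nat_lit 146) (nat_lit 97)) (PT.lf (nat_lit 5776) (nat_lit 6) (nat_lit 76) (nat_lit 0) (nat_lit 148) (nat_lit 146) (nat_lit 96)))) (PT.nd (nat_lit 156) (PT.nd (nat_lit 78) (PT.lf (nat_lit 5472) (nat_lit 6) (nat_lit 72) (nat_lit 0) (nat_lit 149) (nat_lit 146) (nat_lit 95)) (PT.lf (nat_lit 5092) (nat_lit 6) (nat_lit 67) (nat_lit 0) (nat_lit 150) (nat_lit 146) (nat_lit 94))) (PT.nd (nat_lit 78) (PT.lf (nat_lit 4788) (nat_lit 6) (nat_lit 63) (nat_lit 0) (nat_lit 151) (nat_lit 146) (nat_lit 93)) (PT.lf (nat_lit 4484) (nat_lit 6) (nat_lit 59) (nat_lit 0) (nat_lit 152) (nat_lit 146) (nat_lit 92))))) (PT.nd (nat_lit 234) (PT.nd (nat_lit 78) (PT.lf (nat_lit 4256) (nat_lit 6) (nat_lit 56) (nat_lit 5) (nat_lit 91) (nat_lit 147) (nat_lit 152)) (PT.nd (nat_lit 78) (PT.lf (nat_lit 4560) (nat_lit 6)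 (nat_lit 60) (nat_lit 5) (nat_lit 92) (nat_lit 147) (nat_lit 151)) (PT.lf (nat_lit 4864) (nat_lit 6) (nat_lit 64) (nat_lit 5) (nat_lit 93) (nat_lit 147) (nat_lit 150)))) (PT.nd (nat_lit 156) (PT.nd (nat_lit 78) (PT.lf (nat_lit 5168) (nat_lit 6) (nat_lit 68) (nat_lit 5) (nat_lit 94) (nat_lit 147) (nat_lit 149)) (PT.lf (nat_lit 5548) (nat_lit 6) (nat_lit 73) (nat_lit 5) (nat_lit 95) (nat_lit 147) (nat_lit 148))) (PT.nd (nat_lit 78) (PT.lf (nat_lit 5852) (nat_lit 3) (nat_lit 77) (nat_lit 4) (nat_lit 96) (nat_lit 147) (nat_lit 147)) (PT.lf (nat_lit 6156) (nat_lit 6) (nat_lit 81) (nat_lit 4) (nat_lit 97) (nat_lit 147) (nat_lit 146))))))) (PT.nd (nat_lit 2964) (PT.nd (nat_lit 546) (PT.nd (nat_lit 234) (PT.nd (nat_lit 78) (PT.lf (nat_lit 6460) (nat_lit 6) (nat_lit 85) (nat_lit 4) (nat_lit 98) (nat_lit 147) (nat_lit 145)) (PT.nd (nat_lit 78) (PT.lf (nat_lit 6764) (nat_lit 6) (nat_lit 89) (nat_lit 4) (nat_lit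 99) (nat_lit 147) (nat_lit 144)) (PT.lf (nat_lit 7068) (nat_lit 6) (nat_lit 93) (nat_lit 4) (nat_lit 100) (nat_lit 147) (nat_lit 143)))) (PT.nd (nat_lit 156) (PT.nd (nat_lit 78) (PT.lf (nat_lit 7448) (nat_lit 6) (nat_lit 98) (nat_lit 4) (nat_lit 101) (nat_lit 147) (nat_lit 142)) (PT.lf (nat_lit 7752) (nat_lit 6) (nat_lit 102) (nat_lit 4) (nat_lit 102) (nat_lit 147) (nat_lit 141))) (PT.nd (nat_lit 78) (PT.lf (nat_lit 8132) (nat_lit 6) (nat_lit 107) (nat_lit 4) (nat_lit 103) (nat_lit 147) (nat_lit 140)) (PT.lf (nat_lit 8512) (nat_lit 6) (nat_lit 112) (nat_lit 4) (nat_lit 104) (nat_lit 147) (nat_lit 139))))) (PT.nd (nat_lit 234) (PT.nd (nat_lit 78) (PT.lf (nat_lit 8892) (nat_lit 6) (nat_lit 117) (nat_lit 4) (nat_lit 105) (nat_lit 147) (nat_lit 138)) (PT.nd (nat_lit 78) (PT.lf (nat_lit 9272) (nat_lit 6) (nat_lit 122) (nat_lit 4) (nat_lit 106) (nat_lit 147) (nat_lit 137)) (PT.lf (nat_lit 9728) (nat_lit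 6) (nat_lit 128) (nat_lit 4) (nat_lit 107) (nat_lit 147) (nat_lit 136)))) (PT.nd (nat_lit 2028) (PT.nd (nat_lit 78) (PT.lf (nat_lit 10184) (nat_lit 6) (nat_lit 134) (nat_lit 4) (nat_lit 108) (nat_lit 147) (nat_lit 135)) (PT.lf (nat_lit 10716) (nat_lit 6) (nat_lit 141) (nat_lit 4) (nat_lit 109) (nat_lit 147) (nat_lit 134))) (PT.nd (nat_lit 78) (PT.lf (nat_lit 10716) (nat_lit 6) (nat_lit 141) (nat_lit 2) (nat_lit 134) (nat_lit 147) (nat_lit 109)) (PT.lf (nat_lit 10184) (nat_lit 6) (nat_lit 134) (nat_lit 2) (nat_lit 135) (nat_lit 147) (nat_lit 108)))))) (PT.nd (nat_lit 546) (PT.nd (nat_lit 234) (PT.nd (nat_lit 78) (PT.lf (nat_lit 9728) (nat_lit 6) (nat_lit 128) (nat_lit 2) (nat_lit 136) (nat_lit 147) (nat_lit 107)) (PT.nd (nat_lit 78) (PT.lf (nat_lit 9272) (nat_lit 6) (nat_lit 122) (nat_lit 2) (nat_lit 137) (nat_lit 147) (nat_lit 106)) (PT.lf (nat_lit 8892) (nat_lit 6) (nat_lit 117) (nat_lit 2) (nat_lit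 138) (nat_lit 147) (nat_lit 105)))) (PT.nd (nat_lit 156) (PT.nd (nat_lit 78) (PT.lf (nat_lit 8512) (nat_lit 6) (nat_lit 112) (nat_lit 2) (nat_lit 139) (nat_lit 147) (nat_lit 104)) (PT.lf (nat_lit 8132) (nat_lit 6) (nat_lit 107) (nat_lit 2) (nat_lit 140) (nat_lit 147) (nat_lit 103))) (PT.nd (nat_lit 78) (PT.lf (nat_lit 7752) (nat_lit 6) (nat_lit 102) (nat_lit 2) (nat_lit 141) (nat_lit 147) (nat_lit 102)) (PT.lf (nat_lit 7448) (nat_lit 6) (nat_lit 98) (nat_lit 2) (nat_lit 142) (nat_lit 147) (nat_lit 101))))) (PT.nd (nat_lit 234) (PT.nd (nat_lit 78) (PT.lf (nat_lit 7068) (nat_lit 6) (nat_lit 93) (nat_lit 2) (nat_lit 143) (nat_lit 147) (nat_lit 100)) (PT.nd (nat_lit 78) (PT.lf (nat_lit 6764) (nat_lit 6) (nat_lit 89) (nat_lit 2) (nat_lit 144) (nat_lit 147) (nat_lit 99)) (PT.lf (nat_lit 6460) (nat_lit 6) (nat_lit 85) (nat_lit 2) (nat_lit 145) (nat_lit 147) (nat_lit 98)))) (PT.nd (nat_lit 156) (PT.nd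 (nat_lit 78) (PT.lf (nat_lit 6156) (nat_lit 6) (nat_lit 81) (nat_lit 2) (nat_lit 146) (nat_lit 147) (nat_lit 97)) (PT.lf (nat_lit 5852) (nat_lit 3) (nat_lit 77) (nat_lit 0) (nat_lit 147) (nat_lit 147) (nat_lit 96))) (PT.nd (nat_lit 78) (PT.lf (nat_lit 5548) (nat_lit 6) (nat_lit 73) (nat_lit 0) (nat_lit 148) (nat_lit 147) (nat_lit 95)) (PT.lf (nat_lit 5168) (nat_lit 6) (nat_lit 68) (nat_lit 0) (nat_lit 149) (nat_lit 147) (nat_lit 94))))))))
noncomputable def pc27 : PT := (PT.nd (nat_lit 40326) (PT.nd (nat_lit 36660) (PT.nd (nat_lit 36114) (PT.nd (nat_lit 35880) (PT.nd (nat_lit 78) (PT.lf (nat_lit 4864) (nat_lit 6) (nat_lit 64) (nat_lit 0) (nat_lit 150) (nat_lit 147) (nat_lit 93)) (PT.nd (nat_lit 78) (PT.lf (nat_lit 4560) (nat_lit 6) (nat_lit 60) (nat_lit 0) (nat_lit 151) (nat_lit 147) (nat_lit 92)) (PT.lf (nat_lit 4256) (nat_lit 6) (nat_lit 56) (nat_lit 0) (nat_lit 152) (nat_lit 147) (nat_lit 91))))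 (PT.nd (nat_lit 78) (PT.lf (nat_lit 3800) (nat_lit 6) (nat_lit 50) (nat_lit 5) (nat_lit 89) (nat_lit 148) (nat_lit 153)) (PT.nd (nat_lit 78) (PT.lf (nat_lit 4028) (nat_lit 6) (nat_lit 53) (nat_lit 5) (nat_lit 90) (nat_lit 148) (nat_lit 152)) (PT.lf (nat_lit 4332) (nat_lit 6) (nat_lit 57) (nat_lit 5) (nat_lit 91) (nat_lit 148) (nat_lit 151))))) (PT.nd (nat_lit 234) (PT.nd (nat_lit 78) (PT.lf (nat_lit 4636) (nat_lit 6) (nat_lit 61) (nat_lit 5) (nat_lit 92) (nat_lit 148) (nat_lit 150)) (PT.nd (nat_lit 78) (PT.lf (nat_lit 4940) (nat_lit 6) (nat_lit 65) (nat_lit 5) (nat_lit 93) (nat_lit 148) (nat_lit 149)) (PT.lf (nat_lit 5244) (nat_lit 3) (nat_lit 69) (nat_lit 4) (nat_lit 94) (nat_lit 148) (nat_lit 148)))) (PT.nd (nat_lit 156) (PT.nd (nat_lit 78) (PT.lf (nat_lit 5548) (nat_lit 6) (nat_lit 73) (nat_lit 4) (nat_lit 95) (nat_lit 148) (nat_lit 147)) (PT.lf (nat_lit 5776) (nat_lit 6) (nat_lit 76) (nat_lit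 4) (nat_lit 96) (nat_lit 148) (nat_lit 146))) (PT.nd (nat_lit 78) (PT.lf (nat_lit 6080) (nat_lit 6) (nat_lit 80) (nat_lit 4) (nat_lit 97) (nat_lit 148) (nat_lit 145)) (PT.lf (nat_lit 6384) (nat_lit 6) (nat_lit 84) (nat_lit 4) (nat_lit 98) (nat_lit 148) (nat_lit 144)))))) (PT.nd (nat_lit 3120) (PT.nd (nat_lit 234) (PT.nd (nat_lit 78) (PT.lf (nat_lit 6688) (nat_lit 6) (nat_lit 88) (nat_lit 4) (nat_lit 99) (nat_lit 148) (nat_lit 143)) (PT.nd (nat_lit 78) (PT.lf (nat_lit 6992) (nat_lit 6) (nat_lit 92) (nat_lit 4) (nat_lit 100) (nat_lit 148) (nat_lit 142)) (PT.lf (nat_lit 7372) (nat_lit 6) (nat_lit 97) (nat_lit 4) (nat_lit 101) (nat_lit 148) (nat_lit 141)))) (PT.nd (nat_lit 156) (PT.nd (nat_lit 78) (PT.lf (nat_lit 7676) (nat_lit 6) (nat_lit 101) (nat_lit 4) (nat_lit 102) (nat_lit 148) (nat_lit 140)) (PT.lf (nat_lit 8056) (nat_lit 6) (nat_lit 106) (nat_lit 4) (nat_lit 103) (nat_lit 148) (nat_lit 139)))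 (PT.nd (nat_lit 2652) (PT.lf (nat_lit 8436) (nat_lit 6) (nat_lit 111) (nat_lit 4) (nat_lit 104) (nat_lit 148) (nat_lit 138)) (PT.lf (nat_lit 8436) (nat_lit 6) (nat_lit 111) (nat_lit 2) (nat_lit 138) (nat_lit 148) (nat_lit 104))))) (PT.nd (nat_lit 234) (PT.nd (nat_lit 78) (PT.lf (nat_lit 8056) (nat_lit 6) (nat_lit 106) (nat_lit 2) (nat_lit 139) (nat_lit 148) (nat_lit 103)) (PT.nd (nat_lit 78) (PT.lf (nat_lit 7676) (nat_lit 6) (nat_lit 101) (nat_lit 2) (nat_lit 140) (nat_lit 148) (nat_lit 102)) (PT.lf (nat_lit 7372) (nat_lit 6) (nat_lit 97) (nat_lit 2) (nat_lit 141) (nat_lit 148) (nat_lit 101)))) (PT.nd (nat_lit 156) (PT.nd (nat_lit 78) (PT.lf (nat_lit 6992) (nat_lit 6) (nat_lit 92) (nat_lit 2) (nat_lit 142) (nat_lit 148) (nat_lit 100)) (PT.lf (nat_lit 6688) (nat_lit 6) (nat_lit 88) (nat_lit 2) (nat_lit 143) (nat_lit 148) (nat_lit 99))) (PT.nd (nat_lit 78) (PT.lf (nat_lit 6384) (nat_lit 6) (nat_lit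 84) (nat_lit 2) (nat_lit 144) (nat_lit 148) (nat_lit 98)) (PT.lf (nat_lit 6080) (nat_lit 6) (nat_lit 80) (nat_lit 2) (nat_lit 145) (nat_lit 148) (nat_lit 97))))))) (PT.nd (nat_lit 36504) (PT.nd (nat_lit 546) (PT.nd (nat_lit 234) (PT.nd (nat_lit 78) (PT.lf (nat_lit 5776) (nat_lit 6) (nat_lit 76) (nat_lit 2) (nat_lit 146) (nat_lit 148) (nat_lit 96)) (PT.nd (nat_lit 78) (PT.lf (nat_lit 5548) (nat_lit 6) (nat_lit 73) (nat_lit 2) (nat_lit 147) (nat_lit 148) (nat_lit 95)) (PT.lf (nat_lit 5244) (nat_lit 3) (nat_lit 69) (nat_lit 0) (nat_lit 148) (nat_lit 148) (nat_lit 94)))) (PT.nd (nat_lit 156) (PT.nd (nat_lit 78) (PT.lf (nat_lit 4940) (nat_lit 6) (nat_lit 65) (nat_lit 0) (nat_lit 149) (nat_lit 148) (nat_lit 93)) (PT.lf (nat_lit 4636) (nat_lit 6) (nat_lit 61) (nat_lit 0) (nat_lit 150) (nat_lit 148) (nat_lit 92))) (PT.nd (nat_lit 78) (PT.lf (nat_lit 4332) (nat_lit 6) (nat_lit 57) (nat_lit 0) (nat_lit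 151) (nat_lit 148) (nat_lit 91)) (PT.lf (nat_lit 4028) (nat_lit 6) (nat_lit 53) (nat_lit 0) (nat_lit 152) (nat_lit 148) (nat_lit 90))))) (PT.nd (nat_lit 35646) (PT.nd (nat_lit 35490) (PT.lf (nat_lit 3800) (nat_lit 6) (nat_lit 50) (nat_lit 0) (nat_lit 153) (nat_lit 148) (nat_lit 89)) (PT.nd (nat_lit 78) (PT.lf (nat_lit 3344) (nat_lit 6) (nat_lit 44) (nat_lit 5) (nat_lit 87) (nat_lit 149) (nat_lit 154)) (PT.lf (nat_lit 3572) (nat_lit 6) (nat_lit 47) (nat_lit 5) (nat_lit 88) (nat_lit 149) (nat_lit 153)))) (PT.nd (nat_lit 156) (PT.nd (nat_lit 78) (PT.lf (nat_lit 3876) (nat_lit 6) (nat_lit 51) (nat_lit 5) (nat_lit 89) (nat_lit 149) (nat_lit 152)) (PT.lf (nat_lit 4104) (nat_lit 6) (nat_lit 54) (nat_lit 5) (nat_lit 90) (nat_lit 149) (nat_lit 151))) (PT.nd (nat_lit 78) (PT.lf (nat_lit 4408) (nat_lit 6) (nat_lit 58) (nat_lit 5) (nat_lit 91) (nat_lit 149) (nat_lit 150)) (PT.lf (nat_lit 4712) (nat_lit 3)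 (nat_lit 62) (nat_lit 4) (nat_lit 92) (nat_lit 149) (nat_lit 149)))))) (PT.nd (nat_lit 546) (PT.nd (nat_lit 234) (PT.nd (nat_lit 78) (PT.lf (nat_lit 4940) (nat_lit 6) (nat_lit 65) (nat_lit 4) (nat_lit 93) (nat_lit 149) (nat_lit 148)) (PT.nd (nat_lit 78) (PT.lf (nat_lit 5168) (nat_lit 6) (nat_lit 68) (nat_lit 4) (nat_lit 94) (nat_lit 149) (nat_lit 147)) (PT.lf (nat_lit 5472) (nat_lit 6) (nat_lit 72) (nat_lit 4) (nat_lit 95) (nat_lit 149) (nat_lit 146)))) (PT.nd (nat_lit 156) (PT.nd (nat_lit 78) (PT.lf (nat_lit 5700) (nat_lit 6) (nat_lit 75) (nat_lit 4) (nat_lit 96) (nat_lit 149) (nat_lit 145)) (PT.lf (nat_lit 6004) (nat_lit 6) (nat_lit 79) (nat_lit 4) (nat_lit 97) (nat_lit 149) (nat_lit 144))) (PT.nd (nat_lit 78) (PT.lf (nat_lit 6308) (nat_lit 6) (nat_lit 83) (nat_lit 4) (nat_lit 98) (nat_lit 149) (nat_lit 143)) (PT.lf (nat_lit 6612) (nat_lit 6) (nat_lit 87) (nat_lit 4) (nat_lit 99) (nat_lit 149)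 (nat_lit 142))))) (PT.nd (nat_lit 3198) (PT.nd (nat_lit 78) (PT.lf (nat_lit 6916) (nat_lit 6) (nat_lit 91) (nat_lit 4) (nat_lit 100) (nat_lit 149) (nat_lit 141)) (PT.nd (nat_lit 3042) (PT.lf (nat_lit 7296) (nat_lit 6) (nat_lit 96) (nat_lit 4) (nat_lit 101) (nat_lit 149) (nat_lit 140)) (PT.lf (nat_lit 7296) (nat_lit 6) (nat_lit 96) (nat_lit 2) (nat_lit 140) (nat_lit 149) (nat_lit 101)))) (PT.nd (nat_lit 156) (PT.nd (nat_lit 78) (PT.lf (nat_lit 6916) (nat_lit 6) (nat_lit 91) (nat_lit 2) (nat_lit 141) (nat_lit 149) (nat_lit 100)) (PT.lf (nat_lit 6612) (nat_lit 6) (nat_lit 87) (nat_lit 2) (nat_lit 142) (nat_lit 149) (nat_lit 99))) (PT.nd (nat_lit 78) (PT.lf (nat_lit 6308) (nat_lit 6) (nat_lit 83) (nat_lit 2) (nat_lit 143) (nat_lit 149) (nat_lit 98)) (PT.lf (nat_lit 6004) (nat_lit 6) (nat_lit 79) (nat_lit 2) (nat_lit 144) (nat_lit 149) (nat_lit 97))))))))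
noncomputable def pc28 : PT := (PT.nd (nat_lit 40716) (PT.nd (nat_lit 36270) (PT.nd (nat_lit 468) (PT.nd (nat_lit 234) (PT.nd (nat_lit 78) (PT.lf (nat_lit 5700) (nat_lit 6) (nat_lit 75) (nat_lit 2) (nat_lit 145) (nat_lit 149) (nat_lit 96)) (PT.nd (nat_lit 78) (PT.lf (nat_lit 5472) (nat_lit 6) (nat_lit 72) (nat_lit 2) (nat_lit 146) (nat_lit 149) (nat_lit 95)) (PT.lf (nat_lit 5168) (nat_lit 6) (nat_lit 68) (nat_lit 2) (nat_lit 147) (nat_lit 149) (nat_lit 94)))) (PT.nd (nat_lit 78) (PT.lf (nat_lit 4940) (nat_lit 6) (nat_lit 65) (nat_lit 2) (nat_lit 148) (nat_lit 149) (nat_lit 93)) (PT.nd (nat_lit 78) (PT.lf (nat_lit 4712) (nat_lit 3) (nat_lit 62) (nat_lit 0) (nat_lit 149) (nat_lit 149) (nat_lit 92)) (PT.lf (nat_lit 4408) (nat_lit 6) (nat_lit 58) (nat_lit 0) (nat_lit 150) (nat_lit 149) (nat_lit 91))))) (PT.nd (nat_lit 234) (PT.nd (nat_lit 78) (PT.lf (nat_lit 4104) (nat_lit 6) (nat_lit 54) (nat_lit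 0) (nat_lit 151) (nat_lit 149) (nat_lit 90)) (PT.nd (nat_lit 78) (PT.lf (nat_lit 3876) (nat_lit 6) (nat_lit 51) (nat_lit 0) (nat_lit 152) (nat_lit 149) (nat_lit 89)) (PT.lf (nat_lit 3572) (nat_lit 6) (nat_lit 47) (nat_lit 0) (nat_lit 153) (nat_lit 149) (nat_lit 88)))) (PT.nd (nat_lit 35412) (PT.nd (nat_lit 35334) (PT.lf (nat_lit 3344) (nat_lit 6) (nat_lit 44) (nat_lit 0) (nat_lit 154) (nat_lit 149) (nat_lit 87)) (PT.lf (nat_lit 3116) (nat_lit 6) (nat_lit 41) (nat_lit 5) (nat_lit 86) (nat_lit 150) (nat_lit 154))) (PT.nd (nat_lit 78) (PT.lf (nat_lit 3420) (nat_lit 6) (nat_lit 45) (nat_lit 5) (nat_lit 87) (nat_lit 150) (nat_lit 153)) (PT.lf (nat_lit 3648) (nat_lit 6) (nat_lit 48) (nat_lit 5) (nat_lit 88) (nat_lit 150) (nat_lit 152)))))) (PT.nd (nat_lit 546) (PT.nd (nat_lit 234) (PT.nd (nat_lit 78) (PT.lf (nat_lit 3952) (nat_lit 6) (nat_lit 52) (nat_lit 5) (nat_lit 89) (nat_lit 150) (nat_lit 151))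 (PT.nd (nat_lit 78) (PT.lf (nat_lit 4180) (nat_lit 3) (nat_lit 55) (nat_lit 4) (nat_lit 90) (nat_lit 150) (nat_lit 150)) (PT.lf (nat_lit 4408) (nat_lit 6) (nat_lit 58) (nat_lit 4) (nat_lit 91) (nat_lit 150) (nat_lit 149)))) (PT.nd (nat_lit 156) (PT.nd (nat_lit 78) (PT.lf (nat_lit 4636) (nat_lit 6) (nat_lit 61) (nat_lit 4) (nat_lit 92) (nat_lit 150) (nat_lit 148)) (PT.lf (nat_lit 4864) (nat_lit 6) (nat_lit 64) (nat_lit 4) (nat_lit 93) (nat_lit 150) (nat_lit 147))) (PT.nd (nat_lit 78) (PT.lf (nat_lit 5092) (nat_lit 6) (nat_lit 67) (nat_lit 4) (nat_lit 94) (nat_lit 150) (nat_lit 146)) (PT.lf (nat_lit 5396) (nat_lit 6) (nat_lit 71) (nat_lit 4) (nat_lit 95) (nat_lit 150) (nat_lit 145))))) (PT.nd (nat_lit 3588) (PT.nd (nat_lit 78) (PT.lf (nat_lit 5624) (nat_lit 6) (nat_lit 74) (nat_lit 4) (nat_lit 96) (nat_lit 150) (nat_lit 144)) (PT.nd (nat_lit 78) (PT.lf (nat_lit 5928) (nat_lit 6) (nat_lit 78) (nat_lit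 4) (nat_lit 97) (nat_lit 150) (nat_lit 143)) (PT.lf (nat_lit 6232) (nat_lit 6) (nat_lit 82) (nat_lit 4) (nat_lit 98) (nat_lit 150) (nat_lit 142)))) (PT.nd (nat_lit 156) (PT.nd (nat_lit 78) (PT.lf (nat_lit 6232) (nat_lit 6) (nat_lit 82) (nat_lit 2) (nat_lit 142) (nat_lit 150) (nat_lit 98)) (PT.lf (nat_lit 5928) (nat_lit 6) (nat_lit 78) (nat_lit 2) (nat_lit 143) (nat_lit 150) (nat_lit 97))) (PT.nd (nat_lit 78) (PT.lf (nat_lit 5624) (nat_lit 6) (nat_lit 74) (nat_lit 2) (nat_lit 144) (nat_lit 150) (nat_lit 96)) (PT.lf (nat_lit 5396) (nat_lit 6) (nat_lit 71) (nat_lit 2) (nat_lit 145) (nat_lit 150) (nat_lit 95))))))) (PT.nd (nat_lit 36192) (PT.nd (nat_lit 546) (PT.nd (nat_lit 234) (PT.nd (nat_lit 78) (PT.lf (nat_lit 5092) (nat_lit 6) (nat_lit 67) (nat_lit 2) (nat_lit 146) (nat_lit 150) (nat_lit 94)) (PT.nd (nat_lit 78) (PT.lf (nat_lit 4864) (nat_lit 6) (nat_lit 64) (nat_lit 2) (nat_lit 147) (nat_lit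 150) (nat_lit 93)) (PT.lf (nat_lit 4636) (nat_lit 6) (nat_lit 61) (nat_lit 2) (nat_lit 148) (nat_lit 150) (nat_lit 92)))) (PT.nd (nat_lit 156) (PT.nd (nat_lit 78) (PT.lf (nat_lit 4408) (nat_lit 6) (nat_lit 58) (nat_lit 2) (nat_lit 149) (nat_lit 150) (nat_lit 91)) (PT.lf (nat_lit 4180) (nat_lit 3) (nat_lit 55) (nat_lit 0) (nat_lit 150) (nat_lit 150) (nat_lit 90))) (PT.nd (nat_lit 78) (PT.lf (nat_lit 3952) (nat_lit 6) (nat_lit 52) (nat_lit 0) (nat_lit 151) (nat_lit 150) (nat_lit 89)) (PT.lf (nat_lit 3648) (nat_lit 6) (nat_lit 48) (nat_lit 0) (nat_lit 152) (nat_lit 150) (nat_lit 88))))) (PT.nd (nat_lit 35334) (PT.nd (nat_lit 78) (PT.lf (nat_lit 3420) (nat_lit 6) (nat_lit 45) (nat_lit 0) (nat_lit 153) (nat_lit 150) (nat_lit 87)) (PT.nd (nat_lit 35178) (PT.lf (nat_lit 3116) (nat_lit 6) (nat_lit 41) (nat_lit 0) (nat_lit 154) (nat_lit 150) (nat_lit 86)) (PT.lf (nat_lit 2736) (nat_lit 6) (nat_lit 36)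 (nat_lit 5) (nat_lit 84) (nat_lit 151) (nat_lit 155)))) (PT.nd (nat_lit 156) (PT.nd (nat_lit 78) (PT.lf (nat_lit 2964) (nat_lit 6) (nat_lit 39) (nat_lit 5) (nat_lit 85) (nat_lit 151) (nat_lit 154)) (PT.lf (nat_lit 3192) (nat_lit 6) (nat_lit 42) (nat_lit 5) (nat_lit 86) (nat_lit 151) (nat_lit 153))) (PT.nd (nat_lit 78) (PT.lf (nat_lit 3496) (nat_lit 6) (nat_lit 46) (nat_lit 5) (nat_lit 87) (nat_lit 151) (nat_lit 152)) (PT.lf (nat_lit 3724) (nat_lit 3) (nat_lit 49) (nat_lit 4) (nat_lit 88) (nat_lit 151) (nat_lit 151)))))) (PT.nd (nat_lit 4290) (PT.nd (nat_lit 234) (PT.nd (nat_lit 78) (PT.lf (nat_lit 3952) (nat_lit 6) (nat_lit 52) (nat_lit 4) (nat_lit 89) (nat_lit 151) (nat_lit 150)) (PT.nd (nat_lit 78) (PT.lf (nat_lit 4104) (nat_lit 6) (nat_lit 54) (nat_lit 4) (nat_lit 90) (nat_lit 151) (nat_lit 149)) (PT.lf (nat_lit 4332) (nat_lit 6) (nat_lit 57) (nat_lit 4) (nat_lit 91) (nat_lit 151) (nat_lit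 148)))) (PT.nd (nat_lit 156) (PT.nd (nat_lit 78) (PT.lf (nat_lit 4560) (nat_lit 6) (nat_lit 60) (nat_lit 4) (nat_lit 92) (nat_lit 151) (nat_lit 147)) (PT.lf (nat_lit 4788) (nat_lit 6) (nat_lit 63) (nat_lit 4) (nat_lit 93) (nat_lit 151) (nat_lit 146))) (PT.nd (nat_lit 78) (PT.lf (nat_lit 5016) (nat_lit 6) (nat_lit 66) (nat_lit 4) (nat_lit 94) (nat_lit 151) (nat_lit 145)) (PT.lf (nat_lit 5320) (nat_lit 6) (nat_lit 70) (nat_lit 4) (nat_lit 95) (nat_lit 151) (nat_lit 144))))) (PT.nd (nat_lit 234) (PT.nd (nat_lit 78) (PT.lf (nat_lit 5320) (nat_lit 6) (nat_lit 70) (nat_lit 2) (nat_lit 144) (nat_lit 151) (nat_lit 95)) (PT.nd (nat_lit 78) (PT.lf (nat_lit 5016) (nat_lit 6) (nat_lit 66) (nat_lit 2) (nat_lit 145) (nat_lit 151) (nat_lit 94)) (PT.lf (nat_lit 4788) (nat_lit 6) (nat_lit 63) (nat_lit 2) (nat_lit 146) (nat_lit 151) (nat_lit 93)))) (PT.nd (nat_lit 156) (PT.nd (nat_lit 78) (PT.lf (nat_lit 4560)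 (nat_lit 6) (nat_lit 60) (nat_lit 2) (nat_lit 147) (nat_lit 151) (nat_lit 92)) (PT.lf (nat_lit 4332) (nat_lit 6) (nat_lit 57) (nat_lit 2) (nat_lit 148) (nat_lit 151) (nat_lit 91))) (PT.nd (nat_lit 78) (PT.lf (nat_lit 4104) (nat_lit 6) (nat_lit 54) (nat_lit 2) (nat_lit 149) (nat_lit 151) (nat_lit 90)) (PT.lf (nat_lit 3952) (nat_lit 6) (nat_lit 52) (nat_lit 2) (nat_lit 150) (nat_lit 151) (nat_lit 89))))))))
noncomputable def pc29 : PT := (PT.nd (nat_lit 75816) (PT.nd (nat_lit 35880) (PT.nd (nat_lit 35334) (PT.nd (nat_lit 234) (PT.nd (nat_lit 78) (PT.lf (nat_lit 3724) (nat_lit 3) (nat_lit 49) (nat_lit 0) (nat_lit 151) (nat_lit 151) (nat_lit 88)) (PT.nd (nat_lit 78) (PT.lf (nat_lit 3496) (nat_lit 6) (nat_lit 46) (nat_lit 0) (nat_lit 152) (nat_lit 151) (nat_lit 87)) (PT.lf (nat_lit 3192) (nat_lit 6) (nat_lit 42) (nat_lit 0) (nat_lit 153) (nat_lit 151) (nat_lit 86)))) (PT.nd (nat_lit 78) (PT.lf (nat_lit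 2964) (nat_lit 6) (nat_lit 39) (nat_lit 0) (nat_lit 154) (nat_lit 151) (nat_lit 85)) (PT.nd (nat_lit 34944) (PT.lf (nat_lit 2736) (nat_lit 6) (nat_lit 36) (nat_lit 0) (nat_lit 155) (nat_lit 151) (nat_lit 84)) (PT.lf (nat_lit 2356) (nat_lit 6) (nat_lit 31) (nat_lit 5) (nat_lit 82) (nat_lit 152) (nat_lit 156))))) (PT.nd (nat_lit 234) (PT.nd (nat_lit 78) (PT.lf (nat_lit 2584) (nat_lit 6) (nat_lit 34) (nat_lit 5) (nat_lit 83) (nat_lit 152) (nat_lit 155)) (PT.nd (nat_lit 78) (PT.lf (nat_lit 2812) (nat_lit 6) (nat_lit 37) (nat_lit 5) (nat_lit 84) (nat_lit 152) (nat_lit 154)) (PT.lf (nat_lit 3040) (nat_lit 6) (nat_lit 40) (nat_lit 5) (nat_lit 85) (nat_lit 152) (nat_lit 153)))) (PT.nd (nat_lit 156) (PT.nd (nat_lit 78) (PT.lf (nat_lit 3268) (nat_lit 3) (nat_lit 43) (nat_lit 4) (nat_lit 86) (nat_lit 152) (nat_lit 152)) (PT.lf (nat_lit 3496) (nat_lit 6) (nat_lit 46) (nat_lit 4) (nat_lit 87) (nat_lit 152)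 (nat_lit 151))) (PT.nd (nat_lit 78) (PT.lf (nat_lit 3648) (nat_lit 6) (nat_lit 48) (nat_lit 4) (nat_lit 88) (nat_lit 152) (nat_lit 150)) (PT.lf (nat_lit 3876) (nat_lit 6) (nat_lit 51) (nat_lit 4) (nat_lit 89) (nat_lit 152) (nat_lit 149)))))) (PT.nd (nat_lit 4680) (PT.nd (nat_lit 4368) (PT.nd (nat_lit 78) (PT.lf (nat_lit 4028) (nat_lit 6) (nat_lit 53) (nat_lit 4) (nat_lit 90) (nat_lit 152) (nat_lit 148)) (PT.nd (nat_lit 78) (PT.lf (nat_lit 4256) (nat_lit 6) (nat_lit 56) (nat_lit 4) (nat_lit 91) (nat_lit 152) (nat_lit 147)) (PT.lf (nat_lit 4484) (nat_lit 6) (nat_lit 59) (nat_lit 4) (nat_lit 92) (nat_lit 152) (nat_lit 146)))) (PT.nd (nat_lit 156) (PT.nd (nat_lit 78) (PT.lf (nat_lit 4484) (nat_lit 6) (nat_lit 59) (nat_lit 2) (nat_lit 146) (nat_lit 152) (nat_lit 92)) (PT.lf (nat_lit 4256) (nat_lit 6) (nat_lit 56) (nat_lit 2) (nat_lit 147) (nat_lit 152) (nat_lit 91))) (PT.nd (nat_lit 78) (PT.lf (nat_lit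 4028) (nat_lit 6) (nat_lit 53) (nat_lit 2) (nat_lit 148) (nat_lit 152) (nat_lit 90)) (PT.lf (nat_lit 3876) (nat_lit 6) (nat_lit 51) (nat_lit 2) (nat_lit 149) (nat_lit 152) (nat_lit 89))))) (PT.nd (nat_lit 234) (PT.nd (nat_lit 78) (PT.lf (nat_lit 3648) (nat_lit 6) (nat_lit 48) (nat_lit 2) (nat_lit 150) (nat_lit 152) (nat_lit 88)) (PT.nd (nat_lit 78) (PT.lf (nat_lit 3496) (nat_lit 6) (nat_lit 46) (nat_lit 2) (nat_lit 151) (nat_lit 152) (nat_lit 87)) (PT.lf (nat_lit 3268) (nat_lit 3) (nat_lit 43) (nat_lit 0) (nat_lit 152) (nat_lit 152) (nat_lit 86)))) (PT.nd (nat_lit 156) (PT.nd (nat_lit 78) (PT.lf (nat_lit 3040) (nat_lit 6) (nat_lit 40) (nat_lit 0) (nat_lit 153) (nat_lit 152) (nat_lit 85)) (PT.lf (nat_lit 2812) (nat_lit 6) (nat_lit 37) (nat_lit 0) (nat_lit 154) (nat_lit 152) (nat_lit 84))) (PT.nd (nat_lit 78) (PT.lf (nat_lit 2584) (nat_lit 6) (nat_lit 34) (nat_lit 0) (nat_lit 155) (nat_lit 152)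 (nat_lit 83)) (PT.lf (nat_lit 2356) (nat_lit 6) (nat_lit 31) (nat_lit 0) (nat_lit 156) (nat_lit 152) (nat_lit 82))))))) (PT.nd (nat_lit 5616) (PT.nd (nat_lit 546) (PT.nd (nat_lit 234) (PT.nd (nat_lit 78) (PT.lf (nat_lit 2204) (nat_lit 6) (nat_lit 29) (nat_lit 5) (nat_lit 81) (nat_lit 153) (nat_lit 156)) (PT.nd (nat_lit 78) (PT.lf (nat_lit 2432) (nat_lit 6) (nat_lit 32) (nat_lit 5) (nat_lit 82) (nat_lit 153) (nat_lit 155)) (PT.lf (nat_lit 2660) (nat_lit 6) (nat_lit 35) (nat_lit 5) (nat_lit 83) (nat_lit 153) (nat_lit 154)))) (PT.nd (nat_lit 156) (PT.nd (nat_lit 78) (PT.lf (nat_lit 2888) (nat_lit 3) (nat_lit 38) (nat_lit 4) (nat_lit 84) (nat_lit 153) (nat_lit 153)) (PT.lf (nat_lit 3040) (nat_lit 6) (nat_lit 40) (nat_lit 4) (nat_lit 85) (nat_lit 153) (nat_lit 152))) (PT.nd (nat_lit 78) (PT.lf (nat_lit 3192) (nat_lit 6) (nat_lit 42) (nat_lit 4) (nat_lit 86) (nat_lit 153) (nat_lit 151)) (PT.lf (nat_lit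 3420) (nat_lit 6) (nat_lit 45) (nat_lit 4) (nat_lit 87) (nat_lit 153) (nat_lit 150))))) (PT.nd (nat_lit 4758) (PT.nd (nat_lit 78) (PT.lf (nat_lit 3572) (nat_lit 6) (nat_lit 47) (nat_lit 4) (nat_lit 88) (nat_lit 153) (nat_lit 149)) (PT.nd (nat_lit 4602) (PT.lf (nat_lit 3800) (nat_lit 6) (nat_lit 50) (nat_lit 4) (nat_lit 89) (nat_lit 153) (nat_lit 148)) (PT.lf (nat_lit 3800) (nat_lit 6) (nat_lit 50) (nat_lit 2) (nat_lit 148) (nat_lit 153) (nat_lit 89)))) (PT.nd (nat_lit 156) (PT.nd (nat_lit 78) (PT.lf (nat_lit 3572) (nat_lit 6) (nat_lit 47) (nat_lit 2) (nat_lit 149) (nat_lit 153) (nat_lit 88)) (PT.lf (nat_lit 3420) (nat_lit 6) (nat_lit 45) (nat_lit 2) (nat_lit 150) (nat_lit 153) (nat_lit 87))) (PT.nd (nat_lit 78) (PT.lf (nat_lit 3192) (nat_lit 6) (nat_lit 42) (nat_lit 2) (nat_lit 151) (nat_lit 153) (nat_lit 86)) (PT.lf (nat_lit 3040) (nat_lit 6) (nat_lit 40) (nat_lit 2) (nat_lit 152) (nat_lit 153)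 (nat_lit 85)))))) (PT.nd (nat_lit 35100) (PT.nd (nat_lit 234) (PT.nd (nat_lit 78) (PT.lf (nat_lit 2888) (nat_lit 3) (nat_lit 38) (nat_lit 0) (nat_lit 153) (nat_lit 153) (nat_lit 84)) (PT.nd (nat_lit 78) (PT.lf (nat_lit 2660) (nat_lit 6) (nat_lit 35) (nat_lit 0) (nat_lit 154) (nat_lit 153) (nat_lit 83)) (PT.lf (nat_lit 2432) (nat_lit 6) (nat_lit 32) (nat_lit 0) (nat_lit 155) (nat_lit 153) (nat_lit 82)))) (PT.nd (nat_lit 34710) (PT.nd (nat_lit 34632) (PT.lf (nat_lit 2204) (nat_lit 6) (nat_lit 29) (nat_lit 0) (nat_lit 156) (nat_lit 153) (nat_lit 81)) (PT.lf (nat_lit 1900) (nat_lit 6) (nat_lit 25) (nat_lit 5) (nat_lit 79) (nat_lit 154) (nat_lit 157))) (PT.nd (nat_lit 78) (PT.lf (nat_lit 2052) (nat_lit 6) (nat_lit 27) (nat_lit 5) (nat_lit 80) (nat_lit 154) (nat_lit 156)) (PT.lf (nat_lit 2280) (nat_lit 6) (nat_lit 30) (nat_lit 5) (nat_lit 81) (nat_lit 154) (nat_lit 155))))) (PT.nd (nat_lit 234) (PT.nd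 (nat_lit 78) (PT.lf (nat_lit 2508) (nat_lit 3) (nat_lit 33) (nat_lit 4) (nat_lit 82) (nat_lit 154) (nat_lit 154)) (PT.nd (nat_lit 78) (PT.lf (nat_lit 2660) (nat_lit 6) (nat_lit 35) (nat_lit 4) (nat_lit 83) (nat_lit 154) (nat_lit 153)) (PT.lf (nat_lit 2812) (nat_lit 6) (nat_lit 37) (nat_lit 4) (nat_lit 84) (nat_lit 154) (nat_lit 152)))) (PT.nd (nat_lit 156) (PT.nd (nat_lit 78) (PT.lf (nat_lit 2964) (nat_lit 6) (nat_lit 39) (nat_lit 4) (nat_lit 85) (nat_lit 154) (nat_lit 151)) (PT.lf (nat_lit 3116) (nat_lit 6) (nat_lit 41) (nat_lit 4) (nat_lit 86) (nat_lit 154) (nat_lit 150))) (PT.nd (nat_lit 4836) (PT.lf (nat_lit 3344) (nat_lit 6) (nat_lit 44) (nat_lit 4) (nat_lit 87) (nat_lit 154) (nat_lit 149)) (PT.lf (nat_lit 3344) (nat_lit 6) (nat_lit 44) (nat_lit 2) (nat_lit 149) (nat_lit 154) (nat_lit 87))))))))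
noncomputable def pc30 : PT := (PT.nd (nat_lit 75660) (PT.nd (nat_lit 35334) (PT.nd (nat_lit 468) (PT.nd (nat_lit 234) (PT.nd (nat_lit 78) (PT.lf (nat_lit 3116) (nat_lit 6) (nat_lit 41) (nat_lit 2) (nat_lit 150) (nat_lit 154) (nat_lit 86)) (PT.nd (nat_lit 78) (PT.lf (nat_lit 2964) (nat_lit 6) (nat_lit 39) (nat_lit 2) (nat_lit 151) (nat_lit 154) (nat_lit 85)) (PT.lf (nat_lit 2812) (nat_lit 6) (nat_lit 37) (nat_lit 2) (nat_lit 152) (nat_lit 154) (nat_lit 84)))) (PT.nd (nat_lit 78) (PT.lf (nat_lit 2660) (nat_lit 6) (nat_lit 35) (nat_lit 2) (nat_lit 153) (nat_lit 154) (nat_lit 83)) (PT.nd (nat_lit 78) (PT.lf (nat_lit 2508) (nat_lit 3) (nat_lit 33) (nat_lit 0) (nat_lit 154) (nat_lit 154) (nat_lit 82)) (PT.lf (nat_lit 2280) (nat_lit 6) (nat_lit 30) (nat_lit 0) (nat_lit 155) (nat_lit 154) (nat_lit 81))))) (PT.nd (nat_lit 34554) (PT.nd (nat_lit 78) (PT.lf (nat_lit 2052) (nat_lit 6) (nat_lit 27) (nat_lit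 0) (nat_lit 156) (nat_lit 154) (nat_lit 80)) (PT.nd (nat_lit 34398) (PT.lf (nat_lit 1900) (nat_lit 6) (nat_lit 25) (nat_lit 0) (nat_lit 157) (nat_lit 154) (nat_lit 79)) (PT.lf (nat_lit 1596) (nat_lit 6) (nat_lit 21) (nat_lit 5) (nat_lit 77) (nat_lit 155) (nat_lit 158)))) (PT.nd (nat_lit 156) (PT.nd (nat_lit 78) (PT.lf (nat_lit 1748) (nat_lit 6) (nat_lit 23) (nat_lit 5) (nat_lit 78) (nat_lit 155) (nat_lit 157)) (PT.lf (nat_lit 1976) (nat_lit 6) (nat_lit 26) (nat_lit 5) (nat_lit 79) (nat_lit 155) (nat_lit 156))) (PT.nd (nat_lit 78) (PT.lf (nat_lit 2128) (nat_lit 3) (nat_lit 28) (nat_lit 4) (nat_lit 80) (nat_lit 155) (nat_lit 155)) (PT.lf (nat_lit 2280) (nat_lit 6) (nat_lit 30) (nat_lit 4) (nat_lit 81) (nat_lit 155) (nat_lit 154)))))) (PT.nd (nat_lit 5694) (PT.nd (nat_lit 5382) (PT.nd (nat_lit 78) (PT.lf (nat_lit 2432) (nat_lit 6) (nat_lit 32) (nat_lit 4) (nat_lit 82) (nat_lit 155) (nat_lit 153))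 (PT.nd (nat_lit 78) (PT.lf (nat_lit 2584) (nat_lit 6) (nat_lit 34) (nat_lit 4) (nat_lit 83) (nat_lit 155) (nat_lit 152)) (PT.lf (nat_lit 2736) (nat_lit 6) (nat_lit 36) (nat_lit 4) (nat_lit 84) (nat_lit 155) (nat_lit 151)))) (PT.nd (nat_lit 156) (PT.nd (nat_lit 78) (PT.lf (nat_lit 2736) (nat_lit 6) (nat_lit 36) (nat_lit 2) (nat_lit 151) (nat_lit 155) (nat_lit 84)) (PT.lf (nat_lit 2584) (nat_lit 6) (nat_lit 34) (nat_lit 2) (nat_lit 152) (nat_lit 155) (nat_lit 83))) (PT.nd (nat_lit 78) (PT.lf (nat_lit 2432) (nat_lit 6) (nat_lit 32) (nat_lit 2) (nat_lit 153) (nat_lit 155) (nat_lit 82)) (PT.lf (nat_lit 2280) (nat_lit 6) (nat_lit 30) (nat_lit 2) (nat_lit 154) (nat_lit 155) (nat_lit 81))))) (PT.nd (nat_lit 234) (PT.nd (nat_lit 78) (PT.lf (nat_lit 2128) (nat_lit 3) (nat_lit 28) (nat_lit 0) (nat_lit 155) (nat_lit 155) (nat_lit 80)) (PT.nd (nat_lit 78) (PT.lf (nat_lit 1976) (nat_lit 6) (nat_lit 26) (nat_lit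 0) (nat_lit 156) (nat_lit 155) (nat_lit 79)) (PT.lf (nat_lit 1748) (nat_lit 6) (nat_lit 23) (nat_lit 0) (nat_lit 157) (nat_lit 155) (nat_lit 78)))) (PT.nd (nat_lit 34242) (PT.nd (nat_lit 34164) (PT.lf (nat_lit 1596) (nat_lit 6) (nat_lit 21) (nat_lit 0) (nat_lit 158) (nat_lit 155) (nat_lit 77)) (PT.lf (nat_lit 1292) (nat_lit 6) (nat_lit 17) (nat_lit 5) (nat_lit 75) (nat_lit 156) (nat_lit 159))) (PT.nd (nat_lit 78) (PT.lf (nat_lit 1444) (nat_lit 6) (nat_lit 19) (nat_lit 5) (nat_lit 76) (nat_lit 156) (nat_lit 158)) (PT.lf (nat_lit 1672) (nat_lit 6) (nat_lit 22) (nat_lit 5) (nat_lit 77) (nat_lit 156) (nat_lit 157))))))) (PT.nd (nat_lit 40404) (PT.nd (nat_lit 5928) (PT.nd (nat_lit 234) (PT.nd (nat_lit 78) (PT.lf (nat_lit 1824) (nat_lit 3) (nat_lit 24) (nat_lit 4) (nat_lit 78) (nat_lit 156) (nat_lit 156)) (PT.nd (nat_lit 78) (PT.lf (nat_lit 1976) (nat_lit 6) (nat_lit 26) (nat_lit 4) (nat_lit 79) (nat_lit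 156) (nat_lit 155)) (PT.lf (nat_lit 2052) (nat_lit 6) (nat_lit 27) (nat_lit 4) (nat_lit 80) (nat_lit 156) (nat_lit 154)))) (PT.nd (nat_lit 5538) (PT.nd (nat_lit 78) (PT.lf (nat_lit 2204) (nat_lit 6) (nat_lit 29) (nat_lit 4) (nat_lit 81) (nat_lit 156) (nat_lit 153)) (PT.lf (nat_lit 2356) (nat_lit 6) (nat_lit 31) (nat_lit 4) (nat_lit 82) (nat_lit 156) (nat_lit 152))) (PT.nd (nat_lit 78) (PT.lf (nat_lit 2356) (nat_lit 6) (nat_lit 31) (nat_lit 2) (nat_lit 152) (nat_lit 156) (nat_lit 82)) (PT.lf (nat_lit 2204) (nat_lit 6) (nat_lit 29) (nat_lit 2) (nat_lit 153) (nat_lit 156) (nat_lit 81))))) (PT.nd (nat_lit 234) (PT.nd (nat_lit 78) (PT.lf (nat_lit 2052) (nat_lit 6) (nat_lit 27) (nat_lit 2) (nat_lit 154) (nat_lit 156) (nat_lit 80)) (PT.nd (nat_lit 78) (PT.lf (nat_lit 1976) (nat_lit 6) (nat_lit 26) (nat_lit 2) (nat_lit 155) (nat_lit 156) (nat_lit 79)) (PT.lf (nat_lit 1824) (nat_lit 3) (nat_lit 24) (nat_lit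 0) (nat_lit 156) (nat_lit 156) (nat_lit 78)))) (PT.nd (nat_lit 156) (PT.nd (nat_lit 78) (PT.lf (nat_lit 1672) (nat_lit 6) (nat_lit 22) (nat_lit 0) (nat_lit 157) (nat_lit 156) (nat_lit 77)) (PT.lf (nat_lit 1444) (nat_lit 6) (nat_lit 19) (nat_lit 0) (nat_lit 158) (nat_lit 156) (nat_lit 76))) (PT.nd (nat_lit 34008) (PT.lf (nat_lit 1292) (nat_lit 6) (nat_lit 17) (nat_lit 0) (nat_lit 159) (nat_lit 156) (nat_lit 75)) (PT.lf (nat_lit 1140) (nat_lit 6) (nat_lit 15) (nat_lit 5) (nat_lit 74) (nat_lit 157) (nat_lit 159)))))) (PT.nd (nat_lit 6318) (PT.nd (nat_lit 234) (PT.nd (nat_lit 78) (PT.lf (nat_lit 1368) (nat_lit 6) (nat_lit 18) (nat_lit 5) (nat_lit 75) (nat_lit 157) (nat_lit 158)) (PT.nd (nat_lit 78) (PT.lf (nat_lit 1520) (nat_lit 3) (nat_lit 20) (nat_lit 4) (nat_lit 76) (nat_lit 157) (nat_lit 157)) (PT.lf (nat_lit 1672) (nat_lit 6) (nat_lit 22) (nat_lit 4) (nat_lit 77) (nat_lit 157) (nat_lit 156))))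 (PT.nd (nat_lit 5928) (PT.nd (nat_lit 78) (PT.lf (nat_lit 1748) (nat_lit 6) (nat_lit 23) (nat_lit 4) (nat_lit 78) (nat_lit 157) (nat_lit 155)) (PT.lf (nat_lit 1900) (nat_lit 6) (nat_lit 25) (nat_lit 4) (nat_lit 79) (nat_lit 157) (nat_lit 154))) (PT.nd (nat_lit 78) (PT.lf (nat_lit 1900) (nat_lit 6) (nat_lit 25) (nat_lit 2) (nat_lit 154) (nat_lit 157) (nat_lit 79)) (PT.lf (nat_lit 1748) (nat_lit 6) (nat_lit 23) (nat_lit 2) (nat_lit 155) (nat_lit 157) (nat_lit 78))))) (PT.nd (nat_lit 234) (PT.nd (nat_lit 78) (PT.lf (nat_lit 1672) (nat_lit 6) (nat_lit 22) (nat_lit 2) (nat_lit 156) (nat_lit 157) (nat_lit 77)) (PT.nd (nat_lit 78) (PT.lf (nat_lit 1520) (nat_lit 3) (nat_lit 20) (nat_lit 0) (nat_lit 157) (nat_lit 157) (nat_lit 76)) (PT.lf (nat_lit 1368) (nat_lit 6) (nat_lit 18) (nat_lit 0) (nat_lit 158) (nat_lit 157) (nat_lit 75)))) (PT.nd (nat_lit 33930) (PT.nd (nat_lit 33852) (PT.lf (nat_lit 1140) (nat_lit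 6) (nat_lit 15) (nat_lit 0) (nat_lit 159) (nat_lit 157) (nat_lit 74)) (PT.lf (nat_lit 912) (nat_lit 6) (nat_lit 12) (nat_lit 5) (nat_lit 72) (nat_lit 158) (nat_lit 160))) (PT.nd (nat_lit 78) (PT.lf (nat_lit 1064) (nat_lit 6) (nat_lit 14) (nat_lit 5) (nat_lit 73) (nat_lit 158) (nat_lit 159)) (PT.lf (nat_lit 1216) (nat_lit 3) (nat_lit 16) (nat_lit 4) (nat_lit 74) (nat_lit 158) (nat_lit 158))))))))
noncomputable def pc31 : PT := (PT.nd (nat_lit 87828) (PT.nd (nat_lit 40560) (PT.nd (nat_lit 6474) (PT.nd (nat_lit 6240) (PT.nd (nat_lit 78) (PT.lf (nat_lit 1368) (nat_lit 6) (nat_lit 18) (nat_lit 4) (nat_lit 75) (nat_lit 158) (nat_lit 157)) (PT.nd (nat_lit 78) (PT.lf (nat_lit 1444) (nat_lit 6) (nat_lit 19) (nat_lit 4) (nat_lit 76) (nat_lit 158) (nat_lit 156)) (PT.lf (nat_lit 1596) (nat_lit 6) (nat_lit 21) (nat_lit 4) (nat_lit 77) (nat_lit 158) (nat_lit 155)))) (PT.nd (nat_lit 78) (PT.lf (nat_lit 1596)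 (nat_lit 6) (nat_lit 21) (nat_lit 2) (nat_lit 155) (nat_lit 158) (nat_lit 77)) (PT.nd (nat_lit 78) (PT.lf (nat_lit 1444) (nat_lit 6) (nat_lit 19) (nat_lit 2) (nat_lit 156) (nat_lit 158) (nat_lit 76)) (PT.lf (nat_lit 1368) (nat_lit 6) (nat_lit 18) (nat_lit 2) (nat_lit 157) (nat_lit 158) (nat_lit 75))))) (PT.nd (nat_lit 33774) (PT.nd (nat_lit 78) (PT.lf (nat_lit 1216) (nat_lit 3) (nat_lit 16) (nat_lit 0) (nat_lit 158) (nat_lit 158) (nat_lit 74)) (PT.nd (nat_lit 78) (PT.lf (nat_lit 1064) (nat_lit 6) (nat_lit 14) (nat_lit 0) (nat_lit 159) (nat_lit 158) (nat_lit 73)) (PT.lf (nat_lit 912) (nat_lit 6) (nat_lit 12) (nat_lit 0) (nat_lit 160) (nat_lit 158) (nat_lit 72)))) (PT.nd (nat_lit 156) (PT.nd (nat_lit 78) (PT.lf (nat_lit 684) (nat_lit 6) (nat_lit 9) (nat_lit 5) (nat_lit 70) (nat_lit 159) (nat_lit 161)) (PT.lf (nat_lit 836) (nat_lit 6) (nat_lit 11) (nat_lit 5) (nat_lit 71) (nat_lit 159) (nat_lit 160)))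 (PT.nd (nat_lit 78) (PT.lf (nat_lit 988) (nat_lit 3) (nat_lit 13) (nat_lit 4) (nat_lit 72) (nat_lit 159) (nat_lit 159)) (PT.lf (nat_lit 1064) (nat_lit 6) (nat_lit 14) (nat_lit 4) (nat_lit 73) (nat_lit 159) (nat_lit 158)))))) (PT.nd (nat_lit 6786) (PT.nd (nat_lit 6474) (PT.nd (nat_lit 78) (PT.lf (nat_lit 1140) (nat_lit 6) (nat_lit 15) (nat_lit 4) (nat_lit 74) (nat_lit 159) (nat_lit 157)) (PT.nd (nat_lit 6318) (PT.lf (nat_lit 1292) (nat_lit 6) (nat_lit 17) (nat_lit 4) (nat_lit 75) (nat_lit 159) (nat_lit 156)) (PT.lf (nat_lit 1292) (nat_lit 6) (nat_lit 17) (nat_lit 2) (nat_lit 156) (nat_lit 159) (nat_lit 75)))) (PT.nd (nat_lit 156) (PT.nd (nat_lit 78) (PT.lf (nat_lit 1140) (nat_lit 6) (nat_lit 15) (nat_lit 2) (nat_lit 157) (nat_lit 159) (nat_lit 74)) (PT.lf (nat_lit 1064) (nat_lit 6) (nat_lit 14) (nat_lit 2) (nat_lit 158) (nat_lit 159) (nat_lit 73))) (PT.nd (nat_lit 78) (PT.lf (nat_lit 988) (nat_lit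 3) (nat_lit 13) (nat_lit 0) (nat_lit 159) (nat_lit 159) (nat_lit 72)) (PT.lf (nat_lit 836) (nat_lit 6) (nat_lit 11) (nat_lit 0) (nat_lit 160) (nat_lit 159) (nat_lit 71))))) (PT.nd (nat_lit 33540) (PT.nd (nat_lit 33384) (PT.lf (nat_lit 684) (nat_lit 6) (nat_lit 9) (nat_lit 0) (nat_lit 161) (nat_lit 159) (nat_lit 70)) (PT.nd (nat_lit 78) (PT.lf (nat_lit 456) (nat_lit 6) (nat_lit 6) (nat_lit 5) (nat_lit 68) (nat_lit 160) (nat_lit 162)) (PT.lf (nat_lit 608) (nat_lit 6) (nat_lit 8) (nat_lit 5) (nat_lit 69) (nat_lit 160) (nat_lit 161)))) (PT.nd (nat_lit 156) (PT.nd (nat_lit 78) (PT.lf (nat_lit 760) (nat_lit 3) (nat_lit 10) (nat_lit 4) (nat_lit 70) (nat_lit 160) (nat_lit 160)) (PT.lf (nat_lit 836) (nat_lit 6) (nat_lit 11) (nat_lit 4) (nat_lit 71) (nat_lit 160) (nat_lit 159))) (PT.nd (nat_lit 6708) (PT.lf (nat_lit 912) (nat_lit 6) (nat_lit 12) (nat_lit 4) (nat_lit 72) (nat_lit 160) (nat_lit 158)) (PT.lf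 (nat_lit 912) (nat_lit 6) (nat_lit 12) (nat_lit 2) (nat_lit 158) (nat_lit 160) (nat_lit 72))))))) (PT.nd (nat_lit 73944) (PT.nd (nat_lit 33618) (PT.nd (nat_lit 234) (PT.nd (nat_lit 78) (PT.lf (nat_lit 836) (nat_lit 6) (nat_lit 11) (nat_lit 2) (nat_lit 159) (nat_lit 160) (nat_lit 71)) (PT.nd (nat_lit 78) (PT.lf (nat_lit 760) (nat_lit 3) (nat_lit 10) (nat_lit 0) (nat_lit 160) (nat_lit 160) (nat_lit 70)) (PT.lf (nat_lit 608) (nat_lit 6) (nat_lit 8) (nat_lit 0) (nat_lit 161) (nat_lit 160) (nat_lit 69)))) (PT.nd (nat_lit 33228) (PT.nd (nat_lit 33150) (PT.lf (nat_lit 456) (nat_lit 6) (nat_lit 6) (nat_lit 0) (nat_lit 162) (nat_lit 160) (nat_lit 68)) (PT.lf (nat_lit 228) (nat_lit 6) (nat_lit 3) (nat_lit 5) (nat_lit 66) (nat_lit 161) (nat_lit 163))) (PT.nd (nat_lit 78) (PT.lf (nat_lit 380) (nat_lit 6) (nat_lit 5) (nat_lit 5) (nat_lit 67) (nat_lit 161) (nat_lit 162)) (PT.lf (nat_lit 532) (nat_lit 3) (nat_lit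 7) (nat_lit 4) (nat_lit 68) (nat_lit 161) (nat_lit 161))))) (PT.nd (nat_lit 7098) (PT.nd (nat_lit 78) (PT.lf (nat_lit 608) (nat_lit 6) (nat_lit 8) (nat_lit 4) (nat_lit 69) (nat_lit 161) (nat_lit 160)) (PT.nd (nat_lit 6942) (PT.lf (nat_lit 684) (nat_lit 6) (nat_lit 9) (nat_lit 4) (nat_lit 70) (nat_lit 161) (nat_lit 159)) (PT.lf (nat_lit 684) (nat_lit 6) (nat_lit 9) (nat_lit 2) (nat_lit 159) (nat_lit 161) (nat_lit 70)))) (PT.nd (nat_lit 156) (PT.nd (nat_lit 78) (PT.lf (nat_lit 608) (nat_lit 6) (nat_lit 8) (nat_lit 2) (nat_lit 160) (nat_lit 161) (nat_lit 69)) (PT.lf (nat_lit 532) (nat_lit 3) (nat_lit 7) (nat_lit 0) (nat_lit 161) (nat_lit 161) (nat_lit 68))) (PT.nd (nat_lit 78) (PT.lf (nat_lit 380) (nat_lit 6) (nat_lit 5) (nat_lit 0) (nat_lit 162) (nat_lit 161) (nat_lit 67)) (PT.lf (nat_lit 228) (nat_lit 6) (nat_lit 3) (nat_lit 0) (nat_lit 163) (nat_lit 161) (nat_lit 66)))))) (PT.nd (nat_lit 7644)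 (PT.nd (nat_lit 234) (PT.nd (nat_lit 78) (PT.lf (nat_lit 152) (nat_lit 6) (nat_lit 2) (nat_lit 5) (nat_lit 65) (nat_lit 162) (nat_lit 163)) (PT.nd (nat_lit 78) (PT.lf (nat_lit 304) (nat_lit 3) (nat_lit 4) (nat_lit 4) (nat_lit 66) (nat_lit 162) (nat_lit 162)) (PT.lf (nat_lit 380) (nat_lit 6) (nat_lit 5) (nat_lit 4) (nat_lit 67) (nat_lit 162) (nat_lit 161)))) (PT.nd (nat_lit 7254) (PT.nd (nat_lit 7176) (PT.lf (nat_lit 456) (nat_lit 6) (nat_lit 6) (nat_lit 4) (nat_lit 68) (nat_lit 162) (nat_lit 160)) (PT.lf (nat_lit 456) (nat_lit 6) (nat_lit 6) (nat_lit 2) (nat_lit 160) (nat_lit 162) (nat_lit 68))) (PT.nd (nat_lit 78) (PT.lf (nat_lit 380) (nat_lit 6) (nat_lit 5) (nat_lit 2) (nat_lit 161) (nat_lit 162) (nat_lit 67)) (PT.lf (nat_lit 304) (nat_lit 3) (nat_lit 4) (nat_lit 0) (nat_lit 162) (nat_lit 162) (nat_lit 66))))) (PT.nd (nat_lit 33072) (PT.nd (nat_lit 32916) (PT.lf (nat_lit 152) (nat_lit 6) (nat_lit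 2) (nat_lit 0) (nat_lit 163) (nat_lit 162) (nat_lit 65)) (PT.nd (nat_lit 78) (PT.lf (nat_lit 76) (nat_lit 3) (nat_lit 1) (nat_lit 4) (nat_lit 64) (nat_lit 163) (nat_lit 163)) (PT.lf (nat_lit 152) (nat_lit 6) (nat_lit 2) (nat_lit 4) (nat_lit 65) (nat_lit 163) (nat_lit 162)))) (PT.nd (nat_lit 7488) (PT.nd (nat_lit 7410) (PT.lf (nat_lit 228) (nat_lit 6) (nat_lit 3) (nat_lit 4) (nat_lit 66) (nat_lit 163) (nat_lit 161)) (PT.lf (nat_lit 228) (nat_lit 6) (nat_lit 3) (nat_lit 2) (nat_lit 161) (nat_lit 163) (nat_lit 66))) (PT.nd (nat_lit 78) (PT.lf (nat_lit 152) (nat_lit 6) (nat_lit 2) (nat_lit 2) (nat_lit 162) (nat_lit 163) (nat_lit 65)) (PT.lf (nat_lit 76) (nat_lit 3) (nat_lit 1) (nat_lit 0) (nat_lit 163) (nat_lit 163) (nat_lit 64))))))))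
noncomputable def xc0 : XT := (XT.nd (nat_lit 162084) (nat_lit 0) (nat_lit 0) (XT.nd (nat_lit 81354) (nat_lit 0) (nat_lit 0) (XT.nd (nat_lit 40716) (nat_lit 0) (nat_lit 0) (XT.nd (nat_lit 40482) (nat_lit 0) (nat_lit 0) (XT.nd (nat_lit 78) (nat_lit 0) (nat_lit 0) (XT.lf (nat_lit 0) (nat_lit 9637144228) (nat_lit 152) (nat_lit 28855794342) (nat_lit 0) (nat_lit 9637144228) (nat_lit 2) (nat_lit 5) (nat_lit 4) (nat_lit 4) (nat_lit 2) (nat_lit 4) (nat_lit 408) (nat_lit 186) (nat_lit 186)) (XT.nd (nat_lit 78) (nat_lit 0) (nat_lit 0) (XT.lf (nat_lit 0) (nat_lit 22198512445) (nat_lit 152) (nat_lit 54801403679) (nat_lit 0) (nat_lit 22073133126) (nat_lit 2) (nat_lit 5) (nat_lit 4) (nat_lit 4) (nat_lit 2) (nat_lit 4) (nat_lit 409) (nat_lit 186) (nat_lit 185)) (XT.lf (nat_lit 0) (nat_lit 25162637852) (nat_lit 152) (nat_lit 51893598173) (nat_lit 0) (nat_lit 24915531037) (nat_lit 2) (nat_lit 5) (nat_lit 4) (nat_lit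 4) (nat_lit 2) (nat_lit 4) (nat_lit 410) (nat_lit 186) (nat_lit 184)))) (XT.nd (nat_lit 78) (nat_lit 0) (nat_lit 0) (XT.lf (nat_lit 0) (nat_lit 6844745750) (nat_lit 152) (nat_lit 31751201318) (nat_lit 0) (nat_lit 6844745750) (nat_lit 2) (nat_lit 5) (nat_lit 4) (nat_lit 4) (nat_lit 2) (nat_lit 4) (nat_lit 406) (nat_lit 187) (nat_lit 187)) (XT.nd (nat_lit 78) (nat_lit 0) (nat_lit 0) (XT.lf (nat_lit 0) (nat_lit 16516551440) (nat_lit 152) (nat_lit 60626696069) (nat_lit 0) (nat_lit 16387410741) (nat_lit 2) (nat_lit 5) (nat_lit 4) (nat_lit 4) (nat_lit 2) (nat_lit 4) (nat_lit 407) (nat_lit 187) (nat_lit 186)) (XT.lf (nat_lit 0) (nat_lit 19379163117) (nat_lit 152) (nat_lit 57757093906) (nat_lit 0) (nat_lit 19124643098) (nat_lit 2) (nat_lit 5) (nat_lit 4) (nat_lit 4) (nat_lit 2) (nat_lit 4) (nat_lit 408) (nat_lit 187) (nat_lit 185))))) (XT.nd (nat_lit 40326) (nat_lit 0) (nat_lit 0) (XT.nd (nat_lit 78)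 (nat_lit 0) (nat_lit 0) (XT.lf (nat_lit 0) (nat_lit 22279827843) (nat_lit 152) (nat_lit 54891088728) (nat_lit 0) (nat_lit 21903580330) (nat_lit 2) (nat_lit 5) (nat_lit 4) (nat_lit 4) (nat_lit 2) (nat_lit 4) (nat_lit 409) (nat_lit 187) (nat_lit 184)) (XT.nd (nat_lit 40170) (nat_lit 0) (nat_lit 0) (XT.lf (nat_lit 0) (nat_lit 25221080180) (nat_lit 152) (nat_lit 52026176259) (nat_lit 0) (nat_lit 24726650633) (nat_lit 2) (nat_lit 5) (nat_lit 4) (nat_lit 4) (nat_lit 2) (nat_lit 4) (nat_lit 410) (nat_lit 187) (nat_lit 183)) (XT.lf (nat_lit 0) (nat_lit 4145466758) (nat_lit 152) (nat_lit 34616955517) (nat_lit 0) (nat_lit 4145466758) (nat_lit 2) (nat_lit 5) (nat_lit 4) (nat_lit 4) (nat_lit 2) (nat_lit 4) (nat_lit 404) (nat_lit 188) (nat_lit 188)))) (XT.nd (nat_lit 156) (nat_lit 0) (nat_lit 0) (XT.nd (nat_lit 78) (nat_lit 0) (nat_lit 0) (XT.lf (nat_lit 0) (nat_lit 11028527973) (nat_lit 152) (nat_lit 66386726360)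 (nat_lit 0) (nat_lit 10895513052) (nat_lit 2) (nat_lit 5) (nat_lit 4) (nat_lit 4) (nat_lit 2) (nat_lit 4) (nat_lit 405) (nat_lit 188) (nat_lit 187)) (XT.lf (nat_lit 0) (nat_lit 13797512400) (nat_lit 152) (nat_lit 63549273015) (nat_lit 0) (nat_lit 13535356781) (nat_lit 2) (nat_lit 5) (nat_lit 4) (nat_lit 4) (nat_lit 2) (nat_lit 4) (nat_lit 406) (nat_lit 188) (nat_lit 186))) (XT.nd (nat_lit 78) (nat_lit 0) (nat_lit 0) (XT.lf (nat_lit 0) (nat_lit 16600306300) (nat_lit 152) (nat_lit 60719071670) (nat_lit 0) (nat_lit 16212771361) (nat_lit 2) (nat_lit 5) (nat_lit 4) (nat_lit 4) (nat_lit 2) (nat_lit 4) (nat_lit 407) (nat_lit 188) (nat_lit 185)) (XT.lf (nat_lit 0) (nat_lit 19439358715) (nat_lit 152) (nat_lit 57893649335) (nat_lit 0) (nat_lit 18930096282) (nat_lit 2) (nat_lit 5) (nat_lit 4) (nat_lit 4) (nat_lit 2) (nat_lit 4) (nat_lit 408) (nat_lit 188) (nat_lit 184)))))) (XT.nd (nat_lit 40404) (nat_lit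 0) (nat_lit 0) (XT.nd (nat_lit 40170) (nat_lit 0) (nat_lit 0) (XT.nd (nat_lit 78) (nat_lit 0) (nat_lit 0) (XT.lf (nat_lit 0) (nat_lit 22317150372) (nat_lit 152) (nat_lit 55070537193) (nat_lit 0) (nat_lit 21689705904) (nat_lit 2) (nat_lit 5) (nat_lit 4) (nat_lit 4) (nat_lit 2) (nat_lit 4) (nat_lit 409) (nat_lit 188) (nat_lit 183)) (XT.nd (nat_lit 40014) (nat_lit 0) (nat_lit 0) (XT.lf (nat_lit 0) (nat_lit 25236195845) (nat_lit 152) (nat_lit 52247268448) (nat_lit 0) (nat_lit 24494011539) (nat_lit 2) (nat_lit 5) (nat_lit 4) (nat_lit 4) (nat_lit 2) (nat_lit 4) (nat_lit 410) (nat_lit 188) (nat_lit 182)) (XT.lf (nat_lit 0) (nat_lit 1531946546) (nat_lit 152) (nat_lit 37458855793) (nat_lit 0) (nat_lit 1531946546) (nat_lit 2) (nat_lit 5) (nat_lit 4) (nat_lit 4) (nat_lit 2) (nat_lit 4) (nat_lit 402) (nat_lit 189) (nat_lit 189)))) (XT.nd (nat_lit 78) (nat_lit 0) (nat_lit 0) (XT.lf (nat_lit 0) (nat_lit 5719342328)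 (nat_lit 152) (nat_lit 72093314869) (nat_lit 0) (nat_lit 5582336960) (nat_lit 2) (nat_lit 5) (nat_lit 4) (nat_lit 4) (nat_lit 2) (nat_lit 4) (nat_lit 403) (nat_lit 189) (nat_lit 188)) (XT.nd (nat_lit 78) (nat_lit 0) (nat_lit 0) (XT.lf (nat_lit 0) (nat_lit 8402195043) (nat_lit 152) (nat_lit 69282187525) (nat_lit 0) (nat_lit 8132174756) (nat_lit 2) (nat_lit 5) (nat_lit 4) (nat_lit 4) (nat_lit 2) (nat_lit 4) (nat_lit 404) (nat_lit 189) (nat_lit 187)) (XT.lf (nat_lit 0) (nat_lit 11114795478) (nat_lit 152) (nat_lit 66481873229) (nat_lit 0) (nat_lit 10715634491) (nat_lit 2) (nat_lit 5) (nat_lit 4) (nat_lit 4) (nat_lit 2) (nat_lit 4) (nat_lit 405) (nat_lit 189) (nat_lit 186))))) (XT.nd (nat_lit 234) (nat_lit 0) (nat_lit 0) (XT.nd (nat_lit 78) (nat_lit 0) (nat_lit 0) (XT.lf (nat_lit 0) (nat_lit 13859513866) (nat_lit 152) (nat_lit 63689925106) (nat_lit 0) (nat_lit 13334973559) (nat_lit 2) (nat_lit 5) (nat_lit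 4) (nat_lit 4) (nat_lit 2) (nat_lit 4) (nat_lit 406) (nat_lit 189) (nat_lit 185)) (XT.nd (nat_lit 78) (nat_lit 0) (nat_lit 0) (XT.lf (nat_lit 0) (nat_lit 16638748504) (nat_lit 152) (nat_lit 60903903589) (nat_lit 0) (nat_lit 15992480703) (nat_lit 2) (nat_lit 5) (nat_lit 4) (nat_lit 4) (nat_lit 2) (nat_lit 4) (nat_lit 407) (nat_lit 189) (nat_lit 184)) (XT.lf (nat_lit 0) (nat_lit 19454927850) (nat_lit 152) (nat_lit 58121374290) (nat_lit 0) (nat_lit 18690478015) (nat_lit 2) (nat_lit 5) (nat_lit 4) (nat_lit 4) (nat_lit 2) (nat_lit 4) (nat_lit 408) (nat_lit 189) (nat_lit 183)))) (XT.nd (nat_lit 39936) (nat_lit 0) (nat_lit 0) (XT.nd (nat_lit 78) (nat_lit 0) (nat_lit 0) (XT.lf (nat_lit 0) (nat_lit 22310512643) (nat_lit 152) (nat_lit 55339905873) (nat_lit 0) (nat_lit 21431322969) (nat_lit 2) (nat_lit 5) (nat_lit 4) (nat_lit 4) (nat_lit 2) (nat_lit 4) (nat_lit 409) (nat_lit 189) (nat_lit 182)) (XT.lf (nat_lit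 0) (nat_lit 25207998054) (nat_lit 152) (nat_lit 52557067928) (nat_lit 0) (nat_lit 24217410479) (nat_lit 2) (nat_lit 5) (nat_lit 4) (nat_lit 4) (nat_lit 2) (nat_lit 4) (nat_lit 410) (nat_lit 189) (nat_lit 181))) (XT.nd (nat_lit 78) (nat_lit 152) (nat_lit 0) (XT.lf (nat_lit 0) (nat_lit 36289737357) (nat_lit 76) (nat_lit 992982013) (nat_lit 76) (nat_lit 992982013) (nat_lit 4) (nat_lit 4) (nat_lit 5) (nat_lit 5) (nat_lit 5) (nat_lit 4) (nat_lit 400) (nat_lit 190) (nat_lit 190)) (XT.lf (nat_lit 0) (nat_lit 574642568) (nat_lit 152) (nat_lit 77757845598) (nat_lit 0) (nat_lit 433527039) (nat_lit 2) (nat_lit 5) (nat_lit 4) (nat_lit 4) (nat_lit 2) (nat_lit 4) (nat_lit 401) (nat_lit 190) (nat_lit 189))))))) (XT.nd (nat_lit 40638) (nat_lit 0) (nat_lit 0) (XT.nd (nat_lit 468) (nat_lit 0) (nat_lit 0) (XT.nd (nat_lit 234) (nat_lit 0) (nat_lit 0) (XT.nd (nat_lit 78) (nat_lit 0) (nat_lit 0) (XT.lf (nat_lit 0)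 (nat_lit 3178492464) (nat_lit 152) (nat_lit 74967436372) (nat_lit 0) (nat_lit 2900371567) (nat_lit 2) (nat_lit 5) (nat_lit 4) (nat_lit 4) (nat_lit 2) (nat_lit 4) (nat_lit 402) (nat_lit 190) (nat_lit 188)) (XT.nd (nat_lit 78) (nat_lit 0) (nat_lit 0) (XT.lf (nat_lit 0) (nat_lit 5808197859) (nat_lit 152) (nat_lit 72191316144) (nat_lit 0) (nat_lit 5397062042) (nat_lit 2) (nat_lit 5) (nat_lit 4) (nat_lit 4) (nat_lit 2) (nat_lit 4) (nat_lit 403) (nat_lit 190) (nat_lit 187)) (XT.lf (nat_lit 0) (nat_lit 8466056553) (nat_lit 152) (nat_lit 69427059179) (nat_lit 0) (nat_lit 7925780038) (nat_lit 2) (nat_lit 5) (nat_lit 4) (nat_lit 4) (nat_lit 2) (nat_lit 4) (nat_lit 404) (nat_lit 190) (nat_lit 186)))) (XT.nd (nat_lit 78) (nat_lit 0) (nat_lit 0) (XT.lf (nat_lit 0) (nat_lit 11154390949) (nat_lit 152) (nat_lit 66672250106) (nat_lit 0) (nat_lit 10488735113) (nat_lit 2) (nat_lit 5) (nat_lit 4) (nat_lit 4) (nat_lit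 2) (nat_lit 4) (nat_lit 405) (nat_lit 190) (nat_lit 185)) (XT.nd (nat_lit 78) (nat_lit 0) (nat_lit 0) (XT.lf (nat_lit 0) (nat_lit 13875550075) (nat_lit 152) (nat_lit 63924481810) (nat_lit 0) (nat_lit 13088166745) (nat_lit 2) (nat_lit 5) (nat_lit 4) (nat_lit 4) (nat_lit 2) (nat_lit 4) (nat_lit 406) (nat_lit 190) (nat_lit 184)) (XT.lf (nat_lit 0) (nat_lit 16631911643) (nat_lit 152) (nat_lit 61181353329) (nat_lit 0) (nat_lit 15726346279) (nat_lit 2) (nat_lit 5) (nat_lit 4) (nat_lit 4) (nat_lit 2) (nat_lit 4) (nat_lit 407) (nat_lit 190) (nat_lit 183))))) (XT.nd (nat_lit 39858) (nat_lit 0) (nat_lit 0) (XT.nd (nat_lit 78) (nat_lit 0) (nat_lit 0) (XT.lf (nat_lit 0) (nat_lit 19425884125) (nat_lit 152) (nat_lit 58440467755) (nat_lit 0) (nat_lit 18405578923) (nat_lit 2) (nat_lit 5) (nat_lit 4) (nat_lit 4) (nat_lit 2) (nat_lit 4) (nat_lit 408) (nat_lit 190) (nat_lit 182)) (XT.nd (nat_lit 78) (nat_lit 0)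 (nat_lit 0) (XT.lf (nat_lit 0) (nat_lit 22259908856) (nat_lit 152) (nat_lit 55699430138) (nat_lit 0) (nat_lit 21128205753) (nat_lit 2) (nat_lit 5) (nat_lit 4) (nat_lit 4) (nat_lit 2) (nat_lit 4) (nat_lit 409) (nat_lit 190) (nat_lit 181)) (XT.lf (nat_lit 0) (nat_lit 25136462169) (nat_lit 152) (nat_lit 52955845398) (nat_lit 0) (nat_lit 23896605763) (nat_lit 2) (nat_lit 5) (nat_lit 4) (nat_lit 4) (nat_lit 2) (nat_lit 4) (nat_lit 410) (nat_lit 190) (nat_lit 180)))) (XT.nd (nat_lit 156) (nat_lit 152) (nat_lit 0) (XT.nd (nat_lit 78) (nat_lit 0) (nat_lit 0) (XT.lf (nat_lit 0) (nat_lit 29295298277) (nat_lit 76) (nat_lit 3431497367) (nat_lit 76) (nat_lit 3431497367) (nat_lit 4) (nat_lit 4) (nat_lit 5) (nat_lit 5) (nat_lit 5) (nat_lit 4) (nat_lit 398) (nat_lit 191) (nat_lit 191)) (XT.lf (nat_lit 0) (nat_lit 65506581483) (nat_lit 76) (nat_lit 4522712991) (nat_lit 76) (nat_lit 4373003527) (nat_lit 4) (nat_lit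 4) (nat_lit 5) (nat_lit 5) (nat_lit 5) (nat_lit 4) (nat_lit 399) (nat_lit 191) (nat_lit 190))) (XT.nd (nat_lit 78) (nat_lit 152) (nat_lit 0) (XT.lf (nat_lit 0) (nat_lit 72530376418) (nat_lit 76) (nat_lit 2158441156) (nat_lit 76) (nat_lit 1863382697) (nat_lit 4) (nat_lit 4) (nat_lit 5) (nat_lit 5) (nat_lit 5) (nat_lit 4) (nat_lit 400) (nat_lit 191) (nat_lit 189)) (XT.lf (nat_lit 0) (nat_lit 666163764) (nat_lit 152) (nat_lit 77858786911) (nat_lit 0) (nat_lit 242693873) (nat_lit 2) (nat_lit 5) (nat_lit 4) (nat_lit 4) (nat_lit 2) (nat_lit 4) (nat_lit 401) (nat_lit 191) (nat_lit 188)))))) (XT.nd (nat_lit 546) (nat_lit 0) (nat_lit 0) (XT.nd (nat_lit 234) (nat_lit 0) (nat_lit 0) (XT.nd (nat_lit 78) (nat_lit 0) (nat_lit 0) (XT.lf (nat_lit 0) (nat_lit 3244269819) (nat_lit 152) (nat_lit 75116654175) (nat_lit 0) (nat_lit 2687785008) (nat_lit 2) (nat_lit 5) (nat_lit 4) (nat_lit 4) (nat_lit 2) (nat_lit 4)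 (nat_lit 402) (nat_lit 191) (nat_lit 187)) (XT.nd (nat_lit 78) (nat_lit 0) (nat_lit 0) (XT.lf (nat_lit 0) (nat_lit 5848981193) (nat_lit 152) (nat_lit 72387404327) (nat_lit 0) (nat_lit 5163355683) (nat_lit 2) (nat_lit 5) (nat_lit 4) (nat_lit 4) (nat_lit 2) (nat_lit 4) (nat_lit 403) (nat_lit 191) (nat_lit 186)) (XT.lf (nat_lit 0) (nat_lit 8482573849) (nat_lit 152) (nat_lit 69668652584) (nat_lit 0) (nat_lit 7671569019) (nat_lit 2) (nat_lit 5) (nat_lit 4) (nat_lit 4) (nat_lit 2) (nat_lit 4) (nat_lit 404) (nat_lit 191) (nat_lit 185)))) (XT.nd (nat_lit 156) (nat_lit 0) (nat_lit 0) (XT.nd (nat_lit 78) (nat_lit 0) (nat_lit 0) (XT.lf (nat_lit 0) (nat_lit 11147348982) (nat_lit 152) (nat_lit 66958023338) (nat_lit 0) (nat_lit 10214616658) (nat_lit 2) (nat_lit 5) (nat_lit 4) (nat_lit 4) (nat_lit 2) (nat_lit 4) (nat_lit 405) (nat_lit 191) (nat_lit 184)) (XT.lf (nat_lit 0) (nat_lit 13845635039) (nat_lit 152)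 (nat_lit 64253148078) (nat_lit 0) (nat_lit 12794720680) (nat_lit 2) (nat_lit 5) (nat_lit 4) (nat_lit 4) (nat_lit 2) (nat_lit 4) (nat_lit 406) (nat_lit 191) (nat_lit 183))) (XT.nd (nat_lit 78) (nat_lit 0) (nat_lit 0) (XT.lf (nat_lit 0) (nat_lit 16579789743) (nat_lit 152) (nat_lit 61551663322) (nat_lit 0) (nat_lit 15414135546) (nat_lit 2) (nat_lit 5) (nat_lit 4) (nat_lit 4) (nat_lit 2) (nat_lit 4) (nat_lit 407) (nat_lit 191) (nat_lit 182)) (XT.lf (nat_lit 0) (nat_lit 19352202164) (nat_lit 152) (nat_lit 58851208548) (nat_lit 0) (nat_lit 18075150065) (nat_lit 2) (nat_lit 5) (nat_lit 4) (nat_lit 4) (nat_lit 2) (nat_lit 4) (nat_lit 408) (nat_lit 191) (nat_lit 181))))) (XT.nd (nat_lit 39702) (nat_lit 0) (nat_lit 152) (XT.nd (nat_lit 78) (nat_lit 0) (nat_lit 0) (XT.lf (nat_lit 0) (nat_lit 22165294796) (nat_lit 152) (nat_lit 56149424136) (nat_lit 0) (nat_lit 20780089395) (nat_lit 2) (nat_lit 5) (nat_lit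 4) (nat_lit 4) (nat_lit 2) (nat_lit 4) (nat_lit 409) (nat_lit 191) (nat_lit 180)) (XT.nd (nat_lit 39546) (nat_lit 0) (nat_lit 152) (XT.lf (nat_lit 0) (nat_lit 25021525682) (nat_lit 152) (nat_lit 53443949303) (nat_lit 0) (nat_lit 23531317075) (nat_lit 2) (nat_lit 5) (nat_lit 4) (nat_lit 4) (nat_lit 2) (nat_lit 4) (nat_lit 410) (nat_lit 191) (nat_lit 179)) (XT.lf (nat_lit 0) (nat_lit 22555030822) (nat_lit 76) (nat_lit 5804897461) (nat_lit 76) (nat_lit 5804897461) (nat_lit 4) (nat_lit 4) (nat_lit 5) (nat_lit 5) (nat_lit 5) (nat_lit 4) (nat_lit 396) (nat_lit 192) (nat_lit 192)))) (XT.nd (nat_lit 156) (nat_lit 0) (nat_lit 0) (XT.nd (nat_lit 78) (nat_lit 0) (nat_lit 0) (XT.lf (nat_lit 0) (nat_lit 51776378538) (nat_lit 76) (nat_lit 9335532037) (nat_lit 76) (nat_lit 9181331289) (nat_lit 4) (nat_lit 4) (nat_lit 5) (nat_lit 5) (nat_lit 5) (nat_lit 4) (nat_lit 397) (nat_lit 192) (nat_lit 191)) (XT.lf (nat_lit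 0) (nat_lit 58540025309) (nat_lit 76) (nat_lit 7040646177) (nat_lit 76) (nat_lit 6736735964) (nat_lit 4) (nat_lit 4) (nat_lit 5) (nat_lit 5) (nat_lit 5) (nat_lit 4) (nat_lit 398) (nat_lit 192) (nat_lit 190))) (XT.nd (nat_lit 78) (nat_lit 0) (nat_lit 0) (XT.lf (nat_lit 0) (nat_lit 65406911941) (nat_lit 76) (nat_lit 4723132099) (nat_lit 76) (nat_lit 4273872891) (nat_lit 4) (nat_lit 4) (nat_lit 5) (nat_lit 5) (nat_lit 5) (nat_lit 4) (nat_lit 399) (nat_lit 192) (nat_lit 189)) (XT.lf (nat_lit 0) (nat_lit 72383038627) (nat_lit 76) (nat_lit 2380964792) (nat_lit 76) (nat_lit 1790590056) (nat_lit 4) (nat_lit 4) (nat_lit 5) (nat_lit 5) (nat_lit 5) (nat_lit 4) (nat_lit 400) (nat_lit 192) (nat_lit 188))))))))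
noncomputable def xc1 : XT := (XT.nd (nat_lit 41340) (nat_lit 0) (nat_lit 0) (XT.nd (nat_lit 40326) (nat_lit 0) (nat_lit 0) (XT.nd (nat_lit 468) (nat_lit 0) (nat_lit 0) (XT.nd (nat_lit 234) (nat_lit 0) (nat_lit 0) (XT.nd (nat_lit 78) (nat_lit 0) (nat_lit 0) (XT.lf (nat_lit 0) (nat_lit 708170599) (nat_lit 152) (nat_lit 78060757739) (nat_lit 0) (nat_lit 1976323) (nat_lit 2) (nat_lit 5) (nat_lit 4) (nat_lit 4) (nat_lit 2) (nat_lit 4) (nat_lit 401) (nat_lit 192) (nat_lit 187)) (XT.nd (nat_lit 78) (nat_lit 0) (nat_lit 0) (XT.lf (nat_lit 0) (nat_lit 3261282633) (nat_lit 152) (nat_lit 75365495382) (nat_lit 0) (nat_lit 2425947658) (nat_lit 2) (nat_lit 5) (nat_lit 4) (nat_lit 4) (nat_lit 2) (nat_lit 4) (nat_lit 402) (nat_lit 192) (nat_lit 186)) (XT.lf (nat_lit 0) (nat_lit 5841727968) (nat_lit 152) (nat_lit 72681750756) (nat_lit 0) (nat_lit 4881013673) (nat_lit 2) (nat_lit 5) (nat_lit 4) (nat_lit 4) (nat_lit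 2) (nat_lit 4) (nat_lit 403) (nat_lit 192) (nat_lit 185)))) (XT.nd (nat_lit 78) (nat_lit 0) (nat_lit 0) (XT.lf (nat_lit 0) (nat_lit 8451761361) (nat_lit 152) (nat_lit 70007178840) (nat_lit 0) (nat_lit 7369319572) (nat_lit 2) (nat_lit 5) (nat_lit 4) (nat_lit 4) (nat_lit 2) (nat_lit 4) (nat_lit 404) (nat_lit 192) (nat_lit 184)) (XT.nd (nat_lit 78) (nat_lit 0) (nat_lit 0) (XT.lf (nat_lit 0) (nat_lit 11093663425) (nat_lit 152) (nat_lit 67339442631) (nat_lit 0) (nat_lit 9893039603) (nat_lit 2) (nat_lit 5) (nat_lit 4) (nat_lit 4) (nat_lit 2) (nat_lit 4) (nat_lit 405) (nat_lit 192) (nat_lit 183)) (XT.lf (nat_lit 0) (nat_lit 13769742618) (nat_lit 152) (nat_lit 64676211096) (nat_lit 0) (nat_lit 12454378957) (nat_lit 2) (nat_lit 5) (nat_lit 4) (nat_lit 4) (nat_lit 2) (nat_lit 4) (nat_lit 406) (nat_lit 192) (nat_lit 182))))) (XT.nd (nat_lit 234) (nat_lit 0) (nat_lit 0) (XT.nd (nat_lit 78) (nat_lit 0) (nat_lit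 0) (XT.lf (nat_lit 0) (nat_lit 16482337261) (nat_lit 152) (nat_lit 62015157140) (nat_lit 0) (nat_lit 15055575698) (nat_lit 2) (nat_lit 5) (nat_lit 4) (nat_lit 4) (nat_lit 2) (nat_lit 4) (nat_lit 407) (nat_lit 192) (nat_lit 181)) (XT.nd (nat_lit 78) (nat_lit 0) (nat_lit 0) (XT.lf (nat_lit 0) (nat_lit 19233817582) (nat_lit 152) (nat_lit 59353955571) (nat_lit 0) (nat_lit 17698902717) (nat_lit 2) (nat_lit 5) (nat_lit 4) (nat_lit 4) (nat_lit 2) (nat_lit 4) (nat_lit 408) (nat_lit 192) (nat_lit 180)) (XT.lf (nat_lit 0) (nat_lit 22026587788) (nat_lit 152) (nat_lit 56690281066) (nat_lit 0) (nat_lit 20386669717) (nat_lit 2) (nat_lit 5) (nat_lit 4) (nat_lit 4) (nat_lit 2) (nat_lit 4) (nat_lit 409) (nat_lit 192) (nat_lit 179)))) (XT.nd (nat_lit 39468) (nat_lit 0) (nat_lit 152) (XT.nd (nat_lit 39390) (nat_lit 0) (nat_lit 152) (XT.lf (nat_lit 0) (nat_lit 24863088164) (nat_lit 152) (nat_lit 54021806143) (nat_lit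 0) (nat_lit 23121225232) (nat_lit 2) (nat_lit 5) (nat_lit 4) (nat_lit 4) (nat_lit 2) (nat_lit 4) (nat_lit 410) (nat_lit 192) (nat_lit 178)) (XT.lf (nat_lit 0) (nat_lit 16049924368) (nat_lit 76) (nat_lit 8119166142) (nat_lit 76) (nat_lit 8119166142) (nat_lit 4) (nat_lit 4) (nat_lit 5) (nat_lit 5) (nat_lit 5) (nat_lit 4) (nat_lit 394) (nat_lit 193) (nat_lit 193))) (XT.nd (nat_lit 78) (nat_lit 0) (nat_lit 0) (XT.lf (nat_lit 0) (nat_lit 38535249694) (nat_lit 76) (nat_lit 14024248820) (nat_lit 76) (nat_lit 13865422049) (nat_lit 4) (nat_lit 4) (nat_lit 5) (nat_lit 5) (nat_lit 5) (nat_lit 4) (nat_lit 395) (nat_lit 193) (nat_lit 192)) (XT.lf (nat_lit 0) (nat_lit 45057973262) (nat_lit 76) (nat_lit 11792775908) (nat_lit 76) (nat_lit 11479748388) (nat_lit 4) (nat_lit 4) (nat_lit 5) (nat_lit 5) (nat_lit 5) (nat_lit 4) (nat_lit 396) (nat_lit 193) (nat_lit 191)))))) (XT.nd (nat_lit 468) (nat_lit 0) (nat_lit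 0) (XT.nd (nat_lit 234) (nat_lit 152) (nat_lit 0) (XT.nd (nat_lit 78) (nat_lit 0) (nat_lit 0) (XT.lf (nat_lit 0) (nat_lit 51673718909) (nat_lit 76) (nat_lit 9541963718) (nat_lit 76) (nat_lit 9079226734) (nat_lit 4) (nat_lit 4) (nat_lit 5) (nat_lit 5) (nat_lit 5) (nat_lit 4) (nat_lit 397) (nat_lit 193) (nat_lit 190)) (XT.nd (nat_lit 78) (nat_lit 0) (nat_lit 0) (XT.lf (nat_lit 0) (nat_lit 58388267384) (nat_lit 76) (nat_lit 7269845522) (nat_lit 76) (nat_lit 6661759543) (nat_lit 4) (nat_lit 4) (nat_lit 5) (nat_lit 5) (nat_lit 5) (nat_lit 4) (nat_lit 398) (nat_lit 193) (nat_lit 189)) (XT.lf (nat_lit 0) (nat_lit 65207485768) (nat_lit 76) (nat_lit 4974435973) (nat_lit 76) (nat_lit 4225234466) (nat_lit 4) (nat_lit 4) (nat_lit 5) (nat_lit 5) (nat_lit 5) (nat_lit 4) (nat_lit 399) (nat_lit 193) (nat_lit 188)))) (XT.nd (nat_lit 78) (nat_lit 152) (nat_lit 0) (XT.lf (nat_lit 0) (nat_lit 72137332600) (nat_lit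 76) (nat_lit 2653729373) (nat_lit 76) (nat_lit 1767522499) (nat_lit 4) (nat_lit 4) (nat_lit 5) (nat_lit 5) (nat_lit 5) (nat_lit 4) (nat_lit 400) (nat_lit 193) (nat_lit 187)) (XT.nd (nat_lit 78) (nat_lit 0) (nat_lit 0) (XT.lf (nat_lit 0) (nat_lit 408947154) (nat_lit 76) (nat_lit 294584347) (nat_lit 152) (nat_lit 78072181939) (nat_lit 2) (nat_lit 5) (nat_lit 3) (nat_lit 5) (nat_lit 4) (nat_lit 4) (nat_lit 401) (nat_lit 193) (nat_lit 186)) (XT.lf (nat_lit 0) (nat_lit 3229545771) (nat_lit 152) (nat_lit 75714177427) (nat_lit 0) (nat_lit 2114630728) (nat_lit 2) (nat_lit 5) (nat_lit 4) (nat_lit 4) (nat_lit 2) (nat_lit 4) (nat_lit 402) (nat_lit 193) (nat_lit 185))))) (XT.nd (nat_lit 234) (nat_lit 0) (nat_lit 0) (XT.nd (nat_lit 78) (nat_lit 0) (nat_lit 0) (XT.lf (nat_lit 0) (nat_lit 5786431844) (nat_lit 152) (nat_lit 73074612627) (nat_lit 0) (nat_lit 4549789307) (nat_lit 2) (nat_lit 5) (nat_lit 4) (nat_lit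 4) (nat_lit 2) (nat_lit 4) (nat_lit 403) (nat_lit 193) (nat_lit 184)) (XT.nd (nat_lit 78) (nat_lit 0) (nat_lit 0) (XT.lf (nat_lit 0) (nat_lit 8373592168) (nat_lit 152) (nat_lit 70442933748) (nat_lit 0) (nat_lit 7018767597) (nat_lit 2) (nat_lit 5) (nat_lit 4) (nat_lit 4) (nat_lit 2) (nat_lit 4) (nat_lit 404) (nat_lit 193) (nat_lit 183)) (XT.lf (nat_lit 0) (nat_lit 10993287368) (nat_lit 152) (nat_lit 67816841263) (nat_lit 0) (nat_lit 9523722959) (nat_lit 2) (nat_lit 5) (nat_lit 4) (nat_lit 4) (nat_lit 2) (nat_lit 4) (nat_lit 405) (nat_lit 193) (nat_lit 182)))) (XT.nd (nat_lit 156) (nat_lit 0) (nat_lit 0) (XT.nd (nat_lit 78) (nat_lit 0) (nat_lit 0) (XT.lf (nat_lit 0) (nat_lit 13647806499) (nat_lit 152) (nat_lit 65194040529) (nat_lit 0) (nat_lit 12066844188) (nat_lit 2) (nat_lit 5) (nat_lit 4) (nat_lit 4) (nat_lit 2) (nat_lit 4) (nat_lit 406) (nat_lit 193) (nat_lit 181)) (XT.lf (nat_lit 0) (nat_lit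 16339469043) (nat_lit 152) (nat_lit 62572239778) (nat_lit 0) (nat_lit 14650353430) (nat_lit 2) (nat_lit 5) (nat_lit 4) (nat_lit 4) (nat_lit 2) (nat_lit 4) (nat_lit 407) (nat_lit 193) (nat_lit 180))) (XT.nd (nat_lit 78) (nat_lit 0) (nat_lit 0) (XT.lf (nat_lit 0) (nat_lit 19070626939) (nat_lit 152) (nat_lit 59949148115) (nat_lit 0) (nat_lit 17276508119) (nat_lit 2) (nat_lit 5) (nat_lit 4) (nat_lit 4) (nat_lit 2) (nat_lit 4) (nat_lit 408) (nat_lit 193) (nat_lit 179)) (XT.lf (nat_lit 0) (nat_lit 21843666634) (nat_lit 152) (nat_lit 57322473520) (nat_lit 0) (nat_lit 19947602954) (nat_lit 2) (nat_lit 5) (nat_lit 4) (nat_lit 4) (nat_lit 2) (nat_lit 4) (nat_lit 409) (nat_lit 193) (nat_lit 178))))))) (XT.nd (nat_lit 40170) (nat_lit 0) (nat_lit 0) (XT.nd (nat_lit 39624) (nat_lit 0) (nat_lit 0) (XT.nd (nat_lit 39390) (nat_lit 0) (nat_lit 152) (XT.nd (nat_lit 39234) (nat_lit 0) (nat_lit 152) (XT.lf (nat_lit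 0) (nat_lit 24661011174) (nat_lit 152) (nat_lit 54689920840) (nat_lit 0) (nat_lit 22665971901) (nat_lit 2) (nat_lit 5) (nat_lit 4) (nat_lit 4) (nat_lit 2) (nat_lit 4) (nat_lit 410) (nat_lit 193) (nat_lit 177)) (XT.nd (nat_lit 78) (nat_lit 0) (nat_lit 0) (XT.lf (nat_lit 0) (nat_lit 9761926974) (nat_lit 76) (nat_lit 10380011141) (nat_lit 76) (nat_lit 10380011141) (nat_lit 4) (nat_lit 4) (nat_lit 5) (nat_lit 5) (nat_lit 5) (nat_lit 4) (nat_lit 392) (nat_lit 194) (nat_lit 194)) (XT.lf (nat_lit 0) (nat_lit 25746147226) (nat_lit 76) (nat_lit 18600552513) (nat_lit 76) (nat_lit 18436960939) (nat_lit 4) (nat_lit 4) (nat_lit 5) (nat_lit 5) (nat_lit 5) (nat_lit 4) (nat_lit 393) (nat_lit 194) (nat_lit 193)))) (XT.nd (nat_lit 78) (nat_lit 0) (nat_lit 0) (XT.lf (nat_lit 0) (nat_lit 32046197703) (nat_lit 76) (nat_lit 16426802701) (nat_lit 76) (nat_lit 16104384356) (nat_lit 4) (nat_lit 4) (nat_lit 5) (nat_lit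 5) (nat_lit 5) (nat_lit 4) (nat_lit 394) (nat_lit 194) (nat_lit 192)) (XT.nd (nat_lit 78) (nat_lit 0) (nat_lit 0) (XT.lf (nat_lit 0) (nat_lit 38429510277) (nat_lit 76) (nat_lit 14236873451) (nat_lit 76) (nat_lit 13760254358) (nat_lit 4) (nat_lit 4) (nat_lit 5) (nat_lit 5) (nat_lit 5) (nat_lit 4) (nat_lit 395) (nat_lit 194) (nat_lit 191)) (XT.lf (nat_lit 0) (nat_lit 44901662600) (nat_lit 76) (nat_lit 12028851233) (nat_lit 76) (nat_lit 11402522676) (nat_lit 4) (nat_lit 4) (nat_lit 5) (nat_lit 5) (nat_lit 5) (nat_lit 4) (nat_lit 396) (nat_lit 194) (nat_lit 190))))) (XT.nd (nat_lit 234) (nat_lit 152) (nat_lit 0) (XT.nd (nat_lit 78) (nat_lit 0) (nat_lit 0) (XT.lf (nat_lit 0) (nat_lit 51468309950) (nat_lit 76) (nat_lit 9800806708) (nat_lit 76) (nat_lit 9029129156) (nat_lit 4) (nat_lit 4) (nat_lit 5) (nat_lit 5) (nat_lit 5) (nat_lit 4) (nat_lit 397) (nat_lit 194) (nat_lit 189)) (XT.nd (nat_lit 78) (nat_lit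 0) (nat_lit 0) (XT.lf (nat_lit 0) (nat_lit 58135190176) (nat_lit 76) (nat_lit 7550793040) (nat_lit 76) (nat_lit 6637999959) (nat_lit 4) (nat_lit 4) (nat_lit 5) (nat_lit 5) (nat_lit 5) (nat_lit 4) (nat_lit 398) (nat_lit 194) (nat_lit 188)) (XT.lf (nat_lit 0) (nat_lit 64908128706) (nat_lit 76) (nat_lit 5276844199) (nat_lit 76) (nat_lit 4227045750) (nat_lit 4) (nat_lit 4) (nat_lit 5) (nat_lit 5) (nat_lit 5) (nat_lit 4) (nat_lit 399) (nat_lit 194) (nat_lit 187)))) (XT.nd (nat_lit 156) (nat_lit 0) (nat_lit 0) (XT.nd (nat_lit 78) (nat_lit 152) (nat_lit 0) (XT.lf (nat_lit 0) (nat_lit 71793043642) (nat_lit 76) (nat_lit 2976973238) (nat_lit 76) (nat_lit 1794159869) (nat_lit 4) (nat_lit 4) (nat_lit 5) (nat_lit 5) (nat_lit 5) (nat_lit 4) (nat_lit 400) (nat_lit 194) (nat_lit 186)) (XT.lf (nat_lit 0) (nat_lit 7385991) (nat_lit 76) (nat_lit 642535220) (nat_lit 152) (nat_lit 78132223511) (nat_lit 2) (nat_lit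 5) (nat_lit 3) (nat_lit 5) (nat_lit 4) (nat_lit 4) (nat_lit 401) (nat_lit 194) (nat_lit 185))) (XT.nd (nat_lit 78) (nat_lit 0) (nat_lit 0) (XT.lf (nat_lit 0) (nat_lit 3149031502) (nat_lit 152) (nat_lit 76163004982) (nat_lit 0) (nat_lit 1753562194) (nat_lit 2) (nat_lit 5) (nat_lit 4) (nat_lit 4) (nat_lit 2) (nat_lit 4) (nat_lit 402) (nat_lit 194) (nat_lit 184)) (XT.lf (nat_lit 0) (nat_lit 5683044506) (nat_lit 152) (nat_lit 73566333219) (nat_lit 0) (nat_lit 4169393164) (nat_lit 2) (nat_lit 5) (nat_lit 4) (nat_lit 4) (nat_lit 2) (nat_lit 4) (nat_lit 403) (nat_lit 194) (nat_lit 183)))))) (XT.nd (nat_lit 39546) (nat_lit 0) (nat_lit 152) (XT.nd (nat_lit 234) (nat_lit 0) (nat_lit 0) (XT.nd (nat_lit 78) (nat_lit 0) (nat_lit 0) (XT.lf (nat_lit 0) (nat_lit 8247997966) (nat_lit 152) (nat_lit 70976298064) (nat_lit 0) (nat_lit 6619606785) (nat_lit 2) (nat_lit 5) (nat_lit 4) (nat_lit 4) (nat_lit 2) (nat_lit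 4) (nat_lit 404) (nat_lit 194) (nat_lit 182)) (XT.nd (nat_lit 78) (nat_lit 0) (nat_lit 0) (XT.lf (nat_lit 0) (nat_lit 10846133104) (nat_lit 152) (nat_lit 68390636380) (nat_lit 0) (nat_lit 9106344022) (nat_lit 2) (nat_lit 5) (nat_lit 4) (nat_lit 4) (nat_lit 2) (nat_lit 4) (nat_lit 405) (nat_lit 194) (nat_lit 181)) (XT.lf (nat_lit 0) (nat_lit 13479720136) (nat_lit 152) (nat_lit 65807088850) (nat_lit 0) (nat_lit 11631777752) (nat_lit 2) (nat_lit 5) (nat_lit 4) (nat_lit 4) (nat_lit 2) (nat_lit 4) (nat_lit 406) (nat_lit 194) (nat_lit 180)))) (XT.nd (nat_lit 156) (nat_lit 0) (nat_lit 0) (XT.nd (nat_lit 78) (nat_lit 0) (nat_lit 0) (XT.lf (nat_lit 0) (nat_lit 16151060254) (nat_lit 152) (nat_lit 63223398006) (nat_lit 0) (nat_lit 14198114664) (nat_lit 2) (nat_lit 5) (nat_lit 4) (nat_lit 4) (nat_lit 2) (nat_lit 4) (nat_lit 407) (nat_lit 194) (nat_lit 179)) (XT.lf (nat_lit 0) (nat_lit 18862487639) (nat_lit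 152) (nat_lit 60637306253) (nat_lit 0) (nat_lit 16807597188) (nat_lit 2) (nat_lit 5) (nat_lit 4) (nat_lit 4) (nat_lit 2) (nat_lit 4) (nat_lit 408) (nat_lit 194) (nat_lit 178))) (XT.nd (nat_lit 78) (nat_lit 0) (nat_lit 0) (XT.lf (nat_lit 0) (nat_lit 21616371498) (nat_lit 152) (nat_lit 58046553901) (nat_lit 0) (nat_lit 19462505455) (nat_lit 2) (nat_lit 5) (nat_lit 4) (nat_lit 4) (nat_lit 2) (nat_lit 4) (nat_lit 409) (nat_lit 194) (nat_lit 177)) (XT.lf (nat_lit 0) (nat_lit 24415118140) (nat_lit 152) (nat_lit 55448877184) (nat_lit 0) (nat_lit 22165159288) (nat_lit 2) (nat_lit 5) (nat_lit 4) (nat_lit 4) (nat_lit 2) (nat_lit 4) (nat_lit 410) (nat_lit 194) (nat_lit 176))))) (XT.nd (nat_lit 234) (nat_lit 0) (nat_lit 0) (XT.nd (nat_lit 78) (nat_lit 0) (nat_lit 0) (XT.lf (nat_lit 0) (nat_lit 3673886371) (nat_lit 76) (nat_lit 12592881938) (nat_lit 76) (nat_lit 12592881938) (nat_lit 4) (nat_lit 4) (nat_lit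 5) (nat_lit 5) (nat_lit 5) (nat_lit 4) (nat_lit 390) (nat_lit 195) (nat_lit 195)) (XT.nd (nat_lit 78) (nat_lit 0) (nat_lit 0) (XT.lf (nat_lit 0) (nat_lit 13373880914) (nat_lit 76) (nat_lit 23075598242) (nat_lit 76) (nat_lit 22907098921) (nat_lit 4) (nat_lit 4) (nat_lit 5) (nat_lit 5) (nat_lit 5) (nat_lit 4) (nat_lit 391) (nat_lit 195) (nat_lit 194)) (XT.lf (nat_lit 0) (nat_lit 19468593383) (nat_lit 76) (nat_lit 20954146810) (nat_lit 76) (nat_lit 20622055915) (nat_lit 4) (nat_lit 4) (nat_lit 5) (nat_lit 5) (nat_lit 5) (nat_lit 4) (nat_lit 392) (nat_lit 195) (nat_lit 193)))) (XT.nd (nat_lit 156) (nat_lit 0) (nat_lit 0) (XT.nd (nat_lit 78) (nat_lit 0) (nat_lit 0) (XT.lf (nat_lit 0) (nat_lit 25637235626) (nat_lit 76) (nat_lit 18819555883) (nat_lit 76) (nat_lit 18328638217) (nat_lit 4) (nat_lit 4) (nat_lit 5) (nat_lit 5) (nat_lit 5) (nat_lit 4) (nat_lit 393) (nat_lit 195) (nat_lit 192)) (XT.lf (nat_lit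 0) (nat_lit 31885197720) (nat_lit 76) (nat_lit 16669960286) (nat_lit 76) (nat_lit 16024841872) (nat_lit 4) (nat_lit 4) (nat_lit 5) (nat_lit 5) (nat_lit 5) (nat_lit 4) (nat_lit 394) (nat_lit 195) (nat_lit 191))) (XT.nd (nat_lit 78) (nat_lit 0) (nat_lit 0) (XT.lf (nat_lit 0) (nat_lit 38217939049) (nat_lit 76) (nat_lit 14503481730) (nat_lit 76) (nat_lit 13708653852) (nat_lit 4) (nat_lit 4) (nat_lit 5) (nat_lit 5) (nat_lit 5) (nat_lit 4) (nat_lit 395) (nat_lit 195) (nat_lit 190)) (XT.lf (nat_lit 0) (nat_lit 44640993075) (nat_lit 76) (nat_lit 12318227177) (nat_lit 76) (nat_lit 11378050304) (nat_lit 4) (nat_lit 4) (nat_lit 5) (nat_lit 5) (nat_lit 5) (nat_lit 4) (nat_lit 396) (nat_lit 195) (nat_lit 189))))))))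
noncomputable def xc2 : XT := (XT.nd (nat_lit 40872) (nat_lit 0) (nat_lit 0) (XT.nd (nat_lit 1014) (nat_lit 0) (nat_lit 0) (XT.nd (nat_lit 468) (nat_lit 0) (nat_lit 0) (XT.nd (nat_lit 234) (nat_lit 152) (nat_lit 0) (XT.nd (nat_lit 78) (nat_lit 0) (nat_lit 0) (XT.lf (nat_lit 0) (nat_lit 51159972177) (nat_lit 76) (nat_lit 10112287181) (nat_lit 76) (nat_lit 9030994779) (nat_lit 4) (nat_lit 4) (nat_lit 5) (nat_lit 5) (nat_lit 5) (nat_lit 4) (nat_lit 397) (nat_lit 195) (nat_lit 188)) (XT.nd (nat_lit 78) (nat_lit 0) (nat_lit 0) (XT.lf (nat_lit 0) (nat_lit 57780572549) (nat_lit 76) (nat_lit 7883734221) (nat_lit 76) (nat_lit 6665436451) (nat_lit 4) (nat_lit 4) (nat_lit 5) (nat_lit 5) (nat_lit 5) (nat_lit 4) (nat_lit 398) (nat_lit 195) (nat_lit 187)) (XT.lf (nat_lit 0) (nat_lit 64508579183) (nat_lit 76) (nat_lit 5630621017) (nat_lit 76) (nat_lit 4279308328) (nat_lit 4) (nat_lit 4) (nat_lit 5) (nat_lit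 5) (nat_lit 5) (nat_lit 4) (nat_lit 399) (nat_lit 195) (nat_lit 186)))) (XT.nd (nat_lit 78) (nat_lit 152) (nat_lit 0) (XT.lf (nat_lit 0) (nat_lit 71349870918) (nat_lit 76) (nat_lit 3350978831) (nat_lit 76) (nat_lit 1870525442) (nat_lit 4) (nat_lit 4) (nat_lit 5) (nat_lit 5) (nat_lit 5) (nat_lit 4) (nat_lit 400) (nat_lit 195) (nat_lit 185)) (XT.nd (nat_lit 78) (nat_lit 76) (nat_lit 0) (XT.lf (nat_lit 0) (nat_lit 552030476) (nat_lit 152) (nat_lit 485210840) (nat_lit 76) (nat_lit 77752820681) (nat_lit 3) (nat_lit 5) (nat_lit 5) (nat_lit 5) (nat_lit 4) (nat_lit 4) (nat_lit 401) (nat_lit 195) (nat_lit 184)) (XT.lf (nat_lit 0) (nat_lit 3019669474) (nat_lit 152) (nat_lit 76712370227) (nat_lit 0) (nat_lit 1342426558) (nat_lit 2) (nat_lit 5) (nat_lit 4) (nat_lit 4) (nat_lit 2) (nat_lit 4) (nat_lit 402) (nat_lit 195) (nat_lit 183))))) (XT.nd (nat_lit 234) (nat_lit 0) (nat_lit 0) (XT.nd (nat_lit 78) (nat_lit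 0) (nat_lit 0) (XT.lf (nat_lit 0) (nat_lit 5531475613) (nat_lit 152) (nat_lit 74157342189) (nat_lit 0) (nat_lit 3739492859) (nat_lit 2) (nat_lit 5) (nat_lit 4) (nat_lit 4) (nat_lit 2) (nat_lit 4) (nat_lit 403) (nat_lit 195) (nat_lit 182)) (XT.nd (nat_lit 78) (nat_lit 0) (nat_lit 0) (XT.lf (nat_lit 0) (nat_lit 8074869012) (nat_lit 152) (nat_lit 71607737835) (nat_lit 0) (nat_lit 6171488356) (nat_lit 2) (nat_lit 5) (nat_lit 4) (nat_lit 4) (nat_lit 2) (nat_lit 4) (nat_lit 404) (nat_lit 195) (nat_lit 181)) (XT.lf (nat_lit 0) (nat_lit 10652072051) (nat_lit 152) (nat_lit 69061329355) (nat_lit 0) (nat_lit 8640538093) (nat_lit 2) (nat_lit 5) (nat_lit 4) (nat_lit 4) (nat_lit 2) (nat_lit 4) (nat_lit 405) (nat_lit 195) (nat_lit 180)))) (XT.nd (nat_lit 156) (nat_lit 0) (nat_lit 0) (XT.nd (nat_lit 78) (nat_lit 0) (nat_lit 0) (XT.lf (nat_lit 0) (nat_lit 13265336657) (nat_lit 152) (nat_lit 66515891732) (nat_lit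 0) (nat_lit 11148799493) (nat_lit 2) (nat_lit 5) (nat_lit 4) (nat_lit 4) (nat_lit 2) (nat_lit 4) (nat_lit 406) (nat_lit 195) (nat_lit 179)) (XT.lf (nat_lit 0) (nat_lit 15916946265) (nat_lit 152) (nat_lit 63969200798) (nat_lit 0) (nat_lit 13698464240) (nat_lit 2) (nat_lit 5) (nat_lit 4) (nat_lit 4) (nat_lit 2) (nat_lit 4) (nat_lit 407) (nat_lit 195) (nat_lit 178))) (XT.nd (nat_lit 78) (nat_lit 0) (nat_lit 0) (XT.lf (nat_lit 0) (nat_lit 18609217813) (nat_lit 152) (nat_lit 61419031288) (nat_lit 0) (nat_lit 16291760196) (nat_lit 2) (nat_lit 5) (nat_lit 4) (nat_lit 4) (nat_lit 2) (nat_lit 4) (nat_lit 408) (nat_lit 195) (nat_lit 177)) (XT.lf (nat_lit 0) (nat_lit 21344503774) (nat_lit 152) (nat_lit 58863154899) (nat_lit 0) (nat_lit 18930953348) (nat_lit 2) (nat_lit 5) (nat_lit 4) (nat_lit 4) (nat_lit 2) (nat_lit 4) (nat_lit 409) (nat_lit 195) (nat_lit 176)))))) (XT.nd (nat_lit 39312) (nat_lit 0) (nat_lit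 152) (XT.nd (nat_lit 39078) (nat_lit 0) (nat_lit 152) (XT.nd (nat_lit 38922) (nat_lit 0) (nat_lit 152) (XT.lf (nat_lit 0) (nat_lit 24125194203) (nat_lit 152) (nat_lit 56299338342) (nat_lit 0) (nat_lit 21618349788) (nat_lit 2) (nat_lit 5) (nat_lit 4) (nat_lit 4) (nat_lit 2) (nat_lit 4) (nat_lit 410) (nat_lit 195) (nat_lit 175)) (XT.nd (nat_lit 78) (nat_lit 76) (nat_lit 0) (XT.lf (nat_lit 0) (nat_lit 12553921884) (nat_lit 152) (nat_lit 2186980575) (nat_lit 0) (nat_lit 12553921884) (nat_lit 5) (nat_lit 5) (nat_lit 7) (nat_lit 4) (nat_lit 5) (nat_lit 4) (nat_lit 388) (nat_lit 196) (nat_lit 196)) (XT.lf (nat_lit 0) (nat_lit 1385003337) (nat_lit 76) (nat_lit 27460041845) (nat_lit 76) (nat_lit 27286487544) (nat_lit 4) (nat_lit 4) (nat_lit 5) (nat_lit 5) (nat_lit 5) (nat_lit 4) (nat_lit 389) (nat_lit 196) (nat_lit 195)))) (XT.nd (nat_lit 78) (nat_lit 0) (nat_lit 0) (XT.lf (nat_lit 0) (nat_lit 7290854360)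 (nat_lit 76) (nat_lit 25385712140) (nat_lit 76) (nat_lit 25043658518) (nat_lit 4) (nat_lit 4) (nat_lit 5) (nat_lit 5) (nat_lit 5) (nat_lit 4) (nat_lit 390) (nat_lit 196) (nat_lit 194)) (XT.nd (nat_lit 78) (nat_lit 0) (nat_lit 0) (XT.lf (nat_lit 0) (nat_lit 13261701966) (nat_lit 76) (nat_lit 23301171713) (nat_lit 76) (nat_lit 22795526517) (nat_lit 4) (nat_lit 4) (nat_lit 5) (nat_lit 5) (nat_lit 5) (nat_lit 4) (nat_lit 391) (nat_lit 196) (nat_lit 193)) (XT.lf (nat_lit 0) (nat_lit 19302763401) (nat_lit 76) (nat_lit 21204599123) (nat_lit 76) (nat_lit 20540127156) (nat_lit 4) (nat_lit 4) (nat_lit 5) (nat_lit 5) (nat_lit 5) (nat_lit 4) (nat_lit 392) (nat_lit 196) (nat_lit 192))))) (XT.nd (nat_lit 234) (nat_lit 0) (nat_lit 0) (XT.nd (nat_lit 78) (nat_lit 0) (nat_lit 0) (XT.lf (nat_lit 0) (nat_lit 25419317262) (nat_lit 76) (nat_lit 19094162411) (nat_lit 76) (nat_lit 18275489696) (nat_lit 4) (nat_lit 4)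 (nat_lit 5) (nat_lit 5) (nat_lit 5) (nat_lit 4) (nat_lit 393) (nat_lit 196) (nat_lit 191)) (XT.nd (nat_lit 78) (nat_lit 0) (nat_lit 0) (XT.lf (nat_lit 0) (nat_lit 31616708110) (nat_lit 76) (nat_lit 16968017508) (nat_lit 76) (nat_lit 15999635329) (nat_lit 4) (nat_lit 4) (nat_lit 5) (nat_lit 5) (nat_lit 5) (nat_lit 4) (nat_lit 394) (nat_lit 196) (nat_lit 190)) (XT.lf (nat_lit 0) (nat_lit 37900351142) (nat_lit 76) (nat_lit 14824306618) (nat_lit 76) (nat_lit 13710575443) (nat_lit 4) (nat_lit 4) (nat_lit 5) (nat_lit 5) (nat_lit 5) (nat_lit 4) (nat_lit 395) (nat_lit 196) (nat_lit 189)))) (XT.nd (nat_lit 156) (nat_lit 0) (nat_lit 0) (XT.nd (nat_lit 78) (nat_lit 0) (nat_lit 0) (XT.lf (nat_lit 0) (nat_lit 44275736920) (nat_lit 76) (nat_lit 12661156593) (nat_lit 76) (nat_lit 11406309890) (nat_lit 4) (nat_lit 4) (nat_lit 5) (nat_lit 5) (nat_lit 5) (nat_lit 4) (nat_lit 396) (nat_lit 196) (nat_lit 188)) (XT.lf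 (nat_lit 0) (nat_lit 50748436168) (nat_lit 76) (nat_lit 10476677304) (nat_lit 76) (nat_lit 9084825234) (nat_lit 4) (nat_lit 4) (nat_lit 5) (nat_lit 5) (nat_lit 5) (nat_lit 4) (nat_lit 397) (nat_lit 196) (nat_lit 187))) (XT.nd (nat_lit 78) (nat_lit 0) (nat_lit 0) (XT.lf (nat_lit 0) (nat_lit 57324104644) (nat_lit 76) (nat_lit 8268959982) (nat_lit 76) (nat_lit 6744092992) (nat_lit 4) (nat_lit 4) (nat_lit 5) (nat_lit 5) (nat_lit 5) (nat_lit 4) (nat_lit 398) (nat_lit 196) (nat_lit 186)) (XT.lf (nat_lit 0) (nat_lit 64008488077) (nat_lit 76) (nat_lit 6036075554) (nat_lit 76) (nat_lit 4382067864) (nat_lit 4) (nat_lit 4) (nat_lit 5) (nat_lit 5) (nat_lit 5) (nat_lit 4) (nat_lit 399) (nat_lit 196) (nat_lit 185))))))) (XT.nd (nat_lit 39702) (nat_lit 0) (nat_lit 76) (XT.nd (nat_lit 468) (nat_lit 0) (nat_lit 0) (XT.nd (nat_lit 234) (nat_lit 0) (nat_lit 0) (XT.nd (nat_lit 78) (nat_lit 152) (nat_lit 0) (XT.lf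 (nat_lit 0) (nat_lit 70807427190) (nat_lit 76) (nat_lit 3776072955) (nat_lit 76) (nat_lit 1996685946) (nat_lit 4) (nat_lit 4) (nat_lit 5) (nat_lit 5) (nat_lit 5) (nat_lit 4) (nat_lit 400) (nat_lit 196) (nat_lit 184)) (XT.nd (nat_lit 78) (nat_lit 76) (nat_lit 0) (XT.lf (nat_lit 0) (nat_lit 406055770) (nat_lit 152) (nat_lit 1076821289) (nat_lit 76) (nat_lit 77316706667) (nat_lit 3) (nat_lit 5) (nat_lit 5) (nat_lit 5) (nat_lit 4) (nat_lit 4) (nat_lit 401) (nat_lit 196) (nat_lit 183)) (XT.lf (nat_lit 0) (nat_lit 2841346651) (nat_lit 152) (nat_lit 77362753191) (nat_lit 0) (nat_lit 880864576) (nat_lit 2) (nat_lit 5) (nat_lit 4) (nat_lit 4) (nat_lit 2) (nat_lit 4) (nat_lit 402) (nat_lit 196) (nat_lit 182)))) (XT.nd (nat_lit 78) (nat_lit 0) (nat_lit 0) (XT.lf (nat_lit 0) (nat_lit 5331592729) (nat_lit 152) (nat_lit 74848155953) (nat_lit 0) (nat_lit 3259712752) (nat_lit 2) (nat_lit 5) (nat_lit 4) (nat_lit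 4) (nat_lit 2) (nat_lit 4) (nat_lit 403) (nat_lit 196) (nat_lit 181)) (XT.nd (nat_lit 78) (nat_lit 0) (nat_lit 0) (XT.lf (nat_lit 0) (nat_lit 7854054029) (nat_lit 152) (nat_lit 72337804804) (nat_lit 0) (nat_lit 5674020749) (nat_lit 2) (nat_lit 5) (nat_lit 4) (nat_lit 4) (nat_lit 2) (nat_lit 4) (nat_lit 404) (nat_lit 196) (nat_lit 180)) (XT.lf (nat_lit 0) (nat_lit 10410934642) (nat_lit 152) (nat_lit 69829506231) (nat_lit 0) (nat_lit 8125898156) (nat_lit 2) (nat_lit 5) (nat_lit 4) (nat_lit 4) (nat_lit 2) (nat_lit 4) (nat_lit 405) (nat_lit 196) (nat_lit 179))))) (XT.nd (nat_lit 234) (nat_lit 0) (nat_lit 0) (XT.nd (nat_lit 78) (nat_lit 0) (nat_lit 0) (XT.lf (nat_lit 0) (nat_lit 13004468737) (nat_lit 152) (nat_lit 67321068518) (nat_lit 0) (nat_lit 10617487391) (nat_lit 2) (nat_lit 5) (nat_lit 4) (nat_lit 4) (nat_lit 2) (nat_lit 4) (nat_lit 406) (nat_lit 196) (nat_lit 178)) (XT.nd (nat_lit 78) (nat_lit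 0) (nat_lit 0) (XT.lf (nat_lit 0) (nat_lit 15636922509) (nat_lit 152) (nat_lit 64810299826) (nat_lit 0) (nat_lit 13150965570) (nat_lit 2) (nat_lit 5) (nat_lit 4) (nat_lit 4) (nat_lit 2) (nat_lit 4) (nat_lit 407) (nat_lit 196) (nat_lit 177)) (XT.lf (nat_lit 0) (nat_lit 18310596159) (nat_lit 152) (nat_lit 62295006280) (nat_lit 0) (nat_lit 15728546412) (nat_lit 2) (nat_lit 5) (nat_lit 4) (nat_lit 4) (nat_lit 2) (nat_lit 4) (nat_lit 408) (nat_lit 196) (nat_lit 176)))) (XT.nd (nat_lit 38844) (nat_lit 0) (nat_lit 228) (XT.nd (nat_lit 78) (nat_lit 0) (nat_lit 0) (XT.lf (nat_lit 0) (nat_lit 21027825908) (nat_lit 152) (nat_lit 59772990051) (nat_lit 0) (nat_lit 18352482172) (nat_lit 2) (nat_lit 5) (nat_lit 4) (nat_lit 4) (nat_lit 2) (nat_lit 4) (nat_lit 409) (nat_lit 196) (nat_lit 175)) (XT.lf (nat_lit 0) (nat_lit 23790986033) (nat_lit 152) (nat_lit 57242047434) (nat_lit 0) (nat_lit 21025065609) (nat_lit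 2) (nat_lit 5) (nat_lit 4) (nat_lit 4) (nat_lit 2) (nat_lit 4) (nat_lit 410) (nat_lit 196) (nat_lit 174))) (XT.nd (nat_lit 78) (nat_lit 0) (nat_lit 0) (XT.lf (nat_lit 0) (nat_lit 9005123043) (nat_lit 152) (nat_lit 7811306233) (nat_lit 0) (nat_lit 9005123043) (nat_lit 5) (nat_lit 5) (nat_lit 7) (nat_lit 4) (nat_lit 5) (nat_lit 4) (nat_lit 386) (nat_lit 197) (nat_lit 197)) (XT.lf (nat_lit 0) (nat_lit 21610325650) (nat_lit 152) (nat_lit 10052239214) (nat_lit 0) (nat_lit 21431564720) (nat_lit 5) (nat_lit 5) (nat_lit 7) (nat_lit 4) (nat_lit 5) (nat_lit 4) (nat_lit 387) (nat_lit 197) (nat_lit 196)))))) (XT.nd (nat_lit 546) (nat_lit 76) (nat_lit 0) (XT.nd (nat_lit 234) (nat_lit 0) (nat_lit 0) (XT.nd (nat_lit 78) (nat_lit 76) (nat_lit 0) (XT.lf (nat_lit 0) (nat_lit 25255728095) (nat_lit 152) (nat_lit 4431443082) (nat_lit 0) (nat_lit 24903412864) (nat_lit 5) (nat_lit 5) (nat_lit 7) (nat_lit 4) (nat_lit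 5) (nat_lit 4) (nat_lit 388) (nat_lit 197) (nat_lit 195)) (XT.nd (nat_lit 78) (nat_lit 0) (nat_lit 0) (XT.lf (nat_lit 0) (nat_lit 1269459021) (nat_lit 76) (nat_lit 27692382520) (nat_lit 76) (nat_lit 27171567969) (nat_lit 4) (nat_lit 4) (nat_lit 5) (nat_lit 5) (nat_lit 5) (nat_lit 4) (nat_lit 389) (nat_lit 197) (nat_lit 194)) (XT.lf (nat_lit 0) (nat_lit 7120049479) (nat_lit 76) (nat_lit 25643678022) (nat_lit 76) (nat_lit 24959271896) (nat_lit 4) (nat_lit 4) (nat_lit 5) (nat_lit 5) (nat_lit 5) (nat_lit 4) (nat_lit 390) (nat_lit 197) (nat_lit 193)))) (XT.nd (nat_lit 156) (nat_lit 0) (nat_lit 0) (XT.nd (nat_lit 78) (nat_lit 0) (nat_lit 0) (XT.lf (nat_lit 0) (nat_lit 13037246051) (nat_lit 76) (nat_lit 23584016437) (nat_lit 76) (nat_lit 22740783540) (nat_lit 4) (nat_lit 4) (nat_lit 5) (nat_lit 5) (nat_lit 5) (nat_lit 4) (nat_lit 391) (nat_lit 197) (nat_lit 192)) (XT.lf (nat_lit 0) (nat_lit 19026219103)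 (nat_lit 76) (nat_lit 21511598062) (nat_lit 76) (nat_lit 20514164417) (nat_lit 4) (nat_lit 4) (nat_lit 5) (nat_lit 5) (nat_lit 5) (nat_lit 4) (nat_lit 392) (nat_lit 197) (nat_lit 191))) (XT.nd (nat_lit 78) (nat_lit 0) (nat_lit 0) (XT.lf (nat_lit 0) (nat_lit 25092201718) (nat_lit 76) (nat_lit 19424612045) (nat_lit 76) (nat_lit 18277468936) (nat_lit 4) (nat_lit 4) (nat_lit 5) (nat_lit 5) (nat_lit 5) (nat_lit 4) (nat_lit 393) (nat_lit 197) (nat_lit 190)) (XT.lf (nat_lit 0) (nat_lit 31240494270) (nat_lit 76) (nat_lit 17321234807) (nat_lit 76) (nat_lit 16028742703) (nat_lit 4) (nat_lit 4) (nat_lit 5) (nat_lit 5) (nat_lit 5) (nat_lit 4) (nat_lit 394) (nat_lit 197) (nat_lit 189))))) (XT.nd (nat_lit 234) (nat_lit 76) (nat_lit 0) (XT.nd (nat_lit 78) (nat_lit 0) (nat_lit 0) (XT.lf (nat_lit 0) (nat_lit 37476469053) (nat_lit 76) (nat_lit 15199628445) (nat_lit 76) (nat_lit 13766020812) (nat_lit 4) (nat_lit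 4) (nat_lit 5) (nat_lit 5) (nat_lit 5) (nat_lit 4) (nat_lit 395) (nat_lit 197) (nat_lit 188)) (XT.nd (nat_lit 78) (nat_lit 0) (nat_lit 0) (XT.lf (nat_lit 0) (nat_lit 43805574977) (nat_lit 76) (nat_lit 13057939128) (nat_lit 76) (nat_lit 11487326127) (nat_lit 4) (nat_lit 4) (nat_lit 5) (nat_lit 5) (nat_lit 5) (nat_lit 4) (nat_lit 396) (nat_lit 197) (nat_lit 187)) (XT.lf (nat_lit 0) (nat_lit 50233342329) (nat_lit 76) (nat_lit 10894295477) (nat_lit 76) (nat_lit 9190667556) (nat_lit 4) (nat_lit 4) (nat_lit 5) (nat_lit 5) (nat_lit 5) (nat_lit 4) (nat_lit 397) (nat_lit 197) (nat_lit 186)))) (XT.nd (nat_lit 156) (nat_lit 76) (nat_lit 0) (XT.nd (nat_lit 78) (nat_lit 0) (nat_lit 0) (XT.lf (nat_lit 0) (nat_lit 56765387604) (nat_lit 76) (nat_lit 8706806930) (nat_lit 76) (nat_lit 6874038310) (nat_lit 4) (nat_lit 4) (nat_lit 5) (nat_lit 5) (nat_lit 5) (nat_lit 4) (nat_lit 398) (nat_lit 197) (nat_lit 185)) (XT.lf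 (nat_lit 0) (nat_lit 63407418415) (nat_lit 76) (nat_lit 6493562089) (nat_lit 76) (nat_lit 4535414150) (nat_lit 4) (nat_lit 4) (nat_lit 5) (nat_lit 5) (nat_lit 5) (nat_lit 4) (nat_lit 399) (nat_lit 197) (nat_lit 184))) (XT.nd (nat_lit 78) (nat_lit 76) (nat_lit 0) (XT.lf (nat_lit 0) (nat_lit 70165238478) (nat_lit 76) (nat_lit 4252627051) (nat_lit 76) (nat_lit 2172751617) (nat_lit 4) (nat_lit 4) (nat_lit 5) (nat_lit 5) (nat_lit 5) (nat_lit 4) (nat_lit 400) (nat_lit 197) (nat_lit 183)) (XT.lf (nat_lit 0) (nat_lit 211798543) (nat_lit 152) (nat_lit 1768106424) (nat_lit 76) (nat_lit 76830815391) (nat_lit 3) (nat_lit 5) (nat_lit 5) (nat_lit 5) (nat_lit 4) (nat_lit 4) (nat_lit 401) (nat_lit 197) (nat_lit 182))))))))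
noncomputable def xc3 : XT := (XT.nd (nat_lit 40560) (nat_lit 0) (nat_lit 0) (XT.nd (nat_lit 39546) (nat_lit 0) (nat_lit 152) (XT.nd (nat_lit 468) (nat_lit 0) (nat_lit 0) (XT.nd (nat_lit 234) (nat_lit 0) (nat_lit 0) (XT.nd (nat_lit 78) (nat_lit 0) (nat_lit 0) (XT.lf (nat_lit 0) (nat_lit 2613907219) (nat_lit 152) (nat_lit 78114722169) (nat_lit 0) (nat_lit 368472941) (nat_lit 2) (nat_lit 5) (nat_lit 4) (nat_lit 4) (nat_lit 2) (nat_lit 4) (nat_lit 402) (nat_lit 197) (nat_lit 181)) (XT.nd (nat_lit 78) (nat_lit 0) (nat_lit 0) (XT.lf (nat_lit 0) (nat_lit 5083221198) (nat_lit 152) (nat_lit 75639378136) (nat_lit 0) (nat_lit 2729633617) (nat_lit 2) (nat_lit 5) (nat_lit 4) (nat_lit 4) (nat_lit 2) (nat_lit 4) (nat_lit 403) (nat_lit 197) (nat_lit 180)) (XT.lf (nat_lit 0) (nat_lit 7585360071) (nat_lit 152) (nat_lit 73167136893) (nat_lit 0) (nat_lit 5126769284) (nat_lit 2) (nat_lit 5) (nat_lit 4) (nat_lit 4)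 (nat_lit 2) (nat_lit 4) (nat_lit 404) (nat_lit 197) (nat_lit 179)))) (XT.nd (nat_lit 78) (nat_lit 0) (nat_lit 0) (XT.lf (nat_lit 0) (nat_lit 10122510174) (nat_lit 152) (nat_lit 70695838230) (nat_lit 0) (nat_lit 7561974527) (nat_lit 2) (nat_lit 5) (nat_lit 4) (nat_lit 4) (nat_lit 2) (nat_lit 4) (nat_lit 405) (nat_lit 197) (nat_lit 178)) (XT.nd (nat_lit 78) (nat_lit 0) (nat_lit 0) (XT.lf (nat_lit 0) (nat_lit 12696888433) (nat_lit 152) (nat_lit 68223322760) (nat_lit 0) (nat_lit 10037377194) (nat_lit 2) (nat_lit 5) (nat_lit 4) (nat_lit 4) (nat_lit 2) (nat_lit 4) (nat_lit 406) (nat_lit 197) (nat_lit 177)) (XT.lf (nat_lit 0) (nat_lit 15310744306) (nat_lit 152) (nat_lit 65747430032) (nat_lit 0) (nat_lit 12555140258) (nat_lit 2) (nat_lit 5) (nat_lit 4) (nat_lit 4) (nat_lit 2) (nat_lit 4) (nat_lit 407) (nat_lit 197) (nat_lit 176))))) (XT.nd (nat_lit 38766) (nat_lit 0) (nat_lit 228) (XT.nd (nat_lit 78)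 (nat_lit 0) (nat_lit 0) (XT.lf (nat_lit 0) (nat_lit 17966361744) (nat_lit 152) (nat_lit 63265996645) (nat_lit 0) (nat_lit 15117463707) (nat_lit 2) (nat_lit 5) (nat_lit 4) (nat_lit 4) (nat_lit 2) (nat_lit 4) (nat_lit 408) (nat_lit 197) (nat_lit 175)) (XT.nd (nat_lit 78) (nat_lit 0) (nat_lit 0) (XT.lf (nat_lit 0) (nat_lit 20666061189) (nat_lit 152) (nat_lit 60776854356) (nat_lit 0) (nat_lit 17726586464) (nat_lit 2) (nat_lit 5) (nat_lit 4) (nat_lit 4) (nat_lit 2) (nat_lit 4) (nat_lit 409) (nat_lit 197) (nat_lit 174)) (XT.lf (nat_lit 0) (nat_lit 23412201603) (nat_lit 152) (nat_lit 58277828186) (nat_lit 0) (nat_lit 20384788346) (nat_lit 2) (nat_lit 5) (nat_lit 4) (nat_lit 4) (nat_lit 2) (nat_lit 4) (nat_lit 410) (nat_lit 197) (nat_lit 173)))) (XT.nd (nat_lit 156) (nat_lit 0) (nat_lit 0) (XT.nd (nat_lit 78) (nat_lit 0) (nat_lit 0) (XT.lf (nat_lit 0) (nat_lit 5575195203) (nat_lit 152) (nat_lit 13285268609)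 (nat_lit 0) (nat_lit 5575195203) (nat_lit 5) (nat_lit 5) (nat_lit 7) (nat_lit 4) (nat_lit 5) (nat_lit 4) (nat_lit 384) (nat_lit 198) (nat_lit 198)) (XT.lf (nat_lit 0) (nat_lit 14636467464) (nat_lit 152) (nat_lit 21147430158) (nat_lit 0) (nat_lit 14452343706) (nat_lit 5) (nat_lit 5) (nat_lit 7) (nat_lit 4) (nat_lit 5) (nat_lit 4) (nat_lit 385) (nat_lit 198) (nat_lit 197))) (XT.nd (nat_lit 78) (nat_lit 0) (nat_lit 0) (XT.lf (nat_lit 0) (nat_lit 18162566943) (nat_lit 152) (nat_lit 15681818856) (nat_lit 0) (nat_lit 17799682256) (nat_lit 5) (nat_lit 5) (nat_lit 7) (nat_lit 4) (nat_lit 5) (nat_lit 4) (nat_lit 386) (nat_lit 198) (nat_lit 196)) (XT.lf (nat_lit 0) (nat_lit 21731769903) (nat_lit 152) (nat_lit 10168927533) (nat_lit 0) (nat_lit 21195330915) (nat_lit 5) (nat_lit 5) (nat_lit 7) (nat_lit 4) (nat_lit 5) (nat_lit 4) (nat_lit 387) (nat_lit 198) (nat_lit 195)))))) (XT.nd (nat_lit 468) (nat_lit 0)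 (nat_lit 0) (XT.nd (nat_lit 234) (nat_lit 0) (nat_lit 0) (XT.nd (nat_lit 78) (nat_lit 76) (nat_lit 0) (XT.lf (nat_lit 0) (nat_lit 25347195063) (nat_lit 152) (nat_lit 4603939100) (nat_lit 0) (nat_lit 24642256754) (nat_lit 5) (nat_lit 5) (nat_lit 7) (nat_lit 4) (nat_lit 5) (nat_lit 4) (nat_lit 388) (nat_lit 198) (nat_lit 194)) (XT.nd (nat_lit 78) (nat_lit 0) (nat_lit 0) (XT.lf (nat_lit 0) (nat_lit 1038269428) (nat_lit 76) (nat_lit 27983712586) (nat_lit 76) (nat_lit 27115182703) (nat_lit 4) (nat_lit 4) (nat_lit 5) (nat_lit 5) (nat_lit 5) (nat_lit 4) (nat_lit 389) (nat_lit 198) (nat_lit 193)) (XT.lf (nat_lit 0) (nat_lit 6835208851) (nat_lit 76) (nat_lit 25959886929) (nat_lit 76) (nat_lit 24932530275) (nat_lit 4) (nat_lit 4) (nat_lit 5) (nat_lit 5) (nat_lit 5) (nat_lit 4) (nat_lit 390) (nat_lit 198) (nat_lit 192)))) (XT.nd (nat_lit 78) (nat_lit 0) (nat_lit 0) (XT.lf (nat_lit 0) (nat_lit 12700317041)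 (nat_lit 76) (nat_lit 23924379560) (nat_lit 76) (nat_lit 22742822157) (nat_lit 4) (nat_lit 4) (nat_lit 5) (nat_lit 5) (nat_lit 5) (nat_lit 4) (nat_lit 391) (nat_lit 198) (nat_lit 191)) (XT.nd (nat_lit 78) (nat_lit 0) (nat_lit 0) (XT.lf (nat_lit 0) (nat_lit 18638718847) (nat_lit 76) (nat_lit 21875411879) (nat_lit 76) (nat_lit 20544145012) (nat_lit 4) (nat_lit 4) (nat_lit 5) (nat_lit 5) (nat_lit 5) (nat_lit 4) (nat_lit 392) (nat_lit 198) (nat_lit 190)) (XT.lf (nat_lit 0) (nat_lit 24655603166) (nat_lit 76) (nat_lit 19811193527) (nat_lit 76) (nat_lit 18334577665) (nat_lit 4) (nat_lit 4) (nat_lit 5) (nat_lit 5) (nat_lit 5) (nat_lit 4) (nat_lit 393) (nat_lit 198) (nat_lit 189))))) (XT.nd (nat_lit 234) (nat_lit 0) (nat_lit 0) (XT.nd (nat_lit 78) (nat_lit 0) (nat_lit 0) (XT.lf (nat_lit 0) (nat_lit 30756227469) (nat_lit 76) (nat_lit 17729920817) (nat_lit 76) (nat_lit 16112189427) (nat_lit 4) (nat_lit 4)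 (nat_lit 5) (nat_lit 5) (nat_lit 5) (nat_lit 4) (nat_lit 394) (nat_lit 198) (nat_lit 188)) (XT.nd (nat_lit 78) (nat_lit 0) (nat_lit 0) (XT.lf (nat_lit 0) (nat_lit 36945922399) (nat_lit 76) (nat_lit 15629775162) (nat_lit 76) (nat_lit 13875038404) (nat_lit 4) (nat_lit 4) (nat_lit 5) (nat_lit 5) (nat_lit 5) (nat_lit 4) (nat_lit 395) (nat_lit 198) (nat_lit 187)) (XT.lf (nat_lit 0) (nat_lit 43230096426) (nat_lit 76) (nat_lit 13508921484) (nat_lit 76) (nat_lit 11621169805) (nat_lit 4) (nat_lit 4) (nat_lit 5) (nat_lit 5) (nat_lit 5) (nat_lit 4) (nat_lit 396) (nat_lit 198) (nat_lit 186)))) (XT.nd (nat_lit 156) (nat_lit 0) (nat_lit 0) (XT.nd (nat_lit 78) (nat_lit 0) (nat_lit 0) (XT.lf (nat_lit 0) (nat_lit 49614240577) (nat_lit 76) (nat_lit 11365506608) (nat_lit 76) (nat_lit 9348614231) (nat_lit 4) (nat_lit 4) (nat_lit 5) (nat_lit 5) (nat_lit 5) (nat_lit 4) (nat_lit 397) (nat_lit 198) (nat_lit 185)) (XT.lf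 (nat_lit 0) (nat_lit 56103933231) (nat_lit 76) (nat_lit 9197657649) (nat_lit 76) (nat_lit 7055385952) (nat_lit 4) (nat_lit 4) (nat_lit 5) (nat_lit 5) (nat_lit 5) (nat_lit 4) (nat_lit 398) (nat_lit 198) (nat_lit 184))) (XT.nd (nat_lit 78) (nat_lit 0) (nat_lit 0) (XT.lf (nat_lit 0) (nat_lit 62704844991) (nat_lit 76) (nat_lit 7003480368) (nat_lit 76) (nat_lit 4739481177) (nat_lit 4) (nat_lit 4) (nat_lit 5) (nat_lit 5) (nat_lit 5) (nat_lit 4) (nat_lit 399) (nat_lit 198) (nat_lit 183)) (XT.lf (nat_lit 0) (nat_lit 69422743646) (nat_lit 76) (nat_lit 4781057525) (nat_lit 76) (nat_lit 2398876300) (nat_lit 4) (nat_lit 4) (nat_lit 5) (nat_lit 5) (nat_lit 5) (nat_lit 4) (nat_lit 400) (nat_lit 198) (nat_lit 182))))))) (XT.nd (nat_lit 39390) (nat_lit 0) (nat_lit 152) (XT.nd (nat_lit 468) (nat_lit 0) (nat_lit 0) (XT.nd (nat_lit 234) (nat_lit 0) (nat_lit 0) (XT.nd (nat_lit 78) (nat_lit 152) (nat_lit 0) (XT.lf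 (nat_lit 0) (nat_lit 76263499204) (nat_lit 76) (nat_lit 2528447196) (nat_lit 76) (nat_lit 31526132) (nat_lit 4) (nat_lit 4) (nat_lit 5) (nat_lit 5) (nat_lit 5) (nat_lit 4) (nat_lit 401) (nat_lit 198) (nat_lit 181)) (XT.nd (nat_lit 78) (nat_lit 0) (nat_lit 0) (XT.lf (nat_lit 0) (nat_lit 2139985277) (nat_lit 76) (nat_lit 199080851) (nat_lit 152) (nat_lit 78771767056) (nat_lit 2) (nat_lit 5) (nat_lit 3) (nat_lit 5) (nat_lit 4) (nat_lit 4) (nat_lit 402) (nat_lit 198) (nat_lit 180)) (XT.lf (nat_lit 0) (nat_lit 4786143995) (nat_lit 152) (nat_lit 76531700095) (nat_lit 0) (nat_lit 2148792279) (nat_lit 2) (nat_lit 5) (nat_lit 4) (nat_lit 4) (nat_lit 2) (nat_lit 4) (nat_lit 403) (nat_lit 198) (nat_lit 179)))) (XT.nd (nat_lit 78) (nat_lit 0) (nat_lit 0) (XT.lf (nat_lit 0) (nat_lit 7268552358) (nat_lit 152) (nat_lit 74096458762) (nat_lit 0) (nat_lit 4529255781) (nat_lit 2) (nat_lit 5) (nat_lit 4) (nat_lit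 4) (nat_lit 2) (nat_lit 4) (nat_lit 404) (nat_lit 198) (nat_lit 178)) (XT.nd (nat_lit 78) (nat_lit 0) (nat_lit 0) (XT.lf (nat_lit 0) (nat_lit 9786546625) (nat_lit 152) (nat_lit 71661082342) (nat_lit 0) (nat_lit 6948274455) (nat_lit 2) (nat_lit 5) (nat_lit 4) (nat_lit 4) (nat_lit 2) (nat_lit 4) (nat_lit 405) (nat_lit 198) (nat_lit 177)) (XT.lf (nat_lit 0) (nat_lit 12342326985) (nat_lit 152) (nat_lit 69223442836) (nat_lit 0) (nat_lit 9407962008) (nat_lit 2) (nat_lit 5) (nat_lit 4) (nat_lit 4) (nat_lit 2) (nat_lit 4) (nat_lit 406) (nat_lit 198) (nat_lit 176))))) (XT.nd (nat_lit 234) (nat_lit 0) (nat_lit 0) (XT.nd (nat_lit 78) (nat_lit 0) (nat_lit 0) (XT.lf (nat_lit 0) (nat_lit 14938126646) (nat_lit 152) (nat_lit 66781410267) (nat_lit 0) (nat_lit 11910467679) (nat_lit 2) (nat_lit 5) (nat_lit 4) (nat_lit 4) (nat_lit 2) (nat_lit 4) (nat_lit 407) (nat_lit 198) (nat_lit 175)) (XT.nd (nat_lit 78) (nat_lit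 0) (nat_lit 0) (XT.lf (nat_lit 0) (nat_lit 17576213780) (nat_lit 152) (nat_lit 64332850820) (nat_lit 0) (nat_lit 14457978126) (nat_lit 2) (nat_lit 5) (nat_lit 4) (nat_lit 4) (nat_lit 2) (nat_lit 4) (nat_lit 408) (nat_lit 198) (nat_lit 174)) (XT.lf (nat_lit 0) (nat_lit 20258893514) (nat_lit 152) (nat_lit 61875624979) (nat_lit 0) (nat_lit 17052719327) (nat_lit 2) (nat_lit 5) (nat_lit 4) (nat_lit 4) (nat_lit 2) (nat_lit 4) (nat_lit 409) (nat_lit 198) (nat_lit 173)))) (XT.nd (nat_lit 38532) (nat_lit 0) (nat_lit 228) (XT.nd (nat_lit 38454) (nat_lit 0) (nat_lit 228) (XT.lf (nat_lit 0) (nat_lit 22988509935) (nat_lit 152) (nat_lit 59407585651) (nat_lit 0) (nat_lit 19696958533) (nat_lit 2) (nat_lit 5) (nat_lit 4) (nat_lit 4) (nat_lit 2) (nat_lit 4) (nat_lit 410) (nat_lit 198) (nat_lit 172)) (XT.lf (nat_lit 0) (nat_lit 2254769344) (nat_lit 152) (nat_lit 18622674050) (nat_lit 0) (nat_lit 2254769344) (nat_lit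 5) (nat_lit 5) (nat_lit 7) (nat_lit 4) (nat_lit 5) (nat_lit 4) (nat_lit 382) (nat_lit 199) (nat_lit 199))) (XT.nd (nat_lit 78) (nat_lit 0) (nat_lit 0) (XT.lf (nat_lit 0) (nat_lit 7890937154) (nat_lit 152) (nat_lit 31955878672) (nat_lit 0) (nat_lit 7701289684) (nat_lit 5) (nat_lit 5) (nat_lit 7) (nat_lit 4) (nat_lit 5) (nat_lit 4) (nat_lit 383) (nat_lit 199) (nat_lit 198)) (XT.lf (nat_lit 0) (nat_lit 11307280888) (nat_lit 152) (nat_lit 26631519798) (nat_lit 0) (nat_lit 10933509660) (nat_lit 5) (nat_lit 5) (nat_lit 7) (nat_lit 4) (nat_lit 5) (nat_lit 4) (nat_lit 384) (nat_lit 199) (nat_lit 197)))))) (XT.nd (nat_lit 546) (nat_lit 0) (nat_lit 0) (XT.nd (nat_lit 234) (nat_lit 76) (nat_lit 0) (XT.nd (nat_lit 78) (nat_lit 0) (nat_lit 0) (XT.lf (nat_lit 0) (nat_lit 14761555045) (nat_lit 152) (nat_lit 21267619127) (nat_lit 0) (nat_lit 14209022887) (nat_lit 5) (nat_lit 5) (nat_lit 7) (nat_lit 4) (nat_lit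 5) (nat_lit 4) (nat_lit 385) (nat_lit 199) (nat_lit 196)) (XT.nd (nat_lit 78) (nat_lit 0) (nat_lit 0) (XT.lf (nat_lit 0) (nat_lit 18256777921) (nat_lit 152) (nat_lit 15859489755) (nat_lit 0) (nat_lit 17530691462) (nat_lit 5) (nat_lit 5) (nat_lit 7) (nat_lit 4) (nat_lit 5) (nat_lit 4) (nat_lit 386) (nat_lit 199) (nat_lit 195)) (XT.lf (nat_lit 0) (nat_lit 21796003596) (nat_lit 152) (nat_lit 10402406132) (nat_lit 0) (nat_lit 20901417816) (nat_lit 5) (nat_lit 5) (nat_lit 7) (nat_lit 4) (nat_lit 5) (nat_lit 4) (nat_lit 387) (nat_lit 199) (nat_lit 194)))) (XT.nd (nat_lit 156) (nat_lit 0) (nat_lit 0) (XT.nd (nat_lit 78) (nat_lit 76) (nat_lit 0) (XT.lf (nat_lit 0) (nat_lit 25382324596) (nat_lit 152) (nat_lit 4891599932) (nat_lit 0) (nat_lit 24324147242) (nat_lit 5) (nat_lit 5) (nat_lit 7) (nat_lit 4) (nat_lit 5) (nat_lit 4) (nat_lit 388) (nat_lit 199) (nat_lit 193)) (XT.lf (nat_lit 0) (nat_lit 691232548)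 (nat_lit 76) (nat_lit 28334286603) (nat_lit 76) (nat_lit 27117282478) (nat_lit 4) (nat_lit 4) (nat_lit 5) (nat_lit 5) (nat_lit 5) (nat_lit 4) (nat_lit 389) (nat_lit 199) (nat_lit 192))) (XT.nd (nat_lit 78) (nat_lit 0) (nat_lit 0) (XT.lf (nat_lit 0) (nat_lit 6436083588) (nat_lit 76) (nat_lit 26334615161) (nat_lit 76) (nat_lit 24963410288) (nat_lit 4) (nat_lit 4) (nat_lit 5) (nat_lit 5) (nat_lit 5) (nat_lit 4) (nat_lit 390) (nat_lit 199) (nat_lit 191)) (XT.lf (nat_lit 0) (nat_lit 12250620532) (nat_lit 76) (nat_lit 24322558486) (nat_lit 76) (nat_lit 22801644148) (nat_lit 4) (nat_lit 4) (nat_lit 5) (nat_lit 5) (nat_lit 5) (nat_lit 4) (nat_lit 391) (nat_lit 199) (nat_lit 190))))) (XT.nd (nat_lit 234) (nat_lit 0) (nat_lit 0) (XT.nd (nat_lit 78) (nat_lit 0) (nat_lit 0) (XT.lf (nat_lit 0) (nat_lit 18139924042) (nat_lit 76) (nat_lit 22296358470) (nat_lit 76) (nat_lit 20630095138) (nat_lit 4) (nat_lit 4)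 (nat_lit 5) (nat_lit 5) (nat_lit 5) (nat_lit 4) (nat_lit 392) (nat_lit 199) (nat_lit 189)) (XT.nd (nat_lit 78) (nat_lit 0) (nat_lit 0) (XT.lf (nat_lit 0) (nat_lit 24109140112) (nat_lit 76) (nat_lit 20254244646) (nat_lit 76) (nat_lit 18446865785) (nat_lit 4) (nat_lit 4) (nat_lit 5) (nat_lit 5) (nat_lit 5) (nat_lit 4) (nat_lit 393) (nat_lit 199) (nat_lit 188)) (XT.lf (nat_lit 0) (nat_lit 30163484562) (nat_lit 76) (nat_lit 18194432644) (nat_lit 76) (nat_lit 16250048415) (nat_lit 4) (nat_lit 4) (nat_lit 5) (nat_lit 5) (nat_lit 5) (nat_lit 4) (nat_lit 394) (nat_lit 199) (nat_lit 187)))) (XT.nd (nat_lit 156) (nat_lit 0) (nat_lit 0) (XT.nd (nat_lit 78) (nat_lit 0) (nat_lit 0) (XT.lf (nat_lit 0) (nat_lit 36308247595) (nat_lit 76) (nat_lit 16115122628) (nat_lit 76) (nat_lit 14037723479) (nat_lit 4) (nat_lit 4) (nat_lit 5) (nat_lit 5) (nat_lit 5) (nat_lit 4) (nat_lit 395) (nat_lit 199) (nat_lit 186)) (XT.lf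 (nat_lit 0) (nat_lit 42548798422) (nat_lit 76) (nat_lit 14014497724) (nat_lit 76) (nat_lit 11807957876) (nat_lit 4) (nat_lit 4) (nat_lit 5) (nat_lit 5) (nat_lit 5) (nat_lit 4) (nat_lit 396) (nat_lit 199) (nat_lit 185))) (XT.nd (nat_lit 78) (nat_lit 0) (nat_lit 0) (XT.lf (nat_lit 0) (nat_lit 48890589951) (nat_lit 76) (nat_lit 11890722436) (nat_lit 76) (nat_lit 9558803268) (nat_lit 4) (nat_lit 4) (nat_lit 5) (nat_lit 5) (nat_lit 5) (nat_lit 4) (nat_lit 397) (nat_lit 199) (nat_lit 184)) (XT.lf (nat_lit 0) (nat_lit 55339163554) (nat_lit 76) (nat_lit 9741941037) (nat_lit 76) (nat_lit 7288294375) (nat_lit 4) (nat_lit 4) (nat_lit 5) (nat_lit 5) (nat_lit 5) (nat_lit 4) (nat_lit 398) (nat_lit 199) (nat_lit 183))))))))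
noncomputable def xc4 : XT := (XT.nd (nat_lit 40248) (nat_lit 0) (nat_lit 0) (XT.nd (nat_lit 39234) (nat_lit 0) (nat_lit 152) (XT.nd (nat_lit 468) (nat_lit 0) (nat_lit 0) (XT.nd (nat_lit 234) (nat_lit 152) (nat_lit 0) (XT.nd (nat_lit 78) (nat_lit 0) (nat_lit 0) (XT.lf (nat_lit 0) (nat_lit 61900153906) (nat_lit 76) (nat_lit 7566275951) (nat_lit 76) (nat_lit 4994447256) (nat_lit 4) (nat_lit 4) (nat_lit 5) (nat_lit 5) (nat_lit 5) (nat_lit 4) (nat_lit 399) (nat_lit 199) (nat_lit 182)) (XT.nd (nat_lit 78) (nat_lit 0) (nat_lit 0) (XT.lf (nat_lit 0) (nat_lit 68579293913) (nat_lit 76) (nat_lit 5361826113) (nat_lit 76) (nat_lit 2675257579) (nat_lit 4) (nat_lit 4) (nat_lit 5) (nat_lit 5) (nat_lit 5) (nat_lit 4) (nat_lit 400) (nat_lit 199) (nat_lit 181)) (XT.lf (nat_lit 0) (nat_lit 75382419715) (nat_lit 76) (nat_lit 3126665303) (nat_lit 76) (nat_lit 328698867) (nat_lit 4) (nat_lit 4) (nat_lit 5) (nat_lit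 5) (nat_lit 5) (nat_lit 4) (nat_lit 401) (nat_lit 199) (nat_lit 180)))) (XT.nd (nat_lit 78) (nat_lit 0) (nat_lit 0) (XT.lf (nat_lit 0) (nat_lit 1192019698) (nat_lit 76) (nat_lit 826768201) (nat_lit 152) (nat_lit 79107314946) (nat_lit 2) (nat_lit 5) (nat_lit 3) (nat_lit 5) (nat_lit 4) (nat_lit 4) (nat_lit 402) (nat_lit 199) (nat_lit 179)) (XT.nd (nat_lit 78) (nat_lit 0) (nat_lit 0) (XT.lf (nat_lit 0) (nat_lit 4440101540) (nat_lit 152) (nat_lit 77525901530) (nat_lit 0) (nat_lit 1516681205) (nat_lit 2) (nat_lit 5) (nat_lit 4) (nat_lit 4) (nat_lit 2) (nat_lit 4) (nat_lit 403) (nat_lit 199) (nat_lit 178)) (XT.lf (nat_lit 0) (nat_lit 6903354067) (nat_lit 152) (nat_lit 75126582440) (nat_lit 0) (nat_lit 3880958139) (nat_lit 2) (nat_lit 5) (nat_lit 4) (nat_lit 4) (nat_lit 2) (nat_lit 4) (nat_lit 404) (nat_lit 199) (nat_lit 177))))) (XT.nd (nat_lit 234) (nat_lit 0) (nat_lit 0) (XT.nd (nat_lit 78) (nat_lit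 0) (nat_lit 0) (XT.lf (nat_lit 0) (nat_lit 9402750435) (nat_lit 152) (nat_lit 72726081984) (nat_lit 0) (nat_lit 6284261699) (nat_lit 2) (nat_lit 5) (nat_lit 4) (nat_lit 4) (nat_lit 2) (nat_lit 4) (nat_lit 405) (nat_lit 199) (nat_lit 176)) (XT.nd (nat_lit 78) (nat_lit 0) (nat_lit 0) (XT.lf (nat_lit 0) (nat_lit 11940474583) (nat_lit 152) (nat_lit 70322302636) (nat_lit 0) (nat_lit 8728691859) (nat_lit 2) (nat_lit 5) (nat_lit 4) (nat_lit 4) (nat_lit 2) (nat_lit 4) (nat_lit 406) (nat_lit 199) (nat_lit 175)) (XT.lf (nat_lit 0) (nat_lit 14518743940) (nat_lit 152) (nat_lit 67913144008) (nat_lit 0) (nat_lit 11216384528) (nat_lit 2) (nat_lit 5) (nat_lit 4) (nat_lit 4) (nat_lit 2) (nat_lit 4) (nat_lit 407) (nat_lit 199) (nat_lit 174)))) (XT.nd (nat_lit 156) (nat_lit 0) (nat_lit 0) (XT.nd (nat_lit 78) (nat_lit 0) (nat_lit 0) (XT.lf (nat_lit 0) (nat_lit 17139811363) (nat_lit 152) (nat_lit 65496501009) (nat_lit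 0) (nat_lit 13749513419) (nat_lit 2) (nat_lit 5) (nat_lit 4) (nat_lit 4) (nat_lit 2) (nat_lit 4) (nat_lit 408) (nat_lit 199) (nat_lit 173)) (XT.lf (nat_lit 0) (nat_lit 19805967104) (nat_lit 152) (nat_lit 63070262009) (nat_lit 0) (nat_lit 16330291944) (nat_lit 2) (nat_lit 5) (nat_lit 4) (nat_lit 4) (nat_lit 2) (nat_lit 4) (nat_lit 409) (nat_lit 199) (nat_lit 172))) (XT.nd (nat_lit 38298) (nat_lit 0) (nat_lit 380) (XT.lf (nat_lit 0) (nat_lit 22519540815) (nat_lit 152) (nat_lit 60632306994) (nat_lit 0) (nat_lit 18960975154) (nat_lit 2) (nat_lit 5) (nat_lit 4) (nat_lit 4) (nat_lit 2) (nat_lit 4) (nat_lit 410) (nat_lit 199) (nat_lit 171)) (XT.lf (nat_lit 0) (nat_lit 19994247193) (nat_lit 76) (nat_lit 955600699) (nat_lit 76) (nat_lit 955600699) (nat_lit 7) (nat_lit 4) (nat_lit 8) (nat_lit 5) (nat_lit 8) (nat_lit 4) (nat_lit 380) (nat_lit 200) (nat_lit 200)))))) (XT.nd (nat_lit 468) (nat_lit 76) (nat_lit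 0) (XT.nd (nat_lit 234) (nat_lit 0) (nat_lit 0) (XT.nd (nat_lit 78) (nat_lit 0) (nat_lit 0) (XT.lf (nat_lit 0) (nat_lit 1355467763) (nat_lit 152) (nat_lit 42504549950) (nat_lit 0) (nat_lit 1160130869) (nat_lit 5) (nat_lit 5) (nat_lit 7) (nat_lit 4) (nat_lit 5) (nat_lit 4) (nat_lit 381) (nat_lit 200) (nat_lit 199)) (XT.nd (nat_lit 78) (nat_lit 0) (nat_lit 0) (XT.lf (nat_lit 0) (nat_lit 4671135884) (nat_lit 152) (nat_lit 37308160158) (nat_lit 0) (nat_lit 4286151519) (nat_lit 5) (nat_lit 5) (nat_lit 7) (nat_lit 4) (nat_lit 5) (nat_lit 4) (nat_lit 382) (nat_lit 200) (nat_lit 198)) (XT.lf (nat_lit 0) (nat_lit 8019777362) (nat_lit 152) (nat_lit 32079673310) (nat_lit 0) (nat_lit 7450669240) (nat_lit 5) (nat_lit 5) (nat_lit 7) (nat_lit 4) (nat_lit 5) (nat_lit 4) (nat_lit 383) (nat_lit 200) (nat_lit 197)))) (XT.nd (nat_lit 78) (nat_lit 0) (nat_lit 0) (XT.lf (nat_lit 0) (nat_lit 11404318195) (nat_lit 152)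 (nat_lit 26814520825) (nat_lit 0) (nat_lit 10656449142) (nat_lit 5) (nat_lit 5) (nat_lit 7) (nat_lit 4) (nat_lit 5) (nat_lit 4) (nat_lit 384) (nat_lit 200) (nat_lit 196)) (XT.nd (nat_lit 78) (nat_lit 0) (nat_lit 0) (XT.lf (nat_lit 0) (nat_lit 14827715748) (nat_lit 152) (nat_lit 21508102084) (nat_lit 0) (nat_lit 13906292395) (nat_lit 5) (nat_lit 5) (nat_lit 7) (nat_lit 4) (nat_lit 5) (nat_lit 4) (nat_lit 385) (nat_lit 200) (nat_lit 195)) (XT.lf (nat_lit 0) (nat_lit 18292961340) (nat_lit 152) (nat_lit 16155780411) (nat_lit 0) (nat_lit 17203038665) (nat_lit 5) (nat_lit 5) (nat_lit 7) (nat_lit 4) (nat_lit 5) (nat_lit 4) (nat_lit 386) (nat_lit 200) (nat_lit 194))))) (XT.nd (nat_lit 234) (nat_lit 0) (nat_lit 0) (XT.nd (nat_lit 78) (nat_lit 76) (nat_lit 0) (XT.lf (nat_lit 0) (nat_lit 21803082855) (nat_lit 152) (nat_lit 10752879021) (nat_lit 0) (nat_lit 20549568606) (nat_lit 5) (nat_lit 5) (nat_lit 7)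 (nat_lit 4) (nat_lit 5) (nat_lit 4) (nat_lit 387) (nat_lit 200) (nat_lit 193)) (XT.nd (nat_lit 78) (nat_lit 76) (nat_lit 0) (XT.lf (nat_lit 0) (nat_lit 25361147389) (nat_lit 152) (nat_lit 5294676930) (nat_lit 0) (nat_lit 23948806370) (nat_lit 5) (nat_lit 5) (nat_lit 7) (nat_lit 4) (nat_lit 5) (nat_lit 4) (nat_lit 388) (nat_lit 200) (nat_lit 192)) (XT.lf (nat_lit 0) (nat_lit 228045144) (nat_lit 76) (nat_lit 28744410897) (nat_lit 76) (nat_lit 27177869129) (nat_lit 4) (nat_lit 4) (nat_lit 5) (nat_lit 5) (nat_lit 5) (nat_lit 4) (nat_lit 389) (nat_lit 200) (nat_lit 191)))) (XT.nd (nat_lit 156) (nat_lit 0) (nat_lit 0) (XT.nd (nat_lit 78) (nat_lit 0) (nat_lit 0) (XT.lf (nat_lit 0) (nat_lit 5922324939) (nat_lit 76) (nat_lit 26768190149) (nat_lit 76) (nat_lit 25051938917) (nat_lit 4) (nat_lit 4) (nat_lit 5) (nat_lit 5) (nat_lit 5) (nat_lit 4) (nat_lit 390) (nat_lit 200) (nat_lit 190)) (XT.lf (nat_lit 0)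 (nat_lit 11687763586) (nat_lit 76) (nat_lit 24778901139) (nat_lit 76) (nat_lit 22917300912) (nat_lit 4) (nat_lit 4) (nat_lit 5) (nat_lit 5) (nat_lit 5) (nat_lit 4) (nat_lit 391) (nat_lit 200) (nat_lit 189))) (XT.nd (nat_lit 78) (nat_lit 0) (nat_lit 0) (XT.lf (nat_lit 0) (nat_lit 17529398848) (nat_lit 76) (nat_lit 22774805651) (nat_lit 76) (nat_lit 20772089896) (nat_lit 4) (nat_lit 4) (nat_lit 5) (nat_lit 5) (nat_lit 5) (nat_lit 4) (nat_lit 392) (nat_lit 200) (nat_lit 188)) (XT.lf (nat_lit 0) (nat_lit 23452335064) (nat_lit 76) (nat_lit 20754152535) (nat_lit 76) (nat_lit 18614431412) (nat_lit 4) (nat_lit 4) (nat_lit 5) (nat_lit 5) (nat_lit 5) (nat_lit 4) (nat_lit 393) (nat_lit 200) (nat_lit 187))))))) (XT.nd (nat_lit 1014) (nat_lit 0) (nat_lit 0) (XT.nd (nat_lit 468) (nat_lit 152) (nat_lit 0) (XT.nd (nat_lit 234) (nat_lit 0) (nat_lit 0) (XT.nd (nat_lit 78) (nat_lit 0) (nat_lit 0) (XT.lf (nat_lit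 0) (nat_lit 29461747617) (nat_lit 76) (nat_lit 18715176171) (nat_lit 76) (nat_lit 16442440128) (nat_lit 4) (nat_lit 4) (nat_lit 5) (nat_lit 5) (nat_lit 5) (nat_lit 4) (nat_lit 394) (nat_lit 200) (nat_lit 186)) (XT.nd (nat_lit 78) (nat_lit 0) (nat_lit 0) (XT.lf (nat_lit 0) (nat_lit 35562887449) (nat_lit 76) (nat_lit 16656094930) (nat_lit 76) (nat_lit 14254218188) (nat_lit 4) (nat_lit 4) (nat_lit 5) (nat_lit 5) (nat_lit 5) (nat_lit 4) (nat_lit 395) (nat_lit 200) (nat_lit 185)) (XT.lf (nat_lit 0) (nat_lit 41761085654) (nat_lit 76) (nat_lit 14575109614) (nat_lit 76) (nat_lit 12047853552) (nat_lit 4) (nat_lit 4) (nat_lit 5) (nat_lit 5) (nat_lit 5) (nat_lit 4) (nat_lit 396) (nat_lit 200) (nat_lit 184)))) (XT.nd (nat_lit 78) (nat_lit 0) (nat_lit 0) (XT.lf (nat_lit 0) (nat_lit 48061758133) (nat_lit 76) (nat_lit 12470401886) (nat_lit 76) (nat_lit 9821418330) (nat_lit 4) (nat_lit 4) (nat_lit 5) (nat_lit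 5) (nat_lit 5) (nat_lit 4) (nat_lit 397) (nat_lit 200) (nat_lit 183)) (XT.nd (nat_lit 78) (nat_lit 0) (nat_lit 0) (XT.lf (nat_lit 0) (nat_lit 54470410328) (nat_lit 76) (nat_lit 10340132682) (nat_lit 76) (nat_lit 7572967092) (nat_lit 4) (nat_lit 4) (nat_lit 5) (nat_lit 5) (nat_lit 5) (nat_lit 4) (nat_lit 398) (nat_lit 200) (nat_lit 182)) (XT.lf (nat_lit 0) (nat_lit 60992642032) (nat_lit 76) (nat_lit 8182440601) (nat_lit 76) (nat_lit 5300535172) (nat_lit 4) (nat_lit 4) (nat_lit 5) (nat_lit 5) (nat_lit 5) (nat_lit 4) (nat_lit 399) (nat_lit 200) (nat_lit 181))))) (XT.nd (nat_lit 234) (nat_lit 0) (nat_lit 0) (XT.nd (nat_lit 78) (nat_lit 152) (nat_lit 0) (XT.lf (nat_lit 0) (nat_lit 67634152282) (nat_lit 76) (nat_lit 5995440282) (nat_lit 76) (nat_lit 3002136951) (nat_lit 4) (nat_lit 4) (nat_lit 5) (nat_lit 5) (nat_lit 5) (nat_lit 4) (nat_lit 400) (nat_lit 200) (nat_lit 180)) (XT.nd (nat_lit 78) (nat_lit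 152) (nat_lit 0) (XT.lf (nat_lit 0) (nat_lit 74400744341) (nat_lit 76) (nat_lit 3777220752) (nat_lit 76) (nat_lit 675764120) (nat_lit 4) (nat_lit 4) (nat_lit 5) (nat_lit 5) (nat_lit 5) (nat_lit 4) (nat_lit 401) (nat_lit 200) (nat_lit 179)) (XT.lf (nat_lit 0) (nat_lit 141375956) (nat_lit 76) (nat_lit 1507804238) (nat_lit 152) (nat_lit 79493852833) (nat_lit 2) (nat_lit 5) (nat_lit 3) (nat_lit 5) (nat_lit 4) (nat_lit 4) (nat_lit 402) (nat_lit 200) (nat_lit 178)))) (XT.nd (nat_lit 156) (nat_lit 0) (nat_lit 0) (XT.nd (nat_lit 78) (nat_lit 0) (nat_lit 0) (XT.lf (nat_lit 0) (nat_lit 4044791464) (nat_lit 152) (nat_lit 78622851161) (nat_lit 0) (nat_lit 832748067) (nat_lit 2) (nat_lit 5) (nat_lit 4) (nat_lit 4) (nat_lit 2) (nat_lit 4) (nat_lit 403) (nat_lit 200) (nat_lit 177)) (XT.lf (nat_lit 0) (nat_lit 6489446092) (nat_lit 152) (nat_lit 76258408035) (nat_lit 0) (nat_lit 3181309886) (nat_lit 2) (nat_lit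 5) (nat_lit 4) (nat_lit 4) (nat_lit 2) (nat_lit 4) (nat_lit 404) (nat_lit 200) (nat_lit 176))) (XT.nd (nat_lit 78) (nat_lit 0) (nat_lit 0) (XT.lf (nat_lit 0) (nat_lit 8970786248) (nat_lit 152) (nat_lit 73891767737) (nat_lit 0) (nat_lit 5569356054) (nat_lit 2) (nat_lit 5) (nat_lit 4) (nat_lit 4) (nat_lit 2) (nat_lit 4) (nat_lit 405) (nat_lit 200) (nat_lit 175)) (XT.lf (nat_lit 0) (nat_lit 11490980093) (nat_lit 152) (nat_lit 71520862330) (nat_lit 0) (nat_lit 7998973211) (nat_lit 2) (nat_lit 5) (nat_lit 4) (nat_lit 4) (nat_lit 2) (nat_lit 4) (nat_lit 406) (nat_lit 200) (nat_lit 174)))))) (XT.nd (nat_lit 38610) (nat_lit 0) (nat_lit 228) (XT.nd (nat_lit 234) (nat_lit 0) (nat_lit 0) (XT.nd (nat_lit 78) (nat_lit 0) (nat_lit 0) (XT.lf (nat_lit 0) (nat_lit 14052229739) (nat_lit 152) (nat_lit 69143620149) (nat_lit 0) (nat_lit 10472284324) (nat_lit 2) (nat_lit 5) (nat_lit 4) (nat_lit 4) (nat_lit 2) (nat_lit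 4) (nat_lit 407) (nat_lit 200) (nat_lit 173)) (XT.nd (nat_lit 78) (nat_lit 0) (nat_lit 0) (XT.lf (nat_lit 0) (nat_lit 16656773169) (nat_lit 152) (nat_lit 66757963992) (nat_lit 0) (nat_lit 12991450539) (nat_lit 2) (nat_lit 5) (nat_lit 4) (nat_lit 4) (nat_lit 2) (nat_lit 4) (nat_lit 408) (nat_lit 200) (nat_lit 172)) (XT.lf (nat_lit 0) (nat_lit 19306886200) (nat_lit 152) (nat_lit 64361809305) (nat_lit 0) (nat_lit 15558673068) (nat_lit 2) (nat_lit 5) (nat_lit 4) (nat_lit 4) (nat_lit 2) (nat_lit 4) (nat_lit 409) (nat_lit 200) (nat_lit 171)))) (XT.nd (nat_lit 38220) (nat_lit 0) (nat_lit 380) (XT.nd (nat_lit 38142) (nat_lit 0) (nat_lit 380) (XT.lf (nat_lit 0) (nat_lit 22004884463) (nat_lit 152) (nat_lit 61953062361) (nat_lit 0) (nat_lit 18176195117) (nat_lit 2) (nat_lit 5) (nat_lit 4) (nat_lit 4) (nat_lit 2) (nat_lit 4) (nat_lit 410) (nat_lit 200) (nat_lit 170)) (XT.lf (nat_lit 0) (nat_lit 12644303907)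 (nat_lit 76) (nat_lit 4052648751) (nat_lit 76) (nat_lit 4052648751) (nat_lit 7) (nat_lit 4) (nat_lit 8) (nat_lit 5) (nat_lit 8) (nat_lit 4) (nat_lit 378) (nat_lit 201) (nat_lit 201))) (XT.nd (nat_lit 78) (nat_lit 0) (nat_lit 0) (XT.lf (nat_lit 0) (nat_lit 32561391334) (nat_lit 76) (nat_lit 5141647330) (nat_lit 76) (nat_lit 4934414418) (nat_lit 7) (nat_lit 4) (nat_lit 8) (nat_lit 5) (nat_lit 8) (nat_lit 4) (nat_lit 379) (nat_lit 201) (nat_lit 200)) (XT.lf (nat_lit 0) (nat_lit 39926490529) (nat_lit 76) (nat_lit 2146926212) (nat_lit 76) (nat_lit 1738496299) (nat_lit 7) (nat_lit 4) (nat_lit 8) (nat_lit 5) (nat_lit 8) (nat_lit 4) (nat_lit 380) (nat_lit 201) (nat_lit 199))))) (XT.nd (nat_lit 234) (nat_lit 0) (nat_lit 0) (XT.nd (nat_lit 78) (nat_lit 0) (nat_lit 0) (XT.lf (nat_lit 0) (nat_lit 1488173178) (nat_lit 152) (nat_lit 42632058427) (nat_lit 0) (nat_lit 901991811) (nat_lit 5) (nat_lit 5) (nat_lit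 7) (nat_lit 4) (nat_lit 5) (nat_lit 4) (nat_lit 381) (nat_lit 201) (nat_lit 198)) (XT.nd (nat_lit 78) (nat_lit 0) (nat_lit 0) (XT.lf (nat_lit 0) (nat_lit 4771084310) (nat_lit 152) (nat_lit 37496651215) (nat_lit 0) (nat_lit 4000779186) (nat_lit 5) (nat_lit 5) (nat_lit 7) (nat_lit 4) (nat_lit 5) (nat_lit 4) (nat_lit 382) (nat_lit 201) (nat_lit 197)) (XT.lf (nat_lit 0) (nat_lit 8087922887) (nat_lit 152) (nat_lit 32327370755) (nat_lit 0) (nat_lit 7138856833) (nat_lit 5) (nat_lit 5) (nat_lit 7) (nat_lit 4) (nat_lit 5) (nat_lit 4) (nat_lit 383) (nat_lit 201) (nat_lit 196)))) (XT.nd (nat_lit 156) (nat_lit 0) (nat_lit 0) (XT.nd (nat_lit 78) (nat_lit 0) (nat_lit 0) (XT.lf (nat_lit 0) (nat_lit 11441587116) (nat_lit 152) (nat_lit 27119700201) (nat_lit 0) (nat_lit 10318966762) (nat_lit 5) (nat_lit 5) (nat_lit 7) (nat_lit 4) (nat_lit 5) (nat_lit 4) (nat_lit 384) (nat_lit 201) (nat_lit 195)) (XT.lf (nat_lit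 0) (nat_lit 14835007385) (nat_lit 152) (nat_lit 21869089160) (nat_lit 0) (nat_lit 13543887709) (nat_lit 5) (nat_lit 5) (nat_lit 7) (nat_lit 4) (nat_lit 5) (nat_lit 4) (nat_lit 385) (nat_lit 201) (nat_lit 194))) (XT.nd (nat_lit 78) (nat_lit 0) (nat_lit 0) (XT.lf (nat_lit 0) (nat_lit 18271148817) (nat_lit 152) (nat_lit 16570949720) (nat_lit 0) (nat_lit 16816437567) (nat_lit 5) (nat_lit 5) (nat_lit 7) (nat_lit 4) (nat_lit 5) (nat_lit 4) (nat_lit 386) (nat_lit 201) (nat_lit 193)) (XT.lf (nat_lit 0) (nat_lit 21753013865) (nat_lit 152) (nat_lit 11220652438) (nat_lit 0) (nat_lit 20139475845) (nat_lit 5) (nat_lit 5) (nat_lit 7) (nat_lit 4) (nat_lit 5) (nat_lit 4) (nat_lit 387) (nat_lit 201) (nat_lit 192))))))))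
noncomputable def xc5 : XT := (XT.nd (nat_lit 39936) (nat_lit 0) (nat_lit 0) (XT.nd (nat_lit 1014) (nat_lit 152) (nat_lit 0) (XT.nd (nat_lit 468) (nat_lit 0) (nat_lit 0) (XT.nd (nat_lit 234) (nat_lit 0) (nat_lit 0) (XT.nd (nat_lit 78) (nat_lit 76) (nat_lit 0) (XT.lf (nat_lit 0) (nat_lit 25283644938) (nat_lit 152) (nat_lit 5813522299) (nat_lit 0) (nat_lit 23515906169) (nat_lit 5) (nat_lit 5) (nat_lit 7) (nat_lit 4) (nat_lit 5) (nat_lit 4) (nat_lit 388) (nat_lit 201) (nat_lit 191)) (XT.nd (nat_lit 78) (nat_lit 76) (nat_lit 0) (XT.lf (nat_lit 0) (nat_lit 28866127051) (nat_lit 152) (nat_lit 344834624) (nat_lit 0) (nat_lit 26948678817) (nat_lit 5) (nat_lit 5) (nat_lit 7) (nat_lit 4) (nat_lit 5) (nat_lit 4) (nat_lit 389) (nat_lit 201) (nat_lit 190)) (XT.lf (nat_lit 0) (nat_lit 5293483989) (nat_lit 76) (nat_lit 27260990747) (nat_lit 76) (nat_lit 25198193518) (nat_lit 4) (nat_lit 4) (nat_lit 5) (nat_lit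 5) (nat_lit 5) (nat_lit 4) (nat_lit 390) (nat_lit 201) (nat_lit 189)))) (XT.nd (nat_lit 78) (nat_lit 0) (nat_lit 0) (XT.lf (nat_lit 0) (nat_lit 11011254387) (nat_lit 76) (nat_lit 25293806265) (nat_lit 76) (nat_lit 23089893508) (nat_lit 4) (nat_lit 4) (nat_lit 5) (nat_lit 5) (nat_lit 5) (nat_lit 4) (nat_lit 391) (nat_lit 201) (nat_lit 188)) (XT.nd (nat_lit 78) (nat_lit 0) (nat_lit 0) (XT.lf (nat_lit 0) (nat_lit 16806609794) (nat_lit 76) (nat_lit 23311171485) (nat_lit 76) (nat_lit 20970253360) (nat_lit 4) (nat_lit 4) (nat_lit 5) (nat_lit 5) (nat_lit 5) (nat_lit 4) (nat_lit 392) (nat_lit 201) (nat_lit 187)) (XT.lf (nat_lit 0) (nat_lit 22684614114) (nat_lit 76) (nat_lit 21311354007) (nat_lit 76) (nat_lit 18837420962) (nat_lit 4) (nat_lit 4) (nat_lit 5) (nat_lit 5) (nat_lit 5) (nat_lit 4) (nat_lit 393) (nat_lit 201) (nat_lit 186))))) (XT.nd (nat_lit 234) (nat_lit 0) (nat_lit 0) (XT.nd (nat_lit 78)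 (nat_lit 0) (nat_lit 0) (XT.lf (nat_lit 0) (nat_lit 28650403467) (nat_lit 76) (nat_lit 19292606418) (nat_lit 76) (nat_lit 16689532674) (nat_lit 4) (nat_lit 4) (nat_lit 5) (nat_lit 5) (nat_lit 5) (nat_lit 4) (nat_lit 394) (nat_lit 201) (nat_lit 185)) (XT.nd (nat_lit 78) (nat_lit 0) (nat_lit 0) (XT.lf (nat_lit 0) (nat_lit 34709190677) (nat_lit 76) (nat_lit 17253164764) (nat_lit 76) (nat_lit 14524711701) (nat_lit 4) (nat_lit 4) (nat_lit 5) (nat_lit 5) (nat_lit 5) (nat_lit 4) (nat_lit 395) (nat_lit 201) (nat_lit 184)) (XT.lf (nat_lit 0) (nat_lit 40866269832) (nat_lit 76) (nat_lit 15191247008) (nat_lit 76) (nat_lit 12341066450) (nat_lit 4) (nat_lit 4) (nat_lit 5) (nat_lit 5) (nat_lit 5) (nat_lit 4) (nat_lit 396) (nat_lit 201) (nat_lit 183)))) (XT.nd (nat_lit 156) (nat_lit 0) (nat_lit 0) (XT.nd (nat_lit 78) (nat_lit 0) (nat_lit 0) (XT.lf (nat_lit 0) (nat_lit 47127020903) (nat_lit 76) (nat_lit 13105051476)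 (nat_lit 76) (nat_lit 10136688884) (nat_lit 4) (nat_lit 4) (nat_lit 5) (nat_lit 5) (nat_lit 5) (nat_lit 4) (nat_lit 397) (nat_lit 201) (nat_lit 182)) (XT.lf (nat_lit 0) (nat_lit 53496914449) (nat_lit 76) (nat_lit 10992755276) (nat_lit 76) (nat_lit 7909652846) (nat_lit 4) (nat_lit 4) (nat_lit 5) (nat_lit 5) (nat_lit 5) (nat_lit 4) (nat_lit 398) (nat_lit 201) (nat_lit 181))) (XT.nd (nat_lit 78) (nat_lit 0) (nat_lit 0) (XT.lf (nat_lit 0) (nat_lit 59981516397) (nat_lit 76) (nat_lit 8852512714) (nat_lit 76) (nat_lit 5658012383) (nat_lit 4) (nat_lit 4) (nat_lit 5) (nat_lit 5) (nat_lit 5) (nat_lit 4) (nat_lit 399) (nat_lit 201) (nat_lit 180)) (XT.lf (nat_lit 0) (nat_lit 66586492904) (nat_lit 76) (nat_lit 6682453676) (nat_lit 76) (nat_lit 3379800041) (nat_lit 4) (nat_lit 4) (nat_lit 5) (nat_lit 5) (nat_lit 5) (nat_lit 4) (nat_lit 400) (nat_lit 201) (nat_lit 179)))))) (XT.nd (nat_lit 468) (nat_lit 0) (nat_lit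 0) (XT.nd (nat_lit 234) (nat_lit 0) (nat_lit 0) (XT.nd (nat_lit 78) (nat_lit 152) (nat_lit 0) (XT.lf (nat_lit 0) (nat_lit 73317615308) (nat_lit 76) (nat_lit 4480681991) (nat_lit 76) (nat_lit 1073025151) (nat_lit 4) (nat_lit 4) (nat_lit 5) (nat_lit 5) (nat_lit 5) (nat_lit 4) (nat_lit 401) (nat_lit 201) (nat_lit 178)) (XT.nd (nat_lit 78) (nat_lit 76) (nat_lit 0) (XT.lf (nat_lit 0) (nat_lit 1239656325) (nat_lit 152) (nat_lit 993099360) (nat_lit 76) (nat_lit 78928590749) (nat_lit 3) (nat_lit 5) (nat_lit 5) (nat_lit 5) (nat_lit 4) (nat_lit 4) (nat_lit 402) (nat_lit 201) (nat_lit 177)) (XT.lf (nat_lit 0) (nat_lit 3599868352) (nat_lit 152) (nat_lit 79823507487) (nat_lit 0) (nat_lit 96395251) (nat_lit 2) (nat_lit 5) (nat_lit 4) (nat_lit 4) (nat_lit 2) (nat_lit 4) (nat_lit 403) (nat_lit 201) (nat_lit 176)))) (XT.nd (nat_lit 78) (nat_lit 0) (nat_lit 0) (XT.lf (nat_lit 0) (nat_lit 6026466768) (nat_lit 152)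 (nat_lit 77492924520) (nat_lit 0) (nat_lit 2429699678) (nat_lit 2) (nat_lit 5) (nat_lit 4) (nat_lit 4) (nat_lit 2) (nat_lit 4) (nat_lit 404) (nat_lit 201) (nat_lit 175)) (XT.nd (nat_lit 78) (nat_lit 0) (nat_lit 0) (XT.lf (nat_lit 0) (nat_lit 8490276620) (nat_lit 152) (nat_lit 75159158163) (nat_lit 0) (nat_lit 4802932843) (nat_lit 2) (nat_lit 5) (nat_lit 4) (nat_lit 4) (nat_lit 2) (nat_lit 4) (nat_lit 405) (nat_lit 201) (nat_lit 174)) (XT.lf (nat_lit 0) (nat_lit 10993450754) (nat_lit 152) (nat_lit 72820169203) (nat_lit 0) (nat_lit 7218168444) (nat_lit 2) (nat_lit 5) (nat_lit 4) (nat_lit 4) (nat_lit 2) (nat_lit 4) (nat_lit 406) (nat_lit 201) (nat_lit 173))))) (XT.nd (nat_lit 234) (nat_lit 0) (nat_lit 0) (XT.nd (nat_lit 78) (nat_lit 0) (nat_lit 0) (XT.lf (nat_lit 0) (nat_lit 13538176407) (nat_lit 152) (nat_lit 70473913864) (nat_lit 0) (nat_lit 9677516882) (nat_lit 2) (nat_lit 5) (nat_lit 4) (nat_lit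 4) (nat_lit 2) (nat_lit 4) (nat_lit 407) (nat_lit 201) (nat_lit 172)) (XT.nd (nat_lit 78) (nat_lit 0) (nat_lit 0) (XT.lf (nat_lit 0) (nat_lit 16126677126) (nat_lit 152) (nat_lit 68118342020) (nat_lit 0) (nat_lit 12183127101) (nat_lit 2) (nat_lit 5) (nat_lit 4) (nat_lit 4) (nat_lit 2) (nat_lit 4) (nat_lit 408) (nat_lit 201) (nat_lit 171)) (XT.lf (nat_lit 0) (nat_lit 18761214709) (nat_lit 152) (nat_lit 65751395404) (nat_lit 0) (nat_lit 14737188469) (nat_lit 2) (nat_lit 5) (nat_lit 4) (nat_lit 4) (nat_lit 2) (nat_lit 4) (nat_lit 409) (nat_lit 201) (nat_lit 170)))) (XT.nd (nat_lit 38064) (nat_lit 0) (nat_lit 380) (XT.nd (nat_lit 37986) (nat_lit 0) (nat_lit 380) (XT.lf (nat_lit 0) (nat_lit 21444091179) (nat_lit 152) (nat_lit 63371005809) (nat_lit 0) (nat_lit 17341932692) (nat_lit 2) (nat_lit 5) (nat_lit 4) (nat_lit 4) (nat_lit 2) (nat_lit 4) (nat_lit 410) (nat_lit 201) (nat_lit 169)) (XT.lf (nat_lit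 0) (nat_lit 5530211682) (nat_lit 76) (nat_lit 7066470679) (nat_lit 76) (nat_lit 7066470679) (nat_lit 7) (nat_lit 4) (nat_lit 8) (nat_lit 5) (nat_lit 8) (nat_lit 4) (nat_lit 376) (nat_lit 202) (nat_lit 202))) (XT.nd (nat_lit 78) (nat_lit 0) (nat_lit 0) (XT.lf (nat_lit 0) (nat_lit 18101785109) (nat_lit 76) (nat_lit 11253916227) (nat_lit 76) (nat_lit 11040466329) (nat_lit 7) (nat_lit 4) (nat_lit 8) (nat_lit 5) (nat_lit 8) (nat_lit 4) (nat_lit 377) (nat_lit 202) (nat_lit 201)) (XT.lf (nat_lit 0) (nat_lit 25224743840) (nat_lit 76) (nat_lit 8348094060) (nat_lit 76) (nat_lit 7927411250) (nat_lit 7) (nat_lit 4) (nat_lit 8) (nat_lit 5) (nat_lit 8) (nat_lit 4) (nat_lit 378) (nat_lit 202) (nat_lit 200))))))) (XT.nd (nat_lit 1014) (nat_lit 152) (nat_lit 0) (XT.nd (nat_lit 468) (nat_lit 76) (nat_lit 0) (XT.nd (nat_lit 234) (nat_lit 0) (nat_lit 0) (XT.nd (nat_lit 78) (nat_lit 152) (nat_lit 0) (XT.lf (nat_lit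 0) (nat_lit 32435523503) (nat_lit 76) (nat_lit 5412935789) (nat_lit 76) (nat_lit 4791055977) (nat_lit 7) (nat_lit 4) (nat_lit 8) (nat_lit 5) (nat_lit 8) (nat_lit 4) (nat_lit 379) (nat_lit 202) (nat_lit 199)) (XT.nd (nat_lit 78) (nat_lit 152) (nat_lit 0) (XT.lf (nat_lit 0) (nat_lit 39740424778) (nat_lit 76) (nat_lit 2445876712) (nat_lit 76) (nat_lit 1628660006) (nat_lit 7) (nat_lit 4) (nat_lit 8) (nat_lit 5) (nat_lit 8) (nat_lit 4) (nat_lit 380) (nat_lit 202) (nat_lit 198)) (XT.lf (nat_lit 0) (nat_lit 1558363068) (nat_lit 152) (nat_lit 42887186796) (nat_lit 0) (nat_lit 580825033) (nat_lit 5) (nat_lit 5) (nat_lit 7) (nat_lit 4) (nat_lit 5) (nat_lit 4) (nat_lit 381) (nat_lit 202) (nat_lit 197)))) (XT.nd (nat_lit 78) (nat_lit 0) (nat_lit 0) (XT.lf (nat_lit 0) (nat_lit 4809471299) (nat_lit 152) (nat_lit 37810985972) (nat_lit 0) (nat_lit 3653172334) (nat_lit 5) (nat_lit 5) (nat_lit 7) (nat_lit 4) (nat_lit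 5) (nat_lit 4) (nat_lit 382) (nat_lit 202) (nat_lit 196)) (XT.nd (nat_lit 78) (nat_lit 0) (nat_lit 0) (XT.lf (nat_lit 0) (nat_lit 8095433273) (nat_lit 152) (nat_lit 32699187443) (nat_lit 0) (nat_lit 6765580007) (nat_lit 5) (nat_lit 5) (nat_lit 7) (nat_lit 4) (nat_lit 5) (nat_lit 4) (nat_lit 383) (nat_lit 202) (nat_lit 195)) (XT.lf (nat_lit 0) (nat_lit 11419120218) (nat_lit 152) (nat_lit 27547324588) (nat_lit 0) (nat_lit 9920767630) (nat_lit 5) (nat_lit 5) (nat_lit 7) (nat_lit 4) (nat_lit 5) (nat_lit 4) (nat_lit 384) (nat_lit 202) (nat_lit 194))))) (XT.nd (nat_lit 234) (nat_lit 76) (nat_lit 0) (XT.nd (nat_lit 78) (nat_lit 0) (nat_lit 0) (XT.lf (nat_lit 0) (nat_lit 14783436326) (nat_lit 152) (nat_lit 22350895780) (nat_lit 0) (nat_lit 13121492165) (nat_lit 5) (nat_lit 5) (nat_lit 7) (nat_lit 4) (nat_lit 5) (nat_lit 4) (nat_lit 385) (nat_lit 202) (nat_lit 193)) (XT.nd (nat_lit 78) (nat_lit 0) (nat_lit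 0) (XT.lf (nat_lit 0) (nat_lit 18191321292) (nat_lit 152) (nat_lit 17105360449) (nat_lit 0) (nat_lit 16370550360) (nat_lit 5) (nat_lit 5) (nat_lit 7) (nat_lit 4) (nat_lit 5) (nat_lit 4) (nat_lit 386) (nat_lit 202) (nat_lit 192)) (XT.lf (nat_lit 0) (nat_lit 21645752879) (nat_lit 152) (nat_lit 11806135119) (nat_lit 0) (nat_lit 19670781198) (nat_lit 5) (nat_lit 5) (nat_lit 7) (nat_lit 4) (nat_lit 5) (nat_lit 4) (nat_lit 387) (nat_lit 202) (nat_lit 191)))) (XT.nd (nat_lit 156) (nat_lit 76) (nat_lit 0) (XT.nd (nat_lit 78) (nat_lit 0) (nat_lit 0) (XT.lf (nat_lit 0) (nat_lit 25149749522) (nat_lit 152) (nat_lit 6448589397) (nat_lit 0) (nat_lit 23025068377) (nat_lit 5) (nat_lit 5) (nat_lit 7) (nat_lit 4) (nat_lit 5) (nat_lit 4) (nat_lit 388) (nat_lit 202) (nat_lit 190)) (XT.lf (nat_lit 0) (nat_lit 28706372966) (nat_lit 152) (nat_lit 1028041935) (nat_lit 0) (nat_lit 26436342826) (nat_lit 5) (nat_lit 5)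 (nat_lit 7) (nat_lit 4) (nat_lit 5) (nat_lit 4) (nat_lit 389) (nat_lit 202) (nat_lit 189))) (XT.nd (nat_lit 78) (nat_lit 0) (nat_lit 0) (XT.lf (nat_lit 0) (nat_lit 4549011264) (nat_lit 76) (nat_lit 27813447555) (nat_lit 76) (nat_lit 25402301886) (nat_lit 4) (nat_lit 4) (nat_lit 5) (nat_lit 5) (nat_lit 5) (nat_lit 4) (nat_lit 390) (nat_lit 202) (nat_lit 188)) (XT.lf (nat_lit 0) (nat_lit 10220501809) (nat_lit 76) (nat_lit 25867723780) (nat_lit 76) (nat_lit 23319572744) (nat_lit 4) (nat_lit 4) (nat_lit 5) (nat_lit 5) (nat_lit 5) (nat_lit 4) (nat_lit 391) (nat_lit 202) (nat_lit 187)))))) (XT.nd (nat_lit 546) (nat_lit 152) (nat_lit 0) (XT.nd (nat_lit 234) (nat_lit 0) (nat_lit 0) (XT.nd (nat_lit 78) (nat_lit 0) (nat_lit 0) (XT.lf (nat_lit 0) (nat_lit 15970925320) (nat_lit 76) (nat_lit 23905924639) (nat_lit 76) (nat_lit 21224758682) (nat_lit 4) (nat_lit 4) (nat_lit 5) (nat_lit 5) (nat_lit 5) (nat_lit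 4) (nat_lit 392) (nat_lit 202) (nat_lit 186)) (XT.nd (nat_lit 78) (nat_lit 0) (nat_lit 0) (XT.lf (nat_lit 0) (nat_lit 21805306439) (nat_lit 76) (nat_lit 21926335936) (nat_lit 76) (nat_lit 19116029281) (nat_lit 4) (nat_lit 4) (nat_lit 5) (nat_lit 5) (nat_lit 5) (nat_lit 4) (nat_lit 393) (nat_lit 202) (nat_lit 185)) (XT.lf (nat_lit 0) (nat_lit 27728743170) (nat_lit 76) (nat_lit 19927227934) (nat_lit 76) (nat_lit 16991541960) (nat_lit 4) (nat_lit 4) (nat_lit 5) (nat_lit 5) (nat_lit 5) (nat_lit 4) (nat_lit 394) (nat_lit 202) (nat_lit 184)))) (XT.nd (nat_lit 156) (nat_lit 0) (nat_lit 0) (XT.nd (nat_lit 78) (nat_lit 0) (nat_lit 0) (XT.lf (nat_lit 0) (nat_lit 33746411330) (nat_lit 76) (nat_lit 17906853841) (nat_lit 76) (nat_lit 14849440372) (nat_lit 4) (nat_lit 4) (nat_lit 5) (nat_lit 5) (nat_lit 5) (nat_lit 4) (nat_lit 395) (nat_lit 202) (nat_lit 183)) (XT.lf (nat_lit 0) (nat_lit 39863569076) (nat_lit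 76) (nat_lit 15863448280) (nat_lit 76) (nat_lit 12687852777) (nat_lit 4) (nat_lit 4) (nat_lit 5) (nat_lit 5) (nat_lit 5) (nat_lit 4) (nat_lit 396) (nat_lit 202) (nat_lit 182))) (XT.nd (nat_lit 78) (nat_lit 0) (nat_lit 0) (XT.lf (nat_lit 0) (nat_lit 46085561499) (nat_lit 76) (nat_lit 13795225752) (nat_lit 76) (nat_lit 10504890410) (nat_lit 4) (nat_lit 4) (nat_lit 5) (nat_lit 5) (nat_lit 5) (nat_lit 4) (nat_lit 397) (nat_lit 202) (nat_lit 181)) (XT.lf (nat_lit 0) (nat_lit 52417825289) (nat_lit 76) (nat_lit 11700379072) (nat_lit 76) (nat_lit 8298645828) (nat_lit 4) (nat_lit 4) (nat_lit 5) (nat_lit 5) (nat_lit 5) (nat_lit 4) (nat_lit 398) (nat_lit 202) (nat_lit 180))))) (XT.nd (nat_lit 234) (nat_lit 152) (nat_lit 0) (XT.nd (nat_lit 78) (nat_lit 0) (nat_lit 0) (XT.lf (nat_lit 0) (nat_lit 58865893493) (nat_lit 76) (nat_lit 9577077791) (nat_lit 76) (nat_lit 6067191245) (nat_lit 4) (nat_lit 4) (nat_lit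 5) (nat_lit 5) (nat_lit 5) (nat_lit 4) (nat_lit 399) (nat_lit 202) (nat_lit 179)) (XT.nd (nat_lit 78) (nat_lit 0) (nat_lit 0) (XT.lf (nat_lit 0) (nat_lit 65435400346) (nat_lit 76) (nat_lit 7423466597) (nat_lit 76) (nat_lit 3808576845) (nat_lit 4) (nat_lit 4) (nat_lit 5) (nat_lit 5) (nat_lit 5) (nat_lit 4) (nat_lit 400) (nat_lit 202) (nat_lit 178)) (XT.lf (nat_lit 0) (nat_lit 72132086192) (nat_lit 76) (nat_lit 5237663695) (nat_lit 76) (nat_lit 1520829082) (nat_lit 4) (nat_lit 4) (nat_lit 5) (nat_lit 5) (nat_lit 5) (nat_lit 4) (nat_lit 401) (nat_lit 202) (nat_lit 177)))) (XT.nd (nat_lit 156) (nat_lit 0) (nat_lit 0) (XT.nd (nat_lit 78) (nat_lit 76) (nat_lit 0) (XT.lf (nat_lit 0) (nat_lit 782478195) (nat_lit 152) (nat_lit 2227379468) (nat_lit 76) (nat_lit 78171422816) (nat_lit 3) (nat_lit 5) (nat_lit 5) (nat_lit 5) (nat_lit 4) (nat_lit 4) (nat_lit 402) (nat_lit 202) (nat_lit 176)) (XT.lf (nat_lit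 0) (nat_lit 2404924630) (nat_lit 76) (nat_lit 706813124) (nat_lit 152) (nat_lit 80428900821) (nat_lit 2) (nat_lit 5) (nat_lit 3) (nat_lit 5) (nat_lit 4) (nat_lit 4) (nat_lit 403) (nat_lit 202) (nat_lit 175))) (XT.nd (nat_lit 78) (nat_lit 0) (nat_lit 0) (XT.lf (nat_lit 0) (nat_lit 5514011548) (nat_lit 152) (nat_lit 78831210599) (nat_lit 0) (nat_lit 1625470769) (nat_lit 2) (nat_lit 5) (nat_lit 4) (nat_lit 4) (nat_lit 2) (nat_lit 4) (nat_lit 404) (nat_lit 202) (nat_lit 174)) (XT.lf (nat_lit 0) (nat_lit 7960801689) (nat_lit 152) (nat_lit 76529360689) (nat_lit 0) (nat_lit 3984322378) (nat_lit 2) (nat_lit 5) (nat_lit 4) (nat_lit 4) (nat_lit 2) (nat_lit 4) (nat_lit 405) (nat_lit 202) (nat_lit 173))))))))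
noncomputable def xc6 : XT := (XT.nd (nat_lit 39780) (nat_lit 0) (nat_lit 0) (XT.nd (nat_lit 38766) (nat_lit 0) (nat_lit 152) (XT.nd (nat_lit 38220) (nat_lit 0) (nat_lit 228) (XT.nd (nat_lit 234) (nat_lit 0) (nat_lit 0) (XT.nd (nat_lit 78) (nat_lit 0) (nat_lit 0) (XT.lf (nat_lit 0) (nat_lit 10447451830) (nat_lit 152) (nat_lit 74221358572) (nat_lit 0) (nat_lit 6385595303) (nat_lit 2) (nat_lit 5) (nat_lit 4) (nat_lit 4) (nat_lit 2) (nat_lit 4) (nat_lit 406) (nat_lit 202) (nat_lit 172)) (XT.nd (nat_lit 78) (nat_lit 0) (nat_lit 0) (XT.lf (nat_lit 0) (nat_lit 12976134772) (nat_lit 152) (nat_lit 71905187546) (nat_lit 0) (nat_lit 8831387745) (nat_lit 2) (nat_lit 5) (nat_lit 4) (nat_lit 4) (nat_lit 2) (nat_lit 4) (nat_lit 407) (nat_lit 202) (nat_lit 171)) (XT.lf (nat_lit 0) (nat_lit 15549060044) (nat_lit 152) (nat_lit 69578823772) (nat_lit 0) (nat_lit 11323836803) (nat_lit 2) (nat_lit 5) (nat_lit 4) (nat_lit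 4) (nat_lit 2) (nat_lit 4) (nat_lit 408) (nat_lit 202) (nat_lit 170)))) (XT.nd (nat_lit 78) (nat_lit 0) (nat_lit 0) (XT.lf (nat_lit 0) (nat_lit 18168475834) (nat_lit 152) (nat_lit 67240234505) (nat_lit 0) (nat_lit 13865120345) (nat_lit 2) (nat_lit 5) (nat_lit 4) (nat_lit 4) (nat_lit 2) (nat_lit 4) (nat_lit 409) (nat_lit 202) (nat_lit 169)) (XT.nd (nat_lit 37830) (nat_lit 0) (nat_lit 456) (XT.lf (nat_lit 0) (nat_lit 20836670950) (nat_lit 152) (nat_lit 64887376319) (nat_lit 0) (nat_lit 16457458912) (nat_lit 2) (nat_lit 5) (nat_lit 4) (nat_lit 4) (nat_lit 2) (nat_lit 4) (nat_lit 410) (nat_lit 202) (nat_lit 168)) (XT.lf (nat_lit 0) (nat_lit 8650672329) (nat_lit 152) (nat_lit 1340472244) (nat_lit 0) (nat_lit 8650672329) (nat_lit 8) (nat_lit 5) (nat_lit 10) (nat_lit 4) (nat_lit 8) (nat_lit 4) (nat_lit 374) (nat_lit 203) (nat_lit 203))))) (XT.nd (nat_lit 234) (nat_lit 152) (nat_lit 0) (XT.nd (nat_lit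 78) (nat_lit 0) (nat_lit 0) (XT.lf (nat_lit 0) (nat_lit 4094505959) (nat_lit 76) (nat_lit 17207538500) (nat_lit 76) (nat_lit 16987685105) (nat_lit 7) (nat_lit 4) (nat_lit 8) (nat_lit 5) (nat_lit 8) (nat_lit 4) (nat_lit 375) (nat_lit 203) (nat_lit 202)) (XT.nd (nat_lit 78) (nat_lit 0) (nat_lit 0) (XT.lf (nat_lit 0) (nat_lit 10994643471) (nat_lit 76) (nat_lit 14383021812) (nat_lit 76) (nat_lit 13949718517) (nat_lit 7) (nat_lit 4) (nat_lit 8) (nat_lit 5) (nat_lit 8) (nat_lit 4) (nat_lit 376) (nat_lit 203) (nat_lit 201)) (XT.lf (nat_lit 0) (nat_lit 17972141243) (nat_lit 76) (nat_lit 11533343340) (nat_lit 76) (nat_lit 10892807134) (nat_lit 7) (nat_lit 4) (nat_lit 8) (nat_lit 5) (nat_lit 8) (nat_lit 4) (nat_lit 377) (nat_lit 203) (nat_lit 200)))) (XT.nd (nat_lit 156) (nat_lit 152) (nat_lit 0) (XT.nd (nat_lit 78) (nat_lit 0) (nat_lit 0) (XT.lf (nat_lit 0) (nat_lit 25033096117) (nat_lit 76) (nat_lit 8656013075)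 (nat_lit 76) (nat_lit 7814279868) (nat_lit 7) (nat_lit 4) (nat_lit 8) (nat_lit 5) (nat_lit 8) (nat_lit 4) (nat_lit 378) (nat_lit 203) (nat_lit 199)) (XT.lf (nat_lit 0) (nat_lit 32183677859) (nat_lit 76) (nat_lit 5748516845) (nat_lit 76) (nat_lit 4711446743) (nat_lit 7) (nat_lit 4) (nat_lit 8) (nat_lit 5) (nat_lit 8) (nat_lit 4) (nat_lit 379) (nat_lit 203) (nat_lit 198))) (XT.nd (nat_lit 78) (nat_lit 152) (nat_lit 0) (XT.lf (nat_lit 0) (nat_lit 39430134551) (nat_lit 76) (nat_lit 2808314118) (nat_lit 76) (nat_lit 1581596545) (nat_lit 7) (nat_lit 4) (nat_lit 8) (nat_lit 5) (nat_lit 8) (nat_lit 4) (nat_lit 380) (nat_lit 203) (nat_lit 197)) (XT.lf (nat_lit 0) (nat_lit 1566098766) (nat_lit 152) (nat_lit 43270157985) (nat_lit 0) (nat_lit 196349901) (nat_lit 5) (nat_lit 5) (nat_lit 7) (nat_lit 4) (nat_lit 5) (nat_lit 4) (nat_lit 381) (nat_lit 203) (nat_lit 196)))))) (XT.nd (nat_lit 468) (nat_lit 76) (nat_lit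 0) (XT.nd (nat_lit 234) (nat_lit 0) (nat_lit 0) (XT.nd (nat_lit 78) (nat_lit 0) (nat_lit 0) (XT.lf (nat_lit 0) (nat_lit 4786330393) (nat_lit 152) (nat_lit 38251439092) (nat_lit 0) (nat_lit 3243027228) (nat_lit 5) (nat_lit 5) (nat_lit 7) (nat_lit 4) (nat_lit 5) (nat_lit 4) (nat_lit 382) (nat_lit 203) (nat_lit 195)) (XT.nd (nat_lit 78) (nat_lit 0) (nat_lit 0) (XT.lf (nat_lit 0) (nat_lit 8042315082) (nat_lit 152) (nat_lit 33195448262) (nat_lit 0) (nat_lit 6330512596) (nat_lit 5) (nat_lit 5) (nat_lit 7) (nat_lit 4) (nat_lit 5) (nat_lit 4) (nat_lit 383) (nat_lit 203) (nat_lit 194)) (XT.lf (nat_lit 0) (nat_lit 11336897867) (nat_lit 152) (nat_lit 28097767640) (nat_lit 0) (nat_lit 9461503807) (nat_lit 5) (nat_lit 5) (nat_lit 7) (nat_lit 4) (nat_lit 5) (nat_lit 4) (nat_lit 384) (nat_lit 203) (nat_lit 193)))) (XT.nd (nat_lit 78) (nat_lit 0) (nat_lit 0) (XT.lf (nat_lit 0) (nat_lit 14672957509) (nat_lit 152)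 (nat_lit 22953942941) (nat_lit 0) (nat_lit 12638736678) (nat_lit 5) (nat_lit 5) (nat_lit 7) (nat_lit 4) (nat_lit 5) (nat_lit 4) (nat_lit 385) (nat_lit 203) (nat_lit 192)) (XT.nd (nat_lit 78) (nat_lit 0) (nat_lit 0) (XT.lf (nat_lit 0) (nat_lit 18053409013) (nat_lit 152) (nat_lit 17759479561) (nat_lit 0) (nat_lit 15864987434) (nat_lit 5) (nat_lit 5) (nat_lit 7) (nat_lit 4) (nat_lit 5) (nat_lit 4) (nat_lit 386) (nat_lit 203) (nat_lit 191)) (XT.lf (nat_lit 0) (nat_lit 21481206171) (nat_lit 152) (nat_lit 12509838649) (nat_lit 0) (nat_lit 19143075127) (nat_lit 5) (nat_lit 5) (nat_lit 7) (nat_lit 4) (nat_lit 5) (nat_lit 4) (nat_lit 387) (nat_lit 203) (nat_lit 190))))) (XT.nd (nat_lit 234) (nat_lit 0) (nat_lit 0) (XT.nd (nat_lit 78) (nat_lit 76) (nat_lit 0) (XT.lf (nat_lit 0) (nat_lit 24959344145) (nat_lit 152) (nat_lit 7200433139) (nat_lit 0) (nat_lit 22475864106) (nat_lit 5) (nat_lit 5) (nat_lit 7)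 (nat_lit 4) (nat_lit 5) (nat_lit 4) (nat_lit 388) (nat_lit 203) (nat_lit 189)) (XT.nd (nat_lit 78) (nat_lit 76) (nat_lit 0) (XT.lf (nat_lit 0) (nat_lit 28490862085) (nat_lit 152) (nat_lit 1826623746) (nat_lit 0) (nat_lit 25866266518) (nat_lit 5) (nat_lit 5) (nat_lit 7) (nat_lit 4) (nat_lit 5) (nat_lit 4) (nat_lit 389) (nat_lit 203) (nat_lit 188)) (XT.lf (nat_lit 0) (nat_lit 3688256255) (nat_lit 76) (nat_lit 28426043303) (nat_lit 76) (nat_lit 25664442369) (nat_lit 4) (nat_lit 4) (nat_lit 5) (nat_lit 5) (nat_lit 5) (nat_lit 4) (nat_lit 390) (nat_lit 203) (nat_lit 187)))) (XT.nd (nat_lit 156) (nat_lit 0) (nat_lit 0) (XT.nd (nat_lit 78) (nat_lit 0) (nat_lit 0) (XT.lf (nat_lit 0) (nat_lit 9314814903) (nat_lit 76) (nat_lit 26501155167) (nat_lit 76) (nat_lit 23606539312) (nat_lit 4) (nat_lit 4) (nat_lit 5) (nat_lit 5) (nat_lit 5) (nat_lit 4) (nat_lit 391) (nat_lit 203) (nat_lit 186)) (XT.lf (nat_lit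 0) (nat_lit 15021615214) (nat_lit 76) (nat_lit 24559584801) (nat_lit 76) (nat_lit 21535828246) (nat_lit 4) (nat_lit 4) (nat_lit 5) (nat_lit 5) (nat_lit 5) (nat_lit 4) (nat_lit 392) (nat_lit 203) (nat_lit 185))) (XT.nd (nat_lit 78) (nat_lit 0) (nat_lit 0) (XT.lf (nat_lit 0) (nat_lit 20813643711) (nat_lit 76) (nat_lit 22599635685) (nat_lit 76) (nat_lit 19450499812) (nat_lit 4) (nat_lit 4) (nat_lit 5) (nat_lit 5) (nat_lit 5) (nat_lit 4) (nat_lit 393) (nat_lit 203) (nat_lit 184)) (XT.lf (nat_lit 0) (nat_lit 26695961391) (nat_lit 76) (nat_lit 20619595244) (nat_lit 76) (nat_lit 17348731876) (nat_lit 4) (nat_lit 4) (nat_lit 5) (nat_lit 5) (nat_lit 5) (nat_lit 4) (nat_lit 394) (nat_lit 203) (nat_lit 183))))))) (XT.nd (nat_lit 1014) (nat_lit 0) (nat_lit 0) (XT.nd (nat_lit 468) (nat_lit 152) (nat_lit 0) (XT.nd (nat_lit 234) (nat_lit 0) (nat_lit 0) (XT.nd (nat_lit 78) (nat_lit 0) (nat_lit 0) (XT.lf (nat_lit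 0) (nat_lit 32673708144) (nat_lit 76) (nat_lit 18617733346) (nat_lit 76) (nat_lit 15228687944) (nat_lit 4) (nat_lit 4) (nat_lit 5) (nat_lit 5) (nat_lit 5) (nat_lit 4) (nat_lit 395) (nat_lit 203) (nat_lit 182)) (XT.nd (nat_lit 78) (nat_lit 0) (nat_lit 0) (XT.lf (nat_lit 0) (nat_lit 38752107241) (nat_lit 76) (nat_lit 16592300790) (nat_lit 76) (nat_lit 13088515549) (nat_lit 4) (nat_lit 4) (nat_lit 5) (nat_lit 5) (nat_lit 5) (nat_lit 4) (nat_lit 396) (nat_lit 203) (nat_lit 181)) (XT.lf (nat_lit 0) (nat_lit 44936469908) (nat_lit 76) (nat_lit 14541527781) (nat_lit 76) (nat_lit 10926344638) (nat_lit 4) (nat_lit 4) (nat_lit 5) (nat_lit 5) (nat_lit 5) (nat_lit 4) (nat_lit 397) (nat_lit 203) (nat_lit 180)))) (XT.nd (nat_lit 78) (nat_lit 0) (nat_lit 0) (XT.lf (nat_lit 0) (nat_lit 51232199954) (nat_lit 76) (nat_lit 12463622381) (nat_lit 76) (nat_lit 8740285936) (nat_lit 4) (nat_lit 4) (nat_lit 5) (nat_lit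 5) (nat_lit 5) (nat_lit 4) (nat_lit 398) (nat_lit 203) (nat_lit 179)) (XT.nd (nat_lit 78) (nat_lit 0) (nat_lit 0) (XT.lf (nat_lit 0) (nat_lit 57644798504) (nat_lit 76) (nat_lit 10356768945) (nat_lit 76) (nat_lit 6528429294) (nat_lit 4) (nat_lit 4) (nat_lit 5) (nat_lit 5) (nat_lit 5) (nat_lit 4) (nat_lit 399) (nat_lit 203) (nat_lit 178)) (XT.lf (nat_lit 0) (nat_lit 64179868800) (nat_lit 76) (nat_lit 8219126533) (nat_lit 76) (nat_lit 4288842022) (nat_lit 4) (nat_lit 4) (nat_lit 5) (nat_lit 5) (nat_lit 5) (nat_lit 4) (nat_lit 400) (nat_lit 203) (nat_lit 177))))) (XT.nd (nat_lit 234) (nat_lit 0) (nat_lit 0) (XT.nd (nat_lit 78) (nat_lit 152) (nat_lit 0) (XT.lf (nat_lit 0) (nat_lit 70843121096) (nat_lit 76) (nat_lit 6048827302) (nat_lit 76) (nat_lit 2019567199) (nat_lit 4) (nat_lit 4) (nat_lit 5) (nat_lit 5) (nat_lit 5) (nat_lit 4) (nat_lit 401) (nat_lit 203) (nat_lit 176)) (XT.nd (nat_lit 78) (nat_lit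 76) (nat_lit 0) (XT.lf (nat_lit 0) (nat_lit 275887337) (nat_lit 152) (nat_lit 3565301616) (nat_lit 76) (nat_lit 77361704393) (nat_lit 3) (nat_lit 5) (nat_lit 5) (nat_lit 5) (nat_lit 4) (nat_lit 4) (nat_lit 402) (nat_lit 203) (nat_lit 175)) (XT.lf (nat_lit 0) (nat_lit 1007882320) (nat_lit 76) (nat_lit 1566762616) (nat_lit 152) (nat_lit 80988526292) (nat_lit 2) (nat_lit 5) (nat_lit 3) (nat_lit 5) (nat_lit 4) (nat_lit 4) (nat_lit 403) (nat_lit 203) (nat_lit 174)))) (XT.nd (nat_lit 156) (nat_lit 0) (nat_lit 0) (XT.nd (nat_lit 78) (nat_lit 0) (nat_lit 0) (XT.lf (nat_lit 0) (nat_lit 4951632656) (nat_lit 152) (nat_lit 80274435648) (nat_lit 0) (nat_lit 767920434) (nat_lit 2) (nat_lit 5) (nat_lit 4) (nat_lit 4) (nat_lit 2) (nat_lit 4) (nat_lit 404) (nat_lit 203) (nat_lit 173)) (XT.lf (nat_lit 0) (nat_lit 7381898805) (nat_lit 152) (nat_lit 78003572581) (nat_lit 0) (nat_lit 3112809367) (nat_lit 2) (nat_lit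 5) (nat_lit 4) (nat_lit 4) (nat_lit 2) (nat_lit 4) (nat_lit 405) (nat_lit 203) (nat_lit 172))) (XT.nd (nat_lit 78) (nat_lit 0) (nat_lit 0) (XT.lf (nat_lit 0) (nat_lit 9852506235) (nat_lit 152) (nat_lit 75725654776) (nat_lit 0) (nat_lit 5500526296) (nat_lit 2) (nat_lit 5) (nat_lit 4) (nat_lit 4) (nat_lit 2) (nat_lit 4) (nat_lit 406) (nat_lit 203) (nat_lit 171)) (XT.lf (nat_lit 0) (nat_lit 12365613730) (nat_lit 152) (nat_lit 73438691821) (nat_lit 0) (nat_lit 7933157577) (nat_lit 2) (nat_lit 5) (nat_lit 4) (nat_lit 4) (nat_lit 2) (nat_lit 4) (nat_lit 407) (nat_lit 203) (nat_lit 170)))))) (XT.nd (nat_lit 38142) (nat_lit 0) (nat_lit 228) (XT.nd (nat_lit 37830) (nat_lit 0) (nat_lit 380) (XT.nd (nat_lit 78) (nat_lit 0) (nat_lit 0) (XT.lf (nat_lit 0) (nat_lit 14923417208) (nat_lit 152) (nat_lit 71140685397) (nat_lit 0) (nat_lit 10412828809) (nat_lit 2) (nat_lit 5) (nat_lit 4) (nat_lit 4) (nat_lit 2) (nat_lit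 4) (nat_lit 408) (nat_lit 203) (nat_lit 169)) (XT.nd (nat_lit 78) (nat_lit 0) (nat_lit 0) (XT.lf (nat_lit 0) (nat_lit 17528151645) (nat_lit 152) (nat_lit 68829627538) (nat_lit 0) (nat_lit 12941706695) (nat_lit 2) (nat_lit 5) (nat_lit 4) (nat_lit 4) (nat_lit 2) (nat_lit 4) (nat_lit 409) (nat_lit 203) (nat_lit 168)) (XT.lf (nat_lit 0) (nat_lit 20182093021) (nat_lit 152) (nat_lit 66503498874) (nat_lit 0) (nat_lit 15522000935) (nat_lit 2) (nat_lit 5) (nat_lit 4) (nat_lit 4) (nat_lit 2) (nat_lit 4) (nat_lit 410) (nat_lit 203) (nat_lit 167)))) (XT.nd (nat_lit 156) (nat_lit 76) (nat_lit 0) (XT.nd (nat_lit 78) (nat_lit 0) (nat_lit 0) (XT.lf (nat_lit 0) (nat_lit 4886103583) (nat_lit 152) (nat_lit 7908576407) (nat_lit 0) (nat_lit 4886103583) (nat_lit 8) (nat_lit 5) (nat_lit 10) (nat_lit 4) (nat_lit 8) (nat_lit 4) (nat_lit 372) (nat_lit 204) (nat_lit 204)) (XT.lf (nat_lit 0) (nat_lit 13610942963) (nat_lit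 152) (nat_lit 9312407770) (nat_lit 0) (nat_lit 13384493965) (nat_lit 8) (nat_lit 5) (nat_lit 10) (nat_lit 4) (nat_lit 8) (nat_lit 4) (nat_lit 373) (nat_lit 204) (nat_lit 203))) (XT.nd (nat_lit 78) (nat_lit 76) (nat_lit 0) (XT.lf (nat_lit 0) (nat_lit 17491825524) (nat_lit 152) (nat_lit 2747375666) (nat_lit 0) (nat_lit 17045523130) (nat_lit 8) (nat_lit 5) (nat_lit 10) (nat_lit 4) (nat_lit 8) (nat_lit 4) (nat_lit 374) (nat_lit 204) (nat_lit 202)) (XT.lf (nat_lit 0) (nat_lit 3960972777) (nat_lit 76) (nat_lit 17495348427) (nat_lit 76) (nat_lit 16835596135) (nat_lit 7) (nat_lit 4) (nat_lit 8) (nat_lit 5) (nat_lit 8) (nat_lit 4) (nat_lit 375) (nat_lit 204) (nat_lit 201))))) (XT.nd (nat_lit 234) (nat_lit 152) (nat_lit 0) (XT.nd (nat_lit 78) (nat_lit 0) (nat_lit 0) (XT.lf (nat_lit 0) (nat_lit 10797246316) (nat_lit 76) (nat_lit 14700178397) (nat_lit 76) (nat_lit 13833193194) (nat_lit 7) (nat_lit 4) (nat_lit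 8) (nat_lit 5) (nat_lit 8) (nat_lit 4) (nat_lit 376) (nat_lit 204) (nat_lit 200)) (XT.nd (nat_lit 78) (nat_lit 0) (nat_lit 0) (XT.lf (nat_lit 0) (nat_lit 17712740230) (nat_lit 76) (nat_lit 11878991828) (nat_lit 76) (nat_lit 10810809623) (nat_lit 7) (nat_lit 4) (nat_lit 8) (nat_lit 5) (nat_lit 8) (nat_lit 4) (nat_lit 377) (nat_lit 204) (nat_lit 199)) (XT.lf (nat_lit 0) (nat_lit 24713497184) (nat_lit 76) (nat_lit 9029323603) (nat_lit 76) (nat_lit 7765804503) (nat_lit 7) (nat_lit 4) (nat_lit 8) (nat_lit 5) (nat_lit 8) (nat_lit 4) (nat_lit 378) (nat_lit 204) (nat_lit 198)))) (XT.nd (nat_lit 156) (nat_lit 152) (nat_lit 0) (XT.nd (nat_lit 78) (nat_lit 0) (nat_lit 0) (XT.lf (nat_lit 0) (nat_lit 31805634344) (nat_lit 76) (nat_lit 6148683722) (nat_lit 76) (nat_lit 4695517152) (nat_lit 7) (nat_lit 4) (nat_lit 8) (nat_lit 5) (nat_lit 8) (nat_lit 4) (nat_lit 379) (nat_lit 204) (nat_lit 197)) (XT.lf (nat_lit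 0) (nat_lit 38995348722) (nat_lit 76) (nat_lit 3234555121) (nat_lit 76) (nat_lit 1597264794) (nat_lit 7) (nat_lit 4) (nat_lit 8) (nat_lit 5) (nat_lit 8) (nat_lit 4) (nat_lit 380) (nat_lit 204) (nat_lit 196))) (XT.nd (nat_lit 78) (nat_lit 0) (nat_lit 0) (XT.lf (nat_lit 0) (nat_lit 1257075120) (nat_lit 76) (nat_lit 256780238) (nat_lit 152) (nat_lit 43526994718) (nat_lit 5) (nat_lit 5) (nat_lit 6) (nat_lit 5) (nat_lit 7) (nat_lit 4) (nat_lit 381) (nat_lit 204) (nat_lit 195)) (XT.lf (nat_lit 0) (nat_lit 4701641372) (nat_lit 152) (nat_lit 38818395435) (nat_lit 0) (nat_lit 2769985490) (nat_lit 5) (nat_lit 5) (nat_lit 7) (nat_lit 4) (nat_lit 5) (nat_lit 4) (nat_lit 382) (nat_lit 204) (nat_lit 194))))))))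
noncomputable def xc7 : XT := (XT.nd (nat_lit 2106) (nat_lit 0) (nat_lit 0) (XT.nd (nat_lit 1014) (nat_lit 152) (nat_lit 0) (XT.nd (nat_lit 468) (nat_lit 76) (nat_lit 0) (XT.nd (nat_lit 234) (nat_lit 0) (nat_lit 0) (XT.nd (nat_lit 78) (nat_lit 0) (nat_lit 0) (XT.lf (nat_lit 0) (nat_lit 7928521901) (nat_lit 152) (nat_lit 33816586838) (nat_lit 0) (nat_lit 5833274445) (nat_lit 5) (nat_lit 5) (nat_lit 7) (nat_lit 4) (nat_lit 5) (nat_lit 4) (nat_lit 383) (nat_lit 204) (nat_lit 193)) (XT.nd (nat_lit 78) (nat_lit 0) (nat_lit 0) (XT.lf (nat_lit 0) (nat_lit 11194848220) (nat_lit 152) (nat_lit 28771510325) (nat_lit 0) (nat_lit 8940773993) (nat_lit 5) (nat_lit 5) (nat_lit 7) (nat_lit 4) (nat_lit 5) (nat_lit 4) (nat_lit 384) (nat_lit 204) (nat_lit 192)) (XT.lf (nat_lit 0) (nat_lit 14503474400) (nat_lit 152) (nat_lit 23678757576) (nat_lit 0) (nat_lit 12095199425) (nat_lit 5) (nat_lit 5) (nat_lit 7) (nat_lit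 4) (nat_lit 5) (nat_lit 4) (nat_lit 385) (nat_lit 204) (nat_lit 191)))) (XT.nd (nat_lit 78) (nat_lit 0) (nat_lit 0) (XT.lf (nat_lit 0) (nat_lit 17857291475) (nat_lit 152) (nat_lit 18533878615) (nat_lit 0) (nat_lit 15299307035) (nat_lit 5) (nat_lit 5) (nat_lit 7) (nat_lit 4) (nat_lit 5) (nat_lit 4) (nat_lit 386) (nat_lit 204) (nat_lit 190)) (XT.nd (nat_lit 78) (nat_lit 0) (nat_lit 0) (XT.lf (nat_lit 0) (nat_lit 21259229964) (nat_lit 152) (nat_lit 13332377914) (nat_lit 0) (nat_lit 18555896529) (nat_lit 5) (nat_lit 5) (nat_lit 7) (nat_lit 4) (nat_lit 5) (nat_lit 4) (nat_lit 387) (nat_lit 204) (nat_lit 189)) (XT.lf (nat_lit 0) (nat_lit 24712262433) (nat_lit 152) (nat_lit 8069710475) (nat_lit 0) (nat_lit 21867813471) (nat_lit 5) (nat_lit 5) (nat_lit 7) (nat_lit 4) (nat_lit 5) (nat_lit 4) (nat_lit 388) (nat_lit 204) (nat_lit 188))))) (XT.nd (nat_lit 234) (nat_lit 0) (nat_lit 0) (XT.nd (nat_lit 78) (nat_lit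 76) (nat_lit 0) (XT.lf (nat_lit 0) (nat_lit 28219406098) (nat_lit 152) (nat_lit 2741277849) (nat_lit 0) (nat_lit 25237951767) (nat_lit 5) (nat_lit 5) (nat_lit 7) (nat_lit 4) (nat_lit 5) (nat_lit 4) (nat_lit 389) (nat_lit 204) (nat_lit 187)) (XT.nd (nat_lit 78) (nat_lit 0) (nat_lit 0) (XT.lf (nat_lit 0) (nat_lit 2710466846) (nat_lit 76) (nat_lit 29099313270) (nat_lit 76) (nat_lit 25984844019) (nat_lit 4) (nat_lit 4) (nat_lit 5) (nat_lit 5) (nat_lit 5) (nat_lit 4) (nat_lit 390) (nat_lit 204) (nat_lit 186)) (XT.lf (nat_lit 0) (nat_lit 8293402293) (nat_lit 76) (nat_lit 27194653909) (nat_lit 76) (nat_lit 23951043959) (nat_lit 4) (nat_lit 4) (nat_lit 5) (nat_lit 5) (nat_lit 5) (nat_lit 4) (nat_lit 391) (nat_lit 204) (nat_lit 185)))) (XT.nd (nat_lit 156) (nat_lit 0) (nat_lit 0) (XT.nd (nat_lit 78) (nat_lit 0) (nat_lit 0) (XT.lf (nat_lit 0) (nat_lit 13957849982) (nat_lit 76) (nat_lit 25272723130) (nat_lit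 76) (nat_lit 21903733860) (nat_lit 4) (nat_lit 4) (nat_lit 5) (nat_lit 5) (nat_lit 5) (nat_lit 4) (nat_lit 392) (nat_lit 204) (nat_lit 184)) (XT.lf (nat_lit 0) (nat_lit 19708759429) (nat_lit 76) (nat_lit 23331841575) (nat_lit 76) (nat_lit 19841124811) (nat_lit 4) (nat_lit 4) (nat_lit 5) (nat_lit 5) (nat_lit 5) (nat_lit 4) (nat_lit 393) (nat_lit 204) (nat_lit 183))) (XT.nd (nat_lit 78) (nat_lit 0) (nat_lit 0) (XT.lf (nat_lit 0) (nat_lit 25551155701) (nat_lit 76) (nat_lit 21370313329) (nat_lit 76) (nat_lit 17761414531) (nat_lit 4) (nat_lit 4) (nat_lit 5) (nat_lit 5) (nat_lit 5) (nat_lit 4) (nat_lit 394) (nat_lit 204) (nat_lit 182)) (XT.lf (nat_lit 0) (nat_lit 31490143805) (nat_lit 76) (nat_lit 19386424435) (nat_lit 76) (nat_lit 15662785799) (nat_lit 4) (nat_lit 4) (nat_lit 5) (nat_lit 5) (nat_lit 5) (nat_lit 4) (nat_lit 395) (nat_lit 204) (nat_lit 181)))))) (XT.nd (nat_lit 546) (nat_lit 152) (nat_lit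 0) (XT.nd (nat_lit 234) (nat_lit 0) (nat_lit 0) (XT.nd (nat_lit 78) (nat_lit 0) (nat_lit 0) (XT.lf (nat_lit 0) (nat_lit 37530913147) (nat_lit 76) (nat_lit 17378441398) (nat_lit 76) (nat_lit 13543404860) (nat_lit 4) (nat_lit 4) (nat_lit 5) (nat_lit 5) (nat_lit 5) (nat_lit 4) (nat_lit 396) (nat_lit 204) (nat_lit 180)) (XT.nd (nat_lit 78) (nat_lit 0) (nat_lit 0) (XT.lf (nat_lit 0) (nat_lit 43678742069) (nat_lit 76) (nat_lit 15344609669) (nat_lit 76) (nat_lit 11401419829) (nat_lit 4) (nat_lit 4) (nat_lit 5) (nat_lit 5) (nat_lit 5) (nat_lit 4) (nat_lit 397) (nat_lit 204) (nat_lit 179)) (XT.lf (nat_lit 0) (nat_lit 49939002462) (nat_lit 76) (nat_lit 13283152115) (nat_lit 76) (nat_lit 9234959069) (nat_lit 4) (nat_lit 4) (nat_lit 5) (nat_lit 5) (nat_lit 5) (nat_lit 4) (nat_lit 398) (nat_lit 204) (nat_lit 178)))) (XT.nd (nat_lit 156) (nat_lit 0) (nat_lit 0) (XT.nd (nat_lit 78) (nat_lit 0) (nat_lit 0) (XT.lf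 (nat_lit 0) (nat_lit 56317164455) (nat_lit 76) (nat_lit 11192267461) (nat_lit 76) (nat_lit 7042129554) (nat_lit 4) (nat_lit 4) (nat_lit 5) (nat_lit 5) (nat_lit 5) (nat_lit 4) (nat_lit 399) (nat_lit 204) (nat_lit 177)) (XT.lf (nat_lit 0) (nat_lit 62818801199) (nat_lit 76) (nat_lit 9070128721) (nat_lit 76) (nat_lit 4821015221) (nat_lit 4) (nat_lit 4) (nat_lit 5) (nat_lit 5) (nat_lit 5) (nat_lit 4) (nat_lit 400) (nat_lit 204) (nat_lit 176))) (XT.nd (nat_lit 78) (nat_lit 0) (nat_lit 0) (XT.lf (nat_lit 0) (nat_lit 69449593737) (nat_lit 76) (nat_lit 6914881599) (nat_lit 76) (nat_lit 2569675291) (nat_lit 4) (nat_lit 4) (nat_lit 5) (nat_lit 5) (nat_lit 5) (nat_lit 4) (nat_lit 401) (nat_lit 204) (nat_lit 175)) (XT.lf (nat_lit 0) (nat_lit 76215335965) (nat_lit 76) (nat_lit 4724642869) (nat_lit 76) (nat_lit 286142572) (nat_lit 4) (nat_lit 4) (nat_lit 5) (nat_lit 5) (nat_lit 5) (nat_lit 4) (nat_lit 402) (nat_lit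 204) (nat_lit 174))))) (XT.nd (nat_lit 234) (nat_lit 0) (nat_lit 0) (XT.nd (nat_lit 78) (nat_lit 76) (nat_lit 0) (XT.lf (nat_lit 0) (nat_lit 1991934845) (nat_lit 152) (nat_lit 485449249) (nat_lit 76) (nat_lit 81109890215) (nat_lit 3) (nat_lit 5) (nat_lit 5) (nat_lit 5) (nat_lit 4) (nat_lit 4) (nat_lit 403) (nat_lit 204) (nat_lit 173)) (XT.nd (nat_lit 78) (nat_lit 0) (nat_lit 0) (XT.lf (nat_lit 0) (nat_lit 4193686956) (nat_lit 76) (nat_lit 146560567) (nat_lit 152) (nat_lit 81678709001) (nat_lit 2) (nat_lit 5) (nat_lit 3) (nat_lit 5) (nat_lit 4) (nat_lit 4) (nat_lit 404) (nat_lit 204) (nat_lit 172)) (XT.lf (nat_lit 0) (nat_lit 6753062131) (nat_lit 152) (nat_lit 79583081984) (nat_lit 0) (nat_lit 2187632294) (nat_lit 2) (nat_lit 5) (nat_lit 4) (nat_lit 4) (nat_lit 2) (nat_lit 4) (nat_lit 405) (nat_lit 204) (nat_lit 171)))) (XT.nd (nat_lit 156) (nat_lit 0) (nat_lit 0) (XT.nd (nat_lit 78) (nat_lit 0)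 (nat_lit 0) (XT.lf (nat_lit 0) (nat_lit 9208094114) (nat_lit 152) (nat_lit 77334372250) (nat_lit 0) (nat_lit 4562188062) (nat_lit 2) (nat_lit 5) (nat_lit 4) (nat_lit 4) (nat_lit 2) (nat_lit 4) (nat_lit 406) (nat_lit 204) (nat_lit 170)) (XT.lf (nat_lit 0) (nat_lit 11706079815) (nat_lit 152) (nat_lit 75075766644) (nat_lit 0) (nat_lit 6982041517) (nat_lit 2) (nat_lit 5) (nat_lit 4) (nat_lit 4) (nat_lit 2) (nat_lit 4) (nat_lit 407) (nat_lit 204) (nat_lit 169))) (XT.nd (nat_lit 78) (nat_lit 0) (nat_lit 0) (XT.lf (nat_lit 0) (nat_lit 14249201941) (nat_lit 152) (nat_lit 72805291628) (nat_lit 0) (nat_lit 9449307092) (nat_lit 2) (nat_lit 5) (nat_lit 4) (nat_lit 4) (nat_lit 2) (nat_lit 4) (nat_lit 408) (nat_lit 204) (nat_lit 168)) (XT.lf (nat_lit 0) (nat_lit 16839682637) (nat_lit 152) (nat_lit 70520963292) (nat_lit 0) (nat_lit 11966140652) (nat_lit 2) (nat_lit 5) (nat_lit 4) (nat_lit 4) (nat_lit 2) (nat_lit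 4) (nat_lit 409) (nat_lit 204) (nat_lit 167))))))) (XT.nd (nat_lit 38454) (nat_lit 0) (nat_lit 152) (XT.nd (nat_lit 37908) (nat_lit 0) (nat_lit 228) (XT.nd (nat_lit 37674) (nat_lit 0) (nat_lit 456) (XT.nd (nat_lit 37518) (nat_lit 0) (nat_lit 456) (XT.lf (nat_lit 0) (nat_lit 19479785429) (nat_lit 152) (nat_lit 68220785620) (nat_lit 0) (nat_lit 14534741370) (nat_lit 2) (nat_lit 5) (nat_lit 4) (nat_lit 4) (nat_lit 2) (nat_lit 4) (nat_lit 410) (nat_lit 204) (nat_lit 166)) (XT.nd (nat_lit 78) (nat_lit 0) (nat_lit 0) (XT.lf (nat_lit 0) (nat_lit 1239596940) (nat_lit 152) (nat_lit 14298996106) (nat_lit 0) (nat_lit 1239596940) (nat_lit 8) (nat_lit 5) (nat_lit 10) (nat_lit 4) (nat_lit 8) (nat_lit 4) (nat_lit 370) (nat_lit 205) (nat_lit 205)) (XT.lf (nat_lit 0) (nat_lit 6205506366) (nat_lit 152) (nat_lit 22267294560) (nat_lit 0) (nat_lit 5972263898) (nat_lit 8) (nat_lit 5) (nat_lit 10) (nat_lit 4) (nat_lit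 8) (nat_lit 4) (nat_lit 371) (nat_lit 205) (nat_lit 204)))) (XT.nd (nat_lit 78) (nat_lit 0) (nat_lit 0) (XT.lf (nat_lit 0) (nat_lit 9968402457) (nat_lit 152) (nat_lit 15885576929) (nat_lit 0) (nat_lit 9508710992) (nat_lit 8) (nat_lit 5) (nat_lit 10) (nat_lit 4) (nat_lit 8) (nat_lit 4) (nat_lit 372) (nat_lit 205) (nat_lit 203)) (XT.nd (nat_lit 78) (nat_lit 0) (nat_lit 0) (XT.lf (nat_lit 0) (nat_lit 13771170121) (nat_lit 152) (nat_lit 9447263063) (nat_lit 0) (nat_lit 13091625260) (nat_lit 8) (nat_lit 5) (nat_lit 10) (nat_lit 4) (nat_lit 8) (nat_lit 4) (nat_lit 373) (nat_lit 205) (nat_lit 202)) (XT.lf (nat_lit 0) (nat_lit 17617132164) (nat_lit 152) (nat_lit 2946727249) (nat_lit 0) (nat_lit 16724137404) (nat_lit 8) (nat_lit 5) (nat_lit 10) (nat_lit 4) (nat_lit 8) (nat_lit 4) (nat_lit 374) (nat_lit 205) (nat_lit 201))))) (XT.nd (nat_lit 234) (nat_lit 152) (nat_lit 0) (XT.nd (nat_lit 78) (nat_lit 0)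 (nat_lit 0) (XT.lf (nat_lit 0) (nat_lit 3693789733) (nat_lit 76) (nat_lit 17851366369) (nat_lit 76) (nat_lit 16751138697) (nat_lit 7) (nat_lit 4) (nat_lit 8) (nat_lit 5) (nat_lit 8) (nat_lit 4) (nat_lit 375) (nat_lit 205) (nat_lit 200)) (XT.nd (nat_lit 78) (nat_lit 0) (nat_lit 0) (XT.lf (nat_lit 0) (nat_lit 10468059415) (nat_lit 76) (nat_lit 15084688241) (nat_lit 76) (nat_lit 13783263568) (nat_lit 7) (nat_lit 4) (nat_lit 8) (nat_lit 5) (nat_lit 8) (nat_lit 4) (nat_lit 376) (nat_lit 205) (nat_lit 199)) (XT.lf (nat_lit 0) (nat_lit 17323355409) (nat_lit 76) (nat_lit 12291163712) (nat_lit 76) (nat_lit 10794402145) (nat_lit 7) (nat_lit 4) (nat_lit 8) (nat_lit 5) (nat_lit 8) (nat_lit 4) (nat_lit 377) (nat_lit 205) (nat_lit 198)))) (XT.nd (nat_lit 156) (nat_lit 152) (nat_lit 0) (XT.nd (nat_lit 78) (nat_lit 0) (nat_lit 0) (XT.lf (nat_lit 0) (nat_lit 24265667780) (nat_lit 76) (nat_lit 9468351837) (nat_lit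 76) (nat_lit 7781942800) (nat_lit 7) (nat_lit 4) (nat_lit 8) (nat_lit 5) (nat_lit 8) (nat_lit 4) (nat_lit 378) (nat_lit 205) (nat_lit 197)) (XT.lf (nat_lit 0) (nat_lit 31301062627) (nat_lit 76) (nat_lit 6613786083) (nat_lit 76) (nat_lit 4743253287) (nat_lit 7) (nat_lit 4) (nat_lit 8) (nat_lit 5) (nat_lit 8) (nat_lit 4) (nat_lit 379) (nat_lit 205) (nat_lit 196))) (XT.nd (nat_lit 78) (nat_lit 152) (nat_lit 0) (XT.lf (nat_lit 0) (nat_lit 38435687381) (nat_lit 76) (nat_lit 3724972168) (nat_lit 76) (nat_lit 1675678442) (nat_lit 7) (nat_lit 4) (nat_lit 8) (nat_lit 5) (nat_lit 8) (nat_lit 4) (nat_lit 380) (nat_lit 205) (nat_lit 195)) (XT.lf (nat_lit 0) (nat_lit 622541084) (nat_lit 76) (nat_lit 779128428) (nat_lit 152) (nat_lit 43649440392) (nat_lit 5) (nat_lit 5) (nat_lit 6) (nat_lit 5) (nat_lit 7) (nat_lit 4) (nat_lit 381) (nat_lit 205) (nat_lit 194)))))) (XT.nd (nat_lit 546) (nat_lit 76) (nat_lit 0)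 (XT.nd (nat_lit 234) (nat_lit 0) (nat_lit 0) (XT.nd (nat_lit 78) (nat_lit 0) (nat_lit 0) (XT.lf (nat_lit 0) (nat_lit 4555330236) (nat_lit 152) (nat_lit 39512350400) (nat_lit 0) (nat_lit 2233633783) (nat_lit 5) (nat_lit 5) (nat_lit 7) (nat_lit 4) (nat_lit 5) (nat_lit 4) (nat_lit 382) (nat_lit 205) (nat_lit 193)) (XT.nd (nat_lit 78) (nat_lit 0) (nat_lit 0) (XT.lf (nat_lit 0) (nat_lit 7753954299) (nat_lit 152) (nat_lit 34563145912) (nat_lit 0) (nat_lit 5273431075) (nat_lit 5) (nat_lit 5) (nat_lit 7) (nat_lit 4) (nat_lit 5) (nat_lit 4) (nat_lit 383) (nat_lit 205) (nat_lit 192)) (XT.lf (nat_lit 0) (nat_lit 10992847156) (nat_lit 152) (nat_lit 29569141350) (nat_lit 0) (nat_lit 8358123183) (nat_lit 5) (nat_lit 5) (nat_lit 7) (nat_lit 4) (nat_lit 5) (nat_lit 4) (nat_lit 384) (nat_lit 205) (nat_lit 191)))) (XT.nd (nat_lit 156) (nat_lit 0) (nat_lit 0) (XT.nd (nat_lit 78) (nat_lit 0) (nat_lit 0) (XT.lf (nat_lit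 0) (nat_lit 14274838907) (nat_lit 152) (nat_lit 24525973020) (nat_lit 0) (nat_lit 11490405470) (nat_lit 5) (nat_lit 5) (nat_lit 7) (nat_lit 4) (nat_lit 5) (nat_lit 4) (nat_lit 385) (nat_lit 205) (nat_lit 190)) (XT.lf (nat_lit 0) (nat_lit 17602797312) (nat_lit 152) (nat_lit 19429234270) (nat_lit 0) (nat_lit 14673014881) (nat_lit 5) (nat_lit 5) (nat_lit 7) (nat_lit 4) (nat_lit 5) (nat_lit 4) (nat_lit 386) (nat_lit 205) (nat_lit 189))) (XT.nd (nat_lit 78) (nat_lit 0) (nat_lit 0) (XT.lf (nat_lit 0) (nat_lit 20979630297) (nat_lit 152) (nat_lit 14274471640) (nat_lit 0) (nat_lit 17908732336) (nat_lit 5) (nat_lit 5) (nat_lit 7) (nat_lit 4) (nat_lit 5) (nat_lit 4) (nat_lit 387) (nat_lit 205) (nat_lit 188)) (XT.lf (nat_lit 0) (nat_lit 24408288491) (nat_lit 152) (nat_lit 9057180967) (nat_lit 0) (nat_lit 21200385163) (nat_lit 5) (nat_lit 5) (nat_lit 7) (nat_lit 4) (nat_lit 5) (nat_lit 4) (nat_lit 388) (nat_lit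 205) (nat_lit 187))))) (XT.nd (nat_lit 234) (nat_lit 0) (nat_lit 0) (XT.nd (nat_lit 78) (nat_lit 76) (nat_lit 0) (XT.lf (nat_lit 0) (nat_lit 27891767810) (nat_lit 152) (nat_lit 3772803455) (nat_lit 0) (nat_lit 24550849562) (nat_lit 5) (nat_lit 5) (nat_lit 7) (nat_lit 4) (nat_lit 5) (nat_lit 4) (nat_lit 389) (nat_lit 205) (nat_lit 186)) (XT.nd (nat_lit 78) (nat_lit 0) (nat_lit 0) (XT.lf (nat_lit 0) (nat_lit 1614788657) (nat_lit 76) (nat_lit 29833845749) (nat_lit 76) (nat_lit 26363786802) (nat_lit 4) (nat_lit 4) (nat_lit 5) (nat_lit 5) (nat_lit 5) (nat_lit 4) (nat_lit 390) (nat_lit 205) (nat_lit 185)) (XT.lf (nat_lit 0) (nat_lit 7155371483) (nat_lit 76) (nat_lit 27948825976) (nat_lit 76) (nat_lit 24353387709) (nat_lit 4) (nat_lit 4) (nat_lit 5) (nat_lit 5) (nat_lit 5) (nat_lit 4) (nat_lit 391) (nat_lit 205) (nat_lit 184)))) (XT.nd (nat_lit 156) (nat_lit 0) (nat_lit 0) (XT.nd (nat_lit 78) (nat_lit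 0) (nat_lit 0) (XT.lf (nat_lit 0) (nat_lit 12778700121) (nat_lit 76) (nat_lit 26045962757) (nat_lit 76) (nat_lit 22328796995) (nat_lit 4) (nat_lit 4) (nat_lit 5) (nat_lit 5) (nat_lit 5) (nat_lit 4) (nat_lit 392) (nat_lit 205) (nat_lit 183)) (XT.lf (nat_lit 0) (nat_lit 18489688160) (nat_lit 76) (nat_lit 24123593397) (nat_lit 76) (nat_lit 20288245602) (nat_lit 4) (nat_lit 4) (nat_lit 5) (nat_lit 5) (nat_lit 5) (nat_lit 4) (nat_lit 393) (nat_lit 205) (nat_lit 182))) (XT.nd (nat_lit 78) (nat_lit 0) (nat_lit 0) (XT.lf (nat_lit 0) (nat_lit 24293325784) (nat_lit 76) (nat_lit 22180038156) (nat_lit 76) (nat_lit 18229950522) (nat_lit 4) (nat_lit 4) (nat_lit 5) (nat_lit 5) (nat_lit 5) (nat_lit 4) (nat_lit 394) (nat_lit 205) (nat_lit 181)) (XT.lf (nat_lit 0) (nat_lit 30194684131) (nat_lit 76) (nat_lit 20213598781) (nat_lit 76) (nat_lit 16152113245) (nat_lit 4) (nat_lit 4) (nat_lit 5) (nat_lit 5) (nat_lit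 5) (nat_lit 4) (nat_lit 395) (nat_lit 205) (nat_lit 180))))))))
noncomputable def xc8 : XT := (XT.nd (nat_lit 39312) (nat_lit 0) (nat_lit 0) (XT.nd (nat_lit 1014) (nat_lit 0) (nat_lit 0) (XT.nd (nat_lit 468) (nat_lit 152) (nat_lit 0) (XT.nd (nat_lit 234) (nat_lit 0) (nat_lit 0) (XT.nd (nat_lit 78) (nat_lit 0) (nat_lit 0) (XT.lf (nat_lit 0) (nat_lit 36198919730) (nat_lit 76) (nat_lit 18222557024) (nat_lit 76) (nat_lit 14052918186) (nat_lit 4) (nat_lit 4) (nat_lit 5) (nat_lit 5) (nat_lit 5) (nat_lit 4) (nat_lit 396) (nat_lit 205) (nat_lit 179)) (XT.nd (nat_lit 78) (nat_lit 0) (nat_lit 0) (XT.lf (nat_lit 0) (nat_lit 42311278998) (nat_lit 76) (nat_lit 16205173141) (nat_lit 76) (nat_lit 11930531097) (nat_lit 4) (nat_lit 4) (nat_lit 5) (nat_lit 5) (nat_lit 5) (nat_lit 4) (nat_lit 397) (nat_lit 205) (nat_lit 178)) (XT.lf (nat_lit 0) (nat_lit 48537102833) (nat_lit 76) (nat_lit 14159684368) (nat_lit 76)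 (nat_lit 9783097464) (nat_lit 4) (nat_lit 4) (nat_lit 5) (nat_lit 5) (nat_lit 5) (nat_lit 4) (nat_lit 398) (nat_lit 205) (nat_lit 177)))) (XT.nd (nat_lit 78) (nat_lit 0) (nat_lit 0) (XT.lf (nat_lit 0) (nat_lit 54881831275) (nat_lit 76) (nat_lit 12084303386) (nat_lit 76) (nat_lit 7608740889) (nat_lit 4) (nat_lit 4) (nat_lit 5) (nat_lit 5) (nat_lit 5) (nat_lit 4) (nat_lit 399) (nat_lit 205) (nat_lit 176)) (XT.nd (nat_lit 78) (nat_lit 0) (nat_lit 0) (XT.lf (nat_lit 0) (nat_lit 61351008262) (nat_lit 76) (nat_lit 9977216754) (nat_lit 76) (nat_lit 5405561449) (nat_lit 4) (nat_lit 4) (nat_lit 5) (nat_lit 5) (nat_lit 5) (nat_lit 4) (nat_lit 400) (nat_lit 205) (nat_lit 175)) (XT.lf (nat_lit 0) (nat_lit 67950286471) (nat_lit 76) (nat_lit 7836583330) (nat_lit 76) (nat_lit 3171634035) (nat_lit 4) (nat_lit 4) (nat_lit 5) (nat_lit 5) (nat_lit 5) (nat_lit 4) (nat_lit 401) (nat_lit 205) (nat_lit 174))))) (XT.nd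 (nat_lit 234) (nat_lit 0) (nat_lit 0) (XT.nd (nat_lit 78) (nat_lit 152) (nat_lit 0) (XT.lf (nat_lit 0) (nat_lit 74685432264) (nat_lit 76) (nat_lit 5660532655) (nat_lit 76) (nat_lit 905006673) (nat_lit 4) (nat_lit 4) (nat_lit 5) (nat_lit 5) (nat_lit 5) (nat_lit 4) (nat_lit 402) (nat_lit 205) (nat_lit 173)) (XT.nd (nat_lit 78) (nat_lit 76) (nat_lit 0) (XT.lf (nat_lit 0) (nat_lit 1369054320) (nat_lit 152) (nat_lit 2064284244) (nat_lit 76) (nat_lit 80179451634) (nat_lit 3) (nat_lit 5) (nat_lit 5) (nat_lit 5) (nat_lit 4) (nat_lit 4) (nat_lit 403) (nat_lit 205) (nat_lit 172)) (XT.lf (nat_lit 0) (nat_lit 2553694453) (nat_lit 76) (nat_lit 1132283961) (nat_lit 152) (nat_lit 82359439981) (nat_lit 2) (nat_lit 5) (nat_lit 3) (nat_lit 5) (nat_lit 4) (nat_lit 4) (nat_lit 404) (nat_lit 205) (nat_lit 171)))) (XT.nd (nat_lit 156) (nat_lit 0) (nat_lit 0) (XT.nd (nat_lit 78) (nat_lit 0) (nat_lit 0) (XT.lf (nat_lit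 0) (nat_lit 6073742200) (nat_lit 152) (nat_lit 81269269053) (nat_lit 0) (nat_lit 1207982752) (nat_lit 2) (nat_lit 5) (nat_lit 4) (nat_lit 4) (nat_lit 2) (nat_lit 4) (nat_lit 405) (nat_lit 205) (nat_lit 170)) (XT.lf (nat_lit 0) (nat_lit 8513652389) (nat_lit 152) (nat_lit 79048916668) (nat_lit 0) (nat_lit 3569760695) (nat_lit 2) (nat_lit 5) (nat_lit 4) (nat_lit 4) (nat_lit 2) (nat_lit 4) (nat_lit 406) (nat_lit 205) (nat_lit 169))) (XT.nd (nat_lit 78) (nat_lit 0) (nat_lit 0) (XT.lf (nat_lit 0) (nat_lit 10996956737) (nat_lit 152) (nat_lit 76817842471) (nat_lit 0) (nat_lit 5977208493) (nat_lit 2) (nat_lit 5) (nat_lit 4) (nat_lit 4) (nat_lit 2) (nat_lit 4) (nat_lit 407) (nat_lit 205) (nat_lit 168)) (XT.lf (nat_lit 0) (nat_lit 13525825122) (nat_lit 152) (nat_lit 74574096977) (nat_lit 0) (nat_lit 8432429741) (nat_lit 2) (nat_lit 5) (nat_lit 4) (nat_lit 4) (nat_lit 2) (nat_lit 4) (nat_lit 408) (nat_lit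 205) (nat_lit 167)))))) (XT.nd (nat_lit 37752) (nat_lit 0) (nat_lit 380) (XT.nd (nat_lit 37518) (nat_lit 0) (nat_lit 456) (XT.nd (nat_lit 78) (nat_lit 0) (nat_lit 0) (XT.lf (nat_lit 0) (nat_lit 16102467234) (nat_lit 152) (nat_lit 72315719633) (nat_lit 0) (nat_lit 10937569780) (nat_lit 2) (nat_lit 5) (nat_lit 4) (nat_lit 4) (nat_lit 2) (nat_lit 4) (nat_lit 409) (nat_lit 205) (nat_lit 166)) (XT.nd (nat_lit 37362) (nat_lit 0) (nat_lit 608) (XT.lf (nat_lit 0) (nat_lit 18729134509) (nat_lit 152) (nat_lit 70040737099) (nat_lit 0) (nat_lit 13494817565) (nat_lit 2) (nat_lit 5) (nat_lit 4) (nat_lit 4) (nat_lit 2) (nat_lit 4) (nat_lit 410) (nat_lit 205) (nat_lit 165)) (XT.lf (nat_lit 0) (nat_lit 11376052677) (nat_lit 76) (nat_lit 2276031071) (nat_lit 76) (nat_lit 2276031071) (nat_lit 10) (nat_lit 4) (nat_lit 11) (nat_lit 5) (nat_lit 11) (nat_lit 4) (nat_lit 368) (nat_lit 206) (nat_lit 206)))) (XT.nd (nat_lit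 78) (nat_lit 152) (nat_lit 0) (XT.lf (nat_lit 0) (nat_lit 30528693643) (nat_lit 76) (nat_lit 1206672330) (nat_lit 76) (nat_lit 959225396) (nat_lit 10) (nat_lit 4) (nat_lit 11) (nat_lit 5) (nat_lit 11) (nat_lit 4) (nat_lit 369) (nat_lit 206) (nat_lit 205)) (XT.nd (nat_lit 78) (nat_lit 0) (nat_lit 0) (XT.lf (nat_lit 0) (nat_lit 2681275030) (nat_lit 152) (nat_lit 28668469049) (nat_lit 0) (nat_lit 2207792821) (nat_lit 8) (nat_lit 5) (nat_lit 10) (nat_lit 4) (nat_lit 8) (nat_lit 4) (nat_lit 370) (nat_lit 206) (nat_lit 204)) (XT.lf (nat_lit 0) (nat_lit 6370540338) (nat_lit 152) (nat_lit 22406195511) (nat_lit 0) (nat_lit 5670609132) (nat_lit 8) (nat_lit 5) (nat_lit 10) (nat_lit 4) (nat_lit 8) (nat_lit 4) (nat_lit 371) (nat_lit 206) (nat_lit 203))))) (XT.nd (nat_lit 234) (nat_lit 76) (nat_lit 0) (XT.nd (nat_lit 78) (nat_lit 0) (nat_lit 0) (XT.lf (nat_lit 0) (nat_lit 10097468296) (nat_lit 152) (nat_lit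 16090909060) (nat_lit 0) (nat_lit 9177683694) (nat_lit 8) (nat_lit 5) (nat_lit 10) (nat_lit 4) (nat_lit 8) (nat_lit 4) (nat_lit 372) (nat_lit 206) (nat_lit 202)) (XT.nd (nat_lit 78) (nat_lit 0) (nat_lit 0) (XT.lf (nat_lit 0) (nat_lit 13865315443) (nat_lit 152) (nat_lit 9717091483) (nat_lit 0) (nat_lit 12732080941) (nat_lit 8) (nat_lit 5) (nat_lit 10) (nat_lit 4) (nat_lit 8) (nat_lit 4) (nat_lit 373) (nat_lit 206) (nat_lit 201)) (XT.lf (nat_lit 0) (nat_lit 17677374071) (nat_lit 152) (nat_lit 3279173426) (nat_lit 0) (nat_lit 16336906658) (nat_lit 8) (nat_lit 5) (nat_lit 10) (nat_lit 4) (nat_lit 8) (nat_lit 4) (nat_lit 374) (nat_lit 206) (nat_lit 200)))) (XT.nd (nat_lit 156) (nat_lit 0) (nat_lit 0) (XT.nd (nat_lit 78) (nat_lit 0) (nat_lit 0) (XT.lf (nat_lit 0) (nat_lit 3292723367) (nat_lit 76) (nat_lit 18275903409) (nat_lit 76) (nat_lit 16734238995) (nat_lit 7) (nat_lit 4) (nat_lit 8) (nat_lit 5)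 (nat_lit 8) (nat_lit 4) (nat_lit 375) (nat_lit 206) (nat_lit 199)) (XT.lf (nat_lit 0) (nat_lit 10006795129) (nat_lit 76) (nat_lit 15536887322) (nat_lit 76) (nat_lit 13799886013) (nat_lit 7) (nat_lit 4) (nat_lit 8) (nat_lit 5) (nat_lit 8) (nat_lit 4) (nat_lit 376) (nat_lit 206) (nat_lit 198))) (XT.nd (nat_lit 78) (nat_lit 0) (nat_lit 0) (XT.lf (nat_lit 0) (nat_lit 16803646540) (nat_lit 76) (nat_lit 12770219143) (nat_lit 76) (nat_lit 10843570364) (nat_lit 7) (nat_lit 4) (nat_lit 8) (nat_lit 5) (nat_lit 8) (nat_lit 4) (nat_lit 377) (nat_lit 206) (nat_lit 197)) (XT.lf (nat_lit 0) (nat_lit 23689216598) (nat_lit 76) (nat_lit 9973481395) (nat_lit 76) (nat_lit 7862708858) (nat_lit 7) (nat_lit 4) (nat_lit 8) (nat_lit 5) (nat_lit 8) (nat_lit 4) (nat_lit 378) (nat_lit 206) (nat_lit 196))))))) (XT.nd (nat_lit 1014) (nat_lit 152) (nat_lit 0) (XT.nd (nat_lit 468) (nat_lit 76) (nat_lit 0) (XT.nd (nat_lit 234)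 (nat_lit 76) (nat_lit 0) (XT.nd (nat_lit 78) (nat_lit 76) (nat_lit 0) (XT.lf (nat_lit 0) (nat_lit 30669521821) (nat_lit 76) (nat_lit 7144230326) (nat_lit 76) (nat_lit 4854696859) (nat_lit 7) (nat_lit 4) (nat_lit 8) (nat_lit 5) (nat_lit 8) (nat_lit 4) (nat_lit 379) (nat_lit 206) (nat_lit 195)) (XT.nd (nat_lit 78) (nat_lit 76) (nat_lit 0) (XT.lf (nat_lit 0) (nat_lit 37750661503) (nat_lit 76) (nat_lit 4279993775) (nat_lit 76) (nat_lit 1816906008) (nat_lit 7) (nat_lit 4) (nat_lit 8) (nat_lit 5) (nat_lit 8) (nat_lit 4) (nat_lit 380) (nat_lit 206) (nat_lit 194)) (XT.lf (nat_lit 0) (nat_lit 1228861325) (nat_lit 152) (nat_lit 136998597) (nat_lit 76) (nat_lit 43697552633) (nat_lit 6) (nat_lit 5) (nat_lit 8) (nat_lit 5) (nat_lit 7) (nat_lit 4) (nat_lit 381) (nat_lit 206) (nat_lit 193)))) (XT.nd (nat_lit 78) (nat_lit 0) (nat_lit 0) (XT.lf (nat_lit 0) (nat_lit 4347269140) (nat_lit 152) (nat_lit 40333910356)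 (nat_lit 0) (nat_lit 1633503448) (nat_lit 5) (nat_lit 5) (nat_lit 7) (nat_lit 4) (nat_lit 5) (nat_lit 4) (nat_lit 382) (nat_lit 206) (nat_lit 192)) (XT.nd (nat_lit 78) (nat_lit 0) (nat_lit 0) (XT.lf (nat_lit 0) (nat_lit 7518459741) (nat_lit 152) (nat_lit 35435777820) (nat_lit 0) (nat_lit 4650493300) (nat_lit 5) (nat_lit 5) (nat_lit 7) (nat_lit 4) (nat_lit 5) (nat_lit 4) (nat_lit 383) (nat_lit 206) (nat_lit 191)) (XT.lf (nat_lit 0) (nat_lit 10730718168) (nat_lit 152) (nat_lit 30491357676) (nat_lit 0) (nat_lit 7713042263) (nat_lit 5) (nat_lit 5) (nat_lit 7) (nat_lit 4) (nat_lit 5) (nat_lit 4) (nat_lit 384) (nat_lit 206) (nat_lit 190))))) (XT.nd (nat_lit 234) (nat_lit 76) (nat_lit 0) (XT.nd (nat_lit 78) (nat_lit 0) (nat_lit 0) (XT.lf (nat_lit 0) (nat_lit 13986851250) (nat_lit 152) (nat_lit 25496329558) (nat_lit 0) (nat_lit 10823826351) (nat_lit 5) (nat_lit 5) (nat_lit 7) (nat_lit 4) (nat_lit 5) (nat_lit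 4) (nat_lit 385) (nat_lit 206) (nat_lit 189)) (XT.nd (nat_lit 78) (nat_lit 0) (nat_lit 0) (XT.lf (nat_lit 0) (nat_lit 17289704152) (nat_lit 152) (nat_lit 20446328878) (nat_lit 0) (nat_lit 13985563724) (nat_lit 5) (nat_lit 5) (nat_lit 7) (nat_lit 4) (nat_lit 5) (nat_lit 4) (nat_lit 386) (nat_lit 206) (nat_lit 188)) (XT.lf (nat_lit 0) (nat_lit 20642162860) (nat_lit 152) (nat_lit 15336943014) (nat_lit 0) (nat_lit 17201017065) (nat_lit 5) (nat_lit 5) (nat_lit 7) (nat_lit 4) (nat_lit 5) (nat_lit 4) (nat_lit 387) (nat_lit 206) (nat_lit 187)))) (XT.nd (nat_lit 156) (nat_lit 76) (nat_lit 0) (XT.nd (nat_lit 78) (nat_lit 0) (nat_lit 0) (XT.lf (nat_lit 0) (nat_lit 24047156709) (nat_lit 152) (nat_lit 10163707455) (nat_lit 0) (nat_lit 20472995993) (nat_lit 5) (nat_lit 5) (nat_lit 7) (nat_lit 4) (nat_lit 5) (nat_lit 4) (nat_lit 388) (nat_lit 206) (nat_lit 186)) (XT.lf (nat_lit 0) (nat_lit 27507660936) (nat_lit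 152) (nat_lit 4922101897) (nat_lit 0) (nat_lit 23804359521) (nat_lit 5) (nat_lit 5) (nat_lit 7) (nat_lit 4) (nat_lit 5) (nat_lit 4) (nat_lit 389) (nat_lit 206) (nat_lit 185))) (XT.nd (nat_lit 78) (nat_lit 0) (nat_lit 0) (XT.lf (nat_lit 0) (nat_lit 400264301) (nat_lit 76) (nat_lit 30630282565) (nat_lit 76) (nat_lit 26801601831) (nat_lit 4) (nat_lit 4) (nat_lit 5) (nat_lit 5) (nat_lit 5) (nat_lit 4) (nat_lit 390) (nat_lit 206) (nat_lit 184)) (XT.lf (nat_lit 0) (nat_lit 5899728076) (nat_lit 76) (nat_lit 28764330352) (nat_lit 76) (nat_lit 24813922123) (nat_lit 4) (nat_lit 4) (nat_lit 5) (nat_lit 5) (nat_lit 5) (nat_lit 4) (nat_lit 391) (nat_lit 206) (nat_lit 183)))))) (XT.nd (nat_lit 546) (nat_lit 152) (nat_lit 0) (XT.nd (nat_lit 234) (nat_lit 0) (nat_lit 0) (XT.nd (nat_lit 78) (nat_lit 0) (nat_lit 0) (XT.lf (nat_lit 0) (nat_lit 11483135306) (nat_lit 76) (nat_lit 26879979328) (nat_lit 76) (nat_lit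 22811389065) (nat_lit 4) (nat_lit 4) (nat_lit 5) (nat_lit 5) (nat_lit 5) (nat_lit 4) (nat_lit 392) (nat_lit 206) (nat_lit 182)) (XT.nd (nat_lit 78) (nat_lit 0) (nat_lit 0) (XT.lf (nat_lit 0) (nat_lit 17155364697) (nat_lit 76) (nat_lit 24975582973) (nat_lit 76) (nat_lit 20792252872) (nat_lit 4) (nat_lit 4) (nat_lit 5) (nat_lit 5) (nat_lit 5) (nat_lit 4) (nat_lit 393) (nat_lit 206) (nat_lit 181)) (XT.lf (nat_lit 0) (nat_lit 22921372564) (nat_lit 76) (nat_lit 23049477251) (nat_lit 76) (nat_lit 18754749248) (nat_lit 4) (nat_lit 4) (nat_lit 5) (nat_lit 5) (nat_lit 5) (nat_lit 4) (nat_lit 394) (nat_lit 206) (nat_lit 180)))) (XT.nd (nat_lit 156) (nat_lit 0) (nat_lit 0) (XT.nd (nat_lit 78) (nat_lit 0) (nat_lit 0) (XT.lf (nat_lit 0) (nat_lit 28786197168) (nat_lit 76) (nat_lit 21099979156) (nat_lit 76) (nat_lit 16697097851) (nat_lit 4) (nat_lit 4) (nat_lit 5) (nat_lit 5) (nat_lit 5) (nat_lit 4) (nat_lit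 395) (nat_lit 206) (nat_lit 179)) (XT.lf (nat_lit 0) (nat_lit 34754963112) (nat_lit 76) (nat_lit 19125385245) (nat_lit 76) (nat_lit 14617500734) (nat_lit 4) (nat_lit 4) (nat_lit 5) (nat_lit 5) (nat_lit 5) (nat_lit 4) (nat_lit 396) (nat_lit 206) (nat_lit 178))) (XT.nd (nat_lit 78) (nat_lit 0) (nat_lit 0) (XT.lf (nat_lit 0) (nat_lit 40832885823) (nat_lit 76) (nat_lit 17123970144) (nat_lit 76) (nat_lit 12514140772) (nat_lit 4) (nat_lit 4) (nat_lit 5) (nat_lit 5) (nat_lit 5) (nat_lit 4) (nat_lit 397) (nat_lit 206) (nat_lit 177)) (XT.lf (nat_lit 0) (nat_lit 47025276108) (nat_lit 76) (nat_lit 15093985043) (nat_lit 76) (nat_lit 10385180078) (nat_lit 4) (nat_lit 4) (nat_lit 5) (nat_lit 5) (nat_lit 5) (nat_lit 4) (nat_lit 398) (nat_lit 206) (nat_lit 176))))) (XT.nd (nat_lit 234) (nat_lit 152) (nat_lit 0) (XT.nd (nat_lit 78) (nat_lit 0) (nat_lit 0) (XT.lf (nat_lit 0) (nat_lit 53337544792) (nat_lit 76) (nat_lit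 13033656169) (nat_lit 76) (nat_lit 8228758396) (nat_lit 4) (nat_lit 4) (nat_lit 5) (nat_lit 5) (nat_lit 5) (nat_lit 4) (nat_lit 399) (nat_lit 206) (nat_lit 175)) (XT.nd (nat_lit 78) (nat_lit 0) (nat_lit 0) (XT.lf (nat_lit 0) (nat_lit 59775207450) (nat_lit 76) (nat_lit 10941183235) (nat_lit 76) (nat_lit 6042991473) (nat_lit 4) (nat_lit 4) (nat_lit 5) (nat_lit 5) (nat_lit 5) (nat_lit 4) (nat_lit 400) (nat_lit 206) (nat_lit 174)) (XT.lf (nat_lit 0) (nat_lit 66343889224) (nat_lit 76) (nat_lit 8814737866) (nat_lit 76) (nat_lit 3825969416) (nat_lit 4) (nat_lit 4) (nat_lit 5) (nat_lit 5) (nat_lit 5) (nat_lit 4) (nat_lit 401) (nat_lit 206) (nat_lit 173)))) (XT.nd (nat_lit 156) (nat_lit 76) (nat_lit 0) (XT.nd (nat_lit 78) (nat_lit 76) (nat_lit 0) (XT.lf (nat_lit 0) (nat_lit 73049329740) (nat_lit 76) (nat_lit 6652462003) (nat_lit 76) (nat_lit 1575755021) (nat_lit 4) (nat_lit 4) (nat_lit 5) (nat_lit 5) (nat_lit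 5) (nat_lit 4) (nat_lit 402) (nat_lit 206) (nat_lit 172)) (XT.lf (nat_lit 0) (nat_lit 695770716) (nat_lit 152) (nat_lit 3749669643) (nat_lit 76) (nat_lit 79194591484) (nat_lit 3) (nat_lit 5) (nat_lit 5) (nat_lit 5) (nat_lit 4) (nat_lit 4) (nat_lit 403) (nat_lit 206) (nat_lit 171))) (XT.nd (nat_lit 78) (nat_lit 0) (nat_lit 0) (XT.lf (nat_lit 0) (nat_lit 805897070) (nat_lit 76) (nat_lit 2174827939) (nat_lit 152) (nat_lit 83092898325) (nat_lit 2) (nat_lit 5) (nat_lit 3) (nat_lit 5) (nat_lit 4) (nat_lit 4) (nat_lit 404) (nat_lit 206) (nat_lit 170)) (XT.lf (nat_lit 0) (nat_lit 5343345429) (nat_lit 152) (nat_lit 83063607154) (nat_lit 0) (nat_lit 173004737) (nat_lit 2) (nat_lit 5) (nat_lit 4) (nat_lit 4) (nat_lit 2) (nat_lit 4) (nat_lit 405) (nat_lit 206) (nat_lit 169))))))))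
noncomputable def xc9 : XT := (XT.nd (nat_lit 39156) (nat_lit 0) (nat_lit 0) (XT.nd (nat_lit 38142) (nat_lit 0) (nat_lit 228) (XT.nd (nat_lit 37596) (nat_lit 0) (nat_lit 456) (XT.nd (nat_lit 234) (nat_lit 0) (nat_lit 0) (XT.nd (nat_lit 78) (nat_lit 0) (nat_lit 0) (XT.lf (nat_lit 0) (nat_lit 7768574265) (nat_lit 152) (nat_lit 80870786177) (nat_lit 0) (nat_lit 2522377023) (nat_lit 2) (nat_lit 5) (nat_lit 4) (nat_lit 4) (nat_lit 2) (nat_lit 4) (nat_lit 406) (nat_lit 206) (nat_lit 168)) (XT.nd (nat_lit 78) (nat_lit 0) (nat_lit 0) (XT.lf (nat_lit 0) (nat_lit 10237624873) (nat_lit 152) (nat_lit 78666441502) (nat_lit 0) (nat_lit 4917780494) (nat_lit 2) (nat_lit 5) (nat_lit 4) (nat_lit 4) (nat_lit 2) (nat_lit 4) (nat_lit 407) (nat_lit 206) (nat_lit 167)) (XT.lf (nat_lit 0) (nat_lit 12752654674) (nat_lit 152) (nat_lit 76448647000) (nat_lit 0) (nat_lit 7361308222) (nat_lit 2) (nat_lit 5) (nat_lit 4) (nat_lit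 4) (nat_lit 2) (nat_lit 4) (nat_lit 408) (nat_lit 206) (nat_lit 166)))) (XT.nd (nat_lit 78) (nat_lit 0) (nat_lit 0) (XT.lf (nat_lit 0) (nat_lit 15315861269) (nat_lit 152) (nat_lit 74215464794) (nat_lit 0) (nat_lit 9855095327) (nat_lit 2) (nat_lit 5) (nat_lit 4) (nat_lit 4) (nat_lit 2) (nat_lit 4) (nat_lit 409) (nat_lit 206) (nat_lit 165)) (XT.nd (nat_lit 37206) (nat_lit 0) (nat_lit 608) (XT.lf (nat_lit 0) (nat_lit 17929484352) (nat_lit 152) (nat_lit 71964943560) (nat_lit 0) (nat_lit 12401320848) (nat_lit 2) (nat_lit 5) (nat_lit 4) (nat_lit 4) (nat_lit 2) (nat_lit 4) (nat_lit 410) (nat_lit 206) (nat_lit 164)) (XT.lf (nat_lit 0) (nat_lit 3766068414) (nat_lit 76) (nat_lit 5681382813) (nat_lit 76) (nat_lit 5681382813) (nat_lit 10) (nat_lit 4) (nat_lit 11) (nat_lit 5) (nat_lit 11) (nat_lit 4) (nat_lit 366) (nat_lit 207) (nat_lit 207))))) (XT.nd (nat_lit 234) (nat_lit 152) (nat_lit 0) (XT.nd (nat_lit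 78) (nat_lit 0) (nat_lit 0) (XT.lf (nat_lit 0) (nat_lit 15064946814) (nat_lit 76) (nat_lit 8117238368) (nat_lit 76) (nat_lit 7862368026) (nat_lit 10) (nat_lit 4) (nat_lit 11) (nat_lit 5) (nat_lit 11) (nat_lit 4) (nat_lit 367) (nat_lit 207) (nat_lit 206)) (XT.nd (nat_lit 78) (nat_lit 0) (nat_lit 0) (XT.lf (nat_lit 0) (nat_lit 22682556089) (nat_lit 76) (nat_lit 4838570537) (nat_lit 76) (nat_lit 4336253262) (nat_lit 10) (nat_lit 4) (nat_lit 11) (nat_lit 5) (nat_lit 11) (nat_lit 4) (nat_lit 368) (nat_lit 207) (nat_lit 205)) (XT.lf (nat_lit 0) (nat_lit 30391620818) (nat_lit 76) (nat_lit 1523897280) (nat_lit 76) (nat_lit 781340263) (nat_lit 10) (nat_lit 4) (nat_lit 11) (nat_lit 5) (nat_lit 11) (nat_lit 4) (nat_lit 369) (nat_lit 207) (nat_lit 204)))) (XT.nd (nat_lit 156) (nat_lit 0) (nat_lit 0) (XT.nd (nat_lit 78) (nat_lit 0) (nat_lit 0) (XT.lf (nat_lit 0) (nat_lit 2814212844) (nat_lit 152) (nat_lit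 28879961143) (nat_lit 0) (nat_lit 1866834704) (nat_lit 8) (nat_lit 5) (nat_lit 10) (nat_lit 4) (nat_lit 8) (nat_lit 4) (nat_lit 370) (nat_lit 207) (nat_lit 203)) (XT.lf (nat_lit 0) (nat_lit 6467510020) (nat_lit 152) (nat_lit 22684118784) (nat_lit 0) (nat_lit 5300278484) (nat_lit 8) (nat_lit 5) (nat_lit 10) (nat_lit 4) (nat_lit 8) (nat_lit 4) (nat_lit 371) (nat_lit 207) (nat_lit 202))) (XT.nd (nat_lit 78) (nat_lit 0) (nat_lit 0) (XT.lf (nat_lit 0) (nat_lit 10159517460) (nat_lit 152) (nat_lit 16433328622) (nat_lit 0) (nat_lit 8778836025) (nat_lit 8) (nat_lit 5) (nat_lit 10) (nat_lit 4) (nat_lit 8) (nat_lit 4) (nat_lit 372) (nat_lit 207) (nat_lit 201)) (XT.lf (nat_lit 0) (nat_lit 13893461192) (nat_lit 152) (nat_lit 10122128803) (nat_lit 0) (nat_lit 12305546845) (nat_lit 8) (nat_lit 5) (nat_lit 10) (nat_lit 4) (nat_lit 8) (nat_lit 4) (nat_lit 373) (nat_lit 207) (nat_lit 200)))))) (XT.nd (nat_lit 468)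 (nat_lit 152) (nat_lit 0) (XT.nd (nat_lit 234) (nat_lit 0) (nat_lit 0) (XT.nd (nat_lit 78) (nat_lit 76) (nat_lit 0) (XT.lf (nat_lit 0) (nat_lit 17672603883) (nat_lit 152) (nat_lit 3745004685) (nat_lit 0) (nat_lit 15883492535) (nat_lit 8) (nat_lit 5) (nat_lit 10) (nat_lit 4) (nat_lit 8) (nat_lit 4) (nat_lit 374) (nat_lit 207) (nat_lit 199)) (XT.nd (nat_lit 78) (nat_lit 0) (nat_lit 0) (XT.lf (nat_lit 0) (nat_lit 2757423233) (nat_lit 76) (nat_lit 18769330503) (nat_lit 76) (nat_lit 16784882261) (nat_lit 7) (nat_lit 4) (nat_lit 8) (nat_lit 5) (nat_lit 8) (nat_lit 4) (nat_lit 375) (nat_lit 207) (nat_lit 198)) (XT.lf (nat_lit 0) (nat_lit 9413050412) (nat_lit 76) (nat_lit 16057170766) (nat_lit 76) (nat_lit 13883075053) (nat_lit 7) (nat_lit 4) (nat_lit 8) (nat_lit 5) (nat_lit 8) (nat_lit 4) (nat_lit 376) (nat_lit 207) (nat_lit 197)))) (XT.nd (nat_lit 78) (nat_lit 0) (nat_lit 0) (XT.lf (nat_lit 0) (nat_lit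 16153159510) (nat_lit 76) (nat_lit 13316576713) (nat_lit 76) (nat_lit 10958357243) (nat_lit 7) (nat_lit 4) (nat_lit 8) (nat_lit 5) (nat_lit 8) (nat_lit 4) (nat_lit 377) (nat_lit 207) (nat_lit 196)) (XT.nd (nat_lit 78) (nat_lit 0) (nat_lit 0) (XT.lf (nat_lit 0) (nat_lit 22983639944) (nat_lit 76) (nat_lit 10545153651) (nat_lit 76) (nat_lit 8008173250) (nat_lit 7) (nat_lit 4) (nat_lit 8) (nat_lit 5) (nat_lit 8) (nat_lit 4) (nat_lit 378) (nat_lit 207) (nat_lit 195)) (XT.lf (nat_lit 0) (nat_lit 29910460094) (nat_lit 76) (nat_lit 7740479947) (nat_lit 76) (nat_lit 5029945245) (nat_lit 7) (nat_lit 4) (nat_lit 8) (nat_lit 5) (nat_lit 8) (nat_lit 4) (nat_lit 379) (nat_lit 207) (nat_lit 194))))) (XT.nd (nat_lit 234) (nat_lit 0) (nat_lit 0) (XT.nd (nat_lit 78) (nat_lit 152) (nat_lit 0) (XT.lf (nat_lit 0) (nat_lit 36939672521) (nat_lit 76) (nat_lit 4900104915) (nat_lit 76) (nat_lit 2021070893) (nat_lit 7)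 (nat_lit 4) (nat_lit 8) (nat_lit 5) (nat_lit 8) (nat_lit 4) (nat_lit 380) (nat_lit 207) (nat_lit 193)) (XT.nd (nat_lit 78) (nat_lit 76) (nat_lit 0) (XT.lf (nat_lit 0) (nat_lit 1001153992) (nat_lit 152) (nat_lit 1010282991) (nat_lit 76) (nat_lit 43066155572) (nat_lit 6) (nat_lit 5) (nat_lit 8) (nat_lit 5) (nat_lit 7) (nat_lit 4) (nat_lit 381) (nat_lit 207) (nat_lit 192)) (XT.lf (nat_lit 0) (nat_lit 4077276283) (nat_lit 152) (nat_lit 41283793172) (nat_lit 0) (nat_lit 969070101) (nat_lit 5) (nat_lit 5) (nat_lit 7) (nat_lit 4) (nat_lit 5) (nat_lit 4) (nat_lit 382) (nat_lit 207) (nat_lit 191)))) (XT.nd (nat_lit 156) (nat_lit 0) (nat_lit 0) (XT.nd (nat_lit 78) (nat_lit 0) (nat_lit 0) (XT.lf (nat_lit 0) (nat_lit 7221832454) (nat_lit 152) (nat_lit 36435245053) (nat_lit 0) (nat_lit 3963916808) (nat_lit 5) (nat_lit 5) (nat_lit 7) (nat_lit 4) (nat_lit 5) (nat_lit 4) (nat_lit 383) (nat_lit 207) (nat_lit 190))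 (XT.lf (nat_lit 0) (nat_lit 10408232213) (nat_lit 152) (nat_lit 31538965121) (nat_lit 0) (nat_lit 7004967572) (nat_lit 5) (nat_lit 5) (nat_lit 7) (nat_lit 4) (nat_lit 5) (nat_lit 4) (nat_lit 384) (nat_lit 207) (nat_lit 189))) (XT.nd (nat_lit 78) (nat_lit 0) (nat_lit 0) (XT.lf (nat_lit 0) (nat_lit 13639259791) (nat_lit 152) (nat_lit 26590675073) (nat_lit 0) (nat_lit 10094879621) (nat_lit 5) (nat_lit 5) (nat_lit 7) (nat_lit 4) (nat_lit 5) (nat_lit 4) (nat_lit 385) (nat_lit 207) (nat_lit 188)) (XT.lf (nat_lit 0) (nat_lit 16917738417) (nat_lit 152) (nat_lit 21586051160) (nat_lit 0) (nat_lit 13236352879) (nat_lit 5) (nat_lit 5) (nat_lit 7) (nat_lit 4) (nat_lit 5) (nat_lit 4) (nat_lit 386) (nat_lit 207) (nat_lit 187))))))) (XT.nd (nat_lit 1014) (nat_lit 152) (nat_lit 0) (XT.nd (nat_lit 468) (nat_lit 0) (nat_lit 0) (XT.nd (nat_lit 234) (nat_lit 76) (nat_lit 0) (XT.nd (nat_lit 78) (nat_lit 0) (nat_lit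 0) (XT.lf (nat_lit 0) (nat_lit 20246532780) (nat_lit 152) (nat_lit 16520720410) (nat_lit 0) (nat_lit 16432132322) (nat_lit 5) (nat_lit 5) (nat_lit 7) (nat_lit 4) (nat_lit 5) (nat_lit 4) (nat_lit 387) (nat_lit 207) (nat_lit 186)) (XT.nd (nat_lit 78) (nat_lit 0) (nat_lit 0) (XT.lf (nat_lit 0) (nat_lit 23628551536) (nat_lit 152) (nat_lit 11390256805) (nat_lit 0) (nat_lit 19685010380) (nat_lit 5) (nat_lit 5) (nat_lit 7) (nat_lit 4) (nat_lit 5) (nat_lit 4) (nat_lit 388) (nat_lit 207) (nat_lit 185)) (XT.lf (nat_lit 0) (nat_lit 27066749847) (nat_lit 152) (nat_lit 6190177417) (nat_lit 0) (nat_lit 22997829371) (nat_lit 5) (nat_lit 5) (nat_lit 7) (nat_lit 4) (nat_lit 5) (nat_lit 4) (nat_lit 389) (nat_lit 207) (nat_lit 184)))) (XT.nd (nat_lit 78) (nat_lit 76) (nat_lit 0) (XT.lf (nat_lit 0) (nat_lit 30564131965) (nat_lit 152) (nat_lit 915938486) (nat_lit 0) (nat_lit 26373483994) (nat_lit 5) (nat_lit 5) (nat_lit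 7) (nat_lit 4) (nat_lit 5) (nat_lit 4) (nat_lit 390) (nat_lit 207) (nat_lit 183)) (XT.nd (nat_lit 78) (nat_lit 0) (nat_lit 0) (XT.lf (nat_lit 0) (nat_lit 4525374908) (nat_lit 76) (nat_lit 29641879616) (nat_lit 76) (nat_lit 25333049611) (nat_lit 4) (nat_lit 4) (nat_lit 5) (nat_lit 5) (nat_lit 5) (nat_lit 4) (nat_lit 391) (nat_lit 207) (nat_lit 182)) (XT.lf (nat_lit 0) (nat_lit 10070023490) (nat_lit 76) (nat_lit 27775501596) (nat_lit 76) (nat_lit 23351931753) (nat_lit 4) (nat_lit 4) (nat_lit 5) (nat_lit 5) (nat_lit 5) (nat_lit 4) (nat_lit 392) (nat_lit 207) (nat_lit 181))))) (XT.nd (nat_lit 234) (nat_lit 0) (nat_lit 0) (XT.nd (nat_lit 78) (nat_lit 0) (nat_lit 0) (XT.lf (nat_lit 0) (nat_lit 15704623124) (nat_lit 76) (nat_lit 25888554760) (nat_lit 76) (nat_lit 21353587015) (nat_lit 4) (nat_lit 4) (nat_lit 5) (nat_lit 5) (nat_lit 5) (nat_lit 4) (nat_lit 393) (nat_lit 207) (nat_lit 180)) (XT.nd (nat_lit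 78) (nat_lit 0) (nat_lit 0) (XT.lf (nat_lit 0) (nat_lit 21434097248) (nat_lit 76) (nat_lit 23979390318) (nat_lit 76) (nat_lit 19336269271) (nat_lit 4) (nat_lit 4) (nat_lit 5) (nat_lit 5) (nat_lit 5) (nat_lit 4) (nat_lit 394) (nat_lit 207) (nat_lit 179)) (XT.lf (nat_lit 0) (nat_lit 27263452198) (nat_lit 76) (nat_lit 22046340069) (nat_lit 76) (nat_lit 17298215816) (nat_lit 4) (nat_lit 4) (nat_lit 5) (nat_lit 5) (nat_lit 5) (nat_lit 4) (nat_lit 395) (nat_lit 207) (nat_lit 178)))) (XT.nd (nat_lit 156) (nat_lit 0) (nat_lit 0) (XT.nd (nat_lit 78) (nat_lit 0) (nat_lit 0) (XT.lf (nat_lit 0) (nat_lit 33197781585) (nat_lit 76) (nat_lit 20087714940) (nat_lit 76) (nat_lit 15237645826) (nat_lit 4) (nat_lit 4) (nat_lit 5) (nat_lit 5) (nat_lit 5) (nat_lit 4) (nat_lit 396) (nat_lit 207) (nat_lit 177)) (XT.lf (nat_lit 0) (nat_lit 39242270745) (nat_lit 76) (nat_lit 18101803510) (nat_lit 76) (nat_lit 13152758804)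 (nat_lit 4) (nat_lit 4) (nat_lit 5) (nat_lit 5) (nat_lit 5) (nat_lit 4) (nat_lit 397) (nat_lit 207) (nat_lit 176))) (XT.nd (nat_lit 78) (nat_lit 0) (nat_lit 0) (XT.lf (nat_lit 0) (nat_lit 45402201271) (nat_lit 76) (nat_lit 16086870518) (nat_lit 76) (nat_lit 11041733003) (nat_lit 4) (nat_lit 4) (nat_lit 5) (nat_lit 5) (nat_lit 5) (nat_lit 4) (nat_lit 398) (nat_lit 207) (nat_lit 175)) (XT.lf (nat_lit 0) (nat_lit 51682955627) (nat_lit 76) (nat_lit 14041155341) (nat_lit 76) (nat_lit 8902723838) (nat_lit 4) (nat_lit 4) (nat_lit 5) (nat_lit 5) (nat_lit 5) (nat_lit 4) (nat_lit 399) (nat_lit 207) (nat_lit 174)))))) (XT.nd (nat_lit 546) (nat_lit 0) (nat_lit 0) (XT.nd (nat_lit 234) (nat_lit 152) (nat_lit 0) (XT.nd (nat_lit 78) (nat_lit 0) (nat_lit 0) (XT.lf (nat_lit 0) (nat_lit 58090021850) (nat_lit 76) (nat_lit 11962870463) (nat_lit 76) (nat_lit 6733862271) (nat_lit 4) (nat_lit 4) (nat_lit 5) (nat_lit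 5) (nat_lit 5) (nat_lit 4) (nat_lit 400) (nat_lit 207) (nat_lit 173)) (XT.nd (nat_lit 78) (nat_lit 0) (nat_lit 0) (XT.lf (nat_lit 0) (nat_lit 64628998348) (nat_lit 76) (nat_lit 9850199905) (nat_lit 76) (nat_lit 4533253182) (nat_lit 4) (nat_lit 4) (nat_lit 5) (nat_lit 5) (nat_lit 5) (nat_lit 4) (nat_lit 401) (nat_lit 207) (nat_lit 172)) (XT.lf (nat_lit 0) (nat_lit 71305598789) (nat_lit 76) (nat_lit 7701297646) (nat_lit 76) (nat_lit 2298973707) (nat_lit 4) (nat_lit 4) (nat_lit 5) (nat_lit 5) (nat_lit 5) (nat_lit 4) (nat_lit 402) (nat_lit 207) (nat_lit 171)))) (XT.nd (nat_lit 156) (nat_lit 76) (nat_lit 0) (XT.nd (nat_lit 78) (nat_lit 76) (nat_lit 0) (XT.lf (nat_lit 0) (nat_lit 78125657096) (nat_lit 76) (nat_lit 5514286003) (nat_lit 76) (nat_lit 29071563) (nat_lit 4) (nat_lit 4) (nat_lit 5) (nat_lit 5) (nat_lit 5) (nat_lit 4) (nat_lit 403) (nat_lit 207) (nat_lit 170)) (XT.lf (nat_lit 0) (nat_lit 2233976151)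 (nat_lit 152) (nat_lit 1030719065) (nat_lit 76) (nat_lit 82838597613) (nat_lit 3) (nat_lit 5) (nat_lit 5) (nat_lit 5) (nat_lit 4) (nat_lit 4) (nat_lit 404) (nat_lit 207) (nat_lit 169))) (XT.nd (nat_lit 78) (nat_lit 0) (nat_lit 0) (XT.lf (nat_lit 0) (nat_lit 3633755426) (nat_lit 76) (nat_lit 936480202) (nat_lit 152) (nat_lit 84040185974) (nat_lit 2) (nat_lit 5) (nat_lit 3) (nat_lit 5) (nat_lit 4) (nat_lit 4) (nat_lit 405) (nat_lit 207) (nat_lit 168)) (XT.lf (nat_lit 0) (nat_lit 6972208704) (nat_lit 152) (nat_lit 82801572701) (nat_lit 0) (nat_lit 1419121858) (nat_lit 2) (nat_lit 5) (nat_lit 4) (nat_lit 4) (nat_lit 2) (nat_lit 4) (nat_lit 406) (nat_lit 207) (nat_lit 167))))) (XT.nd (nat_lit 234) (nat_lit 0) (nat_lit 0) (XT.nd (nat_lit 78) (nat_lit 0) (nat_lit 0) (XT.lf (nat_lit 0) (nat_lit 9427420728) (nat_lit 152) (nat_lit 80623179018) (nat_lit 0) (nat_lit 3802831808) (nat_lit 2) (nat_lit 5) (nat_lit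 4) (nat_lit 4) (nat_lit 2) (nat_lit 4) (nat_lit 407) (nat_lit 207) (nat_lit 166)) (XT.nd (nat_lit 78) (nat_lit 0) (nat_lit 0) (XT.lf (nat_lit 0) (nat_lit 11929015012) (nat_lit 152) (nat_lit 78430579655) (nat_lit 0) (nat_lit 6235006603) (nat_lit 2) (nat_lit 5) (nat_lit 4) (nat_lit 4) (nat_lit 2) (nat_lit 4) (nat_lit 408) (nat_lit 207) (nat_lit 165)) (XT.lf (nat_lit 0) (nat_lit 14479177415) (nat_lit 152) (nat_lit 76221858748) (nat_lit 0) (nat_lit 8717771443) (nat_lit 2) (nat_lit 5) (nat_lit 4) (nat_lit 4) (nat_lit 2) (nat_lit 4) (nat_lit 409) (nat_lit 207) (nat_lit 164)))) (XT.nd (nat_lit 37128) (nat_lit 0) (nat_lit 608) (XT.nd (nat_lit 37050) (nat_lit 0) (nat_lit 684) (XT.lf (nat_lit 0) (nat_lit 17080136233) (nat_lit 152) (nat_lit 73995086348) (nat_lit 0) (nat_lit 11253295735) (nat_lit 2) (nat_lit 5) (nat_lit 4) (nat_lit 4) (nat_lit 2) (nat_lit 4) (nat_lit 410) (nat_lit 207) (nat_lit 163)) (XT.lf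 (nat_lit 0) (nat_lit 5416310492) (nat_lit 152) (nat_lit 3545223295) (nat_lit 0) (nat_lit 5416310492) (nat_lit 11) (nat_lit 5) (nat_lit 13) (nat_lit 4) (nat_lit 11) (nat_lit 4) (nat_lit 364) (nat_lit 208) (nat_lit 208))) (XT.nd (nat_lit 78) (nat_lit 0) (nat_lit 0) (XT.lf (nat_lit 0) (nat_lit 77544065) (nat_lit 76) (nat_lit 14840504664) (nat_lit 76) (nat_lit 14577988212) (nat_lit 10) (nat_lit 4) (nat_lit 11) (nat_lit 5) (nat_lit 11) (nat_lit 4) (nat_lit 365) (nat_lit 208) (nat_lit 207)) (XT.lf (nat_lit 0) (nat_lit 7460501084) (nat_lit 76) (nat_lit 11657869273) (nat_lit 76) (nat_lit 11140482479) (nat_lit 10) (nat_lit 4) (nat_lit 11) (nat_lit 5) (nat_lit 11) (nat_lit 4) (nat_lit 366) (nat_lit 208) (nat_lit 206))))))))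
noncomputable def xc10 : XT := (XT.nd (nat_lit 2028) (nat_lit 152) (nat_lit 0) (XT.nd (nat_lit 1014) (nat_lit 228) (nat_lit 0) (XT.nd (nat_lit 468) (nat_lit 76) (nat_lit 0) (XT.nd (nat_lit 234) (nat_lit 152) (nat_lit 0) (XT.nd (nat_lit 78) (nat_lit 0) (nat_lit 0) (XT.lf (nat_lit 0) (nat_lit 14923761804) (nat_lit 76) (nat_lit 8443980066) (nat_lit 76) (nat_lit 7679146339) (nat_lit 10) (nat_lit 4) (nat_lit 11) (nat_lit 5) (nat_lit 11) (nat_lit 4) (nat_lit 367) (nat_lit 208) (nat_lit 205)) (XT.nd (nat_lit 78) (nat_lit 0) (nat_lit 0) (XT.lf (nat_lit 0) (nat_lit 22473847520) (nat_lit 76) (nat_lit 5196028791) (nat_lit 76) (nat_lit 4190955322) (nat_lit 10) (nat_lit 4) (nat_lit 11) (nat_lit 5) (nat_lit 11) (nat_lit 4) (nat_lit 368) (nat_lit 208) (nat_lit 204)) (XT.lf (nat_lit 0) (nat_lit 30117355395) (nat_lit 76) (nat_lit 1911177432) (nat_lit 76) (nat_lit 672861496) (nat_lit 10) (nat_lit 4) (nat_lit 11)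 (nat_lit 5) (nat_lit 11) (nat_lit 4) (nat_lit 369) (nat_lit 208) (nat_lit 203)))) (XT.nd (nat_lit 78) (nat_lit 0) (nat_lit 0) (XT.lf (nat_lit 0) (nat_lit 2878123483) (nat_lit 152) (nat_lit 29232653293) (nat_lit 0) (nat_lit 1456021605) (nat_lit 8) (nat_lit 5) (nat_lit 10) (nat_lit 4) (nat_lit 8) (nat_lit 4) (nat_lit 370) (nat_lit 208) (nat_lit 202)) (XT.nd (nat_lit 78) (nat_lit 0) (nat_lit 0) (XT.lf (nat_lit 0) (nat_lit 6496500142) (nat_lit 152) (nat_lit 23101307223) (nat_lit 0) (nat_lit 4860948365) (nat_lit 8) (nat_lit 5) (nat_lit 10) (nat_lit 4) (nat_lit 8) (nat_lit 4) (nat_lit 371) (nat_lit 208) (nat_lit 201)) (XT.lf (nat_lit 0) (nat_lit 10154604167) (nat_lit 152) (nat_lit 16913134819) (nat_lit 0) (nat_lit 8311819479) (nat_lit 8) (nat_lit 5) (nat_lit 10) (nat_lit 4) (nat_lit 8) (nat_lit 4) (nat_lit 372) (nat_lit 208) (nat_lit 200))))) (XT.nd (nat_lit 234) (nat_lit 0) (nat_lit 0) (XT.nd (nat_lit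 78) (nat_lit 76) (nat_lit 0) (XT.lf (nat_lit 0) (nat_lit 13855631961) (nat_lit 152) (nat_lit 10662728939) (nat_lit 0) (nat_lit 11811650272) (nat_lit 8) (nat_lit 5) (nat_lit 10) (nat_lit 4) (nat_lit 8) (nat_lit 4) (nat_lit 373) (nat_lit 208) (nat_lit 199)) (XT.nd (nat_lit 78) (nat_lit 76) (nat_lit 0) (XT.lf (nat_lit 0) (nat_lit 17602817433) (nat_lit 152) (nat_lit 4344628063) (nat_lit 0) (nat_lit 15363498848) (nat_lit 8) (nat_lit 5) (nat_lit 10) (nat_lit 4) (nat_lit 8) (nat_lit 4) (nat_lit 374) (nat_lit 208) (nat_lit 198)) (XT.lf (nat_lit 0) (nat_lit 2087421592) (nat_lit 76) (nat_lit 19332078801) (nat_lit 76) (nat_lit 16903112746) (nat_lit 7) (nat_lit 4) (nat_lit 8) (nat_lit 5) (nat_lit 8) (nat_lit 4) (nat_lit 375) (nat_lit 208) (nat_lit 197)))) (XT.nd (nat_lit 156) (nat_lit 0) (nat_lit 0) (XT.nd (nat_lit 78) (nat_lit 0) (nat_lit 0) (XT.lf (nat_lit 0) (nat_lit 8686306457) (nat_lit 76) (nat_lit 16645993190)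 (nat_lit 76) (nat_lit 14032903377) (nat_lit 7) (nat_lit 4) (nat_lit 8) (nat_lit 5) (nat_lit 8) (nat_lit 4) (nat_lit 376) (nat_lit 208) (nat_lit 196)) (XT.lf (nat_lit 0) (nat_lit 15371325931) (nat_lit 76) (nat_lit 13930713823) (nat_lit 76) (nat_lit 11138863080) (nat_lit 7) (nat_lit 4) (nat_lit 8) (nat_lit 5) (nat_lit 8) (nat_lit 4) (nat_lit 377) (nat_lit 208) (nat_lit 195))) (XT.nd (nat_lit 78) (nat_lit 0) (nat_lit 0) (XT.lf (nat_lit 0) (nat_lit 22148321293) (nat_lit 76) (nat_lit 11183868125) (nat_lit 76) (nat_lit 8218463082) (nat_lit 7) (nat_lit 4) (nat_lit 8) (nat_lit 5) (nat_lit 8) (nat_lit 4) (nat_lit 378) (nat_lit 208) (nat_lit 194)) (XT.lf (nat_lit 0) (nat_lit 29023214188) (nat_lit 76) (nat_lit 8403055940) (nat_lit 76) (nat_lit 5269151576) (nat_lit 7) (nat_lit 4) (nat_lit 8) (nat_lit 5) (nat_lit 8) (nat_lit 4) (nat_lit 379) (nat_lit 208) (nat_lit 193)))))) (XT.nd (nat_lit 468) (nat_lit 76)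 (nat_lit 0) (XT.nd (nat_lit 234) (nat_lit 0) (nat_lit 0) (XT.nd (nat_lit 78) (nat_lit 152) (nat_lit 0) (XT.lf (nat_lit 0) (nat_lit 36002011805) (nat_lit 76) (nat_lit 5585847432) (nat_lit 76) (nat_lit 2288351494) (nat_lit 7) (nat_lit 4) (nat_lit 8) (nat_lit 5) (nat_lit 8) (nat_lit 4) (nat_lit 380) (nat_lit 208) (nat_lit 192)) (XT.nd (nat_lit 78) (nat_lit 76) (nat_lit 0) (XT.lf (nat_lit 0) (nat_lit 712364299) (nat_lit 152) (nat_lit 2010223181) (nat_lit 76) (nat_lit 42371254341) (nat_lit 6) (nat_lit 5) (nat_lit 8) (nat_lit 5) (nat_lit 7) (nat_lit 4) (nat_lit 381) (nat_lit 208) (nat_lit 191)) (XT.lf (nat_lit 0) (nat_lit 3745115749) (nat_lit 152) (nat_lit 42362828840) (nat_lit 0) (nat_lit 239753168) (nat_lit 5) (nat_lit 5) (nat_lit 7) (nat_lit 4) (nat_lit 5) (nat_lit 4) (nat_lit 382) (nat_lit 208) (nat_lit 190)))) (XT.nd (nat_lit 78) (nat_lit 0) (nat_lit 0) (XT.lf (nat_lit 0) (nat_lit 6863813251) (nat_lit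 152) (nat_lit 37562420934) (nat_lit 0) (nat_lit 3213101676) (nat_lit 5) (nat_lit 5) (nat_lit 7) (nat_lit 4) (nat_lit 5) (nat_lit 4) (nat_lit 383) (nat_lit 208) (nat_lit 189)) (XT.nd (nat_lit 78) (nat_lit 0) (nat_lit 0) (XT.lf (nat_lit 0) (nat_lit 10025107506) (nat_lit 152) (nat_lit 32712879072) (nat_lit 0) (nat_lit 6233280402) (nat_lit 5) (nat_lit 5) (nat_lit 7) (nat_lit 4) (nat_lit 5) (nat_lit 4) (nat_lit 384) (nat_lit 208) (nat_lit 188)) (XT.lf (nat_lit 0) (nat_lit 13231760808) (nat_lit 152) (nat_lit 27809965790) (nat_lit 0) (nat_lit 9302928337) (nat_lit 5) (nat_lit 5) (nat_lit 7) (nat_lit 4) (nat_lit 5) (nat_lit 4) (nat_lit 385) (nat_lit 208) (nat_lit 187))))) (XT.nd (nat_lit 234) (nat_lit 76) (nat_lit 0) (XT.nd (nat_lit 78) (nat_lit 0) (nat_lit 0) (XT.lf (nat_lit 0) (nat_lit 16486575088) (nat_lit 152) (nat_lit 22849396990) (nat_lit 0) (nat_lit 12424727697) (nat_lit 5) (nat_lit 5) (nat_lit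 7) (nat_lit 4) (nat_lit 5) (nat_lit 4) (nat_lit 386) (nat_lit 208) (nat_lit 186)) (XT.nd (nat_lit 78) (nat_lit 0) (nat_lit 0) (XT.lf (nat_lit 0) (nat_lit 19792394359) (nat_lit 152) (nat_lit 17826838195) (nat_lit 0) (nat_lit 15601406268) (nat_lit 5) (nat_lit 5) (nat_lit 7) (nat_lit 4) (nat_lit 5) (nat_lit 4) (nat_lit 387) (nat_lit 208) (nat_lit 185)) (XT.lf (nat_lit 0) (nat_lit 23152107200) (nat_lit 152) (nat_lit 12737900760) (nat_lit 0) (nat_lit 18835739790) (nat_lit 5) (nat_lit 5) (nat_lit 7) (nat_lit 4) (nat_lit 5) (nat_lit 4) (nat_lit 388) (nat_lit 208) (nat_lit 184)))) (XT.nd (nat_lit 156) (nat_lit 76) (nat_lit 0) (XT.nd (nat_lit 78) (nat_lit 0) (nat_lit 0) (XT.lf (nat_lit 0) (nat_lit 26568649283) (nat_lit 152) (nat_lit 7578138041) (nat_lit 0) (nat_lit 22130554378) (nat_lit 5) (nat_lit 5) (nat_lit 7) (nat_lit 4) (nat_lit 5) (nat_lit 4) (nat_lit 389) (nat_lit 208) (nat_lit 183)) (XT.lf (nat_lit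 0) (nat_lit 30045005936) (nat_lit 152) (nat_lit 2343041508) (nat_lit 0) (nat_lit 25488728997) (nat_lit 5) (nat_lit 5) (nat_lit 7) (nat_lit 4) (nat_lit 5) (nat_lit 4) (nat_lit 390) (nat_lit 208) (nat_lit 182))) (XT.nd (nat_lit 78) (nat_lit 0) (nat_lit 0) (XT.lf (nat_lit 0) (nat_lit 3031111089) (nat_lit 76) (nat_lit 30582240556) (nat_lit 76) (nat_lit 25911223779) (nat_lit 4) (nat_lit 4) (nat_lit 5) (nat_lit 5) (nat_lit 5) (nat_lit 4) (nat_lit 391) (nat_lit 208) (nat_lit 181)) (XT.lf (nat_lit 0) (nat_lit 8538129915) (nat_lit 76) (nat_lit 28733312056) (nat_lit 76) (nat_lit 23950897378) (nat_lit 4) (nat_lit 4) (nat_lit 5) (nat_lit 5) (nat_lit 5) (nat_lit 4) (nat_lit 392) (nat_lit 208) (nat_lit 180))))))) (XT.nd (nat_lit 1014) (nat_lit 0) (nat_lit 0) (XT.nd (nat_lit 468) (nat_lit 152) (nat_lit 0) (XT.nd (nat_lit 234) (nat_lit 0) (nat_lit 0) (XT.nd (nat_lit 78) (nat_lit 0) (nat_lit 0) (XT.lf (nat_lit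 0) (nat_lit 14136195805) (nat_lit 76) (nat_lit 26863306500) (nat_lit 76) (nat_lit 21972738519) (nat_lit 4) (nat_lit 4) (nat_lit 5) (nat_lit 5) (nat_lit 5) (nat_lit 4) (nat_lit 393) (nat_lit 208) (nat_lit 179)) (XT.nd (nat_lit 78) (nat_lit 0) (nat_lit 0) (XT.lf (nat_lit 0) (nat_lit 19830200275) (nat_lit 76) (nat_lit 24970589904) (nat_lit 76) (nat_lit 19975018717) (nat_lit 4) (nat_lit 4) (nat_lit 5) (nat_lit 5) (nat_lit 5) (nat_lit 4) (nat_lit 394) (nat_lit 208) (nat_lit 178)) (XT.lf (nat_lit 0) (nat_lit 25625118667) (nat_lit 76) (nat_lit 23053508437) (nat_lit 76) (nat_lit 17955992389) (nat_lit 4) (nat_lit 4) (nat_lit 5) (nat_lit 5) (nat_lit 5) (nat_lit 4) (nat_lit 395) (nat_lit 208) (nat_lit 177)))) (XT.nd (nat_lit 78) (nat_lit 0) (nat_lit 0) (XT.lf (nat_lit 0) (nat_lit 31526014503) (nat_lit 76) (nat_lit 21110386979) (nat_lit 76) (nat_lit 15913895339) (nat_lit 4) (nat_lit 4) (nat_lit 5) (nat_lit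 5) (nat_lit 5) (nat_lit 4) (nat_lit 396) (nat_lit 208) (nat_lit 176)) (XT.nd (nat_lit 78) (nat_lit 0) (nat_lit 0) (XT.lf (nat_lit 0) (nat_lit 37538043906) (nat_lit 76) (nat_lit 19139527658) (nat_lit 76) (nat_lit 13846943209) (nat_lit 4) (nat_lit 4) (nat_lit 5) (nat_lit 5) (nat_lit 5) (nat_lit 4) (nat_lit 397) (nat_lit 208) (nat_lit 175)) (XT.lf (nat_lit 0) (nat_lit 43666460104) (nat_lit 76) (nat_lit 17139208363) (nat_lit 76) (nat_lit 11753329925) (nat_lit 4) (nat_lit 4) (nat_lit 5) (nat_lit 5) (nat_lit 5) (nat_lit 4) (nat_lit 398) (nat_lit 208) (nat_lit 174))))) (XT.nd (nat_lit 234) (nat_lit 152) (nat_lit 0) (XT.nd (nat_lit 78) (nat_lit 0) (nat_lit 0) (XT.lf (nat_lit 0) (nat_lit 49916618024) (nat_lit 76) (nat_lit 15107681242) (nat_lit 76) (nat_lit 9631226117) (nat_lit 4) (nat_lit 4) (nat_lit 5) (nat_lit 5) (nat_lit 5) (nat_lit 4) (nat_lit 399) (nat_lit 208) (nat_lit 173)) (XT.nd (nat_lit 78) (nat_lit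 0) (nat_lit 0) (XT.lf (nat_lit 0) (nat_lit 56293978971) (nat_lit 76) (nat_lit 13043171175) (nat_lit 76) (nat_lit 7478777518) (nat_lit 4) (nat_lit 4) (nat_lit 5) (nat_lit 5) (nat_lit 5) (nat_lit 4) (nat_lit 400) (nat_lit 208) (nat_lit 172)) (XT.lf (nat_lit 0) (nat_lit 62804115394) (nat_lit 76) (nat_lit 10943874221) (nat_lit 76) (nat_lit 5294103348) (nat_lit 4) (nat_lit 4) (nat_lit 5) (nat_lit 5) (nat_lit 5) (nat_lit 4) (nat_lit 401) (nat_lit 208) (nat_lit 171)))) (XT.nd (nat_lit 156) (nat_lit 152) (nat_lit 0) (XT.nd (nat_lit 78) (nat_lit 0) (nat_lit 0) (XT.lf (nat_lit 0) (nat_lit 69452715762) (nat_lit 76) (nat_lit 8807956043) (nat_lit 76) (nat_lit 3075294669) (nat_lit 4) (nat_lit 4) (nat_lit 5) (nat_lit 5) (nat_lit 5) (nat_lit 4) (nat_lit 402) (nat_lit 208) (nat_lit 170)) (XT.lf (nat_lit 0) (nat_lit 76245589533) (nat_lit 76) (nat_lit 6633550304) (nat_lit 76) (nat_lit 820412716) (nat_lit 4) (nat_lit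 4) (nat_lit 5) (nat_lit 5) (nat_lit 5) (nat_lit 4) (nat_lit 403) (nat_lit 208) (nat_lit 169))) (XT.nd (nat_lit 78) (nat_lit 76) (nat_lit 0) (XT.lf (nat_lit 0) (nat_lit 1443778767) (nat_lit 152) (nat_lit 2960398935) (nat_lit 76) (nat_lit 81730314125) (nat_lit 3) (nat_lit 5) (nat_lit 5) (nat_lit 5) (nat_lit 4) (nat_lit 4) (nat_lit 404) (nat_lit 208) (nat_lit 168)) (XT.lf (nat_lit 0) (nat_lit 1639251452) (nat_lit 76) (nat_lit 2107732704) (nat_lit 152) (nat_lit 84895631910) (nat_lit 2) (nat_lit 5) (nat_lit 3) (nat_lit 5) (nat_lit 4) (nat_lit 4) (nat_lit 405) (nat_lit 208) (nat_lit 167)))))) (XT.nd (nat_lit 37362) (nat_lit 0) (nat_lit 456) (XT.nd (nat_lit 234) (nat_lit 0) (nat_lit 0) (XT.nd (nat_lit 78) (nat_lit 0) (nat_lit 0) (XT.lf (nat_lit 0) (nat_lit 6123859852) (nat_lit 152) (nat_lit 84842963336) (nat_lit 0) (nat_lit 259031190) (nat_lit 2) (nat_lit 5) (nat_lit 4) (nat_lit 4) (nat_lit 2) (nat_lit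 4) (nat_lit 406) (nat_lit 208) (nat_lit 166)) (XT.nd (nat_lit 78) (nat_lit 0) (nat_lit 0) (XT.lf (nat_lit 0) (nat_lit 8565636358) (nat_lit 152) (nat_lit 82689764791) (nat_lit 0) (nat_lit 2631388207) (nat_lit 2) (nat_lit 5) (nat_lit 4) (nat_lit 4) (nat_lit 2) (nat_lit 4) (nat_lit 407) (nat_lit 208) (nat_lit 165)) (XT.lf (nat_lit 0) (nat_lit 11054186450) (nat_lit 152) (nat_lit 80521626727) (nat_lit 0) (nat_lit 5052540737) (nat_lit 2) (nat_lit 5) (nat_lit 4) (nat_lit 4) (nat_lit 2) (nat_lit 4) (nat_lit 408) (nat_lit 208) (nat_lit 164)))) (XT.nd (nat_lit 36972) (nat_lit 0) (nat_lit 684) (XT.nd (nat_lit 78) (nat_lit 0) (nat_lit 0) (XT.lf (nat_lit 0) (nat_lit 13591684589) (nat_lit 152) (nat_lit 78336654654) (nat_lit 0) (nat_lit 7524604349) (nat_lit 2) (nat_lit 5) (nat_lit 4) (nat_lit 4) (nat_lit 2) (nat_lit 4) (nat_lit 409) (nat_lit 208) (nat_lit 163)) (XT.lf (nat_lit 0) (nat_lit 16180348006) (nat_lit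 152) (nat_lit 76132939375) (nat_lit 0) (nat_lit 10049739099) (nat_lit 2) (nat_lit 5) (nat_lit 4) (nat_lit 4) (nat_lit 2) (nat_lit 4) (nat_lit 410) (nat_lit 208) (nat_lit 162))) (XT.nd (nat_lit 78) (nat_lit 0) (nat_lit 0) (XT.lf (nat_lit 0) (nat_lit 1547056508) (nat_lit 152) (nat_lit 10578320983) (nat_lit 0) (nat_lit 1547056508) (nat_lit 11) (nat_lit 5) (nat_lit 13) (nat_lit 4) (nat_lit 11) (nat_lit 4) (nat_lit 362) (nat_lit 209) (nat_lit 209)) (XT.lf (nat_lit 0) (nat_lit 7059431232) (nat_lit 152) (nat_lit 14190774609) (nat_lit 0) (nat_lit 6789039287) (nat_lit 11) (nat_lit 5) (nat_lit 13) (nat_lit 4) (nat_lit 11) (nat_lit 4) (nat_lit 363) (nat_lit 209) (nat_lit 208))))) (XT.nd (nat_lit 234) (nat_lit 152) (nat_lit 0) (XT.nd (nat_lit 78) (nat_lit 76) (nat_lit 0) (XT.lf (nat_lit 0) (nat_lit 11063502189) (nat_lit 152) (nat_lit 7162791599) (nat_lit 0) (nat_lit 10530593791) (nat_lit 11) (nat_lit 5) (nat_lit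 13) (nat_lit 4) (nat_lit 11) (nat_lit 4) (nat_lit 364) (nat_lit 209) (nat_lit 207)) (XT.nd (nat_lit 78) (nat_lit 76) (nat_lit 0) (XT.lf (nat_lit 0) (nat_lit 15109824589) (nat_lit 152) (nat_lit 66551980) (nat_lit 0) (nat_lit 14322045849) (nat_lit 11) (nat_lit 5) (nat_lit 13) (nat_lit 4) (nat_lit 11) (nat_lit 4) (nat_lit 365) (nat_lit 209) (nat_lit 206)) (XT.lf (nat_lit 0) (nat_lit 7245531258) (nat_lit 76) (nat_lit 12026051275) (nat_lit 76) (nat_lit 10990825601) (nat_lit 10) (nat_lit 4) (nat_lit 11) (nat_lit 5) (nat_lit 11) (nat_lit 4) (nat_lit 366) (nat_lit 209) (nat_lit 205)))) (XT.nd (nat_lit 156) (nat_lit 152) (nat_lit 0) (XT.nd (nat_lit 78) (nat_lit 0) (nat_lit 0) (XT.lf (nat_lit 0) (nat_lit 14641268418) (nat_lit 76) (nat_lit 8842878624) (nat_lit 76) (nat_lit 7567413209) (nat_lit 10) (nat_lit 4) (nat_lit 11) (nat_lit 5) (nat_lit 11) (nat_lit 4) (nat_lit 367) (nat_lit 209) (nat_lit 204)) (XT.lf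 (nat_lit 0) (nat_lit 22125797281) (nat_lit 76) (nat_lit 5624749247) (nat_lit 76) (nat_lit 4116041365) (nat_lit 10) (nat_lit 4) (nat_lit 11) (nat_lit 5) (nat_lit 11) (nat_lit 4) (nat_lit 368) (nat_lit 209) (nat_lit 203))) (XT.nd (nat_lit 78) (nat_lit 152) (nat_lit 0) (XT.lf (nat_lit 0) (nat_lit 29705657726) (nat_lit 76) (nat_lit 2368851188) (nat_lit 76) (nat_lit 633694308) (nat_lit 10) (nat_lit 4) (nat_lit 11) (nat_lit 5) (nat_lit 11) (nat_lit 4) (nat_lit 369) (nat_lit 209) (nat_lit 202)) (XT.lf (nat_lit 0) (nat_lit 2873062791) (nat_lit 152) (nat_lit 29726853675) (nat_lit 0) (nat_lit 974994562) (nat_lit 8) (nat_lit 5) (nat_lit 10) (nat_lit 4) (nat_lit 8) (nat_lit 4) (nat_lit 370) (nat_lit 209) (nat_lit 201))))))))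
noncomputable def xc11 : XT := (XT.nd (nat_lit 2106) (nat_lit 152) (nat_lit 0) (XT.nd (nat_lit 1014) (nat_lit 76) (nat_lit 0) (XT.nd (nat_lit 468) (nat_lit 152) (nat_lit 0) (XT.nd (nat_lit 234) (nat_lit 76) (nat_lit 0) (XT.nd (nat_lit 78) (nat_lit 0) (nat_lit 0) (XT.lf (nat_lit 0) (nat_lit 6457536035) (nat_lit 152) (nat_lit 23658125363) (nat_lit 0) (nat_lit 4352234894) (nat_lit 8) (nat_lit 5) (nat_lit 10) (nat_lit 4) (nat_lit 8) (nat_lit 4) (nat_lit 371) (nat_lit 209) (nat_lit 200)) (XT.nd (nat_lit 78) (nat_lit 0) (nat_lit 0) (XT.lf (nat_lit 0) (nat_lit 10082724123) (nat_lit 152) (nat_lit 17530746898) (nat_lit 0) (nat_lit 7776225981) (nat_lit 8) (nat_lit 5) (nat_lit 10) (nat_lit 4) (nat_lit 8) (nat_lit 4) (nat_lit 372) (nat_lit 209) (nat_lit 199)) (XT.lf (nat_lit 0) (nat_lit 13751794697) (nat_lit 152) (nat_lit 11339364259) (nat_lit 0) (nat_lit 11249959661) (nat_lit 8) (nat_lit 5) (nat_lit 10)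 (nat_lit 4) (nat_lit 8) (nat_lit 4) (nat_lit 373) (nat_lit 209) (nat_lit 198)))) (XT.nd (nat_lit 78) (nat_lit 76) (nat_lit 0) (XT.lf (nat_lit 0) (nat_lit 17467953741) (nat_lit 152) (nat_lit 5078567502) (nat_lit 0) (nat_lit 14776471234) (nat_lit 8) (nat_lit 5) (nat_lit 10) (nat_lit 4) (nat_lit 8) (nat_lit 4) (nat_lit 374) (nat_lit 209) (nat_lit 197)) (XT.nd (nat_lit 78) (nat_lit 0) (nat_lit 0) (XT.lf (nat_lit 0) (nat_lit 1282133006) (nat_lit 76) (nat_lit 19964640024) (nat_lit 76) (nat_lit 17089033759) (nat_lit 7) (nat_lit 4) (nat_lit 8) (nat_lit 5) (nat_lit 8) (nat_lit 4) (nat_lit 375) (nat_lit 209) (nat_lit 196)) (XT.lf (nat_lit 0) (nat_lit 7825928247) (nat_lit 76) (nat_lit 17303869098) (nat_lit 76) (nat_lit 14249501904) (nat_lit 7) (nat_lit 4) (nat_lit 8) (nat_lit 5) (nat_lit 8) (nat_lit 4) (nat_lit 376) (nat_lit 209) (nat_lit 195))))) (XT.nd (nat_lit 234) (nat_lit 152) (nat_lit 0) (XT.nd (nat_lit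 78) (nat_lit 0) (nat_lit 0) (XT.lf (nat_lit 0) (nat_lit 14457462649) (nat_lit 76) (nat_lit 14613167096) (nat_lit 76) (nat_lit 11385245601) (nat_lit 7) (nat_lit 4) (nat_lit 8) (nat_lit 5) (nat_lit 8) (nat_lit 4) (nat_lit 377) (nat_lit 209) (nat_lit 194)) (XT.nd (nat_lit 78) (nat_lit 0) (nat_lit 0) (XT.lf (nat_lit 0) (nat_lit 21182530755) (nat_lit 76) (nat_lit 11890182917) (nat_lit 76) (nat_lit 8493762101) (nat_lit 7) (nat_lit 4) (nat_lit 8) (nat_lit 5) (nat_lit 8) (nat_lit 4) (nat_lit 378) (nat_lit 209) (nat_lit 193)) (XT.lf (nat_lit 0) (nat_lit 28007008840) (nat_lit 76) (nat_lit 9132537256) (nat_lit 76) (nat_lit 5572524865) (nat_lit 7) (nat_lit 4) (nat_lit 8) (nat_lit 5) (nat_lit 8) (nat_lit 4) (nat_lit 379) (nat_lit 209) (nat_lit 192)))) (XT.nd (nat_lit 156) (nat_lit 76) (nat_lit 0) (XT.nd (nat_lit 78) (nat_lit 76) (nat_lit 0) (XT.lf (nat_lit 0) (nat_lit 34936860040) (nat_lit 76) (nat_lit 6337820518)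 (nat_lit 76) (nat_lit 2618981357) (nat_lit 7) (nat_lit 4) (nat_lit 8) (nat_lit 5) (nat_lit 8) (nat_lit 4) (nat_lit 380) (nat_lit 209) (nat_lit 191)) (XT.lf (nat_lit 0) (nat_lit 362239905) (nat_lit 152) (nat_lit 3137692902) (nat_lit 76) (nat_lit 41612241745) (nat_lit 6) (nat_lit 5) (nat_lit 8) (nat_lit 5) (nat_lit 7) (nat_lit 4) (nat_lit 381) (nat_lit 209) (nat_lit 190))) (XT.nd (nat_lit 78) (nat_lit 0) (nat_lit 0) (XT.lf (nat_lit 0) (nat_lit 2789807418) (nat_lit 76) (nat_lit 566131888) (nat_lit 152) (nat_lit 43011270327) (nat_lit 5) (nat_lit 5) (nat_lit 6) (nat_lit 5) (nat_lit 7) (nat_lit 4) (nat_lit 382) (nat_lit 209) (nat_lit 189)) (XT.lf (nat_lit 0) (nat_lit 6444089299) (nat_lit 152) (nat_lit 38818290373) (nat_lit 0) (nat_lit 2397391853) (nat_lit 5) (nat_lit 5) (nat_lit 7) (nat_lit 4) (nat_lit 5) (nat_lit 4) (nat_lit 383) (nat_lit 209) (nat_lit 188)))))) (XT.nd (nat_lit 546) (nat_lit 76) (nat_lit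 0) (XT.nd (nat_lit 234) (nat_lit 0) (nat_lit 0) (XT.nd (nat_lit 78) (nat_lit 0) (nat_lit 0) (XT.lf (nat_lit 0) (nat_lit 9581009277) (nat_lit 152) (nat_lit 34014125277) (nat_lit 0) (nat_lit 5397306464) (nat_lit 5) (nat_lit 5) (nat_lit 7) (nat_lit 4) (nat_lit 5) (nat_lit 4) (nat_lit 384) (nat_lit 209) (nat_lit 187)) (XT.nd (nat_lit 78) (nat_lit 0) (nat_lit 0) (XT.lf (nat_lit 0) (nat_lit 12763998234) (nat_lit 152) (nat_lit 29155267109) (nat_lit 0) (nat_lit 8447280501) (nat_lit 5) (nat_lit 5) (nat_lit 7) (nat_lit 4) (nat_lit 5) (nat_lit 4) (nat_lit 385) (nat_lit 209) (nat_lit 186)) (XT.lf (nat_lit 0) (nat_lit 15995837422) (nat_lit 152) (nat_lit 24237470264) (nat_lit 0) (nat_lit 11549978990) (nat_lit 5) (nat_lit 5) (nat_lit 7) (nat_lit 4) (nat_lit 5) (nat_lit 4) (nat_lit 386) (nat_lit 209) (nat_lit 185)))) (XT.nd (nat_lit 156) (nat_lit 0) (nat_lit 0) (XT.nd (nat_lit 78) (nat_lit 0) (nat_lit 0) (XT.lf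 (nat_lit 0) (nat_lit 19279350778) (nat_lit 152) (nat_lit 19256437639) (nat_lit 0) (nat_lit 14708113026) (nat_lit 5) (nat_lit 5) (nat_lit 7) (nat_lit 4) (nat_lit 5) (nat_lit 4) (nat_lit 387) (nat_lit 209) (nat_lit 184)) (XT.lf (nat_lit 0) (nat_lit 22617407390) (nat_lit 152) (nat_lit 14207816873) (nat_lit 0) (nat_lit 17924442144) (nat_lit 5) (nat_lit 5) (nat_lit 7) (nat_lit 4) (nat_lit 5) (nat_lit 4) (nat_lit 388) (nat_lit 209) (nat_lit 183))) (XT.nd (nat_lit 78) (nat_lit 0) (nat_lit 0) (XT.lf (nat_lit 0) (nat_lit 26012924009) (nat_lit 152) (nat_lit 9087196552) (nat_lit 0) (nat_lit 21201776729) (nat_lit 5) (nat_lit 5) (nat_lit 7) (nat_lit 4) (nat_lit 5) (nat_lit 4) (nat_lit 389) (nat_lit 209) (nat_lit 182)) (XT.lf (nat_lit 0) (nat_lit 29468867590) (nat_lit 152) (nat_lit 3890102347) (nat_lit 0) (nat_lit 24542980471) (nat_lit 5) (nat_lit 5) (nat_lit 7) (nat_lit 4) (nat_lit 5) (nat_lit 4) (nat_lit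 390) (nat_lit 209) (nat_lit 181))))) (XT.nd (nat_lit 234) (nat_lit 0) (nat_lit 0) (XT.nd (nat_lit 78) (nat_lit 0) (nat_lit 0) (XT.lf (nat_lit 0) (nat_lit 1415630950) (nat_lit 76) (nat_lit 31586234849) (nat_lit 76) (nat_lit 26548949828) (nat_lit 4) (nat_lit 4) (nat_lit 5) (nat_lit 5) (nat_lit 5) (nat_lit 4) (nat_lit 391) (nat_lit 209) (nat_lit 180)) (XT.nd (nat_lit 78) (nat_lit 0) (nat_lit 0) (XT.lf (nat_lit 0) (nat_lit 6886116032) (nat_lit 76) (nat_lit 29754247629) (nat_lit 76) (nat_lit 24608809306) (nat_lit 4) (nat_lit 4) (nat_lit 5) (nat_lit 5) (nat_lit 5) (nat_lit 4) (nat_lit 392) (nat_lit 209) (nat_lit 179)) (XT.lf (nat_lit 0) (nat_lit 12448712269) (nat_lit 76) (nat_lit 27900689919) (nat_lit 76) (nat_lit 22650248390) (nat_lit 4) (nat_lit 4) (nat_lit 5) (nat_lit 5) (nat_lit 5) (nat_lit 4) (nat_lit 393) (nat_lit 209) (nat_lit 178)))) (XT.nd (nat_lit 156) (nat_lit 0) (nat_lit 0) (XT.nd (nat_lit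 78) (nat_lit 0) (nat_lit 0) (XT.lf (nat_lit 0) (nat_lit 18108280181) (nat_lit 76) (nat_lit 26023942104) (nat_lit 76) (nat_lit 20671555715) (nat_lit 4) (nat_lit 4) (nat_lit 5) (nat_lit 5) (nat_lit 5) (nat_lit 4) (nat_lit 394) (nat_lit 209) (nat_lit 177)) (XT.lf (nat_lit 0) (nat_lit 23869765023) (nat_lit 76) (nat_lit 24122364309) (nat_lit 76) (nat_lit 18671002327) (nat_lit 4) (nat_lit 4) (nat_lit 5) (nat_lit 5) (nat_lit 5) (nat_lit 4) (nat_lit 395) (nat_lit 209) (nat_lit 176))) (XT.nd (nat_lit 78) (nat_lit 0) (nat_lit 0) (XT.lf (nat_lit 0) (nat_lit 29738201101) (nat_lit 76) (nat_lit 22194294959) (nat_lit 76) (nat_lit 16646840169) (nat_lit 4) (nat_lit 4) (nat_lit 5) (nat_lit 5) (nat_lit 5) (nat_lit 4) (nat_lit 396) (nat_lit 209) (nat_lit 175)) (XT.lf (nat_lit 0) (nat_lit 35718716175) (nat_lit 76) (nat_lit 20238049335) (nat_lit 76) (nat_lit 14597300556) (nat_lit 4) (nat_lit 4) (nat_lit 5) (nat_lit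 5) (nat_lit 5) (nat_lit 4) (nat_lit 397) (nat_lit 209) (nat_lit 174))))))) (XT.nd (nat_lit 37674) (nat_lit 0) (nat_lit 456) (XT.nd (nat_lit 468) (nat_lit 152) (nat_lit 0) (XT.nd (nat_lit 234) (nat_lit 0) (nat_lit 0) (XT.nd (nat_lit 78) (nat_lit 0) (nat_lit 0) (XT.lf (nat_lit 0) (nat_lit 41816535938) (nat_lit 76) (nat_lit 18251918096) (nat_lit 76) (nat_lit 12520592629) (nat_lit 4) (nat_lit 4) (nat_lit 5) (nat_lit 5) (nat_lit 5) (nat_lit 4) (nat_lit 398) (nat_lit 209) (nat_lit 173)) (XT.nd (nat_lit 78) (nat_lit 0) (nat_lit 0) (XT.lf (nat_lit 0) (nat_lit 48036988581) (nat_lit 76) (nat_lit 16234165787) (nat_lit 76) (nat_lit 10414901788) (nat_lit 4) (nat_lit 4) (nat_lit 5) (nat_lit 5) (nat_lit 5) (nat_lit 4) (nat_lit 399) (nat_lit 209) (nat_lit 172)) (XT.lf (nat_lit 0) (nat_lit 54385509453) (nat_lit 76) (nat_lit 14183029324) (nat_lit 76) (nat_lit 8278388109) (nat_lit 4) (nat_lit 4) (nat_lit 5) (nat_lit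 5) (nat_lit 5) (nat_lit 4) (nat_lit 400) (nat_lit 209) (nat_lit 171)))) (XT.nd (nat_lit 78) (nat_lit 0) (nat_lit 0) (XT.lf (nat_lit 0) (nat_lit 60867645804) (nat_lit 76) (nat_lit 12096716450) (nat_lit 76) (nat_lit 6109184735) (nat_lit 4) (nat_lit 4) (nat_lit 5) (nat_lit 5) (nat_lit 5) (nat_lit 4) (nat_lit 401) (nat_lit 209) (nat_lit 170)) (XT.nd (nat_lit 78) (nat_lit 0) (nat_lit 0) (XT.lf (nat_lit 0) (nat_lit 67489061636) (nat_lit 76) (nat_lit 9973404176) (nat_lit 76) (nat_lit 3905396246) (nat_lit 4) (nat_lit 4) (nat_lit 5) (nat_lit 5) (nat_lit 5) (nat_lit 4) (nat_lit 402) (nat_lit 209) (nat_lit 169)) (XT.lf (nat_lit 0) (nat_lit 74255542653) (nat_lit 76) (nat_lit 7811237179) (nat_lit 76) (nat_lit 1665097002) (nat_lit 4) (nat_lit 4) (nat_lit 5) (nat_lit 5) (nat_lit 5) (nat_lit 4) (nat_lit 403) (nat_lit 209) (nat_lit 168))))) (XT.nd (nat_lit 234) (nat_lit 0) (nat_lit 0) (XT.nd (nat_lit 78) (nat_lit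 76) (nat_lit 0) (XT.lf (nat_lit 0) (nat_lit 601695617) (nat_lit 152) (nat_lit 5000554623) (nat_lit 76) (nat_lit 80565229751) (nat_lit 3) (nat_lit 5) (nat_lit 5) (nat_lit 5) (nat_lit 4) (nat_lit 4) (nat_lit 404) (nat_lit 209) (nat_lit 167)) (XT.nd (nat_lit 78) (nat_lit 76) (nat_lit 0) (XT.lf (nat_lit 0) (nat_lit 2875666142) (nat_lit 152) (nat_lit 458041593) (nat_lit 76) (nat_lit 85342777269) (nat_lit 3) (nat_lit 5) (nat_lit 5) (nat_lit 5) (nat_lit 4) (nat_lit 4) (nat_lit 405) (nat_lit 209) (nat_lit 166)) (XT.lf (nat_lit 0) (nat_lit 4254194685) (nat_lit 76) (nat_lit 977992813) (nat_lit 152) (nat_lit 86028150072) (nat_lit 2) (nat_lit 5) (nat_lit 3) (nat_lit 5) (nat_lit 4) (nat_lit 4) (nat_lit 406) (nat_lit 209) (nat_lit 165)))) (XT.nd (nat_lit 156) (nat_lit 0) (nat_lit 0) (XT.nd (nat_lit 78) (nat_lit 0) (nat_lit 0) (XT.lf (nat_lit 0) (nat_lit 7651518748) (nat_lit 152) (nat_lit 84868004574) (nat_lit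 0) (nat_lit 1402426101) (nat_lit 2) (nat_lit 5) (nat_lit 4) (nat_lit 4) (nat_lit 2) (nat_lit 4) (nat_lit 407) (nat_lit 209) (nat_lit 164)) (XT.lf (nat_lit 0) (nat_lit 10127404575) (nat_lit 152) (nat_lit 82723615344) (nat_lit 0) (nat_lit 3812877402) (nat_lit 2) (nat_lit 5) (nat_lit 4) (nat_lit 4) (nat_lit 2) (nat_lit 4) (nat_lit 408) (nat_lit 209) (nat_lit 163))) (XT.nd (nat_lit 78) (nat_lit 0) (nat_lit 0) (XT.lf (nat_lit 0) (nat_lit 12652607312) (nat_lit 152) (nat_lit 80561700392) (nat_lit 0) (nat_lit 6274551472) (nat_lit 2) (nat_lit 5) (nat_lit 4) (nat_lit 4) (nat_lit 2) (nat_lit 4) (nat_lit 409) (nat_lit 209) (nat_lit 162)) (XT.lf (nat_lit 0) (nat_lit 15229333445) (nat_lit 152) (nat_lit 78380370667) (nat_lit 0) (nat_lit 8789599288) (nat_lit 2) (nat_lit 5) (nat_lit 4) (nat_lit 4) (nat_lit 2) (nat_lit 4) (nat_lit 410) (nat_lit 209) (nat_lit 161)))))) (XT.nd (nat_lit 546) (nat_lit 152) (nat_lit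 0) (XT.nd (nat_lit 234) (nat_lit 76) (nat_lit 0) (XT.nd (nat_lit 78) (nat_lit 152) (nat_lit 0) (XT.lf (nat_lit 0) (nat_lit 8638155022) (nat_lit 76) (nat_lit 2185200884) (nat_lit 76) (nat_lit 2185200884) (nat_lit 13) (nat_lit 4) (nat_lit 14) (nat_lit 5) (nat_lit 14) (nat_lit 4) (nat_lit 360) (nat_lit 210) (nat_lit 210)) (XT.nd (nat_lit 78) (nat_lit 152) (nat_lit 0) (XT.lf (nat_lit 0) (nat_lit 25292670998) (nat_lit 76) (nat_lit 833264801) (nat_lit 76) (nat_lit 546405986) (nat_lit 13) (nat_lit 4) (nat_lit 14) (nat_lit 5) (nat_lit 14) (nat_lit 4) (nat_lit 361) (nat_lit 210) (nat_lit 209)) (XT.lf (nat_lit 0) (nat_lit 3331920656) (nat_lit 152) (nat_lit 21231157326) (nat_lit 0) (nat_lit 2783025007) (nat_lit 11) (nat_lit 5) (nat_lit 13) (nat_lit 4) (nat_lit 11) (nat_lit 4) (nat_lit 362) (nat_lit 210) (nat_lit 208)))) (XT.nd (nat_lit 156) (nat_lit 76) (nat_lit 0) (XT.nd (nat_lit 78) (nat_lit 0) (nat_lit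 0) (XT.lf (nat_lit 0) (nat_lit 7257728130) (nat_lit 152) (nat_lit 14337634977) (nat_lit 0) (nat_lit 6446316029) (nat_lit 11) (nat_lit 5) (nat_lit 13) (nat_lit 4) (nat_lit 11) (nat_lit 4) (nat_lit 363) (nat_lit 210) (nat_lit 207)) (XT.lf (nat_lit 0) (nat_lit 11223439144) (nat_lit 152) (nat_lit 7379889839) (nat_lit 0) (nat_lit 10157156700) (nat_lit 11) (nat_lit 5) (nat_lit 13) (nat_lit 4) (nat_lit 11) (nat_lit 4) (nat_lit 364) (nat_lit 210) (nat_lit 206))) (XT.nd (nat_lit 78) (nat_lit 76) (nat_lit 0) (XT.lf (nat_lit 0) (nat_lit 15232518880) (nat_lit 152) (nat_lit 351842329) (nat_lit 0) (nat_lit 13918789503) (nat_lit 11) (nat_lit 5) (nat_lit 13) (nat_lit 4) (nat_lit 11) (nat_lit 4) (nat_lit 365) (nat_lit 210) (nat_lit 205)) (XT.lf (nat_lit 0) (nat_lit 6887039512) (nat_lit 76) (nat_lit 12467633344) (nat_lit 76) (nat_lit 10913664225) (nat_lit 10) (nat_lit 4) (nat_lit 11) (nat_lit 5) (nat_lit 11) (nat_lit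 4) (nat_lit 366) (nat_lit 210) (nat_lit 204))))) (XT.nd (nat_lit 234) (nat_lit 152) (nat_lit 0) (XT.nd (nat_lit 78) (nat_lit 0) (nat_lit 0) (XT.lf (nat_lit 0) (nat_lit 14217219819) (nat_lit 76) (nat_lit 9314282592) (nat_lit 76) (nat_lit 7527071005) (nat_lit 10) (nat_lit 4) (nat_lit 11) (nat_lit 5) (nat_lit 11) (nat_lit 4) (nat_lit 367) (nat_lit 210) (nat_lit 203)) (XT.nd (nat_lit 78) (nat_lit 0) (nat_lit 0) (XT.lf (nat_lit 0) (nat_lit 21638101251) (nat_lit 76) (nat_lit 6125106515) (nat_lit 76) (nat_lit 4111445931) (nat_lit 10) (nat_lit 4) (nat_lit 11) (nat_lit 5) (nat_lit 11) (nat_lit 4) (nat_lit 368) (nat_lit 210) (nat_lit 202)) (XT.lf (nat_lit 0) (nat_lit 29156168073) (nat_lit 76) (nat_lit 2897318456) (nat_lit 76) (nat_lit 663804476) (nat_lit 10) (nat_lit 4) (nat_lit 11) (nat_lit 5) (nat_lit 11) (nat_lit 4) (nat_lit 369) (nat_lit 210) (nat_lit 201)))) (XT.nd (nat_lit 156) (nat_lit 0) (nat_lit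 0) (XT.nd (nat_lit 78) (nat_lit 0) (nat_lit 0) (XT.lf (nat_lit 0) (nat_lit 2799026346) (nat_lit 152) (nat_lit 30362994117) (nat_lit 0) (nat_lit 423333260) (nat_lit 8) (nat_lit 5) (nat_lit 10) (nat_lit 4) (nat_lit 8) (nat_lit 4) (nat_lit 370) (nat_lit 210) (nat_lit 200)) (XT.lf (nat_lit 0) (nat_lit 6350583652) (nat_lit 152) (nat_lit 24355059743) (nat_lit 0) (nat_lit 3773693565) (nat_lit 8) (nat_lit 5) (nat_lit 10) (nat_lit 4) (nat_lit 8) (nat_lit 4) (nat_lit 371) (nat_lit 210) (nat_lit 199))) (XT.nd (nat_lit 78) (nat_lit 0) (nat_lit 0) (XT.lf (nat_lit 0) (nat_lit 9943814521) (nat_lit 152) (nat_lit 18286704520) (nat_lit 0) (nat_lit 7171587538) (nat_lit 8) (nat_lit 5) (nat_lit 10) (nat_lit 4) (nat_lit 8) (nat_lit 4) (nat_lit 372) (nat_lit 210) (nat_lit 198)) (XT.lf (nat_lit 0) (nat_lit 13581858667) (nat_lit 152) (nat_lit 12152626000) (nat_lit 0) (nat_lit 10619984215) (nat_lit 8) (nat_lit 5) (nat_lit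 10) (nat_lit 4) (nat_lit 8) (nat_lit 4) (nat_lit 373) (nat_lit 210) (nat_lit 197))))))))
noncomputable def xc12 : XT := (XT.nd (nat_lit 2028) (nat_lit 152) (nat_lit 0) (XT.nd (nat_lit 1014) (nat_lit 76) (nat_lit 0) (XT.nd (nat_lit 468) (nat_lit 152) (nat_lit 0) (XT.nd (nat_lit 234) (nat_lit 0) (nat_lit 0) (XT.nd (nat_lit 78) (nat_lit 76) (nat_lit 0) (XT.lf (nat_lit 0) (nat_lit 17267894966) (nat_lit 152) (nat_lit 5947464309) (nat_lit 0) (nat_lit 14121896755) (nat_lit 8) (nat_lit 5) (nat_lit 10) (nat_lit 4) (nat_lit 8) (nat_lit 4) (nat_lit 374) (nat_lit 210) (nat_lit 196)) (XT.nd (nat_lit 78) (nat_lit 0) (nat_lit 0) (XT.lf (nat_lit 0) (nat_lit 340853824) (nat_lit 76) (nat_lit 20667566895) (nat_lit 76) (nat_lit 17342807755) (nat_lit 7) (nat_lit 4) (nat_lit 8) (nat_lit 5) (nat_lit 8) (nat_lit 4) (nat_lit 375) (nat_lit 210) (nat_lit 195)) (XT.lf (nat_lit 0) (nat_lit 6831163993) (nat_lit 76) (nat_lit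 18031373335) (nat_lit 76) (nat_lit 14533059894) (nat_lit 7) (nat_lit 4) (nat_lit 8) (nat_lit 5) (nat_lit 8) (nat_lit 4) (nat_lit 376) (nat_lit 210) (nat_lit 194)))) (XT.nd (nat_lit 78) (nat_lit 0) (nat_lit 0) (XT.lf (nat_lit 0) (nat_lit 13410771140) (nat_lit 76) (nat_lit 15364532851) (nat_lit 76) (nat_lit 11697720089) (nat_lit 7) (nat_lit 4) (nat_lit 8) (nat_lit 5) (nat_lit 8) (nat_lit 4) (nat_lit 377) (nat_lit 210) (nat_lit 193)) (XT.nd (nat_lit 78) (nat_lit 0) (nat_lit 0) (XT.lf (nat_lit 0) (nat_lit 20085424437) (nat_lit 76) (nat_lit 12664715196) (nat_lit 76) (nat_lit 8834310860) (nat_lit 7) (nat_lit 4) (nat_lit 8) (nat_lit 5) (nat_lit 8) (nat_lit 4) (nat_lit 378) (nat_lit 210) (nat_lit 192)) (XT.lf (nat_lit 0) (nat_lit 26860956104) (nat_lit 76) (nat_lit 9929561305) (nat_lit 76) (nat_lit 5940330198) (nat_lit 7) (nat_lit 4) (nat_lit 8) (nat_lit 5) (nat_lit 8) (nat_lit 4) (nat_lit 379) (nat_lit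 210) (nat_lit 191))))) (XT.nd (nat_lit 234) (nat_lit 0) (nat_lit 0) (XT.nd (nat_lit 78) (nat_lit 152) (nat_lit 0) (XT.lf (nat_lit 0) (nat_lit 33743286509) (nat_lit 76) (nat_lit 7156681238) (nat_lit 76) (nat_lit 3013249383) (nat_lit 7) (nat_lit 4) (nat_lit 8) (nat_lit 5) (nat_lit 8) (nat_lit 4) (nat_lit 380) (nat_lit 210) (nat_lit 190)) (XT.nd (nat_lit 78) (nat_lit 152) (nat_lit 0) (XT.lf (nat_lit 0) (nat_lit 40738429340) (nat_lit 76) (nat_lit 4343652090) (nat_lit 76) (nat_lit 50510770) (nat_lit 7) (nat_lit 4) (nat_lit 8) (nat_lit 5) (nat_lit 8) (nat_lit 4) (nat_lit 381) (nat_lit 210) (nat_lit 189)) (XT.lf (nat_lit 0) (nat_lit 1462638138) (nat_lit 76) (nat_lit 1444321690) (nat_lit 152) (nat_lit 43481805815) (nat_lit 5) (nat_lit 5) (nat_lit 6) (nat_lit 5) (nat_lit 7) (nat_lit 4) (nat_lit 382) (nat_lit 210) (nat_lit 188)))) (XT.nd (nat_lit 156) (nat_lit 0) (nat_lit 0) (XT.nd (nat_lit 78) (nat_lit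 0) (nat_lit 0) (XT.lf (nat_lit 0) (nat_lit 5962293848) (nat_lit 152) (nat_lit 40203950731) (nat_lit 0) (nat_lit 1516074583) (nat_lit 5) (nat_lit 5) (nat_lit 7) (nat_lit 4) (nat_lit 5) (nat_lit 4) (nat_lit 383) (nat_lit 210) (nat_lit 187)) (XT.lf (nat_lit 0) (nat_lit 9075549481) (nat_lit 152) (nat_lit 35443840749) (nat_lit 0) (nat_lit 4496315296) (nat_lit 5) (nat_lit 5) (nat_lit 7) (nat_lit 4) (nat_lit 5) (nat_lit 4) (nat_lit 384) (nat_lit 210) (nat_lit 186))) (XT.nd (nat_lit 78) (nat_lit 0) (nat_lit 0) (XT.lf (nat_lit 0) (nat_lit 12235563346) (nat_lit 152) (nat_lit 30627754536) (nat_lit 0) (nat_lit 7527188461) (nat_lit 5) (nat_lit 5) (nat_lit 7) (nat_lit 4) (nat_lit 5) (nat_lit 4) (nat_lit 385) (nat_lit 210) (nat_lit 185)) (XT.lf (nat_lit 0) (nat_lit 15445096618) (nat_lit 152) (nat_lit 25751483861) (nat_lit 0) (nat_lit 10611342414) (nat_lit 5) (nat_lit 5) (nat_lit 7) (nat_lit 4) (nat_lit 5) (nat_lit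 4) (nat_lit 386) (nat_lit 210) (nat_lit 184)))))) (XT.nd (nat_lit 468) (nat_lit 0) (nat_lit 0) (XT.nd (nat_lit 234) (nat_lit 76) (nat_lit 0) (XT.nd (nat_lit 78) (nat_lit 0) (nat_lit 0) (XT.lf (nat_lit 0) (nat_lit 18706953745) (nat_lit 152) (nat_lit 20810767905) (nat_lit 0) (nat_lit 13751472047) (nat_lit 5) (nat_lit 5) (nat_lit 7) (nat_lit 4) (nat_lit 5) (nat_lit 4) (nat_lit 387) (nat_lit 210) (nat_lit 183)) (XT.nd (nat_lit 78) (nat_lit 0) (nat_lit 0) (XT.lf (nat_lit 0) (nat_lit 22023984894) (nat_lit 152) (nat_lit 15801289537) (nat_lit 0) (nat_lit 16950321162) (nat_lit 5) (nat_lit 5) (nat_lit 7) (nat_lit 4) (nat_lit 5) (nat_lit 4) (nat_lit 388) (nat_lit 210) (nat_lit 182)) (XT.lf (nat_lit 0) (nat_lit 25399088440) (nat_lit 152) (nat_lit 10718671544) (nat_lit 0) (nat_lit 20210684869) (nat_lit 5) (nat_lit 5) (nat_lit 7) (nat_lit 4) (nat_lit 5) (nat_lit 4) (nat_lit 389) (nat_lit 210) (nat_lit 181))))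 (XT.nd (nat_lit 78) (nat_lit 76) (nat_lit 0) (XT.lf (nat_lit 0) (nat_lit 28835213504) (nat_lit 152) (nat_lit 5558472802) (nat_lit 0) (nat_lit 23535412032) (nat_lit 5) (nat_lit 5) (nat_lit 7) (nat_lit 4) (nat_lit 5) (nat_lit 4) (nat_lit 390) (nat_lit 210) (nat_lit 180)) (XT.nd (nat_lit 78) (nat_lit 76) (nat_lit 0) (XT.lf (nat_lit 0) (nat_lit 32335362525) (nat_lit 152) (nat_lit 316184402) (nat_lit 0) (nat_lit 26927407750) (nat_lit 5) (nat_lit 5) (nat_lit 7) (nat_lit 4) (nat_lit 5) (nat_lit 4) (nat_lit 391) (nat_lit 210) (nat_lit 179)) (XT.lf (nat_lit 0) (nat_lit 5112538336) (nat_lit 76) (nat_lit 30839200395) (nat_lit 76) (nat_lit 25326242414) (nat_lit 4) (nat_lit 4) (nat_lit 5) (nat_lit 5) (nat_lit 5) (nat_lit 4) (nat_lit 392) (nat_lit 210) (nat_lit 178))))) (XT.nd (nat_lit 234) (nat_lit 0) (nat_lit 0) (XT.nd (nat_lit 78) (nat_lit 0) (nat_lit 0) (XT.lf (nat_lit 0) (nat_lit 10640698015) (nat_lit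 76) (nat_lit 29001611467) (nat_lit 76) (nat_lit 23386708625) (nat_lit 4) (nat_lit 4) (nat_lit 5) (nat_lit 5) (nat_lit 5) (nat_lit 4) (nat_lit 393) (nat_lit 210) (nat_lit 177)) (XT.nd (nat_lit 78) (nat_lit 0) (nat_lit 0) (XT.lf (nat_lit 0) (nat_lit 16266832377) (nat_lit 76) (nat_lit 27140367324) (nat_lit 76) (nat_lit 21426488890) (nat_lit 4) (nat_lit 4) (nat_lit 5) (nat_lit 5) (nat_lit 5) (nat_lit 4) (nat_lit 394) (nat_lit 210) (nat_lit 176)) (XT.lf (nat_lit 0) (nat_lit 21995857460) (nat_lit 76) (nat_lit 25253841637) (nat_lit 76) (nat_lit 19443870394) (nat_lit 4) (nat_lit 4) (nat_lit 5) (nat_lit 5) (nat_lit 5) (nat_lit 4) (nat_lit 395) (nat_lit 210) (nat_lit 175)))) (XT.nd (nat_lit 156) (nat_lit 0) (nat_lit 0) (XT.nd (nat_lit 78) (nat_lit 0) (nat_lit 0) (XT.lf (nat_lit 0) (nat_lit 27832779210) (nat_lit 76) (nat_lit 23340385985) (nat_lit 76) (nat_lit 17437120754) (nat_lit 4) (nat_lit 4) (nat_lit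 5) (nat_lit 5) (nat_lit 5) (nat_lit 4) (nat_lit 396) (nat_lit 210) (nat_lit 174)) (XT.lf (nat_lit 0) (nat_lit 33782697849) (nat_lit 76) (nat_lit 21398328417) (nat_lit 76) (nat_lit 15404486498) (nat_lit 4) (nat_lit 4) (nat_lit 5) (nat_lit 5) (nat_lit 5) (nat_lit 4) (nat_lit 397) (nat_lit 210) (nat_lit 173))) (XT.nd (nat_lit 78) (nat_lit 0) (nat_lit 0) (XT.lf (nat_lit 0) (nat_lit 39850812335) (nat_lit 76) (nat_lit 19425971989) (nat_lit 76) (nat_lit 13344191538) (nat_lit 4) (nat_lit 4) (nat_lit 5) (nat_lit 5) (nat_lit 5) (nat_lit 4) (nat_lit 398) (nat_lit 210) (nat_lit 172)) (XT.lf (nat_lit 0) (nat_lit 46042424904) (nat_lit 76) (nat_lit 17421593283) (nat_lit 76) (nat_lit 11254435616) (nat_lit 4) (nat_lit 4) (nat_lit 5) (nat_lit 5) (nat_lit 5) (nat_lit 4) (nat_lit 399) (nat_lit 210) (nat_lit 171))))))) (XT.nd (nat_lit 37518) (nat_lit 0) (nat_lit 456) (XT.nd (nat_lit 468) (nat_lit 76) (nat_lit 0) (XT.nd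 (nat_lit 234) (nat_lit 76) (nat_lit 0) (XT.nd (nat_lit 78) (nat_lit 0) (nat_lit 0) (XT.lf (nat_lit 0) (nat_lit 52362945703) (nat_lit 76) (nat_lit 15383440901) (nat_lit 76) (nat_lit 9133392733) (nat_lit 4) (nat_lit 4) (nat_lit 5) (nat_lit 5) (nat_lit 5) (nat_lit 4) (nat_lit 400) (nat_lit 210) (nat_lit 170)) (XT.nd (nat_lit 78) (nat_lit 0) (nat_lit 0) (XT.lf (nat_lit 0) (nat_lit 58817897517) (nat_lit 76) (nat_lit 13309733932) (nat_lit 76) (nat_lit 6979209550) (nat_lit 4) (nat_lit 4) (nat_lit 5) (nat_lit 5) (nat_lit 5) (nat_lit 4) (nat_lit 401) (nat_lit 210) (nat_lit 169)) (XT.lf (nat_lit 0) (nat_lit 65412920596) (nat_lit 76) (nat_lit 11198660399) (nat_lit 76) (nat_lit 4790003770) (nat_lit 4) (nat_lit 4) (nat_lit 5) (nat_lit 5) (nat_lit 5) (nat_lit 4) (nat_lit 402) (nat_lit 210) (nat_lit 168)))) (XT.nd (nat_lit 78) (nat_lit 76) (nat_lit 0) (XT.lf (nat_lit 0) (nat_lit 72153777580) (nat_lit 76) (nat_lit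 9048375675) (nat_lit 76) (nat_lit 2563862496) (nat_lit 4) (nat_lit 4) (nat_lit 5) (nat_lit 5) (nat_lit 5) (nat_lit 4) (nat_lit 403) (nat_lit 210) (nat_lit 167)) (XT.nd (nat_lit 78) (nat_lit 76) (nat_lit 0) (XT.lf (nat_lit 0) (nat_lit 79046358540) (nat_lit 76) (nat_lit 6857000870) (nat_lit 76) (nat_lit 298840555) (nat_lit 4) (nat_lit 4) (nat_lit 5) (nat_lit 5) (nat_lit 5) (nat_lit 4) (nat_lit 404) (nat_lit 210) (nat_lit 166)) (XT.lf (nat_lit 0) (nat_lit 1967876594) (nat_lit 152) (nat_lit 2634872902) (nat_lit 76) (nat_lit 84108937828) (nat_lit 3) (nat_lit 5) (nat_lit 5) (nat_lit 5) (nat_lit 4) (nat_lit 4) (nat_lit 405) (nat_lit 210) (nat_lit 165))))) (XT.nd (nat_lit 234) (nat_lit 0) (nat_lit 0) (XT.nd (nat_lit 78) (nat_lit 0) (nat_lit 0) (XT.lf (nat_lit 0) (nat_lit 2009862405) (nat_lit 76) (nat_lit 2280257931) (nat_lit 152) (nat_lit 87006451398) (nat_lit 2) (nat_lit 5) (nat_lit 3) (nat_lit 5) (nat_lit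 4) (nat_lit 4) (nat_lit 406) (nat_lit 210) (nat_lit 164)) (XT.nd (nat_lit 78) (nat_lit 0) (nat_lit 0) (XT.lf (nat_lit 0) (nat_lit 6684269153) (nat_lit 152) (nat_lit 87159801684) (nat_lit 0) (nat_lit 114871637) (nat_lit 2) (nat_lit 5) (nat_lit 4) (nat_lit 4) (nat_lit 2) (nat_lit 4) (nat_lit 407) (nat_lit 210) (nat_lit 163)) (XT.lf (nat_lit 0) (nat_lit 9147859578) (nat_lit 152) (nat_lit 85038469575) (nat_lit 0) (nat_lit 2514933396) (nat_lit 2) (nat_lit 5) (nat_lit 4) (nat_lit 4) (nat_lit 2) (nat_lit 4) (nat_lit 408) (nat_lit 210) (nat_lit 162)))) (XT.nd (nat_lit 36660) (nat_lit 0) (nat_lit 836) (XT.nd (nat_lit 78) (nat_lit 0) (nat_lit 0) (XT.lf (nat_lit 0) (nat_lit 11661125032) (nat_lit 152) (nat_lit 82898940177) (nat_lit 0) (nat_lit 4966520532) (nat_lit 2) (nat_lit 5) (nat_lit 4) (nat_lit 4) (nat_lit 2) (nat_lit 4) (nat_lit 409) (nat_lit 210) (nat_lit 161)) (XT.lf (nat_lit 0) (nat_lit 14226261569)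 (nat_lit 152) (nat_lit 80739343999) (nat_lit 0) (nat_lit 7471775209) (nat_lit 2) (nat_lit 5) (nat_lit 4) (nat_lit 4) (nat_lit 2) (nat_lit 4) (nat_lit 410) (nat_lit 210) (nat_lit 160))) (XT.nd (nat_lit 78) (nat_lit 0) (nat_lit 0) (XT.lf (nat_lit 0) (nat_lit 789097865) (nat_lit 76) (nat_lit 5797789478) (nat_lit 76) (nat_lit 5797789478) (nat_lit 13) (nat_lit 4) (nat_lit 14) (nat_lit 5) (nat_lit 14) (nat_lit 4) (nat_lit 358) (nat_lit 211) (nat_lit 211)) (XT.lf (nat_lit 0) (nat_lit 9348555404) (nat_lit 76) (nat_lit 8165149834) (nat_lit 76) (nat_lit 7869685254) (nat_lit 13) (nat_lit 4) (nat_lit 14) (nat_lit 5) (nat_lit 14) (nat_lit 4) (nat_lit 359) (nat_lit 211) (nat_lit 210)))))) (XT.nd (nat_lit 546) (nat_lit 152) (nat_lit 0) (XT.nd (nat_lit 234) (nat_lit 76) (nat_lit 0) (XT.nd (nat_lit 78) (nat_lit 152) (nat_lit 0) (XT.lf (nat_lit 0) (nat_lit 17202799539) (nat_lit 76) (nat_lit 4698932862) (nat_lit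 76) (nat_lit 4116609467) (nat_lit 13) (nat_lit 4) (nat_lit 14) (nat_lit 5) (nat_lit 14) (nat_lit 4) (nat_lit 360) (nat_lit 211) (nat_lit 209)) (XT.nd (nat_lit 78) (nat_lit 152) (nat_lit 0) (XT.lf (nat_lit 0) (nat_lit 25147791068) (nat_lit 76) (nat_lit 1193899307) (nat_lit 76) (nat_lit 333072208) (nat_lit 13) (nat_lit 4) (nat_lit 14) (nat_lit 5) (nat_lit 14) (nat_lit 4) (nat_lit 361) (nat_lit 211) (nat_lit 208)) (XT.lf (nat_lit 0) (nat_lit 3496655720) (nat_lit 152) (nat_lit 21454768513) (nat_lit 0) (nat_lit 2398384803) (nat_lit 11) (nat_lit 5) (nat_lit 13) (nat_lit 4) (nat_lit 11) (nat_lit 4) (nat_lit 362) (nat_lit 211) (nat_lit 207)))) (XT.nd (nat_lit 156) (nat_lit 76) (nat_lit 0) (XT.nd (nat_lit 78) (nat_lit 0) (nat_lit 0) (XT.lf (nat_lit 0) (nat_lit 7384103250) (nat_lit 152) (nat_lit 14631484037) (nat_lit 0) (nat_lit 6030961992) (nat_lit 11) (nat_lit 5) (nat_lit 13) (nat_lit 4) (nat_lit 11)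 (nat_lit 4) (nat_lit 363) (nat_lit 211) (nat_lit 206)) (XT.lf (nat_lit 0) (nat_lit 11312571600) (nat_lit 152) (nat_lit 7741931009) (nat_lit 0) (nat_lit 9711983407) (nat_lit 11) (nat_lit 5) (nat_lit 13) (nat_lit 4) (nat_lit 11) (nat_lit 4) (nat_lit 364) (nat_lit 211) (nat_lit 205))) (XT.nd (nat_lit 78) (nat_lit 76) (nat_lit 0) (XT.lf (nat_lit 0) (nat_lit 15285493411) (nat_lit 152) (nat_lit 780089430) (nat_lit 0) (nat_lit 13444665477) (nat_lit 11) (nat_lit 5) (nat_lit 13) (nat_lit 4) (nat_lit 11) (nat_lit 4) (nat_lit 365) (nat_lit 211) (nat_lit 204)) (XT.lf (nat_lit 0) (nat_lit 6384712600) (nat_lit 76) (nat_lit 12983001330) (nat_lit 76) (nat_lit 10908930928) (nat_lit 10) (nat_lit 4) (nat_lit 11) (nat_lit 5) (nat_lit 11) (nat_lit 4) (nat_lit 366) (nat_lit 211) (nat_lit 203))))) (XT.nd (nat_lit 234) (nat_lit 152) (nat_lit 0) (XT.nd (nat_lit 78) (nat_lit 0) (nat_lit 0) (XT.lf (nat_lit 0) (nat_lit 13651245477)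 (nat_lit 76) (nat_lit 9858603877) (nat_lit 76) (nat_lit 7558084478) (nat_lit 10) (nat_lit 4) (nat_lit 11) (nat_lit 5) (nat_lit 11) (nat_lit 4) (nat_lit 367) (nat_lit 211) (nat_lit 202)) (XT.nd (nat_lit 78) (nat_lit 0) (nat_lit 0) (XT.lf (nat_lit 0) (nat_lit 21010333287) (nat_lit 76) (nat_lit 6697537801) (nat_lit 76) (nat_lit 4177165005) (nat_lit 10) (nat_lit 4) (nat_lit 11) (nat_lit 5) (nat_lit 11) (nat_lit 4) (nat_lit 368) (nat_lit 211) (nat_lit 201)) (XT.lf (nat_lit 0) (nat_lit 28468406302) (nat_lit 76) (nat_lit 3497041003) (nat_lit 76) (nat_lit 763218309) (nat_lit 10) (nat_lit 4) (nat_lit 11) (nat_lit 5) (nat_lit 11) (nat_lit 4) (nat_lit 369) (nat_lit 211) (nat_lit 200)))) (XT.nd (nat_lit 156) (nat_lit 0) (nat_lit 0) (XT.nd (nat_lit 78) (nat_lit 0) (nat_lit 0) (XT.lf (nat_lit 0) (nat_lit 2454491123) (nat_lit 76) (nat_lit 203413669) (nat_lit 152) (nat_lit 30940172135) (nat_lit 8) (nat_lit 5)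 (nat_lit 9) (nat_lit 5) (nat_lit 10) (nat_lit 4) (nat_lit 370) (nat_lit 211) (nat_lit 199)) (XT.lf (nat_lit 0) (nat_lit 6175549541) (nat_lit 152) (nat_lit 25192719336) (nat_lit 0) (nat_lit 3124818855) (nat_lit 8) (nat_lit 5) (nat_lit 10) (nat_lit 4) (nat_lit 8) (nat_lit 4) (nat_lit 371) (nat_lit 211) (nat_lit 198))) (XT.nd (nat_lit 78) (nat_lit 0) (nat_lit 0) (XT.lf (nat_lit 0) (nat_lit 9737753982) (nat_lit 152) (nat_lit 19181668231) (nat_lit 0) (nat_lit 6497375826) (nat_lit 8) (nat_lit 5) (nat_lit 10) (nat_lit 4) (nat_lit 8) (nat_lit 4) (nat_lit 372) (nat_lit 211) (nat_lit 197)) (XT.lf (nat_lit 0) (nat_lit 13345675384) (nat_lit 152) (nat_lit 13103224777) (nat_lit 0) (nat_lit 9921173469) (nat_lit 8) (nat_lit 5) (nat_lit 10) (nat_lit 4) (nat_lit 8) (nat_lit 4) (nat_lit 373) (nat_lit 211) (nat_lit 196))))))))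
noncomputable def xc13 : XT := (XT.nd (nat_lit 2028) (nat_lit 152) (nat_lit 0) (XT.nd (nat_lit 1014) (nat_lit 76) (nat_lit 0) (XT.nd (nat_lit 468) (nat_lit 152) (nat_lit 0) (XT.nd (nat_lit 234) (nat_lit 0) (nat_lit 0) (XT.nd (nat_lit 78) (nat_lit 76) (nat_lit 0) (XT.lf (nat_lit 0) (nat_lit 17002466299) (nat_lit 152) (nat_lit 6952077713) (nat_lit 0) (nat_lit 13399203455) (nat_lit 8) (nat_lit 5) (nat_lit 10) (nat_lit 4) (nat_lit 8) (nat_lit 4) (nat_lit 374) (nat_lit 211) (nat_lit 195)) (XT.nd (nat_lit 78) (nat_lit 76) (nat_lit 0) (XT.lf (nat_lit 0) (nat_lit 20711321981) (nat_lit 152) (nat_lit 722852251) (nat_lit 0) (nat_lit 16934504836) (nat_lit 8) (nat_lit 5) (nat_lit 10) (nat_lit 4) (nat_lit 8) (nat_lit 4) (nat_lit 375) (nat_lit 211) (nat_lit 194)) (XT.lf (nat_lit 0) (nat_lit 5701144485) (nat_lit 76) (nat_lit 18829141582) (nat_lit 76) (nat_lit 14883825115) (nat_lit 7) (nat_lit 4) (nat_lit 8) (nat_lit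 5) (nat_lit 8) (nat_lit 4) (nat_lit 376) (nat_lit 211) (nat_lit 193)))) (XT.nd (nat_lit 78) (nat_lit 0) (nat_lit 0) (XT.lf (nat_lit 0) (nat_lit 12230336822) (nat_lit 76) (nat_lit 16185467622) (nat_lit 76) (nat_lit 12076559582) (nat_lit 7) (nat_lit 4) (nat_lit 8) (nat_lit 5) (nat_lit 8) (nat_lit 4) (nat_lit 377) (nat_lit 211) (nat_lit 192)) (XT.nd (nat_lit 78) (nat_lit 0) (nat_lit 0) (XT.lf (nat_lit 0) (nat_lit 18856043700) (nat_lit 76) (nat_lit 13508141737) (nat_lit 76) (nat_lit 9240406926) (nat_lit 7) (nat_lit 4) (nat_lit 8) (nat_lit 5) (nat_lit 8) (nat_lit 4) (nat_lit 378) (nat_lit 211) (nat_lit 191)) (XT.lf (nat_lit 0) (nat_lit 25584054574) (nat_lit 76) (nat_lit 10794824516) (nat_lit 76) (nat_lit 6372888957) (nat_lit 7) (nat_lit 4) (nat_lit 8) (nat_lit 5) (nat_lit 8) (nat_lit 4) (nat_lit 379) (nat_lit 211) (nat_lit 190))))) (XT.nd (nat_lit 234) (nat_lit 0) (nat_lit 0) (XT.nd (nat_lit 78) (nat_lit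 152) (nat_lit 0) (XT.lf (nat_lit 0) (nat_lit 32420248286) (nat_lit 76) (nat_lit 8043145100) (nat_lit 76) (nat_lit 3471500076) (nat_lit 7) (nat_lit 4) (nat_lit 8) (nat_lit 5) (nat_lit 8) (nat_lit 4) (nat_lit 380) (nat_lit 211) (nat_lit 189)) (XT.nd (nat_lit 78) (nat_lit 152) (nat_lit 0) (XT.lf (nat_lit 0) (nat_lit 39370598210) (nat_lit 76) (nat_lit 5250699108) (nat_lit 76) (nat_lit 533705089) (nat_lit 7) (nat_lit 4) (nat_lit 8) (nat_lit 5) (nat_lit 8) (nat_lit 4) (nat_lit 381) (nat_lit 211) (nat_lit 188)) (XT.lf (nat_lit 0) (nat_lit 4622453) (nat_lit 76) (nat_lit 2390812029) (nat_lit 152) (nat_lit 44017020656) (nat_lit 5) (nat_lit 5) (nat_lit 6) (nat_lit 5) (nat_lit 7) (nat_lit 4) (nat_lit 382) (nat_lit 211) (nat_lit 187)))) (XT.nd (nat_lit 156) (nat_lit 0) (nat_lit 0) (XT.nd (nat_lit 78) (nat_lit 0) (nat_lit 0) (XT.lf (nat_lit 0) (nat_lit 5418005912) (nat_lit 152) (nat_lit 41720612781) (nat_lit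 0) (nat_lit 568379781) (nat_lit 5) (nat_lit 5) (nat_lit 7) (nat_lit 4) (nat_lit 5) (nat_lit 4) (nat_lit 383) (nat_lit 211) (nat_lit 186)) (XT.lf (nat_lit 0) (nat_lit 8508286453) (nat_lit 152) (nat_lit 37003274754) (nat_lit 0) (nat_lit 3529519623) (nat_lit 5) (nat_lit 5) (nat_lit 7) (nat_lit 4) (nat_lit 5) (nat_lit 4) (nat_lit 384) (nat_lit 211) (nat_lit 185))) (XT.nd (nat_lit 78) (nat_lit 0) (nat_lit 0) (XT.lf (nat_lit 0) (nat_lit 11645994402) (nat_lit 152) (nat_lit 32228714710) (nat_lit 0) (nat_lit 6541848253) (nat_lit 5) (nat_lit 5) (nat_lit 7) (nat_lit 4) (nat_lit 5) (nat_lit 4) (nat_lit 385) (nat_lit 211) (nat_lit 184)) (XT.lf (nat_lit 0) (nat_lit 14833871447) (nat_lit 152) (nat_lit 27392760704) (nat_lit 0) (nat_lit 9607997802) (nat_lit 5) (nat_lit 5) (nat_lit 7) (nat_lit 4) (nat_lit 5) (nat_lit 4) (nat_lit 386) (nat_lit 211) (nat_lit 183)))))) (XT.nd (nat_lit 468) (nat_lit 0) (nat_lit 0)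 (XT.nd (nat_lit 234) (nat_lit 76) (nat_lit 0) (XT.nd (nat_lit 78) (nat_lit 0) (nat_lit 0) (XT.lf (nat_lit 0) (nat_lit 18074703110) (nat_lit 152) (nat_lit 22491187146) (nat_lit 0) (nat_lit 12730647432) (nat_lit 5) (nat_lit 5) (nat_lit 7) (nat_lit 4) (nat_lit 5) (nat_lit 4) (nat_lit 387) (nat_lit 211) (nat_lit 182)) (XT.nd (nat_lit 78) (nat_lit 0) (nat_lit 0) (XT.lf (nat_lit 0) (nat_lit 21371321186) (nat_lit 152) (nat_lit 17519711106) (nat_lit 0) (nat_lit 15912525669) (nat_lit 5) (nat_lit 5) (nat_lit 7) (nat_lit 4) (nat_lit 5) (nat_lit 4) (nat_lit 388) (nat_lit 211) (nat_lit 181)) (XT.lf (nat_lit 0) (nat_lit 24726606216) (nat_lit 152) (nat_lit 12473988577) (nat_lit 0) (nat_lit 19156412798) (nat_lit 5) (nat_lit 5) (nat_lit 7) (nat_lit 4) (nat_lit 5) (nat_lit 4) (nat_lit 389) (nat_lit 211) (nat_lit 180)))) (XT.nd (nat_lit 78) (nat_lit 76) (nat_lit 0) (XT.lf (nat_lit 0) (nat_lit 28143490001) (nat_lit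 152) (nat_lit 7349610674) (nat_lit 0) (nat_lit 22465143281) (nat_lit 5) (nat_lit 5) (nat_lit 7) (nat_lit 4) (nat_lit 5) (nat_lit 4) (nat_lit 390) (nat_lit 211) (nat_lit 179)) (XT.nd (nat_lit 78) (nat_lit 76) (nat_lit 0) (XT.lf (nat_lit 0) (nat_lit 31624958169) (nat_lit 152) (nat_lit 2142099787) (nat_lit 0) (nat_lit 25841608243) (nat_lit 5) (nat_lit 5) (nat_lit 7) (nat_lit 4) (nat_lit 5) (nat_lit 4) (nat_lit 391) (nat_lit 211) (nat_lit 178)) (XT.lf (nat_lit 0) (nat_lit 3215847097) (nat_lit 76) (nat_lit 31989118372) (nat_lit 76) (nat_lit 26103823584) (nat_lit 4) (nat_lit 4) (nat_lit 5) (nat_lit 5) (nat_lit 5) (nat_lit 4) (nat_lit 392) (nat_lit 211) (nat_lit 177))))) (XT.nd (nat_lit 234) (nat_lit 0) (nat_lit 0) (XT.nd (nat_lit 78) (nat_lit 0) (nat_lit 0) (XT.lf (nat_lit 0) (nat_lit 8710573225) (nat_lit 76) (nat_lit 30167033115) (nat_lit 76) (nat_lit 24182762735) (nat_lit 4) (nat_lit 4) (nat_lit 5)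 (nat_lit 5) (nat_lit 5) (nat_lit 4) (nat_lit 393) (nat_lit 211) (nat_lit 176)) (XT.nd (nat_lit 78) (nat_lit 0) (nat_lit 0) (XT.lf (nat_lit 0) (nat_lit 14304247829) (nat_lit 76) (nat_lit 28320841080) (nat_lit 76) (nat_lit 22240477892) (nat_lit 4) (nat_lit 4) (nat_lit 5) (nat_lit 5) (nat_lit 5) (nat_lit 4) (nat_lit 394) (nat_lit 211) (nat_lit 175)) (XT.lf (nat_lit 0) (nat_lit 20001758584) (nat_lit 76) (nat_lit 26448929091) (nat_lit 76) (nat_lit 20275271914) (nat_lit 4) (nat_lit 4) (nat_lit 5) (nat_lit 5) (nat_lit 5) (nat_lit 4) (nat_lit 395) (nat_lit 211) (nat_lit 174)))) (XT.nd (nat_lit 156) (nat_lit 0) (nat_lit 0) (XT.nd (nat_lit 78) (nat_lit 0) (nat_lit 0) (XT.lf (nat_lit 0) (nat_lit 25808083899) (nat_lit 76) (nat_lit 24549661495) (nat_lit 76) (nat_lit 18285427630) (nat_lit 4) (nat_lit 4) (nat_lit 5) (nat_lit 5) (nat_lit 5) (nat_lit 4) (nat_lit 396) (nat_lit 211) (nat_lit 173)) (XT.lf (nat_lit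 0) (nat_lit 31728297261) (nat_lit 76) (nat_lit 22621378738) (nat_lit 76) (nat_lit 16269206341) (nat_lit 4) (nat_lit 4) (nat_lit 5) (nat_lit 5) (nat_lit 5) (nat_lit 4) (nat_lit 397) (nat_lit 211) (nat_lit 172))) (XT.nd (nat_lit 78) (nat_lit 0) (nat_lit 0) (XT.lf (nat_lit 0) (nat_lit 37767571672) (nat_lit 76) (nat_lit 20662395914) (nat_lit 76) (nat_lit 14224846301) (nat_lit 4) (nat_lit 4) (nat_lit 5) (nat_lit 5) (nat_lit 5) (nat_lit 4) (nat_lit 398) (nat_lit 211) (nat_lit 171)) (XT.lf (nat_lit 0) (nat_lit 43931184169) (nat_lit 76) (nat_lit 18671001289) (nat_lit 76) (nat_lit 12150561176) (nat_lit 4) (nat_lit 4) (nat_lit 5) (nat_lit 5) (nat_lit 5) (nat_lit 4) (nat_lit 399) (nat_lit 211) (nat_lit 170))))))) (XT.nd (nat_lit 37362) (nat_lit 0) (nat_lit 456) (XT.nd (nat_lit 468) (nat_lit 76) (nat_lit 0) (XT.nd (nat_lit 234) (nat_lit 76) (nat_lit 0) (XT.nd (nat_lit 78) (nat_lit 0) (nat_lit 0) (XT.lf (nat_lit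 0) (nat_lit 50224520432) (nat_lit 76) (nat_lit 16645454810) (nat_lit 76) (nat_lit 10044538483) (nat_lit 4) (nat_lit 4) (nat_lit 5) (nat_lit 5) (nat_lit 5) (nat_lit 4) (nat_lit 400) (nat_lit 211) (nat_lit 169)) (XT.nd (nat_lit 78) (nat_lit 0) (nat_lit 0) (XT.lf (nat_lit 0) (nat_lit 56653079492) (nat_lit 76) (nat_lit 14583986582) (nat_lit 76) (nat_lit 7904938008) (nat_lit 4) (nat_lit 4) (nat_lit 5) (nat_lit 5) (nat_lit 5) (nat_lit 4) (nat_lit 401) (nat_lit 211) (nat_lit 168)) (XT.lf (nat_lit 0) (nat_lit 63222478538) (nat_lit 76) (nat_lit 12484795323) (nat_lit 76) (nat_lit 5729890198) (nat_lit 4) (nat_lit 4) (nat_lit 5) (nat_lit 5) (nat_lit 5) (nat_lit 4) (nat_lit 402) (nat_lit 211) (nat_lit 167)))) (XT.nd (nat_lit 78) (nat_lit 76) (nat_lit 0) (XT.lf (nat_lit 0) (nat_lit 69938457821) (nat_lit 76) (nat_lit 10346046787) (nat_lit 76) (nat_lit 3517494526) (nat_lit 4) (nat_lit 4) (nat_lit 5) (nat_lit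 5) (nat_lit 5) (nat_lit 4) (nat_lit 403) (nat_lit 211) (nat_lit 166)) (XT.nd (nat_lit 78) (nat_lit 76) (nat_lit 0) (XT.lf (nat_lit 0) (nat_lit 76806885672) (nat_lit 76) (nat_lit 8165872164) (nat_lit 76) (nat_lit 1265817829) (nat_lit 4) (nat_lit 4) (nat_lit 5) (nat_lit 5) (nat_lit 5) (nat_lit 4) (nat_lit 404) (nat_lit 211) (nat_lit 165)) (XT.lf (nat_lit 0) (nat_lit 1007064810) (nat_lit 152) (nat_lit 4925132259) (nat_lit 76) (nat_lit 82816529440) (nat_lit 3) (nat_lit 5) (nat_lit 5) (nat_lit 5) (nat_lit 4) (nat_lit 4) (nat_lit 405) (nat_lit 211) (nat_lit 164))))) (XT.nd (nat_lit 234) (nat_lit 0) (nat_lit 0) (XT.nd (nat_lit 78) (nat_lit 76) (nat_lit 0) (XT.lf (nat_lit 0) (nat_lit 3297654817) (nat_lit 152) (nat_lit 342632106) (nat_lit 76) (nat_lit 87694277021) (nat_lit 3) (nat_lit 5) (nat_lit 5) (nat_lit 5) (nat_lit 4) (nat_lit 4) (nat_lit 406) (nat_lit 211) (nat_lit 163)) (XT.nd (nat_lit 78) (nat_lit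 0) (nat_lit 0) (XT.lf (nat_lit 0) (nat_lit 4418197348) (nat_lit 76) (nat_lit 1256927411) (nat_lit 152) (nat_lit 88322313607) (nat_lit 2) (nat_lit 5) (nat_lit 3) (nat_lit 5) (nat_lit 4) (nat_lit 4) (nat_lit 407) (nat_lit 211) (nat_lit 162)) (XT.lf (nat_lit 0) (nat_lit 8114695546) (nat_lit 152) (nat_lit 87468212107) (nat_lit 0) (nat_lit 1157574595) (nat_lit 2) (nat_lit 5) (nat_lit 4) (nat_lit 4) (nat_lit 2) (nat_lit 4) (nat_lit 408) (nat_lit 211) (nat_lit 161)))) (XT.nd (nat_lit 36504) (nat_lit 0) (nat_lit 912) (XT.nd (nat_lit 78) (nat_lit 0) (nat_lit 0) (XT.lf (nat_lit 0) (nat_lit 10616371404) (nat_lit 152) (nat_lit 85350416257) (nat_lit 0) (nat_lit 3599368591) (nat_lit 2) (nat_lit 5) (nat_lit 4) (nat_lit 4) (nat_lit 2) (nat_lit 4) (nat_lit 409) (nat_lit 211) (nat_lit 160)) (XT.lf (nat_lit 0) (nat_lit 13170255907) (nat_lit 152) (nat_lit 83211920611) (nat_lit 0) (nat_lit 6095115364) (nat_lit 2)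 (nat_lit 5) (nat_lit 4) (nat_lit 4) (nat_lit 2) (nat_lit 4) (nat_lit 410) (nat_lit 211) (nat_lit 159))) (XT.nd (nat_lit 78) (nat_lit 0) (nat_lit 0) (XT.lf (nat_lit 0) (nat_lit 2550808511) (nat_lit 152) (nat_lit 6696709405) (nat_lit 0) (nat_lit 2550808511) (nat_lit 14) (nat_lit 5) (nat_lit 16) (nat_lit 4) (nat_lit 14) (nat_lit 4) (nat_lit 356) (nat_lit 212) (nat_lit 212)) (XT.lf (nat_lit 0) (nat_lit 9241258879) (nat_lit 152) (nat_lit 5995742090) (nat_lit 0) (nat_lit 8936930362) (nat_lit 14) (nat_lit 5) (nat_lit 16) (nat_lit 4) (nat_lit 14) (nat_lit 4) (nat_lit 357) (nat_lit 212) (nat_lit 211)))))) (XT.nd (nat_lit 546) (nat_lit 228) (nat_lit 0) (XT.nd (nat_lit 234) (nat_lit 152) (nat_lit 0) (XT.nd (nat_lit 78) (nat_lit 0) (nat_lit 0) (XT.lf (nat_lit 0) (nat_lit 1502479909) (nat_lit 76) (nat_lit 11933965983) (nat_lit 76) (nat_lit 11334172886) (nat_lit 13) (nat_lit 4) (nat_lit 14) (nat_lit 5) (nat_lit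 14) (nat_lit 4) (nat_lit 358) (nat_lit 212) (nat_lit 210)) (XT.nd (nat_lit 78) (nat_lit 0) (nat_lit 0) (XT.lf (nat_lit 0) (nat_lit 9199329076) (nat_lit 76) (nat_lit 8536603375) (nat_lit 76) (nat_lit 7649951463) (nat_lit 13) (nat_lit 4) (nat_lit 14) (nat_lit 5) (nat_lit 14) (nat_lit 4) (nat_lit 359) (nat_lit 212) (nat_lit 209)) (XT.lf (nat_lit 0) (nat_lit 16982203787) (nat_lit 76) (nat_lit 5102489814) (nat_lit 76) (nat_lit 3937334199) (nat_lit 13) (nat_lit 4) (nat_lit 14) (nat_lit 5) (nat_lit 14) (nat_lit 4) (nat_lit 360) (nat_lit 212) (nat_lit 208)))) (XT.nd (nat_lit 156) (nat_lit 0) (nat_lit 0) (XT.nd (nat_lit 78) (nat_lit 152) (nat_lit 0) (XT.lf (nat_lit 0) (nat_lit 24857904614) (nat_lit 76) (nat_lit 1628624620) (nat_lit 76) (nat_lit 193077059) (nat_lit 13) (nat_lit 4) (nat_lit 14) (nat_lit 5) (nat_lit 14) (nat_lit 4) (nat_lit 361) (nat_lit 212) (nat_lit 207)) (XT.lf (nat_lit 0) (nat_lit 3588462150)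 (nat_lit 152) (nat_lit 21827670918) (nat_lit 0) (nat_lit 1939856312) (nat_lit 11) (nat_lit 5) (nat_lit 13) (nat_lit 4) (nat_lit 11) (nat_lit 4) (nat_lit 362) (nat_lit 212) (nat_lit 206))) (XT.nd (nat_lit 78) (nat_lit 0) (nat_lit 0) (XT.lf (nat_lit 0) (nat_lit 7438667017) (nat_lit 152) (nat_lit 15072578551) (nat_lit 0) (nat_lit 5542614245) (nat_lit 11) (nat_lit 5) (nat_lit 13) (nat_lit 4) (nat_lit 11) (nat_lit 4) (nat_lit 363) (nat_lit 212) (nat_lit 205)) (XT.lf (nat_lit 0) (nat_lit 11330977441) (nat_lit 152) (nat_lit 8249231454) (nat_lit 0) (nat_lit 9194684927) (nat_lit 11) (nat_lit 5) (nat_lit 13) (nat_lit 4) (nat_lit 11) (nat_lit 4) (nat_lit 364) (nat_lit 212) (nat_lit 204))))) (XT.nd (nat_lit 234) (nat_lit 152) (nat_lit 0) (XT.nd (nat_lit 78) (nat_lit 76) (nat_lit 0) (XT.lf (nat_lit 0) (nat_lit 15268794469) (nat_lit 152) (nat_lit 1351667478) (nat_lit 0) (nat_lit 12899259488) (nat_lit 11) (nat_lit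 5) (nat_lit 13) (nat_lit 4) (nat_lit 11) (nat_lit 4) (nat_lit 365) (nat_lit 212) (nat_lit 203)) (XT.nd (nat_lit 78) (nat_lit 0) (nat_lit 0) (XT.lf (nat_lit 0) (nat_lit 5738111598) (nat_lit 76) (nat_lit 13572605554) (nat_lit 76) (nat_lit 10976621575) (nat_lit 10) (nat_lit 4) (nat_lit 11) (nat_lit 5) (nat_lit 11) (nat_lit 4) (nat_lit 366) (nat_lit 212) (nat_lit 202)) (XT.lf (nat_lit 0) (nat_lit 12942850852) (nat_lit 76) (nat_lit 10476318101) (nat_lit 76) (nat_lit 7660480726) (nat_lit 10) (nat_lit 4) (nat_lit 11) (nat_lit 5) (nat_lit 11) (nat_lit 4) (nat_lit 367) (nat_lit 212) (nat_lit 201)))) (XT.nd (nat_lit 156) (nat_lit 152) (nat_lit 0) (XT.nd (nat_lit 78) (nat_lit 0) (nat_lit 0) (XT.lf (nat_lit 0) (nat_lit 20241944855) (nat_lit 76) (nat_lit 7342543286) (nat_lit 76) (nat_lit 4313256012) (nat_lit 10) (nat_lit 4) (nat_lit 11) (nat_lit 5) (nat_lit 11) (nat_lit 4) (nat_lit 368) (nat_lit 212) (nat_lit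 200)) (XT.lf (nat_lit 0) (nat_lit 27641771454) (nat_lit 76) (nat_lit 4168542859) (nat_lit 76) (nat_lit 932022674) (nat_lit 10) (nat_lit 4) (nat_lit 11) (nat_lit 5) (nat_lit 11) (nat_lit 4) (nat_lit 369) (nat_lit 212) (nat_lit 199))) (XT.nd (nat_lit 78) (nat_lit 0) (nat_lit 0) (XT.lf (nat_lit 0) (nat_lit 1540798242) (nat_lit 76) (nat_lit 911672412) (nat_lit 152) (nat_lit 31160534230) (nat_lit 8) (nat_lit 5) (nat_lit 9) (nat_lit 5) (nat_lit 10) (nat_lit 4) (nat_lit 370) (nat_lit 212) (nat_lit 198)) (XT.lf (nat_lit 0) (nat_lit 5932280760) (nat_lit 152) (nat_lit 26171836077) (nat_lit 0) (nat_lit 2405043788) (nat_lit 8) (nat_lit 5) (nat_lit 10) (nat_lit 4) (nat_lit 8) (nat_lit 4) (nat_lit 371) (nat_lit 212) (nat_lit 197))))))))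
noncomputable def xc14 : XT := (XT.nd (nat_lit 2028) (nat_lit 152) (nat_lit 0) (XT.nd (nat_lit 1014) (nat_lit 76) (nat_lit 0) (XT.nd (nat_lit 468) (nat_lit 152) (nat_lit 0) (XT.nd (nat_lit 234) (nat_lit 76) (nat_lit 0) (XT.nd (nat_lit 78) (nat_lit 0) (nat_lit 0) (XT.lf (nat_lit 0) (nat_lit 9464362455) (nat_lit 152) (nat_lit 20216420038) (nat_lit 0) (nat_lit 5753001726) (nat_lit 8) (nat_lit 5) (nat_lit 10) (nat_lit 4) (nat_lit 8) (nat_lit 4) (nat_lit 372) (nat_lit 212) (nat_lit 196)) (XT.nd (nat_lit 78) (nat_lit 0) (nat_lit 0) (XT.lf (nat_lit 0) (nat_lit 13043038473) (nat_lit 152) (nat_lit 14191991211) (nat_lit 0) (nat_lit 9152916814) (nat_lit 8) (nat_lit 5) (nat_lit 10) (nat_lit 4) (nat_lit 8) (nat_lit 4) (nat_lit 373) (nat_lit 212) (nat_lit 195)) (XT.lf (nat_lit 0) (nat_lit 16671435812) (nat_lit 152) (nat_lit 8093285533) (nat_lit 0) (nat_lit 12607759852) (nat_lit 8) (nat_lit 5) (nat_lit 10) (nat_lit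 4) (nat_lit 8) (nat_lit 4) (nat_lit 374) (nat_lit 212) (nat_lit 194)))) (XT.nd (nat_lit 78) (nat_lit 76) (nat_lit 0) (XT.lf (nat_lit 0) (nat_lit 20352724915) (nat_lit 152) (nat_lit 1914974038) (nat_lit 0) (nat_lit 16120549634) (nat_lit 8) (nat_lit 5) (nat_lit 10) (nat_lit 4) (nat_lit 8) (nat_lit 4) (nat_lit 375) (nat_lit 212) (nat_lit 193)) (XT.nd (nat_lit 78) (nat_lit 0) (nat_lit 0) (XT.lf (nat_lit 0) (nat_lit 4434882327) (nat_lit 76) (nat_lit 19697870919) (nat_lit 76) (nat_lit 15302104064) (nat_lit 7) (nat_lit 4) (nat_lit 8) (nat_lit 5) (nat_lit 8) (nat_lit 4) (nat_lit 376) (nat_lit 212) (nat_lit 192)) (XT.lf (nat_lit 0) (nat_lit 10915128246) (nat_lit 76) (nat_lit 17076688729) (nat_lit 76) (nat_lit 12522095103) (nat_lit 7) (nat_lit 4) (nat_lit 8) (nat_lit 5) (nat_lit 8) (nat_lit 4) (nat_lit 377) (nat_lit 212) (nat_lit 191))))) (XT.nd (nat_lit 234) (nat_lit 152) (nat_lit 0) (XT.nd (nat_lit 78)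 (nat_lit 0) (nat_lit 0) (XT.lf (nat_lit 0) (nat_lit 17493314330) (nat_lit 76) (nat_lit 14421199515) (nat_lit 76) (nat_lit 9712405140) (nat_lit 7) (nat_lit 4) (nat_lit 8) (nat_lit 5) (nat_lit 8) (nat_lit 4) (nat_lit 378) (nat_lit 212) (nat_lit 190)) (XT.nd (nat_lit 78) (nat_lit 0) (nat_lit 0) (XT.lf (nat_lit 0) (nat_lit 24175188510) (nat_lit 76) (nat_lit 11729082945) (nat_lit 76) (nat_lit 6870579106) (nat_lit 7) (nat_lit 4) (nat_lit 8) (nat_lit 5) (nat_lit 8) (nat_lit 4) (nat_lit 379) (nat_lit 212) (nat_lit 189)) (XT.lf (nat_lit 0) (nat_lit 30966589316) (nat_lit 76) (nat_lit 8997986684) (nat_lit 76) (nat_lit 3994133851) (nat_lit 7) (nat_lit 4) (nat_lit 8) (nat_lit 5) (nat_lit 8) (nat_lit 4) (nat_lit 380) (nat_lit 212) (nat_lit 188)))) (XT.nd (nat_lit 156) (nat_lit 76) (nat_lit 0) (XT.nd (nat_lit 78) (nat_lit 76) (nat_lit 0) (XT.lf (nat_lit 0) (nat_lit 37873450983) (nat_lit 76) (nat_lit 6225524339)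 (nat_lit 76) (nat_lit 1080555977) (nat_lit 7) (nat_lit 4) (nat_lit 8) (nat_lit 5) (nat_lit 8) (nat_lit 4) (nat_lit 381) (nat_lit 212) (nat_lit 187)) (XT.lf (nat_lit 0) (nat_lit 1836157231) (nat_lit 152) (nat_lit 1554574549) (nat_lit 76) (nat_lit 43047109811) (nat_lit 6) (nat_lit 5) (nat_lit 8) (nat_lit 5) (nat_lit 7) (nat_lit 4) (nat_lit 382) (nat_lit 212) (nat_lit 186))) (XT.nd (nat_lit 78) (nat_lit 0) (nat_lit 0) (XT.lf (nat_lit 0) (nat_lit 4359720285) (nat_lit 76) (nat_lit 455407268) (nat_lit 152) (nat_lit 42918572145) (nat_lit 5) (nat_lit 5) (nat_lit 6) (nat_lit 5) (nat_lit 7) (nat_lit 4) (nat_lit 383) (nat_lit 212) (nat_lit 185)) (XT.lf (nat_lit 0) (nat_lit 7878724527) (nat_lit 152) (nat_lit 38693789903) (nat_lit 0) (nat_lit 2496074673) (nat_lit 5) (nat_lit 5) (nat_lit 7) (nat_lit 4) (nat_lit 5) (nat_lit 4) (nat_lit 384) (nat_lit 212) (nat_lit 184)))))) (XT.nd (nat_lit 468) (nat_lit 76) (nat_lit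 0) (XT.nd (nat_lit 234) (nat_lit 0) (nat_lit 0) (XT.nd (nat_lit 78) (nat_lit 0) (nat_lit 0) (XT.lf (nat_lit 0) (nat_lit 10994776248) (nat_lit 152) (nat_lit 33959546529) (nat_lit 0) (nat_lit 5490398899) (nat_lit 5) (nat_lit 5) (nat_lit 7) (nat_lit 4) (nat_lit 5) (nat_lit 4) (nat_lit 385) (nat_lit 212) (nat_lit 183)) (XT.nd (nat_lit 78) (nat_lit 0) (nat_lit 0) (XT.lf (nat_lit 0) (nat_lit 14161627827) (nat_lit 152) (nat_lit 29162734921) (nat_lit 0) (nat_lit 8539068445) (nat_lit 5) (nat_lit 5) (nat_lit 7) (nat_lit 4) (nat_lit 5) (nat_lit 4) (nat_lit 386) (nat_lit 212) (nat_lit 182)) (XT.lf (nat_lit 0) (nat_lit 17382046418) (nat_lit 152) (nat_lit 24299163690) (nat_lit 0) (nat_lit 11644747198) (nat_lit 5) (nat_lit 5) (nat_lit 7) (nat_lit 4) (nat_lit 5) (nat_lit 4) (nat_lit 387) (nat_lit 212) (nat_lit 181)))) (XT.nd (nat_lit 78) (nat_lit 0) (nat_lit 0) (XT.lf (nat_lit 0) (nat_lit 20658845978) (nat_lit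 152) (nat_lit 19364583114) (nat_lit 0) (nat_lit 14810148856) (nat_lit 5) (nat_lit 5) (nat_lit 7) (nat_lit 4) (nat_lit 5) (nat_lit 4) (nat_lit 388) (nat_lit 212) (nat_lit 180)) (XT.nd (nat_lit 78) (nat_lit 0) (nat_lit 0) (XT.lf (nat_lit 0) (nat_lit 23994889729) (nat_lit 152) (nat_lit 14354681423) (nat_lit 0) (nat_lit 18038039305) (nat_lit 5) (nat_lit 5) (nat_lit 7) (nat_lit 4) (nat_lit 5) (nat_lit 4) (nat_lit 389) (nat_lit 212) (nat_lit 179)) (XT.lf (nat_lit 0) (nat_lit 27393092662) (nat_lit 152) (nat_lit 9265081034) (nat_lit 0) (nat_lit 21331239031) (nat_lit 5) (nat_lit 5) (nat_lit 7) (nat_lit 4) (nat_lit 5) (nat_lit 4) (nat_lit 390) (nat_lit 212) (nat_lit 178))))) (XT.nd (nat_lit 234) (nat_lit 0) (nat_lit 0) (XT.nd (nat_lit 78) (nat_lit 76) (nat_lit 0) (XT.lf (nat_lit 0) (nat_lit 30856424080) (nat_lit 152) (nat_lit 4091334723) (nat_lit 0) (nat_lit 24692625589) (nat_lit 5) (nat_lit 5) (nat_lit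 7) (nat_lit 4) (nat_lit 5) (nat_lit 4) (nat_lit 391) (nat_lit 212) (nat_lit 177)) (XT.nd (nat_lit 78) (nat_lit 0) (nat_lit 0) (XT.lf (nat_lit 0) (nat_lit 1194385013) (nat_lit 76) (nat_lit 33205006341) (nat_lit 76) (nat_lit 26942232257) (nat_lit 4) (nat_lit 4) (nat_lit 5) (nat_lit 5) (nat_lit 5) (nat_lit 4) (nat_lit 392) (nat_lit 212) (nat_lit 176)) (XT.lf (nat_lit 0) (nat_lit 6656651383) (nat_lit 76) (nat_lit 31397973192) (nat_lit 76) (nat_lit 25039106300) (nat_lit 4) (nat_lit 4) (nat_lit 5) (nat_lit 5) (nat_lit 5) (nat_lit 4) (nat_lit 393) (nat_lit 212) (nat_lit 175)))) (XT.nd (nat_lit 156) (nat_lit 0) (nat_lit 0) (XT.nd (nat_lit 78) (nat_lit 0) (nat_lit 0) (XT.lf (nat_lit 0) (nat_lit 12218811658) (nat_lit 76) (nat_lit 29566394855) (nat_lit 76) (nat_lit 23114233974) (nat_lit 4) (nat_lit 4) (nat_lit 5) (nat_lit 5) (nat_lit 5) (nat_lit 4) (nat_lit 394) (nat_lit 212) (nat_lit 174)) (XT.lf (nat_lit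 0) (nat_lit 17885725979) (nat_lit 76) (nat_lit 27708670922) (nat_lit 76) (nat_lit 21165933352) (nat_lit 4) (nat_lit 4) (nat_lit 5) (nat_lit 5) (nat_lit 5) (nat_lit 4) (nat_lit 395) (nat_lit 212) (nat_lit 173))) (XT.nd (nat_lit 78) (nat_lit 0) (nat_lit 0) (XT.lf (nat_lit 0) (nat_lit 23662346016) (nat_lit 76) (nat_lit 25823178137) (nat_lit 76) (nat_lit 19192502036) (nat_lit 4) (nat_lit 4) (nat_lit 5) (nat_lit 5) (nat_lit 5) (nat_lit 4) (nat_lit 396) (nat_lit 212) (nat_lit 172)) (XT.lf (nat_lit 0) (nat_lit 29553719304) (nat_lit 76) (nat_lit 23908268984) (nat_lit 76) (nat_lit 17192215667) (nat_lit 4) (nat_lit 4) (nat_lit 5) (nat_lit 5) (nat_lit 5) (nat_lit 4) (nat_lit 397) (nat_lit 212) (nat_lit 171))))))) (XT.nd (nat_lit 37206) (nat_lit 0) (nat_lit 608) (XT.nd (nat_lit 468) (nat_lit 152) (nat_lit 0) (XT.nd (nat_lit 234) (nat_lit 0) (nat_lit 0) (XT.nd (nat_lit 78) (nat_lit 0) (nat_lit 0) (XT.lf (nat_lit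 0) (nat_lit 35564993643) (nat_lit 76) (nat_lit 21962270240) (nat_lit 76) (nat_lit 15163326423) (nat_lit 4) (nat_lit 4) (nat_lit 5) (nat_lit 5) (nat_lit 5) (nat_lit 4) (nat_lit 398) (nat_lit 212) (nat_lit 170)) (XT.nd (nat_lit 78) (nat_lit 0) (nat_lit 0) (XT.lf (nat_lit 0) (nat_lit 41701421603) (nat_lit 76) (nat_lit 19983481519) (nat_lit 76) (nat_lit 13104061488) (nat_lit 4) (nat_lit 4) (nat_lit 5) (nat_lit 5) (nat_lit 5) (nat_lit 4) (nat_lit 399) (nat_lit 212) (nat_lit 169)) (XT.lf (nat_lit 0) (nat_lit 47968365112) (nat_lit 76) (nat_lit 17970173782) (nat_lit 76) (nat_lit 11012621504) (nat_lit 4) (nat_lit 4) (nat_lit 5) (nat_lit 5) (nat_lit 5) (nat_lit 4) (nat_lit 400) (nat_lit 212) (nat_lit 168)))) (XT.nd (nat_lit 78) (nat_lit 0) (nat_lit 0) (XT.lf (nat_lit 0) (nat_lit 54371300140) (nat_lit 76) (nat_lit 15920587828) (nat_lit 76) (nat_lit 8887178999) (nat_lit 4) (nat_lit 4) (nat_lit 5) (nat_lit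 5) (nat_lit 5) (nat_lit 4) (nat_lit 401) (nat_lit 212) (nat_lit 167)) (XT.nd (nat_lit 78) (nat_lit 0) (nat_lit 0) (XT.lf (nat_lit 0) (nat_lit 60915821484) (nat_lit 76) (nat_lit 13832932756) (nat_lit 76) (nat_lit 6725876791) (nat_lit 4) (nat_lit 4) (nat_lit 5) (nat_lit 5) (nat_lit 5) (nat_lit 4) (nat_lit 402) (nat_lit 212) (nat_lit 166)) (XT.lf (nat_lit 0) (nat_lit 67607647658) (nat_lit 76) (nat_lit 11705384402) (nat_lit 76) (nat_lit 4526826363) (nat_lit 4) (nat_lit 4) (nat_lit 5) (nat_lit 5) (nat_lit 5) (nat_lit 4) (nat_lit 403) (nat_lit 212) (nat_lit 165))))) (XT.nd (nat_lit 234) (nat_lit 76) (nat_lit 0) (XT.nd (nat_lit 78) (nat_lit 76) (nat_lit 0) (XT.lf (nat_lit 0) (nat_lit 74452625890) (nat_lit 76) (nat_lit 9536083743) (nat_lit 76) (nat_lit 2288106215) (nat_lit 4) (nat_lit 4) (nat_lit 5) (nat_lit 5) (nat_lit 5) (nat_lit 4) (nat_lit 404) (nat_lit 212) (nat_lit 164)) (XT.nd (nat_lit 78) (nat_lit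 76) (nat_lit 0) (XT.lf (nat_lit 0) (nat_lit 81456737227) (nat_lit 76) (nat_lit 7323135274) (nat_lit 76) (nat_lit 7760183) (nat_lit 4) (nat_lit 4) (nat_lit 5) (nat_lit 5) (nat_lit 5) (nat_lit 4) (nat_lit 405) (nat_lit 212) (nat_lit 163)) (XT.lf (nat_lit 0) (nat_lit 2271006779) (nat_lit 152) (nat_lit 2770665855) (nat_lit 76) (nat_lit 86332162272) (nat_lit 3) (nat_lit 5) (nat_lit 5) (nat_lit 5) (nat_lit 4) (nat_lit 4) (nat_lit 406) (nat_lit 212) (nat_lit 162)))) (XT.nd (nat_lit 156) (nat_lit 0) (nat_lit 0) (XT.nd (nat_lit 78) (nat_lit 0) (nat_lit 0) (XT.lf (nat_lit 0) (nat_lit 1919714890) (nat_lit 76) (nat_lit 2693119185) (nat_lit 152) (nat_lit 89424947749) (nat_lit 2) (nat_lit 5) (nat_lit 3) (nat_lit 5) (nat_lit 4) (nat_lit 4) (nat_lit 407) (nat_lit 212) (nat_lit 161)) (XT.lf (nat_lit 0) (nat_lit 6763995291) (nat_lit 76) (nat_lit 265567217) (nat_lit 152) (nat_lit 89751951594) (nat_lit 2) (nat_lit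 5) (nat_lit 3) (nat_lit 5) (nat_lit 4) (nat_lit 4) (nat_lit 408) (nat_lit 212) (nat_lit 160))) (XT.nd (nat_lit 78) (nat_lit 0) (nat_lit 0) (XT.lf (nat_lit 0) (nat_lit 9517433536) (nat_lit 152) (nat_lit 87918270699) (nat_lit 0) (nat_lit 2171901049) (nat_lit 2) (nat_lit 5) (nat_lit 4) (nat_lit 4) (nat_lit 2) (nat_lit 4) (nat_lit 409) (nat_lit 212) (nat_lit 159)) (XT.lf (nat_lit 0) (nat_lit 12060393734) (nat_lit 152) (nat_lit 85800261005) (nat_lit 0) (nat_lit 4658416849) (nat_lit 2) (nat_lit 5) (nat_lit 4) (nat_lit 4) (nat_lit 2) (nat_lit 4) (nat_lit 410) (nat_lit 212) (nat_lit 158)))))) (XT.nd (nat_lit 546) (nat_lit 228) (nat_lit 0) (XT.nd (nat_lit 234) (nat_lit 76) (nat_lit 0) (XT.nd (nat_lit 78) (nat_lit 152) (nat_lit 0) (XT.lf (nat_lit 0) (nat_lit 8562251899) (nat_lit 152) (nat_lit 1342663761) (nat_lit 152) (nat_lit 1342663761) (nat_lit 16) (nat_lit 4) (nat_lit 18) (nat_lit 5) (nat_lit 18) (nat_lit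 4) (nat_lit 354) (nat_lit 213) (nat_lit 213)) (XT.nd (nat_lit 78) (nat_lit 0) (nat_lit 0) (XT.lf (nat_lit 0) (nat_lit 1312918775) (nat_lit 152) (nat_lit 20726333033) (nat_lit 0) (nat_lit 999460403) (nat_lit 14) (nat_lit 5) (nat_lit 16) (nat_lit 4) (nat_lit 14) (nat_lit 4) (nat_lit 355) (nat_lit 213) (nat_lit 212)) (XT.lf (nat_lit 0) (nat_lit 5372918024) (nat_lit 152) (nat_lit 13469884293) (nat_lit 0) (nat_lit 4755131135) (nat_lit 14) (nat_lit 5) (nat_lit 16) (nat_lit 4) (nat_lit 14) (nat_lit 4) (nat_lit 356) (nat_lit 213) (nat_lit 211)))) (XT.nd (nat_lit 156) (nat_lit 0) (nat_lit 0) (XT.nd (nat_lit 78) (nat_lit 76) (nat_lit 0) (XT.lf (nat_lit 0) (nat_lit 9471630396) (nat_lit 152) (nat_lit 6146445906) (nat_lit 0) (nat_lit 8558378927) (nat_lit 14) (nat_lit 5) (nat_lit 16) (nat_lit 4) (nat_lit 14) (nat_lit 4) (nat_lit 357) (nat_lit 213) (nat_lit 210)) (XT.lf (nat_lit 0) (nat_lit 1275266285) (nat_lit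 76) (nat_lit 12349629644) (nat_lit 76) (nat_lit 11149519359) (nat_lit 13) (nat_lit 4) (nat_lit 14) (nat_lit 5) (nat_lit 14) (nat_lit 4) (nat_lit 358) (nat_lit 213) (nat_lit 209))) (XT.nd (nat_lit 78) (nat_lit 0) (nat_lit 0) (XT.lf (nat_lit 0) (nat_lit 8900746028) (nat_lit 76) (nat_lit 8984370448) (nat_lit 76) (nat_lit 7505756459) (nat_lit 13) (nat_lit 4) (nat_lit 14) (nat_lit 5) (nat_lit 14) (nat_lit 4) (nat_lit 359) (nat_lit 213) (nat_lit 208)) (XT.lf (nat_lit 0) (nat_lit 16614330037) (nat_lit 76) (nat_lit 5581425248) (nat_lit 76) (nat_lit 3832419314) (nat_lit 13) (nat_lit 4) (nat_lit 14) (nat_lit 5) (nat_lit 14) (nat_lit 4) (nat_lit 360) (nat_lit 213) (nat_lit 207))))) (XT.nd (nat_lit 234) (nat_lit 76) (nat_lit 0) (XT.nd (nat_lit 78) (nat_lit 152) (nat_lit 0) (XT.lf (nat_lit 0) (nat_lit 24422758336) (nat_lit 76) (nat_lit 2137820598) (nat_lit 76) (nat_lit 126298212) (nat_lit 13) (nat_lit 4) (nat_lit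 14) (nat_lit 5) (nat_lit 14) (nat_lit 4) (nat_lit 361) (nat_lit 213) (nat_lit 206)) (XT.nd (nat_lit 78) (nat_lit 0) (nat_lit 0) (XT.lf (nat_lit 0) (nat_lit 3607420166) (nat_lit 152) (nat_lit 22350190376) (nat_lit 0) (nat_lit 1407038877) (nat_lit 11) (nat_lit 5) (nat_lit 13) (nat_lit 4) (nat_lit 11) (nat_lit 4) (nat_lit 362) (nat_lit 213) (nat_lit 205)) (XT.lf (nat_lit 0) (nat_lit 7421467107) (nat_lit 152) (nat_lit 15661303940) (nat_lit 0) (nat_lit 4980846076) (nat_lit 11) (nat_lit 5) (nat_lit 13) (nat_lit 4) (nat_lit 11) (nat_lit 4) (nat_lit 363) (nat_lit 213) (nat_lit 204)))) (XT.nd (nat_lit 156) (nat_lit 76) (nat_lit 0) (XT.nd (nat_lit 78) (nat_lit 0) (nat_lit 0) (XT.lf (nat_lit 0) (nat_lit 11278672749) (nat_lit 152) (nat_lit 8902234446) (nat_lit 0) (nat_lit 8604809250) (nat_lit 11) (nat_lit 5) (nat_lit 13) (nat_lit 4) (nat_lit 11) (nat_lit 4) (nat_lit 364) (nat_lit 213) (nat_lit 203)) (XT.lf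 (nat_lit 0) (nat_lit 15182407464) (nat_lit 152) (nat_lit 2067075911) (nat_lit 0) (nat_lit 12282094968) (nat_lit 11) (nat_lit 5) (nat_lit 13) (nat_lit 4) (nat_lit 11) (nat_lit 4) (nat_lit 365) (nat_lit 213) (nat_lit 202))) (XT.nd (nat_lit 78) (nat_lit 0) (nat_lit 0) (XT.lf (nat_lit 0) (nat_lit 4946671512) (nat_lit 76) (nat_lit 14236961204) (nat_lit 76) (nat_lit 11116795312) (nat_lit 10) (nat_lit 4) (nat_lit 11) (nat_lit 5) (nat_lit 11) (nat_lit 4) (nat_lit 366) (nat_lit 213) (nat_lit 201)) (XT.lf (nat_lit 0) (nat_lit 12091416959) (nat_lit 76) (nat_lit 11167965013) (nat_lit 76) (nat_lit 7834349222) (nat_lit 10) (nat_lit 4) (nat_lit 11) (nat_lit 5) (nat_lit 11) (nat_lit 4) (nat_lit 367) (nat_lit 213) (nat_lit 200))))))))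
noncomputable def xc15 : XT := (XT.nd (nat_lit 2106) (nat_lit 152) (nat_lit 0) (XT.nd (nat_lit 1014) (nat_lit 228) (nat_lit 0) (XT.nd (nat_lit 468) (nat_lit 76) (nat_lit 0) (XT.nd (nat_lit 234) (nat_lit 0) (nat_lit 0) (XT.nd (nat_lit 78) (nat_lit 152) (nat_lit 0) (XT.lf (nat_lit 0) (nat_lit 19332264546) (nat_lit 76) (nat_lit 8060686569) (nat_lit 76) (nat_lit 4519837867) (nat_lit 10) (nat_lit 4) (nat_lit 11) (nat_lit 5) (nat_lit 11) (nat_lit 4) (nat_lit 368) (nat_lit 213) (nat_lit 199)) (XT.nd (nat_lit 78) (nat_lit 152) (nat_lit 0) (XT.lf (nat_lit 0) (nat_lit 26675541228) (nat_lit 76) (nat_lit 4912410773) (nat_lit 76) (nat_lit 1170365070) (nat_lit 10) (nat_lit 4) (nat_lit 11) (nat_lit 5) (nat_lit 11) (nat_lit 4) (nat_lit 369) (nat_lit 213) (nat_lit 198)) (XT.lf (nat_lit 0) (nat_lit 484757426) (nat_lit 76) (nat_lit 1693636674) (nat_lit 152) (nat_lit 31451881048) (nat_lit 8) (nat_lit 5) (nat_lit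 9) (nat_lit 5) (nat_lit 10) (nat_lit 4) (nat_lit 370) (nat_lit 213) (nat_lit 197)))) (XT.nd (nat_lit 78) (nat_lit 0) (nat_lit 0) (XT.lf (nat_lit 0) (nat_lit 5620564742) (nat_lit 152) (nat_lit 27293265504) (nat_lit 0) (nat_lit 1613739433) (nat_lit 8) (nat_lit 5) (nat_lit 10) (nat_lit 4) (nat_lit 8) (nat_lit 4) (nat_lit 371) (nat_lit 213) (nat_lit 196)) (XT.nd (nat_lit 78) (nat_lit 0) (nat_lit 0) (XT.lf (nat_lit 0) (nat_lit 9123401054) (nat_lit 152) (nat_lit 21391864092) (nat_lit 0) (nat_lit 4937814815) (nat_lit 8) (nat_lit 5) (nat_lit 10) (nat_lit 4) (nat_lit 8) (nat_lit 4) (nat_lit 372) (nat_lit 213) (nat_lit 195)) (XT.lf (nat_lit 0) (nat_lit 12673683496) (nat_lit 152) (nat_lit 15419876652) (nat_lit 0) (nat_lit 8314542956) (nat_lit 8) (nat_lit 5) (nat_lit 10) (nat_lit 4) (nat_lit 8) (nat_lit 4) (nat_lit 373) (nat_lit 213) (nat_lit 194))))) (XT.nd (nat_lit 234) (nat_lit 0) (nat_lit 0) (XT.nd (nat_lit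 78) (nat_lit 76) (nat_lit 0) (XT.lf (nat_lit 0) (nat_lit 16274514255) (nat_lit 152) (nat_lit 9372084941) (nat_lit 0) (nat_lit 11746874394) (nat_lit 8) (nat_lit 5) (nat_lit 10) (nat_lit 4) (nat_lit 8) (nat_lit 4) (nat_lit 374) (nat_lit 213) (nat_lit 193)) (XT.nd (nat_lit 78) (nat_lit 76) (nat_lit 0) (XT.lf (nat_lit 0) (nat_lit 19929039690) (nat_lit 152) (nat_lit 3243204481) (nat_lit 0) (nat_lit 15237808255) (nat_lit 8) (nat_lit 5) (nat_lit 10) (nat_lit 4) (nat_lit 8) (nat_lit 4) (nat_lit 375) (nat_lit 213) (nat_lit 192)) (XT.lf (nat_lit 0) (nat_lit 3031271076) (nat_lit 76) (nat_lit 20638320430) (nat_lit 76) (nat_lit 15788262224) (nat_lit 7) (nat_lit 4) (nat_lit 8) (nat_lit 5) (nat_lit 8) (nat_lit 4) (nat_lit 376) (nat_lit 213) (nat_lit 191)))) (XT.nd (nat_lit 156) (nat_lit 0) (nat_lit 0) (XT.nd (nat_lit 78) (nat_lit 0) (nat_lit 0) (XT.lf (nat_lit 0) (nat_lit 9463996200) (nat_lit 76) (nat_lit 18038974911)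 (nat_lit 76) (nat_lit 13034715957) (nat_lit 7) (nat_lit 4) (nat_lit 8) (nat_lit 5) (nat_lit 8) (nat_lit 4) (nat_lit 377) (nat_lit 213) (nat_lit 190)) (XT.lf (nat_lit 0) (nat_lit 15996045592) (nat_lit 76) (nat_lit 15404686347) (nat_lit 76) (nat_lit 10250717928) (nat_lit 7) (nat_lit 4) (nat_lit 8) (nat_lit 5) (nat_lit 8) (nat_lit 4) (nat_lit 378) (nat_lit 213) (nat_lit 189))) (XT.nd (nat_lit 78) (nat_lit 0) (nat_lit 0) (XT.lf (nat_lit 0) (nat_lit 22633126866) (nat_lit 76) (nat_lit 12733152933) (nat_lit 76) (nat_lit 7433835520) (nat_lit 7) (nat_lit 4) (nat_lit 8) (nat_lit 5) (nat_lit 8) (nat_lit 4) (nat_lit 379) (nat_lit 213) (nat_lit 188)) (XT.lf (nat_lit 0) (nat_lit 29381039414) (nat_lit 76) (nat_lit 10022040319) (nat_lit 76) (nat_lit 4581607377) (nat_lit 7) (nat_lit 4) (nat_lit 8) (nat_lit 5) (nat_lit 8) (nat_lit 4) (nat_lit 380) (nat_lit 213) (nat_lit 187)))))) (XT.nd (nat_lit 546) (nat_lit 76)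 (nat_lit 0) (XT.nd (nat_lit 234) (nat_lit 0) (nat_lit 0) (XT.nd (nat_lit 78) (nat_lit 152) (nat_lit 0) (XT.lf (nat_lit 0) (nat_lit 36245679470) (nat_lit 76) (nat_lit 7268979572) (nat_lit 76) (nat_lit 1691541263) (nat_lit 7) (nat_lit 4) (nat_lit 8) (nat_lit 5) (nat_lit 8) (nat_lit 4) (nat_lit 381) (nat_lit 213) (nat_lit 186)) (XT.nd (nat_lit 78) (nat_lit 76) (nat_lit 0) (XT.lf (nat_lit 0) (nat_lit 1214712954) (nat_lit 152) (nat_lit 3244585932) (nat_lit 76) (nat_lit 42006066090) (nat_lit 6) (nat_lit 5) (nat_lit 8) (nat_lit 5) (nat_lit 7) (nat_lit 4) (nat_lit 382) (nat_lit 213) (nat_lit 185)) (XT.lf (nat_lit 0) (nat_lit 2595036648) (nat_lit 76) (nat_lit 1559953783) (nat_lit 152) (nat_lit 43607399979) (nat_lit 5) (nat_lit 5) (nat_lit 6) (nat_lit 5) (nat_lit 7) (nat_lit 4) (nat_lit 383) (nat_lit 213) (nat_lit 184)))) (XT.nd (nat_lit 156) (nat_lit 0) (nat_lit 0) (XT.nd (nat_lit 78) (nat_lit 0) (nat_lit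 0) (XT.lf (nat_lit 0) (nat_lit 7186313599) (nat_lit 152) (nat_lit 40516863345) (nat_lit 0) (nat_lit 1395077435) (nat_lit 5) (nat_lit 5) (nat_lit 7) (nat_lit 4) (nat_lit 5) (nat_lit 4) (nat_lit 384) (nat_lit 213) (nat_lit 183)) (XT.lf (nat_lit 0) (nat_lit 10281339855) (nat_lit 152) (nat_lit 35821762369) (nat_lit 0) (nat_lit 4371921658) (nat_lit 5) (nat_lit 5) (nat_lit 7) (nat_lit 4) (nat_lit 5) (nat_lit 4) (nat_lit 385) (nat_lit 213) (nat_lit 182))) (XT.nd (nat_lit 78) (nat_lit 0) (nat_lit 0) (XT.lf (nat_lit 0) (nat_lit 13427778363) (nat_lit 152) (nat_lit 31062953089) (nat_lit 0) (nat_lit 7403620327) (nat_lit 5) (nat_lit 5) (nat_lit 7) (nat_lit 4) (nat_lit 5) (nat_lit 4) (nat_lit 386) (nat_lit 213) (nat_lit 181)) (XT.lf (nat_lit 0) (nat_lit 16628378437) (nat_lit 152) (nat_lit 26236277322) (nat_lit 0) (nat_lit 10492822500) (nat_lit 5) (nat_lit 5) (nat_lit 7) (nat_lit 4) (nat_lit 5) (nat_lit 4) (nat_lit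 387) (nat_lit 213) (nat_lit 180))))) (XT.nd (nat_lit 234) (nat_lit 76) (nat_lit 0) (XT.nd (nat_lit 78) (nat_lit 0) (nat_lit 0) (XT.lf (nat_lit 0) (nat_lit 19885936718) (nat_lit 152) (nat_lit 21337517585) (nat_lit 0) (nat_lit 13642227479) (nat_lit 5) (nat_lit 5) (nat_lit 7) (nat_lit 4) (nat_lit 5) (nat_lit 4) (nat_lit 388) (nat_lit 213) (nat_lit 179)) (XT.nd (nat_lit 78) (nat_lit 0) (nat_lit 0) (XT.lf (nat_lit 0) (nat_lit 23203299617) (nat_lit 152) (nat_lit 16362393408) (nat_lit 0) (nat_lit 16854587171) (nat_lit 5) (nat_lit 5) (nat_lit 7) (nat_lit 4) (nat_lit 5) (nat_lit 4) (nat_lit 389) (nat_lit 213) (nat_lit 178)) (XT.lf (nat_lit 0) (nat_lit 26583365800) (nat_lit 152) (nat_lit 11306557594) (nat_lit 0) (nat_lit 20132708493) (nat_lit 5) (nat_lit 5) (nat_lit 7) (nat_lit 4) (nat_lit 5) (nat_lit 4) (nat_lit 390) (nat_lit 213) (nat_lit 177)))) (XT.nd (nat_lit 156) (nat_lit 76) (nat_lit 0) (XT.nd (nat_lit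 78) (nat_lit 0) (nat_lit 0) (XT.lf (nat_lit 0) (nat_lit 30029088722) (nat_lit 152) (nat_lit 6165592425) (nat_lit 0) (nat_lit 23479455823) (nat_lit 5) (nat_lit 5) (nat_lit 7) (nat_lit 4) (nat_lit 5) (nat_lit 4) (nat_lit 391) (nat_lit 213) (nat_lit 176)) (XT.lf (nat_lit 0) (nat_lit 33543479210) (nat_lit 152) (nat_lit 935005793) (nat_lit 0) (nat_lit 26897753503) (nat_lit 5) (nat_lit 5) (nat_lit 7) (nat_lit 4) (nat_lit 5) (nat_lit 4) (nat_lit 392) (nat_lit 213) (nat_lit 175))) (XT.nd (nat_lit 78) (nat_lit 0) (nat_lit 0) (XT.lf (nat_lit 0) (nat_lit 4477137799) (nat_lit 76) (nat_lit 32695507278) (nat_lit 76) (nat_lit 25956487582) (nat_lit 4) (nat_lit 4) (nat_lit 5) (nat_lit 5) (nat_lit 5) (nat_lit 4) (nat_lit 393) (nat_lit 213) (nat_lit 174)) (XT.lf (nat_lit 0) (nat_lit 10008701639) (nat_lit 76) (nat_lit 30878116997) (nat_lit 76) (nat_lit 24048520613) (nat_lit 4) (nat_lit 4) (nat_lit 5) (nat_lit 5)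 (nat_lit 5) (nat_lit 4) (nat_lit 394) (nat_lit 213) (nat_lit 173))))))) (XT.nd (nat_lit 1014) (nat_lit 76) (nat_lit 0) (XT.nd (nat_lit 468) (nat_lit 76) (nat_lit 0) (XT.nd (nat_lit 234) (nat_lit 0) (nat_lit 0) (XT.nd (nat_lit 78) (nat_lit 0) (nat_lit 0) (XT.lf (nat_lit 0) (nat_lit 15645910683) (nat_lit 76) (nat_lit 29034167875) (nat_lit 76) (nat_lit 22116632958) (nat_lit 4) (nat_lit 4) (nat_lit 5) (nat_lit 5) (nat_lit 5) (nat_lit 4) (nat_lit 395) (nat_lit 213) (nat_lit 172)) (XT.nd (nat_lit 78) (nat_lit 0) (nat_lit 0) (XT.lf (nat_lit 0) (nat_lit 21393690646) (nat_lit 76) (nat_lit 27162048693) (nat_lit 76) (nat_lit 20159136561) (nat_lit 4) (nat_lit 4) (nat_lit 5) (nat_lit 5) (nat_lit 5) (nat_lit 4) (nat_lit 396) (nat_lit 213) (nat_lit 171)) (XT.lf (nat_lit 0) (nat_lit 27257063861) (nat_lit 76) (nat_lit 25260123621) (nat_lit 76) (nat_lit 18174320989) (nat_lit 4) (nat_lit 4) (nat_lit 5) (nat_lit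 5) (nat_lit 5) (nat_lit 4) (nat_lit 397) (nat_lit 213) (nat_lit 170)))) (XT.nd (nat_lit 78) (nat_lit 0) (nat_lit 0) (XT.lf (nat_lit 0) (nat_lit 33241153663) (nat_lit 76) (nat_lit 23326730782) (nat_lit 76) (nat_lit 16160451935) (nat_lit 4) (nat_lit 4) (nat_lit 5) (nat_lit 5) (nat_lit 5) (nat_lit 4) (nat_lit 398) (nat_lit 213) (nat_lit 169)) (XT.nd (nat_lit 78) (nat_lit 0) (nat_lit 0) (XT.lf (nat_lit 0) (nat_lit 39351188870) (nat_lit 76) (nat_lit 21360180802) (nat_lit 76) (nat_lit 14115769709) (nat_lit 4) (nat_lit 4) (nat_lit 5) (nat_lit 5) (nat_lit 5) (nat_lit 4) (nat_lit 399) (nat_lit 213) (nat_lit 168)) (XT.lf (nat_lit 0) (nat_lit 45592508346) (nat_lit 76) (nat_lit 19358755338) (nat_lit 76) (nat_lit 12038487694) (nat_lit 4) (nat_lit 4) (nat_lit 5) (nat_lit 5) (nat_lit 5) (nat_lit 4) (nat_lit 400) (nat_lit 213) (nat_lit 167))))) (XT.nd (nat_lit 234) (nat_lit 76) (nat_lit 0) (XT.nd (nat_lit 78)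 (nat_lit 0) (nat_lit 0) (XT.lf (nat_lit 0) (nat_lit 51970565672) (nat_lit 76) (nat_lit 17320705572) (nat_lit 76) (nat_lit 9926790792) (nat_lit 4) (nat_lit 4) (nat_lit 5) (nat_lit 5) (nat_lit 5) (nat_lit 4) (nat_lit 401) (nat_lit 213) (nat_lit 166)) (XT.nd (nat_lit 78) (nat_lit 0) (nat_lit 0) (XT.lf (nat_lit 0) (nat_lit 58490933908) (nat_lit 76) (nat_lit 15244250682) (nat_lit 76) (nat_lit 7778833828) (nat_lit 4) (nat_lit 4) (nat_lit 5) (nat_lit 5) (nat_lit 5) (nat_lit 4) (nat_lit 402) (nat_lit 213) (nat_lit 165)) (XT.lf (nat_lit 0) (nat_lit 65159310463) (nat_lit 76) (nat_lit 13127576292) (nat_lit 76) (nat_lit 5592739948) (nat_lit 4) (nat_lit 4) (nat_lit 5) (nat_lit 5) (nat_lit 5) (nat_lit 4) (nat_lit 403) (nat_lit 213) (nat_lit 164)))) (XT.nd (nat_lit 156) (nat_lit 76) (nat_lit 0) (XT.nd (nat_lit 78) (nat_lit 0) (nat_lit 0) (XT.lf (nat_lit 0) (nat_lit 71981522073) (nat_lit 76) (nat_lit 10968832879)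 (nat_lit 76) (nat_lit 3366598973) (nat_lit 4) (nat_lit 4) (nat_lit 5) (nat_lit 5) (nat_lit 5) (nat_lit 4) (nat_lit 404) (nat_lit 213) (nat_lit 163)) (XT.lf (nat_lit 0) (nat_lit 78963529894) (nat_lit 76) (nat_lit 8766134163) (nat_lit 76) (nat_lit 1098465730) (nat_lit 4) (nat_lit 4) (nat_lit 5) (nat_lit 5) (nat_lit 5) (nat_lit 4) (nat_lit 405) (nat_lit 213) (nat_lit 162))) (XT.nd (nat_lit 78) (nat_lit 0) (nat_lit 0) (XT.lf (nat_lit 0) (nat_lit 1189959123) (nat_lit 152) (nat_lit 5315580079) (nat_lit 76) (nat_lit 84909459333) (nat_lit 3) (nat_lit 5) (nat_lit 5) (nat_lit 5) (nat_lit 4) (nat_lit 4) (nat_lit 406) (nat_lit 213) (nat_lit 161)) (XT.lf (nat_lit 0) (nat_lit 3502045856) (nat_lit 152) (nat_lit 683722327) (nat_lit 76) (nat_lit 89894072610) (nat_lit 3) (nat_lit 5) (nat_lit 5) (nat_lit 5) (nat_lit 4) (nat_lit 4) (nat_lit 407) (nat_lit 213) (nat_lit 160)))))) (XT.nd (nat_lit 36582) (nat_lit 0)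 (nat_lit 684) (XT.nd (nat_lit 36270) (nat_lit 0) (nat_lit 912) (XT.nd (nat_lit 78) (nat_lit 0) (nat_lit 0) (XT.lf (nat_lit 0) (nat_lit 4126094709) (nat_lit 76) (nat_lit 1774817599) (nat_lit 152) (nat_lit 90923199657) (nat_lit 2) (nat_lit 5) (nat_lit 3) (nat_lit 5) (nat_lit 4) (nat_lit 4) (nat_lit 408) (nat_lit 213) (nat_lit 159)) (XT.nd (nat_lit 78) (nat_lit 0) (nat_lit 0) (XT.lf (nat_lit 0) (nat_lit 8363351193) (nat_lit 152) (nat_lit 90604747258) (nat_lit 0) (nat_lit 682870604) (nat_lit 2) (nat_lit 5) (nat_lit 4) (nat_lit 4) (nat_lit 2) (nat_lit 4) (nat_lit 409) (nat_lit 213) (nat_lit 158)) (XT.lf (nat_lit 0) (nat_lit 10895705269) (nat_lit 152) (nat_lit 88506626839) (nat_lit 0) (nat_lit 3160424294) (nat_lit 2) (nat_lit 5) (nat_lit 4) (nat_lit 4) (nat_lit 2) (nat_lit 4) (nat_lit 410) (nat_lit 213) (nat_lit 157)))) (XT.nd (nat_lit 156) (nat_lit 152) (nat_lit 0) (XT.nd (nat_lit 78) (nat_lit 0) (nat_lit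 0) (XT.lf (nat_lit 0) (nat_lit 527838949) (nat_lit 152) (nat_lit 5100766619) (nat_lit 152) (nat_lit 5100766619) (nat_lit 16) (nat_lit 4) (nat_lit 18) (nat_lit 5) (nat_lit 18) (nat_lit 4) (nat_lit 352) (nat_lit 214) (nat_lit 214)) (XT.lf (nat_lit 0) (nat_lit 9009616419) (nat_lit 152) (nat_lit 6645789232) (nat_lit 152) (nat_lit 6313241245) (nat_lit 16) (nat_lit 4) (nat_lit 18) (nat_lit 5) (nat_lit 18) (nat_lit 4) (nat_lit 353) (nat_lit 214) (nat_lit 213))) (XT.nd (nat_lit 78) (nat_lit 152) (nat_lit 0) (XT.lf (nat_lit 0) (nat_lit 17049096716) (nat_lit 152) (nat_lit 3051373183) (nat_lit 152) (nat_lit 2395963071) (nat_lit 16) (nat_lit 4) (nat_lit 18) (nat_lit 5) (nat_lit 18) (nat_lit 4) (nat_lit 354) (nat_lit 214) (nat_lit 212)) (XT.lf (nat_lit 0) (nat_lit 1550201438) (nat_lit 152) (nat_lit 20881557964) (nat_lit 0) (nat_lit 609552425) (nat_lit 14) (nat_lit 5) (nat_lit 16) (nat_lit 4) (nat_lit 14) (nat_lit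 4) (nat_lit 355) (nat_lit 214) (nat_lit 211))))) (XT.nd (nat_lit 234) (nat_lit 152) (nat_lit 0) (XT.nd (nat_lit 78) (nat_lit 76) (nat_lit 0) (XT.lf (nat_lit 0) (nat_lit 5569271202) (nat_lit 152) (nat_lit 13699347557) (nat_lit 0) (nat_lit 4333157609) (nat_lit 14) (nat_lit 5) (nat_lit 16) (nat_lit 4) (nat_lit 14) (nat_lit 4) (nat_lit 356) (nat_lit 214) (nat_lit 210)) (XT.nd (nat_lit 78) (nat_lit 76) (nat_lit 0) (XT.lf (nat_lit 0) (nat_lit 9628246210) (nat_lit 152) (nat_lit 6447985222) (nat_lit 0) (nat_lit 8105273802) (nat_lit 14) (nat_lit 5) (nat_lit 16) (nat_lit 4) (nat_lit 14) (nat_lit 4) (nat_lit 357) (nat_lit 214) (nat_lit 209)) (XT.lf (nat_lit 0) (nat_lit 896356322) (nat_lit 76) (nat_lit 12842933140) (nat_lit 76) (nat_lit 11041457028) (nat_lit 13) (nat_lit 4) (nat_lit 14) (nat_lit 5) (nat_lit 14) (nat_lit 4) (nat_lit 358) (nat_lit 214) (nat_lit 208)))) (XT.nd (nat_lit 156) (nat_lit 152) (nat_lit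 0) (XT.nd (nat_lit 78) (nat_lit 0) (nat_lit 0) (XT.lf (nat_lit 0) (nat_lit 8452545362) (nat_lit 76) (nat_lit 9508842305) (nat_lit 76) (nat_lit 7436974248) (nat_lit 13) (nat_lit 4) (nat_lit 14) (nat_lit 5) (nat_lit 14) (nat_lit 4) (nat_lit 359) (nat_lit 214) (nat_lit 207)) (XT.lf (nat_lit 0) (nat_lit 16098856844) (nat_lit 76) (nat_lit 6136157650) (nat_lit 76) (nat_lit 3801773141) (nat_lit 13) (nat_lit 4) (nat_lit 14) (nat_lit 5) (nat_lit 14) (nat_lit 4) (nat_lit 360) (nat_lit 214) (nat_lit 206))) (XT.nd (nat_lit 78) (nat_lit 152) (nat_lit 0) (XT.lf (nat_lit 0) (nat_lit 23841972011) (nat_lit 76) (nat_lit 2721932170) (nat_lit 76) (nat_lit 132677319) (nat_lit 13) (nat_lit 4) (nat_lit 14) (nat_lit 5) (nat_lit 14) (nat_lit 4) (nat_lit 361) (nat_lit 214) (nat_lit 205)) (XT.lf (nat_lit 0) (nat_lit 3553546333) (nat_lit 152) (nat_lit 23022783459) (nat_lit 0) (nat_lit 799466930) (nat_lit 11) (nat_lit 5)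 (nat_lit 13) (nat_lit 4) (nat_lit 11) (nat_lit 4) (nat_lit 362) (nat_lit 214) (nat_lit 204))))))))
noncomputable def xc16 : XT := (XT.nd (nat_lit 2028) (nat_lit 228) (nat_lit 0) (XT.nd (nat_lit 1014) (nat_lit 228) (nat_lit 0) (XT.nd (nat_lit 468) (nat_lit 152) (nat_lit 0) (XT.nd (nat_lit 234) (nat_lit 76) (nat_lit 0) (XT.nd (nat_lit 78) (nat_lit 0) (nat_lit 0) (XT.lf (nat_lit 0) (nat_lit 7332488492) (nat_lit 152) (nat_lit 16398174626) (nat_lit 0) (nat_lit 4345166621) (nat_lit 11) (nat_lit 5) (nat_lit 13) (nat_lit 4) (nat_lit 11) (nat_lit 4) (nat_lit 363) (nat_lit 214) (nat_lit 203)) (XT.nd (nat_lit 78) (nat_lit 0) (nat_lit 0) (XT.lf (nat_lit 0) (nat_lit 11155611821) (nat_lit 152) (nat_lit 9701510572) (nat_lit 0) (nat_lit 7941840952) (nat_lit 11) (nat_lit 5) (nat_lit 13) (nat_lit 4) (nat_lit 11) (nat_lit 4) (nat_lit 364) (nat_lit 214) (nat_lit 202)) (XT.lf (nat_lit 0) (nat_lit 15026256912) (nat_lit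 152) (nat_lit 2926939843) (nat_lit 0) (nat_lit 11592632648) (nat_lit 11) (nat_lit 5) (nat_lit 13) (nat_lit 4) (nat_lit 11) (nat_lit 4) (nat_lit 365) (nat_lit 214) (nat_lit 201)))) (XT.nd (nat_lit 78) (nat_lit 0) (nat_lit 0) (XT.lf (nat_lit 0) (nat_lit 4009700794) (nat_lit 76) (nat_lit 14976648785) (nat_lit 76) (nat_lit 11329574622) (nat_lit 10) (nat_lit 4) (nat_lit 11) (nat_lit 5) (nat_lit 11) (nat_lit 4) (nat_lit 366) (nat_lit 214) (nat_lit 200)) (XT.nd (nat_lit 78) (nat_lit 0) (nat_lit 0) (XT.lf (nat_lit 0) (nat_lit 11096199826) (nat_lit 76) (nat_lit 11934148965) (nat_lit 76) (nat_lit 8079841890) (nat_lit 10) (nat_lit 4) (nat_lit 11) (nat_lit 5) (nat_lit 11) (nat_lit 4) (nat_lit 367) (nat_lit 214) (nat_lit 199)) (XT.lf (nat_lit 0) (nat_lit 18280497495) (nat_lit 76) (nat_lit 8852595152) (nat_lit 76) (nat_lit 4797091076) (nat_lit 10) (nat_lit 4) (nat_lit 11) (nat_lit 5) (nat_lit 11) (nat_lit 4)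 (nat_lit 368) (nat_lit 214) (nat_lit 198))))) (XT.nd (nat_lit 234) (nat_lit 0) (nat_lit 0) (XT.nd (nat_lit 78) (nat_lit 152) (nat_lit 0) (XT.lf (nat_lit 0) (nat_lit 25568871344) (nat_lit 76) (nat_lit 5729294728) (nat_lit 76) (nat_lit 1478453757) (nat_lit 10) (nat_lit 4) (nat_lit 11) (nat_lit 5) (nat_lit 11) (nat_lit 4) (nat_lit 369) (nat_lit 214) (nat_lit 197)) (XT.nd (nat_lit 78) (nat_lit 76) (nat_lit 0) (XT.lf (nat_lit 0) (nat_lit 1842304377) (nat_lit 152) (nat_lit 700610554) (nat_lit 76) (nat_lit 31106781815) (nat_lit 9) (nat_lit 5) (nat_lit 11) (nat_lit 5) (nat_lit 10) (nat_lit 4) (nat_lit 370) (nat_lit 214) (nat_lit 196)) (XT.lf (nat_lit 0) (nat_lit 5240129115) (nat_lit 152) (nat_lit 28557987508) (nat_lit 0) (nat_lit 750214359) (nat_lit 8) (nat_lit 5) (nat_lit 10) (nat_lit 4) (nat_lit 8) (nat_lit 4) (nat_lit 371) (nat_lit 214) (nat_lit 195)))) (XT.nd (nat_lit 156) (nat_lit 0) (nat_lit 0)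 (XT.nd (nat_lit 78) (nat_lit 0) (nat_lit 0) (XT.lf (nat_lit 0) (nat_lit 8714571850) (nat_lit 152) (nat_lit 22709027482) (nat_lit 0) (nat_lit 4051102794) (nat_lit 8) (nat_lit 5) (nat_lit 10) (nat_lit 4) (nat_lit 8) (nat_lit 4) (nat_lit 372) (nat_lit 214) (nat_lit 194)) (XT.lf (nat_lit 0) (nat_lit 12237287713) (nat_lit 152) (nat_lit 16787954008) (nat_lit 0) (nat_lit 7405319335) (nat_lit 8) (nat_lit 5) (nat_lit 10) (nat_lit 4) (nat_lit 8) (nat_lit 4) (nat_lit 373) (nat_lit 214) (nat_lit 193))) (XT.nd (nat_lit 78) (nat_lit 0) (nat_lit 0) (XT.lf (nat_lit 0) (nat_lit 15811354804) (nat_lit 152) (nat_lit 10789593333) (nat_lit 0) (nat_lit 10815794852) (nat_lit 8) (nat_lit 5) (nat_lit 10) (nat_lit 4) (nat_lit 8) (nat_lit 4) (nat_lit 374) (nat_lit 214) (nat_lit 192)) (XT.lf (nat_lit 0) (nat_lit 19439896094) (nat_lit 152) (nat_lit 4708704170) (nat_lit 0) (nat_lit 14285509371) (nat_lit 8) (nat_lit 5) (nat_lit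 10) (nat_lit 4) (nat_lit 8) (nat_lit 4) (nat_lit 375) (nat_lit 214) (nat_lit 191)))))) (XT.nd (nat_lit 468) (nat_lit 152) (nat_lit 0) (XT.nd (nat_lit 234) (nat_lit 0) (nat_lit 0) (XT.nd (nat_lit 78) (nat_lit 0) (nat_lit 0) (XT.lf (nat_lit 0) (nat_lit 1489084275) (nat_lit 76) (nat_lit 21651311867) (nat_lit 76) (nat_lit 16342724396) (nat_lit 7) (nat_lit 4) (nat_lit 8) (nat_lit 5) (nat_lit 8) (nat_lit 4) (nat_lit 376) (nat_lit 214) (nat_lit 190)) (XT.nd (nat_lit 78) (nat_lit 0) (nat_lit 0) (XT.lf (nat_lit 0) (nat_lit 7875672707) (nat_lit 76) (nat_lit 19073166999) (nat_lit 76) (nat_lit 13614870063) (nat_lit 7) (nat_lit 4) (nat_lit 8) (nat_lit 5) (nat_lit 8) (nat_lit 4) (nat_lit 377) (nat_lit 214) (nat_lit 189)) (XT.lf (nat_lit 0) (nat_lit 14362929192) (nat_lit 76) (nat_lit 16459461591) (nat_lit 76) (nat_lit 10855815661) (nat_lit 7) (nat_lit 4) (nat_lit 8) (nat_lit 5) (nat_lit 8) (nat_lit 4) (nat_lit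 378) (nat_lit 214) (nat_lit 188)))) (XT.nd (nat_lit 78) (nat_lit 0) (nat_lit 0) (XT.lf (nat_lit 0) (nat_lit 20956522208) (nat_lit 76) (nat_lit 13807911823) (nat_lit 76) (nat_lit 8063150364) (nat_lit 7) (nat_lit 4) (nat_lit 8) (nat_lit 5) (nat_lit 8) (nat_lit 4) (nat_lit 379) (nat_lit 214) (nat_lit 187)) (XT.nd (nat_lit 78) (nat_lit 0) (nat_lit 0) (XT.lf (nat_lit 0) (nat_lit 27662213146) (nat_lit 76) (nat_lit 11116200808) (nat_lit 76) (nat_lit 5234433982) (nat_lit 7) (nat_lit 4) (nat_lit 8) (nat_lit 5) (nat_lit 8) (nat_lit 4) (nat_lit 380) (nat_lit 214) (nat_lit 186)) (XT.lf (nat_lit 0) (nat_lit 34485861348) (nat_lit 76) (nat_lit 8381976565) (nat_lit 76) (nat_lit 2367194818) (nat_lit 7) (nat_lit 4) (nat_lit 8) (nat_lit 5) (nat_lit 8) (nat_lit 4) (nat_lit 381) (nat_lit 214) (nat_lit 185))))) (XT.nd (nat_lit 234) (nat_lit 0) (nat_lit 0) (XT.nd (nat_lit 78) (nat_lit 76) (nat_lit 0) (XT.lf (nat_lit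 0) (nat_lit 530514206) (nat_lit 152) (nat_lit 5066978606) (nat_lit 76) (nat_lit 40897557864) (nat_lit 6) (nat_lit 5) (nat_lit 8) (nat_lit 5) (nat_lit 7) (nat_lit 4) (nat_lit 382) (nat_lit 214) (nat_lit 184)) (XT.nd (nat_lit 78) (nat_lit 0) (nat_lit 0) (XT.lf (nat_lit 0) (nat_lit 696532345) (nat_lit 76) (nat_lit 2734913029) (nat_lit 152) (nat_lit 44361817477) (nat_lit 5) (nat_lit 5) (nat_lit 6) (nat_lit 5) (nat_lit 7) (nat_lit 4) (nat_lit 383) (nat_lit 214) (nat_lit 183)) (XT.lf (nat_lit 0) (nat_lit 6430448650) (nat_lit 152) (nat_lit 42474088058) (nat_lit 0) (nat_lit 225565874) (nat_lit 5) (nat_lit 5) (nat_lit 7) (nat_lit 4) (nat_lit 5) (nat_lit 4) (nat_lit 384) (nat_lit 214) (nat_lit 182)))) (XT.nd (nat_lit 156) (nat_lit 0) (nat_lit 0) (XT.nd (nat_lit 78) (nat_lit 0) (nat_lit 0) (XT.lf (nat_lit 0) (nat_lit 9505061835) (nat_lit 152) (nat_lit 37816989410) (nat_lit 0) (nat_lit 3185439219) (nat_lit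 5) (nat_lit 5) (nat_lit 7) (nat_lit 4) (nat_lit 5) (nat_lit 4) (nat_lit 385) (nat_lit 214) (nat_lit 181)) (XT.lf (nat_lit 0) (nat_lit 12631681826) (nat_lit 152) (nat_lit 33095075594) (nat_lit 0) (nat_lit 6200661309) (nat_lit 5) (nat_lit 5) (nat_lit 7) (nat_lit 4) (nat_lit 5) (nat_lit 4) (nat_lit 386) (nat_lit 214) (nat_lit 180))) (XT.nd (nat_lit 78) (nat_lit 0) (nat_lit 0) (XT.lf (nat_lit 0) (nat_lit 15813040622) (nat_lit 152) (nat_lit 28304220666) (nat_lit 0) (nat_lit 9273866802) (nat_lit 5) (nat_lit 5) (nat_lit 7) (nat_lit 4) (nat_lit 5) (nat_lit 4) (nat_lit 387) (nat_lit 214) (nat_lit 179)) (XT.lf (nat_lit 0) (nat_lit 19051918050) (nat_lit 152) (nat_lit 23440238442) (nat_lit 0) (nat_lit 12407741025) (nat_lit 5) (nat_lit 5) (nat_lit 7) (nat_lit 4) (nat_lit 5) (nat_lit 4) (nat_lit 388) (nat_lit 214) (nat_lit 178))))))) (XT.nd (nat_lit 1014) (nat_lit 152) (nat_lit 0) (XT.nd (nat_lit 468) (nat_lit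 0) (nat_lit 0) (XT.nd (nat_lit 234) (nat_lit 76) (nat_lit 0) (XT.nd (nat_lit 78) (nat_lit 0) (nat_lit 0) (XT.lf (nat_lit 0) (nat_lit 22351144199) (nat_lit 152) (nat_lit 18498878841) (nat_lit 0) (nat_lit 15605022313) (nat_lit 5) (nat_lit 5) (nat_lit 7) (nat_lit 4) (nat_lit 5) (nat_lit 4) (nat_lit 389) (nat_lit 214) (nat_lit 177)) (XT.nd (nat_lit 78) (nat_lit 0) (nat_lit 0) (XT.lf (nat_lit 0) (nat_lit 25713601886) (nat_lit 152) (nat_lit 13475824169) (nat_lit 0) (nat_lit 18868504407) (nat_lit 5) (nat_lit 5) (nat_lit 7) (nat_lit 4) (nat_lit 5) (nat_lit 4) (nat_lit 390) (nat_lit 214) (nat_lit 176)) (XT.lf (nat_lit 0) (nat_lit 29142229181) (nat_lit 152) (nat_lit 8366685351) (nat_lit 0) (nat_lit 22201038894) (nat_lit 5) (nat_lit 5) (nat_lit 7) (nat_lit 4) (nat_lit 5) (nat_lit 4) (nat_lit 391) (nat_lit 214) (nat_lit 175)))) (XT.nd (nat_lit 78) (nat_lit 76) (nat_lit 0) (XT.lf (nat_lit 0) (nat_lit 32640021974)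 (nat_lit 152) (nat_lit 3166998090) (nat_lit 0) (nat_lit 25605537698) (nat_lit 5) (nat_lit 5) (nat_lit 7) (nat_lit 4) (nat_lit 5) (nat_lit 4) (nat_lit 392) (nat_lit 214) (nat_lit 174)) (XT.nd (nat_lit 78) (nat_lit 0) (nat_lit 0) (XT.lf (nat_lit 0) (nat_lit 2170128045) (nat_lit 76) (nat_lit 34060769140) (nat_lit 76) (nat_lit 26935708176) (nat_lit 4) (nat_lit 4) (nat_lit 5) (nat_lit 5) (nat_lit 5) (nat_lit 4) (nat_lit 393) (nat_lit 214) (nat_lit 173)) (XT.lf (nat_lit 0) (nat_lit 7671986608) (nat_lit 76) (nat_lit 32257153670) (nat_lit 76) (nat_lit 25044154174) (nat_lit 4) (nat_lit 4) (nat_lit 5) (nat_lit 5) (nat_lit 5) (nat_lit 4) (nat_lit 394) (nat_lit 214) (nat_lit 172))))) (XT.nd (nat_lit 234) (nat_lit 0) (nat_lit 0) (XT.nd (nat_lit 78) (nat_lit 0) (nat_lit 0) (XT.lf (nat_lit 0) (nat_lit 13280355577) (nat_lit 76) (nat_lit 30426578151) (nat_lit 76) (nat_lit 23128201439) (nat_lit 4) (nat_lit 4) (nat_lit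 5) (nat_lit 5) (nat_lit 5) (nat_lit 4) (nat_lit 395) (nat_lit 214) (nat_lit 171)) (XT.nd (nat_lit 78) (nat_lit 0) (nat_lit 0) (XT.lf (nat_lit 0) (nat_lit 19000135467) (nat_lit 76) (nat_lit 28567443051) (nat_lit 76) (nat_lit 21186175839) (nat_lit 4) (nat_lit 4) (nat_lit 5) (nat_lit 5) (nat_lit 5) (nat_lit 4) (nat_lit 396) (nat_lit 214) (nat_lit 170)) (XT.lf (nat_lit 0) (nat_lit 24836324146) (nat_lit 76) (nat_lit 26678123882) (nat_lit 76) (nat_lit 19216380456) (nat_lit 4) (nat_lit 4) (nat_lit 5) (nat_lit 5) (nat_lit 5) (nat_lit 4) (nat_lit 397) (nat_lit 214) (nat_lit 169)))) (XT.nd (nat_lit 156) (nat_lit 0) (nat_lit 0) (XT.nd (nat_lit 78) (nat_lit 0) (nat_lit 0) (XT.lf (nat_lit 0) (nat_lit 30794021195) (nat_lit 76) (nat_lit 24756969784) (nat_lit 76) (nat_lit 17217094111) (nat_lit 4) (nat_lit 4) (nat_lit 5) (nat_lit 5) (nat_lit 5) (nat_lit 4) (nat_lit 398) (nat_lit 214) (nat_lit 168)) (XT.lf (nat_lit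 0) (nat_lit 36878432369) (nat_lit 76) (nat_lit 22802302078) (nat_lit 76) (nat_lit 15186569855) (nat_lit 4) (nat_lit 4) (nat_lit 5) (nat_lit 5) (nat_lit 5) (nat_lit 4) (nat_lit 399) (nat_lit 214) (nat_lit 167))) (XT.nd (nat_lit 78) (nat_lit 0) (nat_lit 0) (XT.lf (nat_lit 0) (nat_lit 43094874143) (nat_lit 76) (nat_lit 20812412802) (nat_lit 76) (nat_lit 13123033443) (nat_lit 4) (nat_lit 4) (nat_lit 5) (nat_lit 5) (nat_lit 5) (nat_lit 4) (nat_lit 400) (nat_lit 214) (nat_lit 166)) (XT.lf (nat_lit 0) (nat_lit 49448778361) (nat_lit 76) (nat_lit 18785563218) (nat_lit 76) (nat_lit 11024681784) (nat_lit 4) (nat_lit 4) (nat_lit 5) (nat_lit 5) (nat_lit 5) (nat_lit 4) (nat_lit 401) (nat_lit 214) (nat_lit 165)))))) (XT.nd (nat_lit 546) (nat_lit 0) (nat_lit 0) (XT.nd (nat_lit 234) (nat_lit 152) (nat_lit 0) (XT.nd (nat_lit 78) (nat_lit 0) (nat_lit 0) (XT.lf (nat_lit 0) (nat_lit 55945696977) (nat_lit 76) (nat_lit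 16719982292) (nat_lit 76) (nat_lit 8889681369) (nat_lit 4) (nat_lit 4) (nat_lit 5) (nat_lit 5) (nat_lit 5) (nat_lit 4) (nat_lit 402) (nat_lit 214) (nat_lit 164)) (XT.nd (nat_lit 78) (nat_lit 0) (nat_lit 0) (XT.lf (nat_lit 0) (nat_lit 62591306910) (nat_lit 76) (nat_lit 14613865147) (nat_lit 76) (nat_lit 6716166662) (nat_lit 4) (nat_lit 4) (nat_lit 5) (nat_lit 5) (nat_lit 5) (nat_lit 4) (nat_lit 403) (nat_lit 214) (nat_lit 163)) (XT.lf (nat_lit 0) (nat_lit 69391415004) (nat_lit 76) (nat_lit 12465371488) (nat_lit 76) (nat_lit 4502238476) (nat_lit 4) (nat_lit 4) (nat_lit 5) (nat_lit 5) (nat_lit 5) (nat_lit 4) (nat_lit 404) (nat_lit 214) (nat_lit 162)))) (XT.nd (nat_lit 156) (nat_lit 76) (nat_lit 0) (XT.nd (nat_lit 78) (nat_lit 76) (nat_lit 0) (XT.lf (nat_lit 0) (nat_lit 76351963102) (nat_lit 76) (nat_lit 10272623989) (nat_lit 76) (nat_lit 2245962310) (nat_lit 4) (nat_lit 4) (nat_lit 5) (nat_lit 5)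 (nat_lit 5) (nat_lit 4) (nat_lit 405) (nat_lit 214) (nat_lit 161)) (XT.lf (nat_lit 0) (nat_lit 53567244) (nat_lit 152) (nat_lit 7979598488) (nat_lit 76) (nat_lit 83424925065) (nat_lit 3) (nat_lit 5) (nat_lit 5) (nat_lit 5) (nat_lit 4) (nat_lit 4) (nat_lit 406) (nat_lit 214) (nat_lit 160))) (XT.nd (nat_lit 78) (nat_lit 76) (nat_lit 0) (XT.lf (nat_lit 0) (nat_lit 2354695638) (nat_lit 152) (nat_lit 3368189710) (nat_lit 76) (nat_lit 88400379492) (nat_lit 3) (nat_lit 5) (nat_lit 5) (nat_lit 5) (nat_lit 4) (nat_lit 4) (nat_lit 407) (nat_lit 214) (nat_lit 159)) (XT.lf (nat_lit 0) (nat_lit 1367952667) (nat_lit 76) (nat_lit 3348457309) (nat_lit 152) (nat_lit 92152243543) (nat_lit 2) (nat_lit 5) (nat_lit 3) (nat_lit 5) (nat_lit 4) (nat_lit 4) (nat_lit 408) (nat_lit 214) (nat_lit 158))))) (XT.nd (nat_lit 36114) (nat_lit 0) (nat_lit 1064) (XT.nd (nat_lit 78) (nat_lit 0) (nat_lit 0) (XT.lf (nat_lit 0) (nat_lit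 6275316678) (nat_lit 76) (nat_lit 886319115) (nat_lit 152) (nat_lit 92534394068) (nat_lit 2) (nat_lit 5) (nat_lit 3) (nat_lit 5) (nat_lit 4) (nat_lit 4) (nat_lit 409) (nat_lit 214) (nat_lit 157)) (XT.nd (nat_lit 35958) (nat_lit 0) (nat_lit 1216) (XT.lf (nat_lit 0) (nat_lit 9675172823) (nat_lit 152) (nat_lit 91333382899) (nat_lit 0) (nat_lit 1599828774) (nat_lit 2) (nat_lit 5) (nat_lit 4) (nat_lit 4) (nat_lit 2) (nat_lit 4) (nat_lit 410) (nat_lit 214) (nat_lit 156)) (XT.lf (nat_lit 0) (nat_lit 1556440925) (nat_lit 152) (nat_lit 7129756828) (nat_lit 0) (nat_lit 1556440925) (nat_lit 18) (nat_lit 5) (nat_lit 20) (nat_lit 4) (nat_lit 18) (nat_lit 4) (nat_lit 350) (nat_lit 215) (nat_lit 215)))) (XT.nd (nat_lit 156) (nat_lit 0) (nat_lit 0) (XT.nd (nat_lit 78) (nat_lit 152) (nat_lit 0) (XT.lf (nat_lit 0) (nat_lit 7310122532) (nat_lit 152) (nat_lit 6686592584) (nat_lit 0) (nat_lit 6967598105) (nat_lit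 18) (nat_lit 5) (nat_lit 20) (nat_lit 4) (nat_lit 18) (nat_lit 4) (nat_lit 351) (nat_lit 215) (nat_lit 214)) (XT.lf (nat_lit 0) (nat_lit 978008603) (nat_lit 152) (nat_lit 10578560269) (nat_lit 152) (nat_lit 9903487855) (nat_lit 16) (nat_lit 4) (nat_lit 18) (nat_lit 5) (nat_lit 18) (nat_lit 4) (nat_lit 352) (nat_lit 215) (nat_lit 213))) (XT.nd (nat_lit 78) (nat_lit 0) (nat_lit 0) (XT.lf (nat_lit 0) (nat_lit 8856540040) (nat_lit 152) (nat_lit 7056313936) (nat_lit 152) (nat_lit 6058379398) (nat_lit 16) (nat_lit 4) (nat_lit 18) (nat_lit 5) (nat_lit 18) (nat_lit 4) (nat_lit 353) (nat_lit 215) (nat_lit 212)) (XT.lf (nat_lit 0) (nat_lit 16822809576) (nat_lit 152) (nat_lit 3494419900) (nat_lit 152) (nat_lit 2183026989) (nat_lit 16) (nat_lit 4) (nat_lit 18) (nat_lit 5) (nat_lit 18) (nat_lit 4) (nat_lit 354) (nat_lit 215) (nat_lit 211))))))))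
noncomputable def xc17 : XT := (XT.nd (nat_lit 2028) (nat_lit 304) (nat_lit 0) (XT.nd (nat_lit 1014) (nat_lit 228) (nat_lit 0) (XT.nd (nat_lit 468) (nat_lit 228) (nat_lit 0) (XT.nd (nat_lit 234) (nat_lit 76) (nat_lit 0) (XT.nd (nat_lit 78) (nat_lit 0) (nat_lit 0) (XT.lf (nat_lit 0) (nat_lit 1711515726) (nat_lit 152) (nat_lit 21192143459) (nat_lit 0) (nat_lit 142854146) (nat_lit 14) (nat_lit 5) (nat_lit 16) (nat_lit 4) (nat_lit 14) (nat_lit 4) (nat_lit 355) (nat_lit 215) (nat_lit 210)) (XT.nd (nat_lit 78) (nat_lit 0) (nat_lit 0) (XT.lf (nat_lit 0) (nat_lit 5690848126) (nat_lit 152) (nat_lit 14082009104) (nat_lit 0) (nat_lit 3835327730) (nat_lit 14) (nat_lit 5) (nat_lit 16) (nat_lit 4) (nat_lit 14) (nat_lit 4) (nat_lit 356) (nat_lit 215) (nat_lit 209)) (XT.lf (nat_lit 0) (nat_lit 9711243168) (nat_lit 152) (nat_lit 6900623518) (nat_lit 0) (nat_lit 7577219068) (nat_lit 14) (nat_lit 5) (nat_lit 16)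 (nat_lit 4) (nat_lit 14) (nat_lit 4) (nat_lit 357) (nat_lit 215) (nat_lit 208)))) (XT.nd (nat_lit 78) (nat_lit 0) (nat_lit 0) (XT.lf (nat_lit 0) (nat_lit 365418934) (nat_lit 76) (nat_lit 13414307515) (nat_lit 76) (nat_lit 11009891470) (nat_lit 13) (nat_lit 4) (nat_lit 14) (nat_lit 5) (nat_lit 14) (nat_lit 4) (nat_lit 358) (nat_lit 215) (nat_lit 207)) (XT.nd (nat_lit 78) (nat_lit 0) (nat_lit 0) (XT.lf (nat_lit 0) (nat_lit 7854335447) (nat_lit 76) (nat_lit 10110477224) (nat_lit 76) (nat_lit 7443544727) (nat_lit 13) (nat_lit 4) (nat_lit 14) (nat_lit 5) (nat_lit 14) (nat_lit 4) (nat_lit 359) (nat_lit 215) (nat_lit 206)) (XT.lf (nat_lit 0) (nat_lit 15435333796) (nat_lit 76) (nat_lit 6767171739) (nat_lit 76) (nat_lit 3845368900) (nat_lit 13) (nat_lit 4) (nat_lit 14) (nat_lit 5) (nat_lit 14) (nat_lit 4) (nat_lit 360) (nat_lit 215) (nat_lit 205))))) (XT.nd (nat_lit 234) (nat_lit 76) (nat_lit 0) (XT.nd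 (nat_lit 78) (nat_lit 152) (nat_lit 0) (XT.lf (nat_lit 0) (nat_lit 23115038155) (nat_lit 76) (nat_lit 3381469724) (nat_lit 76) (nat_lit 212219951) (nat_lit 13) (nat_lit 4) (nat_lit 14) (nat_lit 5) (nat_lit 14) (nat_lit 4) (nat_lit 361) (nat_lit 215) (nat_lit 204)) (XT.nd (nat_lit 78) (nat_lit 0) (nat_lit 0) (XT.lf (nat_lit 0) (nat_lit 3426793577) (nat_lit 152) (nat_lit 23846037868) (nat_lit 0) (nat_lit 116609583) (nat_lit 11) (nat_lit 5) (nat_lit 13) (nat_lit 4) (nat_lit 11) (nat_lit 4) (nat_lit 362) (nat_lit 215) (nat_lit 203)) (XT.lf (nat_lit 0) (nat_lit 7171653423) (nat_lit 152) (nat_lit 17283834476) (nat_lit 0) (nat_lit 3635020431) (nat_lit 11) (nat_lit 5) (nat_lit 13) (nat_lit 4) (nat_lit 11) (nat_lit 4) (nat_lit 363) (nat_lit 215) (nat_lit 202)))) (XT.nd (nat_lit 156) (nat_lit 76) (nat_lit 0) (XT.nd (nat_lit 78) (nat_lit 0) (nat_lit 0) (XT.lf (nat_lit 0) (nat_lit 10961687128) (nat_lit 152)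 (nat_lit 10647758228) (nat_lit 0) (nat_lit 7205200740) (nat_lit 11) (nat_lit 5) (nat_lit 13) (nat_lit 4) (nat_lit 11) (nat_lit 4) (nat_lit 364) (nat_lit 215) (nat_lit 201)) (XT.lf (nat_lit 0) (nat_lit 14800206370) (nat_lit 152) (nat_lit 3932010611) (nat_lit 0) (nat_lit 10830270084) (nat_lit 11) (nat_lit 5) (nat_lit 13) (nat_lit 4) (nat_lit 11) (nat_lit 4) (nat_lit 365) (nat_lit 215) (nat_lit 200))) (XT.nd (nat_lit 78) (nat_lit 0) (nat_lit 0) (XT.lf (nat_lit 0) (nat_lit 2926380732) (nat_lit 76) (nat_lit 15792314626) (nat_lit 76) (nat_lit 11615145428) (nat_lit 10) (nat_lit 4) (nat_lit 11) (nat_lit 5) (nat_lit 11) (nat_lit 4) (nat_lit 366) (nat_lit 215) (nat_lit 199)) (XT.lf (nat_lit 0) (nat_lit 9956329846) (nat_lit 76) (nat_lit 12775539438) (nat_lit 76) (nat_lit 8397173238) (nat_lit 10) (nat_lit 4) (nat_lit 11) (nat_lit 5) (nat_lit 11) (nat_lit 4) (nat_lit 367) (nat_lit 215) (nat_lit 198)))))) (XT.nd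 (nat_lit 468) (nat_lit 76) (nat_lit 0) (XT.nd (nat_lit 234) (nat_lit 76) (nat_lit 0) (XT.nd (nat_lit 78) (nat_lit 76) (nat_lit 0) (XT.lf (nat_lit 0) (nat_lit 17085724682) (nat_lit 76) (nat_lit 9718960996) (nat_lit 76) (nat_lit 5145257901) (nat_lit 10) (nat_lit 4) (nat_lit 11) (nat_lit 5) (nat_lit 11) (nat_lit 4) (nat_lit 368) (nat_lit 215) (nat_lit 197)) (XT.nd (nat_lit 78) (nat_lit 76) (nat_lit 0) (XT.lf (nat_lit 0) (nat_lit 24320794810) (nat_lit 76) (nat_lit 6619908504) (nat_lit 76) (nat_lit 1856557939) (nat_lit 10) (nat_lit 4) (nat_lit 11) (nat_lit 5) (nat_lit 11) (nat_lit 4) (nat_lit 369) (nat_lit 215) (nat_lit 196)) (XT.lf (nat_lit 0) (nat_lit 1443080145) (nat_lit 152) (nat_lit 2018021627) (nat_lit 76) (nat_lit 30210209710) (nat_lit 9) (nat_lit 5) (nat_lit 11) (nat_lit 5) (nat_lit 10) (nat_lit 4) (nat_lit 370) (nat_lit 215) (nat_lit 195)))) (XT.nd (nat_lit 78) (nat_lit 0) (nat_lit 0) (XT.lf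 (nat_lit 0) (nat_lit 4602474366) (nat_lit 76) (nat_lit 189993426) (nat_lit 152) (nat_lit 29778940092) (nat_lit 8) (nat_lit 5) (nat_lit 9) (nat_lit 5) (nat_lit 10) (nat_lit 4) (nat_lit 371) (nat_lit 215) (nat_lit 194)) (XT.nd (nat_lit 78) (nat_lit 0) (nat_lit 0) (XT.lf (nat_lit 0) (nat_lit 8237517616) (nat_lit 152) (nat_lit 24169061126) (nat_lit 0) (nat_lit 3092090865) (nat_lit 8) (nat_lit 5) (nat_lit 10) (nat_lit 4) (nat_lit 8) (nat_lit 4) (nat_lit 372) (nat_lit 215) (nat_lit 193)) (XT.lf (nat_lit 0) (nat_lit 11733469810) (nat_lit 152) (nat_lit 18297418688) (nat_lit 0) (nat_lit 6424451485) (nat_lit 8) (nat_lit 5) (nat_lit 10) (nat_lit 4) (nat_lit 8) (nat_lit 4) (nat_lit 373) (nat_lit 215) (nat_lit 192))))) (XT.nd (nat_lit 234) (nat_lit 76) (nat_lit 0) (XT.nd (nat_lit 78) (nat_lit 0) (nat_lit 0) (XT.lf (nat_lit 0) (nat_lit 15281552756) (nat_lit 152) (nat_lit 12347049310) (nat_lit 0) (nat_lit 9813707661)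 (nat_lit 8) (nat_lit 5) (nat_lit 10) (nat_lit 4) (nat_lit 8) (nat_lit 4) (nat_lit 374) (nat_lit 215) (nat_lit 191)) (XT.nd (nat_lit 78) (nat_lit 0) (nat_lit 0) (XT.lf (nat_lit 0) (nat_lit 18884866721) (nat_lit 152) (nat_lit 6312753639) (nat_lit 0) (nat_lit 13262820877) (nat_lit 8) (nat_lit 5) (nat_lit 10) (nat_lit 4) (nat_lit 8) (nat_lit 4) (nat_lit 375) (nat_lit 215) (nat_lit 190)) (XT.lf (nat_lit 0) (nat_lit 22546560232) (nat_lit 152) (nat_lit 189258991) (nat_lit 0) (nat_lit 16774804924) (nat_lit 8) (nat_lit 5) (nat_lit 10) (nat_lit 4) (nat_lit 8) (nat_lit 4) (nat_lit 376) (nat_lit 215) (nat_lit 189)))) (XT.nd (nat_lit 156) (nat_lit 0) (nat_lit 0) (XT.nd (nat_lit 78) (nat_lit 0) (nat_lit 0) (XT.lf (nat_lit 0) (nat_lit 6148769909) (nat_lit 76) (nat_lit 20180168656) (nat_lit 76) (nat_lit 14263064353) (nat_lit 7) (nat_lit 4) (nat_lit 8) (nat_lit 5) (nat_lit 8) (nat_lit 4) (nat_lit 377) (nat_lit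 215) (nat_lit 188)) (XT.lf (nat_lit 0) (nat_lit 12592538136) (nat_lit 76) (nat_lit 17586446895) (nat_lit 76) (nat_lit 11528227063) (nat_lit 7) (nat_lit 4) (nat_lit 8) (nat_lit 5) (nat_lit 8) (nat_lit 4) (nat_lit 378) (nat_lit 215) (nat_lit 187))) (XT.nd (nat_lit 78) (nat_lit 0) (nat_lit 0) (XT.lf (nat_lit 0) (nat_lit 19143909542) (nat_lit 76) (nat_lit 14954298726) (nat_lit 76) (nat_lit 8759073527) (nat_lit 7) (nat_lit 4) (nat_lit 8) (nat_lit 5) (nat_lit 8) (nat_lit 4) (nat_lit 379) (nat_lit 215) (nat_lit 186)) (XT.lf (nat_lit 0) (nat_lit 25808608625) (nat_lit 76) (nat_lit 12281424214) (nat_lit 76) (nat_lit 5953184095) (nat_lit 7) (nat_lit 4) (nat_lit 8) (nat_lit 5) (nat_lit 8) (nat_lit 4) (nat_lit 380) (nat_lit 215) (nat_lit 185))))))) (XT.nd (nat_lit 1014) (nat_lit 152) (nat_lit 0) (XT.nd (nat_lit 468) (nat_lit 0) (nat_lit 0) (XT.nd (nat_lit 234) (nat_lit 76) (nat_lit 0) (XT.nd (nat_lit 78) (nat_lit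 76) (nat_lit 0) (XT.lf (nat_lit 0) (nat_lit 32592458910) (nat_lit 76) (nat_lit 9565487839) (nat_lit 76) (nat_lit 3108107020) (nat_lit 7) (nat_lit 4) (nat_lit 8) (nat_lit 5) (nat_lit 8) (nat_lit 4) (nat_lit 381) (nat_lit 215) (nat_lit 184)) (XT.nd (nat_lit 78) (nat_lit 76) (nat_lit 0) (XT.lf (nat_lit 0) (nat_lit 39501388033) (nat_lit 76) (nat_lit 6804116451) (nat_lit 76) (nat_lit 221356313) (nat_lit 7) (nat_lit 4) (nat_lit 8) (nat_lit 5) (nat_lit 8) (nat_lit 4) (nat_lit 382) (nat_lit 215) (nat_lit 183)) (XT.lf (nat_lit 0) (nat_lit 2656716562) (nat_lit 152) (nat_lit 1311353011) (nat_lit 76) (nat_lit 43857888731) (nat_lit 6) (nat_lit 5) (nat_lit 8) (nat_lit 5) (nat_lit 7) (nat_lit 4) (nat_lit 383) (nat_lit 215) (nat_lit 182)))) (XT.nd (nat_lit 78) (nat_lit 0) (nat_lit 0) (XT.lf (nat_lit 0) (nat_lit 4586753122) (nat_lit 76) (nat_lit 1033652192) (nat_lit 152) (nat_lit 43543458144) (nat_lit 5) (nat_lit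 5) (nat_lit 6) (nat_lit 5) (nat_lit 7) (nat_lit 4) (nat_lit 384) (nat_lit 215) (nat_lit 181)) (XT.nd (nat_lit 78) (nat_lit 0) (nat_lit 0) (XT.lf (nat_lit 0) (nat_lit 8665263885) (nat_lit 152) (nat_lit 39946971054) (nat_lit 0) (nat_lit 1929914851) (nat_lit 5) (nat_lit 5) (nat_lit 7) (nat_lit 4) (nat_lit 5) (nat_lit 4) (nat_lit 385) (nat_lit 215) (nat_lit 180)) (XT.lf (nat_lit 0) (nat_lit 11772642598) (nat_lit 152) (nat_lit 35260878076) (nat_lit 0) (nat_lit 4929140261) (nat_lit 5) (nat_lit 5) (nat_lit 7) (nat_lit 4) (nat_lit 5) (nat_lit 4) (nat_lit 386) (nat_lit 215) (nat_lit 179))))) (XT.nd (nat_lit 234) (nat_lit 0) (nat_lit 0) (XT.nd (nat_lit 78) (nat_lit 0) (nat_lit 0) (XT.lf (nat_lit 0) (nat_lit 14935320541) (nat_lit 152) (nat_lit 30504800662) (nat_lit 0) (nat_lit 7986814998) (nat_lit 5) (nat_lit 5) (nat_lit 7) (nat_lit 4) (nat_lit 5) (nat_lit 4) (nat_lit 387) (nat_lit 215) (nat_lit 178)) (XT.nd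 (nat_lit 78) (nat_lit 0) (nat_lit 0) (XT.lf (nat_lit 0) (nat_lit 18156061219) (nat_lit 152) (nat_lit 25674583014) (nat_lit 0) (nat_lit 11105610816) (nat_lit 5) (nat_lit 5) (nat_lit 7) (nat_lit 4) (nat_lit 5) (nat_lit 4) (nat_lit 388) (nat_lit 215) (nat_lit 177)) (XT.lf (nat_lit 0) (nat_lit 21437678872) (nat_lit 152) (nat_lit 20766004555) (nat_lit 0) (nat_lit 14288252876) (nat_lit 5) (nat_lit 5) (nat_lit 7) (nat_lit 4) (nat_lit 5) (nat_lit 4) (nat_lit 389) (nat_lit 215) (nat_lit 176)))) (XT.nd (nat_lit 156) (nat_lit 0) (nat_lit 0) (XT.nd (nat_lit 78) (nat_lit 0) (nat_lit 0) (XT.lf (nat_lit 0) (nat_lit 24783040932) (nat_lit 152) (nat_lit 15774776235) (nat_lit 0) (nat_lit 17537522128) (nat_lit 5) (nat_lit 5) (nat_lit 7) (nat_lit 4) (nat_lit 5) (nat_lit 4) (nat_lit 390) (nat_lit 215) (nat_lit 175)) (XT.lf (nat_lit 0) (nat_lit 28195070532) (nat_lit 152) (nat_lit 10696536786) (nat_lit 0) (nat_lit 20856257740)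 (nat_lit 5) (nat_lit 5) (nat_lit 7) (nat_lit 4) (nat_lit 5) (nat_lit 4) (nat_lit 391) (nat_lit 215) (nat_lit 174))) (XT.nd (nat_lit 78) (nat_lit 0) (nat_lit 0) (XT.lf (nat_lit 0) (nat_lit 31676749057) (nat_lit 152) (nat_lit 5526848913) (nat_lit 0) (nat_lit 24247359576) (nat_lit 5) (nat_lit 5) (nat_lit 7) (nat_lit 4) (nat_lit 5) (nat_lit 4) (nat_lit 392) (nat_lit 215) (nat_lit 173)) (XT.lf (nat_lit 0) (nat_lit 35231118750) (nat_lit 152) (nat_lit 261195413) (nat_lit 0) (nat_lit 27713790737) (nat_lit 5) (nat_lit 5) (nat_lit 7) (nat_lit 4) (nat_lit 5) (nat_lit 4) (nat_lit 393) (nat_lit 215) (nat_lit 172)))))) (XT.nd (nat_lit 546) (nat_lit 76) (nat_lit 0) (XT.nd (nat_lit 234) (nat_lit 0) (nat_lit 0) (XT.nd (nat_lit 78) (nat_lit 0) (nat_lit 0) (XT.lf (nat_lit 0) (nat_lit 5206624774) (nat_lit 76) (nat_lit 33704709858) (nat_lit 76) (nat_lit 26102004630) (nat_lit 4) (nat_lit 4) (nat_lit 5) (nat_lit 5)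 (nat_lit 5) (nat_lit 4) (nat_lit 394) (nat_lit 215) (nat_lit 171)) (XT.nd (nat_lit 78) (nat_lit 0) (nat_lit 0) (XT.lf (nat_lit 0) (nat_lit 10786993670) (nat_lit 76) (nat_lit 31887118420) (nat_lit 76) (nat_lit 24201522691) (nat_lit 4) (nat_lit 4) (nat_lit 5) (nat_lit 5) (nat_lit 5) (nat_lit 4) (nat_lit 395) (nat_lit 215) (nat_lit 170)) (XT.lf (nat_lit 0) (nat_lit 16479589025) (nat_lit 76) (nat_lit 30040589224) (nat_lit 76) (nat_lit 22274517280) (nat_lit 4) (nat_lit 4) (nat_lit 5) (nat_lit 5) (nat_lit 5) (nat_lit 4) (nat_lit 396) (nat_lit 215) (nat_lit 169)))) (XT.nd (nat_lit 156) (nat_lit 0) (nat_lit 0) (XT.nd (nat_lit 78) (nat_lit 0) (nat_lit 0) (XT.lf (nat_lit 0) (nat_lit 22289384949) (nat_lit 76) (nat_lit 28163508797) (nat_lit 76) (nat_lit 20319304607) (nat_lit 4) (nat_lit 4) (nat_lit 5) (nat_lit 5) (nat_lit 5) (nat_lit 4) (nat_lit 397) (nat_lit 215) (nat_lit 168)) (XT.lf (nat_lit 0) (nat_lit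 28221457966) (nat_lit 76) (nat_lit 26254236972) (nat_lit 76) (nat_lit 18334176232) (nat_lit 4) (nat_lit 4) (nat_lit 5) (nat_lit 5) (nat_lit 5) (nat_lit 4) (nat_lit 398) (nat_lit 215) (nat_lit 167))) (XT.nd (nat_lit 78) (nat_lit 0) (nat_lit 0) (XT.lf (nat_lit 0) (nat_lit 34280991438) (nat_lit 76) (nat_lit 24311105454) (nat_lit 76) (nat_lit 16317397577) (nat_lit 4) (nat_lit 4) (nat_lit 5) (nat_lit 5) (nat_lit 5) (nat_lit 4) (nat_lit 399) (nat_lit 215) (nat_lit 166)) (XT.lf (nat_lit 0) (nat_lit 40473280104) (nat_lit 76) (nat_lit 22332416360) (nat_lit 76) (nat_lit 14267206410) (nat_lit 4) (nat_lit 4) (nat_lit 5) (nat_lit 5) (nat_lit 5) (nat_lit 4) (nat_lit 400) (nat_lit 215) (nat_lit 165))))) (XT.nd (nat_lit 234) (nat_lit 76) (nat_lit 0) (XT.nd (nat_lit 78) (nat_lit 0) (nat_lit 0) (XT.lf (nat_lit 0) (nat_lit 46803734702) (nat_lit 76) (nat_lit 20316440739) (nat_lit 76) (nat_lit 12181811299) (nat_lit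 4) (nat_lit 4) (nat_lit 5) (nat_lit 5) (nat_lit 5) (nat_lit 4) (nat_lit 401) (nat_lit 215) (nat_lit 164)) (XT.nd (nat_lit 78) (nat_lit 0) (nat_lit 0) (XT.lf (nat_lit 0) (nat_lit 53277886696) (nat_lit 76) (nat_lit 18261417059) (nat_lit 76) (nat_lit 10059390057) (nat_lit 4) (nat_lit 4) (nat_lit 5) (nat_lit 5) (nat_lit 5) (nat_lit 4) (nat_lit 402) (nat_lit 215) (nat_lit 163)) (XT.lf (nat_lit 0) (nat_lit 59901393114) (nat_lit 76) (nat_lit 16165549668) (nat_lit 76) (nat_lit 7898088139) (nat_lit 4) (nat_lit 4) (nat_lit 5) (nat_lit 5) (nat_lit 5) (nat_lit 4) (nat_lit 403) (nat_lit 215) (nat_lit 162)))) (XT.nd (nat_lit 156) (nat_lit 76) (nat_lit 0) (XT.nd (nat_lit 78) (nat_lit 0) (nat_lit 0) (XT.lf (nat_lit 0) (nat_lit 66680041484) (nat_lit 76) (nat_lit 14027007225) (nat_lit 76) (nat_lit 5696017030) (nat_lit 4) (nat_lit 4) (nat_lit 5) (nat_lit 5) (nat_lit 5) (nat_lit 4) (nat_lit 404) (nat_lit 215) (nat_lit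 161)) (XT.lf (nat_lit 0) (nat_lit 73619754898) (nat_lit 76) (nat_lit 11843921102) (nat_lit 76) (nat_lit 3451252589) (nat_lit 4) (nat_lit 4) (nat_lit 5) (nat_lit 5) (nat_lit 5) (nat_lit 4) (nat_lit 405) (nat_lit 215) (nat_lit 160))) (XT.nd (nat_lit 78) (nat_lit 76) (nat_lit 0) (XT.lf (nat_lit 0) (nat_lit 80726597182) (nat_lit 76) (nat_lit 9614383747) (nat_lit 76) (nat_lit 1161833373) (nat_lit 4) (nat_lit 4) (nat_lit 5) (nat_lit 5) (nat_lit 5) (nat_lit 4) (nat_lit 406) (nat_lit 215) (nat_lit 159)) (XT.lf (nat_lit 0) (nat_lit 1151327409) (nat_lit 152) (nat_lit 6173493462) (nat_lit 76) (nat_lit 86843824641) (nat_lit 3) (nat_lit 5) (nat_lit 5) (nat_lit 5) (nat_lit 4) (nat_lit 4) (nat_lit 407) (nat_lit 215) (nat_lit 158))))))))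
noncomputable def xc18 : XT := (XT.nd (nat_lit 37830) (nat_lit 0) (nat_lit 152) (XT.nd (nat_lit 36816) (nat_lit 0) (nat_lit 456) (XT.nd (nat_lit 36270) (nat_lit 0) (nat_lit 912) (XT.nd (nat_lit 36036) (nat_lit 0) (nat_lit 1216) (XT.nd (nat_lit 78) (nat_lit 76) (nat_lit 0) (XT.lf (nat_lit 0) (nat_lit 3489562864) (nat_lit 152) (nat_lit 1483319886) (nat_lit 76) (nat_lit 91941858667) (nat_lit 3) (nat_lit 5) (nat_lit 5) (nat_lit 5) (nat_lit 4) (nat_lit 4) (nat_lit 408) (nat_lit 215) (nat_lit 157)) (XT.nd (nat_lit 35880) (nat_lit 0) (nat_lit 1368) (XT.lf (nat_lit 0) (nat_lit 3375437003) (nat_lit 76) (nat_lit 2534597425) (nat_lit 152) (nat_lit 93832828734) (nat_lit 2) (nat_lit 5) (nat_lit 3) (nat_lit 5) (nat_lit 4) (nat_lit 4) (nat_lit 409) (nat_lit 215) (nat_lit 156)) (XT.lf (nat_lit 0) (nat_lit 5052635123) (nat_lit 152) (nat_lit 2366083898) (nat_lit 152) (nat_lit 2366083898) (nat_lit 20) (nat_lit 4)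 (nat_lit 22) (nat_lit 5) (nat_lit 22) (nat_lit 4) (nat_lit 348) (nat_lit 216) (nat_lit 216)))) (XT.nd (nat_lit 78) (nat_lit 152) (nat_lit 0) (XT.lf (nat_lit 0) (nat_lit 18295252810) (nat_lit 152) (nat_lit 1044966609) (nat_lit 152) (nat_lit 681582444) (nat_lit 20) (nat_lit 4) (nat_lit 22) (nat_lit 5) (nat_lit 22) (nat_lit 4) (nat_lit 349) (nat_lit 216) (nat_lit 215)) (XT.nd (nat_lit 78) (nat_lit 0) (nat_lit 0) (XT.lf (nat_lit 0) (nat_lit 3421989320) (nat_lit 152) (nat_lit 14337951955) (nat_lit 0) (nat_lit 2726664733) (nat_lit 18) (nat_lit 5) (nat_lit 20) (nat_lit 4) (nat_lit 18) (nat_lit 4) (nat_lit 350) (nat_lit 216) (nat_lit 214)) (XT.lf (nat_lit 0) (nat_lit 7576809914) (nat_lit 152) (nat_lit 6841184571) (nat_lit 0) (nat_lit 6548937340) (nat_lit 18) (nat_lit 5) (nat_lit 20) (nat_lit 4) (nat_lit 18) (nat_lit 4) (nat_lit 351) (nat_lit 216) (nat_lit 213))))) (XT.nd (nat_lit 234) (nat_lit 152) (nat_lit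 0) (XT.nd (nat_lit 78) (nat_lit 0) (nat_lit 0) (XT.lf (nat_lit 0) (nat_lit 744932849) (nat_lit 152) (nat_lit 11034898388) (nat_lit 152) (nat_lit 9684163690) (nat_lit 16) (nat_lit 4) (nat_lit 18) (nat_lit 5) (nat_lit 18) (nat_lit 4) (nat_lit 352) (nat_lit 216) (nat_lit 212)) (XT.nd (nat_lit 78) (nat_lit 0) (nat_lit 0) (XT.lf (nat_lit 0) (nat_lit 8550253525) (nat_lit 152) (nat_lit 7545174068) (nat_lit 152) (nat_lit 5880980998) (nat_lit 16) (nat_lit 4) (nat_lit 18) (nat_lit 5) (nat_lit 18) (nat_lit 4) (nat_lit 353) (nat_lit 216) (nat_lit 211)) (XT.lf (nat_lit 0) (nat_lit 16445444653) (nat_lit 152) (nat_lit 4014854802) (nat_lit 152) (nat_lit 2046333214) (nat_lit 16) (nat_lit 4) (nat_lit 18) (nat_lit 5) (nat_lit 18) (nat_lit 4) (nat_lit 354) (nat_lit 216) (nat_lit 210)))) (XT.nd (nat_lit 156) (nat_lit 0) (nat_lit 0) (XT.nd (nat_lit 78) (nat_lit 0) (nat_lit 0) (XT.lf (nat_lit 0) (nat_lit 1391910624)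 (nat_lit 76) (nat_lit 409023755) (nat_lit 152) (nat_lit 21253268935) (nat_lit 14) (nat_lit 5) (nat_lit 15) (nat_lit 5) (nat_lit 16) (nat_lit 4) (nat_lit 355) (nat_lit 216) (nat_lit 209)) (XT.lf (nat_lit 0) (nat_lit 5737755027) (nat_lit 152) (nat_lit 14618203297) (nat_lit 0) (nat_lit 3261206501) (nat_lit 14) (nat_lit 5) (nat_lit 16) (nat_lit 4) (nat_lit 14) (nat_lit 4) (nat_lit 356) (nat_lit 216) (nat_lit 208))) (XT.nd (nat_lit 78) (nat_lit 0) (nat_lit 0) (XT.lf (nat_lit 0) (nat_lit 9720693792) (nat_lit 152) (nat_lit 7504756303) (nat_lit 0) (nat_lit 6973753320) (nat_lit 14) (nat_lit 5) (nat_lit 16) (nat_lit 4) (nat_lit 14) (nat_lit 4) (nat_lit 357) (nat_lit 216) (nat_lit 207)) (XT.lf (nat_lit 0) (nat_lit 13749299126) (nat_lit 152) (nat_lit 311804288) (nat_lit 0) (nat_lit 10739842202) (nat_lit 14) (nat_lit 5) (nat_lit 16) (nat_lit 4) (nat_lit 14) (nat_lit 4) (nat_lit 358) (nat_lit 216) (nat_lit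 206)))))) (XT.nd (nat_lit 468) (nat_lit 228) (nat_lit 0) (XT.nd (nat_lit 234) (nat_lit 152) (nat_lit 0) (XT.nd (nat_lit 78) (nat_lit 0) (nat_lit 0) (XT.lf (nat_lit 0) (nat_lit 7105593575) (nat_lit 76) (nat_lit 10789800905) (nat_lit 76) (nat_lit 7525473639) (nat_lit 13) (nat_lit 4) (nat_lit 14) (nat_lit 5) (nat_lit 14) (nat_lit 4) (nat_lit 359) (nat_lit 216) (nat_lit 205)) (XT.nd (nat_lit 78) (nat_lit 0) (nat_lit 0) (XT.lf (nat_lit 0) (nat_lit 14623181116) (nat_lit 76) (nat_lit 7475018885) (nat_lit 76) (nat_lit 3963244685) (nat_lit 13) (nat_lit 4) (nat_lit 14) (nat_lit 5) (nat_lit 14) (nat_lit 4) (nat_lit 360) (nat_lit 216) (nat_lit 204)) (XT.lf (nat_lit 0) (nat_lit 22241321582) (nat_lit 76) (nat_lit 4117009555) (nat_lit 76) (nat_lit 364995614) (nat_lit 13) (nat_lit 4) (nat_lit 14) (nat_lit 5) (nat_lit 14) (nat_lit 4) (nat_lit 361) (nat_lit 216) (nat_lit 203)))) (XT.nd (nat_lit 78) (nat_lit 0)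 (nat_lit 0) (XT.lf (nat_lit 0) (nat_lit 2578437056) (nat_lit 76) (nat_lit 654909478) (nat_lit 152) (nat_lit 24172058866) (nat_lit 11) (nat_lit 5) (nat_lit 12) (nat_lit 5) (nat_lit 13) (nat_lit 4) (nat_lit 362) (nat_lit 216) (nat_lit 202)) (XT.nd (nat_lit 78) (nat_lit 0) (nat_lit 0) (XT.lf (nat_lit 0) (nat_lit 6938821365) (nat_lit 152) (nat_lit 18319057367) (nat_lit 0) (nat_lit 2849786990) (nat_lit 11) (nat_lit 5) (nat_lit 13) (nat_lit 4) (nat_lit 11) (nat_lit 4) (nat_lit 363) (nat_lit 216) (nat_lit 201)) (XT.lf (nat_lit 0) (nat_lit 10696729221) (nat_lit 152) (nat_lit 11741804231) (nat_lit 0) (nat_lit 6394244947) (nat_lit 11) (nat_lit 5) (nat_lit 13) (nat_lit 4) (nat_lit 11) (nat_lit 4) (nat_lit 364) (nat_lit 216) (nat_lit 200))))) (XT.nd (nat_lit 234) (nat_lit 152) (nat_lit 0) (XT.nd (nat_lit 78) (nat_lit 76) (nat_lit 0) (XT.lf (nat_lit 0) (nat_lit 14504058319) (nat_lit 152) (nat_lit 5083166432)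 (nat_lit 0) (nat_lit 9994341134) (nat_lit 11) (nat_lit 5) (nat_lit 13) (nat_lit 4) (nat_lit 11) (nat_lit 4) (nat_lit 365) (nat_lit 216) (nat_lit 199)) (XT.nd (nat_lit 78) (nat_lit 0) (nat_lit 0) (XT.lf (nat_lit 0) (nat_lit 1695764735) (nat_lit 76) (nat_lit 16684671445) (nat_lit 76) (nat_lit 11973757258) (nat_lit 10) (nat_lit 4) (nat_lit 11) (nat_lit 5) (nat_lit 11) (nat_lit 4) (nat_lit 366) (nat_lit 216) (nat_lit 198)) (XT.lf (nat_lit 0) (nat_lit 8670811016) (nat_lit 76) (nat_lit 13692871627) (nat_lit 76) (nat_lit 8786620545) (nat_lit 10) (nat_lit 4) (nat_lit 11) (nat_lit 5) (nat_lit 11) (nat_lit 4) (nat_lit 367) (nat_lit 216) (nat_lit 197)))) (XT.nd (nat_lit 156) (nat_lit 152) (nat_lit 0) (XT.nd (nat_lit 78) (nat_lit 0) (nat_lit 0) (XT.lf (nat_lit 0) (nat_lit 15746902131) (nat_lit 76) (nat_lit 10660541118) (nat_lit 76) (nat_lit 5564642566) (nat_lit 10) (nat_lit 4) (nat_lit 11) (nat_lit 5) (nat_lit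 11) (nat_lit 4) (nat_lit 368) (nat_lit 216) (nat_lit 196)) (XT.lf (nat_lit 0) (nat_lit 22930221073) (nat_lit 76) (nat_lit 7585030308) (nat_lit 76) (nat_lit 2305007998) (nat_lit 10) (nat_lit 4) (nat_lit 11) (nat_lit 5) (nat_lit 11) (nat_lit 4) (nat_lit 369) (nat_lit 216) (nat_lit 195))) (XT.nd (nat_lit 78) (nat_lit 76) (nat_lit 0) (XT.lf (nat_lit 0) (nat_lit 975712783) (nat_lit 152) (nat_lit 3478086289) (nat_lit 76) (nat_lit 29241478959) (nat_lit 9) (nat_lit 5) (nat_lit 11) (nat_lit 5) (nat_lit 10) (nat_lit 4) (nat_lit 370) (nat_lit 216) (nat_lit 194)) (XT.lf (nat_lit 0) (nat_lit 3063046052) (nat_lit 76) (nat_lit 1220394141) (nat_lit 152) (nat_lit 30313192839) (nat_lit 8) (nat_lit 5) (nat_lit 9) (nat_lit 5) (nat_lit 10) (nat_lit 4) (nat_lit 371) (nat_lit 216) (nat_lit 193))))))) (XT.nd (nat_lit 1014) (nat_lit 76) (nat_lit 0) (XT.nd (nat_lit 468) (nat_lit 152) (nat_lit 0) (XT.nd (nat_lit 234) (nat_lit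 76) (nat_lit 0) (XT.nd (nat_lit 78) (nat_lit 0) (nat_lit 0) (XT.lf (nat_lit 0) (nat_lit 7691821506) (nat_lit 152) (nat_lit 25773240782) (nat_lit 0) (nat_lit 2059941058) (nat_lit 8) (nat_lit 5) (nat_lit 10) (nat_lit 4) (nat_lit 8) (nat_lit 4) (nat_lit 372) (nat_lit 216) (nat_lit 192)) (XT.nd (nat_lit 78) (nat_lit 0) (nat_lit 0) (XT.lf (nat_lit 0) (nat_lit 11161789555) (nat_lit 152) (nat_lit 19949589641) (nat_lit 0) (nat_lit 5371082336) (nat_lit 8) (nat_lit 5) (nat_lit 10) (nat_lit 4) (nat_lit 8) (nat_lit 4) (nat_lit 373) (nat_lit 216) (nat_lit 191)) (XT.lf (nat_lit 0) (nat_lit 14684645177) (nat_lit 152) (nat_lit 14045813755) (nat_lit 0) (nat_lit 8739737210) (nat_lit 8) (nat_lit 5) (nat_lit 10) (nat_lit 4) (nat_lit 8) (nat_lit 4) (nat_lit 374) (nat_lit 216) (nat_lit 190)))) (XT.nd (nat_lit 78) (nat_lit 76) (nat_lit 0) (XT.lf (nat_lit 0) (nat_lit 18263466594) (nat_lit 152) (nat_lit 8056754485) (nat_lit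 0) (nat_lit 12168849162) (nat_lit 8) (nat_lit 5) (nat_lit 10) (nat_lit 4) (nat_lit 8) (nat_lit 4) (nat_lit 375) (nat_lit 216) (nat_lit 189)) (XT.nd (nat_lit 78) (nat_lit 76) (nat_lit 0) (XT.lf (nat_lit 0) (nat_lit 21901380932) (nat_lit 152) (nat_lit 1977178671) (nat_lit 0) (nat_lit 15661414505) (nat_lit 8) (nat_lit 5) (nat_lit 10) (nat_lit 4) (nat_lit 8) (nat_lit 4) (nat_lit 376) (nat_lit 216) (nat_lit 188)) (XT.lf (nat_lit 0) (nat_lit 4281778863) (nat_lit 76) (nat_lit 21360947165) (nat_lit 76) (nat_lit 14979865210) (nat_lit 7) (nat_lit 4) (nat_lit 8) (nat_lit 5) (nat_lit 8) (nat_lit 4) (nat_lit 377) (nat_lit 216) (nat_lit 187))))) (XT.nd (nat_lit 234) (nat_lit 152) (nat_lit 0) (XT.nd (nat_lit 78) (nat_lit 0) (nat_lit 0) (XT.lf (nat_lit 0) (nat_lit 10683325480) (nat_lit 76) (nat_lit 18786627003) (nat_lit 76) (nat_lit 12268539680) (nat_lit 7) (nat_lit 4) (nat_lit 8) (nat_lit 5) (nat_lit 8) (nat_lit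 4) (nat_lit 378) (nat_lit 216) (nat_lit 186)) (XT.nd (nat_lit 78) (nat_lit 0) (nat_lit 0) (XT.lf (nat_lit 0) (nat_lit 17193705032) (nat_lit 76) (nat_lit 16173315338) (nat_lit 76) (nat_lit 9522213095) (nat_lit 7) (nat_lit 4) (nat_lit 8) (nat_lit 5) (nat_lit 8) (nat_lit 4) (nat_lit 379) (nat_lit 216) (nat_lit 185)) (XT.lf (nat_lit 0) (nat_lit 23818606198) (nat_lit 76) (nat_lit 13518728694) (nat_lit 76) (nat_lit 6738485752) (nat_lit 7) (nat_lit 4) (nat_lit 8) (nat_lit 5) (nat_lit 8) (nat_lit 4) (nat_lit 380) (nat_lit 216) (nat_lit 184)))) (XT.nd (nat_lit 156) (nat_lit 152) (nat_lit 0) (XT.nd (nat_lit 78) (nat_lit 0) (nat_lit 0) (XT.lf (nat_lit 0) (nat_lit 30563817729) (nat_lit 76) (nat_lit 10820547529) (nat_lit 76) (nat_lit 3914925268) (nat_lit 7) (nat_lit 4) (nat_lit 8) (nat_lit 5) (nat_lit 8) (nat_lit 4) (nat_lit 381) (nat_lit 216) (nat_lit 183)) (XT.lf (nat_lit 0) (nat_lit 37435233498) (nat_lit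 76) (nat_lit 8076414210) (nat_lit 76) (nat_lit 1049064454) (nat_lit 7) (nat_lit 4) (nat_lit 8) (nat_lit 5) (nat_lit 8) (nat_lit 4) (nat_lit 382) (nat_lit 216) (nat_lit 182))) (XT.nd (nat_lit 78) (nat_lit 76) (nat_lit 0) (XT.lf (nat_lit 0) (nat_lit 1825274301) (nat_lit 152) (nat_lit 3440224957) (nat_lit 76) (nat_lit 42595151662) (nat_lit 6) (nat_lit 5) (nat_lit 8) (nat_lit 5) (nat_lit 7) (nat_lit 4) (nat_lit 383) (nat_lit 216) (nat_lit 181)) (XT.lf (nat_lit 0) (nat_lit 2379050972) (nat_lit 76) (nat_lit 2369383806) (nat_lit 152) (nat_lit 44451342956) (nat_lit 5) (nat_lit 5) (nat_lit 6) (nat_lit 5) (nat_lit 7) (nat_lit 4) (nat_lit 384) (nat_lit 216) (nat_lit 180)))))) (XT.nd (nat_lit 546) (nat_lit 76) (nat_lit 0) (XT.nd (nat_lit 234) (nat_lit 0) (nat_lit 0) (XT.nd (nat_lit 78) (nat_lit 0) (nat_lit 0) (XT.lf (nat_lit 0) (nat_lit 7761212201) (nat_lit 152) (nat_lit 42213568450) (nat_lit 0) (nat_lit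 604251493) (nat_lit 5) (nat_lit 5) (nat_lit 7) (nat_lit 4) (nat_lit 5) (nat_lit 4) (nat_lit 385) (nat_lit 216) (nat_lit 179)) (XT.nd (nat_lit 78) (nat_lit 0) (nat_lit 0) (XT.lf (nat_lit 0) (nat_lit 10849910061) (nat_lit 152) (nat_lit 37562252986) (nat_lit 0) (nat_lit 3587946146) (nat_lit 5) (nat_lit 5) (nat_lit 7) (nat_lit 4) (nat_lit 5) (nat_lit 4) (nat_lit 386) (nat_lit 216) (nat_lit 178)) (XT.lf (nat_lit 0) (nat_lit 13994451254) (nat_lit 152) (nat_lit 32839940147) (nat_lit 0) (nat_lit 6630542479) (nat_lit 5) (nat_lit 5) (nat_lit 7) (nat_lit 4) (nat_lit 5) (nat_lit 4) (nat_lit 387) (nat_lit 216) (nat_lit 177)))) (XT.nd (nat_lit 156) (nat_lit 0) (nat_lit 0) (XT.nd (nat_lit 78) (nat_lit 0) (nat_lit 0) (XT.lf (nat_lit 0) (nat_lit 17197583437) (nat_lit 152) (nat_lit 28042503641) (nat_lit 0) (nat_lit 9734699069) (nat_lit 5) (nat_lit 5) (nat_lit 7) (nat_lit 4) (nat_lit 5) (nat_lit 4) (nat_lit 388)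 (nat_lit 216) (nat_lit 176)) (XT.lf (nat_lit 0) (nat_lit 20462105463) (nat_lit 152) (nat_lit 23165751533) (nat_lit 0) (nat_lit 12903128287) (nat_lit 5) (nat_lit 5) (nat_lit 7) (nat_lit 4) (nat_lit 5) (nat_lit 4) (nat_lit 389) (nat_lit 216) (nat_lit 175))) (XT.nd (nat_lit 78) (nat_lit 0) (nat_lit 0) (XT.lf (nat_lit 0) (nat_lit 23790869828) (nat_lit 152) (nat_lit 18205422583) (nat_lit 0) (nat_lit 16138598663) (nat_lit 5) (nat_lit 5) (nat_lit 7) (nat_lit 4) (nat_lit 5) (nat_lit 4) (nat_lit 390) (nat_lit 216) (nat_lit 174)) (XT.lf (nat_lit 0) (nat_lit 27186785160) (nat_lit 152) (nat_lit 13157182524) (nat_lit 0) (nat_lit 19443937307) (nat_lit 5) (nat_lit 5) (nat_lit 7) (nat_lit 4) (nat_lit 5) (nat_lit 4) (nat_lit 391) (nat_lit 216) (nat_lit 173))))) (XT.nd (nat_lit 234) (nat_lit 0) (nat_lit 0) (XT.nd (nat_lit 78) (nat_lit 76) (nat_lit 0) (XT.lf (nat_lit 0) (nat_lit 30652818765) (nat_lit 152) (nat_lit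 8016620270) (nat_lit 0) (nat_lit 22822032380) (nat_lit 5) (nat_lit 5) (nat_lit 7) (nat_lit 4) (nat_lit 5) (nat_lit 4) (nat_lit 392) (nat_lit 216) (nat_lit 172)) (XT.nd (nat_lit 78) (nat_lit 76) (nat_lit 0) (XT.lf (nat_lit 0) (nat_lit 34191999215) (nat_lit 152) (nat_lit 2779244071) (nat_lit 0) (nat_lit 26275835614) (nat_lit 5) (nat_lit 5) (nat_lit 7) (nat_lit 4) (nat_lit 5) (nat_lit 4) (nat_lit 393) (nat_lit 216) (nat_lit 171)) (XT.lf (nat_lit 0) (nat_lit 2610461938) (nat_lit 76) (nat_lit 35222050416) (nat_lit 76) (nat_lit 27222996315) (nat_lit 4) (nat_lit 4) (nat_lit 5) (nat_lit 5) (nat_lit 5) (nat_lit 4) (nat_lit 394) (nat_lit 216) (nat_lit 170)))) (XT.nd (nat_lit 156) (nat_lit 0) (nat_lit 0) (XT.nd (nat_lit 78) (nat_lit 0) (nat_lit 0) (XT.lf (nat_lit 0) (nat_lit 8163646298) (nat_lit 76) (nat_lit 33417064882) (nat_lit 76) (nat_lit 25337534566) (nat_lit 4) (nat_lit 4) (nat_lit 5) (nat_lit 5) (nat_lit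 5) (nat_lit 4) (nat_lit 395) (nat_lit 216) (nat_lit 169)) (XT.lf (nat_lit 0) (nat_lit 13829848899) (nat_lit 76) (nat_lit 31582774427) (nat_lit 76) (nat_lit 23425111865) (nat_lit 4) (nat_lit 4) (nat_lit 5) (nat_lit 5) (nat_lit 5) (nat_lit 4) (nat_lit 396) (nat_lit 216) (nat_lit 168))) (XT.nd (nat_lit 78) (nat_lit 0) (nat_lit 0) (XT.lf (nat_lit 0) (nat_lit 19614020791) (nat_lit 76) (nat_lit 29717576274) (nat_lit 76) (nat_lit 21484057161) (nat_lit 4) (nat_lit 4) (nat_lit 5) (nat_lit 5) (nat_lit 5) (nat_lit 4) (nat_lit 397) (nat_lit 216) (nat_lit 167)) (XT.lf (nat_lit 0) (nat_lit 25521216105) (nat_lit 76) (nat_lit 27819840637) (nat_lit 76) (nat_lit 19512674388) (nat_lit 4) (nat_lit 4) (nat_lit 5) (nat_lit 5) (nat_lit 5) (nat_lit 4) (nat_lit 398) (nat_lit 216) (nat_lit 166))))))))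
noncomputable def xc19 : XT := (XT.nd (nat_lit 37674) (nat_lit 0) (nat_lit 228) (XT.nd (nat_lit 36660) (nat_lit 0) (nat_lit 836) (XT.nd (nat_lit 468) (nat_lit 152) (nat_lit 0) (XT.nd (nat_lit 234) (nat_lit 0) (nat_lit 0) (XT.nd (nat_lit 78) (nat_lit 0) (nat_lit 0) (XT.lf (nat_lit 0) (nat_lit 31556596469) (nat_lit 76) (nat_lit 25887909301) (nat_lit 76) (nat_lit 17509240978) (nat_lit 4) (nat_lit 4) (nat_lit 5) (nat_lit 5) (nat_lit 5) (nat_lit 4) (nat_lit 399) (nat_lit 216) (nat_lit 165)) (XT.nd (nat_lit 78) (nat_lit 0) (nat_lit 0) (XT.lf (nat_lit 0) (nat_lit 37725435515) (nat_lit 76) (nat_lit 23920094171) (nat_lit 76) (nat_lit 15472006358) (nat_lit 4) (nat_lit 4) (nat_lit 5) (nat_lit 5) (nat_lit 5) (nat_lit 4) (nat_lit 400) (nat_lit 216) (nat_lit 164)) (XT.lf (nat_lit 0) (nat_lit 44033123491) (nat_lit 76) (nat_lit 21914675796) (nat_lit 76) (nat_lit 13399190421) (nat_lit 4) (nat_lit 4) (nat_lit 5)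 (nat_lit 5) (nat_lit 5) (nat_lit 4) (nat_lit 401) (nat_lit 216) (nat_lit 163)))) (XT.nd (nat_lit 78) (nat_lit 0) (nat_lit 0) (XT.lf (nat_lit 0) (nat_lit 50485171970) (nat_lit 76) (nat_lit 19869901869) (nat_lit 76) (nat_lit 11288981967) (nat_lit 4) (nat_lit 4) (nat_lit 5) (nat_lit 5) (nat_lit 5) (nat_lit 4) (nat_lit 402) (nat_lit 216) (nat_lit 162)) (XT.nd (nat_lit 78) (nat_lit 0) (nat_lit 0) (XT.lf (nat_lit 0) (nat_lit 57087218664) (nat_lit 76) (nat_lit 17783985695) (nat_lit 76) (nat_lit 9139537126) (nat_lit 4) (nat_lit 4) (nat_lit 5) (nat_lit 5) (nat_lit 5) (nat_lit 4) (nat_lit 403) (nat_lit 216) (nat_lit 161)) (XT.lf (nat_lit 0) (nat_lit 63845032351) (nat_lit 76) (nat_lit 15655104628) (nat_lit 76) (nat_lit 6948977742) (nat_lit 4) (nat_lit 4) (nat_lit 5) (nat_lit 5) (nat_lit 5) (nat_lit 4) (nat_lit 404) (nat_lit 216) (nat_lit 160))))) (XT.nd (nat_lit 234) (nat_lit 152) (nat_lit 0) (XT.nd (nat_lit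 78) (nat_lit 0) (nat_lit 0) (XT.lf (nat_lit 0) (nat_lit 70764517916) (nat_lit 76) (nat_lit 13481398481) (nat_lit 76) (nat_lit 4715389734) (nat_lit 4) (nat_lit 4) (nat_lit 5) (nat_lit 5) (nat_lit 5) (nat_lit 4) (nat_lit 405) (nat_lit 216) (nat_lit 159)) (XT.nd (nat_lit 78) (nat_lit 0) (nat_lit 0) (XT.lf (nat_lit 0) (nat_lit 77851721513) (nat_lit 76) (nat_lit 11260967899) (nat_lit 76) (nat_lit 2436821423) (nat_lit 4) (nat_lit 4) (nat_lit 5) (nat_lit 5) (nat_lit 5) (nat_lit 4) (nat_lit 406) (nat_lit 216) (nat_lit 158)) (XT.lf (nat_lit 0) (nat_lit 85112835844) (nat_lit 76) (nat_lit 8991872700) (nat_lit 76) (nat_lit 111281826) (nat_lit 4) (nat_lit 4) (nat_lit 5) (nat_lit 5) (nat_lit 5) (nat_lit 4) (nat_lit 407) (nat_lit 216) (nat_lit 157)))) (XT.nd (nat_lit 35802) (nat_lit 0) (nat_lit 1368) (XT.nd (nat_lit 78) (nat_lit 76) (nat_lit 0) (XT.lf (nat_lit 0) (nat_lit 2219096704) (nat_lit 152) (nat_lit 4430624949)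 (nat_lit 76) (nat_lit 90312700342) (nat_lit 3) (nat_lit 5) (nat_lit 5) (nat_lit 5) (nat_lit 4) (nat_lit 4) (nat_lit 408) (nat_lit 216) (nat_lit 156)) (XT.lf (nat_lit 0) (nat_lit 350944550) (nat_lit 76) (nat_lit 4249814103) (nat_lit 152) (nat_lit 95190952071) (nat_lit 2) (nat_lit 5) (nat_lit 3) (nat_lit 5) (nat_lit 4) (nat_lit 4) (nat_lit 409) (nat_lit 216) (nat_lit 155))) (XT.nd (nat_lit 78) (nat_lit 152) (nat_lit 0) (XT.lf (nat_lit 0) (nat_lit 3220347742) (nat_lit 152) (nat_lit 2913848434) (nat_lit 0) (nat_lit 3220347742) (nat_lit 22) (nat_lit 5) (nat_lit 24) (nat_lit 4) (nat_lit 22) (nat_lit 4) (nat_lit 346) (nat_lit 217) (nat_lit 217)) (XT.lf (nat_lit 0) (nat_lit 2001439340) (nat_lit 152) (nat_lit 8753016676) (nat_lit 152) (nat_lit 8378730986) (nat_lit 20) (nat_lit 4) (nat_lit 22) (nat_lit 5) (nat_lit 22) (nat_lit 4) (nat_lit 347) (nat_lit 217) (nat_lit 216)))))) (XT.nd (nat_lit 468) (nat_lit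 228) (nat_lit 0) (XT.nd (nat_lit 234) (nat_lit 152) (nat_lit 0) (XT.nd (nat_lit 78) (nat_lit 152) (nat_lit 0) (XT.lf (nat_lit 0) (nat_lit 10027948439) (nat_lit 152) (nat_lit 5140324864) (nat_lit 152) (nat_lit 4402655010) (nat_lit 20) (nat_lit 4) (nat_lit 22) (nat_lit 5) (nat_lit 22) (nat_lit 4) (nat_lit 348) (nat_lit 217) (nat_lit 215)) (XT.nd (nat_lit 78) (nat_lit 152) (nat_lit 0) (XT.lf (nat_lit 0) (nat_lit 18142861285) (nat_lit 152) (nat_lit 1486008509) (nat_lit 152) (nat_lit 395538495) (nat_lit 20) (nat_lit 4) (nat_lit 22) (nat_lit 5) (nat_lit 22) (nat_lit 4) (nat_lit 349) (nat_lit 217) (nat_lit 214)) (XT.lf (nat_lit 0) (nat_lit 3654257237) (nat_lit 152) (nat_lit 14573335390) (nat_lit 0) (nat_lit 2263000498) (nat_lit 18) (nat_lit 5) (nat_lit 20) (nat_lit 4) (nat_lit 18) (nat_lit 4) (nat_lit 350) (nat_lit 217) (nat_lit 213)))) (XT.nd (nat_lit 78) (nat_lit 152) (nat_lit 0) (XT.lf (nat_lit 0)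 (nat_lit 7767893280) (nat_lit 152) (nat_lit 7150503625) (nat_lit 0) (nat_lit 6053774417) (nat_lit 18) (nat_lit 5) (nat_lit 20) (nat_lit 4) (nat_lit 18) (nat_lit 4) (nat_lit 351) (nat_lit 217) (nat_lit 212)) (XT.nd (nat_lit 78) (nat_lit 0) (nat_lit 0) (XT.lf (nat_lit 0) (nat_lit 356246978) (nat_lit 152) (nat_lit 11570946337) (nat_lit 152) (nat_lit 9543369102) (nat_lit 16) (nat_lit 4) (nat_lit 18) (nat_lit 5) (nat_lit 18) (nat_lit 4) (nat_lit 352) (nat_lit 217) (nat_lit 211)) (XT.lf (nat_lit 0) (nat_lit 8090489246) (nat_lit 152) (nat_lit 8112796787) (nat_lit 152) (nat_lit 5780891035) (nat_lit 16) (nat_lit 4) (nat_lit 18) (nat_lit 5) (nat_lit 18) (nat_lit 4) (nat_lit 353) (nat_lit 217) (nat_lit 210))))) (XT.nd (nat_lit 234) (nat_lit 76) (nat_lit 0) (XT.nd (nat_lit 78) (nat_lit 152) (nat_lit 0) (XT.lf (nat_lit 0) (nat_lit 15916672210) (nat_lit 152) (nat_lit 4613132637) (nat_lit 152) (nat_lit 1985762306)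 (nat_lit 16) (nat_lit 4) (nat_lit 18) (nat_lit 5) (nat_lit 18) (nat_lit 4) (nat_lit 354) (nat_lit 217) (nat_lit 209)) (XT.nd (nat_lit 78) (nat_lit 0) (nat_lit 0) (XT.lf (nat_lit 0) (nat_lit 773798411) (nat_lit 76) (nat_lit 1042963932) (nat_lit 152) (nat_lit 21247679348) (nat_lit 14) (nat_lit 5) (nat_lit 15) (nat_lit 5) (nat_lit 16) (nat_lit 4) (nat_lit 355) (nat_lit 217) (nat_lit 208)) (XT.lf (nat_lit 0) (nat_lit 5710032894) (nat_lit 152) (nat_lit 15308398658) (nat_lit 0) (nat_lit 2610292262) (nat_lit 14) (nat_lit 5) (nat_lit 16) (nat_lit 4) (nat_lit 14) (nat_lit 4) (nat_lit 356) (nat_lit 217) (nat_lit 207)))) (XT.nd (nat_lit 156) (nat_lit 76) (nat_lit 0) (XT.nd (nat_lit 78) (nat_lit 0) (nat_lit 0) (XT.lf (nat_lit 0) (nat_lit 9656606341) (nat_lit 152) (nat_lit 8260911461) (nat_lit 0) (nat_lit 6294349257) (nat_lit 14) (nat_lit 5) (nat_lit 16) (nat_lit 4) (nat_lit 14) (nat_lit 4) (nat_lit 357) (nat_lit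 217) (nat_lit 206)) (XT.lf (nat_lit 0) (nat_lit 13649905541) (nat_lit 152) (nat_lit 1131998084) (nat_lit 0) (nat_lit 10032778115) (nat_lit 14) (nat_lit 5) (nat_lit 16) (nat_lit 4) (nat_lit 14) (nat_lit 4) (nat_lit 358) (nat_lit 217) (nat_lit 205))) (XT.nd (nat_lit 78) (nat_lit 0) (nat_lit 0) (XT.lf (nat_lit 0) (nat_lit 6205665506) (nat_lit 76) (nat_lit 11547406931) (nat_lit 76) (nat_lit 7682832571) (nat_lit 13) (nat_lit 4) (nat_lit 14) (nat_lit 5) (nat_lit 14) (nat_lit 4) (nat_lit 359) (nat_lit 217) (nat_lit 204)) (XT.lf (nat_lit 0) (nat_lit 13661689155) (nat_lit 76) (nat_lit 8260317596) (nat_lit 76) (nat_lit 4155503495) (nat_lit 13) (nat_lit 4) (nat_lit 14) (nat_lit 5) (nat_lit 14) (nat_lit 4) (nat_lit 360) (nat_lit 217) (nat_lit 203))))))) (XT.nd (nat_lit 1014) (nat_lit 228) (nat_lit 0) (XT.nd (nat_lit 468) (nat_lit 152) (nat_lit 0) (XT.nd (nat_lit 234) (nat_lit 76) (nat_lit 0) (XT.nd (nat_lit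 78) (nat_lit 152) (nat_lit 0) (XT.lf (nat_lit 0) (nat_lit 21220058852) (nat_lit 76) (nat_lit 4929194368) (nat_lit 76) (nat_lit 591137800) (nat_lit 13) (nat_lit 4) (nat_lit 14) (nat_lit 5) (nat_lit 14) (nat_lit 4) (nat_lit 361) (nat_lit 217) (nat_lit 202)) (XT.nd (nat_lit 78) (nat_lit 0) (nat_lit 0) (XT.lf (nat_lit 0) (nat_lit 1461811210) (nat_lit 76) (nat_lit 1506817743) (nat_lit 152) (nat_lit 24455207047) (nat_lit 11) (nat_lit 5) (nat_lit 12) (nat_lit 5) (nat_lit 13) (nat_lit 4) (nat_lit 362) (nat_lit 217) (nat_lit 201)) (XT.lf (nat_lit 0) (nat_lit 6633788873) (nat_lit 152) (nat_lit 19504747863) (nat_lit 0) (nat_lit 1988780172) (nat_lit 11) (nat_lit 5) (nat_lit 13) (nat_lit 4) (nat_lit 11) (nat_lit 4) (nat_lit 363) (nat_lit 217) (nat_lit 200)))) (XT.nd (nat_lit 78) (nat_lit 76) (nat_lit 0) (XT.lf (nat_lit 0) (nat_lit 10360506584) (nat_lit 152) (nat_lit 12984604546) (nat_lit 0) (nat_lit 5508264971)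 (nat_lit 11) (nat_lit 5) (nat_lit 13) (nat_lit 4) (nat_lit 11) (nat_lit 4) (nat_lit 364) (nat_lit 217) (nat_lit 199)) (XT.nd (nat_lit 78) (nat_lit 76) (nat_lit 0) (XT.lf (nat_lit 0) (nat_lit 14137553989) (nat_lit 152) (nat_lit 6381413171) (nat_lit 0) (nat_lit 9084115375) (nat_lit 11) (nat_lit 5) (nat_lit 13) (nat_lit 4) (nat_lit 11) (nat_lit 4) (nat_lit 365) (nat_lit 217) (nat_lit 198)) (XT.lf (nat_lit 0) (nat_lit 316777507) (nat_lit 76) (nat_lit 17654498971) (nat_lit 76) (nat_lit 12405723462) (nat_lit 10) (nat_lit 4) (nat_lit 11) (nat_lit 5) (nat_lit 11) (nat_lit 4) (nat_lit 366) (nat_lit 217) (nat_lit 197))))) (XT.nd (nat_lit 234) (nat_lit 152) (nat_lit 0) (XT.nd (nat_lit 78) (nat_lit 0) (nat_lit 0) (XT.lf (nat_lit 0) (nat_lit 7238520067) (nat_lit 76) (nat_lit 14686947085) (nat_lit 76) (nat_lit 9248524106) (nat_lit 10) (nat_lit 4) (nat_lit 11) (nat_lit 5) (nat_lit 11) (nat_lit 4) (nat_lit 367)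 (nat_lit 217) (nat_lit 196)) (XT.nd (nat_lit 78) (nat_lit 0) (nat_lit 0) (XT.lf (nat_lit 0) (nat_lit 14262859997) (nat_lit 76) (nat_lit 11678158258) (nat_lit 76) (nat_lit 6055611522) (nat_lit 10) (nat_lit 4) (nat_lit 11) (nat_lit 5) (nat_lit 11) (nat_lit 4) (nat_lit 368) (nat_lit 217) (nat_lit 195)) (XT.lf (nat_lit 0) (nat_lit 21395935069) (nat_lit 76) (nat_lit 8625503451) (nat_lit 76) (nat_lit 2824195784) (nat_lit 10) (nat_lit 4) (nat_lit 11) (nat_lit 5) (nat_lit 11) (nat_lit 4) (nat_lit 369) (nat_lit 217) (nat_lit 194)))) (XT.nd (nat_lit 156) (nat_lit 0) (nat_lit 0) (XT.nd (nat_lit 78) (nat_lit 76) (nat_lit 0) (XT.lf (nat_lit 0) (nat_lit 439793911) (nat_lit 152) (nat_lit 5082080327) (nat_lit 76) (nat_lit 28199743101) (nat_lit 9) (nat_lit 5) (nat_lit 11) (nat_lit 5) (nat_lit 10) (nat_lit 4) (nat_lit 370) (nat_lit 217) (nat_lit 193)) (XT.lf (nat_lit 0) (nat_lit 1378289095) (nat_lit 76) (nat_lit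 2326957398) (nat_lit 152) (nat_lit 30919002626) (nat_lit 8) (nat_lit 5) (nat_lit 9) (nat_lit 5) (nat_lit 10) (nat_lit 4) (nat_lit 371) (nat_lit 217) (nat_lit 192))) (XT.nd (nat_lit 78) (nat_lit 0) (nat_lit 0) (XT.lf (nat_lit 0) (nat_lit 7077006700) (nat_lit 152) (nat_lit 27522968161) (nat_lit 0) (nat_lit 953751493) (nat_lit 8) (nat_lit 5) (nat_lit 10) (nat_lit 4) (nat_lit 8) (nat_lit 4) (nat_lit 372) (nat_lit 217) (nat_lit 191)) (XT.lf (nat_lit 0) (nat_lit 10521747424) (nat_lit 152) (nat_lit 21745910512) (nat_lit 0) (nat_lit 4244291470) (nat_lit 8) (nat_lit 5) (nat_lit 10) (nat_lit 4) (nat_lit 8) (nat_lit 4) (nat_lit 373) (nat_lit 217) (nat_lit 190)))))) (XT.nd (nat_lit 546) (nat_lit 152) (nat_lit 0) (XT.nd (nat_lit 234) (nat_lit 76) (nat_lit 0) (XT.nd (nat_lit 78) (nat_lit 0) (nat_lit 0) (XT.lf (nat_lit 0) (nat_lit 14020110497) (nat_lit 152) (nat_lit 15887371026) (nat_lit 0) (nat_lit 7592945078)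 (nat_lit 8) (nat_lit 5) (nat_lit 10) (nat_lit 4) (nat_lit 8) (nat_lit 4) (nat_lit 374) (nat_lit 217) (nat_lit 189)) (XT.nd (nat_lit 78) (nat_lit 0) (nat_lit 0) (XT.lf (nat_lit 0) (nat_lit 17575152741) (nat_lit 152) (nat_lit 9942230590) (nat_lit 0) (nat_lit 11002638327) (nat_lit 8) (nat_lit 5) (nat_lit 10) (nat_lit 4) (nat_lit 8) (nat_lit 4) (nat_lit 375) (nat_lit 217) (nat_lit 188)) (XT.lf (nat_lit 0) (nat_lit 21189980503) (nat_lit 152) (nat_lit 3905294423) (nat_lit 0) (nat_lit 14476350561) (nat_lit 8) (nat_lit 5) (nat_lit 10) (nat_lit 4) (nat_lit 8) (nat_lit 4) (nat_lit 376) (nat_lit 217) (nat_lit 187)))) (XT.nd (nat_lit 156) (nat_lit 0) (nat_lit 0) (XT.nd (nat_lit 78) (nat_lit 0) (nat_lit 0) (XT.lf (nat_lit 0) (nat_lit 2273068217) (nat_lit 76) (nat_lit 22616534276) (nat_lit 76) (nat_lit 15765898965) (nat_lit 7) (nat_lit 4) (nat_lit 8) (nat_lit 5) (nat_lit 8) (nat_lit 4) (nat_lit 377) (nat_lit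 217) (nat_lit 186)) (XT.lf (nat_lit 0) (nat_lit 8633622980) (nat_lit 76) (nat_lit 20061050617) (nat_lit 76) (nat_lit 13077400386) (nat_lit 7) (nat_lit 4) (nat_lit 8) (nat_lit 5) (nat_lit 8) (nat_lit 4) (nat_lit 378) (nat_lit 217) (nat_lit 185))) (XT.nd (nat_lit 78) (nat_lit 0) (nat_lit 0) (XT.lf (nat_lit 0) (nat_lit 15104204615) (nat_lit 76) (nat_lit 17466026819) (nat_lit 76) (nat_lit 10353235890) (nat_lit 7) (nat_lit 4) (nat_lit 8) (nat_lit 5) (nat_lit 8) (nat_lit 4) (nat_lit 379) (nat_lit 217) (nat_lit 184)) (XT.lf (nat_lit 0) (nat_lit 21690467028) (nat_lit 76) (nat_lit 14829195386) (nat_lit 76) (nat_lit 7591025137) (nat_lit 7) (nat_lit 4) (nat_lit 8) (nat_lit 5) (nat_lit 8) (nat_lit 4) (nat_lit 380) (nat_lit 217) (nat_lit 183))))) (XT.nd (nat_lit 234) (nat_lit 76) (nat_lit 0) (XT.nd (nat_lit 78) (nat_lit 76) (nat_lit 0) (XT.lf (nat_lit 0) (nat_lit 28398165205) (nat_lit 76) (nat_lit 12148252291)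 (nat_lit 76) (nat_lit 4788354547) (nat_lit 7) (nat_lit 4) (nat_lit 8) (nat_lit 5) (nat_lit 8) (nat_lit 4) (nat_lit 381) (nat_lit 217) (nat_lit 182)) (XT.nd (nat_lit 78) (nat_lit 76) (nat_lit 0) (XT.lf (nat_lit 0) (nat_lit 35233160242) (nat_lit 76) (nat_lit 9420854962) (nat_lit 76) (nat_lit 1942775184) (nat_lit 7) (nat_lit 4) (nat_lit 8) (nat_lit 5) (nat_lit 8) (nat_lit 4) (nat_lit 382) (nat_lit 217) (nat_lit 181)) (XT.lf (nat_lit 0) (nat_lit 929696595) (nat_lit 152) (nat_lit 5705535527) (nat_lit 76) (nat_lit 41262339757) (nat_lit 6) (nat_lit 5) (nat_lit 8) (nat_lit 5) (nat_lit 7) (nat_lit 4) (nat_lit 383) (nat_lit 217) (nat_lit 180)))) (XT.nd (nat_lit 156) (nat_lit 0) (nat_lit 0) (XT.nd (nat_lit 78) (nat_lit 0) (nat_lit 0) (XT.lf (nat_lit 0) (nat_lit 33256788) (nat_lit 76) (nat_lit 3778306909) (nat_lit 152) (nat_lit 45426379441) (nat_lit 5) (nat_lit 5) (nat_lit 6) (nat_lit 5) (nat_lit 7) (nat_lit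 4) (nat_lit 384) (nat_lit 217) (nat_lit 179)) (XT.lf (nat_lit 0) (nat_lit 5991402826) (nat_lit 76) (nat_lit 808485669) (nat_lit 152) (nat_lit 43818048109) (nat_lit 5) (nat_lit 5) (nat_lit 6) (nat_lit 5) (nat_lit 7) (nat_lit 4) (nat_lit 385) (nat_lit 217) (nat_lit 178))) (XT.nd (nat_lit 78) (nat_lit 0) (nat_lit 0) (XT.lf (nat_lit 0) (nat_lit 9862677946) (nat_lit 152) (nat_lit 40001211232) (nat_lit 0) (nat_lit 2175907047) (nat_lit 5) (nat_lit 5) (nat_lit 7) (nat_lit 4) (nat_lit 5) (nat_lit 4) (nat_lit 386) (nat_lit 217) (nat_lit 177)) (XT.lf (nat_lit 0) (nat_lit 12989610643) (nat_lit 152) (nat_lit 35311679535) (nat_lit 0) (nat_lit 5203864151) (nat_lit 5) (nat_lit 5) (nat_lit 7) (nat_lit 4) (nat_lit 5) (nat_lit 4) (nat_lit 387) (nat_lit 217) (nat_lit 176))))))))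
noncomputable def xc20 : XT := (XT.nd (nat_lit 37518) (nat_lit 0) (nat_lit 380) (XT.nd (nat_lit 1014) (nat_lit 76) (nat_lit 0) (XT.nd (nat_lit 468) (nat_lit 76) (nat_lit 0) (XT.nd (nat_lit 234) (nat_lit 0) (nat_lit 0) (XT.nd (nat_lit 78) (nat_lit 0) (nat_lit 0) (XT.lf (nat_lit 0) (nat_lit 16175647200) (nat_lit 152) (nat_lit 30546069380) (nat_lit 0) (nat_lit 8293807899) (nat_lit 5) (nat_lit 5) (nat_lit 7) (nat_lit 4) (nat_lit 5) (nat_lit 4) (nat_lit 388) (nat_lit 217) (nat_lit 175)) (XT.nd (nat_lit 78) (nat_lit 0) (nat_lit 0) (XT.lf (nat_lit 0) (nat_lit 19423571530) (nat_lit 152) (nat_lit 25700216642) (nat_lit 0) (nat_lit 11448438241) (nat_lit 5) (nat_lit 5) (nat_lit 7) (nat_lit 4) (nat_lit 5) (nat_lit 4) (nat_lit 389) (nat_lit 217) (nat_lit 174)) (XT.lf (nat_lit 0) (nat_lit 22736221627) (nat_lit 152) (nat_lit 20769887081) (nat_lit 0) (nat_lit 14670511650) (nat_lit 5) (nat_lit 5) (nat_lit 7) (nat_lit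 4) (nat_lit 5) (nat_lit 4) (nat_lit 390) (nat_lit 217) (nat_lit 173)))) (XT.nd (nat_lit 78) (nat_lit 0) (nat_lit 0) (XT.lf (nat_lit 0) (nat_lit 26116492040) (nat_lit 152) (nat_lit 15750772641) (nat_lit 0) (nat_lit 17962843530) (nat_lit 5) (nat_lit 5) (nat_lit 7) (nat_lit 4) (nat_lit 5) (nat_lit 4) (nat_lit 391) (nat_lit 217) (nat_lit 172)) (XT.nd (nat_lit 78) (nat_lit 0) (nat_lit 0) (XT.lf (nat_lit 0) (nat_lit 29567336401) (nat_lit 152) (nat_lit 10638487689) (nat_lit 0) (nat_lit 21328310677) (nat_lit 5) (nat_lit 5) (nat_lit 7) (nat_lit 4) (nat_lit 5) (nat_lit 4) (nat_lit 392) (nat_lit 217) (nat_lit 171)) (XT.lf (nat_lit 0) (nat_lit 33091770014) (nat_lit 152) (nat_lit 5428565179) (nat_lit 0) (nat_lit 24769853788) (nat_lit 5) (nat_lit 5) (nat_lit 7) (nat_lit 4) (nat_lit 5) (nat_lit 4) (nat_lit 393) (nat_lit 217) (nat_lit 170))))) (XT.nd (nat_lit 234) (nat_lit 0) (nat_lit 0) (XT.nd (nat_lit 78) (nat_lit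 76) (nat_lit 0) (XT.lf (nat_lit 0) (nat_lit 36692872478) (nat_lit 152) (nat_lit 116452753) (nat_lit 0) (nat_lit 28290480039) (nat_lit 5) (nat_lit 5) (nat_lit 7) (nat_lit 4) (nat_lit 5) (nat_lit 4) (nat_lit 394) (nat_lit 217) (nat_lit 169)) (XT.nd (nat_lit 78) (nat_lit 0) (nat_lit 0) (XT.lf (nat_lit 0) (nat_lit 5408021214) (nat_lit 76) (nat_lit 35017754383) (nat_lit 76) (nat_lit 26537229697) (nat_lit 4) (nat_lit 4) (nat_lit 5) (nat_lit 5) (nat_lit 5) (nat_lit 4) (nat_lit 395) (nat_lit 217) (nat_lit 168)) (XT.lf (nat_lit 0) (nat_lit 11048599782) (nat_lit 76) (nat_lit 33195346202) (nat_lit 76) (nat_lit 24638964965) (nat_lit 4) (nat_lit 4) (nat_lit 5) (nat_lit 5) (nat_lit 5) (nat_lit 4) (nat_lit 396) (nat_lit 217) (nat_lit 167)))) (XT.nd (nat_lit 156) (nat_lit 0) (nat_lit 0) (XT.nd (nat_lit 78) (nat_lit 0) (nat_lit 0) (XT.lf (nat_lit 0) (nat_lit 16807893972) (nat_lit 76) (nat_lit 31341684236) (nat_lit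 76) (nat_lit 22711655863) (nat_lit 4) (nat_lit 4) (nat_lit 5) (nat_lit 5) (nat_lit 5) (nat_lit 4) (nat_lit 397) (nat_lit 217) (nat_lit 166)) (XT.lf (nat_lit 0) (nat_lit 22690936178) (nat_lit 76) (nat_lit 29455148782) (nat_lit 76) (nat_lit 20753618335) (nat_lit 4) (nat_lit 4) (nat_lit 5) (nat_lit 5) (nat_lit 5) (nat_lit 4) (nat_lit 398) (nat_lit 217) (nat_lit 165))) (XT.nd (nat_lit 78) (nat_lit 0) (nat_lit 0) (XT.lf (nat_lit 0) (nat_lit 28702866922) (nat_lit 76) (nat_lit 27534091409) (nat_lit 76) (nat_lit 18763141473) (nat_lit 4) (nat_lit 4) (nat_lit 5) (nat_lit 5) (nat_lit 5) (nat_lit 4) (nat_lit 399) (nat_lit 217) (nat_lit 164)) (XT.lf (nat_lit 0) (nat_lit 34848939347) (nat_lit 76) (nat_lit 25576833525) (nat_lit 76) (nat_lit 16738486026) (nat_lit 4) (nat_lit 4) (nat_lit 5) (nat_lit 5) (nat_lit 5) (nat_lit 4) (nat_lit 400) (nat_lit 217) (nat_lit 163)))))) (XT.nd (nat_lit 468) (nat_lit 76) (nat_lit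 0) (XT.nd (nat_lit 234) (nat_lit 0) (nat_lit 0) (XT.nd (nat_lit 78) (nat_lit 0) (nat_lit 0) (XT.lf (nat_lit 0) (nat_lit 41134523808) (nat_lit 76) (nat_lit 23581664903) (nat_lit 76) (nat_lit 14677882878) (nat_lit 4) (nat_lit 4) (nat_lit 5) (nat_lit 5) (nat_lit 5) (nat_lit 4) (nat_lit 401) (nat_lit 217) (nat_lit 162)) (XT.nd (nat_lit 78) (nat_lit 0) (nat_lit 0) (XT.lf (nat_lit 0) (nat_lit 47565112563) (nat_lit 76) (nat_lit 21546842193) (nat_lit 76) (nat_lit 12579531501) (nat_lit 4) (nat_lit 4) (nat_lit 5) (nat_lit 5) (nat_lit 5) (nat_lit 4) (nat_lit 402) (nat_lit 217) (nat_lit 161)) (XT.lf (nat_lit 0) (nat_lit 54146324573) (nat_lit 76) (nat_lit 19470587395) (nat_lit 76) (nat_lit 10441598386) (nat_lit 4) (nat_lit 4) (nat_lit 5) (nat_lit 5) (nat_lit 5) (nat_lit 4) (nat_lit 403) (nat_lit 217) (nat_lit 160)))) (XT.nd (nat_lit 78) (nat_lit 0) (nat_lit 0) (XT.lf (nat_lit 0) (nat_lit 60883910412) (nat_lit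 76) (nat_lit 17351086304) (nat_lit 76) (nat_lit 8262215434) (nat_lit 4) (nat_lit 4) (nat_lit 5) (nat_lit 5) (nat_lit 5) (nat_lit 4) (nat_lit 404) (nat_lit 217) (nat_lit 159)) (XT.nd (nat_lit 78) (nat_lit 0) (nat_lit 0) (XT.lf (nat_lit 0) (nat_lit 67783757290) (nat_lit 76) (nat_lit 15186486930) (nat_lit 76) (nat_lit 6039478330) (nat_lit 4) (nat_lit 4) (nat_lit 5) (nat_lit 5) (nat_lit 5) (nat_lit 4) (nat_lit 405) (nat_lit 217) (nat_lit 158)) (XT.lf (nat_lit 0) (nat_lit 74851894200) (nat_lit 76) (nat_lit 12974897875) (nat_lit 76) (nat_lit 3771444878) (nat_lit 4) (nat_lit 4) (nat_lit 5) (nat_lit 5) (nat_lit 5) (nat_lit 4) (nat_lit 406) (nat_lit 217) (nat_lit 157))))) (XT.nd (nat_lit 35724) (nat_lit 0) (nat_lit 1292) (XT.nd (nat_lit 78) (nat_lit 76) (nat_lit 0) (XT.lf (nat_lit 0) (nat_lit 82094497184) (nat_lit 76) (nat_lit 10714386683) (nat_lit 76) (nat_lit 1456133300) (nat_lit 4) (nat_lit 4) (nat_lit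 5) (nat_lit 5) (nat_lit 5) (nat_lit 4) (nat_lit 407) (nat_lit 217) (nat_lit 156)) (XT.nd (nat_lit 78) (nat_lit 0) (nat_lit 0) (XT.lf (nat_lit 0) (nat_lit 890751783) (nat_lit 152) (nat_lit 7503231521) (nat_lit 76) (nat_lit 88618148101) (nat_lit 3) (nat_lit 5) (nat_lit 5) (nat_lit 5) (nat_lit 4) (nat_lit 4) (nat_lit 408) (nat_lit 217) (nat_lit 155)) (XT.lf (nat_lit 0) (nat_lit 3259587479) (nat_lit 152) (nat_lit 2746149677) (nat_lit 76) (nat_lit 93836070381) (nat_lit 3) (nat_lit 5) (nat_lit 5) (nat_lit 5) (nat_lit 4) (nat_lit 4) (nat_lit 409) (nat_lit 217) (nat_lit 154)))) (XT.nd (nat_lit 156) (nat_lit 152) (nat_lit 0) (XT.nd (nat_lit 78) (nat_lit 152) (nat_lit 0) (XT.lf (nat_lit 0) (nat_lit 7360245357) (nat_lit 152) (nat_lit 795167710) (nat_lit 152) (nat_lit 795167710) (nat_lit 24) (nat_lit 4) (nat_lit 26) (nat_lit 5) (nat_lit 26) (nat_lit 4) (nat_lit 344) (nat_lit 218) (nat_lit 218)) (XT.lf (nat_lit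 0) (nat_lit 2570075872) (nat_lit 152) (nat_lit 13544782581) (nat_lit 0) (nat_lit 2184561612) (nat_lit 22) (nat_lit 5) (nat_lit 24) (nat_lit 4) (nat_lit 22) (nat_lit 4) (nat_lit 345) (nat_lit 218) (nat_lit 217))) (XT.nd (nat_lit 78) (nat_lit 152) (nat_lit 0) (XT.lf (nat_lit 0) (nat_lit 6782221363) (nat_lit 152) (nat_lit 5905784240) (nat_lit 0) (nat_lit 6022421413) (nat_lit 22) (nat_lit 5) (nat_lit 24) (nat_lit 4) (nat_lit 22) (nat_lit 4) (nat_lit 346) (nat_lit 218) (nat_lit 216)) (XT.lf (nat_lit 0) (nat_lit 1844476069) (nat_lit 152) (nat_lit 9207289833) (nat_lit 152) (nat_lit 8084105719) (nat_lit 20) (nat_lit 4) (nat_lit 22) (nat_lit 5) (nat_lit 22) (nat_lit 4) (nat_lit 347) (nat_lit 218) (nat_lit 215))))))) (XT.nd (nat_lit 1014) (nat_lit 380) (nat_lit 0) (XT.nd (nat_lit 468) (nat_lit 228) (nat_lit 0) (XT.nd (nat_lit 234) (nat_lit 152) (nat_lit 0) (XT.nd (nat_lit 78) (nat_lit 152) (nat_lit 0) (XT.lf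 (nat_lit 0) (nat_lit 9795915451) (nat_lit 152) (nat_lit 5627482854) (nat_lit 152) (nat_lit 4151498580) (nat_lit 20) (nat_lit 4) (nat_lit 22) (nat_lit 5) (nat_lit 22) (nat_lit 4) (nat_lit 348) (nat_lit 218) (nat_lit 214)) (XT.nd (nat_lit 78) (nat_lit 152) (nat_lit 0) (XT.lf (nat_lit 0) (nat_lit 17837945076) (nat_lit 152) (nat_lit 2005093521) (nat_lit 152) (nat_lit 186584820) (nat_lit 20) (nat_lit 4) (nat_lit 22) (nat_lit 5) (nat_lit 22) (nat_lit 4) (nat_lit 349) (nat_lit 218) (nat_lit 213)) (XT.lf (nat_lit 0) (nat_lit 3809888552) (nat_lit 152) (nat_lit 14965869635) (nat_lit 0) (nat_lit 1721484000) (nat_lit 18) (nat_lit 5) (nat_lit 20) (nat_lit 4) (nat_lit 18) (nat_lit 4) (nat_lit 350) (nat_lit 218) (nat_lit 212)))) (XT.nd (nat_lit 78) (nat_lit 152) (nat_lit 0) (XT.lf (nat_lit 0) (nat_lit 7883539594) (nat_lit 152) (nat_lit 7614820026) (nat_lit 0) (nat_lit 5481676670) (nat_lit 18) (nat_lit 5) (nat_lit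 20) (nat_lit 4) (nat_lit 18) (nat_lit 4) (nat_lit 351) (nat_lit 218) (nat_lit 211)) (XT.nd (nat_lit 78) (nat_lit 152) (nat_lit 0) (XT.lf (nat_lit 0) (nat_lit 12000594778) (nat_lit 152) (nat_lit 184712496) (nat_lit 0) (nat_lit 9294403336) (nat_lit 18) (nat_lit 5) (nat_lit 20) (nat_lit 4) (nat_lit 18) (nat_lit 4) (nat_lit 352) (nat_lit 218) (nat_lit 210)) (XT.lf (nat_lit 0) (nat_lit 7476845467) (nat_lit 152) (nat_lit 8759678074) (nat_lit 152) (nat_lit 5758022053) (nat_lit 16) (nat_lit 4) (nat_lit 18) (nat_lit 5) (nat_lit 18) (nat_lit 4) (nat_lit 353) (nat_lit 218) (nat_lit 209))))) (XT.nd (nat_lit 234) (nat_lit 76) (nat_lit 0) (XT.nd (nat_lit 78) (nat_lit 152) (nat_lit 0) (XT.lf (nat_lit 0) (nat_lit 15236030214) (nat_lit 152) (nat_lit 5289776173) (nat_lit 152) (nat_lit 2001261337) (nat_lit 16) (nat_lit 4) (nat_lit 18) (nat_lit 5) (nat_lit 18) (nat_lit 4) (nat_lit 354) (nat_lit 218) (nat_lit 208))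 (XT.nd (nat_lit 78) (nat_lit 0) (nat_lit 0) (XT.lf (nat_lit 0) (nat_lit 935683) (nat_lit 76) (nat_lit 1756677234) (nat_lit 152) (nat_lit 21319666507) (nat_lit 14) (nat_lit 5) (nat_lit 15) (nat_lit 5) (nat_lit 16) (nat_lit 4) (nat_lit 355) (nat_lit 218) (nat_lit 207)) (XT.lf (nat_lit 0) (nat_lit 5607657501) (nat_lit 152) (nat_lit 16153198268) (nat_lit 0) (nat_lit 1882016253) (nat_lit 14) (nat_lit 5) (nat_lit 16) (nat_lit 4) (nat_lit 14) (nat_lit 4) (nat_lit 356) (nat_lit 218) (nat_lit 206)))) (XT.nd (nat_lit 156) (nat_lit 76) (nat_lit 0) (XT.nd (nat_lit 78) (nat_lit 0) (nat_lit 0) (XT.lf (nat_lit 0) (nat_lit 9518924815) (nat_lit 152) (nat_lit 9169749709) (nat_lit 0) (nat_lit 5538413225) (nat_lit 14) (nat_lit 5) (nat_lit 16) (nat_lit 4) (nat_lit 14) (nat_lit 4) (nat_lit 357) (nat_lit 218) (nat_lit 205)) (XT.lf (nat_lit 0) (nat_lit 13477946216) (nat_lit 152) (nat_lit 2103009768) (nat_lit 0) (nat_lit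 9249987692) (nat_lit 14) (nat_lit 5) (nat_lit 16) (nat_lit 4) (nat_lit 14) (nat_lit 4) (nat_lit 358) (nat_lit 218) (nat_lit 204))) (XT.nd (nat_lit 78) (nat_lit 0) (nat_lit 0) (XT.lf (nat_lit 0) (nat_lit 5153764894) (nat_lit 76) (nat_lit 12383957288) (nat_lit 76) (nat_lit 7915759023) (nat_lit 13) (nat_lit 4) (nat_lit 14) (nat_lit 5) (nat_lit 14) (nat_lit 4) (nat_lit 359) (nat_lit 218) (nat_lit 203)) (XT.lf (nat_lit 0) (nat_lit 12550017774) (nat_lit 76) (nat_lit 9123754056) (nat_lit 76) (nat_lit 4422313322) (nat_lit 13) (nat_lit 4) (nat_lit 14) (nat_lit 5) (nat_lit 14) (nat_lit 4) (nat_lit 360) (nat_lit 218) (nat_lit 202)))))) (XT.nd (nat_lit 546) (nat_lit 152) (nat_lit 0) (XT.nd (nat_lit 234) (nat_lit 76) (nat_lit 0) (XT.nd (nat_lit 78) (nat_lit 152) (nat_lit 0) (XT.lf (nat_lit 0) (nat_lit 20050357599) (nat_lit 76) (nat_lit 5818733840) (nat_lit 76) (nat_lit 890844108) (nat_lit 13) (nat_lit 4) (nat_lit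 14) (nat_lit 5) (nat_lit 14) (nat_lit 4) (nat_lit 361) (nat_lit 218) (nat_lit 201)) (XT.nd (nat_lit 78) (nat_lit 0) (nat_lit 0) (XT.lf (nat_lit 0) (nat_lit 193727458) (nat_lit 76) (nat_lit 2437538839) (nat_lit 152) (nat_lit 24813516936) (nat_lit 11) (nat_lit 5) (nat_lit 12) (nat_lit 5) (nat_lit 13) (nat_lit 4) (nat_lit 362) (nat_lit 218) (nat_lit 200)) (XT.lf (nat_lit 0) (nat_lit 6256289412) (nat_lit 152) (nat_lit 20841942005) (nat_lit 0) (nat_lit 1051247640) (nat_lit 11) (nat_lit 5) (nat_lit 13) (nat_lit 4) (nat_lit 11) (nat_lit 4) (nat_lit 363) (nat_lit 218) (nat_lit 199)))) (XT.nd (nat_lit 156) (nat_lit 76) (nat_lit 0) (XT.nd (nat_lit 78) (nat_lit 0) (nat_lit 0) (XT.lf (nat_lit 0) (nat_lit 9952725430) (nat_lit 152) (nat_lit 14377245112) (nat_lit 0) (nat_lit 4546486656) (nat_lit 11) (nat_lit 5) (nat_lit 13) (nat_lit 4) (nat_lit 11) (nat_lit 4) (nat_lit 364) (nat_lit 218) (nat_lit 198)) (XT.lf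 (nat_lit 0) (nat_lit 13700373132) (nat_lit 152) (nat_lit 7827885219) (nat_lit 0) (nat_lit 8098797463) (nat_lit 11) (nat_lit 5) (nat_lit 13) (nat_lit 4) (nat_lit 11) (nat_lit 4) (nat_lit 365) (nat_lit 218) (nat_lit 197))) (XT.nd (nat_lit 78) (nat_lit 76) (nat_lit 0) (XT.lf (nat_lit 0) (nat_lit 17502507162) (nat_lit 152) (nat_lit 1188139583) (nat_lit 0) (nat_lit 11711284023) (nat_lit 11) (nat_lit 5) (nat_lit 13) (nat_lit 4) (nat_lit 11) (nat_lit 4) (nat_lit 366) (nat_lit 218) (nat_lit 196)) (XT.lf (nat_lit 0) (nat_lit 5658205483) (nat_lit 76) (nat_lit 15758634423) (nat_lit 76) (nat_lit 9783287526) (nat_lit 10) (nat_lit 4) (nat_lit 11) (nat_lit 5) (nat_lit 11) (nat_lit 4) (nat_lit 367) (nat_lit 218) (nat_lit 195))))) (XT.nd (nat_lit 234) (nat_lit 152) (nat_lit 0) (XT.nd (nat_lit 78) (nat_lit 0) (nat_lit 0) (XT.lf (nat_lit 0) (nat_lit 12632301543) (nat_lit 76) (nat_lit 12772701598) (nat_lit 76) (nat_lit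 6618593771) (nat_lit 10) (nat_lit 4) (nat_lit 11) (nat_lit 5) (nat_lit 11) (nat_lit 4) (nat_lit 368) (nat_lit 218) (nat_lit 194)) (XT.nd (nat_lit 78) (nat_lit 0) (nat_lit 0) (XT.lf (nat_lit 0) (nat_lit 19716596160) (nat_lit 76) (nat_lit 9742237083) (nat_lit 76) (nat_lit 3414574956) (nat_lit 10) (nat_lit 4) (nat_lit 11) (nat_lit 5) (nat_lit 11) (nat_lit 4) (nat_lit 369) (nat_lit 218) (nat_lit 193)) (XT.lf (nat_lit 0) (nat_lit 26917279493) (nat_lit 76) (nat_lit 6664592901) (nat_lit 76) (nat_lit 168431453) (nat_lit 10) (nat_lit 4) (nat_lit 11) (nat_lit 5) (nat_lit 11) (nat_lit 4) (nat_lit 370) (nat_lit 218) (nat_lit 192)))) (XT.nd (nat_lit 156) (nat_lit 0) (nat_lit 0) (XT.nd (nat_lit 78) (nat_lit 76) (nat_lit 0) (XT.lf (nat_lit 0) (nat_lit 3061738573) (nat_lit 152) (nat_lit 444423718) (nat_lit 76) (nat_lit 31147987274) (nat_lit 9) (nat_lit 5) (nat_lit 11) (nat_lit 5) (nat_lit 10) (nat_lit 4) (nat_lit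 371) (nat_lit 218) (nat_lit 191)) (XT.lf (nat_lit 0) (nat_lit 6162794836) (nat_lit 76) (nat_lit 231970990) (nat_lit 152) (nat_lit 29190031006) (nat_lit 8) (nat_lit 5) (nat_lit 9) (nat_lit 5) (nat_lit 10) (nat_lit 4) (nat_lit 372) (nat_lit 218) (nat_lit 190))) (XT.nd (nat_lit 78) (nat_lit 0) (nat_lit 0) (XT.lf (nat_lit 0) (nat_lit 9812784156) (nat_lit 152) (nat_lit 23687950901) (nat_lit 0) (nat_lit 3043094310) (nat_lit 8) (nat_lit 5) (nat_lit 10) (nat_lit 4) (nat_lit 8) (nat_lit 4) (nat_lit 373) (nat_lit 218) (nat_lit 189)) (XT.lf (nat_lit 0) (nat_lit 13287368056) (nat_lit 152) (nat_lit 17873330250) (nat_lit 0) (nat_lit 6372329215) (nat_lit 8) (nat_lit 5) (nat_lit 10) (nat_lit 4) (nat_lit 8) (nat_lit 4) (nat_lit 374) (nat_lit 218) (nat_lit 188))))))))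
noncomputable def xc21 : XT := (XT.nd (nat_lit 2028) (nat_lit 76) (nat_lit 0) (XT.nd (nat_lit 1014) (nat_lit 76) (nat_lit 0) (XT.nd (nat_lit 468) (nat_lit 152) (nat_lit 0) (XT.nd (nat_lit 234) (nat_lit 0) (nat_lit 0) (XT.nd (nat_lit 78) (nat_lit 76) (nat_lit 0) (XT.lf (nat_lit 0) (nat_lit 16819323724) (nat_lit 152) (nat_lit 11970829460) (nat_lit 0) (nat_lit 9763169355) (nat_lit 8) (nat_lit 5) (nat_lit 10) (nat_lit 4) (nat_lit 8) (nat_lit 4) (nat_lit 375) (nat_lit 218) (nat_lit 187)) (XT.nd (nat_lit 78) (nat_lit 76) (nat_lit 0) (XT.lf (nat_lit 0) (nat_lit 20411737335) (nat_lit 152) (nat_lit 5975291007) (nat_lit 0) (nat_lit 13218577598) (nat_lit 8) (nat_lit 5) (nat_lit 10) (nat_lit 4) (nat_lit 8) (nat_lit 4) (nat_lit 376) (nat_lit 218) (nat_lit 186)) (XT.lf (nat_lit 0) (nat_lit 120882788) (nat_lit 76) (nat_lit 23948027101) (nat_lit 76) (nat_lit 16621852444) (nat_lit 7) (nat_lit 4) (nat_lit 8) (nat_lit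 5) (nat_lit 8) (nat_lit 4) (nat_lit 377) (nat_lit 218) (nat_lit 185)))) (XT.nd (nat_lit 78) (nat_lit 0) (nat_lit 0) (XT.lf (nat_lit 0) (nat_lit 6441639634) (nat_lit 76) (nat_lit 21410831310) (nat_lit 76) (nat_lit 13955515954) (nat_lit 7) (nat_lit 4) (nat_lit 8) (nat_lit 5) (nat_lit 8) (nat_lit 4) (nat_lit 378) (nat_lit 218) (nat_lit 184)) (XT.nd (nat_lit 78) (nat_lit 0) (nat_lit 0) (XT.lf (nat_lit 0) (nat_lit 12873582515) (nat_lit 76) (nat_lit 18833562724) (nat_lit 76) (nat_lit 11252868048) (nat_lit 7) (nat_lit 4) (nat_lit 8) (nat_lit 5) (nat_lit 8) (nat_lit 4) (nat_lit 379) (nat_lit 218) (nat_lit 183)) (XT.lf (nat_lit 0) (nat_lit 19422331574) (nat_lit 76) (nat_lit 16213969360) (nat_lit 76) (nat_lit 8511547189) (nat_lit 7) (nat_lit 4) (nat_lit 8) (nat_lit 5) (nat_lit 8) (nat_lit 4) (nat_lit 380) (nat_lit 218) (nat_lit 182))))) (XT.nd (nat_lit 234) (nat_lit 152) (nat_lit 0) (XT.nd (nat_lit 78)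 (nat_lit 0) (nat_lit 0) (XT.lf (nat_lit 0) (nat_lit 26093609019) (nat_lit 76) (nat_lit 13549762254) (nat_lit 76) (nat_lit 5729158050) (nat_lit 7) (nat_lit 4) (nat_lit 8) (nat_lit 5) (nat_lit 8) (nat_lit 4) (nat_lit 381) (nat_lit 218) (nat_lit 181)) (XT.nd (nat_lit 78) (nat_lit 0) (nat_lit 0) (XT.lf (nat_lit 0) (nat_lit 32893244123) (nat_lit 76) (nat_lit 10838613458) (nat_lit 76) (nat_lit 2903269415) (nat_lit 7) (nat_lit 4) (nat_lit 8) (nat_lit 5) (nat_lit 8) (nat_lit 4) (nat_lit 382) (nat_lit 218) (nat_lit 180)) (XT.lf (nat_lit 0) (nat_lit 39827178313) (nat_lit 76) (nat_lit 8078154007) (nat_lit 76) (nat_lit 31412062) (nat_lit 7) (nat_lit 4) (nat_lit 8) (nat_lit 5) (nat_lit 8) (nat_lit 4) (nat_lit 383) (nat_lit 218) (nat_lit 179)))) (XT.nd (nat_lit 156) (nat_lit 0) (nat_lit 0) (XT.nd (nat_lit 78) (nat_lit 76) (nat_lit 0) (XT.lf (nat_lit 0) (nat_lit 2832550097) (nat_lit 152) (nat_lit 2404818549)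 (nat_lit 76) (nat_lit 44040317069) (nat_lit 6) (nat_lit 5) (nat_lit 8) (nat_lit 5) (nat_lit 7) (nat_lit 4) (nat_lit 384) (nat_lit 218) (nat_lit 178)) (XT.lf (nat_lit 0) (nat_lit 3472099466) (nat_lit 76) (nat_lit 2307209853) (nat_lit 152) (nat_lit 44879622148) (nat_lit 5) (nat_lit 5) (nat_lit 6) (nat_lit 5) (nat_lit 7) (nat_lit 4) (nat_lit 385) (nat_lit 218) (nat_lit 177))) (XT.nd (nat_lit 78) (nat_lit 0) (nat_lit 0) (XT.lf (nat_lit 0) (nat_lit 8810083621) (nat_lit 152) (nat_lit 42579883943) (nat_lit 0) (nat_lit 691789142) (nat_lit 5) (nat_lit 5) (nat_lit 7) (nat_lit 4) (nat_lit 5) (nat_lit 4) (nat_lit 386) (nat_lit 218) (nat_lit 176)) (XT.lf (nat_lit 0) (nat_lit 11919920692) (nat_lit 152) (nat_lit 37922178597) (nat_lit 0) (nat_lit 3705533405) (nat_lit 5) (nat_lit 5) (nat_lit 7) (nat_lit 4) (nat_lit 5) (nat_lit 4) (nat_lit 387) (nat_lit 218) (nat_lit 175)))))) (XT.nd (nat_lit 468) (nat_lit 76)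 (nat_lit 0) (XT.nd (nat_lit 234) (nat_lit 0) (nat_lit 0) (XT.nd (nat_lit 78) (nat_lit 0) (nat_lit 0) (XT.lf (nat_lit 0) (nat_lit 15089359553) (nat_lit 152) (nat_lit 33187467813) (nat_lit 0) (nat_lit 6781678276) (nat_lit 5) (nat_lit 5) (nat_lit 7) (nat_lit 4) (nat_lit 5) (nat_lit 4) (nat_lit 388) (nat_lit 218) (nat_lit 174)) (XT.nd (nat_lit 78) (nat_lit 0) (nat_lit 0) (XT.lf (nat_lit 0) (nat_lit 18321169616) (nat_lit 152) (nat_lit 28371614464) (nat_lit 0) (nat_lit 9922911651) (nat_lit 5) (nat_lit 5) (nat_lit 7) (nat_lit 4) (nat_lit 5) (nat_lit 4) (nat_lit 389) (nat_lit 218) (nat_lit 173)) (XT.lf (nat_lit 0) (nat_lit 21618174793) (nat_lit 152) (nat_lit 23470410522) (nat_lit 0) (nat_lit 13131978296) (nat_lit 5) (nat_lit 5) (nat_lit 7) (nat_lit 4) (nat_lit 5) (nat_lit 4) (nat_lit 390) (nat_lit 218) (nat_lit 172)))) (XT.nd (nat_lit 78) (nat_lit 0) (nat_lit 0) (XT.lf (nat_lit 0) (nat_lit 24983255962)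 (nat_lit 152) (nat_lit 18479573383) (nat_lit 0) (nat_lit 16411682250) (nat_lit 5) (nat_lit 5) (nat_lit 7) (nat_lit 4) (nat_lit 5) (nat_lit 4) (nat_lit 391) (nat_lit 218) (nat_lit 171)) (XT.nd (nat_lit 78) (nat_lit 0) (nat_lit 0) (XT.lf (nat_lit 0) (nat_lit 28419353486) (nat_lit 152) (nat_lit 13394742121) (nat_lit 0) (nat_lit 19764889274) (nat_lit 5) (nat_lit 5) (nat_lit 7) (nat_lit 4) (nat_lit 5) (nat_lit 4) (nat_lit 392) (nat_lit 218) (nat_lit 170)) (XT.lf (nat_lit 0) (nat_lit 31929469780) (nat_lit 152) (nat_lit 8211473680) (nat_lit 0) (nat_lit 23194529353) (nat_lit 5) (nat_lit 5) (nat_lit 7) (nat_lit 4) (nat_lit 5) (nat_lit 4) (nat_lit 393) (nat_lit 218) (nat_lit 169))))) (XT.nd (nat_lit 234) (nat_lit 0) (nat_lit 0) (XT.nd (nat_lit 78) (nat_lit 76) (nat_lit 0) (XT.lf (nat_lit 0) (nat_lit 35516671936) (nat_lit 152) (nat_lit 2925238989) (nat_lit 0) (nat_lit 26703599262) (nat_lit 5) (nat_lit 5)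 (nat_lit 7) (nat_lit 4) (nat_lit 5) (nat_lit 4) (nat_lit 394) (nat_lit 218) (nat_lit 168)) (XT.nd (nat_lit 78) (nat_lit 0) (nat_lit 0) (XT.lf (nat_lit 0) (nat_lit 2517710592) (nat_lit 76) (nat_lit 36690585585) (nat_lit 76) (nat_lit 27801656361) (nat_lit 4) (nat_lit 4) (nat_lit 5) (nat_lit 5) (nat_lit 5) (nat_lit 4) (nat_lit 395) (nat_lit 218) (nat_lit 167)) (XT.lf (nat_lit 0) (nat_lit 8133411458) (nat_lit 76) (nat_lit 34879713591) (nat_lit 76) (nat_lit 25917137231) (nat_lit 4) (nat_lit 4) (nat_lit 5) (nat_lit 5) (nat_lit 5) (nat_lit 4) (nat_lit 396) (nat_lit 218) (nat_lit 166)))) (XT.nd (nat_lit 156) (nat_lit 0) (nat_lit 0) (XT.nd (nat_lit 78) (nat_lit 0) (nat_lit 0) (XT.lf (nat_lit 0) (nat_lit 13868552540) (nat_lit 76) (nat_lit 33037251808) (nat_lit 76) (nat_lit 24003173373) (nat_lit 4) (nat_lit 4) (nat_lit 5) (nat_lit 5) (nat_lit 5) (nat_lit 4) (nat_lit 397) (nat_lit 218) (nat_lit 165)) (XT.lf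 (nat_lit 0) (nat_lit 19728145126) (nat_lit 76) (nat_lit 31161590316) (nat_lit 76) (nat_lit 22058092393) (nat_lit 4) (nat_lit 4) (nat_lit 5) (nat_lit 5) (nat_lit 5) (nat_lit 4) (nat_lit 398) (nat_lit 218) (nat_lit 164))) (XT.nd (nat_lit 78) (nat_lit 0) (nat_lit 0) (XT.lf (nat_lit 0) (nat_lit 25717309248) (nat_lit 76) (nat_lit 29251090190) (nat_lit 76) (nat_lit 20080194704) (nat_lit 4) (nat_lit 4) (nat_lit 5) (nat_lit 5) (nat_lit 5) (nat_lit 4) (nat_lit 399) (nat_lit 218) (nat_lit 163)) (XT.lf (nat_lit 0) (nat_lit 31841278158) (nat_lit 76) (nat_lit 27304082059) (nat_lit 76) (nat_lit 18067752046) (nat_lit 4) (nat_lit 4) (nat_lit 5) (nat_lit 5) (nat_lit 5) (nat_lit 4) (nat_lit 400) (nat_lit 218) (nat_lit 162))))))) (XT.nd (nat_lit 36348) (nat_lit 0) (nat_lit 760) (XT.nd (nat_lit 468) (nat_lit 76) (nat_lit 0) (XT.nd (nat_lit 234) (nat_lit 0) (nat_lit 0) (XT.nd (nat_lit 78) (nat_lit 0) (nat_lit 0) (XT.lf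 (nat_lit 0) (nat_lit 38105402894) (nat_lit 76) (nat_lit 25318864654) (nat_lit 76) (nat_lit 16019005975) (nat_lit 4) (nat_lit 4) (nat_lit 5) (nat_lit 5) (nat_lit 5) (nat_lit 4) (nat_lit 401) (nat_lit 218) (nat_lit 161)) (XT.nd (nat_lit 78) (nat_lit 0) (nat_lit 0) (XT.lf (nat_lit 0) (nat_lit 44515156966) (nat_lit 76) (nat_lit 23293703320) (nat_lit 76) (nat_lit 13932166323) (nat_lit 4) (nat_lit 4) (nat_lit 5) (nat_lit 5) (nat_lit 5) (nat_lit 4) (nat_lit 402) (nat_lit 218) (nat_lit 160)) (XT.lf (nat_lit 0) (nat_lit 51076141128) (nat_lit 76) (nat_lit 21226828498) (nat_lit 76) (nat_lit 11805409640) (nat_lit 4) (nat_lit 4) (nat_lit 5) (nat_lit 5) (nat_lit 5) (nat_lit 4) (nat_lit 403) (nat_lit 218) (nat_lit 159)))) (XT.nd (nat_lit 78) (nat_lit 0) (nat_lit 0) (XT.lf (nat_lit 0) (nat_lit 57794088279) (nat_lit 76) (nat_lit 19116434180) (nat_lit 76) (nat_lit 9636877593) (nat_lit 4) (nat_lit 4) (nat_lit 5)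 (nat_lit 5) (nat_lit 5) (nat_lit 4) (nat_lit 404) (nat_lit 218) (nat_lit 158)) (XT.nd (nat_lit 78) (nat_lit 0) (nat_lit 0) (XT.lf (nat_lit 0) (nat_lit 64674868470) (nat_lit 76) (nat_lit 16960676333) (nat_lit 76) (nat_lit 7424675349) (nat_lit 4) (nat_lit 4) (nat_lit 5) (nat_lit 5) (nat_lit 5) (nat_lit 4) (nat_lit 405) (nat_lit 218) (nat_lit 157)) (XT.lf (nat_lit 0) (nat_lit 71724494034) (nat_lit 76) (nat_lit 14757671286) (nat_lit 76) (nat_lit 5166869915) (nat_lit 4) (nat_lit 4) (nat_lit 5) (nat_lit 5) (nat_lit 5) (nat_lit 4) (nat_lit 406) (nat_lit 218) (nat_lit 156))))) (XT.nd (nat_lit 35568) (nat_lit 0) (nat_lit 1444) (XT.nd (nat_lit 78) (nat_lit 76) (nat_lit 0) (XT.lf (nat_lit 0) (nat_lit 78949124837) (nat_lit 76) (nat_lit 12505494081) (nat_lit 76) (nat_lit 2861488453) (nat_lit 4) (nat_lit 4) (nat_lit 5) (nat_lit 5) (nat_lit 5) (nat_lit 4) (nat_lit 407) (nat_lit 218) (nat_lit 155)) (XT.nd (nat_lit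 78) (nat_lit 76) (nat_lit 0) (XT.lf (nat_lit 0) (nat_lit 86355073664) (nat_lit 76) (nat_lit 10202176798) (nat_lit 76) (nat_lit 506516550) (nat_lit 4) (nat_lit 4) (nat_lit 5) (nat_lit 5) (nat_lit 5) (nat_lit 4) (nat_lit 408) (nat_lit 218) (nat_lit 154)) (XT.lf (nat_lit 0) (nat_lit 1863025670) (nat_lit 152) (nat_lit 5963868252) (nat_lit 76) (nat_lit 92066973155) (nat_lit 3) (nat_lit 5) (nat_lit 5) (nat_lit 5) (nat_lit 4) (nat_lit 4) (nat_lit 409) (nat_lit 218) (nat_lit 153)))) (XT.nd (nat_lit 156) (nat_lit 152) (nat_lit 0) (XT.nd (nat_lit 78) (nat_lit 152) (nat_lit 0) (XT.lf (nat_lit 0) (nat_lit 3913022730) (nat_lit 152) (nat_lit 743908566) (nat_lit 0) (nat_lit 3913022730) (nat_lit 26) (nat_lit 5) (nat_lit 28) (nat_lit 4) (nat_lit 26) (nat_lit 4) (nat_lit 342) (nat_lit 219) (nat_lit 219)) (XT.lf (nat_lit 0) (nat_lit 6520586521) (nat_lit 152) (nat_lit 5701430373) (nat_lit 152) (nat_lit 5292438295)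 (nat_lit 24) (nat_lit 4) (nat_lit 26) (nat_lit 5) (nat_lit 26) (nat_lit 4) (nat_lit 343) (nat_lit 219) (nat_lit 218))) (XT.nd (nat_lit 78) (nat_lit 152) (nat_lit 0) (XT.lf (nat_lit 0) (nat_lit 14643548616) (nat_lit 152) (nat_lit 2032509118) (nat_lit 152) (nat_lit 1226437352) (nat_lit 24) (nat_lit 4) (nat_lit 26) (nat_lit 5) (nat_lit 26) (nat_lit 4) (nat_lit 344) (nat_lit 219) (nat_lit 217)) (XT.lf (nat_lit 0) (nat_lit 2877859147) (nat_lit 152) (nat_lit 13703299944) (nat_lit 0) (nat_lit 1720979509) (nat_lit 22) (nat_lit 5) (nat_lit 24) (nat_lit 4) (nat_lit 22) (nat_lit 4) (nat_lit 345) (nat_lit 219) (nat_lit 216)))))) (XT.nd (nat_lit 546) (nat_lit 380) (nat_lit 0) (XT.nd (nat_lit 234) (nat_lit 152) (nat_lit 0) (XT.nd (nat_lit 78) (nat_lit 152) (nat_lit 0) (XT.lf (nat_lit 0) (nat_lit 7047297471) (nat_lit 152) (nat_lit 6140114584) (nat_lit 0) (nat_lit 5527033669) (nat_lit 22) (nat_lit 5) (nat_lit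 24) (nat_lit 4) (nat_lit 22) (nat_lit 4) (nat_lit 346) (nat_lit 219) (nat_lit 215)) (XT.nd (nat_lit 78) (nat_lit 0) (nat_lit 0) (XT.lf (nat_lit 0) (nat_lit 1530412375) (nat_lit 152) (nat_lit 9741947395) (nat_lit 152) (nat_lit 7868883433) (nat_lit 20) (nat_lit 4) (nat_lit 22) (nat_lit 5) (nat_lit 22) (nat_lit 4) (nat_lit 347) (nat_lit 219) (nat_lit 214)) (XT.lf (nat_lit 0) (nat_lit 9408968536) (nat_lit 152) (nat_lit 6194067439) (nat_lit 152) (nat_lit 3978479049) (nat_lit 20) (nat_lit 4) (nat_lit 22) (nat_lit 5) (nat_lit 22) (nat_lit 4) (nat_lit 348) (nat_lit 219) (nat_lit 213)))) (XT.nd (nat_lit 156) (nat_lit 0) (nat_lit 0) (XT.nd (nat_lit 78) (nat_lit 152) (nat_lit 0) (XT.lf (nat_lit 0) (nat_lit 17380237754) (nat_lit 152) (nat_lit 2602675214) (nat_lit 152) (nat_lit 54538838) (nat_lit 20) (nat_lit 4) (nat_lit 22) (nat_lit 5) (nat_lit 22) (nat_lit 4) (nat_lit 349) (nat_lit 219) (nat_lit 212)) (XT.lf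 (nat_lit 0) (nat_lit 3889019255) (nat_lit 152) (nat_lit 15515897683) (nat_lit 0) (nat_lit 1101642070) (nat_lit 18) (nat_lit 5) (nat_lit 20) (nat_lit 4) (nat_lit 18) (nat_lit 4) (nat_lit 350) (nat_lit 219) (nat_lit 211))) (XT.nd (nat_lit 78) (nat_lit 0) (nat_lit 0) (XT.lf (nat_lit 0) (nat_lit 7923849908) (nat_lit 152) (nat_lit 8234539486) (nat_lit 0) (nat_lit 4832144206) (nat_lit 18) (nat_lit 5) (nat_lit 20) (nat_lit 4) (nat_lit 18) (nat_lit 4) (nat_lit 351) (nat_lit 219) (nat_lit 210)) (XT.lf (nat_lit 0) (nat_lit 12003215393) (nat_lit 152) (nat_lit 872093521) (nat_lit 0) (nat_lit 8616045112) (nat_lit 18) (nat_lit 5) (nat_lit 20) (nat_lit 4) (nat_lit 18) (nat_lit 4) (nat_lit 352) (nat_lit 219) (nat_lit 209))))) (XT.nd (nat_lit 234) (nat_lit 152) (nat_lit 0) (XT.nd (nat_lit 78) (nat_lit 76) (nat_lit 0) (XT.lf (nat_lit 0) (nat_lit 6708785994) (nat_lit 152) (nat_lit 9486383165) (nat_lit 152) (nat_lit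 5812354069) (nat_lit 16) (nat_lit 4) (nat_lit 18) (nat_lit 5) (nat_lit 18) (nat_lit 4) (nat_lit 353) (nat_lit 219) (nat_lit 208)) (XT.nd (nat_lit 78) (nat_lit 76) (nat_lit 0) (XT.lf (nat_lit 0) (nat_lit 14402923928) (nat_lit 152) (nat_lit 6045376652) (nat_lit 152) (nat_lit 2092843851) (nat_lit 16) (nat_lit 4) (nat_lit 18) (nat_lit 5) (nat_lit 18) (nat_lit 4) (nat_lit 354) (nat_lit 219) (nat_lit 207)) (XT.lf (nat_lit 0) (nat_lit 1632348701) (nat_lit 228) (nat_lit 909256882) (nat_lit 76) (nat_lit 20550854720) (nat_lit 15) (nat_lit 5) (nat_lit 18) (nat_lit 5) (nat_lit 16) (nat_lit 4) (nat_lit 355) (nat_lit 219) (nat_lit 206)))) (XT.nd (nat_lit 156) (nat_lit 76) (nat_lit 0) (XT.nd (nat_lit 78) (nat_lit 0) (nat_lit 0) (XT.lf (nat_lit 0) (nat_lit 5430539396) (nat_lit 152) (nat_lit 17153340302) (nat_lit 0) (nat_lit 1075742116) (nat_lit 14) (nat_lit 5) (nat_lit 16) (nat_lit 4) (nat_lit 14) (nat_lit 4)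 (nat_lit 356) (nat_lit 219) (nat_lit 205)) (XT.lf (nat_lit 0) (nat_lit 9307528911) (nat_lit 152) (nat_lit 10232065179) (nat_lit 0) (nat_lit 4705284697) (nat_lit 14) (nat_lit 5) (nat_lit 16) (nat_lit 4) (nat_lit 14) (nat_lit 4) (nat_lit 357) (nat_lit 219) (nat_lit 204))) (XT.nd (nat_lit 78) (nat_lit 76) (nat_lit 0) (XT.lf (nat_lit 0) (nat_lit 13233270894) (nat_lit 152) (nat_lit 3225687796) (nat_lit 0) (nat_lit 8390786939) (nat_lit 14) (nat_lit 5) (nat_lit 16) (nat_lit 4) (nat_lit 14) (nat_lit 4) (nat_lit 358) (nat_lit 219) (nat_lit 203)) (XT.lf (nat_lit 0) (nat_lit 3948972603) (nat_lit 76) (nat_lit 13300182944) (nat_lit 76) (nat_lit 8224456521) (nat_lit 13) (nat_lit 4) (nat_lit 14) (nat_lit 5) (nat_lit 14) (nat_lit 4) (nat_lit 359) (nat_lit 219) (nat_lit 202))))))))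
noncomputable def xc22 : XT := (XT.nd (nat_lit 2028) (nat_lit 152) (nat_lit 0) (XT.nd (nat_lit 1014) (nat_lit 228) (nat_lit 0) (XT.nd (nat_lit 468) (nat_lit 228) (nat_lit 0) (XT.nd (nat_lit 234) (nat_lit 76) (nat_lit 0) (XT.nd (nat_lit 78) (nat_lit 76) (nat_lit 0) (XT.lf (nat_lit 0) (nat_lit 11287195611) (nat_lit 76) (nat_lit 10066082722) (nat_lit 76) (nat_lit 4763907302) (nat_lit 13) (nat_lit 4) (nat_lit 14) (nat_lit 5) (nat_lit 14) (nat_lit 4) (nat_lit 360) (nat_lit 219) (nat_lit 201)) (XT.nd (nat_lit 78) (nat_lit 76) (nat_lit 0) (XT.lf (nat_lit 0) (nat_lit 18731195754) (nat_lit 76) (nat_lit 6786405236) (nat_lit 76) (nat_lit 1264376420) (nat_lit 13) (nat_lit 4) (nat_lit 14) (nat_lit 5) (nat_lit 14) (nat_lit 4) (nat_lit 361) (nat_lit 219) (nat_lit 200)) (XT.lf (nat_lit 0) (nat_lit 2232757711) (nat_lit 152) (nat_lit 1202980560) (nat_lit 76) (nat_lit 24032173312) (nat_lit 12) (nat_lit 5) (nat_lit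 14) (nat_lit 5) (nat_lit 13) (nat_lit 4) (nat_lit 362) (nat_lit 219) (nat_lit 199)))) (XT.nd (nat_lit 78) (nat_lit 0) (nat_lit 0) (XT.lf (nat_lit 0) (nat_lit 5805993130) (nat_lit 152) (nat_lit 22331808214) (nat_lit 0) (nat_lit 36370191) (nat_lit 11) (nat_lit 5) (nat_lit 13) (nat_lit 4) (nat_lit 11) (nat_lit 4) (nat_lit 363) (nat_lit 219) (nat_lit 198)) (XT.nd (nat_lit 78) (nat_lit 0) (nat_lit 0) (XT.lf (nat_lit 0) (nat_lit 9473029445) (nat_lit 152) (nat_lit 15920942802) (nat_lit 0) (nat_lit 3508069612) (nat_lit 11) (nat_lit 5) (nat_lit 13) (nat_lit 4) (nat_lit 11) (nat_lit 4) (nat_lit 364) (nat_lit 219) (nat_lit 197)) (XT.lf (nat_lit 0) (nat_lit 13192133747) (nat_lit 152) (nat_lit 9423846482) (nat_lit 0) (nat_lit 7037526443) (nat_lit 11) (nat_lit 5) (nat_lit 13) (nat_lit 4) (nat_lit 11) (nat_lit 4) (nat_lit 365) (nat_lit 219) (nat_lit 196))))) (XT.nd (nat_lit 234) (nat_lit 152) (nat_lit 0) (XT.nd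 (nat_lit 78) (nat_lit 76) (nat_lit 0) (XT.lf (nat_lit 0) (nat_lit 16966555737) (nat_lit 152) (nat_lit 2834842180) (nat_lit 0) (nat_lit 10627824676) (nat_lit 11) (nat_lit 5) (nat_lit 13) (nat_lit 4) (nat_lit 11) (nat_lit 4) (nat_lit 366) (nat_lit 219) (nat_lit 195)) (XT.nd (nat_lit 78) (nat_lit 0) (nat_lit 0) (XT.lf (nat_lit 0) (nat_lit 3928486406) (nat_lit 76) (nat_lit 16908870064) (nat_lit 76) (nat_lit 10391378073) (nat_lit 10) (nat_lit 4) (nat_lit 11) (nat_lit 5) (nat_lit 11) (nat_lit 4) (nat_lit 367) (nat_lit 219) (nat_lit 194)) (XT.lf (nat_lit 0) (nat_lit 10853802010) (nat_lit 76) (nat_lit 13945127532) (nat_lit 76) (nat_lit 7254081241) (nat_lit 10) (nat_lit 4) (nat_lit 11) (nat_lit 5) (nat_lit 11) (nat_lit 4) (nat_lit 368) (nat_lit 219) (nat_lit 193)))) (XT.nd (nat_lit 156) (nat_lit 152) (nat_lit 0) (XT.nd (nat_lit 78) (nat_lit 0) (nat_lit 0) (XT.lf (nat_lit 0) (nat_lit 17890736961) (nat_lit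 76) (nat_lit 10936206992) (nat_lit 76) (nat_lit 4076661379) (nat_lit 10) (nat_lit 4) (nat_lit 11) (nat_lit 5) (nat_lit 11) (nat_lit 4) (nat_lit 369) (nat_lit 219) (nat_lit 192)) (XT.lf (nat_lit 0) (nat_lit 25045440037) (nat_lit 76) (nat_lit 7879479290) (nat_lit 76) (nat_lit 856342103) (nat_lit 10) (nat_lit 4) (nat_lit 11) (nat_lit 5) (nat_lit 11) (nat_lit 4) (nat_lit 370) (nat_lit 219) (nat_lit 191))) (XT.nd (nat_lit 78) (nat_lit 76) (nat_lit 0) (XT.lf (nat_lit 0) (nat_lit 2362668719) (nat_lit 152) (nat_lit 2385746458) (nat_lit 76) (nat_lit 29937635879) (nat_lit 9) (nat_lit 5) (nat_lit 11) (nat_lit 5) (nat_lit 10) (nat_lit 4) (nat_lit 371) (nat_lit 219) (nat_lit 190)) (XT.lf (nat_lit 0) (nat_lit 4138140181) (nat_lit 76) (nat_lit 1514226758) (nat_lit 152) (nat_lit 29965639066) (nat_lit 8) (nat_lit 5) (nat_lit 9) (nat_lit 5) (nat_lit 10) (nat_lit 4) (nat_lit 372) (nat_lit 219) (nat_lit 189))))))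 (XT.nd (nat_lit 468) (nat_lit 152) (nat_lit 0) (XT.nd (nat_lit 234) (nat_lit 76) (nat_lit 0) (XT.nd (nat_lit 78) (nat_lit 0) (nat_lit 0) (XT.lf (nat_lit 0) (nat_lit 9034280268) (nat_lit 152) (nat_lit 25777407737) (nat_lit 0) (nat_lit 1766441268) (nat_lit 8) (nat_lit 5) (nat_lit 10) (nat_lit 4) (nat_lit 8) (nat_lit 4) (nat_lit 373) (nat_lit 219) (nat_lit 188)) (XT.nd (nat_lit 78) (nat_lit 0) (nat_lit 0) (XT.lf (nat_lit 0) (nat_lit 12485777593) (nat_lit 152) (nat_lit 20005426731) (nat_lit 0) (nat_lit 5076823063) (nat_lit 8) (nat_lit 5) (nat_lit 10) (nat_lit 4) (nat_lit 8) (nat_lit 4) (nat_lit 374) (nat_lit 219) (nat_lit 187)) (XT.lf (nat_lit 0) (nat_lit 15995319109) (nat_lit 152) (nat_lit 14144323656) (nat_lit 0) (nat_lit 8449359212) (nat_lit 8) (nat_lit 5) (nat_lit 10) (nat_lit 4) (nat_lit 8) (nat_lit 4) (nat_lit 375) (nat_lit 219) (nat_lit 186)))) (XT.nd (nat_lit 78) (nat_lit 76) (nat_lit 0) (XT.lf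 (nat_lit 0) (nat_lit 19565971408) (nat_lit 152) (nat_lit 8188977158) (nat_lit 0) (nat_lit 11886996591) (nat_lit 8) (nat_lit 5) (nat_lit 10) (nat_lit 4) (nat_lit 8) (nat_lit 4) (nat_lit 376) (nat_lit 219) (nat_lit 185)) (XT.nd (nat_lit 78) (nat_lit 76) (nat_lit 0) (XT.lf (nat_lit 0) (nat_lit 23200854477) (nat_lit 152) (nat_lit 2134183537) (nat_lit 0) (nat_lit 15392738960) (nat_lit 8) (nat_lit 5) (nat_lit 10) (nat_lit 4) (nat_lit 8) (nat_lit 4) (nat_lit 377) (nat_lit 219) (nat_lit 184)) (XT.lf (nat_lit 0) (nat_lit 4105460117) (nat_lit 76) (nat_lit 22837148503) (nat_lit 76) (nat_lit 14903653667) (nat_lit 7) (nat_lit 4) (nat_lit 8) (nat_lit 5) (nat_lit 8) (nat_lit 4) (nat_lit 378) (nat_lit 219) (nat_lit 183))))) (XT.nd (nat_lit 234) (nat_lit 152) (nat_lit 0) (XT.nd (nat_lit 78) (nat_lit 0) (nat_lit 0) (XT.lf (nat_lit 0) (nat_lit 10499889644) (nat_lit 76) (nat_lit 20277117986) (nat_lit 76) (nat_lit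 12221895655) (nat_lit 7) (nat_lit 4) (nat_lit 8) (nat_lit 5) (nat_lit 8) (nat_lit 4) (nat_lit 379) (nat_lit 219) (nat_lit 182)) (XT.nd (nat_lit 78) (nat_lit 0) (nat_lit 0) (XT.lf (nat_lit 0) (nat_lit 17012217971) (nat_lit 76) (nat_lit 17674260612) (nat_lit 76) (nat_lit 9500856247) (nat_lit 7) (nat_lit 4) (nat_lit 8) (nat_lit 5) (nat_lit 8) (nat_lit 4) (nat_lit 380) (nat_lit 219) (nat_lit 181)) (XT.lf (nat_lit 0) (nat_lit 23648135483) (nat_lit 76) (nat_lit 15026302039) (nat_lit 76) (nat_lit 6738157836) (nat_lit 7) (nat_lit 4) (nat_lit 8) (nat_lit 5) (nat_lit 8) (nat_lit 4) (nat_lit 381) (nat_lit 219) (nat_lit 180)))) (XT.nd (nat_lit 156) (nat_lit 152) (nat_lit 0) (XT.nd (nat_lit 78) (nat_lit 0) (nat_lit 0) (XT.lf (nat_lit 0) (nat_lit 30413440554) (nat_lit 76) (nat_lit 12330928518) (nat_lit 76) (nat_lit 3931386414) (nat_lit 7) (nat_lit 4) (nat_lit 8) (nat_lit 5) (nat_lit 8) (nat_lit 4) (nat_lit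 382) (nat_lit 219) (nat_lit 179)) (XT.lf (nat_lit 0) (nat_lit 37314044616) (nat_lit 76) (nat_lit 9585784868) (nat_lit 76) (nat_lit 1078089461) (nat_lit 7) (nat_lit 4) (nat_lit 8) (nat_lit 5) (nat_lit 8) (nat_lit 4) (nat_lit 383) (nat_lit 219) (nat_lit 178))) (XT.nd (nat_lit 78) (nat_lit 76) (nat_lit 0) (XT.lf (nat_lit 0) (nat_lit 1788628969) (nat_lit 152) (nat_lit 4981781804) (nat_lit 76) (nat_lit 42549286707) (nat_lit 6) (nat_lit 5) (nat_lit 8) (nat_lit 5) (nat_lit 7) (nat_lit 4) (nat_lit 384) (nat_lit 219) (nat_lit 177)) (XT.lf (nat_lit 0) (nat_lit 811454039) (nat_lit 76) (nat_lit 3881204834) (nat_lit 152) (nat_lit 46009571405) (nat_lit 5) (nat_lit 5) (nat_lit 6) (nat_lit 5) (nat_lit 7) (nat_lit 4) (nat_lit 385) (nat_lit 219) (nat_lit 176))))))) (XT.nd (nat_lit 1014) (nat_lit 76) (nat_lit 0) (XT.nd (nat_lit 468) (nat_lit 76) (nat_lit 0) (XT.nd (nat_lit 234) (nat_lit 0) (nat_lit 0) (XT.nd (nat_lit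 78) (nat_lit 0) (nat_lit 0) (XT.lf (nat_lit 0) (nat_lit 6816761060) (nat_lit 76) (nat_lit 882933583) (nat_lit 152) (nat_lit 44426078043) (nat_lit 5) (nat_lit 5) (nat_lit 6) (nat_lit 5) (nat_lit 7) (nat_lit 4) (nat_lit 386) (nat_lit 219) (nat_lit 175)) (XT.nd (nat_lit 78) (nat_lit 0) (nat_lit 0) (XT.lf (nat_lit 0) (nat_lit 10784446720) (nat_lit 152) (nat_lit 40673718353) (nat_lit 0) (nat_lit 2134241017) (nat_lit 5) (nat_lit 5) (nat_lit 7) (nat_lit 4) (nat_lit 5) (nat_lit 4) (nat_lit 387) (nat_lit 219) (nat_lit 174)) (XT.lf (nat_lit 0) (nat_lit 13937771313) (nat_lit 152) (nat_lit 35969006957) (nat_lit 0) (nat_lit 5196988922) (nat_lit 5) (nat_lit 5) (nat_lit 7) (nat_lit 4) (nat_lit 5) (nat_lit 4) (nat_lit 388) (nat_lit 219) (nat_lit 173)))) (XT.nd (nat_lit 78) (nat_lit 0) (nat_lit 0) (XT.lf (nat_lit 0) (nat_lit 17153936456) (nat_lit 152) (nat_lit 31182279228) (nat_lit 0) (nat_lit 8325215532) (nat_lit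 5) (nat_lit 5) (nat_lit 7) (nat_lit 4) (nat_lit 5) (nat_lit 4) (nat_lit 389) (nat_lit 219) (nat_lit 172)) (XT.nd (nat_lit 78) (nat_lit 0) (nat_lit 0) (XT.lf (nat_lit 0) (nat_lit 20435752390) (nat_lit 152) (nat_lit 26309352587) (nat_lit 0) (nat_lit 11521654251) (nat_lit 5) (nat_lit 5) (nat_lit 7) (nat_lit 4) (nat_lit 5) (nat_lit 4) (nat_lit 390) (nat_lit 219) (nat_lit 171)) (XT.lf (nat_lit 0) (nat_lit 23786086722) (nat_lit 152) (nat_lit 21345969138) (nat_lit 0) (nat_lit 14789098082) (nat_lit 5) (nat_lit 5) (nat_lit 7) (nat_lit 4) (nat_lit 5) (nat_lit 4) (nat_lit 391) (nat_lit 219) (nat_lit 170))))) (XT.nd (nat_lit 234) (nat_lit 76) (nat_lit 0) (XT.nd (nat_lit 78) (nat_lit 0) (nat_lit 0) (XT.lf (nat_lit 0) (nat_lit 27207866928) (nat_lit 152) (nat_lit 16287791945) (nat_lit 0) (nat_lit 18130402074) (nat_lit 5) (nat_lit 5) (nat_lit 7) (nat_lit 4) (nat_lit 5) (nat_lit 4) (nat_lit 392) (nat_lit 219)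 (nat_lit 169)) (XT.nd (nat_lit 78) (nat_lit 0) (nat_lit 0) (XT.lf (nat_lit 0) (nat_lit 30704082913) (nat_lit 152) (nat_lit 11130401239) (nat_lit 0) (nat_lit 21548485812) (nat_lit 5) (nat_lit 5) (nat_lit 7) (nat_lit 4) (nat_lit 5) (nat_lit 4) (nat_lit 393) (nat_lit 219) (nat_lit 168)) (XT.lf (nat_lit 0) (nat_lit 34277789624) (nat_lit 152) (nat_lit 5869290564) (nat_lit 0) (nat_lit 25046335972) (nat_lit 5) (nat_lit 5) (nat_lit 7) (nat_lit 4) (nat_lit 5) (nat_lit 4) (nat_lit 394) (nat_lit 219) (nat_lit 167)))) (XT.nd (nat_lit 156) (nat_lit 0) (nat_lit 0) (XT.nd (nat_lit 78) (nat_lit 76) (nat_lit 0) (XT.lf (nat_lit 0) (nat_lit 37932109715) (nat_lit 152) (nat_lit 499862833) (nat_lit 0) (nat_lit 28627008928) (nat_lit 5) (nat_lit 5) (nat_lit 7) (nat_lit 4) (nat_lit 5) (nat_lit 4) (nat_lit 395) (nat_lit 219) (nat_lit 166)) (XT.lf (nat_lit 0) (nat_lit 5081736674) (nat_lit 76) (nat_lit 36637348372) (nat_lit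 76) (nat_lit 27260745510) (nat_lit 4) (nat_lit 4) (nat_lit 5) (nat_lit 5) (nat_lit 5) (nat_lit 4) (nat_lit 396) (nat_lit 219) (nat_lit 165))) (XT.nd (nat_lit 78) (nat_lit 0) (nat_lit 0) (XT.lf (nat_lit 0) (nat_lit 10793428136) (nat_lit 76) (nat_lit 34805760552) (nat_lit 76) (nat_lit 25359738201) (nat_lit 4) (nat_lit 4) (nat_lit 5) (nat_lit 5) (nat_lit 5) (nat_lit 4) (nat_lit 397) (nat_lit 219) (nat_lit 164)) (XT.lf (nat_lit 0) (nat_lit 16630254100) (nat_lit 76) (nat_lit 32940656306) (nat_lit 76) (nat_lit 23427236393) (nat_lit 4) (nat_lit 4) (nat_lit 5) (nat_lit 5) (nat_lit 5) (nat_lit 4) (nat_lit 398) (nat_lit 219) (nat_lit 163)))))) (XT.nd (nat_lit 546) (nat_lit 76) (nat_lit 0) (XT.nd (nat_lit 234) (nat_lit 0) (nat_lit 0) (XT.nd (nat_lit 78) (nat_lit 0) (nat_lit 0) (XT.lf (nat_lit 0) (nat_lit 22597314707) (nat_lit 76) (nat_lit 31040405933) (nat_lit 76) (nat_lit 21461551494) (nat_lit 4) (nat_lit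 4) (nat_lit 5) (nat_lit 5) (nat_lit 5) (nat_lit 4) (nat_lit 399) (nat_lit 219) (nat_lit 162)) (XT.nd (nat_lit 78) (nat_lit 0) (nat_lit 0) (XT.lf (nat_lit 0) (nat_lit 28699823893) (nat_lit 76) (nat_lit 29103349019) (nat_lit 76) (nat_lit 19460965913) (nat_lit 4) (nat_lit 4) (nat_lit 5) (nat_lit 5) (nat_lit 5) (nat_lit 4) (nat_lit 400) (nat_lit 219) (nat_lit 161)) (XT.lf (nat_lit 0) (nat_lit 34943113946) (nat_lit 76) (nat_lit 27127792990) (nat_lit 76) (nat_lit 17423731567) (nat_lit 4) (nat_lit 4) (nat_lit 5) (nat_lit 5) (nat_lit 5) (nat_lit 4) (nat_lit 401) (nat_lit 219) (nat_lit 160)))) (XT.nd (nat_lit 156) (nat_lit 0) (nat_lit 0) (XT.nd (nat_lit 78) (nat_lit 0) (nat_lit 0) (XT.lf (nat_lit 0) (nat_lit 41332640169) (nat_lit 76) (nat_lit 25112011632) (nat_lit 76) (nat_lit 15348068347) (nat_lit 4) (nat_lit 4) (nat_lit 5) (nat_lit 5) (nat_lit 5) (nat_lit 4) (nat_lit 402) (nat_lit 219) (nat_lit 159))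 (XT.lf (nat_lit 0) (nat_lit 47873985643) (nat_lit 76) (nat_lit 23054243583) (nat_lit 76) (nat_lit 13232162569) (nat_lit 4) (nat_lit 4) (nat_lit 5) (nat_lit 5) (nat_lit 5) (nat_lit 4) (nat_lit 403) (nat_lit 219) (nat_lit 158))) (XT.nd (nat_lit 78) (nat_lit 0) (nat_lit 0) (XT.lf (nat_lit 0) (nat_lit 54572866108) (nat_lit 76) (nat_lit 20952690793) (nat_lit 76) (nat_lit 11074165381) (nat_lit 4) (nat_lit 4) (nat_lit 5) (nat_lit 5) (nat_lit 5) (nat_lit 4) (nat_lit 404) (nat_lit 219) (nat_lit 157)) (XT.lf (nat_lit 0) (nat_lit 61435134953) (nat_lit 76) (nat_lit 18805516953) (nat_lit 76) (nat_lit 8872191156) (nat_lit 4) (nat_lit 4) (nat_lit 5) (nat_lit 5) (nat_lit 5) (nat_lit 4) (nat_lit 405) (nat_lit 219) (nat_lit 156))))) (XT.nd (nat_lit 234) (nat_lit 76) (nat_lit 0) (XT.nd (nat_lit 78) (nat_lit 0) (nat_lit 0) (XT.lf (nat_lit 0) (nat_lit 68466788336) (nat_lit 76) (nat_lit 16610845893) (nat_lit 76) (nat_lit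 6624315837) (nat_lit 4) (nat_lit 4) (nat_lit 5) (nat_lit 5) (nat_lit 5) (nat_lit 4) (nat_lit 406) (nat_lit 219) (nat_lit 155)) (XT.nd (nat_lit 78) (nat_lit 0) (nat_lit 0) (XT.lf (nat_lit 0) (nat_lit 75673970419) (nat_lit 76) (nat_lit 14366759939) (nat_lit 76) (nat_lit 4328575263) (nat_lit 4) (nat_lit 4) (nat_lit 5) (nat_lit 5) (nat_lit 5) (nat_lit 4) (nat_lit 407) (nat_lit 219) (nat_lit 154)) (XT.lf (nat_lit 0) (nat_lit 83062978742) (nat_lit 76) (nat_lit 12071298238) (nat_lit 76) (nat_lit 1982963447) (nat_lit 4) (nat_lit 4) (nat_lit 5) (nat_lit 5) (nat_lit 5) (nat_lit 4) (nat_lit 408) (nat_lit 219) (nat_lit 153)))) (XT.nd (nat_lit 35334) (nat_lit 0) (nat_lit 1748) (XT.nd (nat_lit 35256) (nat_lit 0) (nat_lit 1900) (XT.lf (nat_lit 0) (nat_lit 406479437) (nat_lit 152) (nat_lit 9311870965) (nat_lit 76) (nat_lit 90229685635) (nat_lit 3) (nat_lit 5) (nat_lit 5) (nat_lit 5) (nat_lit 4) (nat_lit 4) (nat_lit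 409) (nat_lit 219) (nat_lit 152)) (XT.lf (nat_lit 0) (nat_lit 7954769155) (nat_lit 152) (nat_lit 129095494) (nat_lit 152) (nat_lit 129095494) (nat_lit 28) (nat_lit 4) (nat_lit 30) (nat_lit 5) (nat_lit 30) (nat_lit 4) (nat_lit 340) (nat_lit 220) (nat_lit 220))) (XT.nd (nat_lit 78) (nat_lit 0) (nat_lit 0) (XT.lf (nat_lit 0) (nat_lit 3952895754) (nat_lit 152) (nat_lit 9292576790) (nat_lit 0) (nat_lit 3531633913) (nat_lit 26) (nat_lit 5) (nat_lit 28) (nat_lit 4) (nat_lit 26) (nat_lit 4) (nat_lit 341) (nat_lit 220) (nat_lit 219)) (XT.lf (nat_lit 0) (nat_lit 8202995811) (nat_lit 152) (nat_lit 1565521035) (nat_lit 0) (nat_lit 7372741891) (nat_lit 26) (nat_lit 5) (nat_lit 28) (nat_lit 4) (nat_lit 26) (nat_lit 4) (nat_lit 342) (nat_lit 220) (nat_lit 218))))))))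
noncomputable def xc23 : XT := (XT.nd (nat_lit 2106) (nat_lit 456) (nat_lit 0) (XT.nd (nat_lit 1014) (nat_lit 380) (nat_lit 0) (XT.nd (nat_lit 468) (nat_lit 380) (nat_lit 0) (XT.nd (nat_lit 234) (nat_lit 152) (nat_lit 0) (XT.nd (nat_lit 78) (nat_lit 152) (nat_lit 0) (XT.lf (nat_lit 0) (nat_lit 6364394059) (nat_lit 152) (nat_lit 6190050903) (nat_lit 152) (nat_lit 4962717296) (nat_lit 24) (nat_lit 4) (nat_lit 26) (nat_lit 5) (nat_lit 26) (nat_lit 4) (nat_lit 343) (nat_lit 220) (nat_lit 217)) (XT.nd (nat_lit 78) (nat_lit 152) (nat_lit 0) (XT.lf (nat_lit 0) (nat_lit 14412655087) (nat_lit 152) (nat_lit 2553344814) (nat_lit 152) (nat_lit 940496946) (nat_lit 24) (nat_lit 4) (nat_lit 26) (nat_lit 5) (nat_lit 26) (nat_lit 4) (nat_lit 344) (nat_lit 220) (nat_lit 216)) (XT.lf (nat_lit 0) (nat_lit 3108180372) (nat_lit 152) (nat_lit 14020473179) (nat_lit 0) (nat_lit 1178924491) (nat_lit 22) (nat_lit 5) (nat_lit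 24) (nat_lit 4) (nat_lit 22) (nat_lit 4) (nat_lit 345) (nat_lit 220) (nat_lit 215)))) (XT.nd (nat_lit 78) (nat_lit 152) (nat_lit 0) (XT.lf (nat_lit 0) (nat_lit 7236155429) (nat_lit 152) (nat_lit 6530892656) (nat_lit 0) (nat_lit 4954099388) (nat_lit 22) (nat_lit 5) (nat_lit 24) (nat_lit 4) (nat_lit 22) (nat_lit 4) (nat_lit 346) (nat_lit 220) (nat_lit 214)) (XT.nd (nat_lit 78) (nat_lit 0) (nat_lit 0) (XT.lf (nat_lit 0) (nat_lit 1058973833) (nat_lit 152) (nat_lit 10357456540) (nat_lit 152) (nat_lit 7732876072) (nat_lit 20) (nat_lit 4) (nat_lit 22) (nat_lit 5) (nat_lit 22) (nat_lit 4) (nat_lit 347) (nat_lit 220) (nat_lit 213)) (XT.lf (nat_lit 0) (nat_lit 8866769586) (nat_lit 152) (nat_lit 6840573692) (nat_lit 152) (nat_lit 3883445236) (nat_lit 20) (nat_lit 4) (nat_lit 22) (nat_lit 5) (nat_lit 22) (nat_lit 4) (nat_lit 348) (nat_lit 220) (nat_lit 212))))) (XT.nd (nat_lit 234) (nat_lit 228) (nat_lit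 0) (XT.nd (nat_lit 78) (nat_lit 76) (nat_lit 0) (XT.lf (nat_lit 0) (nat_lit 700881) (nat_lit 228) (nat_lit 3278567788) (nat_lit 76) (nat_lit 16768631419) (nat_lit 19) (nat_lit 5) (nat_lit 22) (nat_lit 5) (nat_lit 20) (nat_lit 4) (nat_lit 349) (nat_lit 220) (nat_lit 211)) (XT.nd (nat_lit 78) (nat_lit 0) (nat_lit 0) (XT.lf (nat_lit 0) (nat_lit 3891718489) (nat_lit 152) (nat_lit 16223900140) (nat_lit 0) (nat_lit 402933100) (nat_lit 18) (nat_lit 5) (nat_lit 20) (nat_lit 4) (nat_lit 18) (nat_lit 4) (nat_lit 350) (nat_lit 220) (nat_lit 210)) (XT.lf (nat_lit 0) (nat_lit 7888859444) (nat_lit 152) (nat_lit 9010203508) (nat_lit 0) (nat_lit 4104609475) (nat_lit 18) (nat_lit 5) (nat_lit 20) (nat_lit 4) (nat_lit 18) (nat_lit 4) (nat_lit 351) (nat_lit 220) (nat_lit 209)))) (XT.nd (nat_lit 156) (nat_lit 76) (nat_lit 0) (XT.nd (nat_lit 78) (nat_lit 152) (nat_lit 0) (XT.lf (nat_lit 0) (nat_lit 11931632989) (nat_lit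 152) (nat_lit 1713448384) (nat_lit 0) (nat_lit 7860524205) (nat_lit 18) (nat_lit 5) (nat_lit 20) (nat_lit 4) (nat_lit 18) (nat_lit 4) (nat_lit 352) (nat_lit 220) (nat_lit 208)) (XT.lf (nat_lit 0) (nat_lit 5785639707) (nat_lit 152) (nat_lit 10293547046) (nat_lit 152) (nat_lit 5943934557) (nat_lit 16) (nat_lit 4) (nat_lit 18) (nat_lit 5) (nat_lit 18) (nat_lit 4) (nat_lit 353) (nat_lit 220) (nat_lit 207))) (XT.nd (nat_lit 78) (nat_lit 76) (nat_lit 0) (XT.lf (nat_lit 0) (nat_lit 13416625397) (nat_lit 152) (nat_lit 6880594306) (nat_lit 152) (nat_lit 2260589872) (nat_lit 16) (nat_lit 4) (nat_lit 18) (nat_lit 5) (nat_lit 18) (nat_lit 4) (nat_lit 354) (nat_lit 220) (nat_lit 206)) (XT.lf (nat_lit 0) (nat_lit 1433449007) (nat_lit 228) (nat_lit 1972619401) (nat_lit 76) (nat_lit 19704151521) (nat_lit 15) (nat_lit 5) (nat_lit 18) (nat_lit 5) (nat_lit 16) (nat_lit 4) (nat_lit 355) (nat_lit 220) (nat_lit 205))))))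 (XT.nd (nat_lit 546) (nat_lit 152) (nat_lit 0) (XT.nd (nat_lit 234) (nat_lit 152) (nat_lit 0) (XT.nd (nat_lit 78) (nat_lit 0) (nat_lit 0) (XT.lf (nat_lit 0) (nat_lit 5178523815) (nat_lit 152) (nat_lit 18309698671) (nat_lit 0) (nat_lit 190765341) (nat_lit 14) (nat_lit 5) (nat_lit 16) (nat_lit 4) (nat_lit 14) (nat_lit 4) (nat_lit 356) (nat_lit 220) (nat_lit 204)) (XT.nd (nat_lit 78) (nat_lit 0) (nat_lit 0) (XT.lf (nat_lit 0) (nat_lit 9022233913) (nat_lit 152) (nat_lit 11448786106) (nat_lit 0) (nat_lit 3794235697) (nat_lit 14) (nat_lit 5) (nat_lit 16) (nat_lit 4) (nat_lit 14) (nat_lit 4) (nat_lit 357) (nat_lit 220) (nat_lit 203)) (XT.lf (nat_lit 0) (nat_lit 12915665782) (nat_lit 152) (nat_lit 4501013149) (nat_lit 0) (nat_lit 7454425099) (nat_lit 14) (nat_lit 5) (nat_lit 16) (nat_lit 4) (nat_lit 14) (nat_lit 4) (nat_lit 358) (nat_lit 220) (nat_lit 202)))) (XT.nd (nat_lit 156) (nat_lit 76) (nat_lit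 0) (XT.nd (nat_lit 78) (nat_lit 0) (nat_lit 0) (XT.lf (nat_lit 0) (nat_lit 2590235902) (nat_lit 76) (nat_lit 14296884482) (nat_lit 76) (nat_lit 8609194801) (nat_lit 13) (nat_lit 4) (nat_lit 14) (nat_lit 5) (nat_lit 14) (nat_lit 4) (nat_lit 359) (nat_lit 220) (nat_lit 201)) (XT.lf (nat_lit 0) (nat_lit 9872119228) (nat_lit 76) (nat_lit 11088126990) (nat_lit 76) (nat_lit 5180583914) (nat_lit 13) (nat_lit 4) (nat_lit 14) (nat_lit 5) (nat_lit 14) (nat_lit 4) (nat_lit 360) (nat_lit 220) (nat_lit 200))) (XT.nd (nat_lit 78) (nat_lit 76) (nat_lit 0) (XT.lf (nat_lit 0) (nat_lit 17261420650) (nat_lit 76) (nat_lit 7833054096) (nat_lit 76) (nat_lit 1712061120) (nat_lit 13) (nat_lit 4) (nat_lit 14) (nat_lit 5) (nat_lit 14) (nat_lit 4) (nat_lit 361) (nat_lit 220) (nat_lit 199)) (XT.lf (nat_lit 0) (nat_lit 1764291466) (nat_lit 152) (nat_lit 2746714208) (nat_lit 76) (nat_lit 22982489490) (nat_lit 12) (nat_lit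 5) (nat_lit 14) (nat_lit 5) (nat_lit 13) (nat_lit 4) (nat_lit 362) (nat_lit 220) (nat_lit 198))))) (XT.nd (nat_lit 234) (nat_lit 76) (nat_lit 0) (XT.nd (nat_lit 78) (nat_lit 0) (nat_lit 0) (XT.lf (nat_lit 0) (nat_lit 4215096612) (nat_lit 76) (nat_lit 1077770136) (nat_lit 152) (nat_lit 22908238364) (nat_lit 11) (nat_lit 5) (nat_lit 12) (nat_lit 5) (nat_lit 13) (nat_lit 4) (nat_lit 363) (nat_lit 220) (nat_lit 197)) (XT.nd (nat_lit 78) (nat_lit 0) (nat_lit 0) (XT.lf (nat_lit 0) (nat_lit 8920999477) (nat_lit 152) (nat_lit 17617046476) (nat_lit 0) (nat_lit 2392106484) (nat_lit 11) (nat_lit 5) (nat_lit 13) (nat_lit 4) (nat_lit 11) (nat_lit 4) (nat_lit 364) (nat_lit 220) (nat_lit 196)) (XT.lf (nat_lit 0) (nat_lit 12612391740) (nat_lit 152) (nat_lit 11170691490) (nat_lit 0) (nat_lit 5899374989) (nat_lit 11) (nat_lit 5) (nat_lit 13) (nat_lit 4) (nat_lit 11) (nat_lit 4) (nat_lit 365) (nat_lit 220) (nat_lit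 195)))) (XT.nd (nat_lit 156) (nat_lit 0) (nat_lit 0) (XT.nd (nat_lit 78) (nat_lit 76) (nat_lit 0) (XT.lf (nat_lit 0) (nat_lit 16359908838) (nat_lit 152) (nat_lit 4630950619) (nat_lit 0) (nat_lit 9468131157) (nat_lit 11) (nat_lit 5) (nat_lit 13) (nat_lit 4) (nat_lit 11) (nat_lit 4) (nat_lit 366) (nat_lit 220) (nat_lit 194)) (XT.lf (nat_lit 0) (nat_lit 2047851432) (nat_lit 76) (nat_lit 18138659070) (nat_lit 76) (nat_lit 11073327089) (nat_lit 10) (nat_lit 4) (nat_lit 11) (nat_lit 5) (nat_lit 11) (nat_lit 4) (nat_lit 367) (nat_lit 220) (nat_lit 193))) (XT.nd (nat_lit 78) (nat_lit 0) (nat_lit 0) (XT.lf (nat_lit 0) (nat_lit 8925807370) (nat_lit 76) (nat_lit 15196460513) (nat_lit 76) (nat_lit 7962629210) (nat_lit 10) (nat_lit 4) (nat_lit 11) (nat_lit 5) (nat_lit 11) (nat_lit 4) (nat_lit 368) (nat_lit 220) (nat_lit 192)) (XT.lf (nat_lit 0) (nat_lit 15916762063) (nat_lit 76) (nat_lit 12208456452) (nat_lit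 76) (nat_lit 4811033576) (nat_lit 10) (nat_lit 4) (nat_lit 11) (nat_lit 5) (nat_lit 11) (nat_lit 4) (nat_lit 369) (nat_lit 220) (nat_lit 191))))))) (XT.nd (nat_lit 1014) (nat_lit 228) (nat_lit 0) (XT.nd (nat_lit 468) (nat_lit 76) (nat_lit 0) (XT.nd (nat_lit 234) (nat_lit 0) (nat_lit 0) (XT.nd (nat_lit 78) (nat_lit 152) (nat_lit 0) (XT.lf (nat_lit 0) (nat_lit 23026824111) (nat_lit 76) (nat_lit 9172036012) (nat_lit 76) (nat_lit 1615786365) (nat_lit 10) (nat_lit 4) (nat_lit 11) (nat_lit 5) (nat_lit 11) (nat_lit 4) (nat_lit 370) (nat_lit 220) (nat_lit 190)) (XT.nd (nat_lit 78) (nat_lit 76) (nat_lit 0) (XT.lf (nat_lit 0) (nat_lit 1594177136) (nat_lit 152) (nat_lit 4474270809) (nat_lit 76) (nat_lit 28651930991) (nat_lit 9) (nat_lit 5) (nat_lit 11) (nat_lit 5) (nat_lit 10) (nat_lit 4) (nat_lit 371) (nat_lit 220) (nat_lit 189)) (XT.lf (nat_lit 0) (nat_lit 1964656133) (nat_lit 76) (nat_lit 2875154700)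 (nat_lit 152) (nat_lit 30813852571) (nat_lit 8) (nat_lit 5) (nat_lit 9) (nat_lit 5) (nat_lit 10) (nat_lit 4) (nat_lit 372) (nat_lit 220) (nat_lit 188)))) (XT.nd (nat_lit 78) (nat_lit 0) (nat_lit 0) (XT.lf (nat_lit 0) (nat_lit 8185555515) (nat_lit 152) (nat_lit 28016106758) (nat_lit 0) (nat_lit 413216821) (nat_lit 8) (nat_lit 5) (nat_lit 10) (nat_lit 4) (nat_lit 8) (nat_lit 4) (nat_lit 373) (nat_lit 220) (nat_lit 187)) (XT.nd (nat_lit 78) (nat_lit 0) (nat_lit 0) (XT.lf (nat_lit 0) (nat_lit 11614638688) (nat_lit 152) (nat_lit 22285523467) (nat_lit 0) (nat_lit 3705294626) (nat_lit 8) (nat_lit 5) (nat_lit 10) (nat_lit 4) (nat_lit 8) (nat_lit 4) (nat_lit 374) (nat_lit 220) (nat_lit 186)) (XT.lf (nat_lit 0) (nat_lit 15102418893) (nat_lit 152) (nat_lit 16464612348) (nat_lit 0) (nat_lit 7060059911) (nat_lit 8) (nat_lit 5) (nat_lit 10) (nat_lit 4) (nat_lit 8) (nat_lit 4) (nat_lit 375) (nat_lit 220) (nat_lit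 185))))) (XT.nd (nat_lit 234) (nat_lit 0) (nat_lit 0) (XT.nd (nat_lit 78) (nat_lit 76) (nat_lit 0) (XT.lf (nat_lit 0) (nat_lit 18651943704) (nat_lit 152) (nat_lit 10548287166) (nat_lit 0) (nat_lit 10480444023) (nat_lit 8) (nat_lit 5) (nat_lit 10) (nat_lit 4) (nat_lit 8) (nat_lit 4) (nat_lit 376) (nat_lit 220) (nat_lit 184)) (XT.nd (nat_lit 78) (nat_lit 76) (nat_lit 0) (XT.lf (nat_lit 0) (nat_lit 22266314649) (nat_lit 152) (nat_lit 4531378318) (nat_lit 0) (nat_lit 13969435648) (nat_lit 8) (nat_lit 5) (nat_lit 10) (nat_lit 4) (nat_lit 8) (nat_lit 4) (nat_lit 377) (nat_lit 220) (nat_lit 183)) (XT.lf (nat_lit 0) (nat_lit 1623043106) (nat_lit 76) (nat_lit 24341248492) (nat_lit 76) (nat_lit 15922641997) (nat_lit 7) (nat_lit 4) (nat_lit 8) (nat_lit 5) (nat_lit 8) (nat_lit 4) (nat_lit 378) (nat_lit 220) (nat_lit 182)))) (XT.nd (nat_lit 156) (nat_lit 0) (nat_lit 0) (XT.nd (nat_lit 78) (nat_lit 0) (nat_lit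 0) (XT.lf (nat_lit 0) (nat_lit 7981051901) (nat_lit 76) (nat_lit 21797953964) (nat_lit 76) (nat_lit 13261165435) (nat_lit 7) (nat_lit 4) (nat_lit 8) (nat_lit 5) (nat_lit 8) (nat_lit 4) (nat_lit 379) (nat_lit 220) (nat_lit 181)) (XT.lf (nat_lit 0) (nat_lit 14458020295) (nat_lit 76) (nat_lit 19211345124) (nat_lit 76) (nat_lit 10559816756) (nat_lit 7) (nat_lit 4) (nat_lit 8) (nat_lit 5) (nat_lit 8) (nat_lit 4) (nat_lit 380) (nat_lit 220) (nat_lit 180))) (XT.nd (nat_lit 78) (nat_lit 0) (nat_lit 0) (XT.lf (nat_lit 0) (nat_lit 21059607774) (nat_lit 76) (nat_lit 16579161826) (nat_lit 76) (nat_lit 7816235557) (nat_lit 7) (nat_lit 4) (nat_lit 8) (nat_lit 5) (nat_lit 8) (nat_lit 4) (nat_lit 381) (nat_lit 220) (nat_lit 179)) (XT.lf (nat_lit 0) (nat_lit 27791582717) (nat_lit 76) (nat_lit 13899104107) (nat_lit 76) (nat_lit 5028024535) (nat_lit 7) (nat_lit 4) (nat_lit 8) (nat_lit 5) (nat_lit 8) (nat_lit 4)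 (nat_lit 382) (nat_lit 220) (nat_lit 178)))))) (XT.nd (nat_lit 546) (nat_lit 76) (nat_lit 0) (XT.nd (nat_lit 234) (nat_lit 76) (nat_lit 0) (XT.nd (nat_lit 78) (nat_lit 76) (nat_lit 0) (XT.lf (nat_lit 0) (nat_lit 34659827430) (nat_lit 76) (nat_lit 11168830166) (nat_lit 76) (nat_lit 2192747389) (nat_lit 7) (nat_lit 4) (nat_lit 8) (nat_lit 5) (nat_lit 8) (nat_lit 4) (nat_lit 383) (nat_lit 220) (nat_lit 177)) (XT.nd (nat_lit 78) (nat_lit 0) (nat_lit 0) (XT.lf (nat_lit 0) (nat_lit 678568465) (nat_lit 152) (nat_lit 7700533653) (nat_lit 76) (nat_lit 40984922617) (nat_lit 6) (nat_lit 5) (nat_lit 8) (nat_lit 5) (nat_lit 7) (nat_lit 4) (nat_lit 384) (nat_lit 220) (nat_lit 176)) (XT.lf (nat_lit 0) (nat_lit 3558144227) (nat_lit 152) (nat_lit 1953970449) (nat_lit 76) (nat_lit 45235181493) (nat_lit 6) (nat_lit 5) (nat_lit 8) (nat_lit 5) (nat_lit 7) (nat_lit 4) (nat_lit 385) (nat_lit 220) (nat_lit 175)))) (XT.nd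 (nat_lit 156) (nat_lit 0) (nat_lit 0) (XT.nd (nat_lit 78) (nat_lit 0) (nat_lit 0) (XT.lf (nat_lit 0) (nat_lit 3981912815) (nat_lit 76) (nat_lit 2547648196) (nat_lit 152) (nat_lit 45642351003) (nat_lit 5) (nat_lit 5) (nat_lit 6) (nat_lit 5) (nat_lit 7) (nat_lit 4) (nat_lit 386) (nat_lit 220) (nat_lit 174)) (XT.lf (nat_lit 0) (nat_lit 9582196566) (nat_lit 152) (nat_lit 43568703060) (nat_lit 0) (nat_lit 488614014) (nat_lit 5) (nat_lit 5) (nat_lit 7) (nat_lit 4) (nat_lit 5) (nat_lit 4) (nat_lit 387) (nat_lit 220) (nat_lit 173))) (XT.nd (nat_lit 78) (nat_lit 0) (nat_lit 0) (XT.lf (nat_lit 0) (nat_lit 12719876238) (nat_lit 152) (nat_lit 38893117284) (nat_lit 0) (nat_lit 3538355155) (nat_lit 5) (nat_lit 5) (nat_lit 7) (nat_lit 4) (nat_lit 5) (nat_lit 4) (nat_lit 388) (nat_lit 220) (nat_lit 172)) (XT.lf (nat_lit 0) (nat_lit 15920852139) (nat_lit 152) (nat_lit 34134666856) (nat_lit 0) (nat_lit 6653953840)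 (nat_lit 5) (nat_lit 5) (nat_lit 7) (nat_lit 4) (nat_lit 5) (nat_lit 4) (nat_lit 389) (nat_lit 220) (nat_lit 171))))) (XT.nd (nat_lit 234) (nat_lit 76) (nat_lit 0) (XT.nd (nat_lit 78) (nat_lit 0) (nat_lit 0) (XT.lf (nat_lit 0) (nat_lit 19187921235) (nat_lit 152) (nat_lit 29289193905) (nat_lit 0) (nat_lit 9838132435) (nat_lit 5) (nat_lit 5) (nat_lit 7) (nat_lit 4) (nat_lit 5) (nat_lit 4) (nat_lit 390) (nat_lit 220) (nat_lit 170)) (XT.nd (nat_lit 78) (nat_lit 0) (nat_lit 0) (XT.lf (nat_lit 0) (nat_lit 22523938249) (nat_lit 152) (nat_lit 24352464525) (nat_lit 0) (nat_lit 13093673235) (nat_lit 5) (nat_lit 5) (nat_lit 7) (nat_lit 4) (nat_lit 5) (nat_lit 4) (nat_lit 391) (nat_lit 220) (nat_lit 169)) (XT.lf (nat_lit 0) (nat_lit 25931818146) (nat_lit 152) (nat_lit 19320165067) (nat_lit 0) (nat_lit 16423420885) (nat_lit 5) (nat_lit 5) (nat_lit 7) (nat_lit 4) (nat_lit 5) (nat_lit 4) (nat_lit 392) (nat_lit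 220) (nat_lit 168)))) (XT.nd (nat_lit 156) (nat_lit 76) (nat_lit 0) (XT.nd (nat_lit 78) (nat_lit 0) (nat_lit 0) (XT.lf (nat_lit 0) (nat_lit 29414538686) (nat_lit 152) (nat_lit 14187898377) (nat_lit 0) (nat_lit 19830284875) (nat_lit 5) (nat_lit 5) (nat_lit 7) (nat_lit 4) (nat_lit 5) (nat_lit 4) (nat_lit 393) (nat_lit 220) (nat_lit 167)) (XT.lf (nat_lit 0) (nat_lit 32975143022) (nat_lit 152) (nat_lit 8951179950) (nat_lit 0) (nat_lit 23317242075) (nat_lit 5) (nat_lit 5) (nat_lit 7) (nat_lit 4) (nat_lit 5) (nat_lit 4) (nat_lit 394) (nat_lit 220) (nat_lit 166))) (XT.nd (nat_lit 78) (nat_lit 76) (nat_lit 0) (XT.lf (nat_lit 0) (nat_lit 36616742362) (nat_lit 152) (nat_lit 3605434013) (nat_lit 0) (nat_lit 26887339341) (nat_lit 5) (nat_lit 5) (nat_lit 7) (nat_lit 4) (nat_lit 5) (nat_lit 4) (nat_lit 395) (nat_lit 220) (nat_lit 165)) (XT.lf (nat_lit 0) (nat_lit 1890908917) (nat_lit 76) (nat_lit 38469786341)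 (nat_lit 76) (nat_lit 28670963831) (nat_lit 4) (nat_lit 4) (nat_lit 5) (nat_lit 5) (nat_lit 5) (nat_lit 4) (nat_lit 396) (nat_lit 220) (nat_lit 164))))))))
noncomputable def xc24 : XT := (XT.nd (nat_lit 37050) (nat_lit 0) (nat_lit 304) (XT.nd (nat_lit 36036) (nat_lit 0) (nat_lit 1064) (XT.nd (nat_lit 468) (nat_lit 0) (nat_lit 0) (XT.nd (nat_lit 234) (nat_lit 0) (nat_lit 0) (XT.nd (nat_lit 78) (nat_lit 0) (nat_lit 0) (XT.lf (nat_lit 0) (nat_lit 7579833758) (nat_lit 76) (nat_lit 36648755767) (nat_lit 76) (nat_lit 26782535695) (nat_lit 4) (nat_lit 4) (nat_lit 5) (nat_lit 5) (nat_lit 5) (nat_lit 4) (nat_lit 397) (nat_lit 220) (nat_lit 163)) (XT.nd (nat_lit 78) (nat_lit 0) (nat_lit 0) (XT.lf (nat_lit 0) (nat_lit 13394556207) (nat_lit 76) (nat_lit 34793901276) (nat_lit 76) (nat_lit 24862246676) (nat_lit 4) (nat_lit 4) (nat_lit 5) (nat_lit 5) (nat_lit 5) (nat_lit 4) (nat_lit 398) (nat_lit 220) (nat_lit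 162)) (XT.lf (nat_lit 0) (nat_lit 19340157090) (nat_lit 76) (nat_lit 32903602119) (nat_lit 76) (nat_lit 22908418853) (nat_lit 4) (nat_lit 4) (nat_lit 5) (nat_lit 5) (nat_lit 5) (nat_lit 4) (nat_lit 399) (nat_lit 220) (nat_lit 161)))) (XT.nd (nat_lit 78) (nat_lit 0) (nat_lit 0) (XT.lf (nat_lit 0) (nat_lit 25421831592) (nat_lit 76) (nat_lit 30976206581) (nat_lit 76) (nat_lit 20919344998) (nat_lit 4) (nat_lit 4) (nat_lit 5) (nat_lit 5) (nat_lit 5) (nat_lit 4) (nat_lit 400) (nat_lit 220) (nat_lit 160)) (XT.nd (nat_lit 78) (nat_lit 0) (nat_lit 0) (XT.lf (nat_lit 0) (nat_lit 31644893797) (nat_lit 76) (nat_lit 29010030528) (nat_lit 76) (nat_lit 18893287084) (nat_lit 4) (nat_lit 4) (nat_lit 5) (nat_lit 5) (nat_lit 5) (nat_lit 4) (nat_lit 401) (nat_lit 220) (nat_lit 159)) (XT.lf (nat_lit 0) (nat_lit 38014781333) (nat_lit 76) (nat_lit 27003355943) (nat_lit 76) (nat_lit 16828474769) (nat_lit 4) (nat_lit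 4) (nat_lit 5) (nat_lit 5) (nat_lit 5) (nat_lit 4) (nat_lit 402) (nat_lit 220) (nat_lit 158))))) (XT.nd (nat_lit 234) (nat_lit 0) (nat_lit 0) (XT.nd (nat_lit 78) (nat_lit 0) (nat_lit 0) (XT.lf (nat_lit 0) (nat_lit 44537060120) (nat_lit 76) (nat_lit 24954429421) (nat_lit 76) (nat_lit 14723103850) (nat_lit 4) (nat_lit 4) (nat_lit 5) (nat_lit 5) (nat_lit 5) (nat_lit 4) (nat_lit 403) (nat_lit 220) (nat_lit 157)) (XT.nd (nat_lit 78) (nat_lit 0) (nat_lit 0) (XT.lf (nat_lit 0) (nat_lit 51217429238) (nat_lit 76) (nat_lit 22861460638) (nat_lit 76) (nat_lit 12575334681) (nat_lit 4) (nat_lit 4) (nat_lit 5) (nat_lit 5) (nat_lit 5) (nat_lit 4) (nat_lit 404) (nat_lit 220) (nat_lit 156)) (XT.lf (nat_lit 0) (nat_lit 58061725902) (nat_lit 76) (nat_lit 20722620786) (nat_lit 76) (nat_lit 10383290571) (nat_lit 4) (nat_lit 4) (nat_lit 5) (nat_lit 5) (nat_lit 5) (nat_lit 4) (nat_lit 405) (nat_lit 220) (nat_lit 155))))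 (XT.nd (nat_lit 156) (nat_lit 0) (nat_lit 0) (XT.nd (nat_lit 78) (nat_lit 0) (nat_lit 0) (XT.lf (nat_lit 0) (nat_lit 65075930566) (nat_lit 76) (nat_lit 18536040976) (nat_lit 76) (nat_lit 8145056141) (nat_lit 4) (nat_lit 4) (nat_lit 5) (nat_lit 5) (nat_lit 5) (nat_lit 4) (nat_lit 406) (nat_lit 220) (nat_lit 154)) (XT.lf (nat_lit 0) (nat_lit 72266172145) (nat_lit 76) (nat_lit 16299810604) (nat_lit 76) (nat_lit 5858675653) (nat_lit 4) (nat_lit 4) (nat_lit 5) (nat_lit 5) (nat_lit 5) (nat_lit 4) (nat_lit 407) (nat_lit 220) (nat_lit 153))) (XT.nd (nat_lit 78) (nat_lit 0) (nat_lit 0) (XT.lf (nat_lit 0) (nat_lit 79638733376) (nat_lit 76) (nat_lit 14011975683) (nat_lit 76) (nat_lit 3522151299) (nat_lit 4) (nat_lit 4) (nat_lit 5) (nat_lit 5) (nat_lit 5) (nat_lit 4) (nat_lit 408) (nat_lit 220) (nat_lit 152)) (XT.lf (nat_lit 0) (nat_lit 87200056302) (nat_lit 76) (nat_lit 11670537133) (nat_lit 76) (nat_lit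 1133441454) (nat_lit 4) (nat_lit 4) (nat_lit 5) (nat_lit 5) (nat_lit 5) (nat_lit 4) (nat_lit 409) (nat_lit 220) (nat_lit 151)))))) (XT.nd (nat_lit 468) (nat_lit 456) (nat_lit 0) (XT.nd (nat_lit 234) (nat_lit 228) (nat_lit 0) (XT.nd (nat_lit 78) (nat_lit 228) (nat_lit 0) (XT.lf (nat_lit 0) (nat_lit 3861152039) (nat_lit 228) (nat_lit 153754183) (nat_lit 0) (nat_lit 3861152039) (nat_lit 30) (nat_lit 5) (nat_lit 33) (nat_lit 4) (nat_lit 30) (nat_lit 4) (nat_lit 338) (nat_lit 221) (nat_lit 221)) (XT.nd (nat_lit 78) (nat_lit 76) (nat_lit 0) (XT.lf (nat_lit 0) (nat_lit 7716908409) (nat_lit 152) (nat_lit 4406705489) (nat_lit 152) (nat_lit 3959788802) (nat_lit 28) (nat_lit 4) (nat_lit 30) (nat_lit 5) (nat_lit 30) (nat_lit 4) (nat_lit 339) (nat_lit 221) (nat_lit 220)) (XT.lf (nat_lit 0) (nat_lit 140484879) (nat_lit 228) (nat_lit 595632078) (nat_lit 76) (nat_lit 15691107629) (nat_lit 27) (nat_lit 5) (nat_lit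 30) (nat_lit 5) (nat_lit 28) (nat_lit 4) (nat_lit 340) (nat_lit 221) (nat_lit 219)))) (XT.nd (nat_lit 78) (nat_lit 152) (nat_lit 0) (XT.lf (nat_lit 0) (nat_lit 4296843124) (nat_lit 152) (nat_lit 9450315712) (nat_lit 0) (nat_lit 3032689508) (nat_lit 26) (nat_lit 5) (nat_lit 28) (nat_lit 4) (nat_lit 26) (nat_lit 4) (nat_lit 341) (nat_lit 221) (nat_lit 218)) (XT.nd (nat_lit 78) (nat_lit 152) (nat_lit 0) (XT.lf (nat_lit 0) (nat_lit 8503922316) (nat_lit 152) (nat_lit 1798700639) (nat_lit 0) (nat_lit 6842689012) (nat_lit 26) (nat_lit 5) (nat_lit 28) (nat_lit 4) (nat_lit 26) (nat_lit 4) (nat_lit 342) (nat_lit 221) (nat_lit 217)) (XT.lf (nat_lit 0) (nat_lit 6051872656) (nat_lit 152) (nat_lit 6758726835) (nat_lit 152) (nat_lit 4711979270) (nat_lit 24) (nat_lit 4) (nat_lit 26) (nat_lit 5) (nat_lit 26) (nat_lit 4) (nat_lit 343) (nat_lit 221) (nat_lit 216))))) (XT.nd (nat_lit 234) (nat_lit 304) (nat_lit 0)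 (XT.nd (nat_lit 78) (nat_lit 152) (nat_lit 0) (XT.lf (nat_lit 0) (nat_lit 14027608376) (nat_lit 152) (nat_lit 3153297604) (nat_lit 152) (nat_lit 732264350) (nat_lit 24) (nat_lit 4) (nat_lit 26) (nat_lit 5) (nat_lit 26) (nat_lit 4) (nat_lit 344) (nat_lit 221) (nat_lit 215)) (XT.nd (nat_lit 78) (nat_lit 0) (nat_lit 0) (XT.lf (nat_lit 0) (nat_lit 3261240801) (nat_lit 152) (nat_lit 14496579430) (nat_lit 0) (nat_lit 557922918) (nat_lit 22) (nat_lit 5) (nat_lit 24) (nat_lit 4) (nat_lit 22) (nat_lit 4) (nat_lit 345) (nat_lit 221) (nat_lit 214)) (XT.lf (nat_lit 0) (nat_lit 7348960257) (nat_lit 152) (nat_lit 7078459913) (nat_lit 0) (nat_lit 4303117948) (nat_lit 22) (nat_lit 5) (nat_lit 24) (nat_lit 4) (nat_lit 22) (nat_lit 4) (nat_lit 346) (nat_lit 221) (nat_lit 213)))) (XT.nd (nat_lit 156) (nat_lit 152) (nat_lit 0) (XT.nd (nat_lit 78) (nat_lit 0) (nat_lit 0) (XT.lf (nat_lit 0) (nat_lit 429748506) (nat_lit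 152) (nat_lit 11054355089) (nat_lit 152) (nat_lit 7675964793) (nat_lit 20) (nat_lit 4) (nat_lit 22) (nat_lit 5) (nat_lit 22) (nat_lit 4) (nat_lit 347) (nat_lit 221) (nat_lit 212)) (XT.lf (nat_lit 0) (nat_lit 8168844833) (nat_lit 152) (nat_lit 7567566522) (nat_lit 152) (nat_lit 3866314101) (nat_lit 20) (nat_lit 4) (nat_lit 22) (nat_lit 5) (nat_lit 22) (nat_lit 4) (nat_lit 348) (nat_lit 221) (nat_lit 211))) (XT.nd (nat_lit 78) (nat_lit 152) (nat_lit 0) (XT.lf (nat_lit 0) (nat_lit 16004716155) (nat_lit 152) (nat_lit 4035486326) (nat_lit 152) (nat_lit 20775533) (nat_lit 20) (nat_lit 4) (nat_lit 22) (nat_lit 5) (nat_lit 22) (nat_lit 4) (nat_lit 349) (nat_lit 221) (nat_lit 210)) (XT.lf (nat_lit 0) (nat_lit 3438945855) (nat_lit 76) (nat_lit 382721713) (nat_lit 152) (nat_lit 16711452890) (nat_lit 18) (nat_lit 5) (nat_lit 19) (nat_lit 5) (nat_lit 20) (nat_lit 4) (nat_lit 350) (nat_lit 221) (nat_lit 209)))))))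 (XT.nd (nat_lit 1014) (nat_lit 228) (nat_lit 0) (XT.nd (nat_lit 468) (nat_lit 228) (nat_lit 0) (XT.nd (nat_lit 234) (nat_lit 152) (nat_lit 0) (XT.nd (nat_lit 78) (nat_lit 152) (nat_lit 0) (XT.lf (nat_lit 0) (nat_lit 7778537628) (nat_lit 152) (nat_lit 9942489857) (nat_lit 0) (nat_lit 3298436765) (nat_lit 18) (nat_lit 5) (nat_lit 20) (nat_lit 4) (nat_lit 18) (nat_lit 4) (nat_lit 351) (nat_lit 221) (nat_lit 208)) (XT.nd (nat_lit 78) (nat_lit 152) (nat_lit 0) (XT.lf (nat_lit 0) (nat_lit 11785785018) (nat_lit 152) (nat_lit 2709512248) (nat_lit 0) (nat_lit 7027180450) (nat_lit 18) (nat_lit 5) (nat_lit 20) (nat_lit 4) (nat_lit 18) (nat_lit 4) (nat_lit 352) (nat_lit 221) (nat_lit 207)) (XT.lf (nat_lit 0) (nat_lit 4706599974) (nat_lit 152) (nat_lit 11181875004) (nat_lit 152) (nat_lit 6152878491) (nat_lit 16) (nat_lit 4) (nat_lit 18) (nat_lit 5) (nat_lit 18) (nat_lit 4) (nat_lit 353) (nat_lit 221) (nat_lit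 206)))) (XT.nd (nat_lit 78) (nat_lit 152) (nat_lit 0) (XT.lf (nat_lit 0) (nat_lit 12276272804) (nat_lit 152) (nat_lit 7796158939) (nat_lit 152) (nat_lit 2504645973) (nat_lit 16) (nat_lit 4) (nat_lit 18) (nat_lit 5) (nat_lit 18) (nat_lit 4) (nat_lit 354) (nat_lit 221) (nat_lit 205)) (XT.nd (nat_lit 78) (nat_lit 76) (nat_lit 0) (XT.lf (nat_lit 0) (nat_lit 1160731044) (nat_lit 228) (nat_lit 3190099286) (nat_lit 76) (nat_lit 18779743759) (nat_lit 15) (nat_lit 5) (nat_lit 18) (nat_lit 5) (nat_lit 16) (nat_lit 4) (nat_lit 355) (nat_lit 221) (nat_lit 204)) (XT.lf (nat_lit 0) (nat_lit 4069890471) (nat_lit 76) (nat_lit 789085248) (nat_lit 152) (nat_lit 18841783706) (nat_lit 14) (nat_lit 5) (nat_lit 15) (nat_lit 5) (nat_lit 16) (nat_lit 4) (nat_lit 356) (nat_lit 221) (nat_lit 203))))) (XT.nd (nat_lit 234) (nat_lit 152) (nat_lit 0) (XT.nd (nat_lit 78) (nat_lit 76) (nat_lit 0) (XT.lf (nat_lit 0) (nat_lit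 8662790534) (nat_lit 152) (nat_lit 12820975646) (nat_lit 0) (nat_lit 2804470163) (nat_lit 14) (nat_lit 5) (nat_lit 16) (nat_lit 4) (nat_lit 14) (nat_lit 4) (nat_lit 357) (nat_lit 221) (nat_lit 202)) (XT.nd (nat_lit 78) (nat_lit 76) (nat_lit 0) (XT.lf (nat_lit 0) (nat_lit 12524853361) (nat_lit 152) (nat_lit 5930100189) (nat_lit 0) (nat_lit 6440083992) (nat_lit 14) (nat_lit 5) (nat_lit 16) (nat_lit 4) (nat_lit 14) (nat_lit 4) (nat_lit 358) (nat_lit 221) (nat_lit 201)) (XT.lf (nat_lit 0) (nat_lit 1076367546) (nat_lit 76) (nat_lit 15374932808) (nat_lit 76) (nat_lit 9070310043) (nat_lit 13) (nat_lit 4) (nat_lit 14) (nat_lit 5) (nat_lit 14) (nat_lit 4) (nat_lit 359) (nat_lit 221) (nat_lit 200)))) (XT.nd (nat_lit 156) (nat_lit 152) (nat_lit 0) (XT.nd (nat_lit 78) (nat_lit 0) (nat_lit 0) (XT.lf (nat_lit 0) (nat_lit 8303552151) (nat_lit 76) (nat_lit 12190779908) (nat_lit 76) (nat_lit 5672707245) (nat_lit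 13) (nat_lit 4) (nat_lit 14) (nat_lit 5) (nat_lit 14) (nat_lit 4) (nat_lit 360) (nat_lit 221) (nat_lit 199)) (XT.lf (nat_lit 0) (nat_lit 15639748019) (nat_lit 76) (nat_lit 8959594967) (nat_lit 76) (nat_lit 2234289392) (nat_lit 13) (nat_lit 4) (nat_lit 14) (nat_lit 5) (nat_lit 14) (nat_lit 4) (nat_lit 361) (nat_lit 221) (nat_lit 198))) (XT.nd (nat_lit 78) (nat_lit 76) (nat_lit 0) (XT.lf (nat_lit 0) (nat_lit 1223595997) (nat_lit 152) (nat_lit 4442602701) (nat_lit 76) (nat_lit 21855413502) (nat_lit 12) (nat_lit 5) (nat_lit 14) (nat_lit 5) (nat_lit 13) (nat_lit 4) (nat_lit 362) (nat_lit 221) (nat_lit 197)) (XT.lf (nat_lit 0) (nat_lit 2433828456) (nat_lit 76) (nat_lit 2273397123) (nat_lit 152) (nat_lit 23523354834) (nat_lit 11) (nat_lit 5) (nat_lit 12) (nat_lit 5) (nat_lit 13) (nat_lit 4) (nat_lit 363) (nat_lit 221) (nat_lit 196)))))) (XT.nd (nat_lit 546) (nat_lit 152) (nat_lit 0) (XT.nd (nat_lit 234)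 (nat_lit 76) (nat_lit 0) (XT.nd (nat_lit 78) (nat_lit 0) (nat_lit 0) (XT.lf (nat_lit 0) (nat_lit 8296153171) (nat_lit 152) (nat_lit 19467038168) (nat_lit 0) (nat_lit 1197622160) (nat_lit 11) (nat_lit 5) (nat_lit 13) (nat_lit 4) (nat_lit 11) (nat_lit 4) (nat_lit 364) (nat_lit 221) (nat_lit 195)) (XT.nd (nat_lit 78) (nat_lit 0) (nat_lit 0) (XT.lf (nat_lit 0) (nat_lit 11960640541) (nat_lit 152) (nat_lit 13069946613) (nat_lit 0) (nat_lit 4683348600) (nat_lit 11) (nat_lit 5) (nat_lit 13) (nat_lit 4) (nat_lit 11) (nat_lit 4) (nat_lit 365) (nat_lit 221) (nat_lit 194)) (XT.lf (nat_lit 0) (nat_lit 15682036384) (nat_lit 152) (nat_lit 6578034315) (nat_lit 0) (nat_lit 8231190143) (nat_lit 11) (nat_lit 5) (nat_lit 13) (nat_lit 4) (nat_lit 11) (nat_lit 4) (nat_lit 366) (nat_lit 221) (nat_lit 193)))) (XT.nd (nat_lit 156) (nat_lit 0) (nat_lit 0) (XT.nd (nat_lit 78) (nat_lit 0) (nat_lit 0) (XT.lf (nat_lit 0) (nat_lit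 14657286) (nat_lit 76) (nat_lit 19449076014) (nat_lit 76) (nat_lit 11829730451) (nat_lit 10) (nat_lit 4) (nat_lit 11) (nat_lit 5) (nat_lit 11) (nat_lit 4) (nat_lit 367) (nat_lit 221) (nat_lit 192)) (XT.lf (nat_lit 0) (nat_lit 6846632967) (nat_lit 76) (nat_lit 16527793936) (nat_lit 76) (nat_lit 8744856800) (nat_lit 10) (nat_lit 4) (nat_lit 11) (nat_lit 5) (nat_lit 11) (nat_lit 4) (nat_lit 368) (nat_lit 221) (nat_lit 191))) (XT.nd (nat_lit 78) (nat_lit 0) (nat_lit 0) (XT.lf (nat_lit 0) (nat_lit 13792946633) (nat_lit 76) (nat_lit 13560097138) (nat_lit 76) (nat_lit 5618333230) (nat_lit 10) (nat_lit 4) (nat_lit 11) (nat_lit 5) (nat_lit 11) (nat_lit 4) (nat_lit 369) (nat_lit 221) (nat_lit 190)) (XT.lf (nat_lit 0) (nat_lit 20859667878) (nat_lit 76) (nat_lit 10543392486) (nat_lit 76) (nat_lit 2447427830) (nat_lit 10) (nat_lit 4) (nat_lit 11) (nat_lit 5) (nat_lit 11) (nat_lit 4) (nat_lit 370) (nat_lit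 221) (nat_lit 189))))) (XT.nd (nat_lit 234) (nat_lit 0) (nat_lit 0) (XT.nd (nat_lit 78) (nat_lit 76) (nat_lit 0) (XT.lf (nat_lit 0) (nat_lit 755592327) (nat_lit 152) (nat_lit 6711821696) (nat_lit 76) (nat_lit 27289749179) (nat_lit 9) (nat_lit 5) (nat_lit 11) (nat_lit 5) (nat_lit 10) (nat_lit 4) (nat_lit 371) (nat_lit 221) (nat_lit 188)) (XT.nd (nat_lit 78) (nat_lit 76) (nat_lit 0) (XT.lf (nat_lit 0) (nat_lit 3959843787) (nat_lit 152) (nat_lit 352540226) (nat_lit 76) (nat_lit 31379312487) (nat_lit 9) (nat_lit 5) (nat_lit 11) (nat_lit 5) (nat_lit 10) (nat_lit 4) (nat_lit 372) (nat_lit 221) (nat_lit 187)) (XT.lf (nat_lit 0) (nat_lit 6237829438) (nat_lit 76) (nat_lit 1038016907) (nat_lit 152) (nat_lit 29377965257) (nat_lit 8) (nat_lit 5) (nat_lit 9) (nat_lit 5) (nat_lit 10) (nat_lit 4) (nat_lit 373) (nat_lit 221) (nat_lit 186)))) (XT.nd (nat_lit 156) (nat_lit 0) (nat_lit 0) (XT.nd (nat_lit 78) (nat_lit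 0) (nat_lit 0) (XT.lf (nat_lit 0) (nat_lit 10673190153) (nat_lit 152) (nat_lit 24715612775) (nat_lit 0) (nat_lit 2256545481) (nat_lit 8) (nat_lit 5) (nat_lit 10) (nat_lit 4) (nat_lit 8) (nat_lit 4) (nat_lit 374) (nat_lit 221) (nat_lit 185)) (XT.lf (nat_lit 0) (nat_lit 14139842870) (nat_lit 152) (nat_lit 18933722972) (nat_lit 0) (nat_lit 5594057500) (nat_lit 8) (nat_lit 5) (nat_lit 10) (nat_lit 4) (nat_lit 8) (nat_lit 4) (nat_lit 375) (nat_lit 221) (nat_lit 184))) (XT.nd (nat_lit 78) (nat_lit 0) (nat_lit 0) (XT.lf (nat_lit 0) (nat_lit 17668855558) (nat_lit 152) (nat_lit 13055282563) (nat_lit 0) (nat_lit 8997690868) (nat_lit 8) (nat_lit 5) (nat_lit 10) (nat_lit 4) (nat_lit 8) (nat_lit 4) (nat_lit 376) (nat_lit 221) (nat_lit 183)) (XT.lf (nat_lit 0) (nat_lit 21263311820) (nat_lit 152) (nat_lit 7075155048) (nat_lit 0) (nat_lit 12470419635) (nat_lit 8) (nat_lit 5) (nat_lit 10) (nat_lit 4) (nat_lit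 8) (nat_lit 4) (nat_lit 377) (nat_lit 221) (nat_lit 182))))))))
noncomputable def xc25 : XT := (XT.nd (nat_lit 2028) (nat_lit 0) (nat_lit 0) (XT.nd (nat_lit 1014) (nat_lit 76) (nat_lit 0) (XT.nd (nat_lit 468) (nat_lit 152) (nat_lit 0) (XT.nd (nat_lit 234) (nat_lit 0) (nat_lit 0) (XT.nd (nat_lit 78) (nat_lit 76) (nat_lit 0) (XT.lf (nat_lit 0) (nat_lit 24926352442) (nat_lit 152) (nat_lit 988115072) (nat_lit 0) (nat_lit 16015278224) (nat_lit 8) (nat_lit 5) (nat_lit 10) (nat_lit 4) (nat_lit 8) (nat_lit 4) (nat_lit 378) (nat_lit 221) (nat_lit 181)) (XT.nd (nat_lit 78) (nat_lit 0) (nat_lit 0) (XT.lf (nat_lit 0) (nat_lit 5314868361) (nat_lit 76) (nat_lit 23397399545) (nat_lit 76) (nat_lit 14371585488) (nat_lit 7) (nat_lit 4) (nat_lit 8) (nat_lit 5) (nat_lit 8) (nat_lit 4) (nat_lit 379) (nat_lit 221) (nat_lit 180)) (XT.lf (nat_lit 0) (nat_lit 11757506722) (nat_lit 76) (nat_lit 20826565980) (nat_lit 76)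 (nat_lit 11689354021) (nat_lit 7) (nat_lit 4) (nat_lit 8) (nat_lit 5) (nat_lit 8) (nat_lit 4) (nat_lit 380) (nat_lit 221) (nat_lit 179)))) (XT.nd (nat_lit 78) (nat_lit 0) (nat_lit 0) (XT.lf (nat_lit 0) (nat_lit 18325764073) (nat_lit 76) (nat_lit 18209698484) (nat_lit 76) (nat_lit 8964333223) (nat_lit 7) (nat_lit 4) (nat_lit 8) (nat_lit 5) (nat_lit 8) (nat_lit 4) (nat_lit 381) (nat_lit 221) (nat_lit 178)) (XT.nd (nat_lit 78) (nat_lit 0) (nat_lit 0) (XT.lf (nat_lit 0) (nat_lit 25025379667) (nat_lit 76) (nat_lit 15544510474) (nat_lit 76) (nat_lit 6194142006) (nat_lit 7) (nat_lit 4) (nat_lit 8) (nat_lit 5) (nat_lit 8) (nat_lit 4) (nat_lit 382) (nat_lit 221) (nat_lit 177)) (XT.lf (nat_lit 0) (nat_lit 31862207537) (nat_lit 76) (nat_lit 12828673145) (nat_lit 76) (nat_lit 3376359817) (nat_lit 7) (nat_lit 4) (nat_lit 8) (nat_lit 5) (nat_lit 8) (nat_lit 4) (nat_lit 383) (nat_lit 221) (nat_lit 176))))) (XT.nd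 (nat_lit 234) (nat_lit 0) (nat_lit 0) (XT.nd (nat_lit 78) (nat_lit 152) (nat_lit 0) (XT.lf (nat_lit 0) (nat_lit 38842221611) (nat_lit 76) (nat_lit 10059813435) (nat_lit 76) (nat_lit 508524515) (nat_lit 7) (nat_lit 4) (nat_lit 8) (nat_lit 5) (nat_lit 8) (nat_lit 4) (nat_lit 384) (nat_lit 221) (nat_lit 175)) (XT.nd (nat_lit 78) (nat_lit 76) (nat_lit 0) (XT.lf (nat_lit 0) (nat_lit 2364805508) (nat_lit 152) (nat_lit 4846826546) (nat_lit 76) (nat_lit 43582835523) (nat_lit 6) (nat_lit 5) (nat_lit 8) (nat_lit 5) (nat_lit 7) (nat_lit 4) (nat_lit 385) (nat_lit 221) (nat_lit 174)) (XT.lf (nat_lit 0) (nat_lit 1001836691) (nat_lit 76) (nat_lit 4290041342) (nat_lit 152) (nat_lit 46928540444) (nat_lit 5) (nat_lit 5) (nat_lit 6) (nat_lit 5) (nat_lit 7) (nat_lit 4) (nat_lit 386) (nat_lit 221) (nat_lit 173)))) (XT.nd (nat_lit 156) (nat_lit 0) (nat_lit 0) (XT.nd (nat_lit 78) (nat_lit 0) (nat_lit 0) (XT.lf (nat_lit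 0) (nat_lit 7066885473) (nat_lit 76) (nat_lit 1257320377) (nat_lit 152) (nat_lit 45364428072) (nat_lit 5) (nat_lit 5) (nat_lit 6) (nat_lit 5) (nat_lit 7) (nat_lit 4) (nat_lit 387) (nat_lit 221) (nat_lit 172)) (XT.lf (nat_lit 0) (nat_lit 11434610149) (nat_lit 152) (nat_lit 41962353842) (nat_lit 0) (nat_lit 1804327685) (nat_lit 5) (nat_lit 5) (nat_lit 7) (nat_lit 4) (nat_lit 5) (nat_lit 4) (nat_lit 388) (nat_lit 221) (nat_lit 171))) (XT.nd (nat_lit 78) (nat_lit 0) (nat_lit 0) (XT.lf (nat_lit 0) (nat_lit 14620839211) (nat_lit 152) (nat_lit 37231357104) (nat_lit 0) (nat_lit 4907666247) (nat_lit 5) (nat_lit 5) (nat_lit 7) (nat_lit 4) (nat_lit 5) (nat_lit 4) (nat_lit 389) (nat_lit 221) (nat_lit 170)) (XT.lf (nat_lit 0) (nat_lit 17873590990) (nat_lit 152) (nat_lit 32412538221) (nat_lit 0) (nat_lit 8079941811) (nat_lit 5) (nat_lit 5) (nat_lit 7) (nat_lit 4) (nat_lit 5) (nat_lit 4) (nat_lit 390) (nat_lit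 221) (nat_lit 169)))))) (XT.nd (nat_lit 468) (nat_lit 76) (nat_lit 0) (XT.nd (nat_lit 234) (nat_lit 0) (nat_lit 0) (XT.nd (nat_lit 78) (nat_lit 0) (nat_lit 0) (XT.lf (nat_lit 0) (nat_lit 21195707694) (nat_lit 152) (nat_lit 27501686577) (nat_lit 0) (nat_lit 11323926269) (nat_lit 5) (nat_lit 5) (nat_lit 7) (nat_lit 4) (nat_lit 5) (nat_lit 4) (nat_lit 391) (nat_lit 221) (nat_lit 168)) (XT.nd (nat_lit 78) (nat_lit 0) (nat_lit 0) (XT.lf (nat_lit 0) (nat_lit 24590092146) (nat_lit 152) (nat_lit 22494511135) (nat_lit 0) (nat_lit 14642454170) (nat_lit 5) (nat_lit 5) (nat_lit 7) (nat_lit 4) (nat_lit 5) (nat_lit 4) (nat_lit 392) (nat_lit 221) (nat_lit 167)) (XT.lf (nat_lit 0) (nat_lit 28059710311) (nat_lit 152) (nat_lit 17386636693) (nat_lit 0) (nat_lit 18038425200) (nat_lit 5) (nat_lit 5) (nat_lit 7) (nat_lit 4) (nat_lit 5) (nat_lit 4) (nat_lit 393) (nat_lit 221) (nat_lit 166)))) (XT.nd (nat_lit 78) (nat_lit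 0) (nat_lit 0) (XT.lf (nat_lit 0) (nat_lit 31607593896) (nat_lit 152) (nat_lit 12173600060) (nat_lit 0) (nat_lit 21514806710) (nat_lit 5) (nat_lit 5) (nat_lit 7) (nat_lit 4) (nat_lit 5) (nat_lit 4) (nat_lit 394) (nat_lit 221) (nat_lit 165)) (XT.nd (nat_lit 78) (nat_lit 0) (nat_lit 0) (XT.lf (nat_lit 0) (nat_lit 35236842992) (nat_lit 152) (nat_lit 6850846156) (nat_lit 0) (nat_lit 25074636317) (nat_lit 5) (nat_lit 5) (nat_lit 7) (nat_lit 4) (nat_lit 5) (nat_lit 4) (nat_lit 395) (nat_lit 221) (nat_lit 164)) (XT.lf (nat_lit 0) (nat_lit 38950628787) (nat_lit 152) (nat_lit 1413724031) (nat_lit 0) (nat_lit 28721024550) (nat_lit 5) (nat_lit 5) (nat_lit 7) (nat_lit 4) (nat_lit 5) (nat_lit 4) (nat_lit 396) (nat_lit 221) (nat_lit 163))))) (XT.nd (nat_lit 234) (nat_lit 0) (nat_lit 0) (XT.nd (nat_lit 78) (nat_lit 0) (nat_lit 0) (XT.lf (nat_lit 0) (nat_lit 4224961413) (nat_lit 76) (nat_lit 38567847839) (nat_lit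 76) (nat_lit 28272809075) (nat_lit 4) (nat_lit 4) (nat_lit 5) (nat_lit 5) (nat_lit 5) (nat_lit 4) (nat_lit 397) (nat_lit 221) (nat_lit 162)) (XT.nd (nat_lit 78) (nat_lit 0) (nat_lit 0) (XT.lf (nat_lit 0) (nat_lit 10018224138) (nat_lit 76) (nat_lit 36722944564) (nat_lit 76) (nat_lit 26364377133) (nat_lit 4) (nat_lit 4) (nat_lit 5) (nat_lit 5) (nat_lit 5) (nat_lit 4) (nat_lit 398) (nat_lit 221) (nat_lit 161)) (XT.lf (nat_lit 0) (nat_lit 15942990337) (nat_lit 76) (nat_lit 34842306783) (nat_lit 76) (nat_lit 24422061036) (nat_lit 4) (nat_lit 4) (nat_lit 5) (nat_lit 5) (nat_lit 5) (nat_lit 4) (nat_lit 399) (nat_lit 221) (nat_lit 160)))) (XT.nd (nat_lit 156) (nat_lit 0) (nat_lit 0) (XT.nd (nat_lit 78) (nat_lit 0) (nat_lit 0) (XT.lf (nat_lit 0) (nat_lit 22004436991) (nat_lit 76) (nat_lit 32924291221) (nat_lit 76) (nat_lit 22444163612) (nat_lit 4) (nat_lit 4) (nat_lit 5) (nat_lit 5) (nat_lit 5) (nat_lit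 4) (nat_lit 400) (nat_lit 221) (nat_lit 159)) (XT.lf (nat_lit 0) (nat_lit 28207860508) (nat_lit 76) (nat_lit 30967221942) (nat_lit 76) (nat_lit 20428956603) (nat_lit 4) (nat_lit 4) (nat_lit 5) (nat_lit 5) (nat_lit 5) (nat_lit 4) (nat_lit 401) (nat_lit 221) (nat_lit 158))) (XT.nd (nat_lit 78) (nat_lit 0) (nat_lit 0) (XT.lf (nat_lit 0) (nat_lit 34558681357) (nat_lit 76) (nat_lit 28969388884) (nat_lit 76) (nat_lit 18374679148) (nat_lit 4) (nat_lit 4) (nat_lit 5) (nat_lit 5) (nat_lit 5) (nat_lit 4) (nat_lit 402) (nat_lit 221) (nat_lit 157)) (XT.lf (nat_lit 0) (nat_lit 41062448798) (nat_lit 76) (nat_lit 26929046370) (nat_lit 76) (nat_lit 16279536248) (nat_lit 4) (nat_lit 4) (nat_lit 5) (nat_lit 5) (nat_lit 5) (nat_lit 4) (nat_lit 403) (nat_lit 221) (nat_lit 156))))))) (XT.nd (nat_lit 35880) (nat_lit 0) (nat_lit 760) (XT.nd (nat_lit 35334) (nat_lit 0) (nat_lit 1672) (XT.nd (nat_lit 234) (nat_lit 0)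 (nat_lit 0) (XT.nd (nat_lit 78) (nat_lit 0) (nat_lit 0) (XT.lf (nat_lit 0) (nat_lit 47724845735) (nat_lit 76) (nat_lit 24844411574) (nat_lit 76) (nat_lit 14141697194) (nat_lit 4) (nat_lit 4) (nat_lit 5) (nat_lit 5) (nat_lit 5) (nat_lit 4) (nat_lit 404) (nat_lit 221) (nat_lit 155)) (XT.nd (nat_lit 78) (nat_lit 0) (nat_lit 0) (XT.lf (nat_lit 0) (nat_lit 54551693680) (nat_lit 76) (nat_lit 22713662972) (nat_lit 76) (nat_lit 11959293972) (nat_lit 4) (nat_lit 4) (nat_lit 5) (nat_lit 5) (nat_lit 5) (nat_lit 4) (nat_lit 405) (nat_lit 221) (nat_lit 154)) (XT.lf (nat_lit 0) (nat_lit 61548957839) (nat_lit 76) (nat_lit 20534938744) (nat_lit 76) (nat_lit 9730419628) (nat_lit 4) (nat_lit 4) (nat_lit 5) (nat_lit 5) (nat_lit 5) (nat_lit 4) (nat_lit 406) (nat_lit 221) (nat_lit 153)))) (XT.nd (nat_lit 78) (nat_lit 0) (nat_lit 0) (XT.lf (nat_lit 0) (nat_lit 68722752327) (nat_lit 76) (nat_lit 18306335151) (nat_lit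 76) (nat_lit 7453126603) (nat_lit 4) (nat_lit 4) (nat_lit 5) (nat_lit 5) (nat_lit 5) (nat_lit 4) (nat_lit 407) (nat_lit 221) (nat_lit 152)) (XT.nd (nat_lit 78) (nat_lit 0) (nat_lit 0) (XT.lf (nat_lit 0) (nat_lit 76079345508) (nat_lit 76) (nat_lit 16025904870) (nat_lit 76) (nat_lit 5125425027) (nat_lit 4) (nat_lit 4) (nat_lit 5) (nat_lit 5) (nat_lit 5) (nat_lit 4) (nat_lit 408) (nat_lit 221) (nat_lit 151)) (XT.lf (nat_lit 0) (nat_lit 83625165473) (nat_lit 76) (nat_lit 13691655291) (nat_lit 76) (nat_lit 2745280987) (nat_lit 4) (nat_lit 4) (nat_lit 5) (nat_lit 5) (nat_lit 5) (nat_lit 4) (nat_lit 409) (nat_lit 221) (nat_lit 150))))) (XT.nd (nat_lit 234) (nat_lit 304) (nat_lit 0) (XT.nd (nat_lit 78) (nat_lit 228) (nat_lit 0) (XT.lf (nat_lit 0) (nat_lit 7247853150) (nat_lit 152) (nat_lit 156134735) (nat_lit 152) (nat_lit 156134735) (nat_lit 33) (nat_lit 4) (nat_lit 35) (nat_lit 5) (nat_lit 35) (nat_lit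 4) (nat_lit 336) (nat_lit 222) (nat_lit 222)) (XT.nd (nat_lit 78) (nat_lit 0) (nat_lit 0) (XT.lf (nat_lit 0) (nat_lit 3893502797) (nat_lit 228) (nat_lit 8104324284) (nat_lit 0) (nat_lit 3433178609) (nat_lit 30) (nat_lit 5) (nat_lit 33) (nat_lit 4) (nat_lit 30) (nat_lit 4) (nat_lit 337) (nat_lit 222) (nat_lit 221)) (XT.lf (nat_lit 0) (nat_lit 8137963706) (nat_lit 228) (nat_lit 384793242) (nat_lit 0) (nat_lit 7230722831) (nat_lit 30) (nat_lit 5) (nat_lit 33) (nat_lit 4) (nat_lit 30) (nat_lit 4) (nat_lit 338) (nat_lit 222) (nat_lit 220)))) (XT.nd (nat_lit 156) (nat_lit 76) (nat_lit 0) (XT.nd (nat_lit 78) (nat_lit 76) (nat_lit 0) (XT.lf (nat_lit 0) (nat_lit 7561558231) (nat_lit 152) (nat_lit 4932858321) (nat_lit 152) (nat_lit 3591717749) (nat_lit 28) (nat_lit 4) (nat_lit 30) (nat_lit 5) (nat_lit 30) (nat_lit 4) (nat_lit 339) (nat_lit 222) (nat_lit 219)) (XT.lf (nat_lit 0) (nat_lit 458113247) (nat_lit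 228) (nat_lit 832432518) (nat_lit 76) (nat_lit 15140623425) (nat_lit 27) (nat_lit 5) (nat_lit 30) (nat_lit 5) (nat_lit 28) (nat_lit 4) (nat_lit 340) (nat_lit 222) (nat_lit 218))) (XT.nd (nat_lit 78) (nat_lit 0) (nat_lit 0) (XT.lf (nat_lit 0) (nat_lit 4563776560) (nat_lit 152) (nat_lit 9765931386) (nat_lit 0) (nat_lit 2455626569) (nat_lit 26) (nat_lit 5) (nat_lit 28) (nat_lit 4) (nat_lit 26) (nat_lit 4) (nat_lit 341) (nat_lit 222) (nat_lit 217)) (XT.lf (nat_lit 0) (nat_lit 8729087923) (nat_lit 152) (nat_lit 2187559693) (nat_lit 0) (nat_lit 6235423671) (nat_lit 26) (nat_lit 5) (nat_lit 28) (nat_lit 4) (nat_lit 26) (nat_lit 4) (nat_lit 342) (nat_lit 222) (nat_lit 216)))))) (XT.nd (nat_lit 546) (nat_lit 456) (nat_lit 0) (XT.nd (nat_lit 234) (nat_lit 152) (nat_lit 0) (XT.nd (nat_lit 78) (nat_lit 152) (nat_lit 0) (XT.lf (nat_lit 0) (nat_lit 5582749237) (nat_lit 152) (nat_lit 7407955068) (nat_lit 152)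 (nat_lit 4540005127) (nat_lit 24) (nat_lit 4) (nat_lit 26) (nat_lit 5) (nat_lit 26) (nat_lit 4) (nat_lit 343) (nat_lit 222) (nat_lit 215)) (XT.nd (nat_lit 78) (nat_lit 152) (nat_lit 0) (XT.lf (nat_lit 0) (nat_lit 13488072036) (nat_lit 152) (nat_lit 3832891721) (nat_lit 152) (nat_lit 601557615) (nat_lit 24) (nat_lit 4) (nat_lit 26) (nat_lit 5) (nat_lit 26) (nat_lit 4) (nat_lit 344) (nat_lit 222) (nat_lit 214)) (XT.lf (nat_lit 0) (nat_lit 3193166686) (nat_lit 76) (nat_lit 145405210) (nat_lit 152) (nat_lit 14988027224) (nat_lit 22) (nat_lit 5) (nat_lit 23) (nat_lit 5) (nat_lit 24) (nat_lit 4) (nat_lit 345) (nat_lit 222) (nat_lit 213)))) (XT.nd (nat_lit 156) (nat_lit 152) (nat_lit 0) (XT.nd (nat_lit 78) (nat_lit 0) (nat_lit 0) (XT.lf (nat_lit 0) (nat_lit 7385810523) (nat_lit 152) (nat_lit 7783294812) (nat_lit 0) (nat_lit 3573520530) (nat_lit 22) (nat_lit 5) (nat_lit 24) (nat_lit 4) (nat_lit 22) (nat_lit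 4) (nat_lit 346) (nat_lit 222) (nat_lit 212)) (XT.lf (nat_lit 0) (nat_lit 11478878092) (nat_lit 152) (nat_lit 350831185) (nat_lit 0) (nat_lit 7343725975) (nat_lit 22) (nat_lit 5) (nat_lit 24) (nat_lit 4) (nat_lit 22) (nat_lit 4) (nat_lit 347) (nat_lit 222) (nat_lit 211))) (XT.nd (nat_lit 78) (nat_lit 0) (nat_lit 0) (XT.lf (nat_lit 0) (nat_lit 7314584442) (nat_lit 152) (nat_lit 8375681165) (nat_lit 152) (nat_lit 3927070676) (nat_lit 20) (nat_lit 4) (nat_lit 22) (nat_lit 5) (nat_lit 22) (nat_lit 4) (nat_lit 348) (nat_lit 222) (nat_lit 210)) (XT.lf (nat_lit 0) (nat_lit 15085699966) (nat_lit 152) (nat_lit 4871967715) (nat_lit 152) (nat_lit 119028709) (nat_lit 20) (nat_lit 4) (nat_lit 22) (nat_lit 5) (nat_lit 22) (nat_lit 4) (nat_lit 349) (nat_lit 222) (nat_lit 209))))) (XT.nd (nat_lit 234) (nat_lit 304) (nat_lit 0) (XT.nd (nat_lit 78) (nat_lit 0) (nat_lit 0) (XT.lf (nat_lit 0) (nat_lit 2421710785)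 (nat_lit 76) (nat_lit 1258148510) (nat_lit 152) (nat_lit 16870387010) (nat_lit 18) (nat_lit 5) (nat_lit 19) (nat_lit 5) (nat_lit 20) (nat_lit 4) (nat_lit 350) (nat_lit 222) (nat_lit 208)) (XT.nd (nat_lit 78) (nat_lit 0) (nat_lit 0) (XT.lf (nat_lit 0) (nat_lit 7592788062) (nat_lit 152) (nat_lit 11032213152) (nat_lit 0) (nat_lit 2412921653) (nat_lit 18) (nat_lit 5) (nat_lit 20) (nat_lit 4) (nat_lit 18) (nat_lit 4) (nat_lit 351) (nat_lit 222) (nat_lit 207)) (XT.lf (nat_lit 0) (nat_lit 11565544038) (nat_lit 152) (nat_lit 3861155460) (nat_lit 0) (nat_lit 6115285684) (nat_lit 18) (nat_lit 5) (nat_lit 20) (nat_lit 4) (nat_lit 18) (nat_lit 4) (nat_lit 352) (nat_lit 222) (nat_lit 206)))) (XT.nd (nat_lit 156) (nat_lit 152) (nat_lit 0) (XT.nd (nat_lit 78) (nat_lit 0) (nat_lit 0) (XT.lf (nat_lit 0) (nat_lit 3470723945) (nat_lit 152) (nat_lit 12152143249) (nat_lit 152) (nat_lit 6439368443) (nat_lit 16) (nat_lit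 4) (nat_lit 18) (nat_lit 5) (nat_lit 18) (nat_lit 4) (nat_lit 353) (nat_lit 222) (nat_lit 205)) (XT.lf (nat_lit 0) (nat_lit 10980869727) (nat_lit 152) (nat_lit 8792870557) (nat_lit 152) (nat_lit 2825225409) (nat_lit 16) (nat_lit 4) (nat_lit 18) (nat_lit 5) (nat_lit 18) (nat_lit 4) (nat_lit 354) (nat_lit 222) (nat_lit 204))) (XT.nd (nat_lit 78) (nat_lit 76) (nat_lit 0) (XT.lf (nat_lit 0) (nat_lit 813956517) (nat_lit 228) (nat_lit 4562760351) (nat_lit 76) (nat_lit 17776823701) (nat_lit 15) (nat_lit 5) (nat_lit 18) (nat_lit 5) (nat_lit 16) (nat_lit 4) (nat_lit 355) (nat_lit 222) (nat_lit 203)) (XT.lf (nat_lit 0) (nat_lit 2612032196) (nat_lit 76) (nat_lit 1854649586) (nat_lit 152) (nat_lit 19258421876) (nat_lit 14) (nat_lit 5) (nat_lit 15) (nat_lit 5) (nat_lit 16) (nat_lit 4) (nat_lit 356) (nat_lit 222) (nat_lit 202))))))))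
noncomputable def xc26 : XT := (XT.nd (nat_lit 2028) (nat_lit 228) (nat_lit 0) (XT.nd (nat_lit 1014) (nat_lit 228) (nat_lit 0) (XT.nd (nat_lit 468) (nat_lit 152) (nat_lit 0) (XT.nd (nat_lit 234) (nat_lit 152) (nat_lit 0) (XT.nd (nat_lit 78) (nat_lit 0) (nat_lit 0) (XT.lf (nat_lit 0) (nat_lit 8228884698) (nat_lit 152) (nat_lit 14349832798) (nat_lit 0) (nat_lit 1735123250) (nat_lit 14) (nat_lit 5) (nat_lit 16) (nat_lit 4) (nat_lit 14) (nat_lit 4) (nat_lit 357) (nat_lit 222) (nat_lit 201)) (XT.nd (nat_lit 78) (nat_lit 0) (nat_lit 0) (XT.lf (nat_lit 0) (nat_lit 12060492144) (nat_lit 152) (nat_lit 7514197633) (nat_lit 0) (nat_lit 5346877301) (nat_lit 14) (nat_lit 5) (nat_lit 16) (nat_lit 4) (nat_lit 14) (nat_lit 4) (nat_lit 358) (nat_lit 222) (nat_lit 200)) (XT.lf (nat_lit 0) (nat_lit 15947024102) (nat_lit 152) (nat_lit 582365057) (nat_lit 0) (nat_lit 9019959360) (nat_lit 14) (nat_lit 5) (nat_lit 16)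 (nat_lit 4) (nat_lit 14) (nat_lit 4) (nat_lit 359) (nat_lit 222) (nat_lit 199)))) (XT.nd (nat_lit 78) (nat_lit 76) (nat_lit 0) (XT.lf (nat_lit 0) (nat_lit 6580123787) (nat_lit 76) (nat_lit 13375004959) (nat_lit 76) (nat_lit 6240707305) (nat_lit 13) (nat_lit 4) (nat_lit 14) (nat_lit 5) (nat_lit 14) (nat_lit 4) (nat_lit 360) (nat_lit 222) (nat_lit 198)) (XT.nd (nat_lit 78) (nat_lit 76) (nat_lit 0) (XT.lf (nat_lit 0) (nat_lit 13864760865) (nat_lit 76) (nat_lit 10167012205) (nat_lit 76) (nat_lit 2831517550) (nat_lit 13) (nat_lit 4) (nat_lit 14) (nat_lit 5) (nat_lit 14) (nat_lit 4) (nat_lit 361) (nat_lit 222) (nat_lit 197)) (XT.lf (nat_lit 0) (nat_lit 610198851) (nat_lit 152) (nat_lit 6292127881) (nat_lit 76) (nat_lit 20649960525) (nat_lit 12) (nat_lit 5) (nat_lit 14) (nat_lit 5) (nat_lit 13) (nat_lit 4) (nat_lit 362) (nat_lit 222) (nat_lit 196))))) (XT.nd (nat_lit 234) (nat_lit 76) (nat_lit 0) (XT.nd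 (nat_lit 78) (nat_lit 0) (nat_lit 0) (XT.lf (nat_lit 0) (nat_lit 497369674) (nat_lit 76) (nat_lit 3550831652) (nat_lit 152) (nat_lit 24214432563) (nat_lit 11) (nat_lit 5) (nat_lit 12) (nat_lit 5) (nat_lit 13) (nat_lit 4) (nat_lit 363) (nat_lit 222) (nat_lit 195)) (XT.nd (nat_lit 78) (nat_lit 0) (nat_lit 0) (XT.lf (nat_lit 0) (nat_lit 7520745695) (nat_lit 76) (nat_lit 77948133) (nat_lit 152) (nat_lit 21395335527) (nat_lit 11) (nat_lit 5) (nat_lit 12) (nat_lit 5) (nat_lit 13) (nat_lit 4) (nat_lit 364) (nat_lit 222) (nat_lit 194)) (XT.lf (nat_lit 0) (nat_lit 11236310659) (nat_lit 152) (nat_lit 15123271393) (nat_lit 0) (nat_lit 3388384729) (nat_lit 11) (nat_lit 5) (nat_lit 13) (nat_lit 4) (nat_lit 11) (nat_lit 4) (nat_lit 365) (nat_lit 222) (nat_lit 193)))) (XT.nd (nat_lit 156) (nat_lit 76) (nat_lit 0) (XT.nd (nat_lit 78) (nat_lit 0) (nat_lit 0) (XT.lf (nat_lit 0) (nat_lit 14932346060) (nat_lit 152)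 (nat_lit 8677794603) (nat_lit 0) (nat_lit 6915920809) (nat_lit 11) (nat_lit 5) (nat_lit 13) (nat_lit 4) (nat_lit 11) (nat_lit 4) (nat_lit 366) (nat_lit 222) (nat_lit 192)) (XT.lf (nat_lit 0) (nat_lit 18689280294) (nat_lit 152) (nat_lit 2130472035) (nat_lit 0) (nat_lit 10509263470) (nat_lit 11) (nat_lit 5) (nat_lit 13) (nat_lit 4) (nat_lit 11) (nat_lit 4) (nat_lit 367) (nat_lit 222) (nat_lit 191))) (XT.nd (nat_lit 78) (nat_lit 0) (nat_lit 0) (XT.lf (nat_lit 0) (nat_lit 4614462046) (nat_lit 76) (nat_lit 17940291104) (nat_lit 76) (nat_lit 9601447509) (nat_lit 10) (nat_lit 4) (nat_lit 11) (nat_lit 5) (nat_lit 11) (nat_lit 4) (nat_lit 368) (nat_lit 222) (nat_lit 190)) (XT.lf (nat_lit 0) (nat_lit 11517434909) (nat_lit 76) (nat_lit 14992310094) (nat_lit 76) (nat_lit 6499265750) (nat_lit 10) (nat_lit 4) (nat_lit 11) (nat_lit 5) (nat_lit 11) (nat_lit 4) (nat_lit 369) (nat_lit 222) (nat_lit 189)))))) (XT.nd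 (nat_lit 468) (nat_lit 76) (nat_lit 0) (XT.nd (nat_lit 234) (nat_lit 76) (nat_lit 0) (XT.nd (nat_lit 78) (nat_lit 76) (nat_lit 0) (XT.lf (nat_lit 0) (nat_lit 18542077704) (nat_lit 76) (nat_lit 11994746984) (nat_lit 76) (nat_lit 3351993175) (nat_lit 10) (nat_lit 4) (nat_lit 11) (nat_lit 5) (nat_lit 11) (nat_lit 4) (nat_lit 370) (nat_lit 222) (nat_lit 188)) (XT.nd (nat_lit 78) (nat_lit 76) (nat_lit 0) (XT.lf (nat_lit 0) (nat_lit 25694528470) (nat_lit 76) (nat_lit 8944982543) (nat_lit 76) (nat_lit 156879740) (nat_lit 10) (nat_lit 4) (nat_lit 11) (nat_lit 5) (nat_lit 11) (nat_lit 4) (nat_lit 371) (nat_lit 222) (nat_lit 187)) (XT.lf (nat_lit 0) (nat_lit 3028591492) (nat_lit 152) (nat_lit 2781177602) (nat_lit 76) (nat_lit 29921862592) (nat_lit 9) (nat_lit 5) (nat_lit 11) (nat_lit 5) (nat_lit 10) (nat_lit 4) (nat_lit 372) (nat_lit 222) (nat_lit 186)))) (XT.nd (nat_lit 78) (nat_lit 0) (nat_lit 0) (XT.lf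 (nat_lit 0) (nat_lit 3721145789) (nat_lit 76) (nat_lit 2578051003) (nat_lit 152) (nat_lit 30395918854) (nat_lit 8) (nat_lit 5) (nat_lit 9) (nat_lit 5) (nat_lit 10) (nat_lit 4) (nat_lit 373) (nat_lit 222) (nat_lit 185)) (XT.nd (nat_lit 78) (nat_lit 0) (nat_lit 0) (XT.lf (nat_lit 0) (nat_lit 9660609362) (nat_lit 152) (nat_lit 27297818034) (nat_lit 0) (nat_lit 729309732) (nat_lit 8) (nat_lit 5) (nat_lit 10) (nat_lit 4) (nat_lit 8) (nat_lit 4) (nat_lit 374) (nat_lit 222) (nat_lit 184)) (XT.lf (nat_lit 0) (nat_lit 13106749956) (nat_lit 152) (nat_lit 21553813003) (nat_lit 0) (nat_lit 4050071006) (nat_lit 8) (nat_lit 5) (nat_lit 10) (nat_lit 4) (nat_lit 8) (nat_lit 4) (nat_lit 375) (nat_lit 222) (nat_lit 183))))) (XT.nd (nat_lit 234) (nat_lit 76) (nat_lit 0) (XT.nd (nat_lit 78) (nat_lit 0) (nat_lit 0) (XT.lf (nat_lit 0) (nat_lit 16615847961) (nat_lit 152) (nat_lit 15712153928) (nat_lit 0) (nat_lit 7437441516)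 (nat_lit 8) (nat_lit 5) (nat_lit 10) (nat_lit 4) (nat_lit 8) (nat_lit 4) (nat_lit 376) (nat_lit 222) (nat_lit 182)) (XT.nd (nat_lit 78) (nat_lit 0) (nat_lit 0) (XT.lf (nat_lit 0) (nat_lit 20190969579) (nat_lit 152) (nat_lit 9767736444) (nat_lit 0) (nat_lit 10894381100) (nat_lit 8) (nat_lit 5) (nat_lit 10) (nat_lit 4) (nat_lit 8) (nat_lit 4) (nat_lit 377) (nat_lit 222) (nat_lit 181)) (XT.lf (nat_lit 0) (nat_lit 23835238702) (nat_lit 152) (nat_lit 3715366402) (nat_lit 0) (nat_lit 14423910385) (nat_lit 8) (nat_lit 5) (nat_lit 10) (nat_lit 4) (nat_lit 8) (nat_lit 4) (nat_lit 378) (nat_lit 222) (nat_lit 180)))) (XT.nd (nat_lit 156) (nat_lit 0) (nat_lit 0) (XT.nd (nat_lit 78) (nat_lit 0) (nat_lit 0) (XT.lf (nat_lit 0) (nat_lit 2499009349) (nat_lit 76) (nat_lit 25076852302) (nat_lit 76) (nat_lit 15554126083) (nat_lit 7) (nat_lit 4) (nat_lit 8) (nat_lit 5) (nat_lit 8) (nat_lit 4) (nat_lit 379) (nat_lit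 222) (nat_lit 179)) (XT.lf (nat_lit 0) (nat_lit 8908317581) (nat_lit 76) (nat_lit 22521334538) (nat_lit 76) (nat_lit 12890455016) (nat_lit 7) (nat_lit 4) (nat_lit 8) (nat_lit 5) (nat_lit 8) (nat_lit 4) (nat_lit 380) (nat_lit 222) (nat_lit 178))) (XT.nd (nat_lit 78) (nat_lit 0) (nat_lit 0) (XT.lf (nat_lit 0) (nat_lit 15444215583) (nat_lit 76) (nat_lit 19919336751) (nat_lit 76) (nat_lit 10183454024) (nat_lit 7) (nat_lit 4) (nat_lit 8) (nat_lit 5) (nat_lit 8) (nat_lit 4) (nat_lit 381) (nat_lit 222) (nat_lit 177)) (XT.lf (nat_lit 0) (nat_lit 22112414334) (nat_lit 76) (nat_lit 17268585353) (nat_lit 76) (nat_lit 7430757765) (nat_lit 7) (nat_lit 4) (nat_lit 8) (nat_lit 5) (nat_lit 8) (nat_lit 4) (nat_lit 382) (nat_lit 222) (nat_lit 176))))))) (XT.nd (nat_lit 1014) (nat_lit 76) (nat_lit 0) (XT.nd (nat_lit 468) (nat_lit 0) (nat_lit 0) (XT.nd (nat_lit 234) (nat_lit 76) (nat_lit 0) (XT.nd (nat_lit 78) (nat_lit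 76) (nat_lit 0) (XT.lf (nat_lit 0) (nat_lit 28918740415) (nat_lit 76) (nat_lit 14566764152) (nat_lit 76) (nat_lit 4629960971) (nat_lit 7) (nat_lit 4) (nat_lit 8) (nat_lit 5) (nat_lit 8) (nat_lit 4) (nat_lit 383) (nat_lit 222) (nat_lit 175)) (XT.nd (nat_lit 78) (nat_lit 76) (nat_lit 0) (XT.lf (nat_lit 0) (nat_lit 35869141102) (nat_lit 76) (nat_lit 11811512333) (nat_lit 76) (nat_lit 1778616345) (nat_lit 7) (nat_lit 4) (nat_lit 8) (nat_lit 5) (nat_lit 8) (nat_lit 4) (nat_lit 384) (nat_lit 222) (nat_lit 174)) (XT.lf (nat_lit 0) (nat_lit 1103799800) (nat_lit 152) (nat_lit 7885476381) (nat_lit 76) (nat_lit 41854743544) (nat_lit 6) (nat_lit 5) (nat_lit 8) (nat_lit 5) (nat_lit 7) (nat_lit 4) (nat_lit 385) (nat_lit 222) (nat_lit 173)))) (XT.nd (nat_lit 78) (nat_lit 76) (nat_lit 0) (XT.lf (nat_lit 0) (nat_lit 4006001336) (nat_lit 152) (nat_lit 2084583952) (nat_lit 76) (nat_lit 46180136055) (nat_lit 6) (nat_lit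 5) (nat_lit 8) (nat_lit 5) (nat_lit 7) (nat_lit 4) (nat_lit 386) (nat_lit 222) (nat_lit 172)) (XT.nd (nat_lit 78) (nat_lit 0) (nat_lit 0) (XT.lf (nat_lit 0) (nat_lit 3911032835) (nat_lit 76) (nat_lit 3091793781) (nat_lit 152) (nat_lit 46737179704) (nat_lit 5) (nat_lit 5) (nat_lit 6) (nat_lit 5) (nat_lit 7) (nat_lit 4) (nat_lit 387) (nat_lit 222) (nat_lit 171)) (XT.lf (nat_lit 0) (nat_lit 10074174604) (nat_lit 76) (nat_lit 6740182) (nat_lit 152) (nat_lit 45172723096) (nat_lit 5) (nat_lit 5) (nat_lit 6) (nat_lit 5) (nat_lit 7) (nat_lit 4) (nat_lit 388) (nat_lit 222) (nat_lit 170))))) (XT.nd (nat_lit 234) (nat_lit 0) (nat_lit 0) (XT.nd (nat_lit 78) (nat_lit 0) (nat_lit 0) (XT.lf (nat_lit 0) (nat_lit 13252761740) (nat_lit 152) (nat_lit 40475055817) (nat_lit 0) (nat_lit 3084826872) (nat_lit 5) (nat_lit 5) (nat_lit 7) (nat_lit 4) (nat_lit 5) (nat_lit 4) (nat_lit 389) (nat_lit 222) (nat_lit 169)) (XT.nd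 (nat_lit 78) (nat_lit 0) (nat_lit 0) (XT.lf (nat_lit 0) (nat_lit 16491613210) (nat_lit 152) (nat_lit 35682114671) (nat_lit 0) (nat_lit 6245546095) (nat_lit 5) (nat_lit 5) (nat_lit 7) (nat_lit 4) (nat_lit 5) (nat_lit 4) (nat_lit 390) (nat_lit 222) (nat_lit 168)) (XT.lf (nat_lit 0) (nat_lit 19800234469) (nat_lit 152) (nat_lit 30796387042) (nat_lit 0) (nat_lit 9478310804) (nat_lit 5) (nat_lit 5) (nat_lit 7) (nat_lit 4) (nat_lit 5) (nat_lit 4) (nat_lit 391) (nat_lit 222) (nat_lit 167)))) (XT.nd (nat_lit 156) (nat_lit 0) (nat_lit 0) (XT.nd (nat_lit 78) (nat_lit 0) (nat_lit 0) (XT.lf (nat_lit 0) (nat_lit 23181516546) (nat_lit 152) (nat_lit 25813603848) (nat_lit 0) (nat_lit 12785945745) (nat_lit 5) (nat_lit 5) (nat_lit 7) (nat_lit 4) (nat_lit 5) (nat_lit 4) (nat_lit 392) (nat_lit 222) (nat_lit 166)) (XT.lf (nat_lit 0) (nat_lit 26638413960) (nat_lit 152) (nat_lit 20729411201) (nat_lit 0) (nat_lit 16171341085)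 (nat_lit 5) (nat_lit 5) (nat_lit 7) (nat_lit 4) (nat_lit 5) (nat_lit 4) (nat_lit 393) (nat_lit 222) (nat_lit 165))) (XT.nd (nat_lit 78) (nat_lit 0) (nat_lit 0) (XT.lf (nat_lit 0) (nat_lit 30173947300) (nat_lit 152) (nat_lit 15539366601) (nat_lit 0) (nat_lit 19637454935) (nat_lit 5) (nat_lit 5) (nat_lit 7) (nat_lit 4) (nat_lit 5) (nat_lit 4) (nat_lit 394) (nat_lit 222) (nat_lit 164)) (XT.lf (nat_lit 0) (nat_lit 33791205867) (nat_lit 152) (nat_lit 10238935060) (nat_lit 0) (nat_lit 23187315940) (nat_lit 5) (nat_lit 5) (nat_lit 7) (nat_lit 4) (nat_lit 5) (nat_lit 4) (nat_lit 395) (nat_lit 222) (nat_lit 163)))))) (XT.nd (nat_lit 546) (nat_lit 0) (nat_lit 0) (XT.nd (nat_lit 234) (nat_lit 0) (nat_lit 0) (XT.nd (nat_lit 78) (nat_lit 76) (nat_lit 0) (XT.lf (nat_lit 0) (nat_lit 37493350373) (nat_lit 152) (nat_lit 4823485131) (nat_lit 0) (nat_lit 26824025919) (nat_lit 5) (nat_lit 5) (nat_lit 7) (nat_lit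 4) (nat_lit 5) (nat_lit 4) (nat_lit 396) (nat_lit 222) (nat_lit 162)) (XT.nd (nat_lit 78) (nat_lit 0) (nat_lit 0) (XT.lf (nat_lit 0) (nat_lit 725879657) (nat_lit 76) (nat_lit 40564713643) (nat_lit 76) (nat_lit 29831860523) (nat_lit 4) (nat_lit 4) (nat_lit 5) (nat_lit 5) (nat_lit 5) (nat_lit 4) (nat_lit 397) (nat_lit 222) (nat_lit 161)) (XT.lf (nat_lit 0) (nat_lit 6498307698) (nat_lit 76) (nat_lit 38729471744) (nat_lit 76) (nat_lit 27934940306) (nat_lit 4) (nat_lit 4) (nat_lit 5) (nat_lit 5) (nat_lit 5) (nat_lit 4) (nat_lit 398) (nat_lit 222) (nat_lit 160)))) (XT.nd (nat_lit 156) (nat_lit 0) (nat_lit 0) (XT.nd (nat_lit 78) (nat_lit 0) (nat_lit 0) (XT.lf (nat_lit 0) (nat_lit 12402846050) (nat_lit 76) (nat_lit 36858213940) (nat_lit 76) (nat_lit 26003800641) (nat_lit 4) (nat_lit 4) (nat_lit 5) (nat_lit 5) (nat_lit 5) (nat_lit 4) (nat_lit 399) (nat_lit 222) (nat_lit 159)) (XT.lf (nat_lit 0) (nat_lit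 18444654016) (nat_lit 76) (nat_lit 34949305150) (nat_lit 76) (nat_lit 24036754122) (nat_lit 4) (nat_lit 4) (nat_lit 5) (nat_lit 5) (nat_lit 5) (nat_lit 4) (nat_lit 400) (nat_lit 222) (nat_lit 158))) (XT.nd (nat_lit 78) (nat_lit 0) (nat_lit 0) (XT.lf (nat_lit 0) (nat_lit 24629010847) (nat_lit 76) (nat_lit 33001077398) (nat_lit 76) (nat_lit 22032081973) (nat_lit 4) (nat_lit 4) (nat_lit 5) (nat_lit 5) (nat_lit 5) (nat_lit 4) (nat_lit 401) (nat_lit 222) (nat_lit 157)) (XT.lf (nat_lit 0) (nat_lit 30961320349) (nat_lit 76) (nat_lit 31011828348) (nat_lit 76) (nat_lit 19988032536) (nat_lit 4) (nat_lit 4) (nat_lit 5) (nat_lit 5) (nat_lit 5) (nat_lit 4) (nat_lit 402) (nat_lit 222) (nat_lit 156))))) (XT.nd (nat_lit 234) (nat_lit 0) (nat_lit 0) (XT.nd (nat_lit 78) (nat_lit 0) (nat_lit 0) (XT.lf (nat_lit 0) (nat_lit 37447115609) (nat_lit 76) (nat_lit 28979819821) (nat_lit 76) (nat_lit 17902819751) (nat_lit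 4) (nat_lit 4) (nat_lit 5) (nat_lit 5) (nat_lit 5) (nat_lit 4) (nat_lit 403) (nat_lit 222) (nat_lit 155)) (XT.nd (nat_lit 78) (nat_lit 0) (nat_lit 0) (XT.lf (nat_lit 0) (nat_lit 44092063827) (nat_lit 76) (nat_lit 26903276275) (nat_lit 76) (nat_lit 15774621586) (nat_lit 4) (nat_lit 4) (nat_lit 5) (nat_lit 5) (nat_lit 5) (nat_lit 4) (nat_lit 404) (nat_lit 222) (nat_lit 154)) (XT.lf (nat_lit 0) (nat_lit 50901971267) (nat_lit 76) (nat_lit 24780383255) (nat_lit 76) (nat_lit 13601578450) (nat_lit 4) (nat_lit 4) (nat_lit 5) (nat_lit 5) (nat_lit 5) (nat_lit 4) (nat_lit 405) (nat_lit 222) (nat_lit 153)))) (XT.nd (nat_lit 156) (nat_lit 0) (nat_lit 0) (XT.nd (nat_lit 78) (nat_lit 0) (nat_lit 0) (XT.lf (nat_lit 0) (nat_lit 57882788334) (nat_lit 76) (nat_lit 22609285807) (nat_lit 76) (nat_lit 11381791569) (nat_lit 4) (nat_lit 4) (nat_lit 5) (nat_lit 5) (nat_lit 5) (nat_lit 4) (nat_lit 406) (nat_lit 222) (nat_lit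 152)) (XT.lf (nat_lit 0) (nat_lit 65040614772) (nat_lit 76) (nat_lit 20388086854) (nat_lit 76) (nat_lit 9113321321) (nat_lit 4) (nat_lit 4) (nat_lit 5) (nat_lit 5) (nat_lit 5) (nat_lit 4) (nat_lit 407) (nat_lit 222) (nat_lit 151))) (XT.nd (nat_lit 78) (nat_lit 0) (nat_lit 0) (XT.lf (nat_lit 0) (nat_lit 72381704992) (nat_lit 76) (nat_lit 18114845543) (nat_lit 76) (nat_lit 6794185550) (nat_lit 4) (nat_lit 4) (nat_lit 5) (nat_lit 5) (nat_lit 5) (nat_lit 4) (nat_lit 408) (nat_lit 222) (nat_lit 150)) (XT.lf (nat_lit 0) (nat_lit 79912473538) (nat_lit 76) (nat_lit 15787575548) (nat_lit 76) (nat_lit 4422357826) (nat_lit 4) (nat_lit 4) (nat_lit 5) (nat_lit 5) (nat_lit 5) (nat_lit 4) (nat_lit 409) (nat_lit 222) (nat_lit 149))))))))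
noncomputable def xc27 : XT := (XT.nd (nat_lit 2106) (nat_lit 608) (nat_lit 0) (XT.nd (nat_lit 1014) (nat_lit 684) (nat_lit 0) (XT.nd (nat_lit 468) (nat_lit 456) (nat_lit 0) (XT.nd (nat_lit 234) (nat_lit 304) (nat_lit 0) (XT.nd (nat_lit 78) (nat_lit 228) (nat_lit 0) (XT.lf (nat_lit 0) (nat_lit 3249608954) (nat_lit 228) (nat_lit 762620242) (nat_lit 0) (nat_lit 3249608954) (nat_lit 35) (nat_lit 5) (nat_lit 38) (nat_lit 4) (nat_lit 35) (nat_lit 4) (nat_lit 334) (nat_lit 223) (nat_lit 223)) (XT.nd (nat_lit 78) (nat_lit 76) (nat_lit 0) (XT.lf (nat_lit 0) (nat_lit 6390048605) (nat_lit 152) (nat_lit 4457700059) (nat_lit 152) (nat_lit 3969342128) (nat_lit 33) (nat_lit 4) (nat_lit 35) (nat_lit 5) (nat_lit 35) (nat_lit 4) (nat_lit 335) (nat_lit 223) (nat_lit 222)) (XT.lf (nat_lit 0) (nat_lit 127718300) (nat_lit 228) (nat_lit 703223694) (nat_lit 76) (nat_lit 14290624508) (nat_lit 32) (nat_lit 5) (nat_lit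 35) (nat_lit 5) (nat_lit 33) (nat_lit 4) (nat_lit 336) (nat_lit 223) (nat_lit 221)))) (XT.nd (nat_lit 78) (nat_lit 152) (nat_lit 0) (XT.lf (nat_lit 0) (nat_lit 4276967651) (nat_lit 228) (nat_lit 8261212582) (nat_lit 0) (nat_lit 2895592863) (nat_lit 30) (nat_lit 5) (nat_lit 33) (nat_lit 4) (nat_lit 30) (nat_lit 4) (nat_lit 337) (nat_lit 223) (nat_lit 220)) (XT.nd (nat_lit 78) (nat_lit 152) (nat_lit 0) (XT.lf (nat_lit 0) (nat_lit 8478064908) (nat_lit 228) (nat_lit 616715400) (nat_lit 0) (nat_lit 6662790423) (nat_lit 30) (nat_lit 5) (nat_lit 33) (nat_lit 4) (nat_lit 30) (nat_lit 4) (nat_lit 338) (nat_lit 223) (nat_lit 219)) (XT.lf (nat_lit 0) (nat_lit 7250722133) (nat_lit 152) (nat_lit 5538707042) (nat_lit 152) (nat_lit 3302170716) (nat_lit 28) (nat_lit 4) (nat_lit 30) (nat_lit 5) (nat_lit 30) (nat_lit 4) (nat_lit 339) (nat_lit 223) (nat_lit 218))))) (XT.nd (nat_lit 234) (nat_lit 304) (nat_lit 0)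 (XT.nd (nat_lit 78) (nat_lit 76) (nat_lit 0) (XT.lf (nat_lit 0) (nat_lit 700009892) (nat_lit 228) (nat_lit 1224508323) (nat_lit 76) (nat_lit 14513313793) (nat_lit 27) (nat_lit 5) (nat_lit 30) (nat_lit 5) (nat_lit 28) (nat_lit 4) (nat_lit 340) (nat_lit 223) (nat_lit 217)) (XT.nd (nat_lit 78) (nat_lit 0) (nat_lit 0) (XT.lf (nat_lit 0) (nat_lit 4753929305) (nat_lit 152) (nat_lit 10239699592) (nat_lit 0) (nat_lit 1799940866) (nat_lit 26) (nat_lit 5) (nat_lit 28) (nat_lit 4) (nat_lit 26) (nat_lit 4) (nat_lit 341) (nat_lit 223) (nat_lit 216)) (XT.lf (nat_lit 0) (nat_lit 8878689376) (nat_lit 152) (nat_lit 2732437978) (nat_lit 0) (nat_lit 5550415247) (nat_lit 26) (nat_lit 5) (nat_lit 28) (nat_lit 4) (nat_lit 26) (nat_lit 4) (nat_lit 342) (nat_lit 223) (nat_lit 215)))) (XT.nd (nat_lit 156) (nat_lit 152) (nat_lit 0) (XT.nd (nat_lit 78) (nat_lit 0) (nat_lit 0) (XT.lf (nat_lit 0) (nat_lit 4956613885) (nat_lit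 152) (nat_lit 8138302892) (nat_lit 152) (nat_lit 4446644598) (nat_lit 24) (nat_lit 4) (nat_lit 26) (nat_lit 5) (nat_lit 26) (nat_lit 4) (nat_lit 343) (nat_lit 223) (nat_lit 214)) (XT.lf (nat_lit 0) (nat_lit 12793574626) (nat_lit 152) (nat_lit 4592720984) (nat_lit 152) (nat_lit 548262531) (nat_lit 24) (nat_lit 4) (nat_lit 26) (nat_lit 5) (nat_lit 26) (nat_lit 4) (nat_lit 344) (nat_lit 223) (nat_lit 213))) (XT.nd (nat_lit 78) (nat_lit 0) (nat_lit 0) (XT.lf (nat_lit 0) (nat_lit 2403564898) (nat_lit 76) (nat_lit 941532529) (nat_lit 152) (nat_lit 14994912331) (nat_lit 22) (nat_lit 5) (nat_lit 23) (nat_lit 5) (nat_lit 24) (nat_lit 4) (nat_lit 345) (nat_lit 223) (nat_lit 212)) (XT.lf (nat_lit 0) (nat_lit 7346738426) (nat_lit 152) (nat_lit 8646013227) (nat_lit 0) (nat_lit 2764669622) (nat_lit 22) (nat_lit 5) (nat_lit 24) (nat_lit 4) (nat_lit 22) (nat_lit 4) (nat_lit 346) (nat_lit 223) (nat_lit 211))))))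 (XT.nd (nat_lit 546) (nat_lit 228) (nat_lit 0) (XT.nd (nat_lit 234) (nat_lit 304) (nat_lit 0) (XT.nd (nat_lit 78) (nat_lit 152) (nat_lit 0) (XT.lf (nat_lit 0) (nat_lit 11402966418) (nat_lit 152) (nat_lit 1278946544) (nat_lit 0) (nat_lit 6507439242) (nat_lit 22) (nat_lit 5) (nat_lit 24) (nat_lit 4) (nat_lit 22) (nat_lit 4) (nat_lit 347) (nat_lit 223) (nat_lit 210)) (XT.nd (nat_lit 78) (nat_lit 0) (nat_lit 0) (XT.lf (nat_lit 0) (nat_lit 6303241971) (nat_lit 152) (nat_lit 9265623741) (nat_lit 152) (nat_lit 4065768048) (nat_lit 20) (nat_lit 4) (nat_lit 22) (nat_lit 5) (nat_lit 22) (nat_lit 4) (nat_lit 348) (nat_lit 223) (nat_lit 209)) (XT.lf (nat_lit 0) (nat_lit 14011487789) (nat_lit 152) (nat_lit 5789450821) (nat_lit 152) (nat_lit 294130548) (nat_lit 20) (nat_lit 4) (nat_lit 22) (nat_lit 5) (nat_lit 22) (nat_lit 4) (nat_lit 349) (nat_lit 223) (nat_lit 208)))) (XT.nd (nat_lit 156) (nat_lit 152) (nat_lit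 0) (XT.nd (nat_lit 78) (nat_lit 0) (nat_lit 0) (XT.lf (nat_lit 0) (nat_lit 1246126368) (nat_lit 76) (nat_lit 2216093068) (nat_lit 152) (nat_lit 17107843311) (nat_lit 18) (nat_lit 5) (nat_lit 19) (nat_lit 5) (nat_lit 20) (nat_lit 4) (nat_lit 350) (nat_lit 223) (nat_lit 207)) (XT.lf (nat_lit 0) (nat_lit 7331448440) (nat_lit 152) (nat_lit 12280325578) (nat_lit 0) (nat_lit 1447290390) (nat_lit 18) (nat_lit 5) (nat_lit 20) (nat_lit 4) (nat_lit 18) (nat_lit 4) (nat_lit 351) (nat_lit 223) (nat_lit 206))) (XT.nd (nat_lit 78) (nat_lit 152) (nat_lit 0) (XT.lf (nat_lit 0) (nat_lit 11270717608) (nat_lit 152) (nat_lit 5169384311) (nat_lit 0) (nat_lit 5124043106) (nat_lit 18) (nat_lit 5) (nat_lit 20) (nat_lit 4) (nat_lit 18) (nat_lit 4) (nat_lit 352) (nat_lit 223) (nat_lit 205)) (XT.lf (nat_lit 0) (nat_lit 2076931727) (nat_lit 152) (nat_lit 13205199589) (nat_lit 152) (nat_lit 6803654744) (nat_lit 16) (nat_lit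 4) (nat_lit 18) (nat_lit 5) (nat_lit 18) (nat_lit 4) (nat_lit 353) (nat_lit 223) (nat_lit 204))))) (XT.nd (nat_lit 234) (nat_lit 76) (nat_lit 0) (XT.nd (nat_lit 78) (nat_lit 152) (nat_lit 0) (XT.lf (nat_lit 0) (nat_lit 9529284258) (nat_lit 152) (nat_lit 9871600073) (nat_lit 152) (nat_lit 3222608295) (nat_lit 16) (nat_lit 4) (nat_lit 18) (nat_lit 5) (nat_lit 18) (nat_lit 4) (nat_lit 354) (nat_lit 223) (nat_lit 203)) (XT.nd (nat_lit 78) (nat_lit 76) (nat_lit 0) (XT.lf (nat_lit 0) (nat_lit 392822417) (nat_lit 228) (nat_lit 6091802011) (nat_lit 76) (nat_lit 16694515009) (nat_lit 15) (nat_lit 5) (nat_lit 18) (nat_lit 5) (nat_lit 16) (nat_lit 4) (nat_lit 355) (nat_lit 223) (nat_lit 202)) (XT.lf (nat_lit 0) (nat_lit 996366829) (nat_lit 76) (nat_lit 3003062144) (nat_lit 152) (nat_lit 19752668930) (nat_lit 14) (nat_lit 5) (nat_lit 15) (nat_lit 5) (nat_lit 16) (nat_lit 4) (nat_lit 356) (nat_lit 223) (nat_lit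 201)))) (XT.nd (nat_lit 156) (nat_lit 76) (nat_lit 0) (XT.nd (nat_lit 78) (nat_lit 0) (nat_lit 0) (XT.lf (nat_lit 0) (nat_lit 7720137263) (nat_lit 152) (nat_lit 16036693457) (nat_lit 0) (nat_lit 585260579) (nat_lit 14) (nat_lit 5) (nat_lit 16) (nat_lit 4) (nat_lit 14) (nat_lit 4) (nat_lit 357) (nat_lit 223) (nat_lit 200)) (XT.lf (nat_lit 0) (nat_lit 11522176379) (nat_lit 152) (nat_lit 9254689644) (nat_lit 0) (nat_lit 4173849796) (nat_lit 14) (nat_lit 5) (nat_lit 16) (nat_lit 4) (nat_lit 14) (nat_lit 4) (nat_lit 358) (nat_lit 223) (nat_lit 199))) (XT.nd (nat_lit 78) (nat_lit 76) (nat_lit 0) (XT.lf (nat_lit 0) (nat_lit 15380001220) (nat_lit 152) (nat_lit 2374926341) (nat_lit 0) (nat_lit 7824441725) (nat_lit 14) (nat_lit 5) (nat_lit 16) (nat_lit 4) (nat_lit 14) (nat_lit 4) (nat_lit 359) (nat_lit 223) (nat_lit 198)) (XT.lf (nat_lit 0) (nat_lit 4700328228) (nat_lit 76) (nat_lit 14641836902) (nat_lit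 76) (nat_lit 6885080406) (nat_lit 13) (nat_lit 4) (nat_lit 14) (nat_lit 5) (nat_lit 14) (nat_lit 4) (nat_lit 360) (nat_lit 223) (nat_lit 197))))))) (XT.nd (nat_lit 1014) (nat_lit 228) (nat_lit 0) (XT.nd (nat_lit 468) (nat_lit 228) (nat_lit 0) (XT.nd (nat_lit 234) (nat_lit 76) (nat_lit 0) (XT.nd (nat_lit 78) (nat_lit 76) (nat_lit 0) (XT.lf (nat_lit 0) (nat_lit 11934908229) (nat_lit 76) (nat_lit 11456360836) (nat_lit 76) (nat_lit 3504267445) (nat_lit 13) (nat_lit 4) (nat_lit 14) (nat_lit 5) (nat_lit 14) (nat_lit 4) (nat_lit 361) (nat_lit 223) (nat_lit 196)) (XT.nd (nat_lit 78) (nat_lit 76) (nat_lit 0) (XT.lf (nat_lit 0) (nat_lit 19287869447) (nat_lit 76) (nat_lit 8219698036) (nat_lit 76) (nat_lit 77957174) (nat_lit 13) (nat_lit 4) (nat_lit 14) (nat_lit 5) (nat_lit 14) (nat_lit 4) (nat_lit 362) (nat_lit 223) (nat_lit 195)) (XT.lf (nat_lit 0) (nat_lit 3330559601) (nat_lit 152) (nat_lit 1564828627)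 (nat_lit 76) (nat_lit 23401445077) (nat_lit 12) (nat_lit 5) (nat_lit 14) (nat_lit 5) (nat_lit 13) (nat_lit 4) (nat_lit 363) (nat_lit 223) (nat_lit 194)))) (XT.nd (nat_lit 78) (nat_lit 0) (nat_lit 0) (XT.lf (nat_lit 0) (nat_lit 5380157158) (nat_lit 76) (nat_lit 1459637278) (nat_lit 152) (nat_lit 22189681120) (nat_lit 11) (nat_lit 5) (nat_lit 12) (nat_lit 5) (nat_lit 13) (nat_lit 4) (nat_lit 364) (nat_lit 223) (nat_lit 193)) (XT.nd (nat_lit 78) (nat_lit 0) (nat_lit 0) (XT.lf (nat_lit 0) (nat_lit 10438769183) (nat_lit 152) (nat_lit 17332459998) (nat_lit 0) (nat_lit 2013351854) (nat_lit 11) (nat_lit 5) (nat_lit 13) (nat_lit 4) (nat_lit 11) (nat_lit 4) (nat_lit 365) (nat_lit 223) (nat_lit 192)) (XT.lf (nat_lit 0) (nat_lit 14110182797) (nat_lit 152) (nat_lit 10932066226) (nat_lit 0) (nat_lit 5521173893) (nat_lit 11) (nat_lit 5) (nat_lit 13) (nat_lit 4) (nat_lit 11) (nat_lit 4) (nat_lit 366) (nat_lit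 223) (nat_lit 191))))) (XT.nd (nat_lit 234) (nat_lit 152) (nat_lit 0) (XT.nd (nat_lit 78) (nat_lit 76) (nat_lit 0) (XT.lf (nat_lit 0) (nat_lit 17843212383) (nat_lit 152) (nat_lit 4428513578) (nat_lit 0) (nat_lit 9095376708) (nat_lit 11) (nat_lit 5) (nat_lit 13) (nat_lit 4) (nat_lit 11) (nat_lit 4) (nat_lit 367) (nat_lit 223) (nat_lit 190)) (XT.nd (nat_lit 78) (nat_lit 0) (nat_lit 0) (XT.lf (nat_lit 0) (nat_lit 2227344167) (nat_lit 76) (nat_lit 19435186237) (nat_lit 76) (nat_lit 10533149815) (nat_lit 10) (nat_lit 4) (nat_lit 11) (nat_lit 5) (nat_lit 11) (nat_lit 4) (nat_lit 368) (nat_lit 223) (nat_lit 189)) (XT.lf (nat_lit 0) (nat_lit 9088238580) (nat_lit 76) (nat_lit 16506346769) (nat_lit 76) (nat_lit 7454600882) (nat_lit 10) (nat_lit 4) (nat_lit 11) (nat_lit 5) (nat_lit 11) (nat_lit 4) (nat_lit 369) (nat_lit 223) (nat_lit 188)))) (XT.nd (nat_lit 156) (nat_lit 152) (nat_lit 0) (XT.nd (nat_lit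 78) (nat_lit 0) (nat_lit 0) (XT.lf (nat_lit 0) (nat_lit 16072028511) (nat_lit 76) (nat_lit 13527367680) (nat_lit 76) (nat_lit 4330272798) (nat_lit 10) (nat_lit 4) (nat_lit 11) (nat_lit 5) (nat_lit 11) (nat_lit 4) (nat_lit 370) (nat_lit 223) (nat_lit 187)) (XT.lf (nat_lit 0) (nat_lit 23184816303) (nat_lit 76) (nat_lit 10495645979) (nat_lit 76) (nat_lit 1157435568) (nat_lit 10) (nat_lit 4) (nat_lit 11) (nat_lit 5) (nat_lit 11) (nat_lit 4) (nat_lit 371) (nat_lit 223) (nat_lit 186))) (XT.nd (nat_lit 78) (nat_lit 76) (nat_lit 0) (XT.lf (nat_lit 0) (nat_lit 2026354756) (nat_lit 152) (nat_lit 5361715622) (nat_lit 76) (nat_lit 28386000044) (nat_lit 9) (nat_lit 5) (nat_lit 11) (nat_lit 5) (nat_lit 10) (nat_lit 4) (nat_lit 372) (nat_lit 223) (nat_lit 185)) (XT.lf (nat_lit 0) (nat_lit 1050695026) (nat_lit 76) (nat_lit 4200007301) (nat_lit 152) (nat_lit 31488246525) (nat_lit 8) (nat_lit 5) (nat_lit 9) (nat_lit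 5) (nat_lit 10) (nat_lit 4) (nat_lit 373) (nat_lit 223) (nat_lit 184)))))) (XT.nd (nat_lit 546) (nat_lit 152) (nat_lit 0) (XT.nd (nat_lit 234) (nat_lit 76) (nat_lit 0) (XT.nd (nat_lit 78) (nat_lit 0) (nat_lit 0) (XT.lf (nat_lit 0) (nat_lit 7689400912) (nat_lit 76) (nat_lit 895215989) (nat_lit 152) (nat_lit 29147784915) (nat_lit 8) (nat_lit 5) (nat_lit 9) (nat_lit 5) (nat_lit 10) (nat_lit 4) (nat_lit 374) (nat_lit 223) (nat_lit 183)) (XT.nd (nat_lit 78) (nat_lit 0) (nat_lit 0) (XT.lf (nat_lit 0) (nat_lit 12002237448) (nat_lit 152) (nat_lit 24327171842) (nat_lit 0) (nat_lit 2426751315) (nat_lit 8) (nat_lit 5) (nat_lit 10) (nat_lit 4) (nat_lit 8) (nat_lit 4) (nat_lit 375) (nat_lit 223) (nat_lit 182)) (XT.lf (nat_lit 0) (nat_lit 15492000809) (nat_lit 152) (nat_lit 18521222798) (nat_lit 0) (nat_lit 5798332642) (nat_lit 8) (nat_lit 5) (nat_lit 10) (nat_lit 4) (nat_lit 8) (nat_lit 4) (nat_lit 376) (nat_lit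 223) (nat_lit 181)))) (XT.nd (nat_lit 156) (nat_lit 76) (nat_lit 0) (XT.nd (nat_lit 78) (nat_lit 0) (nat_lit 0) (XT.lf (nat_lit 0) (nat_lit 19048350928) (nat_lit 152) (nat_lit 12611475249) (nat_lit 0) (nat_lit 9239942922) (nat_lit 8) (nat_lit 5) (nat_lit 10) (nat_lit 4) (nat_lit 8) (nat_lit 4) (nat_lit 377) (nat_lit 223) (nat_lit 180)) (XT.lf (nat_lit 0) (nat_lit 22674395295) (nat_lit 152) (nat_lit 6592765337) (nat_lit 0) (nat_lit 12754589388) (nat_lit 8) (nat_lit 5) (nat_lit 10) (nat_lit 4) (nat_lit 8) (nat_lit 4) (nat_lit 378) (nat_lit 223) (nat_lit 179))) (XT.nd (nat_lit 78) (nat_lit 76) (nat_lit 0) (XT.lf (nat_lit 0) (nat_lit 26373302300) (nat_lit 152) (nat_lit 459833996) (nat_lit 0) (nat_lit 16345343090) (nat_lit 8) (nat_lit 5) (nat_lit 10) (nat_lit 4) (nat_lit 8) (nat_lit 4) (nat_lit 379) (nat_lit 223) (nat_lit 178)) (XT.lf (nat_lit 0) (nat_lit 5907963289) (nat_lit 76) (nat_lit 24297131663)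 (nat_lit 76) (nat_lit 14164169248) (nat_lit 7) (nat_lit 4) (nat_lit 8) (nat_lit 5) (nat_lit 8) (nat_lit 4) (nat_lit 380) (nat_lit 223) (nat_lit 177))))) (XT.nd (nat_lit 234) (nat_lit 152) (nat_lit 0) (XT.nd (nat_lit 78) (nat_lit 0) (nat_lit 0) (XT.lf (nat_lit 0) (nat_lit 12412444448) (nat_lit 76) (nat_lit 21709570489) (nat_lit 76) (nat_lit 11474663213) (nat_lit 7) (nat_lit 4) (nat_lit 8) (nat_lit 5) (nat_lit 8) (nat_lit 4) (nat_lit 381) (nat_lit 223) (nat_lit 176)) (XT.nd (nat_lit 78) (nat_lit 0) (nat_lit 0) (XT.lf (nat_lit 0) (nat_lit 19050141409) (nat_lit 76) (nat_lit 19072835218) (nat_lit 76) (nat_lit 8738952350) (nat_lit 7) (nat_lit 4) (nat_lit 8) (nat_lit 5) (nat_lit 8) (nat_lit 4) (nat_lit 382) (nat_lit 223) (nat_lit 175)) (XT.lf (nat_lit 0) (nat_lit 25826854103) (nat_lit 76) (nat_lit 16384621908) (nat_lit 76) (nat_lit 5954646231) (nat_lit 7) (nat_lit 4) (nat_lit 8) (nat_lit 5) (nat_lit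 8) (nat_lit 4) (nat_lit 383) (nat_lit 223) (nat_lit 174)))) (XT.nd (nat_lit 156) (nat_lit 152) (nat_lit 0) (XT.nd (nat_lit 78) (nat_lit 0) (nat_lit 0) (XT.lf (nat_lit 0) (nat_lit 32748503927) (nat_lit 76) (nat_lit 13642581634) (nat_lit 76) (nat_lit 3119311968) (nat_lit 7) (nat_lit 4) (nat_lit 8) (nat_lit 5) (nat_lit 8) (nat_lit 4) (nat_lit 384) (nat_lit 223) (nat_lit 173)) (XT.lf (nat_lit 0) (nat_lit 39821138926) (nat_lit 76) (nat_lit 10844318439) (nat_lit 76) (nat_lit 230472085) (nat_lit 7) (nat_lit 4) (nat_lit 8) (nat_lit 5) (nat_lit 8) (nat_lit 4) (nat_lit 385) (nat_lit 223) (nat_lit 172))) (XT.nd (nat_lit 78) (nat_lit 76) (nat_lit 0) (XT.lf (nat_lit 0) (nat_lit 2661429972) (nat_lit 152) (nat_lit 5299082042) (nat_lit 76) (nat_lit 44362633876) (nat_lit 6) (nat_lit 5) (nat_lit 8) (nat_lit 5) (nat_lit 7) (nat_lit 4) (nat_lit 386) (nat_lit 223) (nat_lit 171)) (XT.lf (nat_lit 0) (nat_lit 605429167)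 (nat_lit 76) (nat_lit 5006684758) (nat_lit 152) (nat_lit 48181705506) (nat_lit 5) (nat_lit 5) (nat_lit 6) (nat_lit 5) (nat_lit 7) (nat_lit 4) (nat_lit 387) (nat_lit 223) (nat_lit 170))))))))
noncomputable def xc28 : XT := (XT.nd (nat_lit 36582) (nat_lit 0) (nat_lit 684) (XT.nd (nat_lit 1014) (nat_lit 0) (nat_lit 0) (XT.nd (nat_lit 468) (nat_lit 76) (nat_lit 0) (XT.nd (nat_lit 234) (nat_lit 0) (nat_lit 0) (XT.nd (nat_lit 78) (nat_lit 0) (nat_lit 0) (XT.lf (nat_lit 0) (nat_lit 6742230389) (nat_lit 76) (nat_lit 1933771084) (nat_lit 152) (nat_lit 46631879737) (nat_lit 5) (nat_lit 5) (nat_lit 6) (nat_lit 5) (nat_lit 7) (nat_lit 4) (nat_lit 388) (nat_lit 223) (nat_lit 169)) (XT.nd (nat_lit 78) (nat_lit 0) (nat_lit 0) (XT.lf (nat_lit 0) (nat_lit 11815424318) (nat_lit 152) (nat_lit 43868597296) (nat_lit 0) (nat_lit 1183842943) (nat_lit 5) (nat_lit 5) (nat_lit 7) (nat_lit 4) (nat_lit 5) (nat_lit 4) (nat_lit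 389) (nat_lit 223) (nat_lit 168)) (XT.lf (nat_lit 0) (nat_lit 15040780342) (nat_lit 152) (nat_lit 39100780166) (nat_lit 0) (nat_lit 4333342417) (nat_lit 5) (nat_lit 5) (nat_lit 7) (nat_lit 4) (nat_lit 5) (nat_lit 4) (nat_lit 390) (nat_lit 223) (nat_lit 167)))) (XT.nd (nat_lit 78) (nat_lit 0) (nat_lit 0) (XT.lf (nat_lit 0) (nat_lit 18336299227) (nat_lit 152) (nat_lit 34239444785) (nat_lit 0) (nat_lit 7555214166) (nat_lit 5) (nat_lit 5) (nat_lit 7) (nat_lit 4) (nat_lit 5) (nat_lit 4) (nat_lit 391) (nat_lit 223) (nat_lit 166)) (XT.nd (nat_lit 78) (nat_lit 0) (nat_lit 0) (XT.lf (nat_lit 0) (nat_lit 21704860553) (nat_lit 152) (nat_lit 29280343385) (nat_lit 0) (nat_lit 10852273417) (nat_lit 5) (nat_lit 5) (nat_lit 7) (nat_lit 4) (nat_lit 5) (nat_lit 4) (nat_lit 392) (nat_lit 223) (nat_lit 165)) (XT.lf (nat_lit 0) (nat_lit 25149407722) (nat_lit 152) (nat_lit 24219142771) (nat_lit 0) (nat_lit 14227401097)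 (nat_lit 5) (nat_lit 5) (nat_lit 7) (nat_lit 4) (nat_lit 5) (nat_lit 4) (nat_lit 393) (nat_lit 223) (nat_lit 164))))) (XT.nd (nat_lit 234) (nat_lit 76) (nat_lit 0) (XT.nd (nat_lit 78) (nat_lit 0) (nat_lit 0) (XT.lf (nat_lit 0) (nat_lit 28672950533) (nat_lit 152) (nat_lit 19051420534) (nat_lit 0) (nat_lit 17683546346) (nat_lit 5) (nat_lit 5) (nat_lit 7) (nat_lit 4) (nat_lit 5) (nat_lit 4) (nat_lit 394) (nat_lit 223) (nat_lit 163)) (XT.nd (nat_lit 78) (nat_lit 0) (nat_lit 0) (XT.lf (nat_lit 0) (nat_lit 32278567811) (nat_lit 152) (nat_lit 13772661189) (nat_lit 0) (nat_lit 21223729097) (nat_lit 5) (nat_lit 5) (nat_lit 7) (nat_lit 4) (nat_lit 5) (nat_lit 4) (nat_lit 395) (nat_lit 223) (nat_lit 162)) (XT.lf (nat_lit 0) (nat_lit 35969410094) (nat_lit 152) (nat_lit 8378252228) (nat_lit 0) (nat_lit 24851042713) (nat_lit 5) (nat_lit 5) (nat_lit 7) (nat_lit 4) (nat_lit 5) (nat_lit 4) (nat_lit 396) (nat_lit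 223) (nat_lit 161)))) (XT.nd (nat_lit 156) (nat_lit 0) (nat_lit 0) (XT.nd (nat_lit 78) (nat_lit 76) (nat_lit 0) (XT.lf (nat_lit 0) (nat_lit 39748702390) (nat_lit 152) (nat_lit 2863480090) (nat_lit 0) (nat_lit 28568656692) (nat_lit 5) (nat_lit 5) (nat_lit 7) (nat_lit 4) (nat_lit 5) (nat_lit 4) (nat_lit 397) (nat_lit 223) (nat_lit 160)) (XT.lf (nat_lit 0) (nat_lit 2831731234) (nat_lit 76) (nat_lit 40815236091) (nat_lit 76) (nat_lit 29575308532) (nat_lit 4) (nat_lit 4) (nat_lit 5) (nat_lit 5) (nat_lit 5) (nat_lit 4) (nat_lit 398) (nat_lit 223) (nat_lit 159))) (XT.nd (nat_lit 78) (nat_lit 0) (nat_lit 0) (XT.lf (nat_lit 0) (nat_lit 8716630898) (nat_lit 76) (nat_lit 38953085060) (nat_lit 76) (nat_lit 27655019771) (nat_lit 4) (nat_lit 4) (nat_lit 5) (nat_lit 5) (nat_lit 5) (nat_lit 4) (nat_lit 399) (nat_lit 223) (nat_lit 158)) (XT.lf (nat_lit 0) (nat_lit 14739372178) (nat_lit 76) (nat_lit 37053017798)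 (nat_lit 76) (nat_lit 25698508112) (nat_lit 4) (nat_lit 4) (nat_lit 5) (nat_lit 5) (nat_lit 5) (nat_lit 4) (nat_lit 400) (nat_lit 223) (nat_lit 157)))))) (XT.nd (nat_lit 468) (nat_lit 0) (nat_lit 0) (XT.nd (nat_lit 234) (nat_lit 0) (nat_lit 0) (XT.nd (nat_lit 78) (nat_lit 0) (nat_lit 0) (XT.lf (nat_lit 0) (nat_lit 20905217662) (nat_lit 76) (nat_lit 35113374053) (nat_lit 76) (nat_lit 23704063981) (nat_lit 4) (nat_lit 4) (nat_lit 5) (nat_lit 5) (nat_lit 5) (nat_lit 4) (nat_lit 401) (nat_lit 223) (nat_lit 156)) (XT.nd (nat_lit 78) (nat_lit 0) (nat_lit 0) (XT.lf (nat_lit 0) (nat_lit 27219554983) (nat_lit 76) (nat_lit 33132458990) (nat_lit 76) (nat_lit 21669944660) (nat_lit 4) (nat_lit 4) (nat_lit 5) (nat_lit 5) (nat_lit 5) (nat_lit 4) (nat_lit 402) (nat_lit 223) (nat_lit 155)) (XT.lf (nat_lit 0) (nat_lit 33687901524) (nat_lit 76) (nat_lit 31108541713) (nat_lit 76) (nat_lit 19594372763) (nat_lit 4)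 (nat_lit 4) (nat_lit 5) (nat_lit 5) (nat_lit 5) (nat_lit 4) (nat_lit 403) (nat_lit 223) (nat_lit 154)))) (XT.nd (nat_lit 78) (nat_lit 0) (nat_lit 0) (XT.lf (nat_lit 0) (nat_lit 40315909237) (nat_lit 76) (nat_lit 29039853750) (nat_lit 76) (nat_lit 17475534684) (nat_lit 4) (nat_lit 4) (nat_lit 5) (nat_lit 5) (nat_lit 5) (nat_lit 4) (nat_lit 404) (nat_lit 223) (nat_lit 153)) (XT.nd (nat_lit 78) (nat_lit 0) (nat_lit 0) (XT.lf (nat_lit 0) (nat_lit 47109369586) (nat_lit 76) (nat_lit 26924587509) (nat_lit 76) (nat_lit 15311579010) (nat_lit 4) (nat_lit 4) (nat_lit 5) (nat_lit 5) (nat_lit 5) (nat_lit 4) (nat_lit 405) (nat_lit 223) (nat_lit 152)) (XT.lf (nat_lit 0) (nat_lit 54074218603) (nat_lit 76) (nat_lit 24760894701) (nat_lit 76) (nat_lit 13100614908) (nat_lit 4) (nat_lit 4) (nat_lit 5) (nat_lit 5) (nat_lit 5) (nat_lit 4) (nat_lit 406) (nat_lit 223) (nat_lit 151))))) (XT.nd (nat_lit 34788) (nat_lit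 0) (nat_lit 2204) (XT.nd (nat_lit 78) (nat_lit 0) (nat_lit 0) (XT.lf (nat_lit 0) (nat_lit 61216542080) (nat_lit 76) (nat_lit 22546884719) (nat_lit 76) (nat_lit 10840710465) (nat_lit 4) (nat_lit 4) (nat_lit 5) (nat_lit 5) (nat_lit 5) (nat_lit 4) (nat_lit 407) (nat_lit 223) (nat_lit 150)) (XT.nd (nat_lit 78) (nat_lit 0) (nat_lit 0) (XT.lf (nat_lit 0) (nat_lit 68542580881) (nat_lit 76) (nat_lit 20280622991) (nat_lit 76) (nat_lit 8529891009) (nat_lit 4) (nat_lit 4) (nat_lit 5) (nat_lit 5) (nat_lit 5) (nat_lit 4) (nat_lit 408) (nat_lit 223) (nat_lit 149)) (XT.lf (nat_lit 0) (nat_lit 76058736399) (nat_lit 76) (nat_lit 17960129290) (nat_lit 76) (nat_lit 6166137377) (nat_lit 4) (nat_lit 4) (nat_lit 5) (nat_lit 5) (nat_lit 5) (nat_lit 4) (nat_lit 409) (nat_lit 223) (nat_lit 148)))) (XT.nd (nat_lit 156) (nat_lit 152) (nat_lit 0) (XT.nd (nat_lit 78) (nat_lit 228) (nat_lit 0) (XT.lf (nat_lit 0) (nat_lit 5574764596)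 (nat_lit 152) (nat_lit 703564883) (nat_lit 152) (nat_lit 703564883) (nat_lit 38) (nat_lit 4) (nat_lit 40) (nat_lit 5) (nat_lit 40) (nat_lit 4) (nat_lit 332) (nat_lit 224) (nat_lit 224)) (XT.lf (nat_lit 0) (nat_lit 2751199439) (nat_lit 228) (nat_lit 9240342452) (nat_lit 0) (nat_lit 2248190771) (nat_lit 35) (nat_lit 5) (nat_lit 38) (nat_lit 4) (nat_lit 35) (nat_lit 4) (nat_lit 333) (nat_lit 224) (nat_lit 223))) (XT.nd (nat_lit 78) (nat_lit 152) (nat_lit 0) (XT.lf (nat_lit 0) (nat_lit 6957176206) (nat_lit 228) (nat_lit 1602067480) (nat_lit 0) (nat_lit 5965809607) (nat_lit 35) (nat_lit 5) (nat_lit 38) (nat_lit 4) (nat_lit 35) (nat_lit 4) (nat_lit 334) (nat_lit 224) (nat_lit 222)) (XT.lf (nat_lit 0) (nat_lit 6235618814) (nat_lit 152) (nat_lit 5024865450) (nat_lit 152) (nat_lit 3559364937) (nat_lit 33) (nat_lit 4) (nat_lit 35) (nat_lit 5) (nat_lit 35) (nat_lit 4) (nat_lit 335) (nat_lit 224) (nat_lit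 221))))))) (XT.nd (nat_lit 1014) (nat_lit 532) (nat_lit 0) (XT.nd (nat_lit 468) (nat_lit 456) (nat_lit 0) (XT.nd (nat_lit 234) (nat_lit 304) (nat_lit 0) (XT.nd (nat_lit 78) (nat_lit 152) (nat_lit 0) (XT.lf (nat_lit 0) (nat_lit 486070079) (nat_lit 228) (nat_lit 939102439) (nat_lit 76) (nat_lit 13700366240) (nat_lit 32) (nat_lit 5) (nat_lit 35) (nat_lit 5) (nat_lit 33) (nat_lit 4) (nat_lit 336) (nat_lit 224) (nat_lit 220)) (XT.nd (nat_lit 78) (nat_lit 0) (nat_lit 0) (XT.lf (nat_lit 0) (nat_lit 4583908238) (nat_lit 228) (nat_lit 8575126266) (nat_lit 0) (nat_lit 2280275823) (nat_lit 30) (nat_lit 5) (nat_lit 33) (nat_lit 4) (nat_lit 30) (nat_lit 4) (nat_lit 337) (nat_lit 224) (nat_lit 219)) (XT.lf (nat_lit 0) (nat_lit 8742904863) (nat_lit 228) (nat_lit 1003477492) (nat_lit 0) (nat_lit 6018010606) (nat_lit 30) (nat_lit 5) (nat_lit 33) (nat_lit 4) (nat_lit 30) (nat_lit 4) (nat_lit 338) (nat_lit 224)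 (nat_lit 218)))) (XT.nd (nat_lit 78) (nat_lit 152) (nat_lit 0) (XT.lf (nat_lit 0) (nat_lit 6784128510) (nat_lit 152) (nat_lit 6224781035) (nat_lit 152) (nat_lit 3090894700) (nat_lit 28) (nat_lit 4) (nat_lit 30) (nat_lit 5) (nat_lit 30) (nat_lit 4) (nat_lit 339) (nat_lit 224) (nat_lit 217)) (XT.nd (nat_lit 78) (nat_lit 76) (nat_lit 0) (XT.lf (nat_lit 0) (nat_lit 866386177) (nat_lit 228) (nat_lit 1772202082) (nat_lit 76) (nat_lit 13808630598) (nat_lit 27) (nat_lit 5) (nat_lit 30) (nat_lit 5) (nat_lit 28) (nat_lit 4) (nat_lit 340) (nat_lit 224) (nat_lit 216)) (XT.lf (nat_lit 0) (nat_lit 4867467511) (nat_lit 152) (nat_lit 10872034303) (nat_lit 0) (nat_lit 1065059469) (nat_lit 26) (nat_lit 5) (nat_lit 28) (nat_lit 4) (nat_lit 26) (nat_lit 4) (nat_lit 341) (nat_lit 224) (nat_lit 215))))) (XT.nd (nat_lit 234) (nat_lit 304) (nat_lit 0) (XT.nd (nat_lit 78) (nat_lit 152) (nat_lit 0) (XT.lf (nat_lit 0) (nat_lit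 8952857397) (nat_lit 152) (nat_lit 3433811599) (nat_lit 0) (nat_lit 4787065190) (nat_lit 26) (nat_lit 5) (nat_lit 28) (nat_lit 4) (nat_lit 26) (nat_lit 4) (nat_lit 342) (nat_lit 224) (nat_lit 214)) (XT.nd (nat_lit 78) (nat_lit 0) (nat_lit 0) (XT.lf (nat_lit 0) (nat_lit 4172919495) (nat_lit 152) (nat_lit 8950408472) (nat_lit 152) (nat_lit 4431816105) (nat_lit 24) (nat_lit 4) (nat_lit 26) (nat_lit 5) (nat_lit 26) (nat_lit 4) (nat_lit 343) (nat_lit 224) (nat_lit 213)) (XT.lf (nat_lit 0) (nat_lit 11943509304) (nat_lit 152) (nat_lit 5433449322) (nat_lit 152) (nat_lit 572332528) (nat_lit 24) (nat_lit 4) (nat_lit 26) (nat_lit 5) (nat_lit 26) (nat_lit 4) (nat_lit 344) (nat_lit 224) (nat_lit 212)))) (XT.nd (nat_lit 156) (nat_lit 152) (nat_lit 0) (XT.nd (nat_lit 78) (nat_lit 0) (nat_lit 0) (XT.lf (nat_lit 0) (nat_lit 1455302337) (nat_lit 76) (nat_lit 1820050922) (nat_lit 152) (nat_lit 15080797613) (nat_lit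 22) (nat_lit 5) (nat_lit 23) (nat_lit 5) (nat_lit 24) (nat_lit 4) (nat_lit 345) (nat_lit 224) (nat_lit 211)) (XT.lf (nat_lit 0) (nat_lit 7231709826) (nat_lit 152) (nat_lit 9667368990) (nat_lit 0) (nat_lit 1875858462) (nat_lit 22) (nat_lit 5) (nat_lit 24) (nat_lit 4) (nat_lit 22) (nat_lit 4) (nat_lit 346) (nat_lit 224) (nat_lit 210))) (XT.nd (nat_lit 78) (nat_lit 152) (nat_lit 0) (XT.lf (nat_lit 0) (nat_lit 11252171239) (nat_lit 152) (nat_lit 2363794485) (nat_lit 0) (nat_lit 5591991358) (nat_lit 22) (nat_lit 5) (nat_lit 24) (nat_lit 4) (nat_lit 22) (nat_lit 4) (nat_lit 347) (nat_lit 224) (nat_lit 209)) (XT.lf (nat_lit 0) (nat_lit 5133933722) (nat_lit 152) (nat_lit 10238171870) (nat_lit 152) (nat_lit 4282527409) (nat_lit 20) (nat_lit 4) (nat_lit 22) (nat_lit 5) (nat_lit 22) (nat_lit 4) (nat_lit 348) (nat_lit 224) (nat_lit 208)))))) (XT.nd (nat_lit 546) (nat_lit 228) (nat_lit 0) (XT.nd (nat_lit 234)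 (nat_lit 152) (nat_lit 0) (XT.nd (nat_lit 78) (nat_lit 152) (nat_lit 0) (XT.lf (nat_lit 0) (nat_lit 12781140991) (nat_lit 152) (nat_lit 6788737328) (nat_lit 152) (nat_lit 546234052) (nat_lit 20) (nat_lit 4) (nat_lit 22) (nat_lit 5) (nat_lit 22) (nat_lit 4) (nat_lit 349) (nat_lit 224) (nat_lit 207)) (XT.nd (nat_lit 78) (nat_lit 76) (nat_lit 0) (XT.lf (nat_lit 0) (nat_lit 3169411752) (nat_lit 228) (nat_lit 87101122) (nat_lit 76) (nat_lit 17336048603) (nat_lit 19) (nat_lit 5) (nat_lit 22) (nat_lit 5) (nat_lit 20) (nat_lit 4) (nat_lit 350) (nat_lit 224) (nat_lit 206)) (XT.lf (nat_lit 0) (nat_lit 6994290408) (nat_lit 152) (nat_lit 13687917719) (nat_lit 0) (nat_lit 400699218) (nat_lit 18) (nat_lit 5) (nat_lit 20) (nat_lit 4) (nat_lit 18) (nat_lit 4) (nat_lit 351) (nat_lit 224) (nat_lit 205)))) (XT.nd (nat_lit 156) (nat_lit 0) (nat_lit 0) (XT.nd (nat_lit 78) (nat_lit 152) (nat_lit 0) (XT.lf (nat_lit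 0) (nat_lit 10901048111) (nat_lit 152) (nat_lit 6635341912) (nat_lit 0) (nat_lit 4052586580) (nat_lit 18) (nat_lit 5) (nat_lit 20) (nat_lit 4) (nat_lit 18) (nat_lit 4) (nat_lit 352) (nat_lit 224) (nat_lit 204)) (XT.lf (nat_lit 0) (nat_lit 524005444) (nat_lit 152) (nat_lit 14341964168) (nat_lit 152) (nat_lit 7246055703) (nat_lit 16) (nat_lit 4) (nat_lit 18) (nat_lit 5) (nat_lit 18) (nat_lit 4) (nat_lit 353) (nat_lit 224) (nat_lit 203))) (XT.nd (nat_lit 78) (nat_lit 0) (nat_lit 0) (XT.lf (nat_lit 0) (nat_lit 7920248023) (nat_lit 152) (nat_lit 11033290068) (nat_lit 152) (nat_lit 3697141861) (nat_lit 16) (nat_lit 4) (nat_lit 18) (nat_lit 5) (nat_lit 18) (nat_lit 4) (nat_lit 354) (nat_lit 224) (nat_lit 202)) (XT.lf (nat_lit 0) (nat_lit 15427792247) (nat_lit 152) (nat_lit 7674480592) (nat_lit 152) (nat_lit 105089918) (nat_lit 16) (nat_lit 4) (nat_lit 18) (nat_lit 5) (nat_lit 18) (nat_lit 4) (nat_lit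 355) (nat_lit 224) (nat_lit 201))))) (XT.nd (nat_lit 234) (nat_lit 76) (nat_lit 0) (XT.nd (nat_lit 78) (nat_lit 76) (nat_lit 0) (XT.lf (nat_lit 0) (nat_lit 3464292598) (nat_lit 228) (nat_lit 763325697) (nat_lit 76) (nat_lit 19553922944) (nat_lit 15) (nat_lit 5) (nat_lit 18) (nat_lit 5) (nat_lit 16) (nat_lit 4) (nat_lit 356) (nat_lit 224) (nat_lit 200)) (XT.nd (nat_lit 78) (nat_lit 0) (nat_lit 0) (XT.lf (nat_lit 0) (nat_lit 6483456538) (nat_lit 76) (nat_lit 658981691) (nat_lit 152) (nat_lit 17230384424) (nat_lit 14) (nat_lit 5) (nat_lit 15) (nat_lit 5) (nat_lit 16) (nat_lit 4) (nat_lit 357) (nat_lit 224) (nat_lit 199)) (XT.lf (nat_lit 0) (nat_lit 10909435692) (nat_lit 152) (nat_lit 11153097040) (nat_lit 0) (nat_lit 2919976501) (nat_lit 14) (nat_lit 5) (nat_lit 16) (nat_lit 4) (nat_lit 14) (nat_lit 4) (nat_lit 358) (nat_lit 224) (nat_lit 198)))) (XT.nd (nat_lit 156) (nat_lit 0) (nat_lit 0) (XT.nd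 (nat_lit 78) (nat_lit 76) (nat_lit 0) (XT.lf (nat_lit 0) (nat_lit 14739389545) (nat_lit 152) (nat_lit 4323886429) (nat_lit 0) (nat_lit 6548733353) (nat_lit 14) (nat_lit 5) (nat_lit 16) (nat_lit 4) (nat_lit 14) (nat_lit 4) (nat_lit 359) (nat_lit 224) (nat_lit 197)) (XT.lf (nat_lit 0) (nat_lit 2662522935) (nat_lit 76) (nat_lit 15992382678) (nat_lit 76) (nat_lit 7606389591) (nat_lit 13) (nat_lit 4) (nat_lit 14) (nat_lit 5) (nat_lit 14) (nat_lit 4) (nat_lit 360) (nat_lit 224) (nat_lit 196))) (XT.nd (nat_lit 78) (nat_lit 0) (nat_lit 0) (XT.lf (nat_lit 0) (nat_lit 9848503831) (nat_lit 76) (nat_lit 12828767473) (nat_lit 76) (nat_lit 4253126916) (nat_lit 13) (nat_lit 4) (nat_lit 14) (nat_lit 5) (nat_lit 14) (nat_lit 4) (nat_lit 361) (nat_lit 224) (nat_lit 195)) (XT.lf (nat_lit 0) (nat_lit 17154281452) (nat_lit 76) (nat_lit 9613328810) (nat_lit 76) (nat_lit 853564495) (nat_lit 13) (nat_lit 4) (nat_lit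 14) (nat_lit 5) (nat_lit 14) (nat_lit 4) (nat_lit 362) (nat_lit 224) (nat_lit 194))))))))
noncomputable def xc29 : XT := (XT.nd (nat_lit 2028) (nat_lit 76) (nat_lit 0) (XT.nd (nat_lit 1014) (nat_lit 228) (nat_lit 0) (XT.nd (nat_lit 468) (nat_lit 228) (nat_lit 0) (XT.nd (nat_lit 234) (nat_lit 0) (nat_lit 0) (XT.nd (nat_lit 78) (nat_lit 76) (nat_lit 0) (XT.lf (nat_lit 0) (nat_lit 2544625131) (nat_lit 152) (nat_lit 3772936227) (nat_lit 76) (nat_lit 22015918632) (nat_lit 12) (nat_lit 5) (nat_lit 14) (nat_lit 5) (nat_lit 13) (nat_lit 4) (nat_lit 363) (nat_lit 224) (nat_lit 193)) (XT.nd (nat_lit 78) (nat_lit 0) (nat_lit 0) (XT.lf (nat_lit 0) (nat_lit 3082232938) (nat_lit 76) (nat_lit 2924817546) (nat_lit 152) (nat_lit 23060484833) (nat_lit 11) (nat_lit 5) (nat_lit 12) (nat_lit 5) (nat_lit 13) (nat_lit 4) (nat_lit 364) (nat_lit 224) (nat_lit 192)) (XT.lf (nat_lit 0) (nat_lit 9567319234) (nat_lit 152)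 (nat_lit 19699442788) (nat_lit 0) (nat_lit 557048489) (nat_lit 11) (nat_lit 5) (nat_lit 13) (nat_lit 4) (nat_lit 11) (nat_lit 4) (nat_lit 365) (nat_lit 224) (nat_lit 191)))) (XT.nd (nat_lit 78) (nat_lit 0) (nat_lit 0) (XT.lf (nat_lit 0) (nat_lit 13214828199) (nat_lit 152) (nat_lit 13342818935) (nat_lit 0) (nat_lit 4045730684) (nat_lit 11) (nat_lit 5) (nat_lit 13) (nat_lit 4) (nat_lit 11) (nat_lit 4) (nat_lit 366) (nat_lit 224) (nat_lit 190)) (XT.nd (nat_lit 78) (nat_lit 0) (nat_lit 0) (XT.lf (nat_lit 0) (nat_lit 16924649388) (nat_lit 152) (nat_lit 6881761356) (nat_lit 0) (nat_lit 7601351124) (nat_lit 11) (nat_lit 5) (nat_lit 13) (nat_lit 4) (nat_lit 11) (nat_lit 4) (nat_lit 367) (nat_lit 224) (nat_lit 189)) (XT.lf (nat_lit 0) (nat_lit 20700024392) (nat_lit 152) (nat_lit 310624464) (nat_lit 0) (nat_lit 11227016664) (nat_lit 11) (nat_lit 5) (nat_lit 13) (nat_lit 4) (nat_lit 11) (nat_lit 4) (nat_lit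 368) (nat_lit 224) (nat_lit 188))))) (XT.nd (nat_lit 234) (nat_lit 152) (nat_lit 0) (XT.nd (nat_lit 78) (nat_lit 0) (nat_lit 0) (XT.lf (nat_lit 0) (nat_lit 6503235048) (nat_lit 76) (nat_lit 18103530108) (nat_lit 76) (nat_lit 8485173385) (nat_lit 10) (nat_lit 4) (nat_lit 11) (nat_lit 5) (nat_lit 11) (nat_lit 4) (nat_lit 369) (nat_lit 224) (nat_lit 187)) (XT.nd (nat_lit 78) (nat_lit 0) (nat_lit 0) (XT.lf (nat_lit 0) (nat_lit 13447362005) (nat_lit 76) (nat_lit 15142593758) (nat_lit 76) (nat_lit 5383121506) (nat_lit 10) (nat_lit 4) (nat_lit 11) (nat_lit 5) (nat_lit 11) (nat_lit 4) (nat_lit 370) (nat_lit 224) (nat_lit 186)) (XT.lf (nat_lit 0) (nat_lit 20521642054) (nat_lit 76) (nat_lit 12128389279) (nat_lit 76) (nat_lit 2231911660) (nat_lit 10) (nat_lit 4) (nat_lit 11) (nat_lit 5) (nat_lit 11) (nat_lit 4) (nat_lit 371) (nat_lit 224) (nat_lit 185)))) (XT.nd (nat_lit 156) (nat_lit 76) (nat_lit 0) (XT.nd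 (nat_lit 78) (nat_lit 0) (nat_lit 0) (XT.lf (nat_lit 0) (nat_lit 952257840) (nat_lit 152) (nat_lit 8096409123) (nat_lit 76) (nat_lit 26770382827) (nat_lit 9) (nat_lit 5) (nat_lit 11) (nat_lit 5) (nat_lit 10) (nat_lit 4) (nat_lit 372) (nat_lit 224) (nat_lit 184)) (XT.lf (nat_lit 0) (nat_lit 4146517406) (nat_lit 152) (nat_lit 1741202903) (nat_lit 76) (nat_lit 30897117092) (nat_lit 9) (nat_lit 5) (nat_lit 11) (nat_lit 5) (nat_lit 10) (nat_lit 4) (nat_lit 373) (nat_lit 224) (nat_lit 183))) (XT.nd (nat_lit 78) (nat_lit 0) (nat_lit 0) (XT.lf (nat_lit 0) (nat_lit 4826507866) (nat_lit 76) (nat_lit 2617098254) (nat_lit 152) (nat_lit 30335795372) (nat_lit 8) (nat_lit 5) (nat_lit 9) (nat_lit 5) (nat_lit 10) (nat_lit 4) (nat_lit 374) (nat_lit 224) (nat_lit 182)) (XT.lf (nat_lit 0) (nat_lit 10825340237) (nat_lit 152) (nat_lit 27256222811) (nat_lit 0) (nat_lit 722679992) (nat_lit 8) (nat_lit 5) (nat_lit 10)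 (nat_lit 4) (nat_lit 8) (nat_lit 4) (nat_lit 375) (nat_lit 224) (nat_lit 181)))))) (XT.nd (nat_lit 468) (nat_lit 152) (nat_lit 0) (XT.nd (nat_lit 234) (nat_lit 76) (nat_lit 0) (XT.nd (nat_lit 78) (nat_lit 0) (nat_lit 0) (XT.lf (nat_lit 0) (nat_lit 14296332099) (nat_lit 152) (nat_lit 21484943701) (nat_lit 0) (nat_lit 4078932015) (nat_lit 8) (nat_lit 5) (nat_lit 10) (nat_lit 4) (nat_lit 8) (nat_lit 4) (nat_lit 376) (nat_lit 224) (nat_lit 180)) (XT.nd (nat_lit 78) (nat_lit 0) (nat_lit 0) (XT.lf (nat_lit 0) (nat_lit 17834457462) (nat_lit 152) (nat_lit 15608856282) (nat_lit 0) (nat_lit 7505659477) (nat_lit 8) (nat_lit 5) (nat_lit 10) (nat_lit 4) (nat_lit 8) (nat_lit 4) (nat_lit 377) (nat_lit 224) (nat_lit 179)) (XT.lf (nat_lit 0) (nat_lit 21442807892) (nat_lit 152) (nat_lit 9622826108) (nat_lit 0) (nat_lit 11005856604) (nat_lit 8) (nat_lit 5) (nat_lit 10) (nat_lit 4) (nat_lit 8) (nat_lit 4) (nat_lit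 378) (nat_lit 224) (nat_lit 178)))) (XT.nd (nat_lit 78) (nat_lit 76) (nat_lit 0) (XT.lf (nat_lit 0) (nat_lit 25124536315) (nat_lit 152) (nat_lit 3521622668) (nat_lit 0) (nat_lit 14582581821) (nat_lit 8) (nat_lit 5) (nat_lit 10) (nat_lit 4) (nat_lit 8) (nat_lit 4) (nat_lit 379) (nat_lit 224) (nat_lit 177)) (XT.nd (nat_lit 78) (nat_lit 0) (nat_lit 0) (XT.lf (nat_lit 0) (nat_lit 2753822176) (nat_lit 76) (nat_lit 26155509024) (nat_lit 76) (nat_lit 15511609670) (nat_lit 7) (nat_lit 4) (nat_lit 8) (nat_lit 5) (nat_lit 8) (nat_lit 4) (nat_lit 380) (nat_lit 224) (nat_lit 176)) (XT.lf (nat_lit 0) (nat_lit 9227801546) (nat_lit 76) (nat_lit 23581963977) (nat_lit 76) (nat_lit 12839089030) (nat_lit 7) (nat_lit 4) (nat_lit 8) (nat_lit 5) (nat_lit 8) (nat_lit 4) (nat_lit 381) (nat_lit 224) (nat_lit 175))))) (XT.nd (nat_lit 234) (nat_lit 152) (nat_lit 0) (XT.nd (nat_lit 78) (nat_lit 0) (nat_lit 0) (XT.lf (nat_lit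 0) (nat_lit 15835885120) (nat_lit 76) (nat_lit 20958836598) (nat_lit 76) (nat_lit 10119868842) (nat_lit 7) (nat_lit 4) (nat_lit 8) (nat_lit 5) (nat_lit 8) (nat_lit 4) (nat_lit 382) (nat_lit 224) (nat_lit 174)) (XT.nd (nat_lit 78) (nat_lit 0) (nat_lit 0) (XT.lf (nat_lit 0) (nat_lit 22583846951) (nat_lit 76) (nat_lit 18283834832) (nat_lit 76) (nat_lit 7351573088) (nat_lit 7) (nat_lit 4) (nat_lit 8) (nat_lit 5) (nat_lit 8) (nat_lit 4) (nat_lit 383) (nat_lit 224) (nat_lit 173)) (XT.lf (nat_lit 0) (nat_lit 29477583317) (nat_lit 76) (nat_lit 15554621301) (nat_lit 76) (nat_lit 4531782868) (nat_lit 7) (nat_lit 4) (nat_lit 8) (nat_lit 5) (nat_lit 8) (nat_lit 4) (nat_lit 384) (nat_lit 224) (nat_lit 172)))) (XT.nd (nat_lit 156) (nat_lit 76) (nat_lit 0) (XT.nd (nat_lit 78) (nat_lit 76) (nat_lit 0) (XT.lf (nat_lit 0) (nat_lit 36523117872) (nat_lit 76) (nat_lit 12768811253) (nat_lit 76) (nat_lit 1658034289)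 (nat_lit 7) (nat_lit 4) (nat_lit 8) (nat_lit 5) (nat_lit 8) (nat_lit 4) (nat_lit 385) (nat_lit 224) (nat_lit 171)) (XT.lf (nat_lit 0) (nat_lit 1247358806) (nat_lit 152) (nat_lit 8664015803) (nat_lit 76) (nat_lit 42466652222) (nat_lit 6) (nat_lit 5) (nat_lit 8) (nat_lit 5) (nat_lit 7) (nat_lit 4) (nat_lit 386) (nat_lit 224) (nat_lit 170))) (XT.nd (nat_lit 78) (nat_lit 76) (nat_lit 0) (XT.lf (nat_lit 0) (nat_lit 4178275583) (nat_lit 152) (nat_lit 2797145245) (nat_lit 76) (nat_lit 46873876758) (nat_lit 6) (nat_lit 5) (nat_lit 8) (nat_lit 5) (nat_lit 7) (nat_lit 4) (nat_lit 387) (nat_lit 224) (nat_lit 169)) (XT.lf (nat_lit 0) (nat_lit 3258413954) (nat_lit 76) (nat_lit 3942539173) (nat_lit 152) (nat_lit 48163646615) (nat_lit 5) (nat_lit 5) (nat_lit 6) (nat_lit 5) (nat_lit 7) (nat_lit 4) (nat_lit 388) (nat_lit 224) (nat_lit 168))))))) (XT.nd (nat_lit 1014) (nat_lit 0) (nat_lit 0) (XT.nd (nat_lit 468)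 (nat_lit 76) (nat_lit 0) (XT.nd (nat_lit 234) (nat_lit 0) (nat_lit 0) (XT.nd (nat_lit 78) (nat_lit 0) (nat_lit 0) (XT.lf (nat_lit 0) (nat_lit 9502576827) (nat_lit 76) (nat_lit 812807393) (nat_lit 152) (nat_lit 46609952580) (nat_lit 5) (nat_lit 5) (nat_lit 6) (nat_lit 5) (nat_lit 7) (nat_lit 4) (nat_lit 389) (nat_lit 224) (nat_lit 167)) (XT.nd (nat_lit 78) (nat_lit 0) (nat_lit 0) (XT.lf (nat_lit 0) (nat_lit 13519824669) (nat_lit 152) (nat_lit 42671521889) (nat_lit 0) (nat_lit 2341659919) (nat_lit 5) (nat_lit 5) (nat_lit 7) (nat_lit 4) (nat_lit 5) (nat_lit 4) (nat_lit 390) (nat_lit 224) (nat_lit 166)) (XT.lf (nat_lit 0) (nat_lit 16802622802) (nat_lit 152) (nat_lit 37833868303) (nat_lit 0) (nat_lit 5552955978) (nat_lit 5) (nat_lit 5) (nat_lit 7) (nat_lit 4) (nat_lit 5) (nat_lit 4) (nat_lit 391) (nat_lit 224) (nat_lit 165)))) (XT.nd (nat_lit 78) (nat_lit 0) (nat_lit 0) (XT.lf (nat_lit 0) (nat_lit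 20158833883) (nat_lit 152) (nat_lit 32897758936) (nat_lit 0) (nat_lit 8839747570) (nat_lit 5) (nat_lit 5) (nat_lit 7) (nat_lit 4) (nat_lit 5) (nat_lit 4) (nat_lit 392) (nat_lit 224) (nat_lit 164)) (XT.nd (nat_lit 78) (nat_lit 0) (nat_lit 0) (XT.lf (nat_lit 0) (nat_lit 23591390524) (nat_lit 152) (nat_lit 27858880685) (nat_lit 0) (nat_lit 12204906649) (nat_lit 5) (nat_lit 5) (nat_lit 7) (nat_lit 4) (nat_lit 5) (nat_lit 4) (nat_lit 393) (nat_lit 224) (nat_lit 163)) (XT.lf (nat_lit 0) (nat_lit 27103292046) (nat_lit 152) (nat_lit 22712830644) (nat_lit 0) (nat_lit 15651373644) (nat_lit 5) (nat_lit 5) (nat_lit 7) (nat_lit 4) (nat_lit 5) (nat_lit 4) (nat_lit 394) (nat_lit 224) (nat_lit 162))))) (XT.nd (nat_lit 234) (nat_lit 76) (nat_lit 0) (XT.nd (nat_lit 78) (nat_lit 0) (nat_lit 0) (XT.lf (nat_lit 0) (nat_lit 30697607100) (nat_lit 152) (nat_lit 17455112267) (nat_lit 0) (nat_lit 19182160031) (nat_lit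 5) (nat_lit 5) (nat_lit 7) (nat_lit 4) (nat_lit 5) (nat_lit 4) (nat_lit 395) (nat_lit 224) (nat_lit 161)) (XT.nd (nat_lit 78) (nat_lit 0) (nat_lit 0) (XT.lf (nat_lit 0) (nat_lit 34377476350) (nat_lit 152) (nat_lit 12081131430) (nat_lit 0) (nat_lit 22800350965) (nat_lit 5) (nat_lit 5) (nat_lit 7) (nat_lit 4) (nat_lit 5) (nat_lit 4) (nat_lit 396) (nat_lit 224) (nat_lit 160)) (XT.lf (nat_lit 0) (nat_lit 38146115217) (nat_lit 152) (nat_lit 6586192421) (nat_lit 0) (nat_lit 26509107970) (nat_lit 5) (nat_lit 5) (nat_lit 7) (nat_lit 4) (nat_lit 5) (nat_lit 4) (nat_lit 397) (nat_lit 224) (nat_lit 159)))) (XT.nd (nat_lit 156) (nat_lit 0) (nat_lit 0) (XT.nd (nat_lit 78) (nat_lit 76) (nat_lit 0) (XT.lf (nat_lit 0) (nat_lit 42006816685) (nat_lit 152) (nat_lit 965493838) (nat_lit 0) (nat_lit 30311671709) (nat_lit 5) (nat_lit 5) (nat_lit 7) (nat_lit 4) (nat_lit 5) (nat_lit 4) (nat_lit 398) (nat_lit 224) (nat_lit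 158)) (XT.lf (nat_lit 0) (nat_lit 4881123918) (nat_lit 76) (nat_lit 41128750614) (nat_lit 76) (nat_lit 29377161240) (nat_lit 4) (nat_lit 4) (nat_lit 5) (nat_lit 5) (nat_lit 5) (nat_lit 4) (nat_lit 399) (nat_lit 224) (nat_lit 157))) (XT.nd (nat_lit 78) (nat_lit 0) (nat_lit 0) (XT.lf (nat_lit 0) (nat_lit 10885353851) (nat_lit 76) (nat_lit 39237267359) (nat_lit 76) (nat_lit 27430877600) (nat_lit 4) (nat_lit 4) (nat_lit 5) (nat_lit 5) (nat_lit 5) (nat_lit 4) (nat_lit 400) (nat_lit 224) (nat_lit 156)) (XT.lf (nat_lit 0) (nat_lit 17033227154) (nat_lit 76) (nat_lit 37305957602) (nat_lit 76) (nat_lit 25446363584) (nat_lit 4) (nat_lit 4) (nat_lit 5) (nat_lit 5) (nat_lit 5) (nat_lit 4) (nat_lit 401) (nat_lit 224) (nat_lit 155)))))) (XT.nd (nat_lit 546) (nat_lit 0) (nat_lit 0) (XT.nd (nat_lit 234) (nat_lit 0) (nat_lit 0) (XT.nd (nat_lit 78) (nat_lit 0) (nat_lit 0) (XT.lf (nat_lit 0) (nat_lit 23330115756)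 (nat_lit 76) (nat_lit 35333133789) (nat_lit 76) (nat_lit 23421885151) (nat_lit 4) (nat_lit 4) (nat_lit 5) (nat_lit 5) (nat_lit 5) (nat_lit 4) (nat_lit 402) (nat_lit 224) (nat_lit 154)) (XT.nd (nat_lit 78) (nat_lit 0) (nat_lit 0) (XT.lf (nat_lit 0) (nat_lit 29781521792) (nat_lit 76) (nat_lit 33317072094) (nat_lit 76) (nat_lit 21355673340) (nat_lit 4) (nat_lit 4) (nat_lit 5) (nat_lit 5) (nat_lit 5) (nat_lit 4) (nat_lit 403) (nat_lit 224) (nat_lit 153)) (XT.lf (nat_lit 0) (nat_lit 36393082414) (nat_lit 76) (nat_lit 31256010910) (nat_lit 76) (nat_lit 19245922723) (nat_lit 4) (nat_lit 4) (nat_lit 5) (nat_lit 5) (nat_lit 5) (nat_lit 4) (nat_lit 404) (nat_lit 224) (nat_lit 152)))) (XT.nd (nat_lit 156) (nat_lit 0) (nat_lit 0) (XT.nd (nat_lit 78) (nat_lit 0) (nat_lit 0) (XT.lf (nat_lit 0) (nat_lit 43170574712) (nat_lit 76) (nat_lit 29148149310) (nat_lit 76) (nat_lit 17090789829) (nat_lit 4) (nat_lit 4)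 (nat_lit 5) (nat_lit 5) (nat_lit 5) (nat_lit 4) (nat_lit 405) (nat_lit 224) (nat_lit 151)) (XT.lf (nat_lit 0) (nat_lit 50119920769) (nat_lit 76) (nat_lit 26991645472) (nat_lit 76) (nat_lit 14888391530) (nat_lit 4) (nat_lit 4) (nat_lit 5) (nat_lit 5) (nat_lit 5) (nat_lit 4) (nat_lit 406) (nat_lit 224) (nat_lit 150))) (XT.nd (nat_lit 78) (nat_lit 0) (nat_lit 0) (XT.lf (nat_lit 0) (nat_lit 57247192827) (nat_lit 76) (nat_lit 24784615073) (nat_lit 76) (nat_lit 12636803403) (nat_lit 4) (nat_lit 4) (nat_lit 5) (nat_lit 5) (nat_lit 5) (nat_lit 4) (nat_lit 407) (nat_lit 224) (nat_lit 149)) (XT.lf (nat_lit 0) (nat_lit 64558618600) (nat_lit 76) (nat_lit 22525129640) (nat_lit 76) (nat_lit 10334058039) (nat_lit 4) (nat_lit 4) (nat_lit 5) (nat_lit 5) (nat_lit 5) (nat_lit 4) (nat_lit 408) (nat_lit 224) (nat_lit 148))))) (XT.nd (nat_lit 34632) (nat_lit 0) (nat_lit 2204) (XT.nd (nat_lit 34476) (nat_lit 0) (nat_lit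 2584) (XT.lf (nat_lit 0) (nat_lit 72060586713) (nat_lit 76) (nat_lit 20211214865) (nat_lit 76) (nat_lit 7978143332) (nat_lit 4) (nat_lit 4) (nat_lit 5) (nat_lit 5) (nat_lit 5) (nat_lit 4) (nat_lit 409) (nat_lit 224) (nat_lit 147)) (XT.nd (nat_lit 78) (nat_lit 152) (nat_lit 0) (XT.lf (nat_lit 0) (nat_lit 2228751737) (nat_lit 228) (nat_lit 2260302023) (nat_lit 0) (nat_lit 2228751737) (nat_lit 40) (nat_lit 5) (nat_lit 43) (nat_lit 4) (nat_lit 40) (nat_lit 4) (nat_lit 330) (nat_lit 225) (nat_lit 225)) (XT.lf (nat_lit 0) (nat_lit 3191371812) (nat_lit 152) (nat_lit 5519022500) (nat_lit 152) (nat_lit 4985380603) (nat_lit 38) (nat_lit 4) (nat_lit 40) (nat_lit 5) (nat_lit 40) (nat_lit 4) (nat_lit 331) (nat_lit 225) (nat_lit 224)))) (XT.nd (nat_lit 156) (nat_lit 152) (nat_lit 0) (XT.nd (nat_lit 78) (nat_lit 228) (nat_lit 0) (XT.lf (nat_lit 0) (nat_lit 11073950838) (nat_lit 152) (nat_lit 1971475982) (nat_lit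 152) (nat_lit 919735157) (nat_lit 38) (nat_lit 4) (nat_lit 40) (nat_lit 5) (nat_lit 40) (nat_lit 4) (nat_lit 332) (nat_lit 225) (nat_lit 223)) (XT.lf (nat_lit 0) (nat_lit 3177846115) (nat_lit 228) (nat_lit 9396301251) (nat_lit 0) (nat_lit 1668380587) (nat_lit 35) (nat_lit 5) (nat_lit 38) (nat_lit 4) (nat_lit 35) (nat_lit 4) (nat_lit 333) (nat_lit 225) (nat_lit 222))) (XT.nd (nat_lit 78) (nat_lit 152) (nat_lit 0) (XT.lf (nat_lit 0) (nat_lit 7340084658) (nat_lit 228) (nat_lit 1832615594) (nat_lit 0) (nat_lit 5356485216) (nat_lit 35) (nat_lit 5) (nat_lit 38) (nat_lit 4) (nat_lit 35) (nat_lit 4) (nat_lit 334) (nat_lit 225) (nat_lit 221)) (XT.lf (nat_lit 0) (nat_lit 5926624293) (nat_lit 152) (nat_lit 5671333883) (nat_lit 152) (nat_lit 3227410253) (nat_lit 33) (nat_lit 4) (nat_lit 35) (nat_lit 5) (nat_lit 35) (nat_lit 4) (nat_lit 335) (nat_lit 225) (nat_lit 220))))))))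
noncomputable def xc30 : XT := (XT.nd (nat_lit 2028) (nat_lit 532) (nat_lit 0) (XT.nd (nat_lit 1014) (nat_lit 532) (nat_lit 0) (XT.nd (nat_lit 468) (nat_lit 456) (nat_lit 0) (XT.nd (nat_lit 234) (nat_lit 304) (nat_lit 0) (XT.nd (nat_lit 78) (nat_lit 152) (nat_lit 0) (XT.lf (nat_lit 0) (nat_lit 769192490) (nat_lit 228) (nat_lit 1329379560) (nat_lit 76) (nat_lit 13033683485) (nat_lit 32) (nat_lit 5) (nat_lit 35) (nat_lit 5) (nat_lit 33) (nat_lit 4) (nat_lit 336) (nat_lit 225) (nat_lit 219)) (XT.nd (nat_lit 78) (nat_lit 0) (nat_lit 0) (XT.lf (nat_lit 0) (nat_lit 4814592759) (nat_lit 228) (nat_lit 9046339628) (nat_lit 0) (nat_lit 1586689833) (nat_lit 30) (nat_lit 5) (nat_lit 33) (nat_lit 4) (nat_lit 30) (nat_lit 4) (nat_lit 337) (nat_lit 225) (nat_lit 218)) (XT.lf (nat_lit 0) (nat_lit 8932714982) (nat_lit 228) (nat_lit 1545417463) (nat_lit 0) (nat_lit 5295819978) (nat_lit 30) (nat_lit 5) (nat_lit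 33) (nat_lit 4) (nat_lit 30) (nat_lit 4) (nat_lit 338) (nat_lit 225) (nat_lit 217)))) (XT.nd (nat_lit 78) (nat_lit 152) (nat_lit 0) (XT.lf (nat_lit 0) (nat_lit 6161369659) (nat_lit 152) (nat_lit 6991679783) (nat_lit 152) (nat_lit 2957705091) (nat_lit 28) (nat_lit 4) (nat_lit 30) (nat_lit 5) (nat_lit 30) (nat_lit 4) (nat_lit 339) (nat_lit 225) (nat_lit 216)) (XT.nd (nat_lit 78) (nat_lit 76) (nat_lit 0) (XT.lf (nat_lit 0) (nat_lit 957387482) (nat_lit 228) (nat_lit 2475992362) (nat_lit 76) (nat_lit 13025958098) (nat_lit 27) (nat_lit 5) (nat_lit 30) (nat_lit 5) (nat_lit 28) (nat_lit 4) (nat_lit 340) (nat_lit 225) (nat_lit 215)) (XT.lf (nat_lit 0) (nat_lit 4904490387) (nat_lit 152) (nat_lit 11663488044) (nat_lit 0) (nat_lit 250340249) (nat_lit 26) (nat_lit 5) (nat_lit 28) (nat_lit 4) (nat_lit 26) (nat_lit 4) (nat_lit 341) (nat_lit 225) (nat_lit 214))))) (XT.nd (nat_lit 234) (nat_lit 304) (nat_lit 0)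 (XT.nd (nat_lit 78) (nat_lit 152) (nat_lit 0) (XT.lf (nat_lit 0) (nat_lit 8951656791) (nat_lit 152) (nat_lit 4292293409) (nat_lit 0) (nat_lit 3944706494) (nat_lit 26) (nat_lit 5) (nat_lit 28) (nat_lit 4) (nat_lit 26) (nat_lit 4) (nat_lit 342) (nat_lit 225) (nat_lit 213)) (XT.nd (nat_lit 78) (nat_lit 0) (nat_lit 0) (XT.lf (nat_lit 0) (nat_lit 3230981282) (nat_lit 152) (nat_lit 9844981417) (nat_lit 152) (nat_lit 4495506692) (nat_lit 24) (nat_lit 4) (nat_lit 26) (nat_lit 5) (nat_lit 26) (nat_lit 4) (nat_lit 343) (nat_lit 225) (nat_lit 212)) (XT.lf (nat_lit 0) (nat_lit 10937133295) (nat_lit 152) (nat_lit 6355811351) (nat_lit 152) (nat_lit 673788639) (nat_lit 24) (nat_lit 4) (nat_lit 26) (nat_lit 5) (nat_lit 26) (nat_lit 4) (nat_lit 344) (nat_lit 225) (nat_lit 211)))) (XT.nd (nat_lit 156) (nat_lit 152) (nat_lit 0) (XT.nd (nat_lit 78) (nat_lit 0) (nat_lit 0) (XT.lf (nat_lit 0) (nat_lit 347550426) (nat_lit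 76) (nat_lit 2781728027) (nat_lit 152) (nat_lit 15245758117) (nat_lit 22) (nat_lit 5) (nat_lit 23) (nat_lit 5) (nat_lit 24) (nat_lit 4) (nat_lit 345) (nat_lit 225) (nat_lit 210)) (XT.lf (nat_lit 0) (nat_lit 7040624212) (nat_lit 152) (nat_lit 10848254548) (nat_lit 0) (nat_lit 906310417) (nat_lit 22) (nat_lit 5) (nat_lit 24) (nat_lit 4) (nat_lit 22) (nat_lit 4) (nat_lit 346) (nat_lit 225) (nat_lit 209))) (XT.nd (nat_lit 78) (nat_lit 152) (nat_lit 0) (XT.lf (nat_lit 0) (nat_lit 11026360791) (nat_lit 152) (nat_lit 3606322935) (nat_lit 0) (nat_lit 4596582417) (nat_lit 22) (nat_lit 5) (nat_lit 24) (nat_lit 4) (nat_lit 22) (nat_lit 4) (nat_lit 347) (nat_lit 225) (nat_lit 208)) (XT.lf (nat_lit 0) (nat_lit 3805637970) (nat_lit 152) (nat_lit 11294175351) (nat_lit 152) (nat_lit 4577538162) (nat_lit 20) (nat_lit 4) (nat_lit 22) (nat_lit 5) (nat_lit 22) (nat_lit 4) (nat_lit 348) (nat_lit 225) (nat_lit 207))))))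 (XT.nd (nat_lit 468) (nat_lit 228) (nat_lit 0) (XT.nd (nat_lit 234) (nat_lit 152) (nat_lit 0) (XT.nd (nat_lit 78) (nat_lit 152) (nat_lit 0) (XT.lf (nat_lit 0) (nat_lit 11393584511) (nat_lit 152) (nat_lit 7870700399) (nat_lit 152) (nat_lit 875559506) (nat_lit 20) (nat_lit 4) (nat_lit 22) (nat_lit 5) (nat_lit 22) (nat_lit 4) (nat_lit 349) (nat_lit 225) (nat_lit 206)) (XT.nd (nat_lit 78) (nat_lit 76) (nat_lit 0) (XT.lf (nat_lit 0) (nat_lit 2813847480) (nat_lit 228) (nat_lit 1553422454) (nat_lit 76) (nat_lit 16250112211) (nat_lit 19) (nat_lit 5) (nat_lit 22) (nat_lit 5) (nat_lit 20) (nat_lit 4) (nat_lit 350) (nat_lit 225) (nat_lit 205)) (XT.lf (nat_lit 0) (nat_lit 5845903991) (nat_lit 76) (nat_lit 742250334) (nat_lit 152) (nat_lit 14521104139) (nat_lit 18) (nat_lit 5) (nat_lit 19) (nat_lit 5) (nat_lit 20) (nat_lit 4) (nat_lit 351) (nat_lit 225) (nat_lit 204)))) (XT.nd (nat_lit 78) (nat_lit 152) (nat_lit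 0) (XT.lf (nat_lit 0) (nat_lit 10456212536) (nat_lit 152) (nat_lit 8260309199) (nat_lit 0) (nat_lit 2899979883) (nat_lit 18) (nat_lit 5) (nat_lit 20) (nat_lit 4) (nat_lit 18) (nat_lit 4) (nat_lit 352) (nat_lit 225) (nat_lit 203)) (XT.nd (nat_lit 78) (nat_lit 152) (nat_lit 0) (XT.lf (nat_lit 0) (nat_lit 14385451803) (nat_lit 152) (nat_lit 1166202120) (nat_lit 0) (nat_lit 6588979408) (nat_lit 18) (nat_lit 5) (nat_lit 20) (nat_lit 4) (nat_lit 18) (nat_lit 4) (nat_lit 353) (nat_lit 225) (nat_lit 202)) (XT.lf (nat_lit 0) (nat_lit 6152355068) (nat_lit 152) (nat_lit 12278955610) (nat_lit 152) (nat_lit 4249240748) (nat_lit 16) (nat_lit 4) (nat_lit 18) (nat_lit 5) (nat_lit 18) (nat_lit 4) (nat_lit 354) (nat_lit 225) (nat_lit 201))))) (XT.nd (nat_lit 234) (nat_lit 76) (nat_lit 0) (XT.nd (nat_lit 78) (nat_lit 152) (nat_lit 0) (XT.lf (nat_lit 0) (nat_lit 13607010281) (nat_lit 152) (nat_lit 8943640728) (nat_lit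 152) (nat_lit 687476868) (nat_lit 16) (nat_lit 4) (nat_lit 18) (nat_lit 5) (nat_lit 18) (nat_lit 4) (nat_lit 355) (nat_lit 225) (nat_lit 200)) (XT.nd (nat_lit 78) (nat_lit 76) (nat_lit 0) (XT.lf (nat_lit 0) (nat_lit 2864438042) (nat_lit 228) (nat_lit 2661208030) (nat_lit 76) (nat_lit 18287704334) (nat_lit 15) (nat_lit 5) (nat_lit 18) (nat_lit 5) (nat_lit 16) (nat_lit 4) (nat_lit 356) (nat_lit 225) (nat_lit 199)) (XT.lf (nat_lit 0) (nat_lit 4496378272) (nat_lit 76) (nat_lit 1999112085) (nat_lit 152) (nat_lit 17910565073) (nat_lit 14) (nat_lit 5) (nat_lit 15) (nat_lit 5) (nat_lit 16) (nat_lit 4) (nat_lit 357) (nat_lit 225) (nat_lit 198)))) (XT.nd (nat_lit 156) (nat_lit 76) (nat_lit 0) (XT.nd (nat_lit 78) (nat_lit 0) (nat_lit 0) (XT.lf (nat_lit 0) (nat_lit 10221734680) (nat_lit 152) (nat_lit 13211078623) (nat_lit 0) (nat_lit 1584161800) (nat_lit 14) (nat_lit 5) (nat_lit 16) (nat_lit 4) (nat_lit 14)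 (nat_lit 4) (nat_lit 358) (nat_lit 225) (nat_lit 197)) (XT.lf (nat_lit 0) (nat_lit 14024629321) (nat_lit 152) (nat_lit 6430948297) (nat_lit 0) (nat_lit 5191719547) (nat_lit 14) (nat_lit 5) (nat_lit 16) (nat_lit 4) (nat_lit 14) (nat_lit 4) (nat_lit 359) (nat_lit 225) (nat_lit 196))) (XT.nd (nat_lit 78) (nat_lit 0) (nat_lit 0) (XT.lf (nat_lit 0) (nat_lit 464927300) (nat_lit 76) (nat_lit 17427822376) (nat_lit 76) (nat_lit 8405265131) (nat_lit 13) (nat_lit 4) (nat_lit 14) (nat_lit 5) (nat_lit 14) (nat_lit 4) (nat_lit 360) (nat_lit 225) (nat_lit 195)) (XT.lf (nat_lit 0) (nat_lit 7603724599) (nat_lit 76) (nat_lit 14285431308) (nat_lit 76) (nat_lit 5078750306) (nat_lit 13) (nat_lit 4) (nat_lit 14) (nat_lit 5) (nat_lit 14) (nat_lit 4) (nat_lit 361) (nat_lit 225) (nat_lit 194))))))) (XT.nd (nat_lit 1014) (nat_lit 152) (nat_lit 0) (XT.nd (nat_lit 468) (nat_lit 228) (nat_lit 0) (XT.nd (nat_lit 234) (nat_lit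 0) (nat_lit 0) (XT.nd (nat_lit 78) (nat_lit 152) (nat_lit 0) (XT.lf (nat_lit 0) (nat_lit 14863692904) (nat_lit 76) (nat_lit 11090598604) (nat_lit 76) (nat_lit 1705156671) (nat_lit 13) (nat_lit 4) (nat_lit 14) (nat_lit 5) (nat_lit 14) (nat_lit 4) (nat_lit 362) (nat_lit 225) (nat_lit 193)) (XT.nd (nat_lit 78) (nat_lit 76) (nat_lit 0) (XT.lf (nat_lit 0) (nat_lit 1684930157) (nat_lit 152) (nat_lit 6138588013) (nat_lit 76) (nat_lit 20549231226) (nat_lit 12) (nat_lit 5) (nat_lit 14) (nat_lit 5) (nat_lit 13) (nat_lit 4) (nat_lit 363) (nat_lit 225) (nat_lit 192)) (XT.lf (nat_lit 0) (nat_lit 624965141) (nat_lit 76) (nat_lit 4474769191) (nat_lit 152) (nat_lit 24008507562) (nat_lit 11) (nat_lit 5) (nat_lit 12) (nat_lit 5) (nat_lit 13) (nat_lit 4) (nat_lit 364) (nat_lit 225) (nat_lit 191)))) (XT.nd (nat_lit 78) (nat_lit 0) (nat_lit 0) (XT.lf (nat_lit 0) (nat_lit 7629487255) (nat_lit 76) (nat_lit 1001337563)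 (nat_lit 152) (nat_lit 21234575904) (nat_lit 11) (nat_lit 5) (nat_lit 12) (nat_lit 5) (nat_lit 13) (nat_lit 4) (nat_lit 365) (nat_lit 225) (nat_lit 190)) (XT.nd (nat_lit 78) (nat_lit 0) (nat_lit 0) (XT.lf (nat_lit 0) (nat_lit 12245499918) (nat_lit 152) (nat_lit 15912159214) (nat_lit 0) (nat_lit 2488301958) (nat_lit 11) (nat_lit 5) (nat_lit 13) (nat_lit 4) (nat_lit 11) (nat_lit 4) (nat_lit 366) (nat_lit 225) (nat_lit 189)) (XT.lf (nat_lit 0) (nat_lit 15932788683) (nat_lit 152) (nat_lit 9492358982) (nat_lit 0) (nat_lit 6025881259) (nat_lit 11) (nat_lit 5) (nat_lit 13) (nat_lit 4) (nat_lit 11) (nat_lit 4) (nat_lit 367) (nat_lit 225) (nat_lit 188))))) (XT.nd (nat_lit 234) (nat_lit 152) (nat_lit 0) (XT.nd (nat_lit 78) (nat_lit 76) (nat_lit 0) (XT.lf (nat_lit 0) (nat_lit 19686287547) (nat_lit 152) (nat_lit 2961277768) (nat_lit 0) (nat_lit 9634031128) (nat_lit 11) (nat_lit 5) (nat_lit 13) (nat_lit 4)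 (nat_lit 11) (nat_lit 4) (nat_lit 368) (nat_lit 225) (nat_lit 187)) (XT.nd (nat_lit 78) (nat_lit 0) (nat_lit 0) (XT.lf (nat_lit 0) (nat_lit 3760165572) (nat_lit 76) (nat_lit 19785255707) (nat_lit 76) (nat_lit 9591883759) (nat_lit 10) (nat_lit 4) (nat_lit 11) (nat_lit 5) (nat_lit 11) (nat_lit 4) (nat_lit 369) (nat_lit 225) (nat_lit 186)) (XT.lf (nat_lit 0) (nat_lit 10665784786) (nat_lit 76) (nat_lit 16841836579) (nat_lit 76) (nat_lit 6511459264) (nat_lit 10) (nat_lit 4) (nat_lit 11) (nat_lit 5) (nat_lit 11) (nat_lit 4) (nat_lit 370) (nat_lit 225) (nat_lit 185)))) (XT.nd (nat_lit 156) (nat_lit 152) (nat_lit 0) (XT.nd (nat_lit 78) (nat_lit 0) (nat_lit 0) (XT.lf (nat_lit 0) (nat_lit 17702678678) (nat_lit 76) (nat_lit 13844639113) (nat_lit 76) (nat_lit 3381246877) (nat_lit 10) (nat_lit 4) (nat_lit 11) (nat_lit 5) (nat_lit 11) (nat_lit 4) (nat_lit 371) (nat_lit 225) (nat_lit 184)) (XT.lf (nat_lit 0)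 (nat_lit 24876995988) (nat_lit 76) (nat_lit 10791044396) (nat_lit 76) (nat_lit 198511461) (nat_lit 10) (nat_lit 4) (nat_lit 11) (nat_lit 5) (nat_lit 11) (nat_lit 4) (nat_lit 372) (nat_lit 225) (nat_lit 183))) (XT.nd (nat_lit 78) (nat_lit 76) (nat_lit 0) (XT.lf (nat_lit 0) (nat_lit 2980215873) (nat_lit 152) (nat_lit 4668074030) (nat_lit 76) (nat_lit 29184695328) (nat_lit 9) (nat_lit 5) (nat_lit 11) (nat_lit 5) (nat_lit 10) (nat_lit 4) (nat_lit 373) (nat_lit 225) (nat_lit 182)) (XT.lf (nat_lit 0) (nat_lit 1806102998) (nat_lit 76) (nat_lit 4423326926) (nat_lit 152) (nat_lit 31599561804) (nat_lit 8) (nat_lit 5) (nat_lit 9) (nat_lit 5) (nat_lit 10) (nat_lit 4) (nat_lit 374) (nat_lit 225) (nat_lit 181)))))) (XT.nd (nat_lit 546) (nat_lit 76) (nat_lit 0) (XT.nd (nat_lit 234) (nat_lit 76) (nat_lit 0) (XT.nd (nat_lit 78) (nat_lit 0) (nat_lit 0) (XT.lf (nat_lit 0) (nat_lit 8500657414) (nat_lit 76) (nat_lit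 1084800318) (nat_lit 152) (nat_lit 29269152720) (nat_lit 8) (nat_lit 5) (nat_lit 9) (nat_lit 5) (nat_lit 10) (nat_lit 4) (nat_lit 375) (nat_lit 225) (nat_lit 180)) (XT.nd (nat_lit 78) (nat_lit 0) (nat_lit 0) (XT.lf (nat_lit 0) (nat_lit 13027797074) (nat_lit 152) (nat_lit 24605906295) (nat_lit 0) (nat_lit 2277737247) (nat_lit 8) (nat_lit 5) (nat_lit 10) (nat_lit 4) (nat_lit 8) (nat_lit 4) (nat_lit 376) (nat_lit 225) (nat_lit 179)) (XT.lf (nat_lit 0) (nat_lit 16548228498) (nat_lit 152) (nat_lit 18762498613) (nat_lit 0) (nat_lit 5690015369) (nat_lit 8) (nat_lit 5) (nat_lit 10) (nat_lit 4) (nat_lit 8) (nat_lit 4) (nat_lit 377) (nat_lit 225) (nat_lit 178)))) (XT.nd (nat_lit 156) (nat_lit 76) (nat_lit 0) (XT.nd (nat_lit 78) (nat_lit 0) (nat_lit 0) (XT.lf (nat_lit 0) (nat_lit 20139400347) (nat_lit 152) (nat_lit 12808196340) (nat_lit 0) (nat_lit 9176184012) (nat_lit 8) (nat_lit 5) (nat_lit 10) (nat_lit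 4) (nat_lit 8) (nat_lit 4) (nat_lit 378) (nat_lit 225) (nat_lit 177)) (XT.lf (nat_lit 0) (nat_lit 23804450537) (nat_lit 152) (nat_lit 6737796688) (nat_lit 0) (nat_lit 12739289342) (nat_lit 8) (nat_lit 5) (nat_lit 10) (nat_lit 4) (nat_lit 8) (nat_lit 4) (nat_lit 379) (nat_lit 225) (nat_lit 176))) (XT.nd (nat_lit 78) (nat_lit 76) (nat_lit 0) (XT.lf (nat_lit 0) (nat_lit 27546581540) (nat_lit 152) (nat_lit 545995422) (nat_lit 0) (nat_lit 16382444751) (nat_lit 8) (nat_lit 5) (nat_lit 10) (nat_lit 4) (nat_lit 8) (nat_lit 4) (nat_lit 380) (nat_lit 225) (nat_lit 175)) (XT.lf (nat_lit 0) (nat_lit 5887504180) (nat_lit 76) (nat_lit 25538153289) (nat_lit 76) (nat_lit 14277923693) (nat_lit 7) (nat_lit 4) (nat_lit 8) (nat_lit 5) (nat_lit 8) (nat_lit 4) (nat_lit 381) (nat_lit 225) (nat_lit 174))))) (XT.nd (nat_lit 234) (nat_lit 76) (nat_lit 0) (XT.nd (nat_lit 78) (nat_lit 0) (nat_lit 0) (XT.lf (nat_lit 0) (nat_lit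 12466836891) (nat_lit 76) (nat_lit 22928237454) (nat_lit 76) (nat_lit 11574713869) (nat_lit 7) (nat_lit 4) (nat_lit 8) (nat_lit 5) (nat_lit 8) (nat_lit 4) (nat_lit 382) (nat_lit 225) (nat_lit 173)) (XT.nd (nat_lit 78) (nat_lit 0) (nat_lit 0) (XT.lf (nat_lit 0) (nat_lit 19186885265) (nat_lit 76) (nat_lit 20266062431) (nat_lit 76) (nat_lit 8821962158) (nat_lit 7) (nat_lit 4) (nat_lit 8) (nat_lit 5) (nat_lit 8) (nat_lit 4) (nat_lit 383) (nat_lit 225) (nat_lit 172)) (XT.lf (nat_lit 0) (nat_lit 26053521186) (nat_lit 76) (nat_lit 17549302047) (nat_lit 76) (nat_lit 6017263242) (nat_lit 7) (nat_lit 4) (nat_lit 8) (nat_lit 5) (nat_lit 8) (nat_lit 4) (nat_lit 384) (nat_lit 225) (nat_lit 171)))) (XT.nd (nat_lit 156) (nat_lit 76) (nat_lit 0) (XT.nd (nat_lit 78) (nat_lit 0) (nat_lit 0) (XT.lf (nat_lit 0) (nat_lit 33072744629) (nat_lit 76) (nat_lit 14775582435) (nat_lit 76) (nat_lit 3158166414) (nat_lit 7)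 (nat_lit 4) (nat_lit 8) (nat_lit 5) (nat_lit 8) (nat_lit 4) (nat_lit 385) (nat_lit 225) (nat_lit 170)) (XT.lf (nat_lit 0) (nat_lit 40250688895) (nat_lit 76) (nat_lit 11942479955) (nat_lit 76) (nat_lit 242173434) (nat_lit 7) (nat_lit 4) (nat_lit 8) (nat_lit 5) (nat_lit 8) (nat_lit 4) (nat_lit 386) (nat_lit 225) (nat_lit 169))) (XT.nd (nat_lit 78) (nat_lit 0) (nat_lit 0) (XT.lf (nat_lit 0) (nat_lit 2679927834) (nat_lit 152) (nat_lit 6340529231) (nat_lit 76) (nat_lit 44886636124) (nat_lit 6) (nat_lit 5) (nat_lit 8) (nat_lit 5) (nat_lit 7) (nat_lit 4) (nat_lit 387) (nat_lit 225) (nat_lit 168)) (XT.lf (nat_lit 0) (nat_lit 5658136729) (nat_lit 152) (nat_lit 372897422) (nat_lit 76) (nat_lit 49392699212) (nat_lit 6) (nat_lit 5) (nat_lit 8) (nat_lit 5) (nat_lit 7) (nat_lit 4) (nat_lit 388) (nat_lit 225) (nat_lit 167))))))))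
noncomputable def xc31 : XT := (XT.nd (nat_lit 36348) (nat_lit 0) (nat_lit 760) (XT.nd (nat_lit 1014) (nat_lit 0) (nat_lit 0) (XT.nd (nat_lit 468) (nat_lit 76) (nat_lit 0) (XT.nd (nat_lit 234) (nat_lit 0) (nat_lit 0) (XT.nd (nat_lit 78) (nat_lit 0) (nat_lit 0) (XT.lf (nat_lit 0) (nat_lit 5839738728) (nat_lit 76) (nat_lit 2916177656) (nat_lit 152) (nat_lit 48229057422) (nat_lit 5) (nat_lit 5) (nat_lit 6) (nat_lit 5) (nat_lit 7) (nat_lit 4) (nat_lit 389) (nat_lit 225) (nat_lit 166)) (XT.nd (nat_lit 78) (nat_lit 0) (nat_lit 0) (XT.lf (nat_lit 0) (nat_lit 11927417199) (nat_lit 152) (nat_lit 46397459907) (nat_lit 0) (nat_lit 268758297) (nat_lit 5) (nat_lit 5) (nat_lit 7) (nat_lit 4) (nat_lit 5) (nat_lit 4) (nat_lit 390) (nat_lit 225) (nat_lit 165)) (XT.lf (nat_lit 0) (nat_lit 15197865088) (nat_lit 152) (nat_lit 41582798354) (nat_lit 0) (nat_lit 3469786696) (nat_lit 5) (nat_lit 5) (nat_lit 7) (nat_lit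 4) (nat_lit 5) (nat_lit 4) (nat_lit 391) (nat_lit 225) (nat_lit 164)))) (XT.nd (nat_lit 78) (nat_lit 0) (nat_lit 0) (XT.lf (nat_lit 0) (nat_lit 18542085641) (nat_lit 152) (nat_lit 36669011350) (nat_lit 0) (nat_lit 6746609687) (nat_lit 5) (nat_lit 5) (nat_lit 7) (nat_lit 4) (nat_lit 5) (nat_lit 4) (nat_lit 392) (nat_lit 225) (nat_lit 163)) (XT.nd (nat_lit 78) (nat_lit 0) (nat_lit 0) (XT.lf (nat_lit 0) (nat_lit 21963000992) (nat_lit 152) (nat_lit 31651805294) (nat_lit 0) (nat_lit 10102090511) (nat_lit 5) (nat_lit 5) (nat_lit 7) (nat_lit 4) (nat_lit 5) (nat_lit 4) (nat_lit 393) (nat_lit 225) (nat_lit 162)) (XT.lf (nat_lit 0) (nat_lit 25463600290) (nat_lit 152) (nat_lit 26526796222) (nat_lit 0) (nat_lit 13539161143) (nat_lit 5) (nat_lit 5) (nat_lit 7) (nat_lit 4) (nat_lit 5) (nat_lit 4) (nat_lit 394) (nat_lit 225) (nat_lit 161))))) (XT.nd (nat_lit 234) (nat_lit 76) (nat_lit 0) (XT.nd (nat_lit 78)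 (nat_lit 0) (nat_lit 0) (XT.lf (nat_lit 0) (nat_lit 29046942312) (nat_lit 152) (nat_lit 21289505968) (nat_lit 0) (nat_lit 17060824848) (nat_lit 5) (nat_lit 5) (nat_lit 7) (nat_lit 4) (nat_lit 5) (nat_lit 4) (nat_lit 395) (nat_lit 225) (nat_lit 160)) (XT.nd (nat_lit 78) (nat_lit 0) (nat_lit 0) (XT.lf (nat_lit 0) (nat_lit 32716158133) (nat_lit 152) (nat_lit 15935358261) (nat_lit 0) (nat_lit 20670158808) (nat_lit 5) (nat_lit 5) (nat_lit 7) (nat_lit 4) (nat_lit 5) (nat_lit 4) (nat_lit 396) (nat_lit 225) (nat_lit 159)) (XT.lf (nat_lit 0) (nat_lit 36474453865) (nat_lit 152) (nat_lit 10459674718) (nat_lit 0) (nat_lit 24370316810) (nat_lit 5) (nat_lit 5) (nat_lit 7) (nat_lit 4) (nat_lit 5) (nat_lit 4) (nat_lit 397) (nat_lit 225) (nat_lit 158)))) (XT.nd (nat_lit 156) (nat_lit 0) (nat_lit 0) (XT.nd (nat_lit 78) (nat_lit 76) (nat_lit 0) (XT.lf (nat_lit 0) (nat_lit 40325113454) (nat_lit 152) (nat_lit 4857670762)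 (nat_lit 0) (nat_lit 28164532001) (nat_lit 5) (nat_lit 5) (nat_lit 7) (nat_lit 4) (nat_lit 5) (nat_lit 4) (nat_lit 398) (nat_lit 225) (nat_lit 157)) (XT.lf (nat_lit 0) (nat_lit 892973695) (nat_lit 76) (nat_lit 43387111669) (nat_lit 76) (nat_lit 31171729831) (nat_lit 4) (nat_lit 4) (nat_lit 5) (nat_lit 5) (nat_lit 5) (nat_lit 4) (nat_lit 399) (nat_lit 225) (nat_lit 156))) (XT.nd (nat_lit 78) (nat_lit 0) (nat_lit 0) (XT.lf (nat_lit 0) (nat_lit 6879231447) (nat_lit 76) (nat_lit 41503962402) (nat_lit 76) (nat_lit 29235376305) (nat_lit 4) (nat_lit 4) (nat_lit 5) (nat_lit 5) (nat_lit 5) (nat_lit 4) (nat_lit 400) (nat_lit 225) (nat_lit 155)) (XT.lf (nat_lit 0) (nat_lit 13009656031) (nat_lit 76) (nat_lit 39580743895) (nat_lit 76) (nat_lit 27260503178) (nat_lit 4) (nat_lit 4) (nat_lit 5) (nat_lit 5) (nat_lit 5) (nat_lit 4) (nat_lit 401) (nat_lit 225) (nat_lit 154)))))) (XT.nd (nat_lit 546) (nat_lit 0)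 (nat_lit 0) (XT.nd (nat_lit 234) (nat_lit 0) (nat_lit 0) (XT.nd (nat_lit 78) (nat_lit 0) (nat_lit 0) (XT.lf (nat_lit 0) (nat_lit 19289604128) (nat_lit 76) (nat_lit 37615775664) (nat_lit 76) (nat_lit 25245384832) (nat_lit 4) (nat_lit 4) (nat_lit 5) (nat_lit 5) (nat_lit 5) (nat_lit 4) (nat_lit 402) (nat_lit 225) (nat_lit 153)) (XT.nd (nat_lit 78) (nat_lit 0) (nat_lit 0) (XT.lf (nat_lit 0) (nat_lit 25724563073) (nat_lit 76) (nat_lit 35607340748) (nat_lit 76) (nat_lit 23188260483) (nat_lit 4) (nat_lit 4) (nat_lit 5) (nat_lit 5) (nat_lit 5) (nat_lit 4) (nat_lit 403) (nat_lit 225) (nat_lit 152)) (XT.lf (nat_lit 0) (nat_lit 32320155644) (nat_lit 76) (nat_lit 33553684204) (nat_lit 76) (nat_lit 21087332645) (nat_lit 4) (nat_lit 4) (nat_lit 5) (nat_lit 5) (nat_lit 5) (nat_lit 4) (nat_lit 404) (nat_lit 225) (nat_lit 151)))) (XT.nd (nat_lit 156) (nat_lit 0) (nat_lit 0) (XT.nd (nat_lit 78) (nat_lit 0) (nat_lit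 0) (XT.lf (nat_lit 0) (nat_lit 39082144982) (nat_lit 76) (nat_lit 31453011575) (nat_lit 76) (nat_lit 18940765555) (nat_lit 4) (nat_lit 4) (nat_lit 5) (nat_lit 5) (nat_lit 5) (nat_lit 4) (nat_lit 405) (nat_lit 225) (nat_lit 150)) (XT.lf (nat_lit 0) (nat_lit 46016439619) (nat_lit 76) (nat_lit 29303487320) (nat_lit 76) (nat_lit 16746683572) (nat_lit 4) (nat_lit 4) (nat_lit 5) (nat_lit 5) (nat_lit 5) (nat_lit 4) (nat_lit 406) (nat_lit 225) (nat_lit 149))) (XT.nd (nat_lit 78) (nat_lit 0) (nat_lit 0) (XT.lf (nat_lit 0) (nat_lit 53129098649) (nat_lit 76) (nat_lit 27103233216) (nat_lit 76) (nat_lit 14503169537) (nat_lit 4) (nat_lit 4) (nat_lit 5) (nat_lit 5) (nat_lit 5) (nat_lit 4) (nat_lit 407) (nat_lit 225) (nat_lit 148)) (XT.lf (nat_lit 0) (nat_lit 60426337017) (nat_lit 76) (nat_lit 24850326710) (nat_lit 76) (nat_lit 12208263098) (nat_lit 4) (nat_lit 4) (nat_lit 5) (nat_lit 5) (nat_lit 5) (nat_lit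 4) (nat_lit 408) (nat_lit 225) (nat_lit 147))))) (XT.nd (nat_lit 34476) (nat_lit 0) (nat_lit 2356) (XT.nd (nat_lit 34320) (nat_lit 0) (nat_lit 2736) (XT.lf (nat_lit 0) (nat_lit 67914530950) (nat_lit 76) (nat_lit 22542799243) (nat_lit 76) (nat_lit 9859958997) (nat_lit 4) (nat_lit 4) (nat_lit 5) (nat_lit 5) (nat_lit 5) (nat_lit 4) (nat_lit 409) (nat_lit 225) (nat_lit 146)) (XT.nd (nat_lit 78) (nat_lit 228) (nat_lit 0) (XT.lf (nat_lit 0) (nat_lit 3207778066) (nat_lit 228) (nat_lit 1630864550) (nat_lit 228) (nat_lit 1630864550) (nat_lit 43) (nat_lit 4) (nat_lit 46) (nat_lit 5) (nat_lit 46) (nat_lit 4) (nat_lit 328) (nat_lit 226) (nat_lit 226)) (XT.lf (nat_lit 0) (nat_lit 818298813) (nat_lit 228) (nat_lit 12097928133) (nat_lit 0) (nat_lit 268647659) (nat_lit 40) (nat_lit 5) (nat_lit 43) (nat_lit 4) (nat_lit 40) (nat_lit 4) (nat_lit 329) (nat_lit 226) (nat_lit 225)))) (XT.nd (nat_lit 156) (nat_lit 228)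 (nat_lit 0) (XT.nd (nat_lit 78) (nat_lit 152) (nat_lit 0) (XT.lf (nat_lit 0) (nat_lit 4961682672) (nat_lit 228) (nat_lit 4596930701) (nat_lit 0) (nat_lit 3878389622) (nat_lit 40) (nat_lit 5) (nat_lit 43) (nat_lit 4) (nat_lit 40) (nat_lit 4) (nat_lit 330) (nat_lit 226) (nat_lit 224)) (XT.lf (nat_lit 0) (nat_lit 3037947752) (nat_lit 152) (nat_lit 6131003422) (nat_lit 152) (nat_lit 4529611443) (nat_lit 38) (nat_lit 4) (nat_lit 40) (nat_lit 5) (nat_lit 40) (nat_lit 4) (nat_lit 331) (nat_lit 226) (nat_lit 223))) (XT.nd (nat_lit 78) (nat_lit 228) (nat_lit 0) (XT.lf (nat_lit 0) (nat_lit 10847149735) (nat_lit 152) (nat_lit 2613266924) (nat_lit 152) (nat_lit 508866276) (nat_lit 38) (nat_lit 4) (nat_lit 40) (nat_lit 5) (nat_lit 40) (nat_lit 4) (nat_lit 332) (nat_lit 226) (nat_lit 222)) (XT.lf (nat_lit 0) (nat_lit 3528503596) (nat_lit 228) (nat_lit 9708355124) (nat_lit 0) (nat_lit 1011262258) (nat_lit 35)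 (nat_lit 5) (nat_lit 38) (nat_lit 4) (nat_lit 35) (nat_lit 4) (nat_lit 333) (nat_lit 226) (nat_lit 221))))))) (XT.nd (nat_lit 1014) (nat_lit 608) (nat_lit 0) (XT.nd (nat_lit 468) (nat_lit 456) (nat_lit 0) (XT.nd (nat_lit 234) (nat_lit 304) (nat_lit 0) (XT.nd (nat_lit 78) (nat_lit 228) (nat_lit 0) (XT.lf (nat_lit 0) (nat_lit 7648277844) (nat_lit 228) (nat_lit 2217086277) (nat_lit 0) (nat_lit 4670712318) (nat_lit 35) (nat_lit 5) (nat_lit 38) (nat_lit 4) (nat_lit 35) (nat_lit 4) (nat_lit 334) (nat_lit 226) (nat_lit 220)) (XT.nd (nat_lit 78) (nat_lit 76) (nat_lit 0) (XT.lf (nat_lit 0) (nat_lit 5462795047) (nat_lit 152) (nat_lit 6397670233) (nat_lit 152) (nat_lit 2973188019) (nat_lit 33) (nat_lit 4) (nat_lit 35) (nat_lit 5) (nat_lit 35) (nat_lit 4) (nat_lit 335) (nat_lit 226) (nat_lit 219)) (XT.lf (nat_lit 0) (nat_lit 977332922) (nat_lit 228) (nat_lit 1874396077) (nat_lit 76) (nat_lit 12289993704)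 (nat_lit 32) (nat_lit 5) (nat_lit 35) (nat_lit 5) (nat_lit 33) (nat_lit 4) (nat_lit 336) (nat_lit 226) (nat_lit 218)))) (XT.nd (nat_lit 78) (nat_lit 152) (nat_lit 0) (XT.lf (nat_lit 0) (nat_lit 4969222781) (nat_lit 228) (nat_lit 9675264408) (nat_lit 0) (nat_lit 814228849) (nat_lit 30) (nat_lit 5) (nat_lit 33) (nat_lit 4) (nat_lit 30) (nat_lit 4) (nat_lit 337) (nat_lit 226) (nat_lit 217)) (XT.nd (nat_lit 78) (nat_lit 152) (nat_lit 0) (XT.lf (nat_lit 0) (nat_lit 9047661121) (nat_lit 228) (nat_lit 2243008855) (nat_lit 0) (nat_lit 4495587500) (nat_lit 30) (nat_lit 5) (nat_lit 33) (nat_lit 4) (nat_lit 30) (nat_lit 4) (nat_lit 338) (nat_lit 226) (nat_lit 216)) (XT.lf (nat_lit 0) (nat_lit 5381901421) (nat_lit 152) (nat_lit 7840073391) (nat_lit 152) (nat_lit 2902485510) (nat_lit 28) (nat_lit 4) (nat_lit 30) (nat_lit 5) (nat_lit 30) (nat_lit 4) (nat_lit 339) (nat_lit 226) (nat_lit 215))))) (XT.nd (nat_lit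 234) (nat_lit 304) (nat_lit 0) (XT.nd (nat_lit 78) (nat_lit 76) (nat_lit 0) (XT.lf (nat_lit 0) (nat_lit 973093322) (nat_lit 228) (nat_lit 3336494126) (nat_lit 76) (nat_lit 12164612405) (nat_lit 27) (nat_lit 5) (nat_lit 30) (nat_lit 5) (nat_lit 28) (nat_lit 4) (nat_lit 340) (nat_lit 226) (nat_lit 214)) (XT.nd (nat_lit 78) (nat_lit 0) (nat_lit 0) (XT.lf (nat_lit 0) (nat_lit 4213589084) (nat_lit 76) (nat_lit 657764028) (nat_lit 152) (nat_lit 11963311179) (nat_lit 26) (nat_lit 5) (nat_lit 27) (nat_lit 5) (nat_lit 28) (nat_lit 4) (nat_lit 341) (nat_lit 226) (nat_lit 213)) (XT.lf (nat_lit 0) (nat_lit 8875086511) (nat_lit 152) (nat_lit 5308633537) (nat_lit 0) (nat_lit 3022603118) (nat_lit 26) (nat_lit 5) (nat_lit 28) (nat_lit 4) (nat_lit 26) (nat_lit 4) (nat_lit 342) (nat_lit 226) (nat_lit 212)))) (XT.nd (nat_lit 156) (nat_lit 152) (nat_lit 0) (XT.nd (nat_lit 78) (nat_lit 0) (nat_lit 0) (XT.lf (nat_lit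 0) (nat_lit 2129976196) (nat_lit 152) (nat_lit 10822803391) (nat_lit 152) (nat_lit 4637772011) (nat_lit 24) (nat_lit 4) (nat_lit 26) (nat_lit 5) (nat_lit 26) (nat_lit 4) (nat_lit 343) (nat_lit 226) (nat_lit 211)) (XT.lf (nat_lit 0) (nat_lit 9773567241) (nat_lit 152) (nat_lit 7360613019) (nat_lit 152) (nat_lit 852719515) (nat_lit 24) (nat_lit 4) (nat_lit 26) (nat_lit 5) (nat_lit 26) (nat_lit 4) (nat_lit 344) (nat_lit 226) (nat_lit 210))) (XT.nd (nat_lit 78) (nat_lit 76) (nat_lit 0) (XT.lf (nat_lit 0) (nat_lit 2915595306) (nat_lit 228) (nat_lit 902693404) (nat_lit 76) (nat_lit 14578129143) (nat_lit 23) (nat_lit 5) (nat_lit 26) (nat_lit 5) (nat_lit 24) (nat_lit 4) (nat_lit 345) (nat_lit 226) (nat_lit 209)) (XT.lf (nat_lit 0) (nat_lit 6627030512) (nat_lit 76) (nat_lit 147703924) (nat_lit 152) (nat_lit 12043417639) (nat_lit 22) (nat_lit 5) (nat_lit 23) (nat_lit 5) (nat_lit 24) (nat_lit 4) (nat_lit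 346) (nat_lit 226) (nat_lit 208)))))) (XT.nd (nat_lit 546) (nat_lit 304) (nat_lit 0) (XT.nd (nat_lit 234) (nat_lit 152) (nat_lit 0) (XT.nd (nat_lit 78) (nat_lit 152) (nat_lit 0) (XT.lf (nat_lit 0) (nat_lit 10725337763) (nat_lit 152) (nat_lit 5007617597) (nat_lit 0) (nat_lit 3520342643) (nat_lit 22) (nat_lit 5) (nat_lit 24) (nat_lit 4) (nat_lit 22) (nat_lit 4) (nat_lit 347) (nat_lit 226) (nat_lit 207)) (XT.nd (nat_lit 78) (nat_lit 0) (nat_lit 0) (XT.lf (nat_lit 0) (nat_lit 2317194069) (nat_lit 152) (nat_lit 12434556905) (nat_lit 152) (nat_lit 4951058081) (nat_lit 20) (nat_lit 4) (nat_lit 22) (nat_lit 5) (nat_lit 22) (nat_lit 4) (nat_lit 348) (nat_lit 226) (nat_lit 206)) (XT.lf (nat_lit 0) (nat_lit 9847605922) (nat_lit 152) (nat_lit 9036285440) (nat_lit 152) (nat_lit 1282394670) (nat_lit 20) (nat_lit 4) (nat_lit 22) (nat_lit 5) (nat_lit 22) (nat_lit 4) (nat_lit 349) (nat_lit 226) (nat_lit 205))))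 (XT.nd (nat_lit 156) (nat_lit 0) (nat_lit 0) (XT.nd (nat_lit 78) (nat_lit 76) (nat_lit 0) (XT.lf (nat_lit 0) (nat_lit 2383237403) (nat_lit 228) (nat_lit 3178435292) (nat_lit 76) (nat_lit 15083233097) (nat_lit 19) (nat_lit 5) (nat_lit 22) (nat_lit 5) (nat_lit 20) (nat_lit 4) (nat_lit 350) (nat_lit 226) (nat_lit 204)) (XT.lf (nat_lit 0) (nat_lit 4132600783) (nat_lit 76) (nat_lit 1977684116) (nat_lit 152) (nat_lit 15027927904) (nat_lit 18) (nat_lit 5) (nat_lit 19) (nat_lit 5) (nat_lit 20) (nat_lit 4) (nat_lit 351) (nat_lit 226) (nat_lit 203))) (XT.nd (nat_lit 78) (nat_lit 0) (nat_lit 0) (XT.lf (nat_lit 0) (nat_lit 9935822191) (nat_lit 152) (nat_lit 10045706045) (nat_lit 0) (nat_lit 1665215882) (nat_lit 18) (nat_lit 5) (nat_lit 20) (nat_lit 4) (nat_lit 18) (nat_lit 4) (nat_lit 352) (nat_lit 226) (nat_lit 202)) (XT.lf (nat_lit 0) (nat_lit 13835308862) (nat_lit 152) (nat_lit 3005011631) (nat_lit 0)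 (nat_lit 5331460086) (nat_lit 18) (nat_lit 5) (nat_lit 20) (nat_lit 4) (nat_lit 18) (nat_lit 4) (nat_lit 353) (nat_lit 226) (nat_lit 201))))) (XT.nd (nat_lit 234) (nat_lit 76) (nat_lit 0) (XT.nd (nat_lit 78) (nat_lit 76) (nat_lit 0) (XT.lf (nat_lit 0) (nat_lit 4224060632) (nat_lit 152) (nat_lit 13609685144) (nat_lit 152) (nat_lit 4879387371) (nat_lit 16) (nat_lit 4) (nat_lit 18) (nat_lit 5) (nat_lit 18) (nat_lit 4) (nat_lit 354) (nat_lit 226) (nat_lit 200)) (XT.nd (nat_lit 78) (nat_lit 76) (nat_lit 0) (XT.lf (nat_lit 0) (nat_lit 11627367290) (nat_lit 152) (nat_lit 10297180548) (nat_lit 152) (nat_lit 1347029379) (nat_lit 16) (nat_lit 4) (nat_lit 18) (nat_lit 5) (nat_lit 18) (nat_lit 4) (nat_lit 355) (nat_lit 226) (nat_lit 199)) (XT.lf (nat_lit 0) (nat_lit 2189763473) (nat_lit 228) (nat_lit 4718381217) (nat_lit 76) (nat_lit 16939695837) (nat_lit 15) (nat_lit 5) (nat_lit 18) (nat_lit 5) (nat_lit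 16) (nat_lit 4) (nat_lit 356) (nat_lit 226) (nat_lit 198)))) (XT.nd (nat_lit 156) (nat_lit 0) (nat_lit 0) (XT.nd (nat_lit 78) (nat_lit 0) (nat_lit 0) (XT.lf (nat_lit 0) (nat_lit 2348336747) (nat_lit 76) (nat_lit 3424653758) (nat_lit 152) (nat_lit 18669000303) (nat_lit 14) (nat_lit 5) (nat_lit 15) (nat_lit 5) (nat_lit 16) (nat_lit 4) (nat_lit 357) (nat_lit 226) (nat_lit 197)) (XT.lf (nat_lit 0) (nat_lit 9458472437) (nat_lit 152) (nat_lit 15430432631) (nat_lit 0) (nat_lit 165238475) (nat_lit 14) (nat_lit 5) (nat_lit 16) (nat_lit 4) (nat_lit 14) (nat_lit 4) (nat_lit 358) (nat_lit 226) (nat_lit 196))) (XT.nd (nat_lit 78) (nat_lit 0) (nat_lit 0) (XT.lf (nat_lit 0) (nat_lit 13235096000) (nat_lit 152) (nat_lit 8697953065) (nat_lit 0) (nat_lit 3752214567) (nat_lit 14) (nat_lit 5) (nat_lit 16) (nat_lit 4) (nat_lit 14) (nat_lit 4) (nat_lit 359) (nat_lit 226) (nat_lit 195)) (XT.lf (nat_lit 0) (nat_lit 17073241288)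 (nat_lit 152) (nat_lit 1857412748) (nat_lit 0) (nat_lit 7406236097) (nat_lit 14) (nat_lit 5) (nat_lit 16) (nat_lit 4) (nat_lit 14) (nat_lit 4) (nat_lit 360) (nat_lit 226) (nat_lit 194))))))))
noncomputable def xc32 : XT := (XT.nd (nat_lit 2028) (nat_lit 228) (nat_lit 0) (XT.nd (nat_lit 1014) (nat_lit 152) (nat_lit 0) (XT.nd (nat_lit 468) (nat_lit 152) (nat_lit 0) (XT.nd (nat_lit 234) (nat_lit 76) (nat_lit 0) (XT.nd (nat_lit 78) (nat_lit 76) (nat_lit 0) (XT.lf (nat_lit 0) (nat_lit 5198609077) (nat_lit 76) (nat_lit 15827625154) (nat_lit 76) (nat_lit 5981859034) (nat_lit 13) (nat_lit 4) (nat_lit 14) (nat_lit 5) (nat_lit 14) (nat_lit 4) (nat_lit 361) (nat_lit 226) (nat_lit 193)) (XT.nd (nat_lit 78) (nat_lit 76) (nat_lit 0) (XT.lf (nat_lit 0) (nat_lit 12414102316) (nat_lit 76) (nat_lit 12652798234) (nat_lit 76) (nat_lit 2633477813) (nat_lit 13) (nat_lit 4) (nat_lit 14) (nat_lit 5) (nat_lit 14) (nat_lit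 4) (nat_lit 362) (nat_lit 226) (nat_lit 192)) (XT.lf (nat_lit 0) (nat_lit 750723488) (nat_lit 152) (nat_lit 8663851060) (nat_lit 76) (nat_lit 19000101288) (nat_lit 12) (nat_lit 5) (nat_lit 14) (nat_lit 5) (nat_lit 13) (nat_lit 4) (nat_lit 363) (nat_lit 226) (nat_lit 191)))) (XT.nd (nat_lit 78) (nat_lit 76) (nat_lit 0) (XT.lf (nat_lit 0) (nat_lit 4136218741) (nat_lit 152) (nat_lit 1954887271) (nat_lit 76) (nat_lit 23059949877) (nat_lit 12) (nat_lit 5) (nat_lit 14) (nat_lit 5) (nat_lit 13) (nat_lit 4) (nat_lit 364) (nat_lit 226) (nat_lit 190)) (XT.nd (nat_lit 78) (nat_lit 0) (nat_lit 0) (XT.lf (nat_lit 0) (nat_lit 4968750336) (nat_lit 76) (nat_lit 2656367113) (nat_lit 152) (nat_lit 22284371066) (nat_lit 11) (nat_lit 5) (nat_lit 12) (nat_lit 5) (nat_lit 13) (nat_lit 4) (nat_lit 365) (nat_lit 226) (nat_lit 189)) (XT.lf (nat_lit 0) (nat_lit 11201350968) (nat_lit 152) (nat_lit 18642332117) (nat_lit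 0) (nat_lit 847526857) (nat_lit 11) (nat_lit 5) (nat_lit 13) (nat_lit 4) (nat_lit 11) (nat_lit 4) (nat_lit 366) (nat_lit 226) (nat_lit 188))))) (XT.nd (nat_lit 234) (nat_lit 76) (nat_lit 0) (XT.nd (nat_lit 78) (nat_lit 76) (nat_lit 0) (XT.lf (nat_lit 0) (nat_lit 14866763594) (nat_lit 152) (nat_lit 12262587562) (nat_lit 0) (nat_lit 4367590487) (nat_lit 11) (nat_lit 5) (nat_lit 13) (nat_lit 4) (nat_lit 11) (nat_lit 4) (nat_lit 367) (nat_lit 226) (nat_lit 187)) (XT.nd (nat_lit 78) (nat_lit 76) (nat_lit 0) (XT.lf (nat_lit 0) (nat_lit 18599023487) (nat_lit 152) (nat_lit 5770395355) (nat_lit 0) (nat_lit 7958734852) (nat_lit 11) (nat_lit 5) (nat_lit 13) (nat_lit 4) (nat_lit 11) (nat_lit 4) (nat_lit 368) (nat_lit 226) (nat_lit 186)) (XT.lf (nat_lit 0) (nat_lit 856633294) (nat_lit 76) (nat_lit 21552993036) (nat_lit 76) (nat_lit 10775699033) (nat_lit 10) (nat_lit 4) (nat_lit 11) (nat_lit 5) (nat_lit 11)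 (nat_lit 4) (nat_lit 369) (nat_lit 226) (nat_lit 185)))) (XT.nd (nat_lit 156) (nat_lit 76) (nat_lit 0) (XT.nd (nat_lit 78) (nat_lit 0) (nat_lit 0) (XT.lf (nat_lit 0) (nat_lit 7724866352) (nat_lit 76) (nat_lit 18626580920) (nat_lit 76) (nat_lit 7716271997) (nat_lit 10) (nat_lit 4) (nat_lit 11) (nat_lit 5) (nat_lit 11) (nat_lit 4) (nat_lit 370) (nat_lit 226) (nat_lit 184)) (XT.lf (nat_lit 0) (nat_lit 14725463003) (nat_lit 76) (nat_lit 15645895116) (nat_lit 76) (nat_lit 4606445494) (nat_lit 10) (nat_lit 4) (nat_lit 11) (nat_lit 5) (nat_lit 11) (nat_lit 4) (nat_lit 371) (nat_lit 226) (nat_lit 183))) (XT.nd (nat_lit 78) (nat_lit 76) (nat_lit 0) (XT.lf (nat_lit 0) (nat_lit 21864540274) (nat_lit 76) (nat_lit 12608331140) (nat_lit 76) (nat_lit 1443502198) (nat_lit 10) (nat_lit 4) (nat_lit 11) (nat_lit 5) (nat_lit 11) (nat_lit 4) (nat_lit 372) (nat_lit 226) (nat_lit 182)) (XT.lf (nat_lit 0) (nat_lit 1740678707)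 (nat_lit 152) (nat_lit 7752978660) (nat_lit 76) (nat_lit 27390080044) (nat_lit 9) (nat_lit 5) (nat_lit 11) (nat_lit 5) (nat_lit 10) (nat_lit 4) (nat_lit 373) (nat_lit 226) (nat_lit 181)))))) (XT.nd (nat_lit 468) (nat_lit 76) (nat_lit 0) (XT.nd (nat_lit 234) (nat_lit 0) (nat_lit 0) (XT.nd (nat_lit 78) (nat_lit 76) (nat_lit 0) (XT.lf (nat_lit 0) (nat_lit 4954239465) (nat_lit 152) (nat_lit 1347632354) (nat_lit 76) (nat_lit 31578947674) (nat_lit 9) (nat_lit 5) (nat_lit 11) (nat_lit 5) (nat_lit 10) (nat_lit 4) (nat_lit 374) (nat_lit 226) (nat_lit 180)) (XT.nd (nat_lit 78) (nat_lit 0) (nat_lit 0) (XT.lf (nat_lit 0) (nat_lit 5286843672) (nat_lit 76) (nat_lit 2992132672) (nat_lit 152) (nat_lit 30628406413) (nat_lit 8) (nat_lit 5) (nat_lit 9) (nat_lit 5) (nat_lit 10) (nat_lit 4) (nat_lit 375) (nat_lit 226) (nat_lit 179)) (XT.lf (nat_lit 0) (nat_lit 11685287303) (nat_lit 152) (nat_lit 27886837634) (nat_lit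 0) (nat_lit 393174478) (nat_lit 8) (nat_lit 5) (nat_lit 10) (nat_lit 4) (nat_lit 8) (nat_lit 4) (nat_lit 376) (nat_lit 226) (nat_lit 178)))) (XT.nd (nat_lit 78) (nat_lit 0) (nat_lit 0) (XT.lf (nat_lit 0) (nat_lit 15188540147) (nat_lit 152) (nat_lit 22075157854) (nat_lit 0) (nat_lit 3791424115) (nat_lit 8) (nat_lit 5) (nat_lit 10) (nat_lit 4) (nat_lit 8) (nat_lit 4) (nat_lit 377) (nat_lit 226) (nat_lit 177)) (XT.nd (nat_lit 78) (nat_lit 0) (nat_lit 0) (XT.lf (nat_lit 0) (nat_lit 18763033762) (nat_lit 152) (nat_lit 16151659368) (nat_lit 0) (nat_lit 7263972870) (nat_lit 8) (nat_lit 5) (nat_lit 10) (nat_lit 4) (nat_lit 8) (nat_lit 4) (nat_lit 378) (nat_lit 226) (nat_lit 176)) (XT.lf (nat_lit 0) (nat_lit 22411891493) (nat_lit 152) (nat_lit 10111166305) (nat_lit 0) (nat_lit 10813855008) (nat_lit 8) (nat_lit 5) (nat_lit 10) (nat_lit 4) (nat_lit 8) (nat_lit 4) (nat_lit 379) (nat_lit 226) (nat_lit 175)))))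 (XT.nd (nat_lit 234) (nat_lit 0) (nat_lit 0) (XT.nd (nat_lit 78) (nat_lit 76) (nat_lit 0) (XT.lf (nat_lit 0) (nat_lit 26138301660) (nat_lit 152) (nat_lit 3948400563) (nat_lit 0) (nat_lit 14444172367) (nat_lit 8) (nat_lit 5) (nat_lit 10) (nat_lit 4) (nat_lit 8) (nat_lit 4) (nat_lit 380) (nat_lit 226) (nat_lit 174)) (XT.nd (nat_lit 78) (nat_lit 0) (nat_lit 0) (XT.lf (nat_lit 0) (nat_lit 2388633643) (nat_lit 76) (nat_lit 27579847716) (nat_lit 76) (nat_lit 15792424435) (nat_lit 7) (nat_lit 4) (nat_lit 8) (nat_lit 5) (nat_lit 8) (nat_lit 4) (nat_lit 381) (nat_lit 226) (nat_lit 173)) (XT.lf (nat_lit 0) (nat_lit 8940052896) (nat_lit 76) (nat_lit 24982758623) (nat_lit 76) (nat_lit 13104758654) (nat_lit 7) (nat_lit 4) (nat_lit 8) (nat_lit 5) (nat_lit 8) (nat_lit 4) (nat_lit 382) (nat_lit 226) (nat_lit 172)))) (XT.nd (nat_lit 156) (nat_lit 0) (nat_lit 0) (XT.nd (nat_lit 78) (nat_lit 0) (nat_lit 0) (XT.lf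 (nat_lit 0) (nat_lit 15633000825) (nat_lit 76) (nat_lit 22333036748) (nat_lit 76) (nat_lit 10367098246) (nat_lit 7) (nat_lit 4) (nat_lit 8) (nat_lit 5) (nat_lit 8) (nat_lit 4) (nat_lit 383) (nat_lit 226) (nat_lit 171)) (XT.lf (nat_lit 0) (nat_lit 22473325635) (nat_lit 76) (nat_lit 19628366799) (nat_lit 76) (nat_lit 7577051082) (nat_lit 7) (nat_lit 4) (nat_lit 8) (nat_lit 5) (nat_lit 8) (nat_lit 4) (nat_lit 384) (nat_lit 226) (nat_lit 170))) (XT.nd (nat_lit 78) (nat_lit 0) (nat_lit 0) (XT.lf (nat_lit 0) (nat_lit 29467004309) (nat_lit 76) (nat_lit 16866385473) (nat_lit 76) (nat_lit 4732179255) (nat_lit 7) (nat_lit 4) (nat_lit 8) (nat_lit 5) (nat_lit 8) (nat_lit 4) (nat_lit 385) (nat_lit 226) (nat_lit 169)) (XT.lf (nat_lit 0) (nat_lit 36620147830) (nat_lit 76) (nat_lit 14044679388) (nat_lit 76) (nat_lit 1829996956) (nat_lit 7) (nat_lit 4) (nat_lit 8) (nat_lit 5) (nat_lit 8) (nat_lit 4) (nat_lit 386)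 (nat_lit 226) (nat_lit 168))))))) (XT.nd (nat_lit 1014) (nat_lit 76) (nat_lit 0) (XT.nd (nat_lit 468) (nat_lit 0) (nat_lit 0) (XT.nd (nat_lit 234) (nat_lit 0) (nat_lit 0) (XT.nd (nat_lit 78) (nat_lit 76) (nat_lit 0) (XT.lf (nat_lit 0) (nat_lit 1109941687) (nat_lit 152) (nat_lit 10039633054) (nat_lit 76) (nat_lit 42817856594) (nat_lit 6) (nat_lit 5) (nat_lit 8) (nat_lit 5) (nat_lit 7) (nat_lit 4) (nat_lit 387) (nat_lit 226) (nat_lit 167)) (XT.nd (nat_lit 78) (nat_lit 76) (nat_lit 0) (XT.lf (nat_lit 0) (nat_lit 4075386716) (nat_lit 152) (nat_lit 4095636195) (nat_lit 76) (nat_lit 47313435355) (nat_lit 6) (nat_lit 5) (nat_lit 8) (nat_lit 5) (nat_lit 7) (nat_lit 4) (nat_lit 388) (nat_lit 226) (nat_lit 166)) (XT.lf (nat_lit 0) (nat_lit 2019506919) (nat_lit 76) (nat_lit 5104544945) (nat_lit 152) (nat_lit 49923124011) (nat_lit 5) (nat_lit 5) (nat_lit 6) (nat_lit 5) (nat_lit 7) (nat_lit 4) (nat_lit 389)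 (nat_lit 226) (nat_lit 165)))) (XT.nd (nat_lit 78) (nat_lit 0) (nat_lit 0) (XT.lf (nat_lit 0) (nat_lit 8355936032) (nat_lit 76) (nat_lit 1924732180) (nat_lit 152) (nat_lit 48375619415) (nat_lit 5) (nat_lit 5) (nat_lit 6) (nat_lit 5) (nat_lit 7) (nat_lit 4) (nat_lit 390) (nat_lit 226) (nat_lit 164)) (XT.nd (nat_lit 78) (nat_lit 0) (nat_lit 0) (XT.lf (nat_lit 0) (nat_lit 13520623870) (nat_lit 152) (nat_lit 45489510702) (nat_lit 0) (nat_lit 1303886074) (nat_lit 5) (nat_lit 5) (nat_lit 7) (nat_lit 4) (nat_lit 5) (nat_lit 4) (nat_lit 391) (nat_lit 226) (nat_lit 163)) (XT.lf (nat_lit 0) (nat_lit 16853203132) (nat_lit 152) (nat_lit 40597395894) (nat_lit 0) (nat_lit 4571030811) (nat_lit 5) (nat_lit 5) (nat_lit 7) (nat_lit 4) (nat_lit 5) (nat_lit 4) (nat_lit 392) (nat_lit 226) (nat_lit 162))))) (XT.nd (nat_lit 234) (nat_lit 0) (nat_lit 0) (XT.nd (nat_lit 78) (nat_lit 0) (nat_lit 0) (XT.lf (nat_lit 0) (nat_lit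 20262816260) (nat_lit 152) (nat_lit 35601230807) (nat_lit 0) (nat_lit 7917115272) (nat_lit 5) (nat_lit 5) (nat_lit 7) (nat_lit 4) (nat_lit 5) (nat_lit 4) (nat_lit 393) (nat_lit 226) (nat_lit 161)) (XT.nd (nat_lit 78) (nat_lit 0) (nat_lit 0) (XT.lf (nat_lit 0) (nat_lit 23752442527) (nat_lit 152) (nat_lit 30496649858) (nat_lit 0) (nat_lit 11345063221) (nat_lit 5) (nat_lit 5) (nat_lit 7) (nat_lit 4) (nat_lit 5) (nat_lit 4) (nat_lit 394) (nat_lit 226) (nat_lit 160)) (XT.lf (nat_lit 0) (nat_lit 27325131119) (nat_lit 152) (nat_lit 25279192734) (nat_lit 0) (nat_lit 14857869953) (nat_lit 5) (nat_lit 5) (nat_lit 7) (nat_lit 4) (nat_lit 5) (nat_lit 4) (nat_lit 395) (nat_lit 226) (nat_lit 159)))) (XT.nd (nat_lit 156) (nat_lit 0) (nat_lit 0) (XT.nd (nat_lit 78) (nat_lit 0) (nat_lit 0) (XT.lf (nat_lit 0) (nat_lit 30984003805) (nat_lit 152) (nat_lit 19944300493) (nat_lit 0) (nat_lit 18458604909) (nat_lit 5)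 (nat_lit 5) (nat_lit 7) (nat_lit 4) (nat_lit 5) (nat_lit 4) (nat_lit 396) (nat_lit 226) (nat_lit 158)) (XT.lf (nat_lit 0) (nat_lit 34732257658) (nat_lit 152) (nat_lit 14487311577) (nat_lit 0) (nat_lit 22150414364) (nat_lit 5) (nat_lit 5) (nat_lit 7) (nat_lit 4) (nat_lit 5) (nat_lit 4) (nat_lit 397) (nat_lit 226) (nat_lit 157))) (XT.nd (nat_lit 78) (nat_lit 0) (nat_lit 0) (XT.lf (nat_lit 0) (nat_lit 38573167850) (nat_lit 152) (nat_lit 8903457744) (nat_lit 0) (nat_lit 25936524171) (nat_lit 5) (nat_lit 5) (nat_lit 7) (nat_lit 4) (nat_lit 5) (nat_lit 4) (nat_lit 398) (nat_lit 226) (nat_lit 156)) (XT.lf (nat_lit 0) (nat_lit 42510090517) (nat_lit 152) (nat_lit 3187859899) (nat_lit 0) (nat_lit 29820242579) (nat_lit 5) (nat_lit 5) (nat_lit 7) (nat_lit 4) (nat_lit 5) (nat_lit 4) (nat_lit 399) (nat_lit 226) (nat_lit 155)))))) (XT.nd (nat_lit 546) (nat_lit 0) (nat_lit 0) (XT.nd (nat_lit 234) (nat_lit 0)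 (nat_lit 0) (XT.nd (nat_lit 78) (nat_lit 0) (nat_lit 0) (XT.lf (nat_lit 0) (nat_lit 2717504470) (nat_lit 76) (nat_lit 43855083534) (nat_lit 76) (nat_lit 31113580976) (nat_lit 4) (nat_lit 4) (nat_lit 5) (nat_lit 5) (nat_lit 5) (nat_lit 4) (nat_lit 400) (nat_lit 226) (nat_lit 154)) (XT.nd (nat_lit 78) (nat_lit 0) (nat_lit 0) (XT.lf (nat_lit 0) (nat_lit 8830988549) (nat_lit 76) (nat_lit 41939720609) (nat_lit 76) (nat_lit 29148067935) (nat_lit 4) (nat_lit 4) (nat_lit 5) (nat_lit 5) (nat_lit 5) (nat_lit 4) (nat_lit 401) (nat_lit 226) (nat_lit 153)) (XT.lf (nat_lit 0) (nat_lit 15094489556) (nat_lit 76) (nat_lit 39982379157) (nat_lit 76) (nat_lit 27142037051) (nat_lit 4) (nat_lit 4) (nat_lit 5) (nat_lit 5) (nat_lit 5) (nat_lit 4) (nat_lit 402) (nat_lit 226) (nat_lit 152)))) (XT.nd (nat_lit 156) (nat_lit 0) (nat_lit 0) (XT.nd (nat_lit 78) (nat_lit 0) (nat_lit 0) (XT.lf (nat_lit 0) (nat_lit 21513480450)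 (nat_lit 76) (nat_lit 37981348882) (nat_lit 76) (nat_lit 25093735481) (nat_lit 4) (nat_lit 4) (nat_lit 5) (nat_lit 5) (nat_lit 5) (nat_lit 4) (nat_lit 403) (nat_lit 226) (nat_lit 151)) (XT.lf (nat_lit 0) (nat_lit 28093570061) (nat_lit 76) (nat_lit 35934881308) (nat_lit 76) (nat_lit 23001373447) (nat_lit 4) (nat_lit 4) (nat_lit 5) (nat_lit 5) (nat_lit 5) (nat_lit 4) (nat_lit 404) (nat_lit 226) (nat_lit 150))) (XT.nd (nat_lit 78) (nat_lit 0) (nat_lit 0) (XT.lf (nat_lit 0) (nat_lit 34840507979) (nat_lit 76) (nat_lit 33841188262) (nat_lit 76) (nat_lit 20863122672) (nat_lit 4) (nat_lit 4) (nat_lit 5) (nat_lit 5) (nat_lit 5) (nat_lit 4) (nat_lit 405) (nat_lit 226) (nat_lit 149)) (XT.lf (nat_lit 0) (nat_lit 41760189589) (nat_lit 76) (nat_lit 31698440302) (nat_lit 76) (nat_lit 18677114782) (nat_lit 4) (nat_lit 4) (nat_lit 5) (nat_lit 5) (nat_lit 5) (nat_lit 4) (nat_lit 406) (nat_lit 226) (nat_lit 148)))))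 (XT.nd (nat_lit 34320) (nat_lit 0) (nat_lit 2736) (XT.nd (nat_lit 78) (nat_lit 0) (nat_lit 0) (XT.lf (nat_lit 0) (nat_lit 48858661213) (nat_lit 76) (nat_lit 29504765124) (nat_lit 76) (nat_lit 16441439671) (nat_lit 4) (nat_lit 4) (nat_lit 5) (nat_lit 5) (nat_lit 5) (nat_lit 4) (nat_lit 407) (nat_lit 226) (nat_lit 147)) (XT.nd (nat_lit 78) (nat_lit 0) (nat_lit 0) (XT.lf (nat_lit 0) (nat_lit 56142125401) (nat_lit 76) (nat_lit 27258245926) (nat_lit 76) (nat_lit 14154143839) (nat_lit 4) (nat_lit 4) (nat_lit 5) (nat_lit 5) (nat_lit 5) (nat_lit 4) (nat_lit 408) (nat_lit 226) (nat_lit 146)) (XT.lf (nat_lit 0) (nat_lit 63616946343) (nat_lit 76) (nat_lit 24956919728) (nat_lit 76) (nat_lit 11813228676) (nat_lit 4) (nat_lit 4) (nat_lit 5) (nat_lit 5) (nat_lit 5) (nat_lit 4) (nat_lit 409) (nat_lit 226) (nat_lit 145)))) (XT.nd (nat_lit 156) (nat_lit 456) (nat_lit 0) (XT.nd (nat_lit 78) (nat_lit 0) (nat_lit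 0) (XT.lf (nat_lit 0) (nat_lit 920500282) (nat_lit 228) (nat_lit 4394780346) (nat_lit 0) (nat_lit 920500282) (nat_lit 46) (nat_lit 5) (nat_lit 49) (nat_lit 4) (nat_lit 46) (nat_lit 4) (nat_lit 326) (nat_lit 227) (nat_lit 227)) (XT.lf (nat_lit 0) (nat_lit 5980740447) (nat_lit 228) (nat_lit 1323695600) (nat_lit 0) (nat_lit 5397615538) (nat_lit 46) (nat_lit 5) (nat_lit 49) (nat_lit 4) (nat_lit 46) (nat_lit 4) (nat_lit 327) (nat_lit 227) (nat_lit 226))) (XT.nd (nat_lit 78) (nat_lit 228) (nat_lit 0) (XT.lf (nat_lit 0) (nat_lit 6340519152) (nat_lit 228) (nat_lit 3874574899) (nat_lit 228) (nat_lit 2725309302) (nat_lit 43) (nat_lit 4) (nat_lit 46) (nat_lit 5) (nat_lit 46) (nat_lit 4) (nat_lit 328) (nat_lit 227) (nat_lit 225)) (XT.lf (nat_lit 0) (nat_lit 931221072) (nat_lit 152) (nat_lit 364413323) (nat_lit 228) (nat_lit 11891960883) (nat_lit 40) (nat_lit 5) (nat_lit 42) (nat_lit 5) (nat_lit 43) (nat_lit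 4) (nat_lit 329) (nat_lit 227) (nat_lit 224))))))))
noncomputable def xc33 : XT := (XT.nd (nat_lit 2028) (nat_lit 684) (nat_lit 0) (XT.nd (nat_lit 1014) (nat_lit 760) (nat_lit 0) (XT.nd (nat_lit 468) (nat_lit 532) (nat_lit 0) (XT.nd (nat_lit 234) (nat_lit 380) (nat_lit 0) (XT.nd (nat_lit 78) (nat_lit 152) (nat_lit 0) (XT.lf (nat_lit 0) (nat_lit 5391367761) (nat_lit 228) (nat_lit 4825977359) (nat_lit 0) (nat_lit 3223835094) (nat_lit 40) (nat_lit 5) (nat_lit 43) (nat_lit 4) (nat_lit 40) (nat_lit 4) (nat_lit 330) (nat_lit 227) (nat_lit 223)) (XT.nd (nat_lit 78) (nat_lit 0) (nat_lit 0) (XT.lf (nat_lit 0) (nat_lit 2730965573) (nat_lit 152) (nat_lit 6821858110) (nat_lit 152) (nat_lit 4151316774) (nat_lit 38) (nat_lit 4) (nat_lit 40) (nat_lit 5) (nat_lit 40) (nat_lit 4) (nat_lit 331) (nat_lit 227) (nat_lit 222)) (XT.lf (nat_lit 0) (nat_lit 10468927708) (nat_lit 152) (nat_lit 3333063378) (nat_lit 152)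 (nat_lit 174164111) (nat_lit 38) (nat_lit 4) (nat_lit 40) (nat_lit 5) (nat_lit 40) (nat_lit 4) (nat_lit 332) (nat_lit 227) (nat_lit 221)))) (XT.nd (nat_lit 78) (nat_lit 152) (nat_lit 0) (XT.lf (nat_lit 0) (nat_lit 3803478282) (nat_lit 228) (nat_lit 10176776738) (nat_lit 0) (nat_lit 276261603) (nat_lit 35) (nat_lit 5) (nat_lit 38) (nat_lit 4) (nat_lit 35) (nat_lit 4) (nat_lit 333) (nat_lit 227) (nat_lit 220)) (XT.nd (nat_lit 78) (nat_lit 152) (nat_lit 0) (XT.lf (nat_lit 0) (nat_lit 7882025059) (nat_lit 228) (nat_lit 2755815475) (nat_lit 0) (nat_lit 3907891692) (nat_lit 35) (nat_lit 5) (nat_lit 38) (nat_lit 4) (nat_lit 35) (nat_lit 4) (nat_lit 334) (nat_lit 227) (nat_lit 219)) (XT.lf (nat_lit 0) (nat_lit 4843725789) (nat_lit 152) (nat_lit 7204509162) (nat_lit 152) (nat_lit 2796476099) (nat_lit 33) (nat_lit 4) (nat_lit 35) (nat_lit 5) (nat_lit 35) (nat_lit 4) (nat_lit 335) (nat_lit 227) (nat_lit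 218))))) (XT.nd (nat_lit 234) (nat_lit 304) (nat_lit 0) (XT.nd (nat_lit 78) (nat_lit 152) (nat_lit 0) (XT.lf (nat_lit 0) (nat_lit 1110673245) (nat_lit 228) (nat_lit 2574628216) (nat_lit 76) (nat_lit 11468647071) (nat_lit 32) (nat_lit 5) (nat_lit 35) (nat_lit 5) (nat_lit 33) (nat_lit 4) (nat_lit 336) (nat_lit 227) (nat_lit 217)) (XT.nd (nat_lit 78) (nat_lit 0) (nat_lit 0) (XT.lf (nat_lit 0) (nat_lit 5009769798) (nat_lit 152) (nat_lit 38534034) (nat_lit 228) (nat_lit 10424286530) (nat_lit 30) (nat_lit 5) (nat_lit 32) (nat_lit 5) (nat_lit 33) (nat_lit 4) (nat_lit 337) (nat_lit 227) (nat_lit 216)) (XT.lf (nat_lit 0) (nat_lit 9087843717) (nat_lit 228) (nat_lit 3096861212) (nat_lit 0) (nat_lit 3616613939) (nat_lit 30) (nat_lit 5) (nat_lit 33) (nat_lit 4) (nat_lit 30) (nat_lit 4) (nat_lit 338) (nat_lit 227) (nat_lit 215)))) (XT.nd (nat_lit 156) (nat_lit 76) (nat_lit 0) (XT.nd (nat_lit 78) (nat_lit 76)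 (nat_lit 0) (XT.lf (nat_lit 0) (nat_lit 4445042709) (nat_lit 152) (nat_lit 8770703173) (nat_lit 152) (nat_lit 2925187706) (nat_lit 28) (nat_lit 4) (nat_lit 30) (nat_lit 5) (nat_lit 30) (nat_lit 4) (nat_lit 339) (nat_lit 227) (nat_lit 214)) (XT.lf (nat_lit 0) (nat_lit 913517419) (nat_lit 228) (nat_lit 4354459269) (nat_lit 76) (nat_lit 11223840885) (nat_lit 27) (nat_lit 5) (nat_lit 30) (nat_lit 5) (nat_lit 28) (nat_lit 4) (nat_lit 340) (nat_lit 227) (nat_lit 213))) (XT.nd (nat_lit 78) (nat_lit 0) (nat_lit 0) (XT.lf (nat_lit 0) (nat_lit 3111148845) (nat_lit 76) (nat_lit 1653801222) (nat_lit 152) (nat_lit 12088754631) (nat_lit 26) (nat_lit 5) (nat_lit 27) (nat_lit 5) (nat_lit 28) (nat_lit 4) (nat_lit 341) (nat_lit 227) (nat_lit 212)) (XT.lf (nat_lit 0) (nat_lit 8723079650) (nat_lit 152) (nat_lit 6483720047) (nat_lit 0) (nat_lit 2019949340) (nat_lit 26) (nat_lit 5) (nat_lit 28) (nat_lit 4) (nat_lit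 26) (nat_lit 4) (nat_lit 342) (nat_lit 227) (nat_lit 211)))))) (XT.nd (nat_lit 468) (nat_lit 304) (nat_lit 0) (XT.nd (nat_lit 234) (nat_lit 228) (nat_lit 0) (XT.nd (nat_lit 78) (nat_lit 76) (nat_lit 0) (XT.lf (nat_lit 0) (nat_lit 868942192) (nat_lit 152) (nat_lit 11884728803) (nat_lit 152) (nat_lit 4858736370) (nat_lit 24) (nat_lit 4) (nat_lit 26) (nat_lit 5) (nat_lit 26) (nat_lit 4) (nat_lit 343) (nat_lit 227) (nat_lit 210)) (XT.nd (nat_lit 78) (nat_lit 76) (nat_lit 0) (XT.lf (nat_lit 0) (nat_lit 8451794433) (nat_lit 152) (nat_lit 8448732308) (nat_lit 152) (nat_lit 1109281503) (nat_lit 24) (nat_lit 4) (nat_lit 26) (nat_lit 5) (nat_lit 26) (nat_lit 4) (nat_lit 344) (nat_lit 227) (nat_lit 209)) (XT.lf (nat_lit 0) (nat_lit 2630153368) (nat_lit 228) (nat_lit 2304567985) (nat_lit 76) (nat_lit 13485710965) (nat_lit 23) (nat_lit 5) (nat_lit 26) (nat_lit 5) (nat_lit 24) (nat_lit 4) (nat_lit 345) (nat_lit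 227) (nat_lit 208)))) (XT.nd (nat_lit 78) (nat_lit 152) (nat_lit 0) (XT.lf (nat_lit 0) (nat_lit 5138181243) (nat_lit 76) (nat_lit 1303900109) (nat_lit 152) (nat_lit 12401516489) (nat_lit 22) (nat_lit 5) (nat_lit 23) (nat_lit 5) (nat_lit 24) (nat_lit 4) (nat_lit 346) (nat_lit 227) (nat_lit 207)) (XT.nd (nat_lit 78) (nat_lit 152) (nat_lit 0) (XT.lf (nat_lit 0) (nat_lit 10348839127) (nat_lit 152) (nat_lit 6568902905) (nat_lit 0) (nat_lit 2362331635) (nat_lit 22) (nat_lit 5) (nat_lit 24) (nat_lit 4) (nat_lit 22) (nat_lit 4) (nat_lit 347) (nat_lit 227) (nat_lit 206)) (XT.lf (nat_lit 0) (nat_lit 667301435) (nat_lit 152) (nat_lit 13660312983) (nat_lit 152) (nat_lit 5403413545) (nat_lit 20) (nat_lit 4) (nat_lit 22) (nat_lit 5) (nat_lit 22) (nat_lit 4) (nat_lit 348) (nat_lit 227) (nat_lit 205))))) (XT.nd (nat_lit 234) (nat_lit 152) (nat_lit 0) (XT.nd (nat_lit 78) (nat_lit 152) (nat_lit 0) (XT.lf (nat_lit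 0) (nat_lit 8141854369) (nat_lit 152) (nat_lit 10286510921) (nat_lit 152) (nat_lit 1767095031) (nat_lit 20) (nat_lit 4) (nat_lit 22) (nat_lit 5) (nat_lit 22) (nat_lit 4) (nat_lit 349) (nat_lit 227) (nat_lit 204)) (XT.nd (nat_lit 78) (nat_lit 76) (nat_lit 0) (XT.lf (nat_lit 0) (nat_lit 1877205261) (nat_lit 228) (nat_lit 4963559551) (nat_lit 76) (nat_lit 13834391657) (nat_lit 19) (nat_lit 5) (nat_lit 22) (nat_lit 5) (nat_lit 20) (nat_lit 4) (nat_lit 350) (nat_lit 227) (nat_lit 203)) (XT.lf (nat_lit 0) (nat_lit 2257629218) (nat_lit 76) (nat_lit 3298706931) (nat_lit 152) (nat_lit 15613577364) (nat_lit 18) (nat_lit 5) (nat_lit 19) (nat_lit 5) (nat_lit 20) (nat_lit 4) (nat_lit 351) (nat_lit 227) (nat_lit 202)))) (XT.nd (nat_lit 156) (nat_lit 152) (nat_lit 0) (XT.nd (nat_lit 78) (nat_lit 0) (nat_lit 0) (XT.lf (nat_lit 0) (nat_lit 9339422365) (nat_lit 152) (nat_lit 11993092505) (nat_lit 0) (nat_lit 347215659)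 (nat_lit 18) (nat_lit 5) (nat_lit 20) (nat_lit 4) (nat_lit 18) (nat_lit 4) (nat_lit 352) (nat_lit 227) (nat_lit 201)) (XT.lf (nat_lit 0) (nat_lit 13210023021) (nat_lit 152) (nat_lit 5004255047) (nat_lit 0) (nat_lit 3991367317) (nat_lit 18) (nat_lit 5) (nat_lit 20) (nat_lit 4) (nat_lit 18) (nat_lit 4) (nat_lit 353) (nat_lit 227) (nat_lit 200))) (XT.nd (nat_lit 78) (nat_lit 0) (nat_lit 0) (XT.lf (nat_lit 0) (nat_lit 2133679797) (nat_lit 152) (nat_lit 15026641444) (nat_lit 152) (nat_lit 5588132344) (nat_lit 16) (nat_lit 4) (nat_lit 18) (nat_lit 5) (nat_lit 18) (nat_lit 4) (nat_lit 354) (nat_lit 227) (nat_lit 199)) (XT.lf (nat_lit 0) (nat_lit 9487133489) (nat_lit 152) (nat_lit 11736282756) (nat_lit 152) (nat_lit 2084323757) (nat_lit 16) (nat_lit 4) (nat_lit 18) (nat_lit 5) (nat_lit 18) (nat_lit 4) (nat_lit 355) (nat_lit 227) (nat_lit 198))))))) (XT.nd (nat_lit 1014) (nat_lit 304) (nat_lit 0) (XT.nd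 (nat_lit 468) (nat_lit 152) (nat_lit 0) (XT.nd (nat_lit 234) (nat_lit 76) (nat_lit 0) (XT.nd (nat_lit 78) (nat_lit 76) (nat_lit 0) (XT.lf (nat_lit 0) (nat_lit 1439679369) (nat_lit 228) (nat_lit 6936642790) (nat_lit 76) (nat_lit 15508719581) (nat_lit 15) (nat_lit 5) (nat_lit 18) (nat_lit 5) (nat_lit 16) (nat_lit 4) (nat_lit 356) (nat_lit 227) (nat_lit 197)) (XT.nd (nat_lit 78) (nat_lit 0) (nat_lit 0) (XT.lf (nat_lit 0) (nat_lit 37455034) (nat_lit 76) (nat_lit 4936852328) (nat_lit 152) (nat_lit 19506352822) (nat_lit 14) (nat_lit 5) (nat_lit 15) (nat_lit 5) (nat_lit 16) (nat_lit 4) (nat_lit 357) (nat_lit 227) (nat_lit 196)) (XT.lf (nat_lit 0) (nat_lit 7267437216) (nat_lit 76) (nat_lit 1364662794) (nat_lit 152) (nat_lit 16461553482) (nat_lit 14) (nat_lit 5) (nat_lit 15) (nat_lit 5) (nat_lit 16) (nat_lit 4) (nat_lit 358) (nat_lit 227) (nat_lit 195)))) (XT.nd (nat_lit 78) (nat_lit 76) (nat_lit 0) (XT.lf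 (nat_lit 0) (nat_lit 12370099697) (nat_lit 152) (nat_lit 11126881612) (nat_lit 0) (nat_lit 2228960594) (nat_lit 14) (nat_lit 5) (nat_lit 16) (nat_lit 4) (nat_lit 14) (nat_lit 4) (nat_lit 359) (nat_lit 227) (nat_lit 194)) (XT.nd (nat_lit 78) (nat_lit 76) (nat_lit 0) (XT.lf (nat_lit 0) (nat_lit 16183481974) (nat_lit 152) (nat_lit 4331256708) (nat_lit 0) (nat_lit 5863581940) (nat_lit 14) (nat_lit 5) (nat_lit 16) (nat_lit 4) (nat_lit 14) (nat_lit 4) (nat_lit 360) (nat_lit 227) (nat_lit 193)) (XT.lf (nat_lit 0) (nat_lit 2631055706) (nat_lit 76) (nat_lit 17456696558) (nat_lit 76) (nat_lit 6963242224) (nat_lit 13) (nat_lit 4) (nat_lit 14) (nat_lit 5) (nat_lit 14) (nat_lit 4) (nat_lit 361) (nat_lit 227) (nat_lit 192))))) (XT.nd (nat_lit 234) (nat_lit 76) (nat_lit 0) (XT.nd (nat_lit 78) (nat_lit 76) (nat_lit 0) (XT.lf (nat_lit 0) (nat_lit 9803369270) (nat_lit 76) (nat_lit 14301292730) (nat_lit 76) (nat_lit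 3639339075) (nat_lit 13) (nat_lit 4) (nat_lit 14) (nat_lit 5) (nat_lit 14) (nat_lit 4) (nat_lit 362) (nat_lit 227) (nat_lit 191)) (XT.nd (nat_lit 78) (nat_lit 76) (nat_lit 0) (XT.lf (nat_lit 0) (nat_lit 17105750551) (nat_lit 76) (nat_lit 11089507251) (nat_lit 76) (nat_lit 263962022) (nat_lit 13) (nat_lit 4) (nat_lit 14) (nat_lit 5) (nat_lit 14) (nat_lit 4) (nat_lit 363) (nat_lit 227) (nat_lit 190)) (XT.lf (nat_lit 0) (nat_lit 3104061386) (nat_lit 152) (nat_lit 4683127386) (nat_lit 76) (nat_lit 21409173952) (nat_lit 12) (nat_lit 5) (nat_lit 14) (nat_lit 5) (nat_lit 13) (nat_lit 4) (nat_lit 364) (nat_lit 227) (nat_lit 189)))) (XT.nd (nat_lit 156) (nat_lit 0) (nat_lit 0) (XT.nd (nat_lit 78) (nat_lit 0) (nat_lit 0) (XT.lf (nat_lit 0) (nat_lit 2145457150) (nat_lit 76) (nat_lit 4398399942) (nat_lit 152) (nat_lit 23412419159) (nat_lit 11) (nat_lit 5) (nat_lit 12) (nat_lit 5) (nat_lit 13) (nat_lit 4)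 (nat_lit 365) (nat_lit 227) (nat_lit 188)) (XT.lf (nat_lit 0) (nat_lit 9194574315) (nat_lit 76) (nat_lit 895502792) (nat_lit 152) (nat_lit 20648828560) (nat_lit 11) (nat_lit 5) (nat_lit 12) (nat_lit 5) (nat_lit 13) (nat_lit 4) (nat_lit 366) (nat_lit 227) (nat_lit 187))) (XT.nd (nat_lit 78) (nat_lit 0) (nat_lit 0) (XT.lf (nat_lit 0) (nat_lit 13725642641) (nat_lit 152) (nat_lit 15194867684) (nat_lit 0) (nat_lit 2625029818) (nat_lit 11) (nat_lit 5) (nat_lit 13) (nat_lit 4) (nat_lit 11) (nat_lit 4) (nat_lit 367) (nat_lit 227) (nat_lit 186)) (XT.lf (nat_lit 0) (nat_lit 17437282175) (nat_lit 152) (nat_lit 8740431794) (nat_lit 0) (nat_lit 6199663984) (nat_lit 11) (nat_lit 5) (nat_lit 13) (nat_lit 4) (nat_lit 11) (nat_lit 4) (nat_lit 368) (nat_lit 227) (nat_lit 185)))))) (XT.nd (nat_lit 546) (nat_lit 76) (nat_lit 0) (XT.nd (nat_lit 234) (nat_lit 152) (nat_lit 0) (XT.nd (nat_lit 78) (nat_lit 76) (nat_lit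 0) (XT.lf (nat_lit 0) (nat_lit 21219630768) (nat_lit 152) (nat_lit 2166775764) (nat_lit 0) (nat_lit 9848997657) (nat_lit 11) (nat_lit 5) (nat_lit 13) (nat_lit 4) (nat_lit 11) (nat_lit 4) (nat_lit 369) (nat_lit 227) (nat_lit 184)) (XT.nd (nat_lit 78) (nat_lit 0) (nat_lit 0) (XT.lf (nat_lit 0) (nat_lit 4622036966) (nat_lit 76) (nat_lit 20498386266) (nat_lit 76) (nat_lit 8998612456) (nat_lit 10) (nat_lit 4) (nat_lit 11) (nat_lit 5) (nat_lit 11) (nat_lit 4) (nat_lit 370) (nat_lit 227) (nat_lit 183)) (XT.lf (nat_lit 0) (nat_lit 11587393578) (nat_lit 76) (nat_lit 17533731201) (nat_lit 76) (nat_lit 5908578072) (nat_lit 10) (nat_lit 4) (nat_lit 11) (nat_lit 5) (nat_lit 11) (nat_lit 4) (nat_lit 371) (nat_lit 227) (nat_lit 182)))) (XT.nd (nat_lit 156) (nat_lit 76) (nat_lit 0) (XT.nd (nat_lit 78) (nat_lit 76) (nat_lit 0) (XT.lf (nat_lit 0) (nat_lit 18692257218) (nat_lit 76) (nat_lit 14511731050) (nat_lit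 76) (nat_lit 2764850426) (nat_lit 10) (nat_lit 4) (nat_lit 11) (nat_lit 5) (nat_lit 11) (nat_lit 4) (nat_lit 372) (nat_lit 227) (nat_lit 181)) (XT.lf (nat_lit 0) (nat_lit 426822816) (nat_lit 152) (nat_lit 10998612340) (nat_lit 76) (nat_lit 25511703131) (nat_lit 9) (nat_lit 5) (nat_lit 11) (nat_lit 5) (nat_lit 10) (nat_lit 4) (nat_lit 373) (nat_lit 227) (nat_lit 180))) (XT.nd (nat_lit 78) (nat_lit 76) (nat_lit 0) (XT.lf (nat_lit 0) (nat_lit 3622624423) (nat_lit 152) (nat_lit 4625874916) (nat_lit 76) (nat_lit 29686259617) (nat_lit 9) (nat_lit 5) (nat_lit 11) (nat_lit 5) (nat_lit 10) (nat_lit 4) (nat_lit 374) (nat_lit 227) (nat_lit 179)) (XT.lf (nat_lit 0) (nat_lit 1911068468) (nat_lit 76) (nat_lit 4986600923) (nat_lit 152) (nat_lit 32065149229) (nat_lit 8) (nat_lit 5) (nat_lit 9) (nat_lit 5) (nat_lit 10) (nat_lit 4) (nat_lit 375) (nat_lit 227) (nat_lit 178))))) (XT.nd (nat_lit 234) (nat_lit 76)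 (nat_lit 0) (XT.nd (nat_lit 78) (nat_lit 0) (nat_lit 0) (XT.lf (nat_lit 0) (nat_lit 8675308143) (nat_lit 76) (nat_lit 1607776508) (nat_lit 152) (nat_lit 29738282976) (nat_lit 8) (nat_lit 5) (nat_lit 9) (nat_lit 5) (nat_lit 10) (nat_lit 4) (nat_lit 376) (nat_lit 227) (nat_lit 177)) (XT.nd (nat_lit 78) (nat_lit 0) (nat_lit 0) (XT.lf (nat_lit 0) (nat_lit 13754204331) (nat_lit 152) (nat_lit 25549728560) (nat_lit 0) (nat_lit 1808226752) (nat_lit 8) (nat_lit 5) (nat_lit 10) (nat_lit 4) (nat_lit 8) (nat_lit 4) (nat_lit 377) (nat_lit 227) (nat_lit 176)) (XT.lf (nat_lit 0) (nat_lit 17312505486) (nat_lit 152) (nat_lit 19656136664) (nat_lit 0) (nat_lit 5267552315) (nat_lit 8) (nat_lit 5) (nat_lit 10) (nat_lit 4) (nat_lit 8) (nat_lit 4) (nat_lit 378) (nat_lit 227) (nat_lit 175)))) (XT.nd (nat_lit 156) (nat_lit 76) (nat_lit 0) (XT.nd (nat_lit 78) (nat_lit 0) (nat_lit 0) (XT.lf (nat_lit 0) (nat_lit 20945642382)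 (nat_lit 152) (nat_lit 13644679124) (nat_lit 0) (nat_lit 8804596402) (nat_lit 8) (nat_lit 5) (nat_lit 10) (nat_lit 4) (nat_lit 8) (nat_lit 4) (nat_lit 379) (nat_lit 227) (nat_lit 174)) (XT.lf (nat_lit 0) (nat_lit 24656789603) (nat_lit 152) (nat_lit 7510103212) (nat_lit 0) (nat_lit 12422449634) (nat_lit 8) (nat_lit 5) (nat_lit 10) (nat_lit 4) (nat_lit 8) (nat_lit 4) (nat_lit 380) (nat_lit 227) (nat_lit 173))) (XT.nd (nat_lit 78) (nat_lit 76) (nat_lit 0) (XT.lf (nat_lit 0) (nat_lit 28449189900) (nat_lit 152) (nat_lit 1247048617) (nat_lit 0) (nat_lit 16124273243) (nat_lit 8) (nat_lit 5) (nat_lit 10) (nat_lit 4) (nat_lit 8) (nat_lit 4) (nat_lit 381) (nat_lit 227) (nat_lit 172)) (XT.lf (nat_lit 0) (nat_lit 5252451479) (nat_lit 76) (nat_lit 27124195318) (nat_lit 76) (nat_lit 14711340129) (nat_lit 7) (nat_lit 4) (nat_lit 8) (nat_lit 5) (nat_lit 8) (nat_lit 4) (nat_lit 382) (nat_lit 227) (nat_lit 171))))))))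
noncomputable def xc34 : XT := (XT.nd (nat_lit 2028) (nat_lit 0) (nat_lit 0) (XT.nd (nat_lit 1014) (nat_lit 76) (nat_lit 0) (XT.nd (nat_lit 468) (nat_lit 76) (nat_lit 0) (XT.nd (nat_lit 234) (nat_lit 76) (nat_lit 0) (XT.nd (nat_lit 78) (nat_lit 0) (nat_lit 0) (XT.lf (nat_lit 0) (nat_lit 11919088296) (nat_lit 76) (nat_lit 24486563878) (nat_lit 76) (nat_lit 11988331473) (nat_lit 7) (nat_lit 4) (nat_lit 8) (nat_lit 5) (nat_lit 8) (nat_lit 4) (nat_lit 383) (nat_lit 227) (nat_lit 170)) (XT.nd (nat_lit 78) (nat_lit 0) (nat_lit 0) (XT.lf (nat_lit 0) (nat_lit 18733868337) (nat_lit 76) (nat_lit 21793632215) (nat_lit 76) (nat_lit 9212509310) (nat_lit 7) (nat_lit 4) (nat_lit 8) (nat_lit 5) (nat_lit 8) (nat_lit 4) (nat_lit 384) (nat_lit 227) (nat_lit 169)) (XT.lf (nat_lit 0) (nat_lit 25702746266) (nat_lit 76) (nat_lit 19043047284) (nat_lit 76) (nat_lit 6381448164) (nat_lit 7) (nat_lit 4) (nat_lit 8) (nat_lit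 5) (nat_lit 8) (nat_lit 4) (nat_lit 385) (nat_lit 227) (nat_lit 168)))) (XT.nd (nat_lit 78) (nat_lit 76) (nat_lit 0) (XT.lf (nat_lit 0) (nat_lit 32831811392) (nat_lit 76) (nat_lit 16232405659) (nat_lit 76) (nat_lit 3492674293) (nat_lit 7) (nat_lit 4) (nat_lit 8) (nat_lit 5) (nat_lit 8) (nat_lit 4) (nat_lit 386) (nat_lit 227) (nat_lit 167)) (XT.nd (nat_lit 78) (nat_lit 76) (nat_lit 0) (XT.lf (nat_lit 0) (nat_lit 40127292996) (nat_lit 76) (nat_lit 13359251441) (nat_lit 76) (nat_lit 543663525) (nat_lit 7) (nat_lit 4) (nat_lit 8) (nat_lit 5) (nat_lit 8) (nat_lit 4) (nat_lit 387) (nat_lit 227) (nat_lit 166)) (XT.lf (nat_lit 0) (nat_lit 2419998235) (nat_lit 152) (nat_lit 7976638635) (nat_lit 76) (nat_lit 45151130298) (nat_lit 6) (nat_lit 5) (nat_lit 8) (nat_lit 5) (nat_lit 7) (nat_lit 4) (nat_lit 388) (nat_lit 227) (nat_lit 165))))) (XT.nd (nat_lit 234) (nat_lit 0) (nat_lit 0) (XT.nd (nat_lit 78) (nat_lit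 76) (nat_lit 0) (XT.lf (nat_lit 0) (nat_lit 5437219480) (nat_lit 152) (nat_lit 1923181581) (nat_lit 76) (nat_lit 49751030655) (nat_lit 6) (nat_lit 5) (nat_lit 8) (nat_lit 5) (nat_lit 7) (nat_lit 4) (nat_lit 389) (nat_lit 227) (nat_lit 164)) (XT.nd (nat_lit 78) (nat_lit 0) (nat_lit 0) (XT.lf (nat_lit 0) (nat_lit 4352912653) (nat_lit 76) (nat_lit 4210175656) (nat_lit 152) (nat_lit 50158381101) (nat_lit 5) (nat_lit 5) (nat_lit 6) (nat_lit 5) (nat_lit 7) (nat_lit 4) (nat_lit 390) (nat_lit 227) (nat_lit 163)) (XT.lf (nat_lit 0) (nat_lit 10813235983) (nat_lit 76) (nat_lit 965478381) (nat_lit 152) (nat_lit 48601221366) (nat_lit 5) (nat_lit 5) (nat_lit 6) (nat_lit 5) (nat_lit 7) (nat_lit 4) (nat_lit 391) (nat_lit 227) (nat_lit 162)))) (XT.nd (nat_lit 156) (nat_lit 0) (nat_lit 0) (XT.nd (nat_lit 78) (nat_lit 0) (nat_lit 0) (XT.lf (nat_lit 0) (nat_lit 15090710636) (nat_lit 152) (nat_lit 44686345139) (nat_lit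 0) (nat_lit 2311109951) (nat_lit 5) (nat_lit 5) (nat_lit 7) (nat_lit 4) (nat_lit 5) (nat_lit 4) (nat_lit 392) (nat_lit 227) (nat_lit 161)) (XT.lf (nat_lit 0) (nat_lit 18489350732) (nat_lit 152) (nat_lit 39710608176) (nat_lit 0) (nat_lit 5648071730) (nat_lit 5) (nat_lit 5) (nat_lit 7) (nat_lit 4) (nat_lit 5) (nat_lit 4) (nat_lit 393) (nat_lit 227) (nat_lit 160))) (XT.nd (nat_lit 78) (nat_lit 0) (nat_lit 0) (XT.lf (nat_lit 0) (nat_lit 21968323569) (nat_lit 152) (nat_lit 34625860357) (nat_lit 0) (nat_lit 9067162706) (nat_lit 5) (nat_lit 5) (nat_lit 7) (nat_lit 4) (nat_lit 5) (nat_lit 4) (nat_lit 394) (nat_lit 227) (nat_lit 159)) (XT.lf (nat_lit 0) (nat_lit 25530669026) (nat_lit 152) (nat_lit 29427658699) (nat_lit 0) (nat_lit 12571370434) (nat_lit 5) (nat_lit 5) (nat_lit 7) (nat_lit 4) (nat_lit 5) (nat_lit 4) (nat_lit 395) (nat_lit 227) (nat_lit 158)))))) (XT.nd (nat_lit 468) (nat_lit 0) (nat_lit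 0) (XT.nd (nat_lit 234) (nat_lit 76) (nat_lit 0) (XT.nd (nat_lit 78) (nat_lit 0) (nat_lit 0) (XT.lf (nat_lit 0) (nat_lit 29179499833) (nat_lit 152) (nat_lit 24111461084) (nat_lit 0) (nat_lit 16163756843) (nat_lit 5) (nat_lit 5) (nat_lit 7) (nat_lit 4) (nat_lit 5) (nat_lit 4) (nat_lit 396) (nat_lit 227) (nat_lit 157)) (XT.nd (nat_lit 78) (nat_lit 0) (nat_lit 0) (XT.lf (nat_lit 0) (nat_lit 32918004289) (nat_lit 152) (nat_lit 18672622292) (nat_lit 0) (nat_lit 19847460913) (nat_lit 5) (nat_lit 5) (nat_lit 7) (nat_lit 4) (nat_lit 5) (nat_lit 4) (nat_lit 397) (nat_lit 227) (nat_lit 156)) (XT.lf (nat_lit 0) (nat_lit 36749449047) (nat_lit 152) (nat_lit 13106389938) (nat_lit 0) (nat_lit 23625701413) (nat_lit 5) (nat_lit 5) (nat_lit 7) (nat_lit 4) (nat_lit 5) (nat_lit 4) (nat_lit 398) (nat_lit 227) (nat_lit 155)))) (XT.nd (nat_lit 78) (nat_lit 76) (nat_lit 0) (XT.lf (nat_lit 0) (nat_lit 40677181973) (nat_lit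 152) (nat_lit 7407900325) (nat_lit 0) (nat_lit 27501779719) (nat_lit 5) (nat_lit 5) (nat_lit 7) (nat_lit 4) (nat_lit 5) (nat_lit 4) (nat_lit 399) (nat_lit 227) (nat_lit 154)) (XT.nd (nat_lit 78) (nat_lit 76) (nat_lit 0) (XT.lf (nat_lit 0) (nat_lit 44704635065) (nat_lit 152) (nat_lit 1572174190) (nat_lit 0) (nat_lit 31479082695) (nat_lit 5) (nat_lit 5) (nat_lit 7) (nat_lit 4) (nat_lit 5) (nat_lit 4) (nat_lit 400) (nat_lit 227) (nat_lit 153)) (XT.lf (nat_lit 0) (nat_lit 4493573448) (nat_lit 76) (nat_lit 44384948986) (nat_lit 76) (nat_lit 31110707183) (nat_lit 4) (nat_lit 4) (nat_lit 5) (nat_lit 5) (nat_lit 5) (nat_lit 4) (nat_lit 401) (nat_lit 227) (nat_lit 152))))) (XT.nd (nat_lit 234) (nat_lit 0) (nat_lit 0) (XT.nd (nat_lit 78) (nat_lit 0) (nat_lit 0) (XT.lf (nat_lit 0) (nat_lit 10741106404) (nat_lit 76) (nat_lit 42435012174) (nat_lit 76) (nat_lit 29113499077) (nat_lit 4) (nat_lit 4) (nat_lit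 5) (nat_lit 5) (nat_lit 5) (nat_lit 4) (nat_lit 402) (nat_lit 227) (nat_lit 151)) (XT.nd (nat_lit 78) (nat_lit 0) (nat_lit 0) (XT.lf (nat_lit 0) (nat_lit 17144594338) (nat_lit 76) (nat_lit 40441170869) (nat_lit 76) (nat_lit 27073763312) (nat_lit 4) (nat_lit 4) (nat_lit 5) (nat_lit 5) (nat_lit 5) (nat_lit 4) (nat_lit 403) (nat_lit 227) (nat_lit 150)) (XT.lf (nat_lit 0) (nat_lit 23709632529) (nat_lit 76) (nat_lit 38401682879) (nat_lit 76) (nat_lit 24989717593) (nat_lit 4) (nat_lit 4) (nat_lit 5) (nat_lit 5) (nat_lit 5) (nat_lit 4) (nat_lit 404) (nat_lit 227) (nat_lit 149)))) (XT.nd (nat_lit 156) (nat_lit 0) (nat_lit 0) (XT.nd (nat_lit 78) (nat_lit 0) (nat_lit 0) (XT.lf (nat_lit 0) (nat_lit 30441957420) (nat_lit 76) (nat_lit 36314766128) (nat_lit 76) (nat_lit 22859540911) (nat_lit 4) (nat_lit 4) (nat_lit 5) (nat_lit 5) (nat_lit 5) (nat_lit 4) (nat_lit 405) (nat_lit 227) (nat_lit 148)) (XT.lf (nat_lit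 0) (nat_lit 37347451624) (nat_lit 76) (nat_lit 34178597094) (nat_lit 76) (nat_lit 20681371945) (nat_lit 4) (nat_lit 4) (nat_lit 5) (nat_lit 5) (nat_lit 5) (nat_lit 4) (nat_lit 406) (nat_lit 227) (nat_lit 147))) (XT.nd (nat_lit 78) (nat_lit 0) (nat_lit 0) (XT.lf (nat_lit 0) (nat_lit 44432149068) (nat_lit 76) (nat_lit 31991309224) (nat_lit 76) (nat_lit 18453307441) (nat_lit 4) (nat_lit 4) (nat_lit 5) (nat_lit 5) (nat_lit 5) (nat_lit 4) (nat_lit 407) (nat_lit 227) (nat_lit 146)) (XT.lf (nat_lit 0) (nat_lit 51702240265) (nat_lit 76) (nat_lit 29750991295) (nat_lit 76) (nat_lit 16173400547) (nat_lit 4) (nat_lit 4) (nat_lit 5) (nat_lit 5) (nat_lit 5) (nat_lit 4) (nat_lit 408) (nat_lit 227) (nat_lit 145))))))) (XT.nd (nat_lit 34944) (nat_lit 0) (nat_lit 1216) (XT.nd (nat_lit 34398) (nat_lit 0) (nat_lit 2204) (XT.nd (nat_lit 34164) (nat_lit 0) (nat_lit 2964) (XT.nd (nat_lit 34008) (nat_lit 0) (nat_lit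 3420) (XT.lf (nat_lit 0) (nat_lit 59164077721) (nat_lit 76) (nat_lit 27455685747) (nat_lit 76) (nat_lit 13839659111) (nat_lit 4) (nat_lit 4) (nat_lit 5) (nat_lit 5) (nat_lit 5) (nat_lit 4) (nat_lit 409) (nat_lit 227) (nat_lit 144)) (XT.nd (nat_lit 78) (nat_lit 0) (nat_lit 0) (XT.lf (nat_lit 0) (nat_lit 367319668) (nat_lit 228) (nat_lit 2824038395) (nat_lit 228) (nat_lit 2824038395) (nat_lit 49) (nat_lit 4) (nat_lit 52) (nat_lit 5) (nat_lit 52) (nat_lit 4) (nat_lit 324) (nat_lit 228) (nat_lit 228)) (XT.lf (nat_lit 0) (nat_lit 8350109936) (nat_lit 228) (nat_lit 2258403201) (nat_lit 228) (nat_lit 1639765985) (nat_lit 49) (nat_lit 4) (nat_lit 52) (nat_lit 5) (nat_lit 52) (nat_lit 4) (nat_lit 325) (nat_lit 228) (nat_lit 227)))) (XT.nd (nat_lit 78) (nat_lit 228) (nat_lit 0) (XT.lf (nat_lit 0) (nat_lit 2395686589) (nat_lit 228) (nat_lit 8865340614) (nat_lit 0) (nat_lit 1211943024) (nat_lit 46) (nat_lit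 5) (nat_lit 49) (nat_lit 4) (nat_lit 46) (nat_lit 4) (nat_lit 326) (nat_lit 228) (nat_lit 226)) (XT.nd (nat_lit 78) (nat_lit 228) (nat_lit 0) (XT.lf (nat_lit 0) (nat_lit 6490831681) (nat_lit 228) (nat_lit 1473048259) (nat_lit 0) (nat_lit 4740947428) (nat_lit 46) (nat_lit 5) (nat_lit 49) (nat_lit 4) (nat_lit 46) (nat_lit 4) (nat_lit 327) (nat_lit 228) (nat_lit 225)) (XT.lf (nat_lit 0) (nat_lit 6115342645) (nat_lit 228) (nat_lit 4564382195) (nat_lit 228) (nat_lit 2264846788) (nat_lit 43) (nat_lit 4) (nat_lit 46) (nat_lit 5) (nat_lit 46) (nat_lit 4) (nat_lit 328) (nat_lit 228) (nat_lit 224))))) (XT.nd (nat_lit 234) (nat_lit 380) (nat_lit 0) (XT.nd (nat_lit 78) (nat_lit 152) (nat_lit 0) (XT.lf (nat_lit 0) (nat_lit 619756598) (nat_lit 152) (nat_lit 1081196062) (nat_lit 228) (nat_lit 11492089905) (nat_lit 40) (nat_lit 5) (nat_lit 42) (nat_lit 5) (nat_lit 43) (nat_lit 4) (nat_lit 329) (nat_lit 228) (nat_lit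 223)) (XT.nd (nat_lit 78) (nat_lit 152) (nat_lit 0) (XT.lf (nat_lit 0) (nat_lit 5746934193) (nat_lit 228) (nat_lit 5207944159) (nat_lit 0) (nat_lit 2493267948) (nat_lit 40) (nat_lit 5) (nat_lit 43) (nat_lit 4) (nat_lit 40) (nat_lit 4) (nat_lit 330) (nat_lit 228) (nat_lit 222)) (XT.lf (nat_lit 0) (nat_lit 2270157037) (nat_lit 152) (nat_lit 7592190224) (nat_lit 152) (nat_lit 3850166048) (nat_lit 38) (nat_lit 4) (nat_lit 40) (nat_lit 5) (nat_lit 40) (nat_lit 4) (nat_lit 331) (nat_lit 228) (nat_lit 221)))) (XT.nd (nat_lit 156) (nat_lit 152) (nat_lit 0) (XT.nd (nat_lit 78) (nat_lit 152) (nat_lit 0) (XT.lf (nat_lit 0) (nat_lit 83011699) (nat_lit 228) (nat_lit 4047644339) (nat_lit 76) (nat_lit 9855104316) (nat_lit 37) (nat_lit 5) (nat_lit 40) (nat_lit 5) (nat_lit 38) (nat_lit 4) (nat_lit 332) (nat_lit 228) (nat_lit 220)) (XT.lf (nat_lit 0) (nat_lit 3460321522) (nat_lit 152) (nat_lit 547956211) (nat_lit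 228) (nat_lit 10259286474) (nat_lit 35) (nat_lit 5) (nat_lit 37) (nat_lit 5) (nat_lit 38) (nat_lit 4) (nat_lit 333) (nat_lit 228) (nat_lit 219))) (XT.nd (nat_lit 78) (nat_lit 152) (nat_lit 0) (XT.lf (nat_lit 0) (nat_lit 8041530548) (nat_lit 228) (nat_lit 3449273921) (nat_lit 0) (nat_lit 3067356797) (nat_lit 35) (nat_lit 5) (nat_lit 38) (nat_lit 4) (nat_lit 35) (nat_lit 4) (nat_lit 334) (nat_lit 228) (nat_lit 218)) (XT.lf (nat_lit 0) (nat_lit 4068875584) (nat_lit 152) (nat_lit 8092555677) (nat_lit 152) (nat_lit 2697120084) (nat_lit 33) (nat_lit 4) (nat_lit 35) (nat_lit 5) (nat_lit 35) (nat_lit 4) (nat_lit 335) (nat_lit 228) (nat_lit 217)))))) (XT.nd (nat_lit 546) (nat_lit 456) (nat_lit 0) (XT.nd (nat_lit 234) (nat_lit 304) (nat_lit 0) (XT.nd (nat_lit 78) (nat_lit 152) (nat_lit 0) (XT.lf (nat_lit 0) (nat_lit 1169329969) (nat_lit 228) (nat_lit 3430687832) (nat_lit 76) (nat_lit 10568925905) (nat_lit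 32) (nat_lit 5) (nat_lit 35) (nat_lit 5) (nat_lit 33) (nat_lit 4) (nat_lit 336) (nat_lit 228) (nat_lit 216)) (XT.nd (nat_lit 78) (nat_lit 0) (nat_lit 0) (XT.lf (nat_lit 0) (nat_lit 4070909990) (nat_lit 152) (nat_lit 989394122) (nat_lit 228) (nat_lit 10428701232) (nat_lit 30) (nat_lit 5) (nat_lit 32) (nat_lit 5) (nat_lit 33) (nat_lit 4) (nat_lit 337) (nat_lit 228) (nat_lit 215)) (XT.lf (nat_lit 0) (nat_lit 9053297881) (nat_lit 228) (nat_lit 4107720620) (nat_lit 0) (nat_lit 2658131260) (nat_lit 30) (nat_lit 5) (nat_lit 33) (nat_lit 4) (nat_lit 30) (nat_lit 4) (nat_lit 338) (nat_lit 228) (nat_lit 214)))) (XT.nd (nat_lit 156) (nat_lit 76) (nat_lit 0) (XT.nd (nat_lit 78) (nat_lit 76) (nat_lit 0) (XT.lf (nat_lit 0) (nat_lit 3349974907) (nat_lit 152) (nat_lit 9784382302) (nat_lit 152) (nat_lit 3025831516) (nat_lit 28) (nat_lit 4) (nat_lit 30) (nat_lit 5) (nat_lit 30) (nat_lit 4) (nat_lit 339) (nat_lit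 228) (nat_lit 213)) (XT.lf (nat_lit 0) (nat_lit 778607719) (nat_lit 228) (nat_lit 5530777275) (nat_lit 76) (nat_lit 10202821506) (nat_lit 27) (nat_lit 5) (nat_lit 30) (nat_lit 5) (nat_lit 28) (nat_lit 4) (nat_lit 340) (nat_lit 228) (nat_lit 212))) (XT.nd (nat_lit 78) (nat_lit 0) (nat_lit 0) (XT.lf (nat_lit 0) (nat_lit 1849074567) (nat_lit 76) (nat_lit 2733659393) (nat_lit 152) (nat_lit 12292796206) (nat_lit 26) (nat_lit 5) (nat_lit 27) (nat_lit 5) (nat_lit 28) (nat_lit 4) (nat_lit 341) (nat_lit 228) (nat_lit 211)) (XT.lf (nat_lit 0) (nat_lit 8495503386) (nat_lit 152) (nat_lit 7818579714) (nat_lit 0) (nat_lit 935869056) (nat_lit 26) (nat_lit 5) (nat_lit 28) (nat_lit 4) (nat_lit 26) (nat_lit 4) (nat_lit 342) (nat_lit 228) (nat_lit 210))))) (XT.nd (nat_lit 234) (nat_lit 228) (nat_lit 0) (XT.nd (nat_lit 78) (nat_lit 228) (nat_lit 0) (XT.lf (nat_lit 0) (nat_lit 12483780861) (nat_lit 152) (nat_lit 542427236)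 (nat_lit 0) (nat_lit 4610688158) (nat_lit 26) (nat_lit 5) (nat_lit 28) (nat_lit 4) (nat_lit 26) (nat_lit 4) (nat_lit 343) (nat_lit 228) (nat_lit 209)) (XT.nd (nat_lit 78) (nat_lit 76) (nat_lit 0) (XT.lf (nat_lit 0) (nat_lit 6970659926) (nat_lit 152) (nat_lit 9621120003) (nat_lit 152) (nat_lit 1443698783) (nat_lit 24) (nat_lit 4) (nat_lit 26) (nat_lit 5) (nat_lit 26) (nat_lit 4) (nat_lit 344) (nat_lit 228) (nat_lit 208)) (XT.lf (nat_lit 0) (nat_lit 2269362357) (nat_lit 228) (nat_lit 3866080214) (nat_lit 76) (nat_lit 12311758603) (nat_lit 23) (nat_lit 5) (nat_lit 26) (nat_lit 5) (nat_lit 24) (nat_lit 4) (nat_lit 345) (nat_lit 228) (nat_lit 207)))) (XT.nd (nat_lit 156) (nat_lit 152) (nat_lit 0) (XT.nd (nat_lit 78) (nat_lit 0) (nat_lit 0) (XT.lf (nat_lit 0) (nat_lit 3488237843) (nat_lit 76) (nat_lit 2545251052) (nat_lit 152) (nat_lit 12838326375) (nat_lit 22) (nat_lit 5) (nat_lit 23) (nat_lit 5) (nat_lit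 24) (nat_lit 4) (nat_lit 346) (nat_lit 228) (nat_lit 206)) (XT.lf (nat_lit 0) (nat_lit 9896535903) (nat_lit 152) (nat_lit 8291543087) (nat_lit 0) (nat_lit 1121537536) (nat_lit 22) (nat_lit 5) (nat_lit 24) (nat_lit 4) (nat_lit 22) (nat_lit 4) (nat_lit 347) (nat_lit 228) (nat_lit 205))) (XT.nd (nat_lit 78) (nat_lit 152) (nat_lit 0) (XT.lf (nat_lit 0) (nat_lit 13838044119) (nat_lit 152) (nat_lit 1123129111) (nat_lit 0) (nat_lit 4800529300) (nat_lit 22) (nat_lit 5) (nat_lit 24) (nat_lit 4) (nat_lit 22) (nat_lit 4) (nat_lit 348) (nat_lit 228) (nat_lit 204)) (XT.lf (nat_lit 0) (nat_lit 6274839389) (nat_lit 152) (nat_lit 11622469274) (nat_lit 152) (nat_lit 2330084113) (nat_lit 20) (nat_lit 4) (nat_lit 22) (nat_lit 5) (nat_lit 22) (nat_lit 4) (nat_lit 349) (nat_lit 228) (nat_lit 203))))))))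
noncomputable def xc35 : XT := (XT.nd (nat_lit 2028) (nat_lit 380) (nat_lit 0) (XT.nd (nat_lit 1014) (nat_lit 304) (nat_lit 0) (XT.nd (nat_lit 468) (nat_lit 228) (nat_lit 0) (XT.nd (nat_lit 234) (nat_lit 152) (nat_lit 0) (XT.nd (nat_lit 78) (nat_lit 76) (nat_lit 0) (XT.lf (nat_lit 0) (nat_lit 1295308889) (nat_lit 228) (nat_lit 6910355048) (nat_lit 76) (nat_lit 12502496673) (nat_lit 19) (nat_lit 5) (nat_lit 22) (nat_lit 5) (nat_lit 20) (nat_lit 4) (nat_lit 350) (nat_lit 228) (nat_lit 202)) (XT.nd (nat_lit 78) (nat_lit 0) (nat_lit 0) (XT.lf (nat_lit 0) (nat_lit 219350972) (nat_lit 76) (nat_lit 4706473071) (nat_lit 152) (nat_lit 16278564252) (nat_lit 18) (nat_lit 5) (nat_lit 19) (nat_lit 5) (nat_lit 20) (nat_lit 4) (nat_lit 351) (nat_lit 228) (nat_lit 201)) (XT.lf (nat_lit 0) (nat_lit 7600664323) (nat_lit 76) (nat_lit 1076172438) (nat_lit 152) (nat_lit 13038342570) (nat_lit 18) (nat_lit 5) (nat_lit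 19) (nat_lit 5) (nat_lit 20) (nat_lit 4) (nat_lit 352) (nat_lit 228) (nat_lit 200)))) (XT.nd (nat_lit 78) (nat_lit 152) (nat_lit 0) (XT.lf (nat_lit 0) (nat_lit 12509047915) (nat_lit 152) (nat_lit 7165679282) (nat_lit 0) (nat_lit 2567530146) (nat_lit 18) (nat_lit 5) (nat_lit 20) (nat_lit 4) (nat_lit 18) (nat_lit 4) (nat_lit 353) (nat_lit 228) (nat_lit 199)) (XT.nd (nat_lit 78) (nat_lit 152) (nat_lit 0) (XT.lf (nat_lit 0) (nat_lit 16411608060) (nat_lit 152) (nat_lit 118260369) (nat_lit 0) (nat_lit 6256640392) (nat_lit 18) (nat_lit 5) (nat_lit 20) (nat_lit 4) (nat_lit 18) (nat_lit 4) (nat_lit 354) (nat_lit 228) (nat_lit 198)) (XT.lf (nat_lit 0) (nat_lit 7184438771) (nat_lit 152) (nat_lit 13262204821) (nat_lit 152) (nat_lit 2900004242) (nat_lit 16) (nat_lit 4) (nat_lit 18) (nat_lit 5) (nat_lit 18) (nat_lit 4) (nat_lit 355) (nat_lit 228) (nat_lit 197))))) (XT.nd (nat_lit 234) (nat_lit 76) (nat_lit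 0) (XT.nd (nat_lit 78) (nat_lit 76) (nat_lit 0) (XT.lf (nat_lit 0) (nat_lit 613530317) (nat_lit 228) (nat_lit 9317931035) (nat_lit 76) (nat_lit 13993525199) (nat_lit 15) (nat_lit 5) (nat_lit 18) (nat_lit 5) (nat_lit 16) (nat_lit 4) (nat_lit 356) (nat_lit 228) (nat_lit 196)) (XT.nd (nat_lit 78) (nat_lit 76) (nat_lit 0) (XT.lf (nat_lit 0) (nat_lit 4122181347) (nat_lit 228) (nat_lit 2390706340) (nat_lit 76) (nat_lit 18008506512) (nat_lit 15) (nat_lit 5) (nat_lit 18) (nat_lit 5) (nat_lit 16) (nat_lit 4) (nat_lit 357) (nat_lit 228) (nat_lit 195)) (XT.lf (nat_lit 0) (nat_lit 4746006225) (nat_lit 76) (nat_lit 2985219474) (nat_lit 152) (nat_lit 17404633863) (nat_lit 14) (nat_lit 5) (nat_lit 15) (nat_lit 5) (nat_lit 16) (nat_lit 4) (nat_lit 358) (nat_lit 228) (nat_lit 194)))) (XT.nd (nat_lit 156) (nat_lit 76) (nat_lit 0) (XT.nd (nat_lit 78) (nat_lit 0) (nat_lit 0) (XT.lf (nat_lit 0) (nat_lit 11428884592)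 (nat_lit 152) (nat_lit 13719856304) (nat_lit 0) (nat_lit 620626628) (nat_lit 14) (nat_lit 5) (nat_lit 16) (nat_lit 4) (nat_lit 14) (nat_lit 4) (nat_lit 359) (nat_lit 228) (nat_lit 193)) (XT.lf (nat_lit 0) (nat_lit 15218225110) (nat_lit 152) (nat_lit 6967838596) (nat_lit 0) (nat_lit 4236412845) (nat_lit 14) (nat_lit 5) (nat_lit 16) (nat_lit 4) (nat_lit 14) (nat_lit 4) (nat_lit 360) (nat_lit 228) (nat_lit 192))) (XT.nd (nat_lit 78) (nat_lit 76) (nat_lit 0) (XT.lf (nat_lit 0) (nat_lit 19073862570) (nat_lit 152) (nat_lit 99204638) (nat_lit 0) (nat_lit 7923550984) (nat_lit 14) (nat_lit 5) (nat_lit 16) (nat_lit 4) (nat_lit 14) (nat_lit 4) (nat_lit 361) (nat_lit 228) (nat_lit 191)) (XT.lf (nat_lit 0) (nat_lit 7029212543) (nat_lit 76) (nat_lit 16037522525) (nat_lit 76) (nat_lit 4723619365) (nat_lit 13) (nat_lit 4) (nat_lit 14) (nat_lit 5) (nat_lit 14) (nat_lit 4) (nat_lit 362) (nat_lit 228) (nat_lit 190))))))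 (XT.nd (nat_lit 468) (nat_lit 152) (nat_lit 0) (XT.nd (nat_lit 234) (nat_lit 76) (nat_lit 0) (XT.nd (nat_lit 78) (nat_lit 76) (nat_lit 0) (XT.lf (nat_lit 0) (nat_lit 14290892839) (nat_lit 76) (nat_lit 12844045173) (nat_lit 76) (nat_lit 1371315242) (nat_lit 13) (nat_lit 4) (nat_lit 14) (nat_lit 5) (nat_lit 14) (nat_lit 4) (nat_lit 363) (nat_lit 228) (nat_lit 189)) (XT.nd (nat_lit 78) (nat_lit 0) (nat_lit 0) (XT.lf (nat_lit 0) (nat_lit 1996352835) (nat_lit 152) (nat_lit 7574334423) (nat_lit 76) (nat_lit 19673694955) (nat_lit 12) (nat_lit 5) (nat_lit 14) (nat_lit 5) (nat_lit 13) (nat_lit 4) (nat_lit 364) (nat_lit 228) (nat_lit 188)) (XT.lf (nat_lit 0) (nat_lit 5394201036) (nat_lit 152) (nat_lit 826412039) (nat_lit 76) (nat_lit 23784948675) (nat_lit 12) (nat_lit 5) (nat_lit 14) (nat_lit 5) (nat_lit 13) (nat_lit 4) (nat_lit 365) (nat_lit 228) (nat_lit 187)))) (XT.nd (nat_lit 78) (nat_lit 0) (nat_lit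 0) (XT.lf (nat_lit 0) (nat_lit 6167841707) (nat_lit 76) (nat_lit 2743405014) (nat_lit 152) (nat_lit 21877827037) (nat_lit 11) (nat_lit 5) (nat_lit 12) (nat_lit 5) (nat_lit 13) (nat_lit 4) (nat_lit 366) (nat_lit 228) (nat_lit 186)) (XT.nd (nat_lit 78) (nat_lit 0) (nat_lit 0) (XT.lf (nat_lit 0) (nat_lit 12508428729) (nat_lit 152) (nat_lit 18291761534) (nat_lit 0) (nat_lit 796676625) (nat_lit 11) (nat_lit 5) (nat_lit 13) (nat_lit 4) (nat_lit 11) (nat_lit 4) (nat_lit 367) (nat_lit 228) (nat_lit 185)) (XT.lf (nat_lit 0) (nat_lit 16200048496) (nat_lit 152) (nat_lit 11873982263) (nat_lit 0) (nat_lit 4355281472) (nat_lit 11) (nat_lit 5) (nat_lit 13) (nat_lit 4) (nat_lit 11) (nat_lit 4) (nat_lit 368) (nat_lit 228) (nat_lit 184))))) (XT.nd (nat_lit 234) (nat_lit 76) (nat_lit 0) (XT.nd (nat_lit 78) (nat_lit 76) (nat_lit 0) (XT.lf (nat_lit 0) (nat_lit 19962960422) (nat_lit 152) (nat_lit 5335915183) (nat_lit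 0) (nat_lit 7989052699) (nat_lit 11) (nat_lit 5) (nat_lit 13) (nat_lit 4) (nat_lit 11) (nat_lit 4) (nat_lit 369) (nat_lit 228) (nat_lit 183)) (XT.nd (nat_lit 78) (nat_lit 0) (nat_lit 0) (XT.lf (nat_lit 0) (nat_lit 1354585419) (nat_lit 76) (nat_lit 22458888174) (nat_lit 76) (nat_lit 10359601131) (nat_lit 10) (nat_lit 4) (nat_lit 11) (nat_lit 5) (nat_lit 11) (nat_lit 4) (nat_lit 370) (nat_lit 228) (nat_lit 182)) (XT.lf (nat_lit 0) (nat_lit 8285728400) (nat_lit 76) (nat_lit 19509796935) (nat_lit 76) (nat_lit 7288782397) (nat_lit 10) (nat_lit 4) (nat_lit 11) (nat_lit 5) (nat_lit 11) (nat_lit 4) (nat_lit 371) (nat_lit 228) (nat_lit 181)))) (XT.nd (nat_lit 156) (nat_lit 76) (nat_lit 0) (XT.nd (nat_lit 78) (nat_lit 0) (nat_lit 0) (XT.lf (nat_lit 0) (nat_lit 15357374924) (nat_lit 76) (nat_lit 16502907294) (nat_lit 76) (nat_lit 4163710722) (nat_lit 10) (nat_lit 4) (nat_lit 11) (nat_lit 5) (nat_lit 11)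 (nat_lit 4) (nat_lit 372) (nat_lit 228) (nat_lit 180)) (XT.lf (nat_lit 0) (nat_lit 22575704099) (nat_lit 76) (nat_lit 13435591871) (nat_lit 76) (nat_lit 981655462) (nat_lit 10) (nat_lit 4) (nat_lit 11) (nat_lit 5) (nat_lit 11) (nat_lit 4) (nat_lit 373) (nat_lit 228) (nat_lit 179))) (XT.nd (nat_lit 78) (nat_lit 0) (nat_lit 0) (XT.lf (nat_lit 0) (nat_lit 2216059884) (nat_lit 152) (nat_lit 8066732746) (nat_lit 76) (nat_lit 27708585460) (nat_lit 9) (nat_lit 5) (nat_lit 11) (nat_lit 5) (nat_lit 10) (nat_lit 4) (nat_lit 374) (nat_lit 228) (nat_lit 178)) (XT.lf (nat_lit 0) (nat_lit 5455994790) (nat_lit 152) (nat_lit 1597818188) (nat_lit 76) (nat_lit 31966683555) (nat_lit 9) (nat_lit 5) (nat_lit 11) (nat_lit 5) (nat_lit 10) (nat_lit 4) (nat_lit 375) (nat_lit 228) (nat_lit 177))))))) (XT.nd (nat_lit 1014) (nat_lit 152) (nat_lit 0) (XT.nd (nat_lit 468) (nat_lit 152) (nat_lit 0) (XT.nd (nat_lit 234) (nat_lit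 0) (nat_lit 0) (XT.nd (nat_lit 78) (nat_lit 0) (nat_lit 0) (XT.lf (nat_lit 0) (nat_lit 5104186115) (nat_lit 76) (nat_lit 3705014345) (nat_lit 152) (nat_lit 31270816687) (nat_lit 8) (nat_lit 5) (nat_lit 9) (nat_lit 5) (nat_lit 10) (nat_lit 4) (nat_lit 376) (nat_lit 228) (nat_lit 176)) (XT.nd (nat_lit 78) (nat_lit 0) (nat_lit 0) (XT.lf (nat_lit 0) (nat_lit 11980019420) (nat_lit 76) (nat_lit 266510185) (nat_lit 152) (nat_lit 28925298437) (nat_lit 8) (nat_lit 5) (nat_lit 9) (nat_lit 5) (nat_lit 10) (nat_lit 4) (nat_lit 377) (nat_lit 228) (nat_lit 175)) (XT.lf (nat_lit 0) (nat_lit 15786548068) (nat_lit 152) (nat_lit 23324690392) (nat_lit 0) (nat_lit 3185177900) (nat_lit 8) (nat_lit 5) (nat_lit 10) (nat_lit 4) (nat_lit 8) (nat_lit 4) (nat_lit 378) (nat_lit 228) (nat_lit 174)))) (XT.nd (nat_lit 78) (nat_lit 0) (nat_lit 0) (XT.lf (nat_lit 0) (nat_lit 19404422017) (nat_lit 152) (nat_lit 17341422681) (nat_lit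 0) (nat_lit 6709757860) (nat_lit 8) (nat_lit 5) (nat_lit 10) (nat_lit 4) (nat_lit 8) (nat_lit 4) (nat_lit 379) (nat_lit 228) (nat_lit 173)) (XT.nd (nat_lit 78) (nat_lit 0) (nat_lit 0) (XT.lf (nat_lit 0) (nat_lit 23100750843) (nat_lit 152) (nat_lit 11234215535) (nat_lit 0) (nat_lit 10315509999) (nat_lit 8) (nat_lit 5) (nat_lit 10) (nat_lit 4) (nat_lit 8) (nat_lit 4) (nat_lit 380) (nat_lit 228) (nat_lit 172)) (XT.lf (nat_lit 0) (nat_lit 26878764349) (nat_lit 152) (nat_lit 4997732557) (nat_lit 0) (nat_lit 14005584973) (nat_lit 8) (nat_lit 5) (nat_lit 10) (nat_lit 4) (nat_lit 8) (nat_lit 4) (nat_lit 381) (nat_lit 228) (nat_lit 171))))) (XT.nd (nat_lit 234) (nat_lit 76) (nat_lit 0) (XT.nd (nat_lit 78) (nat_lit 0) (nat_lit 0) (XT.lf (nat_lit 0) (nat_lit 1400810462) (nat_lit 76) (nat_lit 29354418696) (nat_lit 76) (nat_lit 16395862104) (nat_lit 7) (nat_lit 4) (nat_lit 8) (nat_lit 5) (nat_lit 8) (nat_lit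 4) (nat_lit 382) (nat_lit 228) (nat_lit 170)) (XT.nd (nat_lit 78) (nat_lit 0) (nat_lit 0) (XT.lf (nat_lit 0) (nat_lit 8041902511) (nat_lit 76) (nat_lit 26728525542) (nat_lit 76) (nat_lit 13687078449) (nat_lit 7) (nat_lit 4) (nat_lit 8) (nat_lit 5) (nat_lit 8) (nat_lit 4) (nat_lit 383) (nat_lit 228) (nat_lit 169)) (XT.lf (nat_lit 0) (nat_lit 14831881806) (nat_lit 76) (nat_lit 24046990274) (nat_lit 76) (nat_lit 10925066967) (nat_lit 7) (nat_lit 4) (nat_lit 8) (nat_lit 5) (nat_lit 8) (nat_lit 4) (nat_lit 384) (nat_lit 228) (nat_lit 168)))) (XT.nd (nat_lit 156) (nat_lit 76) (nat_lit 0) (XT.nd (nat_lit 78) (nat_lit 0) (nat_lit 0) (XT.lf (nat_lit 0) (nat_lit 21776681341) (nat_lit 76) (nat_lit 21307469803) (nat_lit 76) (nat_lit 8107414249) (nat_lit 7) (nat_lit 4) (nat_lit 8) (nat_lit 5) (nat_lit 8) (nat_lit 4) (nat_lit 385) (nat_lit 228) (nat_lit 167)) (XT.lf (nat_lit 0) (nat_lit 28882369385) (nat_lit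 76) (nat_lit 18507570373) (nat_lit 76) (nat_lit 5231658269) (nat_lit 7) (nat_lit 4) (nat_lit 8) (nat_lit 5) (nat_lit 8) (nat_lit 4) (nat_lit 386) (nat_lit 228) (nat_lit 166))) (XT.nd (nat_lit 78) (nat_lit 76) (nat_lit 0) (XT.lf (nat_lit 0) (nat_lit 36155154793) (nat_lit 76) (nat_lit 15644845471) (nat_lit 76) (nat_lit 2295286230) (nat_lit 7) (nat_lit 4) (nat_lit 8) (nat_lit 5) (nat_lit 8) (nat_lit 4) (nat_lit 387) (nat_lit 228) (nat_lit 165)) (XT.lf (nat_lit 0) (nat_lit 690524830) (nat_lit 152) (nat_lit 12019295908) (nat_lit 76) (nat_lit 42903894649) (nat_lit 6) (nat_lit 5) (nat_lit 8) (nat_lit 5) (nat_lit 7) (nat_lit 4) (nat_lit 388) (nat_lit 228) (nat_lit 164)))))) (XT.nd (nat_lit 546) (nat_lit 76) (nat_lit 0) (XT.nd (nat_lit 234) (nat_lit 0) (nat_lit 0) (XT.nd (nat_lit 78) (nat_lit 76) (nat_lit 0) (XT.lf (nat_lit 0) (nat_lit 3696065330) (nat_lit 152) (nat_lit 5987468182) (nat_lit 76) (nat_lit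 47494200362) (nat_lit 6) (nat_lit 5) (nat_lit 8) (nat_lit 5) (nat_lit 7) (nat_lit 4) (nat_lit 389) (nat_lit 228) (nat_lit 163)) (XT.nd (nat_lit 78) (nat_lit 0) (nat_lit 0) (XT.lf (nat_lit 0) (nat_lit 186321504) (nat_lit 76) (nat_lit 6584220303) (nat_lit 152) (nat_lit 52018774946) (nat_lit 5) (nat_lit 5) (nat_lit 6) (nat_lit 5) (nat_lit 7) (nat_lit 4) (nat_lit 390) (nat_lit 228) (nat_lit 162)) (XT.lf (nat_lit 0) (nat_lit 6625851363) (nat_lit 76) (nat_lit 3349106398) (nat_lit 152) (nat_lit 50473164930) (nat_lit 5) (nat_lit 5) (nat_lit 6) (nat_lit 5) (nat_lit 7) (nat_lit 4) (nat_lit 391) (nat_lit 228) (nat_lit 161)))) (XT.nd (nat_lit 156) (nat_lit 0) (nat_lit 0) (XT.nd (nat_lit 78) (nat_lit 0) (nat_lit 0) (XT.lf (nat_lit 0) (nat_lit 13217585811) (nat_lit 76) (nat_lit 35826686) (nat_lit 152) (nat_lit 48903949654) (nat_lit 5) (nat_lit 5) (nat_lit 6) (nat_lit 5) (nat_lit 7) (nat_lit 4) (nat_lit 392)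 (nat_lit 228) (nat_lit 160)) (XT.lf (nat_lit 0) (nat_lit 16641054776) (nat_lit 152) (nat_lit 43983528119) (nat_lit 0) (nat_lit 3292977225) (nat_lit 5) (nat_lit 5) (nat_lit 7) (nat_lit 4) (nat_lit 5) (nat_lit 4) (nat_lit 393) (nat_lit 228) (nat_lit 159))) (XT.nd (nat_lit 78) (nat_lit 0) (nat_lit 0) (XT.lf (nat_lit 0) (nat_lit 20109684477) (nat_lit 152) (nat_lit 38918035766) (nat_lit 0) (nat_lit 6703469198) (nat_lit 5) (nat_lit 5) (nat_lit 7) (nat_lit 4) (nat_lit 5) (nat_lit 4) (nat_lit 394) (nat_lit 228) (nat_lit 158)) (XT.lf (nat_lit 0) (nat_lit 23661988056) (nat_lit 152) (nat_lit 33738528735) (nat_lit 0) (nat_lit 10199328379) (nat_lit 5) (nat_lit 5) (nat_lit 7) (nat_lit 4) (nat_lit 5) (nat_lit 4) (nat_lit 395) (nat_lit 228) (nat_lit 157))))) (XT.nd (nat_lit 234) (nat_lit 76) (nat_lit 0) (XT.nd (nat_lit 78) (nat_lit 0) (nat_lit 0) (XT.lf (nat_lit 0) (nat_lit 27301069466) (nat_lit 152) (nat_lit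 28440481244) (nat_lit 0) (nat_lit 13783609403) (nat_lit 5) (nat_lit 5) (nat_lit 7) (nat_lit 4) (nat_lit 5) (nat_lit 4) (nat_lit 396) (nat_lit 228) (nat_lit 156)) (XT.nd (nat_lit 78) (nat_lit 0) (nat_lit 0) (XT.lf (nat_lit 0) (nat_lit 31030108488) (nat_lit 152) (nat_lit 23019263931) (nat_lit 0) (nat_lit 17459444167) (nat_lit 5) (nat_lit 5) (nat_lit 7) (nat_lit 4) (nat_lit 5) (nat_lit 4) (nat_lit 397) (nat_lit 228) (nat_lit 155)) (XT.lf (nat_lit 0) (nat_lit 34852363505) (nat_lit 152) (nat_lit 17470139810) (nat_lit 0) (nat_lit 21230044564) (nat_lit 5) (nat_lit 5) (nat_lit 7) (nat_lit 4) (nat_lit 5) (nat_lit 4) (nat_lit 398) (nat_lit 228) (nat_lit 154)))) (XT.nd (nat_lit 156) (nat_lit 76) (nat_lit 0) (XT.nd (nat_lit 78) (nat_lit 0) (nat_lit 0) (XT.lf (nat_lit 0) (nat_lit 38771174351) (nat_lit 152) (nat_lit 11788260131) (nat_lit 0) (nat_lit 25098705294) (nat_lit 5) (nat_lit 5) (nat_lit 7) (nat_lit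 4) (nat_lit 5) (nat_lit 4) (nat_lit 399) (nat_lit 228) (nat_lit 153)) (XT.lf (nat_lit 0) (nat_lit 42789965230) (nat_lit 152) (nat_lit 5968660145) (nat_lit 0) (nat_lit 29068806740) (nat_lit 5) (nat_lit 5) (nat_lit 7) (nat_lit 4) (nat_lit 5) (nat_lit 4) (nat_lit 400) (nat_lit 228) (nat_lit 152))) (XT.nd (nat_lit 78) (nat_lit 76) (nat_lit 0) (XT.lf (nat_lit 0) (nat_lit 46912247707) (nat_lit 152) (nat_lit 6254765) (nat_lit 0) (nat_lit 33143817923) (nat_lit 5) (nat_lit 5) (nat_lit 7) (nat_lit 4) (nat_lit 5) (nat_lit 4) (nat_lit 401) (nat_lit 228) (nat_lit 151)) (XT.lf (nat_lit 0) (nat_lit 6225650747) (nat_lit 76) (nat_lit 44975817793) (nat_lit 76) (nat_lit 31161493548) (nat_lit 4) (nat_lit 4) (nat_lit 5) (nat_lit 5) (nat_lit 5) (nat_lit 4) (nat_lit 402) (nat_lit 228) (nat_lit 150))))))))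
noncomputable def xc36 : XT := (XT.nd (nat_lit 35802) (nat_lit 0) (nat_lit 532) (XT.nd (nat_lit 34788) (nat_lit 0) (nat_lit 1748) (XT.nd (nat_lit 468) (nat_lit 0) (nat_lit 0) (XT.nd (nat_lit 234) (nat_lit 0) (nat_lit 0) (XT.nd (nat_lit 78) (nat_lit 0) (nat_lit 0) (XT.lf (nat_lit 0) (nat_lit 12614087262) (nat_lit 76) (nat_lit 42988956071) (nat_lit 76) (nat_lit 29130074098) (nat_lit 4) (nat_lit 4) (nat_lit 5) (nat_lit 5) (nat_lit 5) (nat_lit 4) (nat_lit 403) (nat_lit 228) (nat_lit 149)) (XT.nd (nat_lit 78) (nat_lit 0) (nat_lit 0) (XT.lf (nat_lit 0) (nat_lit 19164512426) (nat_lit 76) (nat_lit 40956244376) (nat_lit 76) (nat_lit 27054102472) (nat_lit 4) (nat_lit 4) (nat_lit 5) (nat_lit 5) (nat_lit 5) (nat_lit 4) (nat_lit 404) (nat_lit 228) (nat_lit 148)) (XT.lf (nat_lit 0) (nat_lit 25882649911) (nat_lit 76) (nat_lit 38875906550) (nat_lit 76) (nat_lit 24931764714) (nat_lit 4) (nat_lit 4) (nat_lit 5)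 (nat_lit 5) (nat_lit 5) (nat_lit 4) (nat_lit 405) (nat_lit 228) (nat_lit 147)))) (XT.nd (nat_lit 78) (nat_lit 0) (nat_lit 0) (XT.lf (nat_lit 0) (nat_lit 32774369934) (nat_lit 76) (nat_lit 36746124825) (nat_lit 76) (nat_lit 22761206354) (nat_lit 4) (nat_lit 4) (nat_lit 5) (nat_lit 5) (nat_lit 5) (nat_lit 4) (nat_lit 406) (nat_lit 228) (nat_lit 146)) (XT.nd (nat_lit 78) (nat_lit 0) (nat_lit 0) (XT.lf (nat_lit 0) (nat_lit 39845694388) (nat_lit 76) (nat_lit 34565038224) (nat_lit 76) (nat_lit 20540530789) (nat_lit 4) (nat_lit 4) (nat_lit 5) (nat_lit 5) (nat_lit 5) (nat_lit 4) (nat_lit 407) (nat_lit 228) (nat_lit 145)) (XT.lf (nat_lit 0) (nat_lit 47102802099) (nat_lit 76) (nat_lit 32330740944) (nat_lit 76) (nat_lit 18267797621) (nat_lit 4) (nat_lit 4) (nat_lit 5) (nat_lit 5) (nat_lit 5) (nat_lit 4) (nat_lit 408) (nat_lit 228) (nat_lit 144))))) (XT.nd (nat_lit 34008) (nat_lit 0) (nat_lit 3192) (XT.nd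 (nat_lit 33852) (nat_lit 0) (nat_lit 3648) (XT.lf (nat_lit 0) (nat_lit 54552034229) (nat_lit 76) (nat_lit 30041280687) (nat_lit 76) (nat_lit 15941020968) (nat_lit 4) (nat_lit 4) (nat_lit 5) (nat_lit 5) (nat_lit 5) (nat_lit 4) (nat_lit 409) (nat_lit 228) (nat_lit 143)) (XT.nd (nat_lit 78) (nat_lit 228) (nat_lit 0) (XT.lf (nat_lit 0) (nat_lit 4666131479) (nat_lit 228) (nat_lit 570953274) (nat_lit 228) (nat_lit 570953274) (nat_lit 55) (nat_lit 4) (nat_lit 58) (nat_lit 5) (nat_lit 58) (nat_lit 4) (nat_lit 322) (nat_lit 229) (nat_lit 229)) (XT.lf (nat_lit 0) (nat_lit 2892353573) (nat_lit 228) (nat_lit 6672939361) (nat_lit 0) (nat_lit 2255157240) (nat_lit 52) (nat_lit 5) (nat_lit 55) (nat_lit 4) (nat_lit 52) (nat_lit 4) (nat_lit 323) (nat_lit 229) (nat_lit 228)))) (XT.nd (nat_lit 156) (nat_lit 228) (nat_lit 0) (XT.nd (nat_lit 78) (nat_lit 0) (nat_lit 0) (XT.lf (nat_lit 0) (nat_lit 660193930) (nat_lit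 228) (nat_lit 6313919392) (nat_lit 228) (nat_lit 5058085844) (nat_lit 49) (nat_lit 4) (nat_lit 52) (nat_lit 5) (nat_lit 52) (nat_lit 4) (nat_lit 324) (nat_lit 229) (nat_lit 227)) (XT.lf (nat_lit 0) (nat_lit 8203387437) (nat_lit 228) (nat_lit 2952057716) (nat_lit 228) (nat_lit 1095605512) (nat_lit 49) (nat_lit 4) (nat_lit 52) (nat_lit 5) (nat_lit 52) (nat_lit 4) (nat_lit 325) (nat_lit 229) (nat_lit 226))) (XT.nd (nat_lit 78) (nat_lit 0) (nat_lit 0) (XT.lf (nat_lit 0) (nat_lit 2876485772) (nat_lit 228) (nat_lit 9092746591) (nat_lit 0) (nat_lit 507964303) (nat_lit 46) (nat_lit 5) (nat_lit 49) (nat_lit 4) (nat_lit 46) (nat_lit 4) (nat_lit 326) (nat_lit 229) (nat_lit 225)) (XT.lf (nat_lit 0) (nat_lit 6928334953) (nat_lit 228) (nat_lit 1771884080) (nat_lit 0) (nat_lit 4010162330) (nat_lit 46) (nat_lit 5) (nat_lit 49) (nat_lit 4) (nat_lit 46) (nat_lit 4) (nat_lit 327) (nat_lit 229) (nat_lit 224))))))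 (XT.nd (nat_lit 468) (nat_lit 608) (nat_lit 0) (XT.nd (nat_lit 234) (nat_lit 380) (nat_lit 0) (XT.nd (nat_lit 78) (nat_lit 228) (nat_lit 0) (XT.lf (nat_lit 0) (nat_lit 5739829854) (nat_lit 228) (nat_lit 5331753733) (nat_lit 228) (nat_lit 1879939213) (nat_lit 43) (nat_lit 4) (nat_lit 46) (nat_lit 5) (nat_lit 46) (nat_lit 4) (nat_lit 328) (nat_lit 229) (nat_lit 223)) (XT.nd (nat_lit 78) (nat_lit 0) (nat_lit 0) (XT.lf (nat_lit 0) (nat_lit 154993714) (nat_lit 152) (nat_lit 1876980257) (nat_lit 228) (nat_lit 11169326272) (nat_lit 40) (nat_lit 5) (nat_lit 42) (nat_lit 5) (nat_lit 43) (nat_lit 4) (nat_lit 329) (nat_lit 229) (nat_lit 222)) (XT.lf (nat_lit 0) (nat_lit 6028692658) (nat_lit 228) (nat_lit 5743164858) (nat_lit 0) (nat_lit 1686049827) (nat_lit 40) (nat_lit 5) (nat_lit 43) (nat_lit 4) (nat_lit 40) (nat_lit 4) (nat_lit 330) (nat_lit 229) (nat_lit 221)))) (XT.nd (nat_lit 78) (nat_lit 228) (nat_lit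 0) (XT.lf (nat_lit 0) (nat_lit 1655119496) (nat_lit 152) (nat_lit 8442672869) (nat_lit 152) (nat_lit 3625896124) (nat_lit 38) (nat_lit 4) (nat_lit 40) (nat_lit 5) (nat_lit 40) (nat_lit 4) (nat_lit 331) (nat_lit 229) (nat_lit 220)) (XT.nd (nat_lit 78) (nat_lit 152) (nat_lit 0) (XT.lf (nat_lit 0) (nat_lit 262617010) (nat_lit 228) (nat_lit 4743988402) (nat_lit 76) (nat_lit 8991497414) (nat_lit 37) (nat_lit 5) (nat_lit 40) (nat_lit 5) (nat_lit 38) (nat_lit 4) (nat_lit 332) (nat_lit 229) (nat_lit 219)) (XT.lf (nat_lit 0) (nat_lit 2682809750) (nat_lit 152) (nat_lit 1458484520) (nat_lit 228) (nat_lit 10140032709) (nat_lit 35) (nat_lit 5) (nat_lit 37) (nat_lit 5) (nat_lit 38) (nat_lit 4) (nat_lit 333) (nat_lit 229) (nat_lit 218))))) (XT.nd (nat_lit 234) (nat_lit 380) (nat_lit 0) (XT.nd (nat_lit 78) (nat_lit 228) (nat_lit 0) (XT.lf (nat_lit 0) (nat_lit 8126933685) (nat_lit 228) (nat_lit 4298067551) (nat_lit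 0) (nat_lit 2148373184) (nat_lit 35) (nat_lit 5) (nat_lit 38) (nat_lit 4) (nat_lit 35) (nat_lit 4) (nat_lit 334) (nat_lit 229) (nat_lit 217)) (XT.nd (nat_lit 78) (nat_lit 76) (nat_lit 0) (XT.lf (nat_lit 0) (nat_lit 3137567378) (nat_lit 152) (nat_lit 9062585739) (nat_lit 152) (nat_lit 2675033159) (nat_lit 33) (nat_lit 4) (nat_lit 35) (nat_lit 5) (nat_lit 35) (nat_lit 4) (nat_lit 335) (nat_lit 229) (nat_lit 216)) (XT.lf (nat_lit 0) (nat_lit 1153354349) (nat_lit 228) (nat_lit 4443322938) (nat_lit 76) (nat_lit 9590044042) (nat_lit 32) (nat_lit 5) (nat_lit 35) (nat_lit 5) (nat_lit 33) (nat_lit 4) (nat_lit 336) (nat_lit 229) (nat_lit 215)))) (XT.nd (nat_lit 156) (nat_lit 228) (nat_lit 0) (XT.nd (nat_lit 78) (nat_lit 0) (nat_lit 0) (XT.lf (nat_lit 0) (nat_lit 2974273957) (nat_lit 152) (nat_lit 2022977513) (nat_lit 228) (nat_lit 10510963335) (nat_lit 30) (nat_lit 5) (nat_lit 32) (nat_lit 5) (nat_lit 33)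 (nat_lit 4) (nat_lit 337) (nat_lit 229) (nat_lit 214)) (XT.lf (nat_lit 0) (nat_lit 8943993428) (nat_lit 228) (nat_lit 5276470354) (nat_lit 0) (nat_lit 1619301954) (nat_lit 30) (nat_lit 5) (nat_lit 33) (nat_lit 4) (nat_lit 30) (nat_lit 4) (nat_lit 338) (nat_lit 229) (nat_lit 213))) (XT.nd (nat_lit 78) (nat_lit 76) (nat_lit 0) (XT.lf (nat_lit 0) (nat_lit 2095741161) (nat_lit 152) (nat_lit 10881996516) (nat_lit 152) (nat_lit 3204504882) (nat_lit 28) (nat_lit 4) (nat_lit 30) (nat_lit 5) (nat_lit 30) (nat_lit 4) (nat_lit 339) (nat_lit 229) (nat_lit 212)) (XT.lf (nat_lit 0) (nat_lit 568246337) (nat_lit 228) (nat_lit 6866475994) (nat_lit 76) (nat_lit 9100662115) (nat_lit 27) (nat_lit 5) (nat_lit 30) (nat_lit 5) (nat_lit 28) (nat_lit 4) (nat_lit 340) (nat_lit 229) (nat_lit 211))))))) (XT.nd (nat_lit 1014) (nat_lit 532) (nat_lit 0) (XT.nd (nat_lit 468) (nat_lit 304) (nat_lit 0) (XT.nd (nat_lit 234) (nat_lit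 304) (nat_lit 0) (XT.nd (nat_lit 78) (nat_lit 0) (nat_lit 0) (XT.lf (nat_lit 0) (nat_lit 426263468) (nat_lit 76) (nat_lit 3898282106) (nat_lit 152) (nat_lit 12575614194) (nat_lit 26) (nat_lit 5) (nat_lit 27) (nat_lit 5) (nat_lit 28) (nat_lit 4) (nat_lit 341) (nat_lit 229) (nat_lit 210)) (XT.nd (nat_lit 78) (nat_lit 0) (nat_lit 0) (XT.lf (nat_lit 0) (nat_lit 7959245420) (nat_lit 76) (nat_lit 235174083) (nat_lit 152) (nat_lit 9081465474) (nat_lit 26) (nat_lit 5) (nat_lit 27) (nat_lit 5) (nat_lit 28) (nat_lit 4) (nat_lit 342) (nat_lit 229) (nat_lit 209)) (XT.lf (nat_lit 0) (nat_lit 12147464430) (nat_lit 152) (nat_lit 2096045443) (nat_lit 0) (nat_lit 3420392057) (nat_lit 26) (nat_lit 5) (nat_lit 28) (nat_lit 4) (nat_lit 26) (nat_lit 4) (nat_lit 343) (nat_lit 229) (nat_lit 208)))) (XT.nd (nat_lit 78) (nat_lit 152) (nat_lit 0) (XT.lf (nat_lit 0) (nat_lit 5328869522) (nat_lit 152) (nat_lit 10878800518)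 (nat_lit 152) (nat_lit 1856263566) (nat_lit 24) (nat_lit 4) (nat_lit 26) (nat_lit 5) (nat_lit 26) (nat_lit 4) (nat_lit 344) (nat_lit 229) (nat_lit 207)) (XT.nd (nat_lit 78) (nat_lit 76) (nat_lit 0) (XT.lf (nat_lit 0) (nat_lit 1832907018) (nat_lit 228) (nat_lit 5588594519) (nat_lit 76) (nat_lit 11055246271) (nat_lit 23) (nat_lit 5) (nat_lit 26) (nat_lit 5) (nat_lit 24) (nat_lit 4) (nat_lit 345) (nat_lit 229) (nat_lit 206)) (XT.lf (nat_lit 0) (nat_lit 1675758615) (nat_lit 76) (nat_lit 3872841427) (nat_lit 152) (nat_lit 13354228976) (nat_lit 22) (nat_lit 5) (nat_lit 23) (nat_lit 5) (nat_lit 24) (nat_lit 4) (nat_lit 346) (nat_lit 229) (nat_lit 205))))) (XT.nd (nat_lit 234) (nat_lit 152) (nat_lit 0) (XT.nd (nat_lit 78) (nat_lit 152) (nat_lit 0) (XT.lf (nat_lit 0) (nat_lit 9162857881) (nat_lit 76) (nat_lit 207166403) (nat_lit 152) (nat_lit 9971868370) (nat_lit 22) (nat_lit 5) (nat_lit 23) (nat_lit 5)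 (nat_lit 24) (nat_lit 4) (nat_lit 347) (nat_lit 229) (nat_lit 204)) (XT.nd (nat_lit 78) (nat_lit 152) (nat_lit 0) (XT.lf (nat_lit 0) (nat_lit 13279587144) (nat_lit 152) (nat_lit 3061803088) (nat_lit 0) (nat_lit 3453560086) (nat_lit 22) (nat_lit 5) (nat_lit 24) (nat_lit 4) (nat_lit 22) (nat_lit 4) (nat_lit 348) (nat_lit 229) (nat_lit 203)) (XT.lf (nat_lit 0) (nat_lit 4244929610) (nat_lit 152) (nat_lit 13045327841) (nat_lit 152) (nat_lit 2971853849) (nat_lit 20) (nat_lit 4) (nat_lit 22) (nat_lit 5) (nat_lit 22) (nat_lit 4) (nat_lit 349) (nat_lit 229) (nat_lit 202)))) (XT.nd (nat_lit 156) (nat_lit 76) (nat_lit 0) (XT.nd (nat_lit 78) (nat_lit 0) (nat_lit 0) (XT.lf (nat_lit 0) (nat_lit 637039835) (nat_lit 228) (nat_lit 9020522867) (nat_lit 76) (nat_lit 11086384350) (nat_lit 19) (nat_lit 5) (nat_lit 22) (nat_lit 5) (nat_lit 20) (nat_lit 4) (nat_lit 350) (nat_lit 229) (nat_lit 201)) (XT.lf (nat_lit 0)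 (nat_lit 4237269213) (nat_lit 228) (nat_lit 1945299697) (nat_lit 76) (nat_lit 15058526215) (nat_lit 19) (nat_lit 5) (nat_lit 22) (nat_lit 5) (nat_lit 20) (nat_lit 4) (nat_lit 351) (nat_lit 229) (nat_lit 200))) (XT.nd (nat_lit 78) (nat_lit 0) (nat_lit 0) (XT.lf (nat_lit 0) (nat_lit 5347588033) (nat_lit 76) (nat_lit 2593787942) (nat_lit 152) (nat_lit 13811928835) (nat_lit 18) (nat_lit 5) (nat_lit 19) (nat_lit 5) (nat_lit 20) (nat_lit 4) (nat_lit 352) (nat_lit 229) (nat_lit 199)) (XT.lf (nat_lit 0) (nat_lit 11731771040) (nat_lit 152) (nat_lit 9491172957) (nat_lit 0) (nat_lit 1058704444) (nat_lit 18) (nat_lit 5) (nat_lit 20) (nat_lit 4) (nat_lit 18) (nat_lit 4) (nat_lit 353) (nat_lit 229) (nat_lit 198)))))) (XT.nd (nat_lit 546) (nat_lit 228) (nat_lit 0) (XT.nd (nat_lit 234) (nat_lit 152) (nat_lit 0) (XT.nd (nat_lit 78) (nat_lit 152) (nat_lit 0) (XT.lf (nat_lit 0) (nat_lit 15607896389) (nat_lit 152)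 (nat_lit 2491210505) (nat_lit 0) (nat_lit 4727596881) (nat_lit 18) (nat_lit 5) (nat_lit 20) (nat_lit 4) (nat_lit 18) (nat_lit 4) (nat_lit 354) (nat_lit 229) (nat_lit 197)) (XT.nd (nat_lit 78) (nat_lit 0) (nat_lit 0) (XT.lf (nat_lit 0) (nat_lit 4717271073) (nat_lit 152) (nat_lit 14876280073) (nat_lit 152) (nat_lit 3794783564) (nat_lit 16) (nat_lit 4) (nat_lit 18) (nat_lit 5) (nat_lit 18) (nat_lit 4) (nat_lit 355) (nat_lit 229) (nat_lit 196)) (XT.lf (nat_lit 0) (nat_lit 12100460747) (nat_lit 152) (nat_lit 11571998701) (nat_lit 152) (nat_lit 295165297) (nat_lit 16) (nat_lit 4) (nat_lit 18) (nat_lit 5) (nat_lit 18) (nat_lit 4) (nat_lit 356) (nat_lit 229) (nat_lit 195)))) (XT.nd (nat_lit 156) (nat_lit 0) (nat_lit 0) (XT.nd (nat_lit 78) (nat_lit 76) (nat_lit 0) (XT.lf (nat_lit 0) (nat_lit 3194374670) (nat_lit 228) (nat_lit 4981900292) (nat_lit 76) (nat_lit 16388598279) (nat_lit 15) (nat_lit 5) (nat_lit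 18) (nat_lit 5) (nat_lit 16) (nat_lit 4) (nat_lit 357) (nat_lit 229) (nat_lit 194)) (XT.lf (nat_lit 0) (nat_lit 2058883333) (nat_lit 76) (nat_lit 4694559013) (nat_lit 152) (nat_lit 18427404886) (nat_lit 14) (nat_lit 5) (nat_lit 15) (nat_lit 5) (nat_lit 16) (nat_lit 4) (nat_lit 358) (nat_lit 229) (nat_lit 193))) (XT.nd (nat_lit 78) (nat_lit 0) (nat_lit 0) (XT.lf (nat_lit 0) (nat_lit 9325588354) (nat_lit 76) (nat_lit 1095571209) (nat_lit 152) (nat_lit 15394102935) (nat_lit 14) (nat_lit 5) (nat_lit 15) (nat_lit 5) (nat_lit 16) (nat_lit 4) (nat_lit 359) (nat_lit 229) (nat_lit 192)) (XT.lf (nat_lit 0) (nat_lit 14176627268) (nat_lit 152) (nat_lit 9769462221) (nat_lit 0) (nat_lit 2523307013) (nat_lit 14) (nat_lit 5) (nat_lit 16) (nat_lit 4) (nat_lit 14) (nat_lit 4) (nat_lit 360) (nat_lit 229) (nat_lit 191))))) (XT.nd (nat_lit 234) (nat_lit 152) (nat_lit 0) (XT.nd (nat_lit 78) (nat_lit 76) (nat_lit 0)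 (XT.lf (nat_lit 0) (nat_lit 18009603064) (nat_lit 152) (nat_lit 2941932228) (nat_lit 0) (nat_lit 6192691236) (nat_lit 14) (nat_lit 5) (nat_lit 16) (nat_lit 4) (nat_lit 14) (nat_lit 4) (nat_lit 361) (nat_lit 229) (nat_lit 190)) (XT.nd (nat_lit 78) (nat_lit 0) (nat_lit 0) (XT.lf (nat_lit 0) (nat_lit 4089208115) (nat_lit 76) (nat_lit 17863004711) (nat_lit 76) (nat_lit 5887266111) (nat_lit 13) (nat_lit 4) (nat_lit 14) (nat_lit 5) (nat_lit 14) (nat_lit 4) (nat_lit 362) (nat_lit 229) (nat_lit 189)) (XT.lf (nat_lit 0) (nat_lit 11311372892) (nat_lit 76) (nat_lit 14687302239) (nat_lit 76) (nat_lit 2557362891) (nat_lit 13) (nat_lit 4) (nat_lit 14) (nat_lit 5) (nat_lit 14) (nat_lit 4) (nat_lit 363) (nat_lit 229) (nat_lit 188)))) (XT.nd (nat_lit 156) (nat_lit 76) (nat_lit 0) (XT.nd (nat_lit 78) (nat_lit 0) (nat_lit 0) (XT.lf (nat_lit 0) (nat_lit 812125188) (nat_lit 152) (nat_lit 10631034680) (nat_lit 76)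 (nat_lit 17851996450) (nat_lit 12) (nat_lit 5) (nat_lit 14) (nat_lit 5) (nat_lit 13) (nat_lit 4) (nat_lit 364) (nat_lit 229) (nat_lit 187)) (XT.lf (nat_lit 0) (nat_lit 4189270419) (nat_lit 152) (nat_lit 3920778856) (nat_lit 76) (nat_lit 21946915032) (nat_lit 12) (nat_lit 5) (nat_lit 14) (nat_lit 5) (nat_lit 13) (nat_lit 4) (nat_lit 365) (nat_lit 229) (nat_lit 186))) (XT.nd (nat_lit 78) (nat_lit 0) (nat_lit 0) (XT.lf (nat_lit 0) (nat_lit 2974593644) (nat_lit 76) (nat_lit 4680927035) (nat_lit 152) (nat_lit 23186486646) (nat_lit 11) (nat_lit 5) (nat_lit 12) (nat_lit 5) (nat_lit 13) (nat_lit 4) (nat_lit 366) (nat_lit 229) (nat_lit 185)) (XT.lf (nat_lit 0) (nat_lit 10083691213) (nat_lit 76) (nat_lit 1141338302) (nat_lit 152) (nat_lit 20425608075) (nat_lit 11) (nat_lit 5) (nat_lit 12) (nat_lit 5) (nat_lit 13) (nat_lit 4) (nat_lit 367) (nat_lit 229) (nat_lit 184))))))))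
noncomputable def xc37 : XT := (XT.nd (nat_lit 2028) (nat_lit 76) (nat_lit 0) (XT.nd (nat_lit 1014) (nat_lit 228) (nat_lit 0) (XT.nd (nat_lit 468) (nat_lit 152) (nat_lit 0) (XT.nd (nat_lit 234) (nat_lit 76) (nat_lit 0) (XT.nd (nat_lit 78) (nat_lit 0) (nat_lit 0) (XT.lf (nat_lit 0) (nat_lit 14886241374) (nat_lit 152) (nat_lit 15173784815) (nat_lit 0) (nat_lit 2423975719) (nat_lit 11) (nat_lit 5) (nat_lit 13) (nat_lit 4) (nat_lit 11) (nat_lit 4) (nat_lit 368) (nat_lit 229) (nat_lit 183)) (XT.nd (nat_lit 78) (nat_lit 0) (nat_lit 0) (XT.lf (nat_lit 0) (nat_lit 18630282750) (nat_lit 152) (nat_lit 8670270115) (nat_lit 0) (nat_lit 6042637776) (nat_lit 11) (nat_lit 5) (nat_lit 13) (nat_lit 4) (nat_lit 11) (nat_lit 4) (nat_lit 369) (nat_lit 229) (nat_lit 182)) (XT.lf (nat_lit 0) (nat_lit 22449453894) (nat_lit 152) (nat_lit 2039748351) (nat_lit 0) (nat_lit 9740081425) (nat_lit 11) (nat_lit 5) (nat_lit 13)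 (nat_lit 4) (nat_lit 11) (nat_lit 4) (nat_lit 370) (nat_lit 229) (nat_lit 181)))) (XT.nd (nat_lit 78) (nat_lit 0) (nat_lit 0) (XT.lf (nat_lit 0) (nat_lit 4817582521) (nat_lit 76) (nat_lit 21575818975) (nat_lit 76) (nat_lit 8748264473) (nat_lit 10) (nat_lit 4) (nat_lit 11) (nat_lit 5) (nat_lit 11) (nat_lit 4) (nat_lit 371) (nat_lit 229) (nat_lit 180)) (XT.nd (nat_lit 78) (nat_lit 0) (nat_lit 0) (XT.lf (nat_lit 0) (nat_lit 11856979417) (nat_lit 76) (nat_lit 18583599732) (nat_lit 76) (nat_lit 5641305392) (nat_lit 10) (nat_lit 4) (nat_lit 11) (nat_lit 5) (nat_lit 11) (nat_lit 4) (nat_lit 372) (nat_lit 229) (nat_lit 179)) (XT.lf (nat_lit 0) (nat_lit 19043998274) (nat_lit 76) (nat_lit 15530527415) (nat_lit 76) (nat_lit 2476835173) (nat_lit 10) (nat_lit 4) (nat_lit 11) (nat_lit 5) (nat_lit 11) (nat_lit 4) (nat_lit 373) (nat_lit 229) (nat_lit 178))))) (XT.nd (nat_lit 234) (nat_lit 0) (nat_lit 0) (XT.nd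 (nat_lit 78) (nat_lit 76) (nat_lit 0) (XT.lf (nat_lit 0) (nat_lit 733316811) (nat_lit 152) (nat_lit 11673212417) (nat_lit 76) (nat_lit 25644197137) (nat_lit 9) (nat_lit 5) (nat_lit 11) (nat_lit 5) (nat_lit 10) (nat_lit 4) (nat_lit 374) (nat_lit 229) (nat_lit 177)) (XT.nd (nat_lit 78) (nat_lit 76) (nat_lit 0) (XT.lf (nat_lit 0) (nat_lit 3956999578) (nat_lit 152) (nat_lit 5234139606) (nat_lit 76) (nat_lit 29889198508) (nat_lit 9) (nat_lit 5) (nat_lit 11) (nat_lit 5) (nat_lit 10) (nat_lit 4) (nat_lit 375) (nat_lit 229) (nat_lit 176)) (XT.lf (nat_lit 0) (nat_lit 1365945591) (nat_lit 76) (nat_lit 5892546626) (nat_lit 152) (nat_lit 32882922643) (nat_lit 8) (nat_lit 5) (nat_lit 9) (nat_lit 5) (nat_lit 10) (nat_lit 4) (nat_lit 376) (nat_lit 229) (nat_lit 175)))) (XT.nd (nat_lit 156) (nat_lit 0) (nat_lit 0) (XT.nd (nat_lit 78) (nat_lit 0) (nat_lit 0) (XT.lf (nat_lit 0) (nat_lit 8213090371) (nat_lit 76)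 (nat_lit 2467136020) (nat_lit 152) (nat_lit 30553472228) (nat_lit 8) (nat_lit 5) (nat_lit 9) (nat_lit 5) (nat_lit 10) (nat_lit 4) (nat_lit 377) (nat_lit 229) (nat_lit 174)) (XT.lf (nat_lit 0) (nat_lit 14183828145) (nat_lit 152) (nat_lit 27160526084) (nat_lit 0) (nat_lit 1015030075) (nat_lit 8) (nat_lit 5) (nat_lit 10) (nat_lit 4) (nat_lit 8) (nat_lit 4) (nat_lit 378) (nat_lit 229) (nat_lit 173))) (XT.nd (nat_lit 78) (nat_lit 0) (nat_lit 0) (XT.lf (nat_lit 0) (nat_lit 17786883700) (nat_lit 152) (nat_lit 21204627140) (nat_lit 0) (nat_lit 4527508941) (nat_lit 8) (nat_lit 5) (nat_lit 10) (nat_lit 4) (nat_lit 8) (nat_lit 4) (nat_lit 379) (nat_lit 229) (nat_lit 172)) (XT.lf (nat_lit 0) (nat_lit 21468825735) (nat_lit 152) (nat_lit 15123991611) (nat_lit 0) (nat_lit 8121512445) (nat_lit 8) (nat_lit 5) (nat_lit 10) (nat_lit 4) (nat_lit 8) (nat_lit 4) (nat_lit 380) (nat_lit 229) (nat_lit 171)))))) (XT.nd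 (nat_lit 468) (nat_lit 152) (nat_lit 0) (XT.nd (nat_lit 234) (nat_lit 0) (nat_lit 0) (XT.nd (nat_lit 78) (nat_lit 76) (nat_lit 0) (XT.lf (nat_lit 0) (nat_lit 25232871484) (nat_lit 152) (nat_lit 8913306320) (nat_lit 0) (nat_lit 11800180978) (nat_lit 8) (nat_lit 5) (nat_lit 10) (nat_lit 4) (nat_lit 8) (nat_lit 4) (nat_lit 381) (nat_lit 229) (nat_lit 170)) (XT.nd (nat_lit 78) (nat_lit 76) (nat_lit 0) (XT.lf (nat_lit 0) (nat_lit 29082309916) (nat_lit 152) (nat_lit 2567144455) (nat_lit 0) (nat_lit 15566728909) (nat_lit 8) (nat_lit 5) (nat_lit 10) (nat_lit 4) (nat_lit 8) (nat_lit 4) (nat_lit 382) (nat_lit 229) (nat_lit 169)) (XT.lf (nat_lit 0) (nat_lit 3998055638) (nat_lit 76) (nat_lit 29060880737) (nat_lit 76) (nat_lit 15464823517) (nat_lit 7) (nat_lit 4) (nat_lit 8) (nat_lit 5) (nat_lit 8) (nat_lit 4) (nat_lit 383) (nat_lit 229) (nat_lit 168)))) (XT.nd (nat_lit 78) (nat_lit 0) (nat_lit 0) (XT.lf (nat_lit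 0) (nat_lit 10763956539) (nat_lit 76) (nat_lit 26390409930) (nat_lit 76) (nat_lit 12716220462) (nat_lit 7) (nat_lit 4) (nat_lit 8) (nat_lit 5) (nat_lit 8) (nat_lit 4) (nat_lit 384) (nat_lit 229) (nat_lit 167)) (XT.nd (nat_lit 78) (nat_lit 0) (nat_lit 0) (XT.lf (nat_lit 0) (nat_lit 17685378992) (nat_lit 76) (nat_lit 23661631654) (nat_lit 76) (nat_lit 9911585636) (nat_lit 7) (nat_lit 4) (nat_lit 8) (nat_lit 5) (nat_lit 8) (nat_lit 4) (nat_lit 385) (nat_lit 229) (nat_lit 166)) (XT.lf (nat_lit 0) (nat_lit 24768370841) (nat_lit 76) (nat_lit 20872161539) (nat_lit 76) (nat_lit 7048468385) (nat_lit 7) (nat_lit 4) (nat_lit 8) (nat_lit 5) (nat_lit 8) (nat_lit 4) (nat_lit 386) (nat_lit 229) (nat_lit 165))))) (XT.nd (nat_lit 234) (nat_lit 76) (nat_lit 0) (XT.nd (nat_lit 78) (nat_lit 76) (nat_lit 0) (XT.lf (nat_lit 0) (nat_lit 32019121107) (nat_lit 76) (nat_lit 18019562186) (nat_lit 76) (nat_lit 4124366958)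 (nat_lit 7) (nat_lit 4) (nat_lit 8) (nat_lit 5) (nat_lit 8) (nat_lit 4) (nat_lit 387) (nat_lit 229) (nat_lit 164)) (XT.nd (nat_lit 78) (nat_lit 76) (nat_lit 0) (XT.lf (nat_lit 0) (nat_lit 39443965399) (nat_lit 76) (nat_lit 15101341030) (nat_lit 76) (nat_lit 1136726313) (nat_lit 7) (nat_lit 4) (nat_lit 8) (nat_lit 5) (nat_lit 8) (nat_lit 4) (nat_lit 388) (nat_lit 229) (nat_lit 163)) (XT.lf (nat_lit 0) (nat_lit 1879655282) (nat_lit 152) (nat_lit 10216312056) (nat_lit 76) (nat_lit 45150755328) (nat_lit 6) (nat_lit 5) (nat_lit 8) (nat_lit 5) (nat_lit 7) (nat_lit 4) (nat_lit 389) (nat_lit 229) (nat_lit 162)))) (XT.nd (nat_lit 156) (nat_lit 0) (nat_lit 0) (XT.nd (nat_lit 78) (nat_lit 76) (nat_lit 0) (XT.lf (nat_lit 0) (nat_lit 4941330501) (nat_lit 152) (nat_lit 4066545888) (nat_lit 76) (nat_lit 49850816508) (nat_lit 6) (nat_lit 5) (nat_lit 8) (nat_lit 5) (nat_lit 7) (nat_lit 4) (nat_lit 390) (nat_lit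 229) (nat_lit 161)) (XT.lf (nat_lit 0) (nat_lit 2271863897) (nat_lit 76) (nat_lit 5823130866) (nat_lit 152) (nat_lit 52424029841) (nat_lit 5) (nat_lit 5) (nat_lit 6) (nat_lit 5) (nat_lit 7) (nat_lit 4) (nat_lit 391) (nat_lit 229) (nat_lit 160))) (XT.nd (nat_lit 78) (nat_lit 0) (nat_lit 0) (XT.lf (nat_lit 0) (nat_lit 8843998504) (nat_lit 76) (nat_lit 2518884399) (nat_lit 152) (nat_lit 50865701283) (nat_lit 5) (nat_lit 5) (nat_lit 6) (nat_lit 5) (nat_lit 7) (nat_lit 4) (nat_lit 392) (nat_lit 229) (nat_lit 159)) (XT.lf (nat_lit 0) (nat_lit 14716313377) (nat_lit 152) (nat_lit 48423724257) (nat_lit 0) (nat_lit 849773909) (nat_lit 5) (nat_lit 5) (nat_lit 7) (nat_lit 4) (nat_lit 5) (nat_lit 4) (nat_lit 393) (nat_lit 229) (nat_lit 158))))))) (XT.nd (nat_lit 1014) (nat_lit 0) (nat_lit 0) (XT.nd (nat_lit 468) (nat_lit 76) (nat_lit 0) (XT.nd (nat_lit 234) (nat_lit 0) (nat_lit 0) (XT.nd (nat_lit 78) (nat_lit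 0) (nat_lit 0) (XT.lf (nat_lit 0) (nat_lit 18174901199) (nat_lit 152) (nat_lit 43376926531) (nat_lit 0) (nat_lit 4251917334) (nat_lit 5) (nat_lit 5) (nat_lit 7) (nat_lit 4) (nat_lit 5) (nat_lit 4) (nat_lit 394) (nat_lit 229) (nat_lit 157)) (XT.nd (nat_lit 78) (nat_lit 0) (nat_lit 0) (XT.lf (nat_lit 0) (nat_lit 21717455381) (nat_lit 152) (nat_lit 38215569624) (nat_lit 0) (nat_lit 7739671130) (nat_lit 5) (nat_lit 5) (nat_lit 7) (nat_lit 4) (nat_lit 5) (nat_lit 4) (nat_lit 395) (nat_lit 229) (nat_lit 156)) (XT.lf (nat_lit 0) (nat_lit 25347071357) (nat_lit 152) (nat_lit 32935143612) (nat_lit 0) (nat_lit 11316082848) (nat_lit 5) (nat_lit 5) (nat_lit 7) (nat_lit 4) (nat_lit 5) (nat_lit 4) (nat_lit 396) (nat_lit 229) (nat_lit 155)))) (XT.nd (nat_lit 78) (nat_lit 0) (nat_lit 0) (XT.lf (nat_lit 0) (nat_lit 29066920637) (nat_lit 152) (nat_lit 27531034531) (nat_lit 0) (nat_lit 14984277509) (nat_lit 5) (nat_lit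 5) (nat_lit 7) (nat_lit 4) (nat_lit 5) (nat_lit 4) (nat_lit 397) (nat_lit 229) (nat_lit 154)) (XT.nd (nat_lit 78) (nat_lit 0) (nat_lit 0) (XT.lf (nat_lit 0) (nat_lit 32880253575) (nat_lit 152) (nat_lit 21998520343) (nat_lit 0) (nat_lit 18747460330) (nat_lit 5) (nat_lit 5) (nat_lit 7) (nat_lit 4) (nat_lit 5) (nat_lit 4) (nat_lit 398) (nat_lit 229) (nat_lit 153)) (XT.lf (nat_lit 0) (nat_lit 36790402208) (nat_lit 152) (nat_lit 16332766814) (nat_lit 0) (nat_lit 22608919530) (nat_lit 5) (nat_lit 5) (nat_lit 7) (nat_lit 4) (nat_lit 5) (nat_lit 4) (nat_lit 399) (nat_lit 229) (nat_lit 152))))) (XT.nd (nat_lit 234) (nat_lit 0) (nat_lit 0) (XT.nd (nat_lit 78) (nat_lit 76) (nat_lit 0) (XT.lf (nat_lit 0) (nat_lit 40800783172) (nat_lit 152) (nat_lit 10528823284) (nat_lit 0) (nat_lit 26572029199) (nat_lit 5) (nat_lit 5) (nat_lit 7) (nat_lit 4) (nat_lit 5) (nat_lit 4) (nat_lit 400) (nat_lit 229) (nat_lit 151))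 (XT.nd (nat_lit 78) (nat_lit 76) (nat_lit 0) (XT.lf (nat_lit 0) (nat_lit 44914900682) (nat_lit 152) (nat_lit 4581618346) (nat_lit 0) (nat_lit 30640252250) (nat_lit 5) (nat_lit 5) (nat_lit 7) (nat_lit 4) (nat_lit 5) (nat_lit 4) (nat_lit 401) (nat_lit 229) (nat_lit 150)) (XT.lf (nat_lit 0) (nat_lit 1544177040) (nat_lit 76) (nat_lit 47607016134) (nat_lit 76) (nat_lit 33287809973) (nat_lit 4) (nat_lit 4) (nat_lit 5) (nat_lit 5) (nat_lit 5) (nat_lit 4) (nat_lit 402) (nat_lit 229) (nat_lit 149)))) (XT.nd (nat_lit 156) (nat_lit 0) (nat_lit 0) (XT.nd (nat_lit 78) (nat_lit 0) (nat_lit 0) (XT.lf (nat_lit 0) (nat_lit 7918000527) (nat_lit 76) (nat_lit 45626930707) (nat_lit 76) (nat_lit 31264464615) (nat_lit 4) (nat_lit 4) (nat_lit 5) (nat_lit 5) (nat_lit 5) (nat_lit 4) (nat_lit 403) (nat_lit 229) (nat_lit 148)) (XT.lf (nat_lit 0) (nat_lit 14454238285) (nat_lit 76) (nat_lit 43600797938) (nat_lit 76) (nat_lit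 29196331913) (nat_lit 4) (nat_lit 4) (nat_lit 5) (nat_lit 5) (nat_lit 5) (nat_lit 4) (nat_lit 404) (nat_lit 229) (nat_lit 147))) (XT.nd (nat_lit 78) (nat_lit 0) (nat_lit 0) (XT.lf (nat_lit 0) (nat_lit 21158601590) (nat_lit 76) (nat_lit 41526847420) (nat_lit 76) (nat_lit 27081604762) (nat_lit 4) (nat_lit 4) (nat_lit 5) (nat_lit 5) (nat_lit 5) (nat_lit 4) (nat_lit 405) (nat_lit 229) (nat_lit 146)) (XT.lf (nat_lit 0) (nat_lit 28036948623) (nat_lit 76) (nat_lit 39403266964) (nat_lit 76) (nat_lit 24918435341) (nat_lit 4) (nat_lit 4) (nat_lit 5) (nat_lit 5) (nat_lit 5) (nat_lit 4) (nat_lit 406) (nat_lit 229) (nat_lit 145)))))) (XT.nd (nat_lit 34164) (nat_lit 0) (nat_lit 2736) (XT.nd (nat_lit 33852) (nat_lit 0) (nat_lit 3648) (XT.nd (nat_lit 78) (nat_lit 0) (nat_lit 0) (XT.lf (nat_lit 0) (nat_lit 35095289591) (nat_lit 76) (nat_lit 37228201013) (nat_lit 76) (nat_lit 22704933502) (nat_lit 4) (nat_lit 4)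 (nat_lit 5) (nat_lit 5) (nat_lit 5) (nat_lit 4) (nat_lit 407) (nat_lit 229) (nat_lit 144)) (XT.nd (nat_lit 78) (nat_lit 0) (nat_lit 0) (XT.lf (nat_lit 0) (nat_lit 42339791976) (nat_lit 76) (nat_lit 34999749024) (nat_lit 76) (nat_lit 20439165117) (nat_lit 4) (nat_lit 4) (nat_lit 5) (nat_lit 5) (nat_lit 5) (nat_lit 4) (nat_lit 408) (nat_lit 229) (nat_lit 143)) (XT.lf (nat_lit 0) (nat_lit 49776785925) (nat_lit 76) (nat_lit 32715963807) (nat_lit 76) (nat_lit 18119150389) (nat_lit 4) (nat_lit 4) (nat_lit 5) (nat_lit 5) (nat_lit 5) (nat_lit 4) (nat_lit 409) (nat_lit 229) (nat_lit 142)))) (XT.nd (nat_lit 156) (nat_lit 228) (nat_lit 0) (XT.nd (nat_lit 78) (nat_lit 228) (nat_lit 0) (XT.lf (nat_lit 0) (nat_lit 1448750363) (nat_lit 304) (nat_lit 2714731175) (nat_lit 0) (nat_lit 1448750363) (nat_lit 58) (nat_lit 5) (nat_lit 62) (nat_lit 4) (nat_lit 58) (nat_lit 4) (nat_lit 320) (nat_lit 230) (nat_lit 230))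 (XT.lf (nat_lit 0) (nat_lit 1823850768) (nat_lit 228) (nat_lit 5134817652) (nat_lit 228) (nat_lit 4458816063) (nat_lit 55) (nat_lit 4) (nat_lit 58) (nat_lit 5) (nat_lit 58) (nat_lit 4) (nat_lit 321) (nat_lit 230) (nat_lit 229))) (XT.nd (nat_lit 78) (nat_lit 228) (nat_lit 0) (XT.lf (nat_lit 0) (nat_lit 9260613467) (nat_lit 228) (nat_lit 1844579985) (nat_lit 228) (nat_lit 512266174) (nat_lit 55) (nat_lit 4) (nat_lit 58) (nat_lit 5) (nat_lit 58) (nat_lit 4) (nat_lit 322) (nat_lit 230) (nat_lit 228)) (XT.lf (nat_lit 0) (nat_lit 3457146247) (nat_lit 228) (nat_lit 6821114558) (nat_lit 0) (nat_lit 1545000477) (nat_lit 52) (nat_lit 5) (nat_lit 55) (nat_lit 4) (nat_lit 52) (nat_lit 4) (nat_lit 323) (nat_lit 230) (nat_lit 227))))) (XT.nd (nat_lit 234) (nat_lit 456) (nat_lit 0) (XT.nd (nat_lit 78) (nat_lit 228) (nat_lit 0) (XT.lf (nat_lit 0) (nat_lit 436792663) (nat_lit 228) (nat_lit 7056195456) (nat_lit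 228) (nat_lit 4543431029) (nat_lit 49) (nat_lit 4) (nat_lit 52) (nat_lit 5) (nat_lit 52) (nat_lit 4) (nat_lit 324) (nat_lit 230) (nat_lit 226)) (XT.nd (nat_lit 78) (nat_lit 228) (nat_lit 0) (XT.lf (nat_lit 0) (nat_lit 7909814234) (nat_lit 228) (nat_lit 3721335637) (nat_lit 228) (nat_lit 625446302) (nat_lit 49) (nat_lit 4) (nat_lit 52) (nat_lit 5) (nat_lit 52) (nat_lit 4) (nat_lit 325) (nat_lit 230) (nat_lit 225)) (XT.lf (nat_lit 0) (nat_lit 3009525375) (nat_lit 152) (nat_lit 276955116) (nat_lit 228) (nat_lit 9197684476) (nat_lit 46) (nat_lit 5) (nat_lit 48) (nat_lit 5) (nat_lit 49) (nat_lit 4) (nat_lit 326) (nat_lit 230) (nat_lit 224)))) (XT.nd (nat_lit 156) (nat_lit 228) (nat_lit 0) (XT.nd (nat_lit 78) (nat_lit 228) (nat_lit 0) (XT.lf (nat_lit 0) (nat_lit 7293632545) (nat_lit 228) (nat_lit 2220464181) (nat_lit 0) (nat_lit 3204621693) (nat_lit 46) (nat_lit 5) (nat_lit 49) (nat_lit 4) (nat_lit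 46) (nat_lit 4) (nat_lit 327) (nat_lit 230) (nat_lit 223)) (XT.lf (nat_lit 0) (nat_lit 5213652663) (nat_lit 228) (nat_lit 6177360030) (nat_lit 228) (nat_lit 1570250250) (nat_lit 43) (nat_lit 4) (nat_lit 46) (nat_lit 5) (nat_lit 46) (nat_lit 4) (nat_lit 328) (nat_lit 230) (nat_lit 222))) (XT.nd (nat_lit 78) (nat_lit 152) (nat_lit 0) (XT.lf (nat_lit 0) (nat_lit 2293442761) (nat_lit 304) (nat_lit 454429643) (nat_lit 76) (nat_lit 10464369464) (nat_lit 42) (nat_lit 5) (nat_lit 46) (nat_lit 5) (nat_lit 43) (nat_lit 4) (nat_lit 329) (nat_lit 230) (nat_lit 221)) (XT.lf (nat_lit 0) (nat_lit 6236889353) (nat_lit 228) (nat_lit 6432107123) (nat_lit 0) (nat_lit 801475392) (nat_lit 40) (nat_lit 5) (nat_lit 43) (nat_lit 4) (nat_lit 40) (nat_lit 4) (nat_lit 330) (nat_lit 230) (nat_lit 220))))))))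
noncomputable def xc38 : XT := (XT.nd (nat_lit 2028) (nat_lit 608) (nat_lit 0) (XT.nd (nat_lit 1014) (nat_lit 760) (nat_lit 0) (XT.nd (nat_lit 468) (nat_lit 456) (nat_lit 0) (XT.nd (nat_lit 234) (nat_lit 228) (nat_lit 0) (XT.nd (nat_lit 78) (nat_lit 228) (nat_lit 0) (XT.lf (nat_lit 0) (nat_lit 885315540) (nat_lit 152) (nat_lit 9374049185) (nat_lit 152) (nat_lit 3478311037) (nat_lit 38) (nat_lit 4) (nat_lit 40) (nat_lit 5) (nat_lit 40) (nat_lit 4) (nat_lit 331) (nat_lit 230) (nat_lit 219)) (XT.nd (nat_lit 78) (nat_lit 152) (nat_lit 0) (XT.lf (nat_lit 0) (nat_lit 368207326) (nat_lit 228) (nat_lit 5595193962) (nat_lit 76) (nat_lit 8049842333) (nat_lit 37) (nat_lit 5) (nat_lit 40) (nat_lit 5) (nat_lit 38) (nat_lit 4) (nat_lit 332) (nat_lit 230) (nat_lit 218)) (XT.lf (nat_lit 0) (nat_lit 1749314893) (nat_lit 152) (nat_lit 2450620784) (nat_lit 228) (nat_lit 10097962545) (nat_lit 35) (nat_lit 5) (nat_lit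 37) (nat_lit 5) (nat_lit 38) (nat_lit 4) (nat_lit 333) (nat_lit 230) (nat_lit 217)))) (XT.nd (nat_lit 78) (nat_lit 228) (nat_lit 0) (XT.lf (nat_lit 0) (nat_lit 8138309094) (nat_lit 228) (nat_lit 5302938028) (nat_lit 0) (nat_lit 1150137858) (nat_lit 35) (nat_lit 5) (nat_lit 38) (nat_lit 4) (nat_lit 35) (nat_lit 4) (nat_lit 334) (nat_lit 230) (nat_lit 216)) (XT.nd (nat_lit 78) (nat_lit 76) (nat_lit 0) (XT.lf (nat_lit 0) (nat_lit 2048987408) (nat_lit 152) (nat_lit 10115446948) (nat_lit 152) (nat_lit 2730196024) (nat_lit 33) (nat_lit 4) (nat_lit 35) (nat_lit 5) (nat_lit 35) (nat_lit 4) (nat_lit 335) (nat_lit 230) (nat_lit 215)) (XT.lf (nat_lit 0) (nat_lit 1062732425) (nat_lit 228) (nat_lit 5613418361) (nat_lit 76) (nat_lit 8531146147) (nat_lit 32) (nat_lit 5) (nat_lit 35) (nat_lit 5) (nat_lit 33) (nat_lit 4) (nat_lit 336) (nat_lit 230) (nat_lit 214))))) (XT.nd (nat_lit 234) (nat_lit 152) (nat_lit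 0) (XT.nd (nat_lit 78) (nat_lit 152) (nat_lit 0) (XT.lf (nat_lit 0) (nat_lit 1718903476) (nat_lit 152) (nat_lit 3140187336) (nat_lit 228) (nat_lit 10671144718) (nat_lit 30) (nat_lit 5) (nat_lit 32) (nat_lit 5) (nat_lit 33) (nat_lit 4) (nat_lit 337) (nat_lit 230) (nat_lit 213)) (XT.nd (nat_lit 78) (nat_lit 152) (nat_lit 0) (XT.lf (nat_lit 0) (nat_lit 8759834848) (nat_lit 228) (nat_lit 6604131651) (nat_lit 0) (nat_lit 499218306) (nat_lit 30) (nat_lit 5) (nat_lit 33) (nat_lit 4) (nat_lit 30) (nat_lit 4) (nat_lit 338) (nat_lit 230) (nat_lit 212)) (XT.lf (nat_lit 0) (nat_lit 681245537) (nat_lit 152) (nat_lit 12064504896) (nat_lit 152) (nat_lit 3461363926) (nat_lit 28) (nat_lit 4) (nat_lit 30) (nat_lit 5) (nat_lit 30) (nat_lit 4) (nat_lit 339) (nat_lit 230) (nat_lit 211)))) (XT.nd (nat_lit 156) (nat_lit 76) (nat_lit 0) (XT.nd (nat_lit 78) (nat_lit 0) (nat_lit 0) (XT.lf (nat_lit 0) (nat_lit 282249465)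 (nat_lit 228) (nat_lit 8362722542) (nat_lit 76) (nat_lit 7916399660) (nat_lit 27) (nat_lit 5) (nat_lit 30) (nat_lit 5) (nat_lit 28) (nat_lit 4) (nat_lit 340) (nat_lit 230) (nat_lit 210)) (XT.lf (nat_lit 0) (nat_lit 4001295784) (nat_lit 228) (nat_lit 1135920637) (nat_lit 76) (nat_lit 11790064509) (nat_lit 27) (nat_lit 5) (nat_lit 30) (nat_lit 5) (nat_lit 28) (nat_lit 4) (nat_lit 341) (nat_lit 230) (nat_lit 209))) (XT.nd (nat_lit 78) (nat_lit 0) (nat_lit 0) (XT.lf (nat_lit 0) (nat_lit 6317399543) (nat_lit 76) (nat_lit 1509895528) (nat_lit 152) (nat_lit 9477043185) (nat_lit 26) (nat_lit 5) (nat_lit 27) (nat_lit 5) (nat_lit 28) (nat_lit 4) (nat_lit 342) (nat_lit 230) (nat_lit 208)) (XT.lf (nat_lit 0) (nat_lit 11736075033) (nat_lit 152) (nat_lit 3810226149) (nat_lit 0) (nat_lit 2147397392) (nat_lit 26) (nat_lit 5) (nat_lit 28) (nat_lit 4) (nat_lit 26) (nat_lit 4) (nat_lit 343) (nat_lit 230) (nat_lit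 207)))))) (XT.nd (nat_lit 468) (nat_lit 304) (nat_lit 0) (XT.nd (nat_lit 234) (nat_lit 228) (nat_lit 0) (XT.nd (nat_lit 78) (nat_lit 76) (nat_lit 0) (XT.lf (nat_lit 0) (nat_lit 3524988649) (nat_lit 152) (nat_lit 12222872800) (nat_lit 152) (nat_lit 2347336344) (nat_lit 24) (nat_lit 4) (nat_lit 26) (nat_lit 5) (nat_lit 26) (nat_lit 4) (nat_lit 344) (nat_lit 230) (nat_lit 206)) (XT.nd (nat_lit 78) (nat_lit 0) (nat_lit 0) (XT.lf (nat_lit 0) (nat_lit 1320405984) (nat_lit 228) (nat_lit 7473616011) (nat_lit 76) (nat_lit 9715076047) (nat_lit 23) (nat_lit 5) (nat_lit 26) (nat_lit 5) (nat_lit 24) (nat_lit 4) (nat_lit 345) (nat_lit 230) (nat_lit 205)) (XT.lf (nat_lit 0) (nat_lit 4989882965) (nat_lit 228) (nat_lit 294969686) (nat_lit 76) (nat_lit 13651726779) (nat_lit 23) (nat_lit 5) (nat_lit 26) (nat_lit 5) (nat_lit 24) (nat_lit 4) (nat_lit 346) (nat_lit 230) (nat_lit 204)))) (XT.nd (nat_lit 78) (nat_lit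 152) (nat_lit 0) (XT.lf (nat_lit 0) (nat_lit 7133772055) (nat_lit 76) (nat_lit 1644908049) (nat_lit 152) (nat_lit 10597955072) (nat_lit 22) (nat_lit 5) (nat_lit 23) (nat_lit 5) (nat_lit 24) (nat_lit 4) (nat_lit 347) (nat_lit 230) (nat_lit 203)) (XT.nd (nat_lit 78) (nat_lit 152) (nat_lit 0) (XT.lf (nat_lit 0) (nat_lit 12645341009) (nat_lit 152) (nat_lit 5163435935) (nat_lit 0) (nat_lit 2022215864) (nat_lit 22) (nat_lit 5) (nat_lit 24) (nat_lit 4) (nat_lit 22) (nat_lit 4) (nat_lit 348) (nat_lit 230) (nat_lit 202)) (XT.lf (nat_lit 0) (nat_lit 2050351325) (nat_lit 152) (nat_lit 14556329896) (nat_lit 152) (nat_lit 3692965009) (nat_lit 20) (nat_lit 4) (nat_lit 22) (nat_lit 5) (nat_lit 22) (nat_lit 4) (nat_lit 349) (nat_lit 230) (nat_lit 201))))) (XT.nd (nat_lit 234) (nat_lit 152) (nat_lit 0) (XT.nd (nat_lit 78) (nat_lit 152) (nat_lit 0) (XT.lf (nat_lit 0) (nat_lit 9485648827) (nat_lit 152) (nat_lit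 11196738359) (nat_lit 152) (nat_lit 100131004) (nat_lit 20) (nat_lit 4) (nat_lit 22) (nat_lit 5) (nat_lit 22) (nat_lit 4) (nat_lit 350) (nat_lit 230) (nat_lit 200)) (XT.nd (nat_lit 78) (nat_lit 76) (nat_lit 0) (XT.lf (nat_lit 0) (nat_lit 3474695746) (nat_lit 228) (nat_lit 4269423987) (nat_lit 76) (nat_lit 13536407573) (nat_lit 19) (nat_lit 5) (nat_lit 22) (nat_lit 5) (nat_lit 20) (nat_lit 4) (nat_lit 351) (nat_lit 230) (nat_lit 199)) (XT.lf (nat_lit 0) (nat_lit 2928946645) (nat_lit 76) (nat_lit 4200046651) (nat_lit 152) (nat_lit 14665249107) (nat_lit 18) (nat_lit 5) (nat_lit 19) (nat_lit 5) (nat_lit 20) (nat_lit 4) (nat_lit 352) (nat_lit 230) (nat_lit 198)))) (XT.nd (nat_lit 156) (nat_lit 152) (nat_lit 0) (XT.nd (nat_lit 78) (nat_lit 0) (nat_lit 0) (XT.lf (nat_lit 0) (nat_lit 10335668170) (nat_lit 76) (nat_lit 547104153) (nat_lit 152) (nat_lit 11440923004) (nat_lit 18) (nat_lit 5) (nat_lit 19)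 (nat_lit 5) (nat_lit 20) (nat_lit 4) (nat_lit 353) (nat_lit 230) (nat_lit 197)) (XT.lf (nat_lit 0) (nat_lit 14727973722) (nat_lit 152) (nat_lit 5028879840) (nat_lit 0) (nat_lit 3112835316) (nat_lit 18) (nat_lit 5) (nat_lit 20) (nat_lit 4) (nat_lit 18) (nat_lit 4) (nat_lit 354) (nat_lit 230) (nat_lit 196))) (XT.nd (nat_lit 78) (nat_lit 0) (nat_lit 0) (XT.lf (nat_lit 0) (nat_lit 2083474618) (nat_lit 152) (nat_lit 16579918868) (nat_lit 152) (nat_lit 4769443568) (nat_lit 16) (nat_lit 4) (nat_lit 18) (nat_lit 5) (nat_lit 18) (nat_lit 4) (nat_lit 355) (nat_lit 230) (nat_lit 195)) (XT.lf (nat_lit 0) (nat_lit 9422370577) (nat_lit 152) (nat_lit 13295313849) (nat_lit 152) (nat_lit 1295191078) (nat_lit 16) (nat_lit 4) (nat_lit 18) (nat_lit 5) (nat_lit 18) (nat_lit 4) (nat_lit 356) (nat_lit 230) (nat_lit 194))))))) (XT.nd (nat_lit 1014) (nat_lit 228) (nat_lit 0) (XT.nd (nat_lit 468) (nat_lit 152) (nat_lit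 0) (XT.nd (nat_lit 234) (nat_lit 76) (nat_lit 0) (XT.nd (nat_lit 78) (nat_lit 76) (nat_lit 0) (XT.lf (nat_lit 0) (nat_lit 2189716587) (nat_lit 228) (nat_lit 7739121855) (nat_lit 76) (nat_lit 14682307663) (nat_lit 15) (nat_lit 5) (nat_lit 18) (nat_lit 5) (nat_lit 16) (nat_lit 4) (nat_lit 357) (nat_lit 230) (nat_lit 193)) (XT.nd (nat_lit 78) (nat_lit 76) (nat_lit 0) (XT.lf (nat_lit 0) (nat_lit 5705549905) (nat_lit 228) (nat_lit 780741151) (nat_lit 76) (nat_lit 18742135126) (nat_lit 15) (nat_lit 5) (nat_lit 18) (nat_lit 5) (nat_lit 16) (nat_lit 4) (nat_lit 358) (nat_lit 230) (nat_lit 192)) (XT.lf (nat_lit 0) (nat_lit 6428612884) (nat_lit 76) (nat_lit 2913837678) (nat_lit 152) (nat_lit 16521324174) (nat_lit 14) (nat_lit 5) (nat_lit 15) (nat_lit 5) (nat_lit 16) (nat_lit 4) (nat_lit 359) (nat_lit 230) (nat_lit 191)))) (XT.nd (nat_lit 78) (nat_lit 76) (nat_lit 0) (XT.lf (nat_lit 0) (nat_lit 13057778313)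 (nat_lit 152) (nat_lit 12738575604) (nat_lit 0) (nat_lit 722767555) (nat_lit 14) (nat_lit 5) (nat_lit 16) (nat_lit 4) (nat_lit 14) (nat_lit 4) (nat_lit 360) (nat_lit 230) (nat_lit 190)) (XT.nd (nat_lit 78) (nat_lit 76) (nat_lit 0) (XT.lf (nat_lit 0) (nat_lit 16868752495) (nat_lit 152) (nat_lit 5950952374) (nat_lit 0) (nat_lit 4374914966) (nat_lit 14) (nat_lit 5) (nat_lit 16) (nat_lit 4) (nat_lit 14) (nat_lit 4) (nat_lit 361) (nat_lit 230) (nat_lit 189)) (XT.lf (nat_lit 0) (nat_lit 980787049) (nat_lit 76) (nat_lit 19779334371) (nat_lit 76) (nat_lit 7131296094) (nat_lit 13) (nat_lit 4) (nat_lit 14) (nat_lit 5) (nat_lit 14) (nat_lit 4) (nat_lit 362) (nat_lit 230) (nat_lit 188))))) (XT.nd (nat_lit 234) (nat_lit 76) (nat_lit 0) (XT.nd (nat_lit 78) (nat_lit 76) (nat_lit 0) (XT.lf (nat_lit 0) (nat_lit 8164587244) (nat_lit 76) (nat_lit 16620889065) (nat_lit 76) (nat_lit 3823141324) (nat_lit 13) (nat_lit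 4) (nat_lit 14) (nat_lit 5) (nat_lit 14) (nat_lit 4) (nat_lit 363) (nat_lit 230) (nat_lit 187)) (XT.nd (nat_lit 78) (nat_lit 76) (nat_lit 0) (XT.lf (nat_lit 0) (nat_lit 15488289695) (nat_lit 76) (nat_lit 13401702096) (nat_lit 76) (nat_lit 458605360) (nat_lit 13) (nat_lit 4) (nat_lit 14) (nat_lit 5) (nat_lit 14) (nat_lit 4) (nat_lit 364) (nat_lit 230) (nat_lit 186)) (XT.lf (nat_lit 0) (nat_lit 2907388942) (nat_lit 152) (nat_lit 7182212711) (nat_lit 76) (nat_lit 20021545885) (nat_lit 12) (nat_lit 5) (nat_lit 14) (nat_lit 5) (nat_lit 13) (nat_lit 4) (nat_lit 365) (nat_lit 230) (nat_lit 185)))) (XT.nd (nat_lit 156) (nat_lit 0) (nat_lit 0) (XT.nd (nat_lit 78) (nat_lit 76) (nat_lit 0) (XT.lf (nat_lit 0) (nat_lit 6325531054) (nat_lit 152) (nat_lit 380389591) (nat_lit 76) (nat_lit 24191720096) (nat_lit 12) (nat_lit 5) (nat_lit 14) (nat_lit 5) (nat_lit 13) (nat_lit 4) (nat_lit 366) (nat_lit 230) (nat_lit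 184)) (XT.lf (nat_lit 0) (nat_lit 6685981216) (nat_lit 76) (nat_lit 3186045270) (nat_lit 152) (nat_lit 21834941660) (nat_lit 11) (nat_lit 5) (nat_lit 12) (nat_lit 5) (nat_lit 13) (nat_lit 4) (nat_lit 367) (nat_lit 230) (nat_lit 183))) (XT.nd (nat_lit 78) (nat_lit 0) (nat_lit 0) (XT.lf (nat_lit 0) (nat_lit 13494712820) (nat_lit 152) (nat_lit 18642722774) (nat_lit 0) (nat_lit 404059178) (nat_lit 11) (nat_lit 5) (nat_lit 13) (nat_lit 4) (nat_lit 11) (nat_lit 4) (nat_lit 368) (nat_lit 230) (nat_lit 182)) (XT.lf (nat_lit 0) (nat_lit 17220433273) (nat_lit 152) (nat_lit 12172754072) (nat_lit 0) (nat_lit 4008052136) (nat_lit 11) (nat_lit 5) (nat_lit 13) (nat_lit 4) (nat_lit 11) (nat_lit 4) (nat_lit 369) (nat_lit 230) (nat_lit 181)))))) (XT.nd (nat_lit 546) (nat_lit 76) (nat_lit 0) (XT.nd (nat_lit 234) (nat_lit 76) (nat_lit 0) (XT.nd (nat_lit 78) (nat_lit 76) (nat_lit 0) (XT.lf (nat_lit 0) (nat_lit 21021817114)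 (nat_lit 152) (nat_lit 5574801240) (nat_lit 0) (nat_lit 7691253943) (nat_lit 11) (nat_lit 5) (nat_lit 13) (nat_lit 4) (nat_lit 11) (nat_lit 4) (nat_lit 370) (nat_lit 230) (nat_lit 180)) (XT.nd (nat_lit 78) (nat_lit 0) (nat_lit 0) (XT.lf (nat_lit 0) (nat_lit 1179925520) (nat_lit 76) (nat_lit 23733602585) (nat_lit 76) (nat_lit 10288299576) (nat_lit 10) (nat_lit 4) (nat_lit 11) (nat_lit 5) (nat_lit 11) (nat_lit 4) (nat_lit 371) (nat_lit 230) (nat_lit 179)) (XT.lf (nat_lit 0) (nat_lit 8188012098) (nat_lit 76) (nat_lit 20755626447) (nat_lit 76) (nat_lit 7198925536) (nat_lit 10) (nat_lit 4) (nat_lit 11) (nat_lit 5) (nat_lit 11) (nat_lit 4) (nat_lit 372) (nat_lit 230) (nat_lit 178)))) (XT.nd (nat_lit 156) (nat_lit 76) (nat_lit 0) (XT.nd (nat_lit 78) (nat_lit 0) (nat_lit 0) (XT.lf (nat_lit 0) (nat_lit 15344632587) (nat_lit 76) (nat_lit 17716382387) (nat_lit 76) (nat_lit 4051528174) (nat_lit 10) (nat_lit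 4) (nat_lit 11) (nat_lit 5) (nat_lit 11) (nat_lit 4) (nat_lit 373) (nat_lit 230) (nat_lit 177)) (XT.lf (nat_lit 0) (nat_lit 22656040346) (nat_lit 76) (nat_lit 14613214755) (nat_lit 76) (nat_lit 843357335) (nat_lit 10) (nat_lit 4) (nat_lit 11) (nat_lit 5) (nat_lit 11) (nat_lit 4) (nat_lit 374) (nat_lit 230) (nat_lit 176))) (XT.nd (nat_lit 78) (nat_lit 0) (nat_lit 0) (XT.lf (nat_lit 0) (nat_lit 2381003594) (nat_lit 152) (nat_lit 9038364982) (nat_lit 76) (nat_lit 27723576920) (nat_lit 9) (nat_lit 5) (nat_lit 11) (nat_lit 5) (nat_lit 10) (nat_lit 4) (nat_lit 375) (nat_lit 230) (nat_lit 175)) (XT.lf (nat_lit 0) (nat_lit 5654046730) (nat_lit 152) (nat_lit 2493063010) (nat_lit 76) (nat_lit 32057771424) (nat_lit 9) (nat_lit 5) (nat_lit 11) (nat_lit 5) (nat_lit 10) (nat_lit 4) (nat_lit 376) (nat_lit 230) (nat_lit 174))))) (XT.nd (nat_lit 234) (nat_lit 0) (nat_lit 0) (XT.nd (nat_lit 78) (nat_lit 0) (nat_lit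 0) (XT.lf (nat_lit 0) (nat_lit 4276611990) (nat_lit 76) (nat_lit 4759586369) (nat_lit 152) (nat_lit 32262158906) (nat_lit 8) (nat_lit 5) (nat_lit 9) (nat_lit 5) (nat_lit 10) (nat_lit 4) (nat_lit 377) (nat_lit 230) (nat_lit 173)) (XT.nd (nat_lit 78) (nat_lit 0) (nat_lit 0) (XT.lf (nat_lit 0) (nat_lit 11245587967) (nat_lit 76) (nat_lit 1269561114) (nat_lit 152) (nat_lit 29909638126) (nat_lit 8) (nat_lit 5) (nat_lit 9) (nat_lit 5) (nat_lit 10) (nat_lit 4) (nat_lit 378) (nat_lit 230) (nat_lit 172)) (XT.lf (nat_lit 0) (nat_lit 16091614048) (nat_lit 152) (nat_lit 25237668116) (nat_lit 0) (nat_lit 2255942827) (nat_lit 8) (nat_lit 5) (nat_lit 10) (nat_lit 4) (nat_lit 8) (nat_lit 4) (nat_lit 379) (nat_lit 230) (nat_lit 171)))) (XT.nd (nat_lit 156) (nat_lit 0) (nat_lit 0) (XT.nd (nat_lit 78) (nat_lit 0) (nat_lit 0) (XT.lf (nat_lit 0) (nat_lit 19759588325) (nat_lit 152) (nat_lit 19182830273) (nat_lit 0)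 (nat_lit 5838539889) (nat_lit 8) (nat_lit 5) (nat_lit 10) (nat_lit 4) (nat_lit 8) (nat_lit 4) (nat_lit 380) (nat_lit 230) (nat_lit 170)) (XT.lf (nat_lit 0) (nat_lit 23510073143) (nat_lit 152) (nat_lit 12997191281) (nat_lit 0) (nat_lit 9506134206) (nat_lit 8) (nat_lit 5) (nat_lit 10) (nat_lit 4) (nat_lit 8) (nat_lit 4) (nat_lit 381) (nat_lit 230) (nat_lit 169))) (XT.nd (nat_lit 78) (nat_lit 0) (nat_lit 0) (XT.lf (nat_lit 0) (nat_lit 27346345624) (nat_lit 152) (nat_lit 6675346210) (nat_lit 0) (nat_lit 13261930472) (nat_lit 8) (nat_lit 5) (nat_lit 10) (nat_lit 4) (nat_lit 8) (nat_lit 4) (nat_lit 382) (nat_lit 230) (nat_lit 168)) (XT.lf (nat_lit 0) (nat_lit 31271757850) (nat_lit 152) (nat_lit 211771120) (nat_lit 0) (nat_lit 17109210452) (nat_lit 8) (nat_lit 5) (nat_lit 10) (nat_lit 4) (nat_lit 8) (nat_lit 4) (nat_lit 383) (nat_lit 230) (nat_lit 167))))))))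
noncomputable def xc39 : XT := (XT.nd (nat_lit 35568) (nat_lit 0) (nat_lit 1444) (XT.nd (nat_lit 1014) (nat_lit 76) (nat_lit 0) (XT.nd (nat_lit 468) (nat_lit 152) (nat_lit 0) (XT.nd (nat_lit 234) (nat_lit 0) (nat_lit 0) (XT.nd (nat_lit 78) (nat_lit 0) (nat_lit 0) (XT.lf (nat_lit 0) (nat_lit 6526538038) (nat_lit 76) (nat_lit 28825938831) (nat_lit 76) (nat_lit 14587534882) (nat_lit 7) (nat_lit 4) (nat_lit 8) (nat_lit 5) (nat_lit 8) (nat_lit 4) (nat_lit 384) (nat_lit 230) (nat_lit 166)) (XT.nd (nat_lit 78) (nat_lit 0) (nat_lit 0) (XT.lf (nat_lit 0) (nat_lit 13425264295) (nat_lit 76) (nat_lit 26107589870) (nat_lit 76) (nat_lit 11795538785) (nat_lit 7) (nat_lit 4) (nat_lit 8) (nat_lit 5) (nat_lit 8) (nat_lit 4) (nat_lit 385) (nat_lit 230) (nat_lit 165)) (XT.lf (nat_lit 0) (nat_lit 20486221002) (nat_lit 76) (nat_lit 23328245304) (nat_lit 76) (nat_lit 8944692145) (nat_lit 7) (nat_lit 4) (nat_lit 8) (nat_lit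 5) (nat_lit 8) (nat_lit 4) (nat_lit 386) (nat_lit 230) (nat_lit 164)))) (XT.nd (nat_lit 78) (nat_lit 0) (nat_lit 0) (XT.lf (nat_lit 0) (nat_lit 27715577927) (nat_lit 76) (nat_lit 20485476581) (nat_lit 76) (nat_lit 6032503932) (nat_lit 7) (nat_lit 4) (nat_lit 8) (nat_lit 5) (nat_lit 8) (nat_lit 4) (nat_lit 387) (nat_lit 230) (nat_lit 163)) (XT.nd (nat_lit 78) (nat_lit 0) (nat_lit 0) (XT.lf (nat_lit 0) (nat_lit 35119651984) (nat_lit 76) (nat_lit 17576799726) (nat_lit 76) (nat_lit 3056429516) (nat_lit 7) (nat_lit 4) (nat_lit 8) (nat_lit 5) (nat_lit 8) (nat_lit 4) (nat_lit 388) (nat_lit 230) (nat_lit 162)) (XT.lf (nat_lit 0) (nat_lit 42704912753) (nat_lit 76) (nat_lit 14599673179) (nat_lit 76) (nat_lit 13868441) (nat_lit 7) (nat_lit 4) (nat_lit 8) (nat_lit 5) (nat_lit 8) (nat_lit 4) (nat_lit 389) (nat_lit 230) (nat_lit 161))))) (XT.nd (nat_lit 234) (nat_lit 0) (nat_lit 0) (XT.nd (nat_lit 78) (nat_lit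 76) (nat_lit 0) (XT.lf (nat_lit 0) (nat_lit 3037387864) (nat_lit 152) (nat_lit 8483436039) (nat_lit 76) (nat_lit 47409928605) (nat_lit 6) (nat_lit 5) (nat_lit 8) (nat_lit 5) (nat_lit 7) (nat_lit 4) (nat_lit 390) (nat_lit 230) (nat_lit 160)) (XT.nd (nat_lit 78) (nat_lit 76) (nat_lit 0) (XT.lf (nat_lit 0) (nat_lit 6158835390) (nat_lit 152) (nat_lit 2208575878) (nat_lit 76) (nat_lit 52224642573) (nat_lit 6) (nat_lit 5) (nat_lit 8) (nat_lit 5) (nat_lit 7) (nat_lit 4) (nat_lit 391) (nat_lit 230) (nat_lit 159)) (XT.lf (nat_lit 0) (nat_lit 4300574766) (nat_lit 76) (nat_lit 5094237228) (nat_lit 152) (nat_lit 52907761809) (nat_lit 5) (nat_lit 5) (nat_lit 6) (nat_lit 5) (nat_lit 7) (nat_lit 4) (nat_lit 392) (nat_lit 230) (nat_lit 158)))) (XT.nd (nat_lit 156) (nat_lit 0) (nat_lit 0) (XT.nd (nat_lit 78) (nat_lit 0) (nat_lit 0) (XT.lf (nat_lit 0) (nat_lit 11012769868) (nat_lit 76) (nat_lit 1717181451) (nat_lit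 152) (nat_lit 51334401519) (nat_lit 5) (nat_lit 5) (nat_lit 6) (nat_lit 5) (nat_lit 7) (nat_lit 4) (nat_lit 393) (nat_lit 230) (nat_lit 157)) (XT.lf (nat_lit 0) (nat_lit 16162283147) (nat_lit 152) (nat_lit 48006428769) (nat_lit 0) (nat_lit 1710364983) (nat_lit 5) (nat_lit 5) (nat_lit 7) (nat_lit 4) (nat_lit 5) (nat_lit 4) (nat_lit 394) (nat_lit 230) (nat_lit 156))) (XT.nd (nat_lit 78) (nat_lit 0) (nat_lit 0) (XT.lf (nat_lit 0) (nat_lit 19695371895) (nat_lit 152) (nat_lit 42862693341) (nat_lit 0) (nat_lit 5190249473) (nat_lit 5) (nat_lit 5) (nat_lit 7) (nat_lit 4) (nat_lit 5) (nat_lit 4) (nat_lit 395) (nat_lit 230) (nat_lit 155)) (XT.lf (nat_lit 0) (nat_lit 23315798130) (nat_lit 152) (nat_lit 37599375561) (nat_lit 0) (nat_lit 8759021088) (nat_lit 5) (nat_lit 5) (nat_lit 7) (nat_lit 4) (nat_lit 5) (nat_lit 4) (nat_lit 396) (nat_lit 230) (nat_lit 154)))))) (XT.nd (nat_lit 546) (nat_lit 0) (nat_lit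 0) (XT.nd (nat_lit 234) (nat_lit 76) (nat_lit 0) (XT.nd (nat_lit 78) (nat_lit 0) (nat_lit 0) (XT.lf (nat_lit 0) (nat_lit 27026725330) (nat_lit 152) (nat_lit 32211876414) (nat_lit 0) (nat_lit 12419798172) (nat_lit 5) (nat_lit 5) (nat_lit 7) (nat_lit 4) (nat_lit 5) (nat_lit 4) (nat_lit 397) (nat_lit 230) (nat_lit 153)) (XT.nd (nat_lit 78) (nat_lit 0) (nat_lit 0) (XT.lf (nat_lit 0) (nat_lit 30831396055) (nat_lit 152) (nat_lit 26695488376) (nat_lit 0) (nat_lit 16175779463) (nat_lit 5) (nat_lit 5) (nat_lit 7) (nat_lit 4) (nat_lit 5) (nat_lit 4) (nat_lit 398) (nat_lit 230) (nat_lit 152)) (XT.lf (nat_lit 0) (nat_lit 34733134772) (nat_lit 152) (nat_lit 21045391303) (nat_lit 0) (nat_lit 20030246887) (nat_lit 5) (nat_lit 5) (nat_lit 7) (nat_lit 4) (nat_lit 5) (nat_lit 4) (nat_lit 399) (nat_lit 230) (nat_lit 151)))) (XT.nd (nat_lit 156) (nat_lit 76) (nat_lit 0) (XT.nd (nat_lit 78) (nat_lit 0) (nat_lit 0)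 (XT.lf (nat_lit 0) (nat_lit 38735350770) (nat_lit 152) (nat_lit 15256648215) (nat_lit 0) (nat_lit 23986568424) (nat_lit 5) (nat_lit 5) (nat_lit 7) (nat_lit 4) (nat_lit 5) (nat_lit 4) (nat_lit 400) (nat_lit 230) (nat_lit 150)) (XT.lf (nat_lit 0) (nat_lit 42841541128) (nat_lit 152) (nat_lit 9324200989) (nat_lit 0) (nat_lit 28048201054) (nat_lit 5) (nat_lit 5) (nat_lit 7) (nat_lit 4) (nat_lit 5) (nat_lit 4) (nat_lit 401) (nat_lit 230) (nat_lit 149))) (XT.nd (nat_lit 78) (nat_lit 76) (nat_lit 0) (XT.lf (nat_lit 0) (nat_lit 47055293782) (nat_lit 152) (nat_lit 3242865933) (nat_lit 0) (nat_lit 32218693777) (nat_lit 5) (nat_lit 5) (nat_lit 7) (nat_lit 4) (nat_lit 5) (nat_lit 4) (nat_lit 402) (nat_lit 230) (nat_lit 148)) (XT.lf (nat_lit 0) (nat_lit 3052230757) (nat_lit 76) (nat_lit 48357399802) (nat_lit 76) (nat_lit 33478799864) (nat_lit 4) (nat_lit 4) (nat_lit 5) (nat_lit 5) (nat_lit 5) (nat_lit 4) (nat_lit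 403) (nat_lit 230) (nat_lit 147))))) (XT.nd (nat_lit 234) (nat_lit 0) (nat_lit 0) (XT.nd (nat_lit 78) (nat_lit 0) (nat_lit 0) (XT.lf (nat_lit 0) (nat_lit 9574694335) (nat_lit 76) (nat_lit 46337654341) (nat_lit 76) (nat_lit 31418277769) (nat_lit 4) (nat_lit 4) (nat_lit 5) (nat_lit 5) (nat_lit 5) (nat_lit 4) (nat_lit 404) (nat_lit 230) (nat_lit 146)) (XT.nd (nat_lit 78) (nat_lit 0) (nat_lit 0) (XT.lf (nat_lit 0) (nat_lit 16265684649) (nat_lit 76) (nat_lit 44269905092) (nat_lit 76) (nat_lit 29310939556) (nat_lit 4) (nat_lit 4) (nat_lit 5) (nat_lit 5) (nat_lit 5) (nat_lit 4) (nat_lit 405) (nat_lit 230) (nat_lit 145)) (XT.lf (nat_lit 0) (nat_lit 23131048196) (nat_lit 76) (nat_lit 42152345286) (nat_lit 76) (nat_lit 27154943861) (nat_lit 4) (nat_lit 4) (nat_lit 5) (nat_lit 5) (nat_lit 5) (nat_lit 4) (nat_lit 406) (nat_lit 230) (nat_lit 144)))) (XT.nd (nat_lit 156) (nat_lit 0) (nat_lit 0) (XT.nd (nat_lit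 78) (nat_lit 0) (nat_lit 0) (XT.lf (nat_lit 0) (nat_lit 30176783838) (nat_lit 76) (nat_lit 39983124626) (nat_lit 76) (nat_lit 24948406806) (nat_lit 4) (nat_lit 4) (nat_lit 5) (nat_lit 5) (nat_lit 5) (nat_lit 4) (nat_lit 407) (nat_lit 230) (nat_lit 143)) (XT.lf (nat_lit 0) (nat_lit 37409048042) (nat_lit 76) (nat_lit 37760347678) (nat_lit 76) (nat_lit 22689400346) (nat_lit 4) (nat_lit 4) (nat_lit 5) (nat_lit 5) (nat_lit 5) (nat_lit 4) (nat_lit 408) (nat_lit 230) (nat_lit 142))) (XT.nd (nat_lit 33540) (nat_lit 0) (nat_lit 4408) (XT.lf (nat_lit 0) (nat_lit 44834160262) (nat_lit 76) (nat_lit 35482072208) (nat_lit 76) (nat_lit 20375950594) (nat_lit 4) (nat_lit 4) (nat_lit 5) (nat_lit 5) (nat_lit 5) (nat_lit 4) (nat_lit 409) (nat_lit 230) (nat_lit 141)) (XT.lf (nat_lit 0) (nat_lit 1104360266) (nat_lit 228) (nat_lit 2161798032) (nat_lit 228) (nat_lit 2161798032) (nat_lit 62) (nat_lit 4) (nat_lit 65) (nat_lit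 5) (nat_lit 65) (nat_lit 4) (nat_lit 318) (nat_lit 231) (nat_lit 231))))))) (XT.nd (nat_lit 1014) (nat_lit 1292) (nat_lit 0) (XT.nd (nat_lit 468) (nat_lit 684) (nat_lit 0) (XT.nd (nat_lit 234) (nat_lit 456) (nat_lit 0) (XT.nd (nat_lit 78) (nat_lit 532) (nat_lit 0) (XT.lf (nat_lit 0) (nat_lit 9513279084) (nat_lit 228) (nat_lit 1121159658) (nat_lit 228) (nat_lit 403989572) (nat_lit 62) (nat_lit 4) (nat_lit 65) (nat_lit 5) (nat_lit 65) (nat_lit 4) (nat_lit 319) (nat_lit 231) (nat_lit 230)) (XT.nd (nat_lit 78) (nat_lit 228) (nat_lit 0) (XT.lf (nat_lit 0) (nat_lit 3548164791) (nat_lit 304) (nat_lit 5501821243) (nat_lit 0) (nat_lit 2175881565) (nat_lit 58) (nat_lit 5) (nat_lit 62) (nat_lit 4) (nat_lit 58) (nat_lit 4) (nat_lit 320) (nat_lit 231) (nat_lit 229)) (XT.lf (nat_lit 0) (nat_lit 1678402299) (nat_lit 228) (nat_lit 5885243141) (nat_lit 228) (nat_lit 3856647693) (nat_lit 55) (nat_lit 4) (nat_lit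 58) (nat_lit 5) (nat_lit 58) (nat_lit 4) (nat_lit 321) (nat_lit 231) (nat_lit 228)))) (XT.nd (nat_lit 78) (nat_lit 380) (nat_lit 0) (XT.lf (nat_lit 0) (nat_lit 44015315) (nat_lit 304) (nat_lit 2576440689) (nat_lit 76) (nat_lit 9001142601) (nat_lit 54) (nat_lit 5) (nat_lit 58) (nat_lit 5) (nat_lit 55) (nat_lit 4) (nat_lit 322) (nat_lit 231) (nat_lit 227)) (XT.nd (nat_lit 78) (nat_lit 228) (nat_lit 0) (XT.lf (nat_lit 0) (nat_lit 3950028772) (nat_lit 228) (nat_lit 7117594426) (nat_lit 0) (nat_lit 761262756) (nat_lit 52) (nat_lit 5) (nat_lit 55) (nat_lit 4) (nat_lit 52) (nat_lit 4) (nat_lit 323) (nat_lit 231) (nat_lit 226)) (XT.lf (nat_lit 0) (nat_lit 64240329) (nat_lit 228) (nat_lit 7875553571) (nat_lit 228) (nat_lit 4103662647) (nat_lit 49) (nat_lit 4) (nat_lit 52) (nat_lit 5) (nat_lit 52) (nat_lit 4) (nat_lit 324) (nat_lit 231) (nat_lit 225))))) (XT.nd (nat_lit 234) (nat_lit 456) (nat_lit 0) (XT.nd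 (nat_lit 78) (nat_lit 228) (nat_lit 0) (XT.lf (nat_lit 0) (nat_lit 7469133807) (nat_lit 228) (nat_lit 4566909147) (nat_lit 228) (nat_lit 228877535) (nat_lit 49) (nat_lit 4) (nat_lit 52) (nat_lit 5) (nat_lit 52) (nat_lit 4) (nat_lit 325) (nat_lit 231) (nat_lit 224)) (XT.nd (nat_lit 78) (nat_lit 0) (nat_lit 0) (XT.lf (nat_lit 0) (nat_lit 2479373345) (nat_lit 152) (nat_lit 1149718334) (nat_lit 228) (nat_lit 8864697658) (nat_lit 46) (nat_lit 5) (nat_lit 48) (nat_lit 5) (nat_lit 49) (nat_lit 4) (nat_lit 326) (nat_lit 231) (nat_lit 223)) (XT.lf (nat_lit 0) (nat_lit 7587043650) (nat_lit 228) (nat_lit 2819180526) (nat_lit 0) (nat_lit 2323621648) (nat_lit 46) (nat_lit 5) (nat_lit 49) (nat_lit 4) (nat_lit 46) (nat_lit 4) (nat_lit 327) (nat_lit 231) (nat_lit 222)))) (XT.nd (nat_lit 156) (nat_lit 152) (nat_lit 0) (XT.nd (nat_lit 78) (nat_lit 76) (nat_lit 0) (XT.lf (nat_lit 0) (nat_lit 4536351304) (nat_lit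 228) (nat_lit 7101939967) (nat_lit 228) (nat_lit 1335509296) (nat_lit 43) (nat_lit 4) (nat_lit 46) (nat_lit 5) (nat_lit 46) (nat_lit 4) (nat_lit 328) (nat_lit 231) (nat_lit 221)) (XT.lf (nat_lit 0) (nat_lit 2484101003) (nat_lit 304) (nat_lit 1212063564) (nat_lit 76) (nat_lit 9529757030) (nat_lit 42) (nat_lit 5) (nat_lit 46) (nat_lit 5) (nat_lit 43) (nat_lit 4) (nat_lit 329) (nat_lit 231) (nat_lit 220))) (XT.nd (nat_lit 78) (nat_lit 0) (nat_lit 0) (XT.lf (nat_lit 0) (nat_lit 6208849823) (nat_lit 152) (nat_lit 164437042) (nat_lit 228) (nat_lit 7112516571) (nat_lit 40) (nat_lit 5) (nat_lit 42) (nat_lit 5) (nat_lit 43) (nat_lit 4) (nat_lit 330) (nat_lit 231) (nat_lit 219)) (XT.lf (nat_lit 0) (nat_lit 10347589328) (nat_lit 228) (nat_lit 39148348) (nat_lit 0) (nat_lit 3367738159) (nat_lit 40) (nat_lit 5) (nat_lit 43) (nat_lit 4) (nat_lit 40) (nat_lit 4) (nat_lit 331) (nat_lit 231) (nat_lit 218))))))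 (XT.nd (nat_lit 546) (nat_lit 532) (nat_lit 0) (XT.nd (nat_lit 234) (nat_lit 380) (nat_lit 0) (XT.nd (nat_lit 78) (nat_lit 152) (nat_lit 0) (XT.lf (nat_lit 0) (nat_lit 399874911) (nat_lit 228) (nat_lit 6602004793) (nat_lit 76) (nat_lit 7029316268) (nat_lit 37) (nat_lit 5) (nat_lit 40) (nat_lit 5) (nat_lit 38) (nat_lit 4) (nat_lit 332) (nat_lit 231) (nat_lit 217)) (XT.nd (nat_lit 78) (nat_lit 0) (nat_lit 0) (XT.lf (nat_lit 0) (nat_lit 659021274) (nat_lit 152) (nat_lit 3525231917) (nat_lit 228) (nat_lit 10133039222) (nat_lit 35) (nat_lit 5) (nat_lit 37) (nat_lit 5) (nat_lit 38) (nat_lit 4) (nat_lit 333) (nat_lit 231) (nat_lit 216)) (XT.lf (nat_lit 0) (nat_lit 8075666715) (nat_lit 228) (nat_lit 6464763396) (nat_lit 0) (nat_lit 71778575) (nat_lit 35) (nat_lit 5) (nat_lit 38) (nat_lit 4) (nat_lit 35) (nat_lit 4) (nat_lit 334) (nat_lit 231) (nat_lit 215)))) (XT.nd (nat_lit 156) (nat_lit 152) (nat_lit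 0) (XT.nd (nat_lit 78) (nat_lit 76) (nat_lit 0) (XT.lf (nat_lit 0) (nat_lit 802184486) (nat_lit 152) (nat_lit 11252059280) (nat_lit 152) (nat_lit 2862656879) (nat_lit 33) (nat_lit 4) (nat_lit 35) (nat_lit 5) (nat_lit 35) (nat_lit 4) (nat_lit 335) (nat_lit 231) (nat_lit 214)) (XT.lf (nat_lit 0) (nat_lit 897385013) (nat_lit 228) (nat_lit 6941996513) (nat_lit 76) (nat_lit 7391306971) (nat_lit 32) (nat_lit 5) (nat_lit 35) (nat_lit 5) (nat_lit 33) (nat_lit 4) (nat_lit 336) (nat_lit 231) (nat_lit 213))) (XT.nd (nat_lit 78) (nat_lit 0) (nat_lit 0) (XT.lf (nat_lit 0) (nat_lit 303701618) (nat_lit 152) (nat_lit 4341999796) (nat_lit 228) (nat_lit 10909385346) (nat_lit 30) (nat_lit 5) (nat_lit 32) (nat_lit 5) (nat_lit 33) (nat_lit 4) (nat_lit 337) (nat_lit 231) (nat_lit 212)) (XT.lf (nat_lit 0) (nat_lit 7790462914) (nat_lit 152) (nat_lit 717091434) (nat_lit 228) (nat_lit 7381666291) (nat_lit 30) (nat_lit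 5) (nat_lit 32) (nat_lit 5) (nat_lit 33) (nat_lit 4) (nat_lit 338) (nat_lit 231) (nat_lit 211))))) (XT.nd (nat_lit 234) (nat_lit 304) (nat_lit 0) (XT.nd (nat_lit 78) (nat_lit 228) (nat_lit 0) (XT.lf (nat_lit 0) (nat_lit 12446793635) (nat_lit 228) (nat_lit 877288175) (nat_lit 0) (nat_lit 2910486022) (nat_lit 30) (nat_lit 5) (nat_lit 33) (nat_lit 4) (nat_lit 30) (nat_lit 4) (nat_lit 339) (nat_lit 231) (nat_lit 210)) (XT.nd (nat_lit 78) (nat_lit 76) (nat_lit 0) (XT.lf (nat_lit 0) (nat_lit 6568562413) (nat_lit 152) (nat_lit 9940387385) (nat_lit 152) (nat_lit 81217648) (nat_lit 28) (nat_lit 4) (nat_lit 30) (nat_lit 5) (nat_lit 30) (nat_lit 4) (nat_lit 340) (nat_lit 231) (nat_lit 209)) (XT.lf (nat_lit 0) (nat_lit 3607223800) (nat_lit 228) (nat_lit 2849963794) (nat_lit 76) (nat_lit 10499894106) (nat_lit 27) (nat_lit 5) (nat_lit 30) (nat_lit 5) (nat_lit 28) (nat_lit 4) (nat_lit 341) (nat_lit 231) (nat_lit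 208)))) (XT.nd (nat_lit 156) (nat_lit 228) (nat_lit 0) (XT.nd (nat_lit 78) (nat_lit 0) (nat_lit 0) (XT.lf (nat_lit 0) (nat_lit 4513850630) (nat_lit 76) (nat_lit 2870783486) (nat_lit 152) (nat_lit 9950977995) (nat_lit 26) (nat_lit 5) (nat_lit 27) (nat_lit 5) (nat_lit 28) (nat_lit 4) (nat_lit 342) (nat_lit 231) (nat_lit 207)) (XT.lf (nat_lit 0) (nat_lit 11249253202) (nat_lit 152) (nat_lit 5686467183) (nat_lit 0) (nat_lit 790591837) (nat_lit 26) (nat_lit 5) (nat_lit 28) (nat_lit 4) (nat_lit 26) (nat_lit 4) (nat_lit 343) (nat_lit 231) (nat_lit 206))) (XT.nd (nat_lit 78) (nat_lit 76) (nat_lit 0) (XT.lf (nat_lit 0) (nat_lit 1557441100) (nat_lit 152) (nat_lit 13654511278) (nat_lit 152) (nat_lit 2917346210) (nat_lit 24) (nat_lit 4) (nat_lit 26) (nat_lit 5) (nat_lit 26) (nat_lit 4) (nat_lit 344) (nat_lit 231) (nat_lit 205)) (XT.lf (nat_lit 0) (nat_lit 731411437) (nat_lit 228) (nat_lit 9522791795) (nat_lit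 76) (nat_lit 8290076909) (nat_lit 23) (nat_lit 5) (nat_lit 26) (nat_lit 5) (nat_lit 24) (nat_lit 4) (nat_lit 345) (nat_lit 231) (nat_lit 204))))))))
noncomputable def xc40 : XT := (XT.nd (nat_lit 2028) (nat_lit 456) (nat_lit 0) (XT.nd (nat_lit 1014) (nat_lit 304) (nat_lit 0) (XT.nd (nat_lit 468) (nat_lit 304) (nat_lit 0) (XT.nd (nat_lit 234) (nat_lit 228) (nat_lit 0) (XT.nd (nat_lit 78) (nat_lit 76) (nat_lit 0) (XT.lf (nat_lit 0) (nat_lit 4371657713) (nat_lit 228) (nat_lit 2395608308) (nat_lit 76) (nat_lit 12205385726) (nat_lit 23) (nat_lit 5) (nat_lit 26) (nat_lit 5) (nat_lit 24) (nat_lit 4) (nat_lit 346) (nat_lit 231) (nat_lit 203)) (XT.nd (nat_lit 78) (nat_lit 0) (nat_lit 0) (XT.lf (nat_lit 0) (nat_lit 4940368305) (nat_lit 76) (nat_lit 3170622883) (nat_lit 152) (nat_lit 11303213126) (nat_lit 22) (nat_lit 5) (nat_lit 23) (nat_lit 5) (nat_lit 24) (nat_lit 4) (nat_lit 347) (nat_lit 231) (nat_lit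 202)) (XT.lf (nat_lit 0) (nat_lit 11934751521) (nat_lit 152) (nat_lit 7429864030) (nat_lit 0) (nat_lit 505245946) (nat_lit 22) (nat_lit 5) (nat_lit 24) (nat_lit 4) (nat_lit 22) (nat_lit 4) (nat_lit 348) (nat_lit 231) (nat_lit 201)))) (XT.nd (nat_lit 78) (nat_lit 228) (nat_lit 0) (XT.lf (nat_lit 0) (nat_lit 15848970397) (nat_lit 152) (nat_lit 304747977) (nat_lit 0) (nat_lit 4186222354) (nat_lit 22) (nat_lit 5) (nat_lit 24) (nat_lit 4) (nat_lit 22) (nat_lit 4) (nat_lit 349) (nat_lit 231) (nat_lit 200)) (XT.nd (nat_lit 78) (nat_lit 76) (nat_lit 0) (XT.lf (nat_lit 0) (nat_lit 7076300047) (nat_lit 152) (nat_lit 12818311717) (nat_lit 152) (nat_lit 929114677) (nat_lit 20) (nat_lit 4) (nat_lit 22) (nat_lit 5) (nat_lit 22) (nat_lit 4) (nat_lit 350) (nat_lit 231) (nat_lit 199)) (XT.lf (nat_lit 0) (nat_lit 2635328779) (nat_lit 228) (nat_lit 6759333013) (nat_lit 76) (nat_lit 11928120755) (nat_lit 19) (nat_lit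 5) (nat_lit 22) (nat_lit 5) (nat_lit 20) (nat_lit 4) (nat_lit 351) (nat_lit 231) (nat_lit 198))))) (XT.nd (nat_lit 234) (nat_lit 228) (nat_lit 0) (XT.nd (nat_lit 78) (nat_lit 0) (nat_lit 0) (XT.lf (nat_lit 0) (nat_lit 342626782) (nat_lit 76) (nat_lit 5896352093) (nat_lit 152) (nat_lit 15599049006) (nat_lit 18) (nat_lit 5) (nat_lit 19) (nat_lit 5) (nat_lit 20) (nat_lit 4) (nat_lit 352) (nat_lit 231) (nat_lit 197)) (XT.nd (nat_lit 78) (nat_lit 0) (nat_lit 0) (XT.lf (nat_lit 0) (nat_lit 7703856302) (nat_lit 76) (nat_lit 2263429189) (nat_lit 152) (nat_lit 12400969983) (nat_lit 18) (nat_lit 5) (nat_lit 19) (nat_lit 5) (nat_lit 20) (nat_lit 4) (nat_lit 353) (nat_lit 231) (nat_lit 196)) (XT.lf (nat_lit 0) (nat_lit 13771071193) (nat_lit 152) (nat_lit 7733485754) (nat_lit 0) (nat_lit 1410944739) (nat_lit 18) (nat_lit 5) (nat_lit 20) (nat_lit 4) (nat_lit 18) (nat_lit 4) (nat_lit 354) (nat_lit 231) (nat_lit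 195)))) (XT.nd (nat_lit 156) (nat_lit 76) (nat_lit 0) (XT.nd (nat_lit 78) (nat_lit 152) (nat_lit 0) (XT.lf (nat_lit 0) (nat_lit 17662271742) (nat_lit 152) (nat_lit 705216774) (nat_lit 0) (nat_lit 5112497817) (nat_lit 18) (nat_lit 5) (nat_lit 20) (nat_lit 4) (nat_lit 18) (nat_lit 4) (nat_lit 355) (nat_lit 231) (nat_lit 194)) (XT.lf (nat_lit 0) (nat_lit 6576640381) (nat_lit 152) (nat_lit 15109108059) (nat_lit 152) (nat_lit 2375210377) (nat_lit 16) (nat_lit 4) (nat_lit 18) (nat_lit 5) (nat_lit 18) (nat_lit 4) (nat_lit 356) (nat_lit 231) (nat_lit 193))) (XT.nd (nat_lit 78) (nat_lit 0) (nat_lit 0) (XT.lf (nat_lit 0) (nat_lit 1107329241) (nat_lit 228) (nat_lit 10664780251) (nat_lit 76) (nat_lit 12888143729) (nat_lit 15) (nat_lit 5) (nat_lit 18) (nat_lit 5) (nat_lit 16) (nat_lit 4) (nat_lit 357) (nat_lit 231) (nat_lit 192)) (XT.lf (nat_lit 0) (nat_lit 4600402254) (nat_lit 228) (nat_lit 3747396335) (nat_lit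 76) (nat_lit 16930426309) (nat_lit 15) (nat_lit 5) (nat_lit 18) (nat_lit 5) (nat_lit 16) (nat_lit 4) (nat_lit 358) (nat_lit 231) (nat_lit 191)))))) (XT.nd (nat_lit 468) (nat_lit 152) (nat_lit 0) (XT.nd (nat_lit 234) (nat_lit 76) (nat_lit 0) (XT.nd (nat_lit 78) (nat_lit 0) (nat_lit 0) (XT.lf (nat_lit 0) (nat_lit 3362320584) (nat_lit 76) (nat_lit 4823409867) (nat_lit 152) (nat_lit 17729398711) (nat_lit 14) (nat_lit 5) (nat_lit 15) (nat_lit 5) (nat_lit 16) (nat_lit 4) (nat_lit 359) (nat_lit 231) (nat_lit 190)) (XT.nd (nat_lit 78) (nat_lit 0) (nat_lit 0) (XT.lf (nat_lit 0) (nat_lit 10682139619) (nat_lit 76) (nat_lit 1189999999) (nat_lit 152) (nat_lit 14699212124) (nat_lit 14) (nat_lit 5) (nat_lit 15) (nat_lit 5) (nat_lit 16) (nat_lit 4) (nat_lit 360) (nat_lit 231) (nat_lit 189)) (XT.lf (nat_lit 0) (nat_lit 15650314001) (nat_lit 152) (nat_lit 9128894315) (nat_lit 0) (nat_lit 2468633828) (nat_lit 14)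 (nat_lit 5) (nat_lit 16) (nat_lit 4) (nat_lit 14) (nat_lit 4) (nat_lit 361) (nat_lit 231) (nat_lit 188)))) (XT.nd (nat_lit 78) (nat_lit 76) (nat_lit 0) (XT.lf (nat_lit 0) (nat_lit 19511516369) (nat_lit 152) (nat_lit 2253909530) (nat_lit 0) (nat_lit 6180126731) (nat_lit 14) (nat_lit 5) (nat_lit 16) (nat_lit 4) (nat_lit 14) (nat_lit 4) (nat_lit 362) (nat_lit 231) (nat_lit 187)) (XT.nd (nat_lit 78) (nat_lit 0) (nat_lit 0) (XT.lf (nat_lit 0) (nat_lit 4847786278) (nat_lit 76) (nat_lit 18646495191) (nat_lit 76) (nat_lit 5169756558) (nat_lit 13) (nat_lit 4) (nat_lit 14) (nat_lit 5) (nat_lit 14) (nat_lit 4) (nat_lit 363) (nat_lit 231) (nat_lit 186)) (XT.lf (nat_lit 0) (nat_lit 12135326431) (nat_lit 76) (nat_lit 15443574755) (nat_lit 76) (nat_lit 1825720594) (nat_lit 13) (nat_lit 4) (nat_lit 14) (nat_lit 5) (nat_lit 14) (nat_lit 4) (nat_lit 364) (nat_lit 231) (nat_lit 185))))) (XT.nd (nat_lit 234) (nat_lit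 0) (nat_lit 0) (XT.nd (nat_lit 78) (nat_lit 76) (nat_lit 0) (XT.lf (nat_lit 0) (nat_lit 1547436515) (nat_lit 152) (nat_lit 10613563402) (nat_lit 76) (nat_lit 18007158873) (nat_lit 12) (nat_lit 5) (nat_lit 14) (nat_lit 5) (nat_lit 13) (nat_lit 4) (nat_lit 365) (nat_lit 231) (nat_lit 184)) (XT.nd (nat_lit 78) (nat_lit 76) (nat_lit 0) (XT.lf (nat_lit 0) (nat_lit 4946632477) (nat_lit 152) (nat_lit 3846210519) (nat_lit 76) (nat_lit 22162384119) (nat_lit 12) (nat_lit 5) (nat_lit 14) (nat_lit 5) (nat_lit 13) (nat_lit 4) (nat_lit 366) (nat_lit 231) (nat_lit 183)) (XT.lf (nat_lit 0) (nat_lit 3117051361) (nat_lit 76) (nat_lit 5323375490) (nat_lit 152) (nat_lit 23325715242) (nat_lit 11) (nat_lit 5) (nat_lit 12) (nat_lit 5) (nat_lit 13) (nat_lit 4) (nat_lit 367) (nat_lit 231) (nat_lit 182)))) (XT.nd (nat_lit 156) (nat_lit 0) (nat_lit 0) (XT.nd (nat_lit 78) (nat_lit 0) (nat_lit 0) (XT.lf (nat_lit 0) (nat_lit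 10300784200) (nat_lit 76) (nat_lit 1740190513) (nat_lit 152) (nat_lit 20560364512) (nat_lit 11) (nat_lit 5) (nat_lit 12) (nat_lit 5) (nat_lit 13) (nat_lit 4) (nat_lit 368) (nat_lit 231) (nat_lit 181)) (XT.lf (nat_lit 0) (nat_lit 15732180087) (nat_lit 152) (nat_lit 15846427479) (nat_lit 0) (nat_lit 1883517987) (nat_lit 11) (nat_lit 5) (nat_lit 13) (nat_lit 4) (nat_lit 11) (nat_lit 4) (nat_lit 369) (nat_lit 231) (nat_lit 180))) (XT.nd (nat_lit 78) (nat_lit 0) (nat_lit 0) (XT.lf (nat_lit 0) (nat_lit 19516294701) (nat_lit 152) (nat_lit 9280094968) (nat_lit 0) (nat_lit 5552892763) (nat_lit 11) (nat_lit 5) (nat_lit 13) (nat_lit 4) (nat_lit 11) (nat_lit 4) (nat_lit 370) (nat_lit 231) (nat_lit 179)) (XT.lf (nat_lit 0) (nat_lit 23379897287) (nat_lit 152) (nat_lit 2579092145) (nat_lit 0) (nat_lit 9305097448) (nat_lit 11) (nat_lit 5) (nat_lit 13) (nat_lit 4) (nat_lit 11) (nat_lit 4) (nat_lit 371) (nat_lit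 231) (nat_lit 178))))))) (XT.nd (nat_lit 1014) (nat_lit 152) (nat_lit 0) (XT.nd (nat_lit 468) (nat_lit 76) (nat_lit 0) (XT.nd (nat_lit 234) (nat_lit 152) (nat_lit 0) (XT.nd (nat_lit 78) (nat_lit 0) (nat_lit 0) (XT.lf (nat_lit 0) (nat_lit 4347267074) (nat_lit 76) (nat_lit 23020885325) (nat_lit 76) (nat_lit 8837932183) (nat_lit 10) (nat_lit 4) (nat_lit 11) (nat_lit 5) (nat_lit 11) (nat_lit 4) (nat_lit 372) (nat_lit 231) (nat_lit 177)) (XT.nd (nat_lit 78) (nat_lit 0) (nat_lit 0) (XT.lf (nat_lit 0) (nat_lit 11474374585) (nat_lit 76) (nat_lit 19995066758) (nat_lit 76) (nat_lit 5707110409) (nat_lit 10) (nat_lit 4) (nat_lit 11) (nat_lit 5) (nat_lit 11) (nat_lit 4) (nat_lit 373) (nat_lit 231) (nat_lit 176)) (XT.lf (nat_lit 0) (nat_lit 18757128967) (nat_lit 76) (nat_lit 16904933584) (nat_lit 76) (nat_lit 2515032375) (nat_lit 10) (nat_lit 4) (nat_lit 11) (nat_lit 5) (nat_lit 11) (nat_lit 4) (nat_lit 374)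 (nat_lit 231) (nat_lit 175)))) (XT.nd (nat_lit 78) (nat_lit 76) (nat_lit 0) (XT.lf (nat_lit 0) (nat_lit 726629755) (nat_lit 152) (nat_lit 13013818396) (nat_lit 76) (nat_lit 25467926500) (nat_lit 9) (nat_lit 5) (nat_lit 11) (nat_lit 5) (nat_lit 10) (nat_lit 4) (nat_lit 375) (nat_lit 231) (nat_lit 174)) (XT.nd (nat_lit 78) (nat_lit 76) (nat_lit 0) (XT.lf (nat_lit 0) (nat_lit 3984799881) (nat_lit 152) (nat_lit 6495825850) (nat_lit 76) (nat_lit 29790135645) (nat_lit 9) (nat_lit 5) (nat_lit 11) (nat_lit 5) (nat_lit 10) (nat_lit 4) (nat_lit 376) (nat_lit 231) (nat_lit 173)) (XT.lf (nat_lit 0) (nat_lit 167144636) (nat_lit 76) (nat_lit 7145864346) (nat_lit 152) (nat_lit 34052851498) (nat_lit 8) (nat_lit 5) (nat_lit 9) (nat_lit 5) (nat_lit 10) (nat_lit 4) (nat_lit 377) (nat_lit 231) (nat_lit 172))))) (XT.nd (nat_lit 234) (nat_lit 76) (nat_lit 0) (XT.nd (nat_lit 78) (nat_lit 0) (nat_lit 0) (XT.lf (nat_lit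 0) (nat_lit 7109866549) (nat_lit 76) (nat_lit 3667821547) (nat_lit 152) (nat_lit 31715035063) (nat_lit 8) (nat_lit 5) (nat_lit 9) (nat_lit 5) (nat_lit 10) (nat_lit 4) (nat_lit 378) (nat_lit 231) (nat_lit 171)) (XT.nd (nat_lit 78) (nat_lit 0) (nat_lit 0) (XT.lf (nat_lit 0) (nat_lit 14209126673) (nat_lit 76) (nat_lit 109053371) (nat_lit 152) (nat_lit 29336064541) (nat_lit 8) (nat_lit 5) (nat_lit 9) (nat_lit 5) (nat_lit 10) (nat_lit 4) (nat_lit 379) (nat_lit 231) (nat_lit 170)) (XT.lf (nat_lit 0) (nat_lit 17971545105) (nat_lit 152) (nat_lit 23414278081) (nat_lit 0) (nat_lit 3464597499) (nat_lit 8) (nat_lit 5) (nat_lit 10) (nat_lit 4) (nat_lit 8) (nat_lit 4) (nat_lit 380) (nat_lit 231) (nat_lit 169)))) (XT.nd (nat_lit 156) (nat_lit 76) (nat_lit 0) (XT.nd (nat_lit 78) (nat_lit 0) (nat_lit 0) (XT.lf (nat_lit 0) (nat_lit 21708863971) (nat_lit 152) (nat_lit 17252955882) (nat_lit 0) (nat_lit 7121440151)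 (nat_lit 8) (nat_lit 5) (nat_lit 10) (nat_lit 4) (nat_lit 8) (nat_lit 4) (nat_lit 381) (nat_lit 231) (nat_lit 168)) (XT.lf (nat_lit 0) (nat_lit 25532353974) (nat_lit 152) (nat_lit 10954719350) (nat_lit 0) (nat_lit 10866797907) (nat_lit 8) (nat_lit 5) (nat_lit 10) (nat_lit 4) (nat_lit 8) (nat_lit 4) (nat_lit 382) (nat_lit 231) (nat_lit 167))) (XT.nd (nat_lit 78) (nat_lit 76) (nat_lit 0) (XT.lf (nat_lit 0) (nat_lit 29445356028) (nat_lit 152) (nat_lit 4514065170) (nat_lit 0) (nat_lit 14703943411) (nat_lit 8) (nat_lit 5) (nat_lit 10) (nat_lit 4) (nat_lit 8) (nat_lit 4) (nat_lit 383) (nat_lit 231) (nat_lit 166)) (XT.lf (nat_lit 0) (nat_lit 2115923705) (nat_lit 76) (nat_lit 31355705109) (nat_lit 76) (nat_lit 16540645355) (nat_lit 7) (nat_lit 4) (nat_lit 8) (nat_lit 5) (nat_lit 8) (nat_lit 4) (nat_lit 384) (nat_lit 231) (nat_lit 165)))))) (XT.nd (nat_lit 546) (nat_lit 76) (nat_lit 0) (XT.nd (nat_lit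 234) (nat_lit 76) (nat_lit 0) (XT.nd (nat_lit 78) (nat_lit 0) (nat_lit 0) (XT.lf (nat_lit 0) (nat_lit 8992614820) (nat_lit 76) (nat_lit 28647481697) (nat_lit 76) (nat_lit 13760919869) (nat_lit 7) (nat_lit 4) (nat_lit 8) (nat_lit 5) (nat_lit 8) (nat_lit 4) (nat_lit 385) (nat_lit 231) (nat_lit 164)) (XT.nd (nat_lit 78) (nat_lit 0) (nat_lit 0) (XT.lf (nat_lit 0) (nat_lit 16032178185) (nat_lit 76) (nat_lit 25877967761) (nat_lit 76) (nat_lit 10921986444) (nat_lit 7) (nat_lit 4) (nat_lit 8) (nat_lit 5) (nat_lit 8) (nat_lit 4) (nat_lit 386) (nat_lit 231) (nat_lit 163)) (XT.lf (nat_lit 0) (nat_lit 23240764876) (nat_lit 76) (nat_lit 23044743338) (nat_lit 76) (nat_lit 8021364459) (nat_lit 7) (nat_lit 4) (nat_lit 8) (nat_lit 5) (nat_lit 8) (nat_lit 4) (nat_lit 387) (nat_lit 231) (nat_lit 162)))) (XT.nd (nat_lit 156) (nat_lit 76) (nat_lit 0) (XT.nd (nat_lit 78) (nat_lit 0) (nat_lit 0) (XT.lf (nat_lit 0) (nat_lit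 30624673657) (nat_lit 76) (nat_lit 20145332796) (nat_lit 76) (nat_lit 5056519390) (nat_lit 7) (nat_lit 4) (nat_lit 8) (nat_lit 5) (nat_lit 8) (nat_lit 4) (nat_lit 388) (nat_lit 231) (nat_lit 161)) (XT.lf (nat_lit 0) (nat_lit 38190356488) (nat_lit 76) (nat_lit 17177202667) (nat_lit 76) (nat_lit 2024860594) (nat_lit 7) (nat_lit 4) (nat_lit 8) (nat_lit 5) (nat_lit 8) (nat_lit 4) (nat_lit 389) (nat_lit 231) (nat_lit 160))) (XT.nd (nat_lit 78) (nat_lit 0) (nat_lit 0) (XT.lf (nat_lit 0) (nat_lit 1055259220) (nat_lit 152) (nat_lit 13071844171) (nat_lit 76) (nat_lit 44878508889) (nat_lit 6) (nat_lit 5) (nat_lit 8) (nat_lit 5) (nat_lit 7) (nat_lit 4) (nat_lit 390) (nat_lit 231) (nat_lit 159)) (XT.lf (nat_lit 0) (nat_lit 4166630833) (nat_lit 152) (nat_lit 6815641658) (nat_lit 76) (nat_lit 49684946434) (nat_lit 6) (nat_lit 5) (nat_lit 8) (nat_lit 5) (nat_lit 7) (nat_lit 4) (nat_lit 391) (nat_lit 231) (nat_lit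 158))))) (XT.nd (nat_lit 234) (nat_lit 0) (nat_lit 0) (XT.nd (nat_lit 78) (nat_lit 76) (nat_lit 0) (XT.lf (nat_lit 0) (nat_lit 7351485242) (nat_lit 152) (nat_lit 408524938) (nat_lit 76) (nat_lit 54619265317) (nat_lit 6) (nat_lit 5) (nat_lit 8) (nat_lit 5) (nat_lit 7) (nat_lit 4) (nat_lit 392) (nat_lit 231) (nat_lit 157)) (XT.nd (nat_lit 78) (nat_lit 0) (nat_lit 0) (XT.lf (nat_lit 0) (nat_lit 6277603085) (nat_lit 76) (nat_lit 4395346403) (nat_lit 152) (nat_lit 53468518156) (nat_lit 5) (nat_lit 5) (nat_lit 6) (nat_lit 5) (nat_lit 7) (nat_lit 4) (nat_lit 393) (nat_lit 231) (nat_lit 156)) (XT.lf (nat_lit 0) (nat_lit 13137338476) (nat_lit 76) (nat_lit 941786272) (nat_lit 152) (nat_lit 51877854431) (nat_lit 5) (nat_lit 5) (nat_lit 6) (nat_lit 5) (nat_lit 7) (nat_lit 4) (nat_lit 394) (nat_lit 231) (nat_lit 155)))) (XT.nd (nat_lit 156) (nat_lit 0) (nat_lit 0) (XT.nd (nat_lit 78) (nat_lit 0) (nat_lit 0)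 (XT.lf (nat_lit 0) (nat_lit 17593970729) (nat_lit 152) (nat_lit 47683960481) (nat_lit 0) (nat_lit 2548835756) (nat_lit 5) (nat_lit 5) (nat_lit 7) (nat_lit 4) (nat_lit 5) (nat_lit 4) (nat_lit 395) (nat_lit 231) (nat_lit 154)) (XT.lf (nat_lit 0) (nat_lit 21205474884) (nat_lit 152) (nat_lit 42437252636) (nat_lit 0) (nat_lit 6110189795) (nat_lit 5) (nat_lit 5) (nat_lit 7) (nat_lit 4) (nat_lit 5) (nat_lit 4) (nat_lit 396) (nat_lit 231) (nat_lit 153))) (XT.nd (nat_lit 78) (nat_lit 0) (nat_lit 0) (XT.lf (nat_lit 0) (nat_lit 24907739872) (nat_lit 152) (nat_lit 37065879638) (nat_lit 0) (nat_lit 9763765349) (nat_lit 5) (nat_lit 5) (nat_lit 7) (nat_lit 4) (nat_lit 5) (nat_lit 4) (nat_lit 397) (nat_lit 231) (nat_lit 152)) (XT.lf (nat_lit 0) (nat_lit 28704000680) (nat_lit 152) (nat_lit 31565148056) (nat_lit 0) (nat_lit 13512754864) (nat_lit 5) (nat_lit 5) (nat_lit 7) (nat_lit 4) (nat_lit 5) (nat_lit 4) (nat_lit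 398) (nat_lit 231) (nat_lit 151))))))))
noncomputable def xc41 : XT := (XT.nd (nat_lit 35412) (nat_lit 0) (nat_lit 836) (XT.nd (nat_lit 34398) (nat_lit 0) (nat_lit 2736) (XT.nd (nat_lit 468) (nat_lit 0) (nat_lit 0) (XT.nd (nat_lit 234) (nat_lit 76) (nat_lit 0) (XT.nd (nat_lit 78) (nat_lit 0) (nat_lit 0) (XT.lf (nat_lit 0) (nat_lit 32597574432) (nat_lit 152) (nat_lit 25930251425) (nat_lit 0) (nat_lit 17360434155) (nat_lit 5) (nat_lit 5) (nat_lit 7) (nat_lit 4) (nat_lit 5) (nat_lit 4) (nat_lit 399) (nat_lit 231) (nat_lit 150)) (XT.nd (nat_lit 78) (nat_lit 0) (nat_lit 0) (XT.lf (nat_lit 0) (nat_lit 36591863277) (nat_lit 152) (nat_lit 20156266049) (nat_lit 0) (nat_lit 21310165272) (nat_lit 5) (nat_lit 5) (nat_lit 7) (nat_lit 4) (nat_lit 5) (nat_lit 4) (nat_lit 400) (nat_lit 231) (nat_lit 149)) (XT.lf (nat_lit 0) (nat_lit 40690357372) (nat_lit 152) (nat_lit 14238146698) (nat_lit 0) (nat_lit 25365399436)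 (nat_lit 5) (nat_lit 5) (nat_lit 7) (nat_lit 4) (nat_lit 5) (nat_lit 4) (nat_lit 401) (nat_lit 231) (nat_lit 148)))) (XT.nd (nat_lit 78) (nat_lit 76) (nat_lit 0) (XT.lf (nat_lit 0) (nat_lit 44896637925) (nat_lit 152) (nat_lit 8170722200) (nat_lit 0) (nat_lit 29529680056) (nat_lit 5) (nat_lit 5) (nat_lit 7) (nat_lit 4) (nat_lit 5) (nat_lit 4) (nat_lit 402) (nat_lit 231) (nat_lit 147)) (XT.nd (nat_lit 78) (nat_lit 76) (nat_lit 0) (XT.lf (nat_lit 0) (nat_lit 49214380326) (nat_lit 152) (nat_lit 1948690921) (nat_lit 0) (nat_lit 33806645824) (nat_lit 5) (nat_lit 5) (nat_lit 7) (nat_lit 4) (nat_lit 5) (nat_lit 4) (nat_lit 403) (nat_lit 231) (nat_lit 146)) (XT.lf (nat_lit 0) (nat_lit 4521616895) (nat_lit 76) (nat_lit 49169205013) (nat_lit 76) (nat_lit 33721881546) (nat_lit 4) (nat_lit 4) (nat_lit 5) (nat_lit 5) (nat_lit 5) (nat_lit 4) (nat_lit 404) (nat_lit 231) (nat_lit 145))))) (XT.nd (nat_lit 234)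 (nat_lit 0) (nat_lit 0) (XT.nd (nat_lit 78) (nat_lit 0) (nat_lit 0) (XT.lf (nat_lit 0) (nat_lit 11199623723) (nat_lit 76) (nat_lit 47107476414) (nat_lit 76) (nat_lit 31621717059) (nat_lit 4) (nat_lit 4) (nat_lit 5) (nat_lit 5) (nat_lit 5) (nat_lit 4) (nat_lit 405) (nat_lit 231) (nat_lit 144)) (XT.nd (nat_lit 78) (nat_lit 0) (nat_lit 0) (XT.lf (nat_lit 0) (nat_lit 18052381944) (nat_lit 76) (nat_lit 44995761899) (nat_lit 76) (nat_lit 29472686148) (nat_lit 4) (nat_lit 4) (nat_lit 5) (nat_lit 5) (nat_lit 5) (nat_lit 4) (nat_lit 406) (nat_lit 231) (nat_lit 143)) (XT.lf (nat_lit 0) (nat_lit 25085879405) (nat_lit 76) (nat_lit 42832216279) (nat_lit 76) (nat_lit 27272911017) (nat_lit 4) (nat_lit 4) (nat_lit 5) (nat_lit 5) (nat_lit 5) (nat_lit 4) (nat_lit 407) (nat_lit 231) (nat_lit 142)))) (XT.nd (nat_lit 33540) (nat_lit 0) (nat_lit 4408) (XT.nd (nat_lit 33462) (nat_lit 0) (nat_lit 4940) (XT.lf (nat_lit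 0) (nat_lit 32306261880) (nat_lit 76) (nat_lit 40614949078) (nat_lit 76) (nat_lit 25020469533) (nat_lit 4) (nat_lit 4) (nat_lit 5) (nat_lit 5) (nat_lit 5) (nat_lit 4) (nat_lit 408) (nat_lit 231) (nat_lit 141)) (XT.lf (nat_lit 0) (nat_lit 4577079998) (nat_lit 304) (nat_lit 338770733) (nat_lit 304) (nat_lit 338770733) (nat_lit 69) (nat_lit 4) (nat_lit 73) (nat_lit 5) (nat_lit 73) (nat_lit 4) (nat_lit 316) (nat_lit 232) (nat_lit 232))) (XT.nd (nat_lit 78) (nat_lit 228) (nat_lit 0) (XT.lf (nat_lit 0) (nat_lit 3246893627) (nat_lit 304) (nat_lit 4924928637) (nat_lit 0) (nat_lit 2508208439) (nat_lit 65) (nat_lit 5) (nat_lit 69) (nat_lit 4) (nat_lit 65) (nat_lit 4) (nat_lit 317) (nat_lit 232) (nat_lit 231)) (XT.lf (nat_lit 0) (nat_lit 2137756837) (nat_lit 228) (nat_lit 5087707323) (nat_lit 228) (nat_lit 3631852049) (nat_lit 62) (nat_lit 4) (nat_lit 65) (nat_lit 5) (nat_lit 65) (nat_lit 4) (nat_lit 318)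 (nat_lit 232) (nat_lit 230)))))) (XT.nd (nat_lit 468) (nat_lit 912) (nat_lit 0) (XT.nd (nat_lit 234) (nat_lit 228) (nat_lit 0) (XT.nd (nat_lit 78) (nat_lit 456) (nat_lit 0) (XT.lf (nat_lit 0) (nat_lit 237454676) (nat_lit 304) (nat_lit 1670103918) (nat_lit 76) (nat_lit 9133566094) (nat_lit 61) (nat_lit 5) (nat_lit 65) (nat_lit 5) (nat_lit 62) (nat_lit 4) (nat_lit 319) (nat_lit 232) (nat_lit 229)) (XT.nd (nat_lit 78) (nat_lit 228) (nat_lit 0) (XT.lf (nat_lit 0) (nat_lit 4128442300) (nat_lit 304) (nat_lit 5718961148) (nat_lit 0) (nat_lit 1382676767) (nat_lit 58) (nat_lit 5) (nat_lit 62) (nat_lit 4) (nat_lit 58) (nat_lit 4) (nat_lit 320) (nat_lit 232) (nat_lit 228)) (XT.lf (nat_lit 0) (nat_lit 1387378270) (nat_lit 228) (nat_lit 6710748242) (nat_lit 228) (nat_lit 3327786376) (nat_lit 55) (nat_lit 4) (nat_lit 58) (nat_lit 5) (nat_lit 58) (nat_lit 4) (nat_lit 321) (nat_lit 232) (nat_lit 227)))) (XT.nd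 (nat_lit 78) (nat_lit 152) (nat_lit 0) (XT.lf (nat_lit 0) (nat_lit 519709493) (nat_lit 304) (nat_lit 2946588809) (nat_lit 76) (nat_lit 8162084297) (nat_lit 54) (nat_lit 5) (nat_lit 58) (nat_lit 5) (nat_lit 55) (nat_lit 4) (nat_lit 322) (nat_lit 232) (nat_lit 226)) (XT.nd (nat_lit 78) (nat_lit 0) (nat_lit 0) (XT.lf (nat_lit 0) (nat_lit 4273714190) (nat_lit 152) (nat_lit 98666069) (nat_lit 228) (nat_lit 7464920394) (nat_lit 52) (nat_lit 5) (nat_lit 54) (nat_lit 5) (nat_lit 55) (nat_lit 4) (nat_lit 323) (nat_lit 232) (nat_lit 225)) (XT.lf (nat_lit 0) (nat_lit 8319321624) (nat_lit 228) (nat_lit 448855498) (nat_lit 0) (nat_lit 3285008375) (nat_lit 52) (nat_lit 5) (nat_lit 55) (nat_lit 4) (nat_lit 52) (nat_lit 4) (nat_lit 324) (nat_lit 232) (nat_lit 224))))) (XT.nd (nat_lit 234) (nat_lit 456) (nat_lit 0) (XT.nd (nat_lit 78) (nat_lit 152) (nat_lit 0) (XT.lf (nat_lit 0) (nat_lit 92604296) (nat_lit 304)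 (nat_lit 5395977681) (nat_lit 76) (nat_lit 6787421678) (nat_lit 48) (nat_lit 5) (nat_lit 52) (nat_lit 5) (nat_lit 49) (nat_lit 4) (nat_lit 325) (nat_lit 232) (nat_lit 223)) (XT.nd (nat_lit 78) (nat_lit 0) (nat_lit 0) (XT.lf (nat_lit 0) (nat_lit 1798660189) (nat_lit 152) (nat_lit 2100978474) (nat_lit 228) (nat_lit 8606588926) (nat_lit 46) (nat_lit 5) (nat_lit 48) (nat_lit 5) (nat_lit 49) (nat_lit 4) (nat_lit 326) (nat_lit 232) (nat_lit 222)) (XT.lf (nat_lit 0) (nat_lit 7808824647) (nat_lit 228) (nat_lit 3568556264) (nat_lit 0) (nat_lit 1366392387) (nat_lit 46) (nat_lit 5) (nat_lit 49) (nat_lit 4) (nat_lit 46) (nat_lit 4) (nat_lit 327) (nat_lit 232) (nat_lit 221)))) (XT.nd (nat_lit 156) (nat_lit 152) (nat_lit 0) (XT.nd (nat_lit 78) (nat_lit 76) (nat_lit 0) (XT.lf (nat_lit 0) (nat_lit 3707333961) (nat_lit 228) (nat_lit 8106301429) (nat_lit 228) (nat_lit 1175511238) (nat_lit 43) (nat_lit 4) (nat_lit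 46) (nat_lit 5) (nat_lit 46) (nat_lit 4) (nat_lit 328) (nat_lit 232) (nat_lit 220)) (XT.lf (nat_lit 0) (nat_lit 2602625398) (nat_lit 304) (nat_lit 2121594545) (nat_lit 76) (nat_lit 8518176138) (nat_lit 42) (nat_lit 5) (nat_lit 46) (nat_lit 5) (nat_lit 43) (nat_lit 4) (nat_lit 329) (nat_lit 232) (nat_lit 219))) (XT.nd (nat_lit 78) (nat_lit 0) (nat_lit 0) (XT.lf (nat_lit 0) (nat_lit 5218211635) (nat_lit 152) (nat_lit 1226842516) (nat_lit 228) (nat_lit 7058649800) (nat_lit 40) (nat_lit 5) (nat_lit 42) (nat_lit 5) (nat_lit 43) (nat_lit 4) (nat_lit 330) (nat_lit 232) (nat_lit 218)) (XT.lf (nat_lit 0) (nat_lit 10372171260) (nat_lit 228) (nat_lit 1099535114) (nat_lit 0) (nat_lit 2302108173) (nat_lit 40) (nat_lit 5) (nat_lit 43) (nat_lit 4) (nat_lit 40) (nat_lit 4) (nat_lit 331) (nat_lit 232) (nat_lit 217))))))) (XT.nd (nat_lit 1014) (nat_lit 836) (nat_lit 0) (XT.nd (nat_lit 468) (nat_lit 456) (nat_lit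 0) (XT.nd (nat_lit 234) (nat_lit 228) (nat_lit 0) (XT.nd (nat_lit 78) (nat_lit 152) (nat_lit 0) (XT.lf (nat_lit 0) (nat_lit 357647437) (nat_lit 228) (nat_lit 7765300630) (nat_lit 76) (nat_lit 5929027497) (nat_lit 37) (nat_lit 5) (nat_lit 40) (nat_lit 5) (nat_lit 38) (nat_lit 4) (nat_lit 332) (nat_lit 232) (nat_lit 216)) (XT.nd (nat_lit 78) (nat_lit 152) (nat_lit 0) (XT.lf (nat_lit 0) (nat_lit 4099895169) (nat_lit 228) (nat_lit 577529812) (nat_lit 76) (nat_lit 9661931657) (nat_lit 37) (nat_lit 5) (nat_lit 40) (nat_lit 5) (nat_lit 38) (nat_lit 4) (nat_lit 333) (nat_lit 232) (nat_lit 215)) (XT.lf (nat_lit 0) (nat_lit 6840321791) (nat_lit 152) (nat_lit 1109293226) (nat_lit 228) (nat_lit 6685928819) (nat_lit 35) (nat_lit 5) (nat_lit 37) (nat_lit 5) (nat_lit 38) (nat_lit 4) (nat_lit 334) (nat_lit 232) (nat_lit 214)))) (XT.nd (nat_lit 78) (nat_lit 228) (nat_lit 0) (XT.lf (nat_lit 0) (nat_lit 11875290417)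 (nat_lit 228) (nat_lit 592145960) (nat_lit 0) (nat_lit 2474405994) (nat_lit 35) (nat_lit 5) (nat_lit 38) (nat_lit 4) (nat_lit 35) (nat_lit 4) (nat_lit 335) (nat_lit 232) (nat_lit 213)) (XT.nd (nat_lit 78) (nat_lit 0) (nat_lit 0) (XT.lf (nat_lit 0) (nat_lit 657167634) (nat_lit 228) (nat_lit 8430218289) (nat_lit 76) (nat_lit 6169530537) (nat_lit 32) (nat_lit 5) (nat_lit 35) (nat_lit 5) (nat_lit 33) (nat_lit 4) (nat_lit 336) (nat_lit 232) (nat_lit 212)) (XT.lf (nat_lit 0) (nat_lit 4369129526) (nat_lit 228) (nat_lit 1247735808) (nat_lit 76) (nat_lit 9965557896) (nat_lit 32) (nat_lit 5) (nat_lit 35) (nat_lit 5) (nat_lit 33) (nat_lit 4) (nat_lit 337) (nat_lit 232) (nat_lit 211))))) (XT.nd (nat_lit 234) (nat_lit 152) (nat_lit 0) (XT.nd (nat_lit 78) (nat_lit 152) (nat_lit 0) (XT.lf (nat_lit 0) (nat_lit 6157465418) (nat_lit 152) (nat_lit 2028277730) (nat_lit 228) (nat_lit 7732188490) (nat_lit 30) (nat_lit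 5) (nat_lit 32) (nat_lit 5) (nat_lit 33) (nat_lit 4) (nat_lit 338) (nat_lit 232) (nat_lit 210)) (XT.nd (nat_lit 78) (nat_lit 152) (nat_lit 0) (XT.lf (nat_lit 0) (nat_lit 12080111881) (nat_lit 228) (nat_lit 2582224983) (nat_lit 0) (nat_lit 1602304929) (nat_lit 30) (nat_lit 5) (nat_lit 33) (nat_lit 4) (nat_lit 30) (nat_lit 4) (nat_lit 339) (nat_lit 232) (nat_lit 209)) (XT.lf (nat_lit 0) (nat_lit 4774409156) (nat_lit 152) (nat_lit 11319285565) (nat_lit 152) (nat_lit 528020240) (nat_lit 28) (nat_lit 4) (nat_lit 30) (nat_lit 5) (nat_lit 30) (nat_lit 4) (nat_lit 340) (nat_lit 232) (nat_lit 208)))) (XT.nd (nat_lit 156) (nat_lit 0) (nat_lit 0) (XT.nd (nat_lit 78) (nat_lit 76) (nat_lit 0) (XT.lf (nat_lit 0) (nat_lit 3137887780) (nat_lit 228) (nat_lit 4725681646) (nat_lit 76) (nat_lit 9126141616) (nat_lit 27) (nat_lit 5) (nat_lit 30) (nat_lit 5) (nat_lit 28) (nat_lit 4) (nat_lit 341) (nat_lit 232) (nat_lit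 207)) (XT.lf (nat_lit 0) (nat_lit 2547022766) (nat_lit 76) (nat_lit 4319027080) (nat_lit 152) (nat_lit 10503684022) (nat_lit 26) (nat_lit 5) (nat_lit 27) (nat_lit 5) (nat_lit 28) (nat_lit 4) (nat_lit 342) (nat_lit 232) (nat_lit 206))) (XT.nd (nat_lit 78) (nat_lit 0) (nat_lit 0) (XT.lf (nat_lit 0) (nat_lit 10028787448) (nat_lit 76) (nat_lit 664170524) (nat_lit 152) (nat_lit 7068621866) (nat_lit 26) (nat_lit 5) (nat_lit 27) (nat_lit 5) (nat_lit 28) (nat_lit 4) (nat_lit 343) (nat_lit 232) (nat_lit 205)) (XT.lf (nat_lit 0) (nat_lit 14605006544) (nat_lit 152) (nat_lit 564262413) (nat_lit 0) (nat_lit 2996830873) (nat_lit 26) (nat_lit 5) (nat_lit 28) (nat_lit 4) (nat_lit 26) (nat_lit 4) (nat_lit 344) (nat_lit 232) (nat_lit 204)))))) (XT.nd (nat_lit 546) (nat_lit 304) (nat_lit 0) (XT.nd (nat_lit 234) (nat_lit 228) (nat_lit 0) (XT.nd (nat_lit 78) (nat_lit 76) (nat_lit 0) (XT.lf (nat_lit 0) (nat_lit 65408723)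 (nat_lit 228) (nat_lit 11737912414) (nat_lit 76) (nat_lit 6779003711) (nat_lit 23) (nat_lit 5) (nat_lit 26) (nat_lit 5) (nat_lit 24) (nat_lit 4) (nat_lit 345) (nat_lit 232) (nat_lit 203)) (XT.nd (nat_lit 78) (nat_lit 76) (nat_lit 0) (XT.lf (nat_lit 0) (nat_lit 3677275673) (nat_lit 228) (nat_lit 4660692846) (nat_lit 76) (nat_lit 10673592224) (nat_lit 23) (nat_lit 5) (nat_lit 26) (nat_lit 5) (nat_lit 24) (nat_lit 4) (nat_lit 346) (nat_lit 232) (nat_lit 202)) (XT.lf (nat_lit 0) (nat_lit 2580730065) (nat_lit 76) (nat_lit 4785644054) (nat_lit 152) (nat_lit 12088258777) (nat_lit 22) (nat_lit 5) (nat_lit 23) (nat_lit 5) (nat_lit 24) (nat_lit 4) (nat_lit 347) (nat_lit 232) (nat_lit 201)))) (XT.nd (nat_lit 156) (nat_lit 228) (nat_lit 0) (XT.nd (nat_lit 78) (nat_lit 0) (nat_lit 0) (XT.lf (nat_lit 0) (nat_lit 10037428136) (nat_lit 76) (nat_lit 1120540965) (nat_lit 152) (nat_lit 8753298108) (nat_lit 22) (nat_lit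 5) (nat_lit 23) (nat_lit 5) (nat_lit 24) (nat_lit 4) (nat_lit 348) (nat_lit 232) (nat_lit 200)) (XT.lf (nat_lit 0) (nat_lit 15034802957) (nat_lit 152) (nat_lit 2785195839) (nat_lit 0) (nat_lit 2562481008) (nat_lit 22) (nat_lit 5) (nat_lit 24) (nat_lit 4) (nat_lit 22) (nat_lit 4) (nat_lit 349) (nat_lit 232) (nat_lit 199))) (XT.nd (nat_lit 78) (nat_lit 76) (nat_lit 0) (XT.lf (nat_lit 0) (nat_lit 4499705444) (nat_lit 152) (nat_lit 14530132540) (nat_lit 152) (nat_lit 1837957195) (nat_lit 20) (nat_lit 4) (nat_lit 22) (nat_lit 5) (nat_lit 22) (nat_lit 4) (nat_lit 350) (nat_lit 232) (nat_lit 198)) (XT.lf (nat_lit 0) (nat_lit 1718434886) (nat_lit 228) (nat_lit 9417202424) (nat_lit 76) (nat_lit 10232260462) (nat_lit 19) (nat_lit 5) (nat_lit 22) (nat_lit 5) (nat_lit 20) (nat_lit 4) (nat_lit 351) (nat_lit 232) (nat_lit 197))))) (XT.nd (nat_lit 234) (nat_lit 228) (nat_lit 0) (XT.nd (nat_lit 78) (nat_lit 76)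 (nat_lit 0) (XT.lf (nat_lit 0) (nat_lit 5293756330) (nat_lit 228) (nat_lit 2366532803) (nat_lit 76) (nat_lit 14223714329) (nat_lit 19) (nat_lit 5) (nat_lit 22) (nat_lit 5) (nat_lit 20) (nat_lit 4) (nat_lit 352) (nat_lit 232) (nat_lit 196)) (XT.nd (nat_lit 78) (nat_lit 0) (nat_lit 0) (XT.lf (nat_lit 0) (nat_lit 4903431078) (nat_lit 76) (nat_lit 4070700071) (nat_lit 152) (nat_lit 13441548051) (nat_lit 18) (nat_lit 5) (nat_lit 19) (nat_lit 5) (nat_lit 20) (nat_lit 4) (nat_lit 353) (nat_lit 232) (nat_lit 195)) (XT.lf (nat_lit 0) (nat_lit 12352957907) (nat_lit 76) (nat_lit 387115963) (nat_lit 152) (nat_lit 10223996728) (nat_lit 18) (nat_lit 5) (nat_lit 19) (nat_lit 5) (nat_lit 20) (nat_lit 4) (nat_lit 354) (nat_lit 232) (nat_lit 194)))) (XT.nd (nat_lit 156) (nat_lit 76) (nat_lit 0) (XT.nd (nat_lit 78) (nat_lit 152) (nat_lit 0) (XT.lf (nat_lit 0) (nat_lit 16604066250) (nat_lit 152) (nat_lit 3621286967)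 (nat_lit 0) (nat_lit 3304027880) (nat_lit 18) (nat_lit 5) (nat_lit 20) (nat_lit 4) (nat_lit 18) (nat_lit 4) (nat_lit 355) (nat_lit 232) (nat_lit 193)) (XT.lf (nat_lit 0) (nat_lit 3560783601) (nat_lit 152) (nat_lit 17014966200) (nat_lit 152) (nat_lit 3536166900) (nat_lit 16) (nat_lit 4) (nat_lit 18) (nat_lit 5) (nat_lit 18) (nat_lit 4) (nat_lit 356) (nat_lit 232) (nat_lit 192))) (XT.nd (nat_lit 78) (nat_lit 76) (nat_lit 0) (XT.lf (nat_lit 0) (nat_lit 10950263021) (nat_lit 152) (nat_lit 13707156138) (nat_lit 152) (nat_lit 54802537) (nat_lit 16) (nat_lit 4) (nat_lit 18) (nat_lit 5) (nat_lit 18) (nat_lit 4) (nat_lit 357) (nat_lit 232) (nat_lit 191)) (XT.lf (nat_lit 0) (nat_lit 3417242487) (nat_lit 228) (nat_lit 6883850673) (nat_lit 76) (nat_lit 15029787475) (nat_lit 15) (nat_lit 5) (nat_lit 18) (nat_lit 5) (nat_lit 16) (nat_lit 4) (nat_lit 358) (nat_lit 232) (nat_lit 190))))))))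
noncomputable def xc42 : XT := (XT.nd (nat_lit 2028) (nat_lit 304) (nat_lit 0) (XT.nd (nat_lit 1014) (nat_lit 228) (nat_lit 0) (XT.nd (nat_lit 468) (nat_lit 152) (nat_lit 0) (XT.nd (nat_lit 234) (nat_lit 76) (nat_lit 0) (XT.nd (nat_lit 78) (nat_lit 0) (nat_lit 0) (XT.lf (nat_lit 0) (nat_lit 124032171) (nat_lit 76) (nat_lit 6825956334) (nat_lit 152) (nat_lit 19019382145) (nat_lit 14) (nat_lit 5) (nat_lit 15) (nat_lit 5) (nat_lit 16) (nat_lit 4) (nat_lit 359) (nat_lit 232) (nat_lit 189)) (XT.nd (nat_lit 78) (nat_lit 0) (nat_lit 0) (XT.lf (nat_lit 0) (nat_lit 7405586657) (nat_lit 76) (nat_lit 3209614290) (nat_lit 152) (nat_lit 16011036230) (nat_lit 14) (nat_lit 5) (nat_lit 15) (nat_lit 5) (nat_lit 16) (nat_lit 4) (nat_lit 360) (nat_lit 232) (nat_lit 188)) (XT.lf (nat_lit 0) (nat_lit 14353222929) (nat_lit 152) (nat_lit 12478534895) (nat_lit 0) (nat_lit 472182138) (nat_lit 14) (nat_lit 5) (nat_lit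 16) (nat_lit 4) (nat_lit 14) (nat_lit 4) (nat_lit 361) (nat_lit 232) (nat_lit 187)))) (XT.nd (nat_lit 78) (nat_lit 76) (nat_lit 0) (XT.lf (nat_lit 0) (nat_lit 18194290703) (nat_lit 152) (nat_lit 5640070450) (nat_lit 0) (nat_lit 4167900917) (nat_lit 14) (nat_lit 5) (nat_lit 16) (nat_lit 4) (nat_lit 14) (nat_lit 4) (nat_lit 362) (nat_lit 232) (nat_lit 186)) (XT.nd (nat_lit 78) (nat_lit 0) (nat_lit 0) (XT.lf (nat_lit 0) (nat_lit 1358071818) (nat_lit 76) (nat_lit 20765890564) (nat_lit 76) (nat_lit 6598385249) (nat_lit 13) (nat_lit 4) (nat_lit 14) (nat_lit 5) (nat_lit 14) (nat_lit 4) (nat_lit 363) (nat_lit 232) (nat_lit 185)) (XT.lf (nat_lit 0) (nat_lit 8610502944) (nat_lit 76) (nat_lit 17578762880) (nat_lit 76) (nat_lit 3274252197) (nat_lit 13) (nat_lit 4) (nat_lit 14) (nat_lit 5) (nat_lit 14) (nat_lit 4) (nat_lit 364) (nat_lit 232) (nat_lit 184))))) (XT.nd (nat_lit 234) (nat_lit 76) (nat_lit 0) (XT.nd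 (nat_lit 78) (nat_lit 0) (nat_lit 0) (XT.lf (nat_lit 0) (nat_lit 108224831) (nat_lit 152) (nat_lit 14217829195) (nat_lit 76) (nat_lit 15901993852) (nat_lit 12) (nat_lit 5) (nat_lit 14) (nat_lit 5) (nat_lit 13) (nat_lit 4) (nat_lit 365) (nat_lit 232) (nat_lit 183)) (XT.nd (nat_lit 78) (nat_lit 0) (nat_lit 0) (XT.lf (nat_lit 0) (nat_lit 3489026472) (nat_lit 152) (nat_lit 7483942562) (nat_lit 76) (nat_lit 20042705540) (nat_lit 12) (nat_lit 5) (nat_lit 14) (nat_lit 5) (nat_lit 13) (nat_lit 4) (nat_lit 366) (nat_lit 232) (nat_lit 182)) (XT.lf (nat_lit 0) (nat_lit 6934999278) (nat_lit 152) (nat_lit 613997085) (nat_lit 76) (nat_lit 24279034187) (nat_lit 12) (nat_lit 5) (nat_lit 14) (nat_lit 5) (nat_lit 13) (nat_lit 4) (nat_lit 367) (nat_lit 232) (nat_lit 181)))) (XT.nd (nat_lit 156) (nat_lit 0) (nat_lit 0) (XT.nd (nat_lit 78) (nat_lit 0) (nat_lit 0) (XT.lf (nat_lit 0) (nat_lit 6525343046) (nat_lit 76)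 (nat_lit 3986536836) (nat_lit 152) (nat_lit 22152063983) (nat_lit 11) (nat_lit 5) (nat_lit 12) (nat_lit 5) (nat_lit 13) (nat_lit 4) (nat_lit 368) (nat_lit 232) (nat_lit 180)) (XT.lf (nat_lit 0) (nat_lit 13828040875) (nat_lit 76) (nat_lit 339444851) (nat_lit 152) (nat_lit 19358318440) (nat_lit 11) (nat_lit 5) (nat_lit 12) (nat_lit 5) (nat_lit 13) (nat_lit 4) (nat_lit 369) (nat_lit 232) (nat_lit 179))) (XT.nd (nat_lit 78) (nat_lit 0) (nat_lit 0) (XT.lf (nat_lit 0) (nat_lit 17931571149) (nat_lit 152) (nat_lit 13158867171) (nat_lit 0) (nat_lit 3323129413) (nat_lit 11) (nat_lit 5) (nat_lit 13) (nat_lit 4) (nat_lit 11) (nat_lit 4) (nat_lit 370) (nat_lit 232) (nat_lit 178)) (XT.lf (nat_lit 0) (nat_lit 21778895833) (nat_lit 152) (nat_lit 6487669533) (nat_lit 0) (nat_lit 7062300794) (nat_lit 11) (nat_lit 5) (nat_lit 13) (nat_lit 4) (nat_lit 11) (nat_lit 4) (nat_lit 371) (nat_lit 232) (nat_lit 177))))))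 (XT.nd (nat_lit 468) (nat_lit 76) (nat_lit 0) (XT.nd (nat_lit 234) (nat_lit 76) (nat_lit 0) (XT.nd (nat_lit 78) (nat_lit 0) (nat_lit 0) (XT.lf (nat_lit 0) (nat_lit 331388353) (nat_lit 76) (nat_lit 25381355720) (nat_lit 76) (nat_lit 10559757475) (nat_lit 10) (nat_lit 4) (nat_lit 11) (nat_lit 5) (nat_lit 11) (nat_lit 4) (nat_lit 372) (nat_lit 232) (nat_lit 176)) (XT.nd (nat_lit 78) (nat_lit 0) (nat_lit 0) (XT.lf (nat_lit 0) (nat_lit 7429842488) (nat_lit 76) (nat_lit 22368571611) (nat_lit 76) (nat_lit 7445028505) (nat_lit 10) (nat_lit 4) (nat_lit 11) (nat_lit 5) (nat_lit 11) (nat_lit 4) (nat_lit 373) (nat_lit 232) (nat_lit 175)) (XT.lf (nat_lit 0) (nat_lit 14684778058) (nat_lit 76) (nat_lit 19291093251) (nat_lit 76) (nat_lit 4268574553) (nat_lit 10) (nat_lit 4) (nat_lit 11) (nat_lit 5) (nat_lit 11) (nat_lit 4) (nat_lit 374) (nat_lit 232) (nat_lit 174)))) (XT.nd (nat_lit 78) (nat_lit 76) (nat_lit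 0) (XT.lf (nat_lit 0) (nat_lit 22102534326) (nat_lit 76) (nat_lit 16146231583) (nat_lit 76) (nat_lit 1027620076) (nat_lit 10) (nat_lit 4) (nat_lit 11) (nat_lit 5) (nat_lit 11) (nat_lit 4) (nat_lit 375) (nat_lit 232) (nat_lit 173)) (XT.nd (nat_lit 78) (nat_lit 0) (nat_lit 0) (XT.lf (nat_lit 0) (nat_lit 2236162802) (nat_lit 152) (nat_lit 10672495005) (nat_lit 76) (nat_lit 27430849166) (nat_lit 9) (nat_lit 5) (nat_lit 11) (nat_lit 5) (nat_lit 10) (nat_lit 4) (nat_lit 376) (nat_lit 232) (nat_lit 172)) (XT.lf (nat_lit 0) (nat_lit 5548745969) (nat_lit 152) (nat_lit 4038527865) (nat_lit 76) (nat_lit 31847805609) (nat_lit 9) (nat_lit 5) (nat_lit 11) (nat_lit 5) (nat_lit 10) (nat_lit 4) (nat_lit 377) (nat_lit 232) (nat_lit 171))))) (XT.nd (nat_lit 234) (nat_lit 0) (nat_lit 0) (XT.nd (nat_lit 78) (nat_lit 0) (nat_lit 0) (XT.lf (nat_lit 0) (nat_lit 2798330042) (nat_lit 76) (nat_lit 6161645700) (nat_lit 152)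 (nat_lit 33603574314) (nat_lit 8) (nat_lit 5) (nat_lit 9) (nat_lit 5) (nat_lit 10) (nat_lit 4) (nat_lit 378) (nat_lit 232) (nat_lit 170)) (XT.nd (nat_lit 78) (nat_lit 0) (nat_lit 0) (XT.lf (nat_lit 0) (nat_lit 9872843193) (nat_lit 76) (nat_lit 2614172138) (nat_lit 152) (nat_lit 31238464048) (nat_lit 8) (nat_lit 5) (nat_lit 9) (nat_lit 5) (nat_lit 10) (nat_lit 4) (nat_lit 379) (nat_lit 232) (nat_lit 169)) (XT.lf (nat_lit 0) (nat_lit 16103133706) (nat_lit 152) (nat_lit 27822032415) (nat_lit 0) (nat_lit 997610957) (nat_lit 8) (nat_lit 5) (nat_lit 10) (nat_lit 4) (nat_lit 8) (nat_lit 4) (nat_lit 380) (nat_lit 232) (nat_lit 168)))) (XT.nd (nat_lit 156) (nat_lit 0) (nat_lit 0) (XT.nd (nat_lit 78) (nat_lit 0) (nat_lit 0) (XT.lf (nat_lit 0) (nat_lit 19827670095) (nat_lit 152) (nat_lit 21684318754) (nat_lit 0) (nat_lit 4644015099) (nat_lit 8) (nat_lit 5) (nat_lit 10) (nat_lit 4) (nat_lit 8) (nat_lit 4)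 (nat_lit 381) (nat_lit 232) (nat_lit 167)) (XT.lf (nat_lit 0) (nat_lit 23638749926) (nat_lit 152) (nat_lit 15409003132) (nat_lit 0) (nat_lit 8379238380) (nat_lit 8) (nat_lit 5) (nat_lit 10) (nat_lit 4) (nat_lit 8) (nat_lit 4) (nat_lit 382) (nat_lit 232) (nat_lit 166))) (XT.nd (nat_lit 78) (nat_lit 0) (nat_lit 0) (XT.lf (nat_lit 0) (nat_lit 27539703269) (nat_lit 152) (nat_lit 8990602264) (nat_lit 0) (nat_lit 12206544587) (nat_lit 8) (nat_lit 5) (nat_lit 10) (nat_lit 4) (nat_lit 8) (nat_lit 4) (nat_lit 383) (nat_lit 232) (nat_lit 165)) (XT.lf (nat_lit 0) (nat_lit 31533938724) (nat_lit 152) (nat_lit 2423507837) (nat_lit 0) (nat_lit 16129277968) (nat_lit 8) (nat_lit 5) (nat_lit 10) (nat_lit 4) (nat_lit 8) (nat_lit 4) (nat_lit 384) (nat_lit 232) (nat_lit 164))))))) (XT.nd (nat_lit 1014) (nat_lit 76) (nat_lit 0) (XT.nd (nat_lit 468) (nat_lit 152) (nat_lit 0) (XT.nd (nat_lit 234) (nat_lit 0) (nat_lit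 0) (XT.nd (nat_lit 78) (nat_lit 0) (nat_lit 0) (XT.lf (nat_lit 0) (nat_lit 4383557377) (nat_lit 76) (nat_lit 31283526457) (nat_lit 76) (nat_lit 15809446211) (nat_lit 7) (nat_lit 4) (nat_lit 8) (nat_lit 5) (nat_lit 8) (nat_lit 4) (nat_lit 385) (nat_lit 232) (nat_lit 163)) (XT.nd (nat_lit 78) (nat_lit 0) (nat_lit 0) (XT.lf (nat_lit 0) (nat_lit 11402350509) (nat_lit 76) (nat_lit 28523556823) (nat_lit 76) (nat_lit 12982079014) (nat_lit 7) (nat_lit 4) (nat_lit 8) (nat_lit 5) (nat_lit 8) (nat_lit 4) (nat_lit 386) (nat_lit 232) (nat_lit 162)) (XT.lf (nat_lit 0) (nat_lit 18590771923) (nat_lit 76) (nat_lit 25699598711) (nat_lit 76) (nat_lit 10092686377) (nat_lit 7) (nat_lit 4) (nat_lit 8) (nat_lit 5) (nat_lit 8) (nat_lit 4) (nat_lit 387) (nat_lit 232) (nat_lit 161)))) (XT.nd (nat_lit 78) (nat_lit 0) (nat_lit 0) (XT.lf (nat_lit 0) (nat_lit 25955102767) (nat_lit 76) (nat_lit 22809184588) (nat_lit 76) (nat_lit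 7138743586) (nat_lit 7) (nat_lit 4) (nat_lit 8) (nat_lit 5) (nat_lit 8) (nat_lit 4) (nat_lit 388) (nat_lit 232) (nat_lit 160)) (XT.nd (nat_lit 78) (nat_lit 0) (nat_lit 0) (XT.lf (nat_lit 0) (nat_lit 33501777890) (nat_lit 76) (nat_lit 19849788846) (nat_lit 76) (nat_lit 4117669528) (nat_lit 7) (nat_lit 4) (nat_lit 8) (nat_lit 5) (nat_lit 8) (nat_lit 4) (nat_lit 389) (nat_lit 232) (nat_lit 159)) (XT.lf (nat_lit 0) (nat_lit 41237391477) (nat_lit 76) (nat_lit 16818825608) (nat_lit 76) (nat_lit 1026824428) (nat_lit 7) (nat_lit 4) (nat_lit 8) (nat_lit 5) (nat_lit 8) (nat_lit 4) (nat_lit 390) (nat_lit 232) (nat_lit 158))))) (XT.nd (nat_lit 234) (nat_lit 0) (nat_lit 0) (XT.nd (nat_lit 78) (nat_lit 76) (nat_lit 0) (XT.lf (nat_lit 0) (nat_lit 2094801787) (nat_lit 152) (nat_lit 11597691280) (nat_lit 76) (nat_lit 47052747623) (nat_lit 6) (nat_lit 5) (nat_lit 8) (nat_lit 5) (nat_lit 7) (nat_lit 4) (nat_lit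 391) (nat_lit 232) (nat_lit 157)) (XT.nd (nat_lit 78) (nat_lit 76) (nat_lit 0) (XT.lf (nat_lit 0) (nat_lit 5270158681) (nat_lit 152) (nat_lit 5208161183) (nat_lit 76) (nat_lit 51979265183) (nat_lit 6) (nat_lit 5) (nat_lit 8) (nat_lit 5) (nat_lit 7) (nat_lit 4) (nat_lit 392) (nat_lit 232) (nat_lit 156)) (XT.lf (nat_lit 0) (nat_lit 1365030463) (nat_lit 76) (nat_lit 7170148923) (nat_lit 152) (nat_lit 55686293889) (nat_lit 5) (nat_lit 5) (nat_lit 6) (nat_lit 5) (nat_lit 7) (nat_lit 4) (nat_lit 393) (nat_lit 232) (nat_lit 155)))) (XT.nd (nat_lit 156) (nat_lit 0) (nat_lit 0) (XT.nd (nat_lit 78) (nat_lit 0) (nat_lit 0) (XT.lf (nat_lit 0) (nat_lit 8207858859) (nat_lit 76) (nat_lit 3724380948) (nat_lit 152) (nat_lit 54105021143) (nat_lit 5) (nat_lit 5) (nat_lit 6) (nat_lit 5) (nat_lit 7) (nat_lit 4) (nat_lit 394) (nat_lit 232) (nat_lit 154)) (XT.lf (nat_lit 0) (nat_lit 15222650553) (nat_lit 76) (nat_lit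 190597290) (nat_lit 152) (nat_lit 52494818649) (nat_lit 5) (nat_lit 5) (nat_lit 6) (nat_lit 5) (nat_lit 7) (nat_lit 4) (nat_lit 395) (nat_lit 232) (nat_lit 153))) (XT.nd (nat_lit 78) (nat_lit 0) (nat_lit 0) (XT.lf (nat_lit 0) (nat_lit 19014257649) (nat_lit 152) (nat_lit 47453002106) (nat_lit 0) (nat_lit 3367274458) (nat_lit 5) (nat_lit 5) (nat_lit 7) (nat_lit 4) (nat_lit 5) (nat_lit 4) (nat_lit 396) (nat_lit 232) (nat_lit 152)) (XT.lf (nat_lit 0) (nat_lit 22708112721) (nat_lit 152) (nat_lit 42097285564) (nat_lit 0) (nat_lit 7013858236) (nat_lit 5) (nat_lit 5) (nat_lit 7) (nat_lit 4) (nat_lit 5) (nat_lit 4) (nat_lit 397) (nat_lit 232) (nat_lit 151)))))) (XT.nd (nat_lit 546) (nat_lit 76) (nat_lit 0) (XT.nd (nat_lit 234) (nat_lit 0) (nat_lit 0) (XT.nd (nat_lit 78) (nat_lit 0) (nat_lit 0) (XT.lf (nat_lit 0) (nat_lit 26496208563) (nat_lit 152) (nat_lit 36611754424) (nat_lit 0) (nat_lit 10756059618)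 (nat_lit 5) (nat_lit 5) (nat_lit 7) (nat_lit 4) (nat_lit 5) (nat_lit 4) (nat_lit 398) (nat_lit 232) (nat_lit 150)) (XT.nd (nat_lit 78) (nat_lit 0) (nat_lit 0) (XT.lf (nat_lit 0) (nat_lit 30381855162) (nat_lit 152) (nat_lit 30991615505) (nat_lit 0) (nat_lit 14597148488) (nat_lit 5) (nat_lit 5) (nat_lit 7) (nat_lit 4) (nat_lit 5) (nat_lit 4) (nat_lit 399) (nat_lit 232) (nat_lit 149)) (XT.lf (nat_lit 0) (nat_lit 34368447744) (nat_lit 152) (nat_lit 25231958004) (nat_lit 0) (nat_lit 18540481139) (nat_lit 5) (nat_lit 5) (nat_lit 7) (nat_lit 4) (nat_lit 5) (nat_lit 4) (nat_lit 400) (nat_lit 232) (nat_lit 148)))) (XT.nd (nat_lit 156) (nat_lit 0) (nat_lit 0) (XT.nd (nat_lit 78) (nat_lit 0) (nat_lit 0) (XT.lf (nat_lit 0) (nat_lit 38459469738) (nat_lit 152) (nat_lit 19327749211) (nat_lit 0) (nat_lit 22589503200) (nat_lit 5) (nat_lit 5) (nat_lit 7) (nat_lit 4) (nat_lit 5) (nat_lit 4) (nat_lit 401) (nat_lit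 232) (nat_lit 147)) (XT.lf (nat_lit 0) (nat_lit 42658495824) (nat_lit 152) (nat_lit 13273830109) (nat_lit 0) (nat_lit 26747752652) (nat_lit 5) (nat_lit 5) (nat_lit 7) (nat_lit 4) (nat_lit 5) (nat_lit 4) (nat_lit 402) (nat_lit 232) (nat_lit 146))) (XT.nd (nat_lit 78) (nat_lit 0) (nat_lit 0) (XT.lf (nat_lit 0) (nat_lit 46969195053) (nat_lit 152) (nat_lit 7064910866) (nat_lit 0) (nat_lit 31018862917) (nat_lit 5) (nat_lit 5) (nat_lit 7) (nat_lit 4) (nat_lit 5) (nat_lit 4) (nat_lit 403) (nat_lit 232) (nat_lit 145)) (XT.lf (nat_lit 0) (nat_lit 51395334057) (nat_lit 152) (nat_lit 695566212) (nat_lit 0) (nat_lit 35406566033) (nat_lit 5) (nat_lit 5) (nat_lit 7) (nat_lit 4) (nat_lit 5) (nat_lit 4) (nat_lit 404) (nat_lit 232) (nat_lit 144))))) (XT.nd (nat_lit 234) (nat_lit 0) (nat_lit 0) (XT.nd (nat_lit 78) (nat_lit 0) (nat_lit 0) (XT.lf (nat_lit 0) (nat_lit 5955992158) (nat_lit 76) (nat_lit 50042040817)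 (nat_lit 76) (nat_lit 34015956397) (nat_lit 4) (nat_lit 4) (nat_lit 5) (nat_lit 5) (nat_lit 5) (nat_lit 4) (nat_lit 405) (nat_lit 232) (nat_lit 143)) (XT.nd (nat_lit 78) (nat_lit 0) (nat_lit 0) (XT.lf (nat_lit 0) (nat_lit 12796512198) (nat_lit 76) (nat_lit 47936001342) (nat_lit 76) (nat_lit 31873687410) (nat_lit 4) (nat_lit 4) (nat_lit 5) (nat_lit 5) (nat_lit 5) (nat_lit 4) (nat_lit 406) (nat_lit 232) (nat_lit 142)) (XT.lf (nat_lit 0) (nat_lit 19818127930) (nat_lit 76) (nat_lit 45777965469) (nat_lit 76) (nat_lit 29680477256) (nat_lit 4) (nat_lit 4) (nat_lit 5) (nat_lit 5) (nat_lit 5) (nat_lit 4) (nat_lit 407) (nat_lit 232) (nat_lit 141)))) (XT.nd (nat_lit 33384) (nat_lit 0) (nat_lit 4864) (XT.nd (nat_lit 33306) (nat_lit 0) (nat_lit 5244) (XT.lf (nat_lit 0) (nat_lit 27026974746) (nat_lit 76) (nat_lit 43566047538) (nat_lit 76) (nat_lit 27434409535) (nat_lit 4) (nat_lit 4) (nat_lit 5) (nat_lit 5)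 (nat_lit 5) (nat_lit 4) (nat_lit 408) (nat_lit 232) (nat_lit 140)) (XT.lf (nat_lit 0) (nat_lit 1317495036) (nat_lit 304) (nat_lit 2455698413) (nat_lit 0) (nat_lit 1317495036) (nat_lit 73) (nat_lit 5) (nat_lit 77) (nat_lit 4) (nat_lit 73) (nat_lit 4) (nat_lit 314) (nat_lit 233) (nat_lit 233))) (XT.nd (nat_lit 78) (nat_lit 76) (nat_lit 0) (XT.lf (nat_lit 0) (nat_lit 2002441749) (nat_lit 304) (nat_lit 4562073724) (nat_lit 304) (nat_lit 3778402608) (nat_lit 69) (nat_lit 4) (nat_lit 73) (nat_lit 5) (nat_lit 73) (nat_lit 4) (nat_lit 315) (nat_lit 233) (nat_lit 232)) (XT.lf (nat_lit 0) (nat_lit 58770765) (nat_lit 380) (nat_lit 1425212205) (nat_lit 76) (nat_lit 9026626532) (nat_lit 68) (nat_lit 5) (nat_lit 73) (nat_lit 5) (nat_lit 69) (nat_lit 4) (nat_lit 316) (nat_lit 233) (nat_lit 231))))))))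
noncomputable def xc43 : XT := (XT.nd (nat_lit 2106) (nat_lit 1140) (nat_lit 0) (XT.nd (nat_lit 1014) (nat_lit 1216) (nat_lit 0) (XT.nd (nat_lit 468) (nat_lit 912) (nat_lit 0) (XT.nd (nat_lit 234) (nat_lit 532) (nat_lit 0) (XT.nd (nat_lit 78) (nat_lit 304) (nat_lit 0) (XT.lf (nat_lit 0) (nat_lit 3916682748) (nat_lit 304) (nat_lit 5066173881) (nat_lit 0) (nat_lit 1699981730) (nat_lit 65) (nat_lit 5) (nat_lit 69) (nat_lit 4) (nat_lit 65) (nat_lit 4) (nat_lit 317) (nat_lit 233) (nat_lit 230)) (XT.nd (nat_lit 78) (nat_lit 76) (nat_lit 0) (XT.lf (nat_lit 0) (nat_lit 1924803743) (nat_lit 228) (nat_lit 5924853492) (nat_lit 228) (nat_lit 3011870838) (nat_lit 62) (nat_lit 4) (nat_lit 65) (nat_lit 5) (nat_lit 65) (nat_lit 4) (nat_lit 318) (nat_lit 233) (nat_lit 229)) (XT.lf (nat_lit 0) (nat_lit 801954673) (nat_lit 304) (nat_lit 1961016256) (nat_lit 76) (nat_lit 8283522572) (nat_lit 61) (nat_lit 5) (nat_lit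 65) (nat_lit 5) (nat_lit 62) (nat_lit 4) (nat_lit 319) (nat_lit 233) (nat_lit 228)))) (XT.nd (nat_lit 78) (nat_lit 304) (nat_lit 0) (XT.lf (nat_lit 0) (nat_lit 4638840294) (nat_lit 304) (nat_lit 6081071800) (nat_lit 0) (nat_lit 517193240) (nat_lit 58) (nat_lit 5) (nat_lit 62) (nat_lit 4) (nat_lit 58) (nat_lit 4) (nat_lit 320) (nat_lit 233) (nat_lit 227)) (XT.nd (nat_lit 78) (nat_lit 76) (nat_lit 0) (XT.lf (nat_lit 0) (nat_lit 950524388) (nat_lit 228) (nat_lit 7612054270) (nat_lit 228) (nat_lit 2871770000) (nat_lit 55) (nat_lit 4) (nat_lit 58) (nat_lit 5) (nat_lit 58) (nat_lit 4) (nat_lit 321) (nat_lit 233) (nat_lit 226)) (XT.lf (nat_lit 0) (nat_lit 925228173) (nat_lit 304) (nat_lit 3462689734) (nat_lit 76) (nat_lit 7250047357) (nat_lit 54) (nat_lit 5) (nat_lit 58) (nat_lit 5) (nat_lit 55) (nat_lit 4) (nat_lit 322) (nat_lit 233) (nat_lit 225))))) (XT.nd (nat_lit 234) (nat_lit 456) (nat_lit 0) (XT.nd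 (nat_lit 78) (nat_lit 304) (nat_lit 0) (XT.lf (nat_lit 0) (nat_lit 3681565333) (nat_lit 152) (nat_lit 1050253961) (nat_lit 228) (nat_lit 7116475951) (nat_lit 52) (nat_lit 5) (nat_lit 54) (nat_lit 5) (nat_lit 55) (nat_lit 4) (nat_lit 323) (nat_lit 233) (nat_lit 224)) (XT.nd (nat_lit 78) (nat_lit 304) (nat_lit 0) (XT.lf (nat_lit 0) (nat_lit 8629557289) (nat_lit 228) (nat_lit 1107704776) (nat_lit 0) (nat_lit 2328422801) (nat_lit 52) (nat_lit 5) (nat_lit 55) (nat_lit 4) (nat_lit 52) (nat_lit 4) (nat_lit 324) (nat_lit 233) (nat_lit 223)) (XT.lf (nat_lit 0) (nat_lit 338082232) (nat_lit 304) (nat_lit 6148469453) (nat_lit 76) (nat_lit 5803285964) (nat_lit 48) (nat_lit 5) (nat_lit 52) (nat_lit 5) (nat_lit 49) (nat_lit 4) (nat_lit 325) (nat_lit 233) (nat_lit 222)))) (XT.nd (nat_lit 156) (nat_lit 304) (nat_lit 0) (XT.nd (nat_lit 78) (nat_lit 0) (nat_lit 0) (XT.lf (nat_lit 0) (nat_lit 966791109) (nat_lit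 152) (nat_lit 3131566734) (nat_lit 228) (nat_lit 8423132747) (nat_lit 46) (nat_lit 5) (nat_lit 48) (nat_lit 5) (nat_lit 49) (nat_lit 4) (nat_lit 326) (nat_lit 233) (nat_lit 221)) (XT.lf (nat_lit 0) (nat_lit 7959169325) (nat_lit 228) (nat_lit 4469246191) (nat_lit 0) (nat_lit 332097498) (nat_lit 46) (nat_lit 5) (nat_lit 49) (nat_lit 4) (nat_lit 46) (nat_lit 4) (nat_lit 327) (nat_lit 233) (nat_lit 220))) (XT.nd (nat_lit 78) (nat_lit 76) (nat_lit 0) (XT.lf (nat_lit 0) (nat_lit 2725876249) (nat_lit 228) (nat_lit 9191322014) (nat_lit 228) (nat_lit 1090116273) (nat_lit 43) (nat_lit 4) (nat_lit 46) (nat_lit 5) (nat_lit 46) (nat_lit 4) (nat_lit 328) (nat_lit 233) (nat_lit 219)) (XT.lf (nat_lit 0) (nat_lit 2649119511) (nat_lit 304) (nat_lit 3183817320) (nat_lit 76) (nat_lit 7428742883) (nat_lit 42) (nat_lit 5) (nat_lit 46) (nat_lit 5) (nat_lit 43) (nat_lit 4) (nat_lit 329) (nat_lit 233) (nat_lit 218))))))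 (XT.nd (nat_lit 546) (nat_lit 456) (nat_lit 0) (XT.nd (nat_lit 234) (nat_lit 380) (nat_lit 0) (XT.nd (nat_lit 78) (nat_lit 228) (nat_lit 0) (XT.lf (nat_lit 0) (nat_lit 4073677905) (nat_lit 152) (nat_lit 2370718410) (nat_lit 228) (nat_lit 7080028466) (nat_lit 40) (nat_lit 5) (nat_lit 42) (nat_lit 5) (nat_lit 43) (nat_lit 4) (nat_lit 330) (nat_lit 233) (nat_lit 217)) (XT.nd (nat_lit 78) (nat_lit 228) (nat_lit 0) (XT.lf (nat_lit 0) (nat_lit 10324621808) (nat_lit 228) (nat_lit 2314047005) (nat_lit 0) (nat_lit 1157295291) (nat_lit 40) (nat_lit 5) (nat_lit 43) (nat_lit 4) (nat_lit 40) (nat_lit 4) (nat_lit 331) (nat_lit 233) (nat_lit 216)) (XT.lf (nat_lit 0) (nat_lit 241488004) (nat_lit 228) (nat_lit 9086097947) (nat_lit 76) (nat_lit 4748014602) (nat_lit 37) (nat_lit 5) (nat_lit 40) (nat_lit 5) (nat_lit 38) (nat_lit 4) (nat_lit 332) (nat_lit 233) (nat_lit 215)))) (XT.nd (nat_lit 156) (nat_lit 228) (nat_lit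 0) (XT.nd (nat_lit 78) (nat_lit 152) (nat_lit 0) (XT.lf (nat_lit 0) (nat_lit 3948982695) (nat_lit 228) (nat_lit 1956963412) (nat_lit 76) (nat_lit 8458098225) (nat_lit 37) (nat_lit 5) (nat_lit 40) (nat_lit 5) (nat_lit 38) (nat_lit 4) (nat_lit 333) (nat_lit 233) (nat_lit 214)) (XT.lf (nat_lit 0) (nat_lit 5375373340) (nat_lit 152) (nat_lit 2375506405) (nat_lit 228) (nat_lit 6910805996) (nat_lit 35) (nat_lit 5) (nat_lit 37) (nat_lit 5) (nat_lit 38) (nat_lit 4) (nat_lit 334) (nat_lit 233) (nat_lit 213))) (XT.nd (nat_lit 78) (nat_lit 228) (nat_lit 0) (XT.lf (nat_lit 0) (nat_lit 11630861822) (nat_lit 228) (nat_lit 2128231200) (nat_lit 0) (nat_lit 1210281013) (nat_lit 35) (nat_lit 5) (nat_lit 38) (nat_lit 4) (nat_lit 35) (nat_lit 4) (nat_lit 335) (nat_lit 233) (nat_lit 212)) (XT.lf (nat_lit 0) (nat_lit 341870390) (nat_lit 228) (nat_lit 10079384076) (nat_lit 76) (nat_lit 4864749274) (nat_lit 32) (nat_lit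 5) (nat_lit 35) (nat_lit 5) (nat_lit 33) (nat_lit 4) (nat_lit 336) (nat_lit 233) (nat_lit 211))))) (XT.nd (nat_lit 234) (nat_lit 304) (nat_lit 0) (XT.nd (nat_lit 78) (nat_lit 152) (nat_lit 0) (XT.lf (nat_lit 0) (nat_lit 4021370976) (nat_lit 228) (nat_lit 2952522313) (nat_lit 76) (nat_lit 8638608410) (nat_lit 32) (nat_lit 5) (nat_lit 35) (nat_lit 5) (nat_lit 33) (nat_lit 4) (nat_lit 337) (nat_lit 233) (nat_lit 210)) (XT.nd (nat_lit 78) (nat_lit 0) (nat_lit 0) (XT.lf (nat_lit 0) (nat_lit 4363674903) (nat_lit 152) (nat_lit 3425550853) (nat_lit 228) (nat_lit 8160263962) (nat_lit 30) (nat_lit 5) (nat_lit 32) (nat_lit 5) (nat_lit 33) (nat_lit 4) (nat_lit 338) (nat_lit 233) (nat_lit 209)) (XT.lf (nat_lit 0) (nat_lit 11638836220) (nat_lit 228) (nat_lit 4448348192) (nat_lit 0) (nat_lit 210374563) (nat_lit 30) (nat_lit 5) (nat_lit 33) (nat_lit 4) (nat_lit 30) (nat_lit 4) (nat_lit 339) (nat_lit 233) (nat_lit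 208)))) (XT.nd (nat_lit 156) (nat_lit 76) (nat_lit 0) (XT.nd (nat_lit 78) (nat_lit 76) (nat_lit 0) (XT.lf (nat_lit 0) (nat_lit 2817471811) (nat_lit 152) (nat_lit 12785721577) (nat_lit 152) (nat_lit 1052931403) (nat_lit 28) (nat_lit 4) (nat_lit 30) (nat_lit 5) (nat_lit 30) (nat_lit 4) (nat_lit 340) (nat_lit 233) (nat_lit 207)) (XT.lf (nat_lit 0) (nat_lit 2592877627) (nat_lit 228) (nat_lit 6764713170) (nat_lit 76) (nat_lit 7667606673) (nat_lit 27) (nat_lit 5) (nat_lit 30) (nat_lit 5) (nat_lit 28) (nat_lit 4) (nat_lit 341) (nat_lit 233) (nat_lit 206))) (XT.nd (nat_lit 78) (nat_lit 0) (nat_lit 0) (XT.lf (nat_lit 0) (nat_lit 415197362) (nat_lit 76) (nat_lit 5855891766) (nat_lit 152) (nat_lit 11135644214) (nat_lit 26) (nat_lit 5) (nat_lit 27) (nat_lit 5) (nat_lit 28) (nat_lit 4) (nat_lit 342) (nat_lit 233) (nat_lit 205)) (XT.lf (nat_lit 0) (nat_lit 7846269661) (nat_lit 76) (nat_lit 2222640158) (nat_lit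 152) (nat_lit 7730556224) (nat_lit 26) (nat_lit 5) (nat_lit 27) (nat_lit 5) (nat_lit 28) (nat_lit 4) (nat_lit 343) (nat_lit 233) (nat_lit 204))))))) (XT.nd (nat_lit 1014) (nat_lit 380) (nat_lit 0) (XT.nd (nat_lit 468) (nat_lit 456) (nat_lit 0) (XT.nd (nat_lit 234) (nat_lit 76) (nat_lit 0) (XT.nd (nat_lit 78) (nat_lit 228) (nat_lit 0) (XT.lf (nat_lit 0) (nat_lit 13937535568) (nat_lit 152) (nat_lit 2819560619) (nat_lit 0) (nat_lit 1448206229) (nat_lit 26) (nat_lit 5) (nat_lit 28) (nat_lit 4) (nat_lit 26) (nat_lit 4) (nat_lit 344) (nat_lit 233) (nat_lit 203)) (XT.nd (nat_lit 78) (nat_lit 76) (nat_lit 0) (XT.lf (nat_lit 0) (nat_lit 4495503666) (nat_lit 152) (nat_lit 13435880976) (nat_lit 152) (nat_lit 691681296) (nat_lit 24) (nat_lit 4) (nat_lit 26) (nat_lit 5) (nat_lit 26) (nat_lit 4) (nat_lit 345) (nat_lit 233) (nat_lit 202)) (XT.lf (nat_lit 0) (nat_lit 2906130104) (nat_lit 228) (nat_lit 7092202502)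 (nat_lit 76) (nat_lit 9055007810) (nat_lit 23) (nat_lit 5) (nat_lit 26) (nat_lit 5) (nat_lit 24) (nat_lit 4) (nat_lit 346) (nat_lit 233) (nat_lit 201)))) (XT.nd (nat_lit 78) (nat_lit 0) (nat_lit 0) (XT.lf (nat_lit 0) (nat_lit 52795514) (nat_lit 76) (nat_lit 6491382746) (nat_lit 152) (nat_lit 12953777986) (nat_lit 22) (nat_lit 5) (nat_lit 23) (nat_lit 5) (nat_lit 24) (nat_lit 4) (nat_lit 347) (nat_lit 233) (nat_lit 200)) (XT.nd (nat_lit 78) (nat_lit 0) (nat_lit 0) (XT.lf (nat_lit 0) (nat_lit 7462859522) (nat_lit 76) (nat_lit 2846494342) (nat_lit 152) (nat_lit 9646041092) (nat_lit 22) (nat_lit 5) (nat_lit 23) (nat_lit 5) (nat_lit 24) (nat_lit 4) (nat_lit 348) (nat_lit 233) (nat_lit 199)) (XT.lf (nat_lit 0) (nat_lit 14143758263) (nat_lit 152) (nat_lit 5433169380) (nat_lit 0) (nat_lit 850964262) (nat_lit 22) (nat_lit 5) (nat_lit 24) (nat_lit 4) (nat_lit 22) (nat_lit 4) (nat_lit 349) (nat_lit 233)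 (nat_lit 198))))) (XT.nd (nat_lit 234) (nat_lit 228) (nat_lit 0) (XT.nd (nat_lit 78) (nat_lit 76) (nat_lit 0) (XT.lf (nat_lit 0) (nat_lit 1753613623) (nat_lit 152) (nat_lit 16333696592) (nat_lit 152) (nat_lit 2827452693) (nat_lit 20) (nat_lit 4) (nat_lit 22) (nat_lit 5) (nat_lit 22) (nat_lit 4) (nat_lit 350) (nat_lit 233) (nat_lit 197)) (XT.nd (nat_lit 78) (nat_lit 0) (nat_lit 0) (XT.lf (nat_lit 0) (nat_lit 723212896) (nat_lit 228) (nat_lit 12245354631) (nat_lit 76) (nat_lit 8447344874) (nat_lit 19) (nat_lit 5) (nat_lit 22) (nat_lit 5) (nat_lit 20) (nat_lit 4) (nat_lit 351) (nat_lit 233) (nat_lit 196)) (XT.lf (nat_lit 0) (nat_lit 4274228406) (nat_lit 228) (nat_lit 5237990147) (nat_lit 76) (nat_lit 12420538908) (nat_lit 19) (nat_lit 5) (nat_lit 22) (nat_lit 5) (nat_lit 20) (nat_lit 4) (nat_lit 352) (nat_lit 233) (nat_lit 195)))) (XT.nd (nat_lit 156) (nat_lit 152) (nat_lit 0) (XT.nd (nat_lit 78)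 (nat_lit 0) (nat_lit 0) (XT.lf (nat_lit 0) (nat_lit 1931945525) (nat_lit 76) (nat_lit 5970495968) (nat_lit 152) (nat_lit 14563566453) (nat_lit 18) (nat_lit 5) (nat_lit 19) (nat_lit 5) (nat_lit 20) (nat_lit 4) (nat_lit 353) (nat_lit 233) (nat_lit 194)) (XT.lf (nat_lit 0) (nat_lit 9339840725) (nat_lit 76) (nat_lit 2305232625) (nat_lit 152) (nat_lit 11370034925) (nat_lit 18) (nat_lit 5) (nat_lit 19) (nat_lit 5) (nat_lit 20) (nat_lit 4) (nat_lit 354) (nat_lit 233) (nat_lit 193))) (XT.nd (nat_lit 78) (nat_lit 152) (nat_lit 0) (XT.lf (nat_lit 0) (nat_lit 15467824732) (nat_lit 152) (nat_lit 6707940076) (nat_lit 0) (nat_lit 1405900523) (nat_lit 18) (nat_lit 5) (nat_lit 20) (nat_lit 4) (nat_lit 18) (nat_lit 4) (nat_lit 355) (nat_lit 233) (nat_lit 192)) (XT.lf (nat_lit 0) (nat_lit 372165019) (nat_lit 152) (nat_lit 19014553586) (nat_lit 152) (nat_lit 4779075076) (nat_lit 16) (nat_lit 4) (nat_lit 18) (nat_lit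 5) (nat_lit 18) (nat_lit 4) (nat_lit 356) (nat_lit 233) (nat_lit 191)))))) (XT.nd (nat_lit 546) (nat_lit 228) (nat_lit 0) (XT.nd (nat_lit 234) (nat_lit 76) (nat_lit 0) (XT.nd (nat_lit 78) (nat_lit 76) (nat_lit 0) (XT.lf (nat_lit 0) (nat_lit 7722290049) (nat_lit 152) (nat_lit 15724225708) (nat_lit 152) (nat_lit 1320247877) (nat_lit 16) (nat_lit 4) (nat_lit 18) (nat_lit 5) (nat_lit 18) (nat_lit 4) (nat_lit 357) (nat_lit 233) (nat_lit 190)) (XT.nd (nat_lit 78) (nat_lit 0) (nat_lit 0) (XT.lf (nat_lit 0) (nat_lit 2155036773) (nat_lit 228) (nat_lit 10192844753) (nat_lit 76) (nat_lit 13038557871) (nat_lit 15) (nat_lit 5) (nat_lit 18) (nat_lit 5) (nat_lit 16) (nat_lit 4) (nat_lit 358) (nat_lit 233) (nat_lit 189)) (XT.lf (nat_lit 0) (nat_lit 5665761616) (nat_lit 228) (nat_lit 3224900093) (nat_lit 76) (nat_lit 17134936385) (nat_lit 15) (nat_lit 5) (nat_lit 18) (nat_lit 5) (nat_lit 16) (nat_lit 4) (nat_lit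 359) (nat_lit 233) (nat_lit 188)))) (XT.nd (nat_lit 156) (nat_lit 0) (nat_lit 0) (XT.nd (nat_lit 78) (nat_lit 0) (nat_lit 0) (XT.lf (nat_lit 0) (nat_lit 3955322509) (nat_lit 76) (nat_lit 5323455536) (nat_lit 152) (nat_lit 17405260268) (nat_lit 14) (nat_lit 5) (nat_lit 15) (nat_lit 5) (nat_lit 16) (nat_lit 4) (nat_lit 360) (nat_lit 233) (nat_lit 187)) (XT.lf (nat_lit 0) (nat_lit 11343841027) (nat_lit 76) (nat_lit 1648349818) (nat_lit 152) (nat_lit 14370296112) (nat_lit 14) (nat_lit 5) (nat_lit 15) (nat_lit 5) (nat_lit 16) (nat_lit 4) (nat_lit 361) (nat_lit 233) (nat_lit 186))) (XT.nd (nat_lit 78) (nat_lit 0) (nat_lit 0) (XT.lf (nat_lit 0) (nat_lit 16797865521) (nat_lit 152) (nat_lit 9199793180) (nat_lit 0) (nat_lit 2064219518) (nat_lit 14) (nat_lit 5) (nat_lit 16) (nat_lit 4) (nat_lit 14) (nat_lit 4) (nat_lit 362) (nat_lit 233) (nat_lit 185)) (XT.lf (nat_lit 0) (nat_lit 20695503797) (nat_lit 152)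 (nat_lit 2262575708) (nat_lit 0) (nat_lit 5824852426) (nat_lit 14) (nat_lit 5) (nat_lit 16) (nat_lit 4) (nat_lit 14) (nat_lit 4) (nat_lit 363) (nat_lit 233) (nat_lit 184))))) (XT.nd (nat_lit 234) (nat_lit 76) (nat_lit 0) (XT.nd (nat_lit 78) (nat_lit 76) (nat_lit 0) (XT.lf (nat_lit 0) (nat_lit 4910739290) (nat_lit 76) (nat_lit 19809132168) (nat_lit 76) (nat_lit 4805465877) (nat_lit 13) (nat_lit 4) (nat_lit 14) (nat_lit 5) (nat_lit 14) (nat_lit 4) (nat_lit 364) (nat_lit 233) (nat_lit 183)) (XT.nd (nat_lit 78) (nat_lit 76) (nat_lit 0) (XT.lf (nat_lit 0) (nat_lit 12278454263) (nat_lit 76) (nat_lit 16572402355) (nat_lit 76) (nat_lit 1439595365) (nat_lit 13) (nat_lit 4) (nat_lit 14) (nat_lit 5) (nat_lit 14) (nat_lit 4) (nat_lit 365) (nat_lit 233) (nat_lit 182)) (XT.lf (nat_lit 0) (nat_lit 1951439402) (nat_lit 152) (nat_lit 11296764322) (nat_lit 76) (nat_lit 17830832212) (nat_lit 12) (nat_lit 5) (nat_lit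 14) (nat_lit 5) (nat_lit 13) (nat_lit 4) (nat_lit 366) (nat_lit 233) (nat_lit 181)))) (XT.nd (nat_lit 156) (nat_lit 0) (nat_lit 0) (XT.nd (nat_lit 78) (nat_lit 76) (nat_lit 0) (XT.lf (nat_lit 0) (nat_lit 5380073797) (nat_lit 152) (nat_lit 4458363995) (nat_lit 76) (nat_lit 22053480438) (nat_lit 12) (nat_lit 5) (nat_lit 14) (nat_lit 5) (nat_lit 13) (nat_lit 4) (nat_lit 367) (nat_lit 233) (nat_lit 180)) (XT.lf (nat_lit 0) (nat_lit 2573229812) (nat_lit 76) (nat_lit 6328901049) (nat_lit 152) (nat_lit 23827351376) (nat_lit 11) (nat_lit 5) (nat_lit 12) (nat_lit 5) (nat_lit 13) (nat_lit 4) (nat_lit 368) (nat_lit 233) (nat_lit 179))) (XT.nd (nat_lit 78) (nat_lit 0) (nat_lit 0) (XT.lf (nat_lit 0) (nat_lit 9845601540) (nat_lit 76) (nat_lit 2695500536) (nat_lit 152) (nat_lit 21050745313) (nat_lit 11) (nat_lit 5) (nat_lit 12) (nat_lit 5) (nat_lit 13) (nat_lit 4) (nat_lit 369) (nat_lit 233) (nat_lit 178)) (XT.lf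 (nat_lit 0) (nat_lit 16266261749) (nat_lit 152) (nat_lit 17214507067) (nat_lit 0) (nat_lit 1000015557) (nat_lit 11) (nat_lit 5) (nat_lit 13) (nat_lit 4) (nat_lit 11) (nat_lit 4) (nat_lit 370) (nat_lit 233) (nat_lit 177))))))))
noncomputable def xc44 : XT := (XT.nd (nat_lit 2028) (nat_lit 76) (nat_lit 0) (XT.nd (nat_lit 1014) (nat_lit 228) (nat_lit 0) (XT.nd (nat_lit 468) (nat_lit 76) (nat_lit 0) (XT.nd (nat_lit 234) (nat_lit 76) (nat_lit 0) (XT.nd (nat_lit 78) (nat_lit 76) (nat_lit 0) (XT.lf (nat_lit 0) (nat_lit 20097782644) (nat_lit 152) (nat_lit 10572246503) (nat_lit 0) (nat_lit 4726533245) (nat_lit 11) (nat_lit 5) (nat_lit 13) (nat_lit 4) (nat_lit 11) (nat_lit 4) (nat_lit 371) (nat_lit 233) (nat_lit 176)) (XT.nd (nat_lit 78) (nat_lit 76) (nat_lit 0) (XT.lf (nat_lit 0) (nat_lit 24013101893) (nat_lit 152) (nat_lit 3787749441) (nat_lit 0) (nat_lit 8539907634) (nat_lit 11) (nat_lit 5) (nat_lit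 13) (nat_lit 4) (nat_lit 11) (nat_lit 4) (nat_lit 372) (nat_lit 233) (nat_lit 175)) (XT.lf (nat_lit 0) (nat_lit 3207502239) (nat_lit 76) (nat_lit 24838970882) (nat_lit 76) (nat_lit 9266801030) (nat_lit 10) (nat_lit 4) (nat_lit 11) (nat_lit 5) (nat_lit 11) (nat_lit 4) (nat_lit 373) (nat_lit 233) (nat_lit 174)))) (XT.nd (nat_lit 78) (nat_lit 76) (nat_lit 0) (XT.lf (nat_lit 0) (nat_lit 10435429253) (nat_lit 76) (nat_lit 21773778750) (nat_lit 76) (nat_lit 6105516090) (nat_lit 10) (nat_lit 4) (nat_lit 11) (nat_lit 5) (nat_lit 11) (nat_lit 4) (nat_lit 374) (nat_lit 233) (nat_lit 173)) (XT.nd (nat_lit 78) (nat_lit 76) (nat_lit 0) (XT.lf (nat_lit 0) (nat_lit 17826963623) (nat_lit 76) (nat_lit 18640845457) (nat_lit 76) (nat_lit 2879288809) (nat_lit 10) (nat_lit 4) (nat_lit 11) (nat_lit 5) (nat_lit 11) (nat_lit 4) (nat_lit 375) (nat_lit 233) (nat_lit 172)) (XT.lf (nat_lit 0) (nat_lit 406607558) (nat_lit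 152) (nat_lit 15026719992) (nat_lit 76) (nat_lit 24977850474) (nat_lit 9) (nat_lit 5) (nat_lit 11) (nat_lit 5) (nat_lit 10) (nat_lit 4) (nat_lit 376) (nat_lit 233) (nat_lit 171))))) (XT.nd (nat_lit 234) (nat_lit 0) (nat_lit 0) (XT.nd (nat_lit 78) (nat_lit 76) (nat_lit 0) (XT.lf (nat_lit 0) (nat_lit 3705579814) (nat_lit 152) (nat_lit 8417744845) (nat_lit 76) (nat_lit 29383838617) (nat_lit 9) (nat_lit 5) (nat_lit 11) (nat_lit 5) (nat_lit 10) (nat_lit 4) (nat_lit 377) (nat_lit 233) (nat_lit 170)) (XT.nd (nat_lit 78) (nat_lit 76) (nat_lit 0) (XT.lf (nat_lit 0) (nat_lit 7076695851) (nat_lit 152) (nat_lit 1659756506) (nat_lit 76) (nat_lit 33900389268) (nat_lit 9) (nat_lit 5) (nat_lit 11) (nat_lit 5) (nat_lit 10) (nat_lit 4) (nat_lit 378) (nat_lit 233) (nat_lit 169)) (XT.lf (nat_lit 0) (nat_lit 5357698048) (nat_lit 76) (nat_lit 5216704727) (nat_lit 152) (nat_lit 33225252353) (nat_lit 8) (nat_lit 5) (nat_lit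 9) (nat_lit 5) (nat_lit 10) (nat_lit 4) (nat_lit 379) (nat_lit 233) (nat_lit 168)))) (XT.nd (nat_lit 156) (nat_lit 0) (nat_lit 0) (XT.nd (nat_lit 78) (nat_lit 0) (nat_lit 0) (XT.lf (nat_lit 0) (nat_lit 12572347037) (nat_lit 76) (nat_lit 1595713473) (nat_lit 152) (nat_lit 30829570211) (nat_lit 8) (nat_lit 5) (nat_lit 9) (nat_lit 5) (nat_lit 10) (nat_lit 4) (nat_lit 380) (nat_lit 233) (nat_lit 167)) (XT.lf (nat_lit 0) (nat_lit 17864847753) (nat_lit 152) (nat_lit 26295151961) (nat_lit 0) (nat_lit 2071694310) (nat_lit 8) (nat_lit 5) (nat_lit 10) (nat_lit 4) (nat_lit 8) (nat_lit 4) (nat_lit 381) (nat_lit 233) (nat_lit 166))) (XT.nd (nat_lit 78) (nat_lit 0) (nat_lit 0) (XT.lf (nat_lit 0) (nat_lit 21663878873) (nat_lit 152) (nat_lit 20042089650) (nat_lit 0) (nat_lit 5797078294) (nat_lit 8) (nat_lit 5) (nat_lit 10) (nat_lit 4) (nat_lit 8) (nat_lit 4) (nat_lit 382) (nat_lit 233) (nat_lit 165)) (XT.lf (nat_lit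 0) (nat_lit 25553134439) (nat_lit 152) (nat_lit 13645293938) (nat_lit 0) (nat_lit 9614831786) (nat_lit 8) (nat_lit 5) (nat_lit 10) (nat_lit 4) (nat_lit 8) (nat_lit 4) (nat_lit 383) (nat_lit 233) (nat_lit 164)))))) (XT.nd (nat_lit 468) (nat_lit 152) (nat_lit 0) (XT.nd (nat_lit 234) (nat_lit 0) (nat_lit 0) (XT.nd (nat_lit 78) (nat_lit 76) (nat_lit 0) (XT.lf (nat_lit 0) (nat_lit 29536012828) (nat_lit 152) (nat_lit 7099175392) (nat_lit 0) (nat_lit 13528290686) (nat_lit 8) (nat_lit 5) (nat_lit 10) (nat_lit 4) (nat_lit 8) (nat_lit 4) (nat_lit 384) (nat_lit 233) (nat_lit 163)) (XT.nd (nat_lit 78) (nat_lit 76) (nat_lit 0) (XT.lf (nat_lit 0) (nat_lit 33615994227) (nat_lit 152) (nat_lit 398014102) (nat_lit 0) (nat_lit 17540874522) (nat_lit 8) (nat_lit 5) (nat_lit 10) (nat_lit 4) (nat_lit 8) (nat_lit 4) (nat_lit 385) (nat_lit 233) (nat_lit 162)) (XT.lf (nat_lit 0) (nat_lit 6592692491) (nat_lit 76) (nat_lit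 31267324168) (nat_lit 76) (nat_lit 15126769937) (nat_lit 7) (nat_lit 4) (nat_lit 8) (nat_lit 5) (nat_lit 8) (nat_lit 4) (nat_lit 386) (nat_lit 233) (nat_lit 161)))) (XT.nd (nat_lit 78) (nat_lit 0) (nat_lit 0) (XT.lf (nat_lit 0) (nat_lit 13761535968) (nat_lit 76) (nat_lit 28452362476) (nat_lit 76) (nat_lit 12248279578) (nat_lit 7) (nat_lit 4) (nat_lit 8) (nat_lit 5) (nat_lit 8) (nat_lit 4) (nat_lit 387) (nat_lit 233) (nat_lit 160)) (XT.nd (nat_lit 78) (nat_lit 0) (nat_lit 0) (XT.lf (nat_lit 0) (nat_lit 21106859104) (nat_lit 76) (nat_lit 25570682740) (nat_lit 76) (nat_lit 9304921524) (nat_lit 7) (nat_lit 4) (nat_lit 8) (nat_lit 5) (nat_lit 8) (nat_lit 4) (nat_lit 388) (nat_lit 233) (nat_lit 159)) (XT.lf (nat_lit 0) (nat_lit 28635080144) (nat_lit 76) (nat_lit 22619766986) (nat_lit 76) (nat_lit 6294123910) (nat_lit 7) (nat_lit 4) (nat_lit 8) (nat_lit 5) (nat_lit 8) (nat_lit 4) (nat_lit 389) (nat_lit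 233) (nat_lit 158))))) (XT.nd (nat_lit 234) (nat_lit 76) (nat_lit 0) (XT.nd (nat_lit 78) (nat_lit 76) (nat_lit 0) (XT.lf (nat_lit 0) (nat_lit 36352777144) (nat_lit 76) (nat_lit 19597036746) (nat_lit 76) (nat_lit 3213255940) (nat_lit 7) (nat_lit 4) (nat_lit 8) (nat_lit 5) (nat_lit 8) (nat_lit 4) (nat_lit 390) (nat_lit 233) (nat_lit 157)) (XT.nd (nat_lit 78) (nat_lit 76) (nat_lit 0) (XT.lf (nat_lit 0) (nat_lit 44266693723) (nat_lit 76) (nat_lit 16499850798) (nat_lit 76) (nat_lit 59625594) (nat_lit 7) (nat_lit 4) (nat_lit 8) (nat_lit 5) (nat_lit 8) (nat_lit 4) (nat_lit 391) (nat_lit 233) (nat_lit 156)) (XT.lf (nat_lit 0) (nat_lit 3107673921) (nat_lit 152) (nat_lit 10186447529) (nat_lit 76) (nat_lit 49244689620) (nat_lit 6) (nat_lit 5) (nat_lit 8) (nat_lit 5) (nat_lit 7) (nat_lit 4) (nat_lit 392) (nat_lit 233) (nat_lit 155)))) (XT.nd (nat_lit 156) (nat_lit 0) (nat_lit 0) (XT.nd (nat_lit 78) (nat_lit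 76) (nat_lit 0) (XT.lf (nat_lit 0) (nat_lit 6350620801) (nat_lit 152) (nat_lit 3656469621) (nat_lit 76) (nat_lit 54296273788) (nat_lit 6) (nat_lit 5) (nat_lit 8) (nat_lit 5) (nat_lit 7) (nat_lit 4) (nat_lit 393) (nat_lit 233) (nat_lit 154)) (XT.lf (nat_lit 0) (nat_lit 3097173301) (nat_lit 76) (nat_lit 6605810821) (nat_lit 152) (nat_lit 56417511292) (nat_lit 5) (nat_lit 5) (nat_lit 6) (nat_lit 5) (nat_lit 7) (nat_lit 4) (nat_lit 394) (nat_lit 233) (nat_lit 153))) (XT.nd (nat_lit 78) (nat_lit 0) (nat_lit 0) (XT.lf (nat_lit 0) (nat_lit 10096028531) (nat_lit 76) (nat_lit 3079372017) (nat_lit 152) (nat_lit 54816160695) (nat_lit 5) (nat_lit 5) (nat_lit 6) (nat_lit 5) (nat_lit 7) (nat_lit 4) (nat_lit 395) (nat_lit 233) (nat_lit 152)) (XT.lf (nat_lit 0) (nat_lit 16740231768) (nat_lit 152) (nat_lit 52651006665) (nat_lit 0) (nat_lit 527878354) (nat_lit 5) (nat_lit 5) (nat_lit 7) (nat_lit 4) (nat_lit 5)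 (nat_lit 4) (nat_lit 396) (nat_lit 233) (nat_lit 151))))))) (XT.nd (nat_lit 34086) (nat_lit 0) (nat_lit 3344) (XT.nd (nat_lit 468) (nat_lit 76) (nat_lit 0) (XT.nd (nat_lit 234) (nat_lit 0) (nat_lit 0) (XT.nd (nat_lit 78) (nat_lit 0) (nat_lit 0) (XT.lf (nat_lit 0) (nat_lit 20425921874) (nat_lit 152) (nat_lit 47310490566) (nat_lit 0) (nat_lit 4167673999) (nat_lit 5) (nat_lit 5) (nat_lit 7) (nat_lit 4) (nat_lit 5) (nat_lit 4) (nat_lit 397) (nat_lit 233) (nat_lit 150)) (XT.nd (nat_lit 78) (nat_lit 0) (nat_lit 0) (XT.lf (nat_lit 0) (nat_lit 24206090564) (nat_lit 152) (nat_lit 41839717138) (nat_lit 0) (nat_lit 7903284961) (nat_lit 5) (nat_lit 5) (nat_lit 7) (nat_lit 4) (nat_lit 5) (nat_lit 4) (nat_lit 398) (nat_lit 233) (nat_lit 149)) (XT.lf (nat_lit 0) (nat_lit 28084040899) (nat_lit 152) (nat_lit 36233906093) (nat_lit 0) (nat_lit 11737975366) (nat_lit 5) (nat_lit 5) (nat_lit 7) (nat_lit 4) (nat_lit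 5) (nat_lit 4) (nat_lit 399) (nat_lit 233) (nat_lit 148)))) (XT.nd (nat_lit 78) (nat_lit 0) (nat_lit 0) (XT.lf (nat_lit 0) (nat_lit 32063161380) (nat_lit 152) (nat_lit 30488159150) (nat_lit 0) (nat_lit 15675095913) (nat_lit 5) (nat_lit 5) (nat_lit 7) (nat_lit 4) (nat_lit 5) (nat_lit 4) (nat_lit 400) (nat_lit 233) (nat_lit 147)) (XT.nd (nat_lit 78) (nat_lit 0) (nat_lit 0) (XT.lf (nat_lit 0) (nat_lit 36146928907) (nat_lit 152) (nat_lit 24597455754) (nat_lit 0) (nat_lit 19718086807) (nat_lit 5) (nat_lit 5) (nat_lit 7) (nat_lit 4) (nat_lit 5) (nat_lit 4) (nat_lit 401) (nat_lit 233) (nat_lit 146)) (XT.lf (nat_lit 0) (nat_lit 40338911821) (nat_lit 152) (nat_lit 18556648688) (nat_lit 0) (nat_lit 23870480756) (nat_lit 5) (nat_lit 5) (nat_lit 7) (nat_lit 4) (nat_lit 5) (nat_lit 4) (nat_lit 402) (nat_lit 233) (nat_lit 145))))) (XT.nd (nat_lit 234) (nat_lit 0) (nat_lit 0) (XT.nd (nat_lit 78) (nat_lit 76)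 (nat_lit 0) (XT.lf (nat_lit 0) (nat_lit 44642773019) (nat_lit 152) (nat_lit 12360459576) (nat_lit 0) (nat_lit 28135906066) (nat_lit 5) (nat_lit 5) (nat_lit 7) (nat_lit 4) (nat_lit 5) (nat_lit 4) (nat_lit 403) (nat_lit 233) (nat_lit 144)) (XT.nd (nat_lit 78) (nat_lit 76) (nat_lit 0) (XT.lf (nat_lit 0) (nat_lit 49062273158) (nat_lit 152) (nat_lit 6003474273) (nat_lit 0) (nat_lit 32518089809) (nat_lit 5) (nat_lit 5) (nat_lit 7) (nat_lit 4) (nat_lit 5) (nat_lit 4) (nat_lit 404) (nat_lit 233) (nat_lit 143)) (XT.lf (nat_lit 0) (nat_lit 530208138) (nat_lit 76) (nat_lit 53076162483) (nat_lit 76) (nat_lit 36495749623) (nat_lit 4) (nat_lit 4) (nat_lit 5) (nat_lit 5) (nat_lit 5) (nat_lit 4) (nat_lit 405) (nat_lit 233) (nat_lit 142)))) (XT.nd (nat_lit 156) (nat_lit 0) (nat_lit 0) (XT.nd (nat_lit 78) (nat_lit 0) (nat_lit 0) (XT.lf (nat_lit 0) (nat_lit 7358846450) (nat_lit 76) (nat_lit 50975632755) (nat_lit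 76) (nat_lit 34360045612) (nat_lit 4) (nat_lit 4) (nat_lit 5) (nat_lit 5) (nat_lit 5) (nat_lit 4) (nat_lit 406) (nat_lit 233) (nat_lit 141)) (XT.lf (nat_lit 0) (nat_lit 14368926522) (nat_lit 76) (nat_lit 48822946152) (nat_lit 76) (nat_lit 32173209221) (nat_lit 4) (nat_lit 4) (nat_lit 5) (nat_lit 5) (nat_lit 5) (nat_lit 4) (nat_lit 407) (nat_lit 233) (nat_lit 140))) (XT.nd (nat_lit 33150) (nat_lit 0) (nat_lit 5548) (XT.lf (nat_lit 0) (nat_lit 21566573669) (nat_lit 76) (nat_lit 46616221686) (nat_lit 76) (nat_lit 29933329620) (nat_lit 4) (nat_lit 4) (nat_lit 5) (nat_lit 5) (nat_lit 5) (nat_lit 4) (nat_lit 408) (nat_lit 233) (nat_lit 139)) (XT.lf (nat_lit 0) (nat_lit 716192424) (nat_lit 304) (nat_lit 2110176253) (nat_lit 304) (nat_lit 2110176253) (nat_lit 77) (nat_lit 4) (nat_lit 81) (nat_lit 5) (nat_lit 81) (nat_lit 4) (nat_lit 312) (nat_lit 234) (nat_lit 234)))))) (XT.nd (nat_lit 546) (nat_lit 988)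 (nat_lit 0) (XT.nd (nat_lit 234) (nat_lit 608) (nat_lit 0) (XT.nd (nat_lit 78) (nat_lit 608) (nat_lit 0) (XT.lf (nat_lit 0) (nat_lit 8347525167) (nat_lit 304) (nat_lit 1254819346) (nat_lit 304) (nat_lit 423422659) (nat_lit 77) (nat_lit 4) (nat_lit 81) (nat_lit 5) (nat_lit 81) (nat_lit 4) (nat_lit 313) (nat_lit 234) (nat_lit 233)) (XT.nd (nat_lit 78) (nat_lit 304) (nat_lit 0) (XT.lf (nat_lit 0) (nat_lit 3396696732) (nat_lit 304) (nat_lit 4980241000) (nat_lit 0) (nat_lit 1805844366) (nat_lit 73) (nat_lit 5) (nat_lit 77) (nat_lit 4) (nat_lit 73) (nat_lit 4) (nat_lit 314) (nat_lit 234) (nat_lit 232)) (XT.lf (nat_lit 0) (nat_lit 1864058212) (nat_lit 304) (nat_lit 5416683604) (nat_lit 304) (nat_lit 3064985495) (nat_lit 69) (nat_lit 4) (nat_lit 73) (nat_lit 5) (nat_lit 73) (nat_lit 4) (nat_lit 315) (nat_lit 234) (nat_lit 231)))) (XT.nd (nat_lit 156) (nat_lit 304) (nat_lit 0) (XT.nd (nat_lit 78) (nat_lit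 228) (nat_lit 0) (XT.lf (nat_lit 0) (nat_lit 714297694) (nat_lit 380) (nat_lit 1640358977) (nat_lit 76) (nat_lit 8159912811) (nat_lit 68) (nat_lit 5) (nat_lit 73) (nat_lit 5) (nat_lit 69) (nat_lit 4) (nat_lit 316) (nat_lit 234) (nat_lit 230)) (XT.lf (nat_lit 0) (nat_lit 4518161054) (nat_lit 304) (nat_lit 5348787788) (nat_lit 0) (nat_lit 821507283) (nat_lit 65) (nat_lit 5) (nat_lit 69) (nat_lit 4) (nat_lit 65) (nat_lit 4) (nat_lit 317) (nat_lit 234) (nat_lit 229))) (XT.nd (nat_lit 78) (nat_lit 76) (nat_lit 0) (XT.lf (nat_lit 0) (nat_lit 1569675176) (nat_lit 228) (nat_lit 6835766061) (nat_lit 228) (nat_lit 2463110701) (nat_lit 62) (nat_lit 4) (nat_lit 65) (nat_lit 5) (nat_lit 65) (nat_lit 4) (nat_lit 318) (nat_lit 234) (nat_lit 228)) (XT.lf (nat_lit 0) (nat_lit 1297886962) (nat_lit 304) (nat_lit 2394257047) (nat_lit 76) (nat_lit 7362511937) (nat_lit 61) (nat_lit 5) (nat_lit 65) (nat_lit 5) (nat_lit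 62) (nat_lit 4) (nat_lit 319) (nat_lit 234) (nat_lit 227))))) (XT.nd (nat_lit 234) (nat_lit 456) (nat_lit 0) (XT.nd (nat_lit 78) (nat_lit 304) (nat_lit 0) (XT.lf (nat_lit 0) (nat_lit 4654224928) (nat_lit 228) (nat_lit 429710461) (nat_lit 304) (nat_lit 6162889783) (nat_lit 58) (nat_lit 5) (nat_lit 61) (nat_lit 5) (nat_lit 62) (nat_lit 4) (nat_lit 320) (nat_lit 234) (nat_lit 226)) (XT.nd (nat_lit 78) (nat_lit 76) (nat_lit 0) (XT.lf (nat_lit 0) (nat_lit 367458937) (nat_lit 228) (nat_lit 8589948774) (nat_lit 228) (nat_lit 2488200104) (nat_lit 55) (nat_lit 4) (nat_lit 58) (nat_lit 5) (nat_lit 58) (nat_lit 4) (nat_lit 321) (nat_lit 234) (nat_lit 225)) (XT.lf (nat_lit 0) (nat_lit 1260925691) (nat_lit 304) (nat_lit 4125194425) (nat_lit 76) (nat_lit 6264234855) (nat_lit 54) (nat_lit 5) (nat_lit 58) (nat_lit 5) (nat_lit 55) (nat_lit 4) (nat_lit 322) (nat_lit 234) (nat_lit 224)))) (XT.nd (nat_lit 156) (nat_lit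 304) (nat_lit 0) (XT.nd (nat_lit 78) (nat_lit 0) (nat_lit 0) (XT.lf (nat_lit 0) (nat_lit 2942014808) (nat_lit 152) (nat_lit 2079181780) (nat_lit 228) (nat_lit 6840906648) (nat_lit 52) (nat_lit 5) (nat_lit 54) (nat_lit 5) (nat_lit 55) (nat_lit 4) (nat_lit 323) (nat_lit 234) (nat_lit 223)) (XT.lf (nat_lit 0) (nat_lit 8870154458) (nat_lit 228) (nat_lit 1914136760) (nat_lit 0) (nat_lit 1296692885) (nat_lit 52) (nat_lit 5) (nat_lit 55) (nat_lit 4) (nat_lit 52) (nat_lit 4) (nat_lit 324) (nat_lit 234) (nat_lit 222))) (XT.nd (nat_lit 78) (nat_lit 0) (nat_lit 0) (XT.lf (nat_lit 0) (nat_lit 512236992) (nat_lit 304) (nat_lit 7051719406) (nat_lit 76) (nat_lit 4742544165) (nat_lit 48) (nat_lit 5) (nat_lit 52) (nat_lit 5) (nat_lit 49) (nat_lit 4) (nat_lit 325) (nat_lit 234) (nat_lit 221)) (XT.lf (nat_lit 0) (nat_lit 4225585894) (nat_lit 304) (nat_lit 16629804) (nat_lit 76) (nat_lit 8297371087) (nat_lit 48)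 (nat_lit 5) (nat_lit 52) (nat_lit 5) (nat_lit 49) (nat_lit 4) (nat_lit 326) (nat_lit 234) (nat_lit 220))))))))
noncomputable def xc45 : XT := (XT.nd (nat_lit 2028) (nat_lit 836) (nat_lit 0) (XT.nd (nat_lit 1014) (nat_lit 836) (nat_lit 0) (XT.nd (nat_lit 468) (nat_lit 532) (nat_lit 0) (XT.nd (nat_lit 234) (nat_lit 380) (nat_lit 0) (XT.nd (nat_lit 78) (nat_lit 304) (nat_lit 0) (XT.lf (nat_lit 0) (nat_lit 7250164127) (nat_lit 152) (nat_lit 795693620) (nat_lit 228) (nat_lit 4733992389) (nat_lit 46) (nat_lit 5) (nat_lit 48) (nat_lit 5) (nat_lit 49) (nat_lit 4) (nat_lit 327) (nat_lit 234) (nat_lit 219)) (XT.nd (nat_lit 78) (nat_lit 76) (nat_lit 0) (XT.lf (nat_lit 0) (nat_lit 1591120584) (nat_lit 228) (nat_lit 10357949796) (nat_lit 228) (nat_lit 1079249782) (nat_lit 43) (nat_lit 4) (nat_lit 46) (nat_lit 5) (nat_lit 46) (nat_lit 4) (nat_lit 328) (nat_lit 234) (nat_lit 218)) (XT.lf (nat_lit 0) (nat_lit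 2623623967) (nat_lit 304) (nat_lit 4399660047) (nat_lit 76) (nat_lit 6260505332) (nat_lit 42) (nat_lit 5) (nat_lit 46) (nat_lit 5) (nat_lit 43) (nat_lit 4) (nat_lit 329) (nat_lit 234) (nat_lit 217)))) (XT.nd (nat_lit 78) (nat_lit 228) (nat_lit 0) (XT.lf (nat_lit 0) (nat_lit 2774248554) (nat_lit 152) (nat_lit 3597064229) (nat_lit 228) (nat_lit 7176671247) (nat_lit 40) (nat_lit 5) (nat_lit 42) (nat_lit 5) (nat_lit 43) (nat_lit 4) (nat_lit 330) (nat_lit 234) (nat_lit 216)) (XT.nd (nat_lit 78) (nat_lit 228) (nat_lit 0) (XT.lf (nat_lit 0) (nat_lit 10136514969) (nat_lit 152) (nat_lit 69048187) (nat_lit 228) (nat_lit 3615360791) (nat_lit 40) (nat_lit 5) (nat_lit 42) (nat_lit 5) (nat_lit 43) (nat_lit 4) (nat_lit 331) (nat_lit 234) (nat_lit 215)) (XT.lf (nat_lit 0) (nat_lit 51295114) (nat_lit 228) (nat_lit 10565550837) (nat_lit 76) (nat_lit 3485245631) (nat_lit 37) (nat_lit 5) (nat_lit 40) (nat_lit 5)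 (nat_lit 38) (nat_lit 4) (nat_lit 332) (nat_lit 234) (nat_lit 214))))) (XT.nd (nat_lit 234) (nat_lit 380) (nat_lit 0) (XT.nd (nat_lit 78) (nat_lit 152) (nat_lit 0) (XT.lf (nat_lit 0) (nat_lit 3725048988) (nat_lit 228) (nat_lit 3493344733) (nat_lit 76) (nat_lit 7173173393) (nat_lit 37) (nat_lit 5) (nat_lit 40) (nat_lit 5) (nat_lit 38) (nat_lit 4) (nat_lit 333) (nat_lit 234) (nat_lit 213)) (XT.nd (nat_lit 78) (nat_lit 0) (nat_lit 0) (XT.lf (nat_lit 0) (nat_lit 3752044710) (nat_lit 152) (nat_lit 3726538826) (nat_lit 228) (nat_lit 7212094821) (nat_lit 35) (nat_lit 5) (nat_lit 37) (nat_lit 5) (nat_lit 38) (nat_lit 4) (nat_lit 334) (nat_lit 234) (nat_lit 212)) (XT.lf (nat_lit 0) (nat_lit 11175307217) (nat_lit 152) (nat_lit 139062857) (nat_lit 228) (nat_lit 3685340852) (nat_lit 35) (nat_lit 5) (nat_lit 37) (nat_lit 5) (nat_lit 38) (nat_lit 4) (nat_lit 335) (nat_lit 234) (nat_lit 211)))) (XT.nd (nat_lit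 156) (nat_lit 152) (nat_lit 0) (XT.nd (nat_lit 78) (nat_lit 76) (nat_lit 0) (XT.lf (nat_lit 0) (nat_lit 3426548255) (nat_lit 152) (nat_lit 11841660068) (nat_lit 152) (nat_lit 49753083) (nat_lit 33) (nat_lit 4) (nat_lit 35) (nat_lit 5) (nat_lit 35) (nat_lit 4) (nat_lit 336) (nat_lit 234) (nat_lit 210)) (XT.lf (nat_lit 0) (nat_lit 3599202534) (nat_lit 228) (nat_lit 4818073827) (nat_lit 76) (nat_lit 7228159672) (nat_lit 32) (nat_lit 5) (nat_lit 35) (nat_lit 5) (nat_lit 33) (nat_lit 4) (nat_lit 337) (nat_lit 234) (nat_lit 209))) (XT.nd (nat_lit 78) (nat_lit 0) (nat_lit 0) (XT.lf (nat_lit 0) (nat_lit 2407523978) (nat_lit 152) (nat_lit 4910131723) (nat_lit 228) (nat_lit 8666266753) (nat_lit 30) (nat_lit 5) (nat_lit 32) (nat_lit 5) (nat_lit 33) (nat_lit 4) (nat_lit 338) (nat_lit 234) (nat_lit 208)) (XT.lf (nat_lit 0) (nat_lit 9843270367) (nat_lit 152) (nat_lit 1291727581) (nat_lit 228) (nat_lit 5197977688)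 (nat_lit 30) (nat_lit 5) (nat_lit 32) (nat_lit 5) (nat_lit 33) (nat_lit 4) (nat_lit 339) (nat_lit 234) (nat_lit 207)))))) (XT.nd (nat_lit 468) (nat_lit 380) (nat_lit 0) (XT.nd (nat_lit 234) (nat_lit 228) (nat_lit 0) (XT.nd (nat_lit 78) (nat_lit 76) (nat_lit 0) (XT.lf (nat_lit 0) (nat_lit 696040435) (nat_lit 152) (nat_lit 14340976773) (nat_lit 152) (nat_lit 1656409797) (nat_lit 28) (nat_lit 4) (nat_lit 30) (nat_lit 5) (nat_lit 30) (nat_lit 4) (nat_lit 340) (nat_lit 234) (nat_lit 206)) (XT.nd (nat_lit 78) (nat_lit 0) (nat_lit 0) (XT.lf (nat_lit 0) (nat_lit 1971717116) (nat_lit 228) (nat_lit 8968840044) (nat_lit 76) (nat_lit 6123014828) (nat_lit 27) (nat_lit 5) (nat_lit 30) (nat_lit 5) (nat_lit 28) (nat_lit 4) (nat_lit 341) (nat_lit 234) (nat_lit 205)) (XT.lf (nat_lit 0) (nat_lit 5617337337) (nat_lit 228) (nat_lit 1846734699) (nat_lit 76) (nat_lit 9982027670) (nat_lit 27) (nat_lit 5) (nat_lit 30)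 (nat_lit 5) (nat_lit 28) (nat_lit 4) (nat_lit 342) (nat_lit 234) (nat_lit 204)))) (XT.nd (nat_lit 78) (nat_lit 152) (nat_lit 0) (XT.lf (nat_lit 0) (nat_lit 5498368052) (nat_lit 76) (nat_lit 3870444505) (nat_lit 152) (nat_lit 8471423911) (nat_lit 26) (nat_lit 5) (nat_lit 27) (nat_lit 5) (nat_lit 28) (nat_lit 4) (nat_lit 343) (nat_lit 234) (nat_lit 203)) (XT.nd (nat_lit 78) (nat_lit 152) (nat_lit 0) (XT.lf (nat_lit 0) (nat_lit 13004681799) (nat_lit 76) (nat_lit 191140708) (nat_lit 152) (nat_lit 5051512105) (nat_lit 26) (nat_lit 5) (nat_lit 27) (nat_lit 5) (nat_lit 28) (nat_lit 4) (nat_lit 344) (nat_lit 234) (nat_lit 202)) (XT.lf (nat_lit 0) (nat_lit 1978113341) (nat_lit 152) (nat_lit 15158713004) (nat_lit 152) (nat_lit 1529870057) (nat_lit 24) (nat_lit 4) (nat_lit 26) (nat_lit 5) (nat_lit 26) (nat_lit 4) (nat_lit 345) (nat_lit 234) (nat_lit 201))))) (XT.nd (nat_lit 234) (nat_lit 228) (nat_lit 0)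 (XT.nd (nat_lit 78) (nat_lit 76) (nat_lit 0) (XT.lf (nat_lit 0) (nat_lit 2057547188) (nat_lit 228) (nat_lit 9692261895) (nat_lit 76) (nat_lit 7348218189) (nat_lit 23) (nat_lit 5) (nat_lit 26) (nat_lit 5) (nat_lit 24) (nat_lit 4) (nat_lit 346) (nat_lit 234) (nat_lit 200)) (XT.nd (nat_lit 78) (nat_lit 76) (nat_lit 0) (XT.lf (nat_lit 0) (nat_lit 5669116740) (nat_lit 228) (nat_lit 2594018173) (nat_lit 76) (nat_lit 11280314363) (nat_lit 23) (nat_lit 5) (nat_lit 26) (nat_lit 5) (nat_lit 24) (nat_lit 4) (nat_lit 347) (nat_lit 234) (nat_lit 199)) (XT.lf (nat_lit 0) (nat_lit 4719143996) (nat_lit 76) (nat_lit 4664066914) (nat_lit 152) (nat_lit 10619220988) (nat_lit 22) (nat_lit 5) (nat_lit 23) (nat_lit 5) (nat_lit 24) (nat_lit 4) (nat_lit 348) (nat_lit 234) (nat_lit 198)))) (XT.nd (nat_lit 156) (nat_lit 228) (nat_lit 0) (XT.nd (nat_lit 78) (nat_lit 0) (nat_lit 0) (XT.lf (nat_lit 0) (nat_lit 12215642993)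 (nat_lit 76) (nat_lit 968726731) (nat_lit 152) (nat_lit 7291567627) (nat_lit 22) (nat_lit 5) (nat_lit 23) (nat_lit 5) (nat_lit 24) (nat_lit 4) (nat_lit 349) (nat_lit 234) (nat_lit 197)) (XT.lf (nat_lit 0) (nat_lit 17077397577) (nat_lit 152) (nat_lit 1141653763) (nat_lit 0) (nat_lit 2745283550) (nat_lit 22) (nat_lit 5) (nat_lit 24) (nat_lit 4) (nat_lit 22) (nat_lit 4) (nat_lit 350) (nat_lit 234) (nat_lit 196))) (XT.nd (nat_lit 78) (nat_lit 76) (nat_lit 0) (XT.lf (nat_lit 0) (nat_lit 6217061057) (nat_lit 152) (nat_lit 14891507532) (nat_lit 152) (nat_lit 358196504) (nat_lit 20) (nat_lit 4) (nat_lit 22) (nat_lit 5) (nat_lit 22) (nat_lit 4) (nat_lit 351) (nat_lit 234) (nat_lit 195)) (XT.lf (nat_lit 0) (nat_lit 3176210714) (nat_lit 228) (nat_lit 8280940172) (nat_lit 76) (nat_lit 10527280398) (nat_lit 19) (nat_lit 5) (nat_lit 22) (nat_lit 5) (nat_lit 20) (nat_lit 4) (nat_lit 352) (nat_lit 234) (nat_lit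 194))))))) (XT.nd (nat_lit 1014) (nat_lit 380) (nat_lit 0) (XT.nd (nat_lit 468) (nat_lit 152) (nat_lit 0) (XT.nd (nat_lit 234) (nat_lit 228) (nat_lit 0) (XT.nd (nat_lit 78) (nat_lit 76) (nat_lit 0) (XT.lf (nat_lit 0) (nat_lit 6762942084) (nat_lit 228) (nat_lit 1189522961) (nat_lit 76) (nat_lit 14566470782) (nat_lit 19) (nat_lit 5) (nat_lit 22) (nat_lit 5) (nat_lit 20) (nat_lit 4) (nat_lit 353) (nat_lit 234) (nat_lit 193)) (XT.nd (nat_lit 78) (nat_lit 0) (nat_lit 0) (XT.lf (nat_lit 0) (nat_lit 6154279341) (nat_lit 76) (nat_lit 4317000703) (nat_lit 152) (nat_lit 12597794255) (nat_lit 18) (nat_lit 5) (nat_lit 19) (nat_lit 5) (nat_lit 20) (nat_lit 4) (nat_lit 354) (nat_lit 234) (nat_lit 192)) (XT.lf (nat_lit 0) (nat_lit 13663118908) (nat_lit 76) (nat_lit 595156455) (nat_lit 152) (nat_lit 9378437729) (nat_lit 18) (nat_lit 5) (nat_lit 19) (nat_lit 5) (nat_lit 20) (nat_lit 4) (nat_lit 355) (nat_lit 234)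 (nat_lit 191)))) (XT.nd (nat_lit 78) (nat_lit 228) (nat_lit 0) (XT.lf (nat_lit 0) (nat_lit 18146376843) (nat_lit 152) (nat_lit 2933616806) (nat_lit 0) (nat_lit 3141780356) (nat_lit 18) (nat_lit 5) (nat_lit 20) (nat_lit 4) (nat_lit 18) (nat_lit 4) (nat_lit 356) (nat_lit 234) (nat_lit 190)) (XT.nd (nat_lit 78) (nat_lit 76) (nat_lit 0) (XT.lf (nat_lit 0) (nat_lit 4319915349) (nat_lit 152) (nat_lit 17836262544) (nat_lit 152) (nat_lit 2668074483) (nat_lit 16) (nat_lit 4) (nat_lit 18) (nat_lit 5) (nat_lit 18) (nat_lit 4) (nat_lit 357) (nat_lit 234) (nat_lit 189)) (XT.lf (nat_lit 0) (nat_lit 812682216) (nat_lit 228) (nat_lit 13677269932) (nat_lit 76) (nat_lit 10954997589) (nat_lit 15) (nat_lit 5) (nat_lit 18) (nat_lit 5) (nat_lit 16) (nat_lit 4) (nat_lit 358) (nat_lit 234) (nat_lit 188))))) (XT.nd (nat_lit 234) (nat_lit 76) (nat_lit 0) (XT.nd (nat_lit 78) (nat_lit 76) (nat_lit 0) (XT.lf (nat_lit 0) (nat_lit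 4303184823) (nat_lit 228) (nat_lit 6745750387) (nat_lit 76) (nat_lit 15035787701) (nat_lit 15) (nat_lit 5) (nat_lit 18) (nat_lit 5) (nat_lit 16) (nat_lit 4) (nat_lit 359) (nat_lit 234) (nat_lit 187)) (XT.nd (nat_lit 78) (nat_lit 0) (nat_lit 0) (XT.lf (nat_lit 0) (nat_lit 328332383) (nat_lit 76) (nat_lit 7533370782) (nat_lit 152) (nat_lit 18883102490) (nat_lit 14) (nat_lit 5) (nat_lit 15) (nat_lit 5) (nat_lit 16) (nat_lit 4) (nat_lit 360) (nat_lit 234) (nat_lit 186)) (XT.lf (nat_lit 0) (nat_lit 7681833418) (nat_lit 76) (nat_lit 3873884541) (nat_lit 152) (nat_lit 15868125643) (nat_lit 14) (nat_lit 5) (nat_lit 15) (nat_lit 5) (nat_lit 16) (nat_lit 4) (nat_lit 361) (nat_lit 234) (nat_lit 185)))) (XT.nd (nat_lit 156) (nat_lit 76) (nat_lit 0) (XT.nd (nat_lit 78) (nat_lit 0) (nat_lit 0) (XT.lf (nat_lit 0) (nat_lit 15186924445) (nat_lit 76) (nat_lit 135397728) (nat_lit 152) (nat_lit 12802091954) (nat_lit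 14) (nat_lit 5) (nat_lit 15) (nat_lit 5) (nat_lit 16) (nat_lit 4) (nat_lit 362) (nat_lit 234) (nat_lit 184)) (XT.lf (nat_lit 0) (nat_lit 19200232917) (nat_lit 152) (nat_lit 6032391970) (nat_lit 0) (nat_lit 3613441717) (nat_lit 14) (nat_lit 5) (nat_lit 16) (nat_lit 4) (nat_lit 14) (nat_lit 4) (nat_lit 363) (nat_lit 234) (nat_lit 183))) (XT.nd (nat_lit 78) (nat_lit 0) (nat_lit 0) (XT.lf (nat_lit 0) (nat_lit 1032802667) (nat_lit 76) (nat_lit 22136631485) (nat_lit 76) (nat_lit 6420699586) (nat_lit 13) (nat_lit 4) (nat_lit 14) (nat_lit 5) (nat_lit 14) (nat_lit 4) (nat_lit 364) (nat_lit 234) (nat_lit 182)) (XT.lf (nat_lit 0) (nat_lit 8368387907) (nat_lit 76) (nat_lit 18914354278) (nat_lit 76) (nat_lit 3073043059) (nat_lit 13) (nat_lit 4) (nat_lit 14) (nat_lit 5) (nat_lit 14) (nat_lit 4) (nat_lit 365) (nat_lit 234) (nat_lit 181)))))) (XT.nd (nat_lit 546) (nat_lit 228) (nat_lit 0) (XT.nd (nat_lit 234)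 (nat_lit 76) (nat_lit 0) (XT.nd (nat_lit 78) (nat_lit 0) (nat_lit 0) (XT.lf (nat_lit 0) (nat_lit 332527745) (nat_lit 152) (nat_lit 15288007390) (nat_lit 76) (nat_lit 15524831430) (nat_lit 12) (nat_lit 5) (nat_lit 14) (nat_lit 5) (nat_lit 13) (nat_lit 4) (nat_lit 366) (nat_lit 234) (nat_lit 180)) (XT.nd (nat_lit 78) (nat_lit 0) (nat_lit 0) (XT.lf (nat_lit 0) (nat_lit 3744328730) (nat_lit 152) (nat_lit 8480233423) (nat_lit 76) (nat_lit 19734197695) (nat_lit 12) (nat_lit 5) (nat_lit 14) (nat_lit 5) (nat_lit 13) (nat_lit 4) (nat_lit 367) (nat_lit 234) (nat_lit 179)) (XT.lf (nat_lit 0) (nat_lit 7225307221) (nat_lit 152) (nat_lit 1528586926) (nat_lit 76) (nat_lit 24043667878) (nat_lit 12) (nat_lit 5) (nat_lit 14) (nat_lit 5) (nat_lit 13) (nat_lit 4) (nat_lit 368) (nat_lit 234) (nat_lit 178)))) (XT.nd (nat_lit 156) (nat_lit 0) (nat_lit 0) (XT.nd (nat_lit 78) (nat_lit 0) (nat_lit 0) (XT.lf (nat_lit 0)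 (nat_lit 5683920107) (nat_lit 76) (nat_lit 5149222057) (nat_lit 152) (nat_lit 22827724744) (nat_lit 11) (nat_lit 5) (nat_lit 12) (nat_lit 5) (nat_lit 13) (nat_lit 4) (nat_lit 369) (nat_lit 234) (nat_lit 177)) (XT.lf (nat_lit 0) (nat_lit 13086108810) (nat_lit 76) (nat_lit 1446709218) (nat_lit 152) (nat_lit 20017755854) (nat_lit 11) (nat_lit 5) (nat_lit 12) (nat_lit 5) (nat_lit 13) (nat_lit 4) (nat_lit 370) (nat_lit 234) (nat_lit 176))) (XT.nd (nat_lit 78) (nat_lit 0) (nat_lit 0) (XT.lf (nat_lit 0) (nat_lit 18335088786) (nat_lit 152) (nat_lit 14836392101) (nat_lit 0) (nat_lit 2295753839) (nat_lit 11) (nat_lit 5) (nat_lit 13) (nat_lit 4) (nat_lit 11) (nat_lit 4) (nat_lit 371) (nat_lit 234) (nat_lit 175)) (XT.lf (nat_lit 0) (nat_lit 22235511448) (nat_lit 152) (nat_lit 8079171006) (nat_lit 0) (nat_lit 6097200908) (nat_lit 11) (nat_lit 5) (nat_lit 13) (nat_lit 4) (nat_lit 11) (nat_lit 4) (nat_lit 372)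 (nat_lit 234) (nat_lit 174))))) (XT.nd (nat_lit 234) (nat_lit 152) (nat_lit 0) (XT.nd (nat_lit 78) (nat_lit 76) (nat_lit 0) (XT.lf (nat_lit 0) (nat_lit 26223587498) (nat_lit 152) (nat_lit 1172990768) (nat_lit 0) (nat_lit 9989184150) (nat_lit 11) (nat_lit 5) (nat_lit 13) (nat_lit 4) (nat_lit 11) (nat_lit 4) (nat_lit 373) (nat_lit 234) (nat_lit 173)) (XT.nd (nat_lit 78) (nat_lit 0) (nat_lit 0) (XT.lf (nat_lit 0) (nat_lit 6005369530) (nat_lit 76) (nat_lit 24355159417) (nat_lit 76) (nat_lit 8027462080) (nat_lit 10) (nat_lit 4) (nat_lit 11) (nat_lit 5) (nat_lit 11) (nat_lit 4) (nat_lit 374) (nat_lit 234) (nat_lit 172)) (XT.lf (nat_lit 0) (nat_lit 13371445746) (nat_lit 76) (nat_lit 21233807072) (nat_lit 76) (nat_lit 4815533047) (nat_lit 10) (nat_lit 4) (nat_lit 11) (nat_lit 5) (nat_lit 11) (nat_lit 4) (nat_lit 375) (nat_lit 234) (nat_lit 171)))) (XT.nd (nat_lit 156) (nat_lit 76) (nat_lit 0) (XT.nd (nat_lit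 78) (nat_lit 76) (nat_lit 0) (XT.lf (nat_lit 0) (nat_lit 20908329440) (nat_lit 76) (nat_lit 18041638743) (nat_lit 76) (nat_lit 1535426186) (nat_lit 10) (nat_lit 4) (nat_lit 11) (nat_lit 5) (nat_lit 11) (nat_lit 4) (nat_lit 376) (nat_lit 234) (nat_lit 170)) (XT.lf (nat_lit 0) (nat_lit 1780293288) (nat_lit 152) (nat_lit 12977594397) (nat_lit 76) (nat_lit 26824335478) (nat_lit 9) (nat_lit 5) (nat_lit 11) (nat_lit 5) (nat_lit 10) (nat_lit 4) (nat_lit 377) (nat_lit 234) (nat_lit 169))) (XT.nd (nat_lit 78) (nat_lit 76) (nat_lit 0) (XT.lf (nat_lit 0) (nat_lit 5138579735) (nat_lit 152) (nat_lit 6243163409) (nat_lit 76) (nat_lit 31330547455) (nat_lit 9) (nat_lit 5) (nat_lit 11) (nat_lit 5) (nat_lit 10) (nat_lit 4) (nat_lit 378) (nat_lit 234) (nat_lit 168)) (XT.lf (nat_lit 0) (nat_lit 659745964) (nat_lit 76) (nat_lit 7918925193) (nat_lit 152) (nat_lit 35298165485) (nat_lit 8) (nat_lit 5) (nat_lit 9) (nat_lit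 5) (nat_lit 10) (nat_lit 4) (nat_lit 379) (nat_lit 234) (nat_lit 167))))))))
noncomputable def xc46 : XT := (XT.nd (nat_lit 2028) (nat_lit 76) (nat_lit 0) (XT.nd (nat_lit 1014) (nat_lit 76) (nat_lit 0) (XT.nd (nat_lit 468) (nat_lit 152) (nat_lit 0) (XT.nd (nat_lit 234) (nat_lit 0) (nat_lit 0) (XT.nd (nat_lit 78) (nat_lit 0) (nat_lit 0) (XT.lf (nat_lit 0) (nat_lit 7851747967) (nat_lit 76) (nat_lit 4308270112) (nat_lit 152) (nat_lit 32915167440) (nat_lit 8) (nat_lit 5) (nat_lit 9) (nat_lit 5) (nat_lit 10) (nat_lit 4) (nat_lit 380) (nat_lit 234) (nat_lit 166)) (XT.nd (nat_lit 78) (nat_lit 0) (nat_lit 0) (XT.lf (nat_lit 0) (nat_lit 15214875679) (nat_lit 76) (nat_lit 609666667) (nat_lit 152) (nat_lit 30485678207) (nat_lit 8) (nat_lit 5) (nat_lit 9) (nat_lit 5) (nat_lit 10) (nat_lit 4) (nat_lit 381) (nat_lit 234) (nat_lit 165)) (XT.lf (nat_lit 0) (nat_lit 19606015200) (nat_lit 152) (nat_lit 24858027232)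 (nat_lit 0) (nat_lit 3118061394) (nat_lit 8) (nat_lit 5) (nat_lit 10) (nat_lit 4) (nat_lit 8) (nat_lit 4) (nat_lit 382) (nat_lit 234) (nat_lit 164)))) (XT.nd (nat_lit 78) (nat_lit 0) (nat_lit 0) (XT.lf (nat_lit 0) (nat_lit 23483913701) (nat_lit 152) (nat_lit 18482207400) (nat_lit 0) (nat_lit 6926540404) (nat_lit 8) (nat_lit 5) (nat_lit 10) (nat_lit 4) (nat_lit 8) (nat_lit 4) (nat_lit 383) (nat_lit 234) (nat_lit 163)) (XT.nd (nat_lit 78) (nat_lit 0) (nat_lit 0) (XT.lf (nat_lit 0) (nat_lit 27455765813) (nat_lit 152) (nat_lit 11956453786) (nat_lit 0) (nat_lit 10830994954) (nat_lit 8) (nat_lit 5) (nat_lit 10) (nat_lit 4) (nat_lit 8) (nat_lit 4) (nat_lit 384) (nat_lit 234) (nat_lit 162)) (XT.lf (nat_lit 0) (nat_lit 31525042088) (nat_lit 152) (nat_lit 5275064275) (nat_lit 0) (nat_lit 14834836703) (nat_lit 8) (nat_lit 5) (nat_lit 10) (nat_lit 4) (nat_lit 8) (nat_lit 4) (nat_lit 385) (nat_lit 234) (nat_lit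 161))))) (XT.nd (nat_lit 234) (nat_lit 76) (nat_lit 0) (XT.nd (nat_lit 78) (nat_lit 0) (nat_lit 0) (XT.lf (nat_lit 0) (nat_lit 1599001519) (nat_lit 76) (nat_lit 34111667265) (nat_lit 76) (nat_lit 17357933213) (nat_lit 7) (nat_lit 4) (nat_lit 8) (nat_lit 5) (nat_lit 8) (nat_lit 4) (nat_lit 386) (nat_lit 234) (nat_lit 160)) (XT.nd (nat_lit 78) (nat_lit 0) (nat_lit 0) (XT.lf (nat_lit 0) (nat_lit 8748837289) (nat_lit 76) (nat_lit 31305439960) (nat_lit 76) (nat_lit 14490027592) (nat_lit 7) (nat_lit 4) (nat_lit 8) (nat_lit 5) (nat_lit 8) (nat_lit 4) (nat_lit 387) (nat_lit 234) (nat_lit 159)) (XT.lf (nat_lit 0) (nat_lit 16075706342) (nat_lit 76) (nat_lit 28432240212) (nat_lit 76) (nat_lit 11556945981) (nat_lit 7) (nat_lit 4) (nat_lit 8) (nat_lit 5) (nat_lit 8) (nat_lit 4) (nat_lit 388) (nat_lit 234) (nat_lit 158)))) (XT.nd (nat_lit 156) (nat_lit 76) (nat_lit 0) (XT.nd (nat_lit 78) (nat_lit 0) (nat_lit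 0) (XT.lf (nat_lit 0) (nat_lit 23586010795) (nat_lit 76) (nat_lit 25489557456) (nat_lit 76) (nat_lit 8556125496) (nat_lit 7) (nat_lit 4) (nat_lit 8) (nat_lit 5) (nat_lit 8) (nat_lit 4) (nat_lit 389) (nat_lit 234) (nat_lit 157)) (XT.lf (nat_lit 0) (nat_lit 31286313050) (nat_lit 76) (nat_lit 22474820417) (nat_lit 76) (nat_lit 5484944060) (nat_lit 7) (nat_lit 4) (nat_lit 8) (nat_lit 5) (nat_lit 8) (nat_lit 4) (nat_lit 390) (nat_lit 234) (nat_lit 156))) (XT.nd (nat_lit 78) (nat_lit 76) (nat_lit 0) (XT.lf (nat_lit 0) (nat_lit 39183341528) (nat_lit 76) (nat_lit 19385394859) (nat_lit 76) (nat_lit 2340718116) (nat_lit 7) (nat_lit 4) (nat_lit 8) (nat_lit 5) (nat_lit 8) (nat_lit 4) (nat_lit 391) (nat_lit 234) (nat_lit 155)) (XT.lf (nat_lit 0) (nat_lit 862141412) (nat_lit 152) (nat_lit 15347733934) (nat_lit 76) (nat_lit 46413149195) (nat_lit 6) (nat_lit 5) (nat_lit 8) (nat_lit 5) (nat_lit 7) (nat_lit 4)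 (nat_lit 392) (nat_lit 234) (nat_lit 154)))))) (XT.nd (nat_lit 468) (nat_lit 0) (nat_lit 0) (XT.nd (nat_lit 234) (nat_lit 0) (nat_lit 0) (XT.nd (nat_lit 78) (nat_lit 76) (nat_lit 0) (XT.lf (nat_lit 0) (nat_lit 4096396720) (nat_lit 152) (nat_lit 8833850277) (nat_lit 76) (nat_lit 51457594046) (nat_lit 6) (nat_lit 5) (nat_lit 8) (nat_lit 5) (nat_lit 7) (nat_lit 4) (nat_lit 393) (nat_lit 234) (nat_lit 153)) (XT.nd (nat_lit 78) (nat_lit 76) (nat_lit 0) (XT.lf (nat_lit 0) (nat_lit 7410549698) (nat_lit 152) (nat_lit 2156269848) (nat_lit 76) (nat_lit 56639301552) (nat_lit 6) (nat_lit 5) (nat_lit 8) (nat_lit 5) (nat_lit 7) (nat_lit 4) (nat_lit 394) (nat_lit 234) (nat_lit 152)) (XT.lf (nat_lit 0) (nat_lit 4784199088) (nat_lit 76) (nat_lit 6069285767) (nat_lit 152) (nat_lit 57224588978) (nat_lit 5) (nat_lit 5) (nat_lit 6) (nat_lit 5) (nat_lit 7) (nat_lit 4) (nat_lit 395) (nat_lit 234) (nat_lit 151)))) (XT.nd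 (nat_lit 78) (nat_lit 0) (nat_lit 0) (XT.lf (nat_lit 0) (nat_lit 11946589570) (nat_lit 76) (nat_lit 2458452811) (nat_lit 152) (nat_lit 55600987601) (nat_lit 5) (nat_lit 5) (nat_lit 6) (nat_lit 5) (nat_lit 7) (nat_lit 4) (nat_lit 396) (nat_lit 234) (nat_lit 150)) (XT.nd (nat_lit 78) (nat_lit 0) (nat_lit 0) (XT.lf (nat_lit 0) (nat_lit 18059173182) (nat_lit 152) (nat_lit 52710049872) (nat_lit 0) (nat_lit 1222725683) (nat_lit 5) (nat_lit 5) (nat_lit 7) (nat_lit 4) (nat_lit 5) (nat_lit 4) (nat_lit 397) (nat_lit 234) (nat_lit 149)) (XT.lf (nat_lit 0) (nat_lit 21831645609) (nat_lit 152) (nat_lit 47253604319) (nat_lit 0) (nat_lit 4951938179) (nat_lit 5) (nat_lit 5) (nat_lit 7) (nat_lit 4) (nat_lit 5) (nat_lit 4) (nat_lit 398) (nat_lit 234) (nat_lit 148))))) (XT.nd (nat_lit 234) (nat_lit 0) (nat_lit 0) (XT.nd (nat_lit 78) (nat_lit 0) (nat_lit 0) (XT.lf (nat_lit 0) (nat_lit 25702123843) (nat_lit 152) (nat_lit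 41661703833) (nat_lit 0) (nat_lit 8780416480) (nat_lit 5) (nat_lit 5) (nat_lit 7) (nat_lit 4) (nat_lit 5) (nat_lit 4) (nat_lit 399) (nat_lit 234) (nat_lit 147)) (XT.nd (nat_lit 78) (nat_lit 0) (nat_lit 0) (XT.lf (nat_lit 0) (nat_lit 29673989857) (nat_lit 152) (nat_lit 35929462286) (nat_lit 0) (nat_lit 12711505860) (nat_lit 5) (nat_lit 5) (nat_lit 7) (nat_lit 4) (nat_lit 5) (nat_lit 4) (nat_lit 400) (nat_lit 234) (nat_lit 146)) (XT.lf (nat_lit 0) (nat_lit 33750714212) (nat_lit 152) (nat_lit 30051870925) (nat_lit 0) (nat_lit 16748641250) (nat_lit 5) (nat_lit 5) (nat_lit 7) (nat_lit 4) (nat_lit 5) (nat_lit 4) (nat_lit 401) (nat_lit 234) (nat_lit 145)))) (XT.nd (nat_lit 156) (nat_lit 0) (nat_lit 0) (XT.nd (nat_lit 78) (nat_lit 0) (nat_lit 0) (XT.lf (nat_lit 0) (nat_lit 37935859095) (nat_lit 152) (nat_lit 24023793990) (nat_lit 0) (nat_lit 20895350245) (nat_lit 5) (nat_lit 5) (nat_lit 7) (nat_lit 4)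 (nat_lit 5) (nat_lit 4) (nat_lit 402) (nat_lit 234) (nat_lit 144)) (XT.lf (nat_lit 0) (nat_lit 42233081429) (nat_lit 152) (nat_lit 17839964229) (nat_lit 0) (nat_lit 25155256183) (nat_lit 5) (nat_lit 5) (nat_lit 7) (nat_lit 4) (nat_lit 5) (nat_lit 4) (nat_lit 403) (nat_lit 234) (nat_lit 143))) (XT.nd (nat_lit 78) (nat_lit 0) (nat_lit 0) (XT.lf (nat_lit 0) (nat_lit 46646136068) (nat_lit 152) (nat_lit 11494978296) (nat_lit 0) (nat_lit 29532081311) (nat_lit 5) (nat_lit 5) (nat_lit 7) (nat_lit 4) (nat_lit 5) (nat_lit 4) (nat_lit 404) (nat_lit 234) (nat_lit 142)) (XT.lf (nat_lit 0) (nat_lit 51178879079) (nat_lit 152) (nat_lit 4983292028) (nat_lit 0) (nat_lit 34029650040) (nat_lit 5) (nat_lit 5) (nat_lit 7) (nat_lit 4) (nat_lit 5) (nat_lit 4) (nat_lit 405) (nat_lit 234) (nat_lit 141))))))) (XT.nd (nat_lit 33930) (nat_lit 0) (nat_lit 2508) (XT.nd (nat_lit 33384) (nat_lit 0) (nat_lit 4332) (XT.nd (nat_lit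 33150) (nat_lit 0) (nat_lit 5548) (XT.nd (nat_lit 78) (nat_lit 0) (nat_lit 0) (XT.lf (nat_lit 0) (nat_lit 1734633341) (nat_lit 76) (nat_lit 54117312127) (nat_lit 76) (nat_lit 36933933300) (nat_lit 4) (nat_lit 4) (nat_lit 5) (nat_lit 5) (nat_lit 5) (nat_lit 4) (nat_lit 406) (nat_lit 234) (nat_lit 140)) (XT.nd (nat_lit 78) (nat_lit 0) (nat_lit 0) (XT.lf (nat_lit 0) (nat_lit 8733513744) (nat_lit 76) (nat_lit 51969818990) (nat_lit 76) (nat_lit 34753285028) (nat_lit 4) (nat_lit 4) (nat_lit 5) (nat_lit 5) (nat_lit 5) (nat_lit 4) (nat_lit 407) (nat_lit 234) (nat_lit 139)) (XT.lf (nat_lit 0) (nat_lit 15920287426) (nat_lit 76) (nat_lit 49768136723) (nat_lit 76) (nat_lit 32519413310) (nat_lit 4) (nat_lit 4) (nat_lit 5) (nat_lit 5) (nat_lit 5) (nat_lit 4) (nat_lit 408) (nat_lit 234) (nat_lit 138)))) (XT.nd (nat_lit 78) (nat_lit 684) (nat_lit 0) (XT.lf (nat_lit 0) (nat_lit 3648997877) (nat_lit 304) (nat_lit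 571246939) (nat_lit 304) (nat_lit 571246939) (nat_lit 86) (nat_lit 4) (nat_lit 90) (nat_lit 5) (nat_lit 90) (nat_lit 4) (nat_lit 310) (nat_lit 235) (nat_lit 235)) (XT.nd (nat_lit 78) (nat_lit 304) (nat_lit 0) (XT.lf (nat_lit 0) (nat_lit 2636964642) (nat_lit 380) (nat_lit 5308480495) (nat_lit 0) (nat_lit 1780626054) (nat_lit 81) (nat_lit 5) (nat_lit 86) (nat_lit 4) (nat_lit 81) (nat_lit 4) (nat_lit 311) (nat_lit 235) (nat_lit 234)) (XT.lf (nat_lit 0) (nat_lit 1365010646) (nat_lit 304) (nat_lit 5098610752) (nat_lit 304) (nat_lit 3410875477) (nat_lit 77) (nat_lit 4) (nat_lit 81) (nat_lit 5) (nat_lit 81) (nat_lit 4) (nat_lit 312) (nat_lit 235) (nat_lit 233))))) (XT.nd (nat_lit 234) (nat_lit 608) (nat_lit 0) (XT.nd (nat_lit 78) (nat_lit 532) (nat_lit 0) (XT.lf (nat_lit 0) (nat_lit 333912202) (nat_lit 380) (nat_lit 1817074752) (nat_lit 76) (nat_lit 7877455054) (nat_lit 76) (nat_lit 5) (nat_lit 81) (nat_lit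 5) (nat_lit 77) (nat_lit 4) (nat_lit 313) (nat_lit 235) (nat_lit 232)) (XT.nd (nat_lit 78) (nat_lit 304) (nat_lit 0) (XT.lf (nat_lit 0) (nat_lit 4091629912) (nat_lit 304) (nat_lit 5186833674) (nat_lit 0) (nat_lit 908535115) (nat_lit 73) (nat_lit 5) (nat_lit 77) (nat_lit 4) (nat_lit 73) (nat_lit 4) (nat_lit 314) (nat_lit 235) (nat_lit 231)) (XT.lf (nat_lit 0) (nat_lit 1587170221) (nat_lit 304) (nat_lit 6342978996) (nat_lit 304) (nat_lit 2421199011) (nat_lit 69) (nat_lit 4) (nat_lit 73) (nat_lit 5) (nat_lit 73) (nat_lit 4) (nat_lit 315) (nat_lit 235) (nat_lit 230)))) (XT.nd (nat_lit 156) (nat_lit 304) (nat_lit 0) (XT.nd (nat_lit 78) (nat_lit 228) (nat_lit 0) (XT.lf (nat_lit 0) (nat_lit 1302833385) (nat_lit 380) (nat_lit 1994198298) (nat_lit 76) (nat_lit 7224290035) (nat_lit 68) (nat_lit 5) (nat_lit 73) (nat_lit 5) (nat_lit 69) (nat_lit 4) (nat_lit 316) (nat_lit 235) (nat_lit 229)) (XT.lf (nat_lit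 0) (nat_lit 4922579236) (nat_lit 228) (nat_lit 130529602) (nat_lit 304) (nat_lit 5643742430) (nat_lit 65) (nat_lit 5) (nat_lit 68) (nat_lit 5) (nat_lit 69) (nat_lit 4) (nat_lit 317) (nat_lit 235) (nat_lit 228))) (XT.nd (nat_lit 78) (nat_lit 76) (nat_lit 0) (XT.lf (nat_lit 0) (nat_lit 1072060829) (nat_lit 228) (nat_lit 7821240971) (nat_lit 228) (nat_lit 1985092140) (nat_lit 62) (nat_lit 4) (nat_lit 65) (nat_lit 5) (nat_lit 65) (nat_lit 4) (nat_lit 318) (nat_lit 235) (nat_lit 227)) (XT.lf (nat_lit 0) (nat_lit 1725684883) (nat_lit 304) (nat_lit 2970204850) (nat_lit 76) (nat_lit 6369729425) (nat_lit 61) (nat_lit 5) (nat_lit 65) (nat_lit 5) (nat_lit 62) (nat_lit 4) (nat_lit 319) (nat_lit 235) (nat_lit 226)))))) (XT.nd (nat_lit 546) (nat_lit 836) (nat_lit 0) (XT.nd (nat_lit 234) (nat_lit 456) (nat_lit 0) (XT.nd (nat_lit 78) (nat_lit 304) (nat_lit 0) (XT.lf (nat_lit 0) (nat_lit 4003544623) (nat_lit 228)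 (nat_lit 1462232225) (nat_lit 304) (nat_lit 5793421567) (nat_lit 58) (nat_lit 5) (nat_lit 61) (nat_lit 5) (nat_lit 62) (nat_lit 4) (nat_lit 320) (nat_lit 235) (nat_lit 225)) (XT.nd (nat_lit 78) (nat_lit 304) (nat_lit 0) (XT.lf (nat_lit 0) (nat_lit 9286441580) (nat_lit 304) (nat_lit 355257242) (nat_lit 0) (nat_lit 1817896886) (nat_lit 58) (nat_lit 5) (nat_lit 62) (nat_lit 4) (nat_lit 58) (nat_lit 4) (nat_lit 321) (nat_lit 235) (nat_lit 224)) (XT.lf (nat_lit 0) (nat_lit 1527095374) (nat_lit 304) (nat_lit 4934681771) (nat_lit 76) (nat_lit 5203785402) (nat_lit 54) (nat_lit 5) (nat_lit 58) (nat_lit 5) (nat_lit 55) (nat_lit 4) (nat_lit 322) (nat_lit 235) (nat_lit 223)))) (XT.nd (nat_lit 156) (nat_lit 304) (nat_lit 0) (XT.nd (nat_lit 78) (nat_lit 0) (nat_lit 0) (XT.lf (nat_lit 0) (nat_lit 2054416406) (nat_lit 152) (nat_lit 3186348589) (nat_lit 228) (nat_lit 6637971698) (nat_lit 52) (nat_lit 5) (nat_lit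 54) (nat_lit 5) (nat_lit 55) (nat_lit 4) (nat_lit 323) (nat_lit 235) (nat_lit 222)) (XT.lf (nat_lit 0) (nat_lit 9041323362) (nat_lit 228) (nat_lit 2868856099) (nat_lit 0) (nat_lit 188917116) (nat_lit 52) (nat_lit 5) (nat_lit 55) (nat_lit 4) (nat_lit 52) (nat_lit 4) (nat_lit 324) (nat_lit 235) (nat_lit 221))) (XT.nd (nat_lit 78) (nat_lit 0) (nat_lit 0) (XT.lf (nat_lit 0) (nat_lit 615220751) (nat_lit 304) (nat_lit 8106516788) (nat_lit 76) (nat_lit 3604269418) (nat_lit 48) (nat_lit 5) (nat_lit 52) (nat_lit 5) (nat_lit 49) (nat_lit 4) (nat_lit 325) (nat_lit 235) (nat_lit 220)) (XT.lf (nat_lit 0) (nat_lit 4292032447) (nat_lit 304) (nat_lit 1130946976) (nat_lit 76) (nat_lit 7137234610) (nat_lit 48) (nat_lit 5) (nat_lit 52) (nat_lit 5) (nat_lit 49) (nat_lit 4) (nat_lit 326) (nat_lit 235) (nat_lit 219))))) (XT.nd (nat_lit 234) (nat_lit 380) (nat_lit 0) (XT.nd (nat_lit 78) (nat_lit 304) (nat_lit 0) (XT.lf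 (nat_lit 0) (nat_lit 6054733595) (nat_lit 152) (nat_lit 2010606480) (nat_lit 228) (nat_lit 4736570253) (nat_lit 46) (nat_lit 5) (nat_lit 48) (nat_lit 5) (nat_lit 49) (nat_lit 4) (nat_lit 327) (nat_lit 235) (nat_lit 218)) (XT.nd (nat_lit 78) (nat_lit 76) (nat_lit 0) (XT.lf (nat_lit 0) (nat_lit 302075433) (nat_lit 228) (nat_lit 11607204161) (nat_lit 228) (nat_lit 1142902271) (nat_lit 43) (nat_lit 4) (nat_lit 46) (nat_lit 5) (nat_lit 46) (nat_lit 4) (nat_lit 328) (nat_lit 235) (nat_lit 217)) (XT.lf (nat_lit 0) (nat_lit 2526116489) (nat_lit 304) (nat_lit 5770185111) (nat_lit 76) (nat_lit 5012442695) (nat_lit 42) (nat_lit 5) (nat_lit 46) (nat_lit 5) (nat_lit 43) (nat_lit 4) (nat_lit 329) (nat_lit 235) (nat_lit 216)))) (XT.nd (nat_lit 156) (nat_lit 228) (nat_lit 0) (XT.nd (nat_lit 78) (nat_lit 0) (nat_lit 0) (XT.lf (nat_lit 0) (nat_lit 1318788160) (nat_lit 152) (nat_lit 4906951537) (nat_lit 228) (nat_lit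 7348662590) (nat_lit 40) (nat_lit 5) (nat_lit 42) (nat_lit 5) (nat_lit 43) (nat_lit 4) (nat_lit 330) (nat_lit 235) (nat_lit 215)) (XT.lf (nat_lit 0) (nat_lit 8625074775) (nat_lit 152) (nat_lit 1401294821) (nat_lit 228) (nat_lit 3822001940) (nat_lit 40) (nat_lit 5) (nat_lit 42) (nat_lit 5) (nat_lit 43) (nat_lit 4) (nat_lit 331) (nat_lit 235) (nat_lit 214))) (XT.nd (nat_lit 78) (nat_lit 76) (nat_lit 0) (XT.lf (nat_lit 0) (nat_lit 1924367907) (nat_lit 152) (nat_lit 11989702742) (nat_lit 152) (nat_lit 217338476) (nat_lit 38) (nat_lit 4) (nat_lit 40) (nat_lit 5) (nat_lit 40) (nat_lit 4) (nat_lit 332) (nat_lit 235) (nat_lit 213)) (XT.lf (nat_lit 0) (nat_lit 3427898380) (nat_lit 228) (nat_lit 5188016244) (nat_lit 76) (nat_lit 5806034410) (nat_lit 37) (nat_lit 5) (nat_lit 40) (nat_lit 5) (nat_lit 38) (nat_lit 4) (nat_lit 333) (nat_lit 235) (nat_lit 212))))))))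
noncomputable def xc47 : XT := (XT.nd (nat_lit 2106) (nat_lit 608) (nat_lit 0) (XT.nd (nat_lit 1014) (nat_lit 608) (nat_lit 0) (XT.nd (nat_lit 468) (nat_lit 532) (nat_lit 0) (XT.nd (nat_lit 234) (nat_lit 228) (nat_lit 0) (XT.nd (nat_lit 78) (nat_lit 152) (nat_lit 0) (XT.lf (nat_lit 0) (nat_lit 1968917459) (nat_lit 152) (nat_lit 5163571003) (nat_lit 228) (nat_lit 7590058556) (nat_lit 35) (nat_lit 5) (nat_lit 37) (nat_lit 5) (nat_lit 38) (nat_lit 4) (nat_lit 334) (nat_lit 235) (nat_lit 211)) (XT.nd (nat_lit 78) (nat_lit 152) (nat_lit 0) (XT.lf (nat_lit 0) (nat_lit 9339045544) (nat_lit 152) (nat_lit 1597841068) (nat_lit 228) (nat_lit 4095652496) (nat_lit 35) (nat_lit 5) (nat_lit 37) (nat_lit 5) (nat_lit 38) (nat_lit 4) (nat_lit 335) (nat_lit 235) (nat_lit 210)) (XT.lf (nat_lit 0) (nat_lit 1481204968) (nat_lit 152) (nat_lit 13346120284) (nat_lit 152) (nat_lit 525383675) (nat_lit 33) (nat_lit 4) (nat_lit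 35) (nat_lit 5) (nat_lit 35) (nat_lit 4) (nat_lit 336) (nat_lit 235) (nat_lit 209)))) (XT.nd (nat_lit 78) (nat_lit 152) (nat_lit 0) (XT.lf (nat_lit 0) (nat_lit 3102255314) (nat_lit 228) (nat_lit 6846020444) (nat_lit 76) (nat_lit 5732979249) (nat_lit 32) (nat_lit 5) (nat_lit 35) (nat_lit 5) (nat_lit 33) (nat_lit 4) (nat_lit 337) (nat_lit 235) (nat_lit 208)) (XT.nd (nat_lit 78) (nat_lit 0) (nat_lit 0) (XT.lf (nat_lit 0) (nat_lit 287303384) (nat_lit 152) (nat_lit 6483317546) (nat_lit 228) (nat_lit 9250639003) (nat_lit 30) (nat_lit 5) (nat_lit 32) (nat_lit 5) (nat_lit 33) (nat_lit 4) (nat_lit 338) (nat_lit 235) (nat_lit 207)) (XT.lf (nat_lit 0) (nat_lit 7672647966) (nat_lit 152) (nat_lit 2885989269) (nat_lit 228) (nat_lit 5812571073) (nat_lit 30) (nat_lit 5) (nat_lit 32) (nat_lit 5) (nat_lit 33) (nat_lit 4) (nat_lit 339) (nat_lit 235) (nat_lit 206))))) (XT.nd (nat_lit 234) (nat_lit 304) (nat_lit 0)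 (XT.nd (nat_lit 78) (nat_lit 228) (nat_lit 0) (XT.lf (nat_lit 0) (nat_lit 14409972228) (nat_lit 228) (nat_lit 1560678096) (nat_lit 0) (nat_lit 762544847) (nat_lit 30) (nat_lit 5) (nat_lit 33) (nat_lit 4) (nat_lit 30) (nat_lit 4) (nat_lit 340) (nat_lit 235) (nat_lit 205)) (XT.nd (nat_lit 78) (nat_lit 0) (nat_lit 0) (XT.lf (nat_lit 0) (nat_lit 1273863487) (nat_lit 228) (nat_lit 11339988204) (nat_lit 76) (nat_lit 4491016439) (nat_lit 27) (nat_lit 5) (nat_lit 30) (nat_lit 5) (nat_lit 28) (nat_lit 4) (nat_lit 341) (nat_lit 235) (nat_lit 204)) (XT.lf (nat_lit 0) (nat_lit 4891716573) (nat_lit 228) (nat_lit 4266138385) (nat_lit 76) (nat_lit 8330387600) (nat_lit 27) (nat_lit 5) (nat_lit 30) (nat_lit 5) (nat_lit 28) (nat_lit 4) (nat_lit 342) (nat_lit 235) (nat_lit 203)))) (XT.nd (nat_lit 156) (nat_lit 228) (nat_lit 0) (XT.nd (nat_lit 78) (nat_lit 0) (nat_lit 0) (XT.lf (nat_lit 0) (nat_lit 2983031056) (nat_lit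 76) (nat_lit 5609023395) (nat_lit 152) (nat_lit 9291872286) (nat_lit 26) (nat_lit 5) (nat_lit 27) (nat_lit 5) (nat_lit 28) (nat_lit 4) (nat_lit 343) (nat_lit 235) (nat_lit 202)) (XT.lf (nat_lit 0) (nat_lit 10442954092) (nat_lit 76) (nat_lit 1949491186) (nat_lit 152) (nat_lit 5899391088) (nat_lit 26) (nat_lit 5) (nat_lit 27) (nat_lit 5) (nat_lit 28) (nat_lit 4) (nat_lit 344) (nat_lit 235) (nat_lit 201))) (XT.nd (nat_lit 78) (nat_lit 228) (nat_lit 0) (XT.lf (nat_lit 0) (nat_lit 16271503609) (nat_lit 152) (nat_lit 695456748) (nat_lit 0) (nat_lit 1746108698) (nat_lit 26) (nat_lit 5) (nat_lit 28) (nat_lit 4) (nat_lit 26) (nat_lit 4) (nat_lit 345) (nat_lit 235) (nat_lit 200)) (XT.lf (nat_lit 0) (nat_lit 1130785446) (nat_lit 228) (nat_lit 12463142921) (nat_lit 76) (nat_lit 5551731990) (nat_lit 23) (nat_lit 5) (nat_lit 26) (nat_lit 5) (nat_lit 24) (nat_lit 4) (nat_lit 346) (nat_lit 235) (nat_lit 199))))))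 (XT.nd (nat_lit 546) (nat_lit 304) (nat_lit 0) (XT.nd (nat_lit 234) (nat_lit 228) (nat_lit 0) (XT.nd (nat_lit 78) (nat_lit 76) (nat_lit 0) (XT.lf (nat_lit 0) (nat_lit 4717140335) (nat_lit 228) (nat_lit 5409291495) (nat_lit 76) (nat_lit 9465418442) (nat_lit 23) (nat_lit 5) (nat_lit 26) (nat_lit 5) (nat_lit 24) (nat_lit 4) (nat_lit 347) (nat_lit 235) (nat_lit 198)) (XT.nd (nat_lit 78) (nat_lit 0) (nat_lit 0) (XT.lf (nat_lit 0) (nat_lit 1803884137) (nat_lit 76) (nat_lit 6574846851) (nat_lit 152) (nat_lit 11673688147) (nat_lit 22) (nat_lit 5) (nat_lit 23) (nat_lit 5) (nat_lit 24) (nat_lit 4) (nat_lit 348) (nat_lit 235) (nat_lit 197)) (XT.lf (nat_lit 0) (nat_lit 9257706360) (nat_lit 76) (nat_lit 2898005969) (nat_lit 152) (nat_lit 8370948397) (nat_lit 22) (nat_lit 5) (nat_lit 23) (nat_lit 5) (nat_lit 24) (nat_lit 4) (nat_lit 349) (nat_lit 235) (nat_lit 196)))) (XT.nd (nat_lit 156) (nat_lit 76) (nat_lit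 0) (XT.nd (nat_lit 78) (nat_lit 152) (nat_lit 0) (XT.lf (nat_lit 0) (nat_lit 16006548847) (nat_lit 152) (nat_lit 4173744167) (nat_lit 0) (nat_lit 836041487) (nat_lit 22) (nat_lit 5) (nat_lit 24) (nat_lit 4) (nat_lit 22) (nat_lit 4) (nat_lit 350) (nat_lit 235) (nat_lit 195)) (XT.lf (nat_lit 0) (nat_lit 3083061826) (nat_lit 152) (nat_lit 16901574910) (nat_lit 152) (nat_lit 1535730654) (nat_lit 20) (nat_lit 4) (nat_lit 22) (nat_lit 5) (nat_lit 22) (nat_lit 4) (nat_lit 351) (nat_lit 235) (nat_lit 194))) (XT.nd (nat_lit 78) (nat_lit 0) (nat_lit 0) (XT.lf (nat_lit 0) (nat_lit 1998743821) (nat_lit 228) (nat_lit 11498041767) (nat_lit 76) (nat_lit 8542284495) (nat_lit 19) (nat_lit 5) (nat_lit 22) (nat_lit 5) (nat_lit 20) (nat_lit 4) (nat_lit 352) (nat_lit 235) (nat_lit 193)) (XT.lf (nat_lit 0) (nat_lit 5563231818) (nat_lit 228) (nat_lit 4446254891) (nat_lit 76) (nat_lit 12564764545) (nat_lit 19) (nat_lit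 5) (nat_lit 22) (nat_lit 5) (nat_lit 20) (nat_lit 4) (nat_lit 353) (nat_lit 235) (nat_lit 192))))) (XT.nd (nat_lit 234) (nat_lit 228) (nat_lit 0) (XT.nd (nat_lit 78) (nat_lit 0) (nat_lit 0) (XT.lf (nat_lit 0) (nat_lit 2793490257) (nat_lit 76) (nat_lit 6424178053) (nat_lit 152) (nat_lit 13908347516) (nat_lit 18) (nat_lit 5) (nat_lit 19) (nat_lit 5) (nat_lit 20) (nat_lit 4) (nat_lit 354) (nat_lit 235) (nat_lit 191)) (XT.nd (nat_lit 78) (nat_lit 0) (nat_lit 0) (XT.lf (nat_lit 0) (nat_lit 10264230985) (nat_lit 76) (nat_lit 2719099900) (nat_lit 152) (nat_lit 10710972506) (nat_lit 18) (nat_lit 5) (nat_lit 19) (nat_lit 5) (nat_lit 20) (nat_lit 4) (nat_lit 355) (nat_lit 235) (nat_lit 190)) (XT.lf (nat_lit 0) (nat_lit 16830147850) (nat_lit 152) (nat_lit 6407140953) (nat_lit 0) (nat_lit 1043322573) (nat_lit 18) (nat_lit 5) (nat_lit 20) (nat_lit 4) (nat_lit 18) (nat_lit 4) (nat_lit 356) (nat_lit 235) (nat_lit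 189)))) (XT.nd (nat_lit 156) (nat_lit 76) (nat_lit 0) (XT.nd (nat_lit 78) (nat_lit 0) (nat_lit 0) (XT.lf (nat_lit 0) (nat_lit 740165973) (nat_lit 152) (nat_lit 20045112116) (nat_lit 152) (nat_lit 4099460068) (nat_lit 16) (nat_lit 4) (nat_lit 18) (nat_lit 5) (nat_lit 18) (nat_lit 4) (nat_lit 357) (nat_lit 235) (nat_lit 188)) (XT.lf (nat_lit 0) (nat_lit 8160122084) (nat_lit 152) (nat_lit 16723006893) (nat_lit 152) (nat_lit 623154096) (nat_lit 16) (nat_lit 4) (nat_lit 18) (nat_lit 5) (nat_lit 18) (nat_lit 4) (nat_lit 358) (nat_lit 235) (nat_lit 187))) (XT.nd (nat_lit 78) (nat_lit 0) (nat_lit 0) (XT.lf (nat_lit 0) (nat_lit 2859875252) (nat_lit 228) (nat_lit 10444015497) (nat_lit 76) (nat_lit 12842941783) (nat_lit 15) (nat_lit 5) (nat_lit 18) (nat_lit 5) (nat_lit 16) (nat_lit 4) (nat_lit 359) (nat_lit 235) (nat_lit 186)) (XT.lf (nat_lit 0) (nat_lit 6396176067) (nat_lit 228) (nat_lit 3410673838) (nat_lit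 76) (nat_lit 17000739260) (nat_lit 15) (nat_lit 5) (nat_lit 18) (nat_lit 5) (nat_lit 16) (nat_lit 4) (nat_lit 360) (nat_lit 235) (nat_lit 185))))))) (XT.nd (nat_lit 1014) (nat_lit 304) (nat_lit 0) (XT.nd (nat_lit 468) (nat_lit 152) (nat_lit 0) (XT.nd (nat_lit 234) (nat_lit 76) (nat_lit 0) (XT.nd (nat_lit 78) (nat_lit 0) (nat_lit 0) (XT.lf (nat_lit 0) (nat_lit 3840950543) (nat_lit 76) (nat_lit 6196969322) (nat_lit 152) (nat_lit 17450282524) (nat_lit 14) (nat_lit 5) (nat_lit 15) (nat_lit 5) (nat_lit 16) (nat_lit 4) (nat_lit 361) (nat_lit 235) (nat_lit 184)) (XT.nd (nat_lit 78) (nat_lit 0) (nat_lit 0) (XT.lf (nat_lit 0) (nat_lit 11313034234) (nat_lit 76) (nat_lit 2473205364) (nat_lit 152) (nat_lit 14403088790) (nat_lit 14) (nat_lit 5) (nat_lit 15) (nat_lit 5) (nat_lit 16) (nat_lit 4) (nat_lit 362) (nat_lit 235) (nat_lit 183)) (XT.lf (nat_lit 0) (nat_lit 17623788578) (nat_lit 152) (nat_lit 9981171854)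 (nat_lit 0) (nat_lit 1307238023) (nat_lit 14) (nat_lit 5) (nat_lit 16) (nat_lit 4) (nat_lit 14) (nat_lit 4) (nat_lit 363) (nat_lit 235) (nat_lit 182)))) (XT.nd (nat_lit 78) (nat_lit 76) (nat_lit 0) (XT.lf (nat_lit 0) (nat_lit 21565693605) (nat_lit 152) (nat_lit 2967633683) (nat_lit 0) (nat_lit 5123763730) (nat_lit 14) (nat_lit 5) (nat_lit 16) (nat_lit 4) (nat_lit 14) (nat_lit 4) (nat_lit 364) (nat_lit 235) (nat_lit 181)) (XT.nd (nat_lit 78) (nat_lit 0) (nat_lit 0) (XT.lf (nat_lit 0) (nat_lit 4277695910) (nat_lit 76) (nat_lit 21355049017) (nat_lit 76) (nat_lit 4791391648) (nat_lit 13) (nat_lit 4) (nat_lit 14) (nat_lit 5) (nat_lit 14) (nat_lit 4) (nat_lit 365) (nat_lit 235) (nat_lit 180)) (XT.lf (nat_lit 0) (nat_lit 11739739702) (nat_lit 76) (nat_lit 18078210719) (nat_lit 76) (nat_lit 1396371316) (nat_lit 13) (nat_lit 4) (nat_lit 14) (nat_lit 5) (nat_lit 14) (nat_lit 4) (nat_lit 366) (nat_lit 235)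 (nat_lit 179))))) (XT.nd (nat_lit 234) (nat_lit 0) (nat_lit 0) (XT.nd (nat_lit 78) (nat_lit 76) (nat_lit 0) (XT.lf (nat_lit 0) (nat_lit 2026334787) (nat_lit 152) (nat_lit 12683119622) (nat_lit 76) (nat_lit 17319159399) (nat_lit 12) (nat_lit 5) (nat_lit 14) (nat_lit 5) (nat_lit 13) (nat_lit 4) (nat_lit 367) (nat_lit 235) (nat_lit 178)) (XT.nd (nat_lit 78) (nat_lit 76) (nat_lit 0) (XT.lf (nat_lit 0) (nat_lit 5491446175) (nat_lit 152) (nat_lit 5760341407) (nat_lit 76) (nat_lit 21616110059) (nat_lit 12) (nat_lit 5) (nat_lit 14) (nat_lit 5) (nat_lit 13) (nat_lit 4) (nat_lit 368) (nat_lit 235) (nat_lit 177)) (XT.lf (nat_lit 0) (nat_lit 1339360156) (nat_lit 76) (nat_lit 7702753440) (nat_lit 152) (nat_lit 24690809432) (nat_lit 11) (nat_lit 5) (nat_lit 12) (nat_lit 5) (nat_lit 13) (nat_lit 4) (nat_lit 369) (nat_lit 235) (nat_lit 176)))) (XT.nd (nat_lit 156) (nat_lit 0) (nat_lit 0) (XT.nd (nat_lit 78) (nat_lit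 0) (nat_lit 0) (XT.lf (nat_lit 0) (nat_lit 8713796181) (nat_lit 76) (nat_lit 4012770239) (nat_lit 152) (nat_lit 21896525594) (nat_lit 11) (nat_lit 5) (nat_lit 12) (nat_lit 5) (nat_lit 13) (nat_lit 4) (nat_lit 370) (nat_lit 235) (nat_lit 175)) (XT.lf (nat_lit 0) (nat_lit 16254768259) (nat_lit 76) (nat_lit 236781874) (nat_lit 152) (nat_lit 19049326498) (nat_lit 11) (nat_lit 5) (nat_lit 12) (nat_lit 5) (nat_lit 13) (nat_lit 4) (nat_lit 371) (nat_lit 235) (nat_lit 174))) (XT.nd (nat_lit 78) (nat_lit 0) (nat_lit 0) (XT.lf (nat_lit 0) (nat_lit 20375233998) (nat_lit 152) (nat_lit 12553092707) (nat_lit 0) (nat_lit 3557705741) (nat_lit 11) (nat_lit 5) (nat_lit 13) (nat_lit 4) (nat_lit 11) (nat_lit 4) (nat_lit 372) (nat_lit 235) (nat_lit 173)) (XT.lf (nat_lit 0) (nat_lit 24349268586) (nat_lit 152) (nat_lit 5672622684) (nat_lit 0) (nat_lit 7438446340) (nat_lit 11) (nat_lit 5) (nat_lit 13) (nat_lit 4) (nat_lit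 11) (nat_lit 4) (nat_lit 373) (nat_lit 235) (nat_lit 172)))))) (XT.nd (nat_lit 546) (nat_lit 76) (nat_lit 0) (XT.nd (nat_lit 234) (nat_lit 152) (nat_lit 0) (XT.nd (nat_lit 78) (nat_lit 0) (nat_lit 0) (XT.lf (nat_lit 0) (nat_lit 1390727962) (nat_lit 76) (nat_lit 27037490828) (nat_lit 76) (nat_lit 10036091894) (nat_lit 10) (nat_lit 4) (nat_lit 11) (nat_lit 5) (nat_lit 11) (nat_lit 4) (nat_lit 374) (nat_lit 235) (nat_lit 171)) (XT.nd (nat_lit 78) (nat_lit 0) (nat_lit 0) (XT.lf (nat_lit 0) (nat_lit 8732087524) (nat_lit 76) (nat_lit 23927382122) (nat_lit 76) (nat_lit 6838044656) (nat_lit 10) (nat_lit 4) (nat_lit 11) (nat_lit 5) (nat_lit 11) (nat_lit 4) (nat_lit 375) (nat_lit 235) (nat_lit 170)) (XT.lf (nat_lit 0) (nat_lit 16244974466) (nat_lit 76) (nat_lit 20746129947) (nat_lit 76) (nat_lit 3571415265) (nat_lit 10) (nat_lit 4) (nat_lit 11) (nat_lit 5) (nat_lit 11) (nat_lit 4) (nat_lit 376) (nat_lit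 235) (nat_lit 169)))) (XT.nd (nat_lit 156) (nat_lit 76) (nat_lit 0) (XT.nd (nat_lit 78) (nat_lit 76) (nat_lit 0) (XT.lf (nat_lit 0) (nat_lit 23935953447) (nat_lit 76) (nat_lit 17490954568) (nat_lit 76) (nat_lit 233349386) (nat_lit 10) (nat_lit 4) (nat_lit 11) (nat_lit 5) (nat_lit 11) (nat_lit 4) (nat_lit 377) (nat_lit 235) (nat_lit 168)) (XT.lf (nat_lit 0) (nat_lit 3117034637) (nat_lit 152) (nat_lit 11010501083) (nat_lit 76) (nat_lit 28663234164) (nat_lit 9) (nat_lit 5) (nat_lit 11) (nat_lit 5) (nat_lit 10) (nat_lit 4) (nat_lit 378) (nat_lit 235) (nat_lit 167))) (XT.nd (nat_lit 78) (nat_lit 76) (nat_lit 0) (XT.lf (nat_lit 0) (nat_lit 6538691060) (nat_lit 152) (nat_lit 4142670790) (nat_lit 76) (nat_lit 33274511084) (nat_lit 9) (nat_lit 5) (nat_lit 11) (nat_lit 5) (nat_lit 10) (nat_lit 4) (nat_lit 379) (nat_lit 235) (nat_lit 166)) (XT.lf (nat_lit 0) (nat_lit 2944896575) (nat_lit 76) (nat_lit 7122574739)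 (nat_lit 152) (nat_lit 35088331339) (nat_lit 8) (nat_lit 5) (nat_lit 9) (nat_lit 5) (nat_lit 10) (nat_lit 4) (nat_lit 380) (nat_lit 235) (nat_lit 165))))) (XT.nd (nat_lit 234) (nat_lit 76) (nat_lit 0) (XT.nd (nat_lit 78) (nat_lit 0) (nat_lit 0) (XT.lf (nat_lit 0) (nat_lit 10286677330) (nat_lit 76) (nat_lit 3433714127) (nat_lit 152) (nat_lit 32670798084) (nat_lit 8) (nat_lit 5) (nat_lit 9) (nat_lit 5) (nat_lit 10) (nat_lit 4) (nat_lit 381) (nat_lit 235) (nat_lit 164)) (XT.nd (nat_lit 78) (nat_lit 0) (nat_lit 0) (XT.lf (nat_lit 0) (nat_lit 17463360775) (nat_lit 152) (nat_lit 29861023977) (nat_lit 0) (nat_lit 339846790) (nat_lit 8) (nat_lit 5) (nat_lit 10) (nat_lit 4) (nat_lit 8) (nat_lit 4) (nat_lit 382) (nat_lit 235) (nat_lit 163)) (XT.lf (nat_lit 0) (nat_lit 21330232997) (nat_lit 152) (nat_lit 23505569078) (nat_lit 0) (nat_lit 4139321451) (nat_lit 8) (nat_lit 5) (nat_lit 10) (nat_lit 4) (nat_lit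 8) (nat_lit 4) (nat_lit 383) (nat_lit 235) (nat_lit 162)))) (XT.nd (nat_lit 156) (nat_lit 76) (nat_lit 0) (XT.nd (nat_lit 78) (nat_lit 0) (nat_lit 0) (XT.lf (nat_lit 0) (nat_lit 25291379986) (nat_lit 152) (nat_lit 16999587243) (nat_lit 0) (nat_lit 8035033913) (nat_lit 8) (nat_lit 5) (nat_lit 10) (nat_lit 4) (nat_lit 8) (nat_lit 4) (nat_lit 384) (nat_lit 235) (nat_lit 161)) (XT.lf (nat_lit 0) (nat_lit 29350262938) (nat_lit 152) (nat_lit 10337393634) (nat_lit 0) (nat_lit 12030388198) (nat_lit 8) (nat_lit 5) (nat_lit 10) (nat_lit 4) (nat_lit 8) (nat_lit 4) (nat_lit 385) (nat_lit 235) (nat_lit 160))) (XT.nd (nat_lit 78) (nat_lit 76) (nat_lit 0) (XT.lf (nat_lit 0) (nat_lit 33510428448) (nat_lit 152) (nat_lit 3513166916) (nat_lit 0) (nat_lit 16128875391) (nat_lit 8) (nat_lit 5) (nat_lit 10) (nat_lit 4) (nat_lit 8) (nat_lit 4) (nat_lit 386) (nat_lit 235) (nat_lit 159)) (XT.lf (nat_lit 0) (nat_lit 3548295859)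 (nat_lit 76) (nat_lit 34261324144) (nat_lit 76) (nat_lit 16819889226) (nat_lit 7) (nat_lit 4) (nat_lit 8) (nat_lit 5) (nat_lit 8) (nat_lit 4) (nat_lit 387) (nat_lit 235) (nat_lit 158))))))))
noncomputable def xc48 : XT := (XT.nd (nat_lit 34788) (nat_lit 0) (nat_lit 1976) (XT.nd (nat_lit 1014) (nat_lit 76) (nat_lit 0) (XT.nd (nat_lit 468) (nat_lit 76) (nat_lit 0) (XT.nd (nat_lit 234) (nat_lit 76) (nat_lit 0) (XT.nd (nat_lit 78) (nat_lit 0) (nat_lit 0) (XT.lf (nat_lit 0) (nat_lit 10857248325) (nat_lit 76) (nat_lit 31396357393) (nat_lit 76) (nat_lit 13896784746) (nat_lit 7) (nat_lit 4) (nat_lit 8) (nat_lit 5) (nat_lit 8) (nat_lit 4) (nat_lit 388) (nat_lit 235) (nat_lit 157)) (XT.nd (nat_lit 78) (nat_lit 0) (nat_lit 0) (XT.lf (nat_lit 0) (nat_lit 18350158034) (nat_lit 76) (nat_lit 28461667840) (nat_lit 76) (nat_lit 10905650794) (nat_lit 7) (nat_lit 4) (nat_lit 8) (nat_lit 5) (nat_lit 8) (nat_lit 4)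 (nat_lit 389) (nat_lit 235) (nat_lit 156)) (XT.lf (nat_lit 0) (nat_lit 26033572188) (nat_lit 76) (nat_lit 25454691191) (nat_lit 76) (nat_lit 7843873760) (nat_lit 7) (nat_lit 4) (nat_lit 8) (nat_lit 5) (nat_lit 8) (nat_lit 4) (nat_lit 390) (nat_lit 235) (nat_lit 155)))) (XT.nd (nat_lit 78) (nat_lit 76) (nat_lit 0) (XT.lf (nat_lit 0) (nat_lit 33914204452) (nat_lit 76) (nat_lit 22372799992) (nat_lit 76) (nat_lit 4708778303) (nat_lit 7) (nat_lit 4) (nat_lit 8) (nat_lit 5) (nat_lit 8) (nat_lit 4) (nat_lit 391) (nat_lit 235) (nat_lit 154)) (XT.nd (nat_lit 78) (nat_lit 76) (nat_lit 0) (XT.lf (nat_lit 0) (nat_lit 41998940813) (nat_lit 76) (nat_lit 19213301329) (nat_lit 76) (nat_lit 1497625020) (nat_lit 7) (nat_lit 4) (nat_lit 8) (nat_lit 5) (nat_lit 8) (nat_lit 4) (nat_lit 392) (nat_lit 235) (nat_lit 153)) (XT.lf (nat_lit 0) (nat_lit 1757415928) (nat_lit 152) (nat_lit 14198272091) (nat_lit 76) (nat_lit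 48519683222) (nat_lit 6) (nat_lit 5) (nat_lit 8) (nat_lit 5) (nat_lit 7) (nat_lit 4) (nat_lit 393) (nat_lit 235) (nat_lit 152))))) (XT.nd (nat_lit 234) (nat_lit 0) (nat_lit 0) (XT.nd (nat_lit 78) (nat_lit 76) (nat_lit 0) (XT.lf (nat_lit 0) (nat_lit 5063376266) (nat_lit 152) (nat_lit 7535862036) (nat_lit 76) (nat_lit 53694661237) (nat_lit 6) (nat_lit 5) (nat_lit 8) (nat_lit 5) (nat_lit 7) (nat_lit 4) (nat_lit 394) (nat_lit 235) (nat_lit 151)) (XT.nd (nat_lit 78) (nat_lit 76) (nat_lit 0) (XT.lf (nat_lit 0) (nat_lit 8452368757) (nat_lit 152) (nat_lit 703478575) (nat_lit 76) (nat_lit 59011625618) (nat_lit 6) (nat_lit 5) (nat_lit 8) (nat_lit 5) (nat_lit 7) (nat_lit 4) (nat_lit 395) (nat_lit 235) (nat_lit 150)) (XT.lf (nat_lit 0) (nat_lit 6430327180) (nat_lit 76) (nat_lit 5558839712) (nat_lit 152) (nat_lit 58106707312) (nat_lit 5) (nat_lit 5) (nat_lit 6) (nat_lit 5) (nat_lit 7) (nat_lit 4) (nat_lit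 396) (nat_lit 235) (nat_lit 149)))) (XT.nd (nat_lit 156) (nat_lit 0) (nat_lit 0) (XT.nd (nat_lit 78) (nat_lit 0) (nat_lit 0) (XT.lf (nat_lit 0) (nat_lit 13763824266) (nat_lit 76) (nat_lit 1859852387) (nat_lit 152) (nat_lit 56458707195) (nat_lit 5) (nat_lit 5) (nat_lit 6) (nat_lit 5) (nat_lit 7) (nat_lit 4) (nat_lit 397) (nat_lit 235) (nat_lit 148)) (XT.lf (nat_lit 0) (nat_lit 19370798940) (nat_lit 152) (nat_lit 52858146549) (nat_lit 0) (nat_lit 1899440424) (nat_lit 5) (nat_lit 5) (nat_lit 7) (nat_lit 4) (nat_lit 5) (nat_lit 4) (nat_lit 398) (nat_lit 235) (nat_lit 147))) (XT.nd (nat_lit 78) (nat_lit 0) (nat_lit 0) (XT.lf (nat_lit 0) (nat_lit 23234022708) (nat_lit 152) (nat_lit 47279751459) (nat_lit 0) (nat_lit 5721887557) (nat_lit 5) (nat_lit 5) (nat_lit 7) (nat_lit 4) (nat_lit 5) (nat_lit 4) (nat_lit 399) (nat_lit 235) (nat_lit 146)) (XT.lf (nat_lit 0) (nat_lit 27198845549) (nat_lit 152) (nat_lit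 41560621948) (nat_lit 0) (nat_lit 9647121434) (nat_lit 5) (nat_lit 5) (nat_lit 7) (nat_lit 4) (nat_lit 5) (nat_lit 4) (nat_lit 400) (nat_lit 235) (nat_lit 145)))))) (XT.nd (nat_lit 468) (nat_lit 76) (nat_lit 0) (XT.nd (nat_lit 234) (nat_lit 0) (nat_lit 0) (XT.nd (nat_lit 78) (nat_lit 0) (nat_lit 0) (XT.lf (nat_lit 0) (nat_lit 31268731874) (nat_lit 152) (nat_lit 35695760718) (nat_lit 0) (nat_lit 13678571871) (nat_lit 5) (nat_lit 5) (nat_lit 7) (nat_lit 4) (nat_lit 5) (nat_lit 4) (nat_lit 401) (nat_lit 235) (nat_lit 144)) (XT.nd (nat_lit 78) (nat_lit 0) (nat_lit 0) (XT.lf (nat_lit 0) (nat_lit 35447237892) (nat_lit 152) (nat_lit 29680043134) (nat_lit 0) (nat_lit 17819761492) (nat_lit 5) (nat_lit 5) (nat_lit 7) (nat_lit 4) (nat_lit 5) (nat_lit 4) (nat_lit 402) (nat_lit 235) (nat_lit 143)) (XT.lf (nat_lit 0) (nat_lit 39738014726) (nat_lit 152) (nat_lit 23508212743) (nat_lit 0) (nat_lit 22074308815)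 (nat_lit 5) (nat_lit 5) (nat_lit 7) (nat_lit 4) (nat_lit 5) (nat_lit 4) (nat_lit 403) (nat_lit 235) (nat_lit 142)))) (XT.nd (nat_lit 78) (nat_lit 0) (nat_lit 0) (XT.lf (nat_lit 0) (nat_lit 44144811598) (nat_lit 152) (nat_lit 17174876683) (nat_lit 0) (nat_lit 26445931405) (nat_lit 5) (nat_lit 5) (nat_lit 7) (nat_lit 4) (nat_lit 5) (nat_lit 4) (nat_lit 404) (nat_lit 235) (nat_lit 141)) (XT.nd (nat_lit 78) (nat_lit 0) (nat_lit 0) (XT.lf (nat_lit 0) (nat_lit 48671479107) (nat_lit 152) (nat_lit 10674500972) (nat_lit 0) (nat_lit 30938449126) (nat_lit 5) (nat_lit 5) (nat_lit 7) (nat_lit 4) (nat_lit 5) (nat_lit 4) (nat_lit 405) (nat_lit 235) (nat_lit 140)) (XT.lf (nat_lit 0) (nat_lit 53321972594) (nat_lit 152) (nat_lit 4001405670) (nat_lit 0) (nat_lit 35555787478) (nat_lit 5) (nat_lit 5) (nat_lit 7) (nat_lit 4) (nat_lit 5) (nat_lit 4) (nat_lit 406) (nat_lit 235) (nat_lit 139))))) (XT.nd (nat_lit 32994)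 (nat_lit 0) (nat_lit 5548) (XT.nd (nat_lit 78) (nat_lit 0) (nat_lit 0) (XT.lf (nat_lit 0) (nat_lit 2906965449) (nat_lit 76) (nat_lit 55221333678) (nat_lit 76) (nat_lit 37422959111) (nat_lit 4) (nat_lit 4) (nat_lit 5) (nat_lit 5) (nat_lit 5) (nat_lit 4) (nat_lit 407) (nat_lit 235) (nat_lit 138)) (XT.nd (nat_lit 32838) (nat_lit 0) (nat_lit 6536) (XT.lf (nat_lit 0) (nat_lit 10083182369) (nat_lit 76) (nat_lit 53024546751) (nat_lit 76) (nat_lit 35194920289) (nat_lit 4) (nat_lit 4) (nat_lit 5) (nat_lit 5) (nat_lit 5) (nat_lit 4) (nat_lit 408) (nat_lit 235) (nat_lit 137)) (XT.lf (nat_lit 0) (nat_lit 847197450) (nat_lit 380) (nat_lit 2960275354) (nat_lit 0) (nat_lit 847197450) (nat_lit 90) (nat_lit 5) (nat_lit 95) (nat_lit 4) (nat_lit 90) (nat_lit 4) (nat_lit 308) (nat_lit 236) (nat_lit 236)))) (XT.nd (nat_lit 156) (nat_lit 684) (nat_lit 0) (XT.nd (nat_lit 78) (nat_lit 0) (nat_lit 0) (XT.lf (nat_lit 0)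 (nat_lit 564023890) (nat_lit 304) (nat_lit 4894391849) (nat_lit 304) (nat_lit 3985902241) (nat_lit 86) (nat_lit 4) (nat_lit 90) (nat_lit 5) (nat_lit 90) (nat_lit 4) (nat_lit 309) (nat_lit 236) (nat_lit 235)) (XT.lf (nat_lit 0) (nat_lit 7233427351) (nat_lit 304) (nat_lit 2070732558) (nat_lit 304) (nat_lit 280214205) (nat_lit 86) (nat_lit 4) (nat_lit 90) (nat_lit 5) (nat_lit 90) (nat_lit 4) (nat_lit 310) (nat_lit 236) (nat_lit 234))) (XT.nd (nat_lit 78) (nat_lit 304) (nat_lit 0) (XT.lf (nat_lit 0) (nat_lit 3428035373) (nat_lit 380) (nat_lit 5442581261) (nat_lit 0) (nat_lit 858271353) (nat_lit 81) (nat_lit 5) (nat_lit 86) (nat_lit 4) (nat_lit 81) (nat_lit 4) (nat_lit 311) (nat_lit 236) (nat_lit 233)) (XT.lf (nat_lit 0) (nat_lit 1162829164) (nat_lit 304) (nat_lit 6046417626) (nat_lit 304) (nat_lit 2669472356) (nat_lit 77) (nat_lit 4) (nat_lit 81) (nat_lit 5) (nat_lit 81) (nat_lit 4) (nat_lit 312)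 (nat_lit 236) (nat_lit 232))))))) (XT.nd (nat_lit 1014) (nat_lit 1368) (nat_lit 0) (XT.nd (nat_lit 468) (nat_lit 1064) (nat_lit 0) (XT.nd (nat_lit 234) (nat_lit 532) (nat_lit 0) (XT.nd (nat_lit 78) (nat_lit 532) (nat_lit 0) (XT.lf (nat_lit 0) (nat_lit 1017538310) (nat_lit 380) (nat_lit 2095013615) (nat_lit 76) (nat_lit 6921237533) (nat_lit 76) (nat_lit 5) (nat_lit 81) (nat_lit 5) (nat_lit 77) (nat_lit 4) (nat_lit 313) (nat_lit 236) (nat_lit 231)) (XT.nd (nat_lit 78) (nat_lit 304) (nat_lit 0) (XT.lf (nat_lit 0) (nat_lit 4662092223) (nat_lit 228) (nat_lit 58870512) (nat_lit 304) (nat_lit 5473050753) (nat_lit 73) (nat_lit 5) (nat_lit 76) (nat_lit 5) (nat_lit 77) (nat_lit 4) (nat_lit 314) (nat_lit 236) (nat_lit 230)) (XT.lf (nat_lit 0) (nat_lit 1171535834) (nat_lit 304) (nat_lit 7341769282) (nat_lit 304) (nat_lit 1846480624) (nat_lit 69) (nat_lit 4) (nat_lit 73) (nat_lit 5) (nat_lit 73) (nat_lit 4)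 (nat_lit 315) (nat_lit 236) (nat_lit 229)))) (XT.nd (nat_lit 78) (nat_lit 456) (nat_lit 0) (XT.lf (nat_lit 0) (nat_lit 1824892092) (nat_lit 380) (nat_lit 2487039348) (nat_lit 76) (nat_lit 6218940670) (nat_lit 68) (nat_lit 5) (nat_lit 73) (nat_lit 5) (nat_lit 69) (nat_lit 4) (nat_lit 316) (nat_lit 236) (nat_lit 228)) (XT.nd (nat_lit 78) (nat_lit 228) (nat_lit 0) (XT.lf (nat_lit 0) (nat_lit 4357305122) (nat_lit 228) (nat_lit 1172190939) (nat_lit 304) (nat_lit 5178309985) (nat_lit 65) (nat_lit 5) (nat_lit 68) (nat_lit 5) (nat_lit 69) (nat_lit 4) (nat_lit 317) (nat_lit 236) (nat_lit 227)) (XT.lf (nat_lit 0) (nat_lit 431525894) (nat_lit 228) (nat_lit 8882139318) (nat_lit 228) (nat_lit 1577397467) (nat_lit 62) (nat_lit 4) (nat_lit 65) (nat_lit 5) (nat_lit 65) (nat_lit 4) (nat_lit 318) (nat_lit 236) (nat_lit 226))))) (XT.nd (nat_lit 234) (nat_lit 760) (nat_lit 0) (XT.nd (nat_lit 78) (nat_lit 228) (nat_lit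 0) (XT.lf (nat_lit 0) (nat_lit 2085722239) (nat_lit 304) (nat_lit 3689362920) (nat_lit 76) (nat_lit 5304307555) (nat_lit 61) (nat_lit 5) (nat_lit 65) (nat_lit 5) (nat_lit 62) (nat_lit 4) (nat_lit 319) (nat_lit 236) (nat_lit 225)) (XT.nd (nat_lit 78) (nat_lit 0) (nat_lit 0) (XT.lf (nat_lit 0) (nat_lit 3208646701) (nat_lit 228) (nat_lit 2570981093) (nat_lit 304) (nat_lit 5494760192) (nat_lit 58) (nat_lit 5) (nat_lit 61) (nat_lit 5) (nat_lit 62) (nat_lit 4) (nat_lit 320) (nat_lit 236) (nat_lit 224)) (XT.lf (nat_lit 0) (nat_lit 9551430556) (nat_lit 304) (nat_lit 1215286198) (nat_lit 0) (nat_lit 709563924) (nat_lit 58) (nat_lit 5) (nat_lit 62) (nat_lit 4) (nat_lit 58) (nat_lit 4) (nat_lit 321) (nat_lit 236) (nat_lit 223)))) (XT.nd (nat_lit 156) (nat_lit 304) (nat_lit 0) (XT.nd (nat_lit 78) (nat_lit 152) (nat_lit 0) (XT.lf (nat_lit 0) (nat_lit 1723969800) (nat_lit 304) (nat_lit 5891859091) (nat_lit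 76) (nat_lit 4067772391) (nat_lit 54) (nat_lit 5) (nat_lit 58) (nat_lit 5) (nat_lit 55) (nat_lit 4) (nat_lit 322) (nat_lit 236) (nat_lit 222)) (XT.lf (nat_lit 0) (nat_lit 1017994555) (nat_lit 152) (nat_lit 4372721817) (nat_lit 228) (nat_lit 6507493778) (nat_lit 52) (nat_lit 5) (nat_lit 54) (nat_lit 5) (nat_lit 55) (nat_lit 4) (nat_lit 323) (nat_lit 236) (nat_lit 221))) (XT.nd (nat_lit 78) (nat_lit 304) (nat_lit 0) (XT.lf (nat_lit 0) (nat_lit 8137284742) (nat_lit 152) (nat_lit 1015692279) (nat_lit 228) (nat_lit 2966768189) (nat_lit 52) (nat_lit 5) (nat_lit 54) (nat_lit 5) (nat_lit 55) (nat_lit 4) (nat_lit 324) (nat_lit 236) (nat_lit 220)) (XT.lf (nat_lit 0) (nat_lit 647123495) (nat_lit 304) (nat_lit 9313783266) (nat_lit 76) (nat_lit 2387467116) (nat_lit 48) (nat_lit 5) (nat_lit 52) (nat_lit 5) (nat_lit 49) (nat_lit 4) (nat_lit 325) (nat_lit 236) (nat_lit 219)))))) (XT.nd (nat_lit 546) (nat_lit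 608) (nat_lit 0) (XT.nd (nat_lit 234) (nat_lit 608) (nat_lit 0) (XT.nd (nat_lit 78) (nat_lit 152) (nat_lit 0) (XT.lf (nat_lit 0) (nat_lit 4288462175) (nat_lit 304) (nat_lit 2395999659) (nat_lit 76) (nat_lit 5899207326) (nat_lit 48) (nat_lit 5) (nat_lit 52) (nat_lit 5) (nat_lit 49) (nat_lit 4) (nat_lit 326) (nat_lit 236) (nat_lit 218)) (XT.nd (nat_lit 78) (nat_lit 0) (nat_lit 0) (XT.lf (nat_lit 0) (nat_lit 4707284211) (nat_lit 152) (nat_lit 3307093263) (nat_lit 228) (nat_lit 4812433068) (nat_lit 46) (nat_lit 5) (nat_lit 48) (nat_lit 5) (nat_lit 49) (nat_lit 4) (nat_lit 327) (nat_lit 236) (nat_lit 217)) (XT.lf (nat_lit 0) (nat_lit 11808772443) (nat_lit 228) (nat_lit 1120093497) (nat_lit 0) (nat_lit 149725113) (nat_lit 46) (nat_lit 5) (nat_lit 49) (nat_lit 4) (nat_lit 46) (nat_lit 4) (nat_lit 328) (nat_lit 236) (nat_lit 216)))) (XT.nd (nat_lit 156) (nat_lit 304) (nat_lit 0) (XT.nd (nat_lit 78) (nat_lit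 0) (nat_lit 0) (XT.lf (nat_lit 0) (nat_lit 2356511877) (nat_lit 304) (nat_lit 7296590059) (nat_lit 76) (nat_lit 3683464433) (nat_lit 42) (nat_lit 5) (nat_lit 46) (nat_lit 5) (nat_lit 43) (nat_lit 4) (nat_lit 329) (nat_lit 236) (nat_lit 215)) (XT.lf (nat_lit 0) (nat_lit 6010375725) (nat_lit 304) (nat_lit 288238526) (nat_lit 76) (nat_lit 7305003608) (nat_lit 42) (nat_lit 5) (nat_lit 46) (nat_lit 5) (nat_lit 43) (nat_lit 4) (nat_lit 330) (nat_lit 236) (nat_lit 214))) (XT.nd (nat_lit 78) (nat_lit 152) (nat_lit 0) (XT.lf (nat_lit 0) (nat_lit 6957962256) (nat_lit 152) (nat_lit 2817576262) (nat_lit 228) (nat_lit 4103132716) (nat_lit 40) (nat_lit 5) (nat_lit 42) (nat_lit 5) (nat_lit 43) (nat_lit 4) (nat_lit 331) (nat_lit 236) (nat_lit 213)) (XT.lf (nat_lit 0) (nat_lit 152459558) (nat_lit 152) (nat_lit 13448240067) (nat_lit 152) (nat_lit 562904923) (nat_lit 38) (nat_lit 4) (nat_lit 40) (nat_lit 5) (nat_lit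 40) (nat_lit 4) (nat_lit 332) (nat_lit 236) (nat_lit 212))))) (XT.nd (nat_lit 234) (nat_lit 380) (nat_lit 0) (XT.nd (nat_lit 78) (nat_lit 152) (nat_lit 0) (XT.lf (nat_lit 0) (nat_lit 3057271222) (nat_lit 228) (nat_lit 7042458726) (nat_lit 76) (nat_lit 4355486690) (nat_lit 37) (nat_lit 5) (nat_lit 40) (nat_lit 5) (nat_lit 38) (nat_lit 4) (nat_lit 333) (nat_lit 236) (nat_lit 211)) (XT.nd (nat_lit 78) (nat_lit 0) (nat_lit 0) (XT.lf (nat_lit 0) (nat_lit 24433513) (nat_lit 152) (nat_lit 6687858595) (nat_lit 228) (nat_lit 8045027460) (nat_lit 35) (nat_lit 5) (nat_lit 37) (nat_lit 5) (nat_lit 38) (nat_lit 4) (nat_lit 334) (nat_lit 236) (nat_lit 210)) (XT.lf (nat_lit 0) (nat_lit 7342974781) (nat_lit 152) (nat_lit 3143241315) (nat_lit 228) (nat_lit 4582027139) (nat_lit 35) (nat_lit 5) (nat_lit 37) (nat_lit 5) (nat_lit 38) (nat_lit 4) (nat_lit 335) (nat_lit 236) (nat_lit 209)))) (XT.nd (nat_lit 156) (nat_lit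 152) (nat_lit 0) (XT.nd (nat_lit 78) (nat_lit 228) (nat_lit 0) (XT.lf (nat_lit 0) (nat_lit 14317777553) (nat_lit 228) (nat_lit 615409926) (nat_lit 0) (nat_lit 457008735) (nat_lit 35) (nat_lit 5) (nat_lit 38) (nat_lit 4) (nat_lit 35) (nat_lit 4) (nat_lit 336) (nat_lit 236) (nat_lit 208)) (XT.lf (nat_lit 0) (nat_lit 2530095090) (nat_lit 228) (nat_lit 9038134156) (nat_lit 76) (nat_lit 4151760674) (nat_lit 32) (nat_lit 5) (nat_lit 35) (nat_lit 5) (nat_lit 33) (nat_lit 4) (nat_lit 337) (nat_lit 236) (nat_lit 207))) (XT.nd (nat_lit 78) (nat_lit 152) (nat_lit 0) (XT.lf (nat_lit 0) (nat_lit 6166857521) (nat_lit 228) (nat_lit 1959834938) (nat_lit 76) (nat_lit 7934265898) (nat_lit 32) (nat_lit 5) (nat_lit 35) (nat_lit 5) (nat_lit 33) (nat_lit 4) (nat_lit 338) (nat_lit 236) (nat_lit 206)) (XT.lf (nat_lit 0) (nat_lit 5337571291) (nat_lit 152) (nat_lit 4569616678) (nat_lit 228) (nat_lit 6505164306) (nat_lit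 30) (nat_lit 5) (nat_lit 32) (nat_lit 5) (nat_lit 33) (nat_lit 4) (nat_lit 339) (nat_lit 236) (nat_lit 205))))))))
noncomputable def xc49 : XT := (XT.nd (nat_lit 2028) (nat_lit 456) (nat_lit 0) (XT.nd (nat_lit 1014) (nat_lit 456) (nat_lit 0) (XT.nd (nat_lit 468) (nat_lit 532) (nat_lit 0) (XT.nd (nat_lit 234) (nat_lit 76) (nat_lit 0) (XT.nd (nat_lit 78) (nat_lit 228) (nat_lit 0) (XT.lf (nat_lit 0) (nat_lit 12797632070) (nat_lit 152) (nat_lit 925772448) (nat_lit 228) (nat_lit 3052002704) (nat_lit 30) (nat_lit 5) (nat_lit 32) (nat_lit 5) (nat_lit 33) (nat_lit 4) (nat_lit 340) (nat_lit 236) (nat_lit 204)) (XT.nd (nat_lit 78) (nat_lit 0) (nat_lit 0) (XT.lf (nat_lit 0) (nat_lit 498706965) (nat_lit 228) (nat_lit 13880229526) (nat_lit 76) (nat_lit 2770185487) (nat_lit 27) (nat_lit 5) (nat_lit 30) (nat_lit 5) (nat_lit 28) (nat_lit 4) (nat_lit 341) (nat_lit 236) (nat_lit 203)) (XT.lf (nat_lit 0) (nat_lit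 4089601667) (nat_lit 228) (nat_lit 6853229733) (nat_lit 76) (nat_lit 6590487055) (nat_lit 27) (nat_lit 5) (nat_lit 30) (nat_lit 5) (nat_lit 28) (nat_lit 4) (nat_lit 342) (nat_lit 236) (nat_lit 202)))) (XT.nd (nat_lit 78) (nat_lit 0) (nat_lit 0) (XT.lf (nat_lit 0) (nat_lit 298060807) (nat_lit 76) (nat_lit 7439895974) (nat_lit 152) (nat_lit 10192618247) (nat_lit 26) (nat_lit 5) (nat_lit 27) (nat_lit 5) (nat_lit 28) (nat_lit 4) (nat_lit 343) (nat_lit 236) (nat_lit 201)) (XT.nd (nat_lit 78) (nat_lit 0) (nat_lit 0) (XT.lf (nat_lit 0) (nat_lit 7712944316) (nat_lit 76) (nat_lit 3799559481) (nat_lit 152) (nat_lit 6826768708) (nat_lit 26) (nat_lit 5) (nat_lit 27) (nat_lit 5) (nat_lit 28) (nat_lit 4) (nat_lit 344) (nat_lit 236) (nat_lit 200)) (XT.lf (nat_lit 0) (nat_lit 15261507111) (nat_lit 76) (nat_lit 87845226) (nat_lit 152) (nat_lit 3412431319) (nat_lit 26) (nat_lit 5) (nat_lit 27) (nat_lit 5) (nat_lit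 28) (nat_lit 4) (nat_lit 345) (nat_lit 236) (nat_lit 199))))) (XT.nd (nat_lit 234) (nat_lit 304) (nat_lit 0) (XT.nd (nat_lit 78) (nat_lit 0) (nat_lit 0) (XT.lf (nat_lit 0) (nat_lit 125035086) (nat_lit 228) (nat_lit 15407266738) (nat_lit 76) (nat_lit 3663979469) (nat_lit 23) (nat_lit 5) (nat_lit 26) (nat_lit 5) (nat_lit 24) (nat_lit 4) (nat_lit 346) (nat_lit 236) (nat_lit 198)) (XT.nd (nat_lit 78) (nat_lit 0) (nat_lit 0) (XT.lf (nat_lit 0) (nat_lit 3686909719) (nat_lit 228) (nat_lit 8396514629) (nat_lit 76) (nat_lit 7559792403) (nat_lit 23) (nat_lit 5) (nat_lit 26) (nat_lit 5) (nat_lit 24) (nat_lit 4) (nat_lit 347) (nat_lit 236) (nat_lit 197)) (XT.lf (nat_lit 0) (nat_lit 7307393098) (nat_lit 228) (nat_lit 1260383269) (nat_lit 76) (nat_lit 11537253280) (nat_lit 23) (nat_lit 5) (nat_lit 26) (nat_lit 5) (nat_lit 24) (nat_lit 4) (nat_lit 348) (nat_lit 236) (nat_lit 196)))) (XT.nd (nat_lit 156) (nat_lit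 228) (nat_lit 0) (XT.nd (nat_lit 78) (nat_lit 0) (nat_lit 0) (XT.lf (nat_lit 0) (nat_lit 6126921093) (nat_lit 76) (nat_lit 4921623371) (nat_lit 152) (nat_lit 9531812169) (nat_lit 22) (nat_lit 5) (nat_lit 23) (nat_lit 5) (nat_lit 24) (nat_lit 4) (nat_lit 349) (nat_lit 236) (nat_lit 195)) (XT.lf (nat_lit 0) (nat_lit 13680020494) (nat_lit 76) (nat_lit 1188374415) (nat_lit 152) (nat_lit 6202575274) (nat_lit 22) (nat_lit 5) (nat_lit 23) (nat_lit 5) (nat_lit 24) (nat_lit 4) (nat_lit 350) (nat_lit 236) (nat_lit 194))) (XT.nd (nat_lit 78) (nat_lit 228) (nat_lit 0) (XT.lf (nat_lit 0) (nat_lit 18783134590) (nat_lit 152) (nat_lit 222448180) (nat_lit 0) (nat_lit 2571330642) (nat_lit 22) (nat_lit 5) (nat_lit 24) (nat_lit 4) (nat_lit 22) (nat_lit 4) (nat_lit 351) (nat_lit 236) (nat_lit 193)) (XT.lf (nat_lit 0) (nat_lit 740798873) (nat_lit 228) (nat_lit 14892105991) (nat_lit 76) (nat_lit 6463816736) (nat_lit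 19) (nat_lit 5) (nat_lit 22) (nat_lit 5) (nat_lit 20) (nat_lit 4) (nat_lit 352) (nat_lit 236) (nat_lit 192)))))) (XT.nd (nat_lit 468) (nat_lit 228) (nat_lit 0) (XT.nd (nat_lit 234) (nat_lit 152) (nat_lit 0) (XT.nd (nat_lit 78) (nat_lit 76) (nat_lit 0) (XT.lf (nat_lit 0) (nat_lit 4283691362) (nat_lit 228) (nat_lit 7878795170) (nat_lit 76) (nat_lit 10470073160) (nat_lit 19) (nat_lit 5) (nat_lit 22) (nat_lit 5) (nat_lit 20) (nat_lit 4) (nat_lit 353) (nat_lit 236) (nat_lit 191)) (XT.nd (nat_lit 78) (nat_lit 76) (nat_lit 0) (XT.lf (nat_lit 0) (nat_lit 7890308604) (nat_lit 228) (nat_lit 730916470) (nat_lit 76) (nat_lit 14564542559) (nat_lit 19) (nat_lit 5) (nat_lit 22) (nat_lit 5) (nat_lit 20) (nat_lit 4) (nat_lit 354) (nat_lit 236) (nat_lit 190)) (XT.lf (nat_lit 0) (nat_lit 6688288424) (nat_lit 76) (nat_lit 4939805507) (nat_lit 152) (nat_lit 12126806119) (nat_lit 18) (nat_lit 5) (nat_lit 19) (nat_lit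 5) (nat_lit 20) (nat_lit 4) (nat_lit 355) (nat_lit 236) (nat_lit 189)))) (XT.nd (nat_lit 78) (nat_lit 152) (nat_lit 0) (XT.lf (nat_lit 0) (nat_lit 14272151566) (nat_lit 76) (nat_lit 1172422521) (nat_lit 152) (nat_lit 8897552339) (nat_lit 18) (nat_lit 5) (nat_lit 19) (nat_lit 5) (nat_lit 20) (nat_lit 4) (nat_lit 356) (nat_lit 236) (nat_lit 188)) (XT.nd (nat_lit 78) (nat_lit 152) (nat_lit 0) (XT.lf (nat_lit 0) (nat_lit 19361649385) (nat_lit 152) (nat_lit 2961153259) (nat_lit 0) (nat_lit 2624600257) (nat_lit 18) (nat_lit 5) (nat_lit 20) (nat_lit 4) (nat_lit 18) (nat_lit 4) (nat_lit 357) (nat_lit 236) (nat_lit 187)) (XT.lf (nat_lit 0) (nat_lit 4364904228) (nat_lit 152) (nat_lit 19046131957) (nat_lit 152) (nat_lit 2159373364) (nat_lit 16) (nat_lit 4) (nat_lit 18) (nat_lit 5) (nat_lit 18) (nat_lit 4) (nat_lit 358) (nat_lit 236) (nat_lit 186))))) (XT.nd (nat_lit 234) (nat_lit 152) (nat_lit 0) (XT.nd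 (nat_lit 78) (nat_lit 0) (nat_lit 0) (XT.lf (nat_lit 0) (nat_lit 1334571759) (nat_lit 228) (nat_lit 14322926916) (nat_lit 76) (nat_lit 10554482551) (nat_lit 15) (nat_lit 5) (nat_lit 18) (nat_lit 5) (nat_lit 16) (nat_lit 4) (nat_lit 359) (nat_lit 236) (nat_lit 185)) (XT.nd (nat_lit 78) (nat_lit 0) (nat_lit 0) (XT.lf (nat_lit 0) (nat_lit 4852366363) (nat_lit 228) (nat_lit 7322919398) (nat_lit 76) (nat_lit 14698014432) (nat_lit 15) (nat_lit 5) (nat_lit 18) (nat_lit 5) (nat_lit 16) (nat_lit 4) (nat_lit 360) (nat_lit 236) (nat_lit 184)) (XT.lf (nat_lit 0) (nat_lit 8439221400) (nat_lit 228) (nat_lit 178609040) (nat_lit 76) (nat_lit 18937736579) (nat_lit 15) (nat_lit 5) (nat_lit 18) (nat_lit 5) (nat_lit 16) (nat_lit 4) (nat_lit 361) (nat_lit 236) (nat_lit 183)))) (XT.nd (nat_lit 156) (nat_lit 76) (nat_lit 0) (XT.nd (nat_lit 78) (nat_lit 0) (nat_lit 0) (XT.lf (nat_lit 0) (nat_lit 7257874023) (nat_lit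 76) (nat_lit 4910164117) (nat_lit 152) (nat_lit 16089246706) (nat_lit 14) (nat_lit 5) (nat_lit 15) (nat_lit 5) (nat_lit 16) (nat_lit 4) (nat_lit 362) (nat_lit 236) (nat_lit 182)) (XT.lf (nat_lit 0) (nat_lit 14857954353) (nat_lit 76) (nat_lit 1117581832) (nat_lit 152) (nat_lit 13005526800) (nat_lit 14) (nat_lit 5) (nat_lit 15) (nat_lit 5) (nat_lit 16) (nat_lit 4) (nat_lit 363) (nat_lit 236) (nat_lit 181))) (XT.nd (nat_lit 78) (nat_lit 76) (nat_lit 0) (XT.lf (nat_lit 0) (nat_lit 19889835925) (nat_lit 152) (nat_lit 7129412791) (nat_lit 0) (nat_lit 2707541340) (nat_lit 14) (nat_lit 5) (nat_lit 16) (nat_lit 4) (nat_lit 14) (nat_lit 4) (nat_lit 364) (nat_lit 236) (nat_lit 180)) (XT.lf (nat_lit 0) (nat_lit 2803883) (nat_lit 76) (nat_lit 23896619220) (nat_lit 76) (nat_lit 6596142601) (nat_lit 13) (nat_lit 4) (nat_lit 14) (nat_lit 5) (nat_lit 14) (nat_lit 4) (nat_lit 365) (nat_lit 236) (nat_lit 179)))))))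 (XT.nd (nat_lit 1014) (nat_lit 152) (nat_lit 0) (XT.nd (nat_lit 468) (nat_lit 152) (nat_lit 0) (XT.nd (nat_lit 234) (nat_lit 76) (nat_lit 0) (XT.nd (nat_lit 78) (nat_lit 76) (nat_lit 0) (XT.lf (nat_lit 0) (nat_lit 7435444417) (nat_lit 76) (nat_lit 20633007102) (nat_lit 76) (nat_lit 3217790645) (nat_lit 13) (nat_lit 4) (nat_lit 14) (nat_lit 5) (nat_lit 14) (nat_lit 4) (nat_lit 366) (nat_lit 236) (nat_lit 178)) (XT.nd (nat_lit 78) (nat_lit 0) (nat_lit 0) (XT.lf (nat_lit 0) (nat_lit 224590807) (nat_lit 152) (nat_lit 17070695019) (nat_lit 76) (nat_lit 14806255323) (nat_lit 12) (nat_lit 5) (nat_lit 14) (nat_lit 5) (nat_lit 13) (nat_lit 4) (nat_lit 367) (nat_lit 236) (nat_lit 177)) (XT.lf (nat_lit 0) (nat_lit 3674297241) (nat_lit 152) (nat_lit 10175944261) (nat_lit 76) (nat_lit 19091051106) (nat_lit 12) (nat_lit 5) (nat_lit 14) (nat_lit 5) (nat_lit 13) (nat_lit 4) (nat_lit 368) (nat_lit 236) (nat_lit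 176)))) (XT.nd (nat_lit 78) (nat_lit 76) (nat_lit 0) (XT.lf (nat_lit 0) (nat_lit 7197133647) (nat_lit 152) (nat_lit 3129589562) (nat_lit 76) (nat_lit 23480435036) (nat_lit 12) (nat_lit 5) (nat_lit 14) (nat_lit 5) (nat_lit 13) (nat_lit 4) (nat_lit 369) (nat_lit 236) (nat_lit 175)) (XT.nd (nat_lit 78) (nat_lit 0) (nat_lit 0) (XT.lf (nat_lit 0) (nat_lit 4155617145) (nat_lit 76) (nat_lit 6680507422) (nat_lit 152) (nat_lit 23862571684) (nat_lit 11) (nat_lit 5) (nat_lit 12) (nat_lit 5) (nat_lit 13) (nat_lit 4) (nat_lit 370) (nat_lit 236) (nat_lit 174)) (XT.lf (nat_lit 0) (nat_lit 11670429663) (nat_lit 76) (nat_lit 2916329442) (nat_lit 152) (nat_lit 21030157253) (nat_lit 11) (nat_lit 5) (nat_lit 12) (nat_lit 5) (nat_lit 13) (nat_lit 4) (nat_lit 371) (nat_lit 236) (nat_lit 173))))) (XT.nd (nat_lit 234) (nat_lit 152) (nat_lit 0) (XT.nd (nat_lit 78) (nat_lit 0) (nat_lit 0) (XT.lf (nat_lit 0) (nat_lit 18430644057)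 (nat_lit 152) (nat_lit 17213423795) (nat_lit 0) (nat_lit 919203155) (nat_lit 11) (nat_lit 5) (nat_lit 13) (nat_lit 4) (nat_lit 11) (nat_lit 4) (nat_lit 372) (nat_lit 236) (nat_lit 172)) (XT.nd (nat_lit 78) (nat_lit 0) (nat_lit 0) (XT.lf (nat_lit 0) (nat_lit 22391046158) (nat_lit 152) (nat_lit 10357915146) (nat_lit 0) (nat_lit 4789028568) (nat_lit 11) (nat_lit 5) (nat_lit 13) (nat_lit 4) (nat_lit 11) (nat_lit 4) (nat_lit 373) (nat_lit 236) (nat_lit 171)) (XT.lf (nat_lit 0) (nat_lit 26443392411) (nat_lit 152) (nat_lit 3345936954) (nat_lit 0) (nat_lit 8753436289) (nat_lit 11) (nat_lit 5) (nat_lit 13) (nat_lit 4) (nat_lit 11) (nat_lit 4) (nat_lit 374) (nat_lit 236) (nat_lit 170)))) (XT.nd (nat_lit 156) (nat_lit 76) (nat_lit 0) (XT.nd (nat_lit 78) (nat_lit 0) (nat_lit 0) (XT.lf (nat_lit 0) (nat_lit 3904835149) (nat_lit 76) (nat_lit 26723924215) (nat_lit 76) (nat_lit 8948590878) (nat_lit 10) (nat_lit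 4) (nat_lit 11) (nat_lit 5) (nat_lit 11) (nat_lit 4) (nat_lit 375) (nat_lit 236) (nat_lit 169)) (XT.lf (nat_lit 0) (nat_lit 11394424273) (nat_lit 76) (nat_lit 23553270248) (nat_lit 76) (nat_lit 5695046410) (nat_lit 10) (nat_lit 4) (nat_lit 11) (nat_lit 5) (nat_lit 11) (nat_lit 4) (nat_lit 376) (nat_lit 236) (nat_lit 168))) (XT.nd (nat_lit 78) (nat_lit 76) (nat_lit 0) (XT.lf (nat_lit 0) (nat_lit 19062784014) (nat_lit 76) (nat_lit 20308384391) (nat_lit 76) (nat_lit 2369684339) (nat_lit 10) (nat_lit 4) (nat_lit 11) (nat_lit 5) (nat_lit 11) (nat_lit 4) (nat_lit 377) (nat_lit 236) (nat_lit 167)) (XT.lf (nat_lit 0) (nat_lit 1010294155) (nat_lit 152) (nat_lit 15965935162) (nat_lit 76) (nat_lit 25896118733) (nat_lit 9) (nat_lit 5) (nat_lit 11) (nat_lit 5) (nat_lit 10) (nat_lit 4) (nat_lit 378) (nat_lit 236) (nat_lit 166)))))) (XT.nd (nat_lit 546) (nat_lit 76) (nat_lit 0) (XT.nd (nat_lit 234) (nat_lit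 0) (nat_lit 0) (XT.nd (nat_lit 78) (nat_lit 76) (nat_lit 0) (XT.lf (nat_lit 0) (nat_lit 4420209688) (nat_lit 152) (nat_lit 9119663182) (nat_lit 76) (nat_lit 30497934301) (nat_lit 9) (nat_lit 5) (nat_lit 11) (nat_lit 5) (nat_lit 10) (nat_lit 4) (nat_lit 379) (nat_lit 236) (nat_lit 165)) (XT.nd (nat_lit 78) (nat_lit 76) (nat_lit 0) (XT.lf (nat_lit 0) (nat_lit 7909282871) (nat_lit 152) (nat_lit 2110491756) (nat_lit 76) (nat_lit 35219157205) (nat_lit 9) (nat_lit 5) (nat_lit 11) (nat_lit 5) (nat_lit 10) (nat_lit 4) (nat_lit 380) (nat_lit 236) (nat_lit 164)) (XT.lf (nat_lit 0) (nat_lit 5168560874) (nat_lit 76) (nat_lit 6361684905) (nat_lit 152) (nat_lit 34945035280) (nat_lit 8) (nat_lit 5) (nat_lit 9) (nat_lit 5) (nat_lit 10) (nat_lit 4) (nat_lit 381) (nat_lit 236) (nat_lit 163)))) (XT.nd (nat_lit 156) (nat_lit 0) (nat_lit 0) (XT.nd (nat_lit 78) (nat_lit 0) (nat_lit 0) (XT.lf (nat_lit 0) (nat_lit 12668401341)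 (nat_lit 76) (nat_lit 2590543924) (nat_lit 152) (nat_lit 32489809406) (nat_lit 8) (nat_lit 5) (nat_lit 9) (nat_lit 5) (nat_lit 10) (nat_lit 4) (nat_lit 382) (nat_lit 236) (nat_lit 162)) (XT.lf (nat_lit 0) (nat_lit 19090210472) (nat_lit 152) (nat_lit 28719768318) (nat_lit 0) (nat_lit 1250739490) (nat_lit 8) (nat_lit 5) (nat_lit 10) (nat_lit 4) (nat_lit 8) (nat_lit 4) (nat_lit 383) (nat_lit 236) (nat_lit 161))) (XT.nd (nat_lit 78) (nat_lit 0) (nat_lit 0) (XT.lf (nat_lit 0) (nat_lit 23040964138) (nat_lit 152) (nat_lit 22232982384) (nat_lit 0) (nat_lit 5137964489) (nat_lit 8) (nat_lit 5) (nat_lit 10) (nat_lit 4) (nat_lit 8) (nat_lit 4) (nat_lit 384) (nat_lit 236) (nat_lit 160)) (XT.lf (nat_lit 0) (nat_lit 27089756483) (nat_lit 152) (nat_lit 15589425573) (nat_lit 0) (nat_lit 9125078517) (nat_lit 8) (nat_lit 5) (nat_lit 10) (nat_lit 4) (nat_lit 8) (nat_lit 4) (nat_lit 385) (nat_lit 236) (nat_lit 159)))))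 (XT.nd (nat_lit 234) (nat_lit 0) (nat_lit 0) (XT.nd (nat_lit 78) (nat_lit 76) (nat_lit 0) (XT.lf (nat_lit 0) (nat_lit 31240125289) (nat_lit 152) (nat_lit 8783292833) (nat_lit 0) (nat_lit 13215565462) (nat_lit 8) (nat_lit 5) (nat_lit 10) (nat_lit 4) (nat_lit 8) (nat_lit 4) (nat_lit 386) (nat_lit 236) (nat_lit 158)) (XT.nd (nat_lit 78) (nat_lit 76) (nat_lit 0) (XT.lf (nat_lit 0) (nat_lit 35495697091) (nat_lit 152) (nat_lit 1808637060) (nat_lit 0) (nat_lit 17412999534) (nat_lit 8) (nat_lit 5) (nat_lit 10) (nat_lit 4) (nat_lit 8) (nat_lit 4) (nat_lit 387) (nat_lit 236) (nat_lit 157)) (XT.lf (nat_lit 0) (nat_lit 5446925237) (nat_lit 76) (nat_lit 34465624290) (nat_lit 76) (nat_lit 16326482336) (nat_lit 7) (nat_lit 4) (nat_lit 8) (nat_lit 5) (nat_lit 8) (nat_lit 4) (nat_lit 388) (nat_lit 236) (nat_lit 156)))) (XT.nd (nat_lit 156) (nat_lit 0) (nat_lit 0) (XT.nd (nat_lit 78) (nat_lit 0) (nat_lit 0) (XT.lf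 (nat_lit 0) (nat_lit 12922946845) (nat_lit 76) (nat_lit 31538695126) (nat_lit 76) (nat_lit 13344752786) (nat_lit 7) (nat_lit 4) (nat_lit 8) (nat_lit 5) (nat_lit 8) (nat_lit 4) (nat_lit 389) (nat_lit 236) (nat_lit 155)) (XT.lf (nat_lit 0) (nat_lit 20589964784) (nat_lit 76) (nat_lit 28539252837) (nat_lit 76) (nat_lit 10292106239) (nat_lit 7) (nat_lit 4) (nat_lit 8) (nat_lit 5) (nat_lit 8) (nat_lit 4) (nat_lit 390) (nat_lit 236) (nat_lit 154))) (XT.nd (nat_lit 78) (nat_lit 0) (nat_lit 0) (XT.lf (nat_lit 0) (nat_lit 28454678392) (nat_lit 76) (nat_lit 25464676550) (nat_lit 76) (nat_lit 7165875332) (nat_lit 7) (nat_lit 4) (nat_lit 8) (nat_lit 5) (nat_lit 8) (nat_lit 4) (nat_lit 391) (nat_lit 236) (nat_lit 153)) (XT.lf (nat_lit 0) (nat_lit 36523959749) (nat_lit 76) (nat_lit 22312279743) (nat_lit 76) (nat_lit 3963328409) (nat_lit 7) (nat_lit 4) (nat_lit 8) (nat_lit 5) (nat_lit 8) (nat_lit 4) (nat_lit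 392) (nat_lit 236) (nat_lit 152))))))))
noncomputable def xc50 : XT := (XT.nd (nat_lit 34632) (nat_lit 0) (nat_lit 1748) (XT.nd (nat_lit 1014) (nat_lit 76) (nat_lit 0) (XT.nd (nat_lit 468) (nat_lit 0) (nat_lit 0) (XT.nd (nat_lit 234) (nat_lit 76) (nat_lit 0) (XT.nd (nat_lit 78) (nat_lit 76) (nat_lit 0) (XT.lf (nat_lit 0) (nat_lit 44804859681) (nat_lit 76) (nat_lit 19079307894) (nat_lit 76) (nat_lit 681667127) (nat_lit 7) (nat_lit 4) (nat_lit 8) (nat_lit 5) (nat_lit 8) (nat_lit 4) (nat_lit 393) (nat_lit 236) (nat_lit 151)) (XT.nd (nat_lit 78) (nat_lit 0) (nat_lit 0) (XT.lf (nat_lit 0) (nat_lit 2629640973) (nat_lit 152) (nat_lit 13106740885) (nat_lit 76) (nat_lit 50648418737) (nat_lit 6) (nat_lit 5) (nat_lit 8) (nat_lit 5) (nat_lit 7) (nat_lit 4) (nat_lit 394) (nat_lit 236) (nat_lit 150)) (XT.lf (nat_lit 0) (nat_lit 6010911115) (nat_lit 152) (nat_lit 6288656957) (nat_lit 76) (nat_lit 55959039928)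 (nat_lit 6) (nat_lit 5) (nat_lit 8) (nat_lit 5) (nat_lit 7) (nat_lit 4) (nat_lit 395) (nat_lit 236) (nat_lit 149)))) (XT.nd (nat_lit 78) (nat_lit 0) (nat_lit 0) (XT.lf (nat_lit 0) (nat_lit 719833455) (nat_lit 76) (nat_lit 8765485611) (nat_lit 152) (nat_lit 60703564152) (nat_lit 5) (nat_lit 5) (nat_lit 6) (nat_lit 5) (nat_lit 7) (nat_lit 4) (nat_lit 396) (nat_lit 236) (nat_lit 148)) (XT.nd (nat_lit 78) (nat_lit 0) (nat_lit 0) (XT.lf (nat_lit 0) (nat_lit 8039583607) (nat_lit 76) (nat_lit 5072834022) (nat_lit 152) (nat_lit 59063199760) (nat_lit 5) (nat_lit 5) (nat_lit 6) (nat_lit 5) (nat_lit 7) (nat_lit 4) (nat_lit 397) (nat_lit 236) (nat_lit 147)) (XT.lf (nat_lit 0) (nat_lit 15551832791) (nat_lit 76) (nat_lit 1281889821) (nat_lit 152) (nat_lit 57388673488) (nat_lit 5) (nat_lit 5) (nat_lit 6) (nat_lit 5) (nat_lit 7) (nat_lit 4) (nat_lit 398) (nat_lit 236) (nat_lit 146))))) (XT.nd (nat_lit 234) (nat_lit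 0) (nat_lit 0) (XT.nd (nat_lit 78) (nat_lit 0) (nat_lit 0) (XT.lf (nat_lit 0) (nat_lit 20677580899) (nat_lit 152) (nat_lit 53092957946) (nat_lit 0) (nat_lit 2559716096) (nat_lit 5) (nat_lit 5) (nat_lit 7) (nat_lit 4) (nat_lit 5) (nat_lit 4) (nat_lit 399) (nat_lit 236) (nat_lit 145)) (XT.nd (nat_lit 78) (nat_lit 0) (nat_lit 0) (XT.lf (nat_lit 0) (nat_lit 24635565710) (nat_lit 152) (nat_lit 47386558566) (nat_lit 0) (nat_lit 6479265019) (nat_lit 5) (nat_lit 5) (nat_lit 7) (nat_lit 4) (nat_lit 5) (nat_lit 4) (nat_lit 400) (nat_lit 236) (nat_lit 144)) (XT.lf (nat_lit 0) (nat_lit 28698813169) (nat_lit 152) (nat_lit 41534056687) (nat_lit 0) (nat_lit 10505196082) (nat_lit 5) (nat_lit 5) (nat_lit 7) (nat_lit 4) (nat_lit 5) (nat_lit 4) (nat_lit 401) (nat_lit 236) (nat_lit 143)))) (XT.nd (nat_lit 156) (nat_lit 0) (nat_lit 0) (XT.nd (nat_lit 78) (nat_lit 0) (nat_lit 0) (XT.lf (nat_lit 0) (nat_lit 32870873688)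 (nat_lit 152) (nat_lit 35530338473) (nat_lit 0) (nat_lit 14641027089) (nat_lit 5) (nat_lit 5) (nat_lit 7) (nat_lit 4) (nat_lit 5) (nat_lit 4) (nat_lit 402) (nat_lit 236) (nat_lit 142)) (XT.lf (nat_lit 0) (nat_lit 37155392755) (nat_lit 152) (nat_lit 29370157955) (nat_lit 0) (nat_lit 18890371874) (nat_lit 5) (nat_lit 5) (nat_lit 7) (nat_lit 4) (nat_lit 5) (nat_lit 4) (nat_lit 403) (nat_lit 236) (nat_lit 141))) (XT.nd (nat_lit 78) (nat_lit 0) (nat_lit 0) (XT.lf (nat_lit 0) (nat_lit 41556114125) (nat_lit 152) (nat_lit 23048132452) (nat_lit 0) (nat_lit 23256943455) (nat_lit 5) (nat_lit 5) (nat_lit 7) (nat_lit 4) (nat_lit 5) (nat_lit 4) (nat_lit 404) (nat_lit 236) (nat_lit 140)) (XT.lf (nat_lit 0) (nat_lit 46076883089) (nat_lit 152) (nat_lit 16558737865) (nat_lit 0) (nat_lit 27744557284) (nat_lit 5) (nat_lit 5) (nat_lit 7) (nat_lit 4) (nat_lit 5) (nat_lit 4) (nat_lit 405) (nat_lit 236) (nat_lit 139))))))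 (XT.nd (nat_lit 33072) (nat_lit 0) (nat_lit 4940) (XT.nd (nat_lit 32838) (nat_lit 0) (nat_lit 6536) (XT.nd (nat_lit 78) (nat_lit 76) (nat_lit 0) (XT.lf (nat_lit 0) (nat_lit 50721649833) (nat_lit 152) (nat_lit 9896303847) (nat_lit 0) (nat_lit 32357134577) (nat_lit 5) (nat_lit 5) (nat_lit 7) (nat_lit 4) (nat_lit 5) (nat_lit 4) (nat_lit 406) (nat_lit 236) (nat_lit 138)) (XT.nd (nat_lit 78) (nat_lit 76) (nat_lit 0) (XT.lf (nat_lit 0) (nat_lit 55494472891) (nat_lit 152) (nat_lit 3055008855) (nat_lit 0) (nat_lit 37098705741) (nat_lit 5) (nat_lit 5) (nat_lit 7) (nat_lit 4) (nat_lit 5) (nat_lit 4) (nat_lit 407) (nat_lit 236) (nat_lit 137)) (XT.lf (nat_lit 0) (nat_lit 4050158113) (nat_lit 76) (nat_lit 56388297175) (nat_lit 76) (nat_lit 37962188380) (nat_lit 4) (nat_lit 4) (nat_lit 5) (nat_lit 5) (nat_lit 5) (nat_lit 4) (nat_lit 408) (nat_lit 236) (nat_lit 136)))) (XT.nd (nat_lit 78) (nat_lit 760) (nat_lit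 0) (XT.lf (nat_lit 0) (nat_lit 2159445100) (nat_lit 380) (nat_lit 207103759) (nat_lit 0) (nat_lit 2159445100) (nat_lit 100) (nat_lit 5) (nat_lit 105) (nat_lit 4) (nat_lit 100) (nat_lit 4) (nat_lit 306) (nat_lit 237) (nat_lit 237)) (XT.nd (nat_lit 78) (nat_lit 380) (nat_lit 0) (XT.lf (nat_lit 0) (nat_lit 6056844046) (nat_lit 380) (nat_lit 2043033204) (nat_lit 380) (nat_lit 1079216580) (nat_lit 95) (nat_lit 4) (nat_lit 100) (nat_lit 5) (nat_lit 100) (nat_lit 4) (nat_lit 307) (nat_lit 237) (nat_lit 236)) (XT.lf (nat_lit 0) (nat_lit 2584614573) (nat_lit 380) (nat_lit 5985758404) (nat_lit 0) (nat_lit 740380669) (nat_lit 90) (nat_lit 5) (nat_lit 95) (nat_lit 4) (nat_lit 90) (nat_lit 4) (nat_lit 308) (nat_lit 237) (nat_lit 235))))) (XT.nd (nat_lit 234) (nat_lit 912) (nat_lit 0) (XT.nd (nat_lit 78) (nat_lit 380) (nat_lit 0) (XT.lf (nat_lit 0) (nat_lit 432950028) (nat_lit 304) (nat_lit 5870226758) (nat_lit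 304) (nat_lit 3143964109) (nat_lit 86) (nat_lit 4) (nat_lit 90) (nat_lit 5) (nat_lit 90) (nat_lit 4) (nat_lit 309) (nat_lit 237) (nat_lit 234)) (XT.nd (nat_lit 78) (nat_lit 304) (nat_lit 0) (XT.lf (nat_lit 0) (nat_lit 506774115) (nat_lit 380) (nat_lit 2553849782) (nat_lit 76) (nat_lit 6527774177) (nat_lit 85) (nat_lit 5) (nat_lit 90) (nat_lit 5) (nat_lit 86) (nat_lit 4) (nat_lit 310) (nat_lit 237) (nat_lit 233)) (XT.lf (nat_lit 0) (nat_lit 4022302187) (nat_lit 304) (nat_lit 133510675) (nat_lit 380) (nat_lit 5578672677) (nat_lit 81) (nat_lit 5) (nat_lit 85) (nat_lit 5) (nat_lit 86) (nat_lit 4) (nat_lit 311) (nat_lit 237) (nat_lit 232)))) (XT.nd (nat_lit 156) (nat_lit 532) (nat_lit 0) (XT.nd (nat_lit 78) (nat_lit 76) (nat_lit 0) (XT.lf (nat_lit 0) (nat_lit 825663741) (nat_lit 304) (nat_lit 7064601307) (nat_lit 304) (nat_lit 1995495313) (nat_lit 77) (nat_lit 4) (nat_lit 81) (nat_lit 5) (nat_lit 81)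 (nat_lit 4) (nat_lit 312) (nat_lit 237) (nat_lit 231)) (XT.lf (nat_lit 0) (nat_lit 1636315508) (nat_lit 380) (nat_lit 2508231254) (nat_lit 76) (nat_lit 5897389535) (nat_lit 76) (nat_lit 5) (nat_lit 81) (nat_lit 5) (nat_lit 77) (nat_lit 4) (nat_lit 313) (nat_lit 237) (nat_lit 230))) (XT.nd (nat_lit 78) (nat_lit 304) (nat_lit 0) (XT.lf (nat_lit 0) (nat_lit 4178731483) (nat_lit 228) (nat_lit 1115538668) (nat_lit 304) (nat_lit 4909291687) (nat_lit 73) (nat_lit 5) (nat_lit 76) (nat_lit 5) (nat_lit 77) (nat_lit 4) (nat_lit 314) (nat_lit 237) (nat_lit 229)) (XT.lf (nat_lit 0) (nat_lit 616791876) (nat_lit 304) (nat_lit 8413927193) (nat_lit 304) (nat_lit 1340328153) (nat_lit 69) (nat_lit 4) (nat_lit 73) (nat_lit 5) (nat_lit 73) (nat_lit 4) (nat_lit 315) (nat_lit 237) (nat_lit 228))))))) (XT.nd (nat_lit 1014) (nat_lit 1444) (nat_lit 0) (XT.nd (nat_lit 468) (nat_lit 912) (nat_lit 0) (XT.nd (nat_lit 234)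 (nat_lit 532) (nat_lit 0) (XT.nd (nat_lit 78) (nat_lit 228) (nat_lit 0) (XT.lf (nat_lit 0) (nat_lit 2280929982) (nat_lit 380) (nat_lit 3119312765) (nat_lit 76) (nat_lit 5142986255) (nat_lit 68) (nat_lit 5) (nat_lit 73) (nat_lit 5) (nat_lit 69) (nat_lit 4) (nat_lit 316) (nat_lit 237) (nat_lit 227)) (XT.nd (nat_lit 78) (nat_lit 0) (nat_lit 0) (XT.lf (nat_lit 0) (nat_lit 3651647680) (nat_lit 228) (nat_lit 2288037310) (nat_lit 304) (nat_lit 4781886663) (nat_lit 65) (nat_lit 5) (nat_lit 68) (nat_lit 5) (nat_lit 69) (nat_lit 4) (nat_lit 317) (nat_lit 237) (nat_lit 226)) (XT.lf (nat_lit 0) (nat_lit 9670287121) (nat_lit 304) (nat_lit 345610984) (nat_lit 0) (nat_lit 890569467) (nat_lit 65) (nat_lit 5) (nat_lit 69) (nat_lit 4) (nat_lit 65) (nat_lit 4) (nat_lit 318) (nat_lit 237) (nat_lit 225)))) (XT.nd (nat_lit 78) (nat_lit 228) (nat_lit 0) (XT.lf (nat_lit 0) (nat_lit 2378313626) (nat_lit 304) (nat_lit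 4552359648) (nat_lit 76) (nat_lit 4165315376) (nat_lit 61) (nat_lit 5) (nat_lit 65) (nat_lit 5) (nat_lit 62) (nat_lit 4) (nat_lit 319) (nat_lit 237) (nat_lit 224)) (XT.nd (nat_lit 78) (nat_lit 0) (nat_lit 0) (XT.lf (nat_lit 0) (nat_lit 2268836592) (nat_lit 228) (nat_lit 3756925876) (nat_lit 304) (nat_lit 5266644694) (nat_lit 58) (nat_lit 5) (nat_lit 61) (nat_lit 5) (nat_lit 62) (nat_lit 4) (nat_lit 320) (nat_lit 237) (nat_lit 223)) (XT.lf (nat_lit 0) (nat_lit 9270448552) (nat_lit 228) (nat_lit 483270886) (nat_lit 304) (nat_lit 1741924467) (nat_lit 58) (nat_lit 5) (nat_lit 61) (nat_lit 5) (nat_lit 62) (nat_lit 4) (nat_lit 321) (nat_lit 237) (nat_lit 222))))) (XT.nd (nat_lit 234) (nat_lit 456) (nat_lit 0) (XT.nd (nat_lit 78) (nat_lit 152) (nat_lit 0) (XT.lf (nat_lit 0) (nat_lit 1851720993) (nat_lit 304) (nat_lit 6997562752) (nat_lit 76) (nat_lit 2855203190) (nat_lit 54) (nat_lit 5) (nat_lit 58)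 (nat_lit 5) (nat_lit 55) (nat_lit 4) (nat_lit 322) (nat_lit 237) (nat_lit 221)) (XT.nd (nat_lit 78) (nat_lit 152) (nat_lit 0) (XT.lf (nat_lit 0) (nat_lit 5472798167) (nat_lit 304) (nat_lit 164875019) (nat_lit 76) (nat_lit 6282818944) (nat_lit 54) (nat_lit 5) (nat_lit 58) (nat_lit 5) (nat_lit 55) (nat_lit 4) (nat_lit 323) (nat_lit 237) (nat_lit 220)) (XT.lf (nat_lit 0) (nat_lit 6894394434) (nat_lit 152) (nat_lit 2303663891) (nat_lit 228) (nat_lit 2945104358) (nat_lit 52) (nat_lit 5) (nat_lit 54) (nat_lit 5) (nat_lit 55) (nat_lit 4) (nat_lit 324) (nat_lit 237) (nat_lit 219)))) (XT.nd (nat_lit 156) (nat_lit 152) (nat_lit 0) (XT.nd (nat_lit 78) (nat_lit 0) (nat_lit 0) (XT.lf (nat_lit 0) (nat_lit 607973099) (nat_lit 304) (nat_lit 10674573733) (nat_lit 76) (nat_lit 1091074033) (nat_lit 48) (nat_lit 5) (nat_lit 52) (nat_lit 5) (nat_lit 49) (nat_lit 4) (nat_lit 325) (nat_lit 237) (nat_lit 218)) (XT.lf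 (nat_lit 0) (nat_lit 4214871958) (nat_lit 304) (nat_lit 3812893237) (nat_lit 76) (nat_lit 4582207465) (nat_lit 48) (nat_lit 5) (nat_lit 52) (nat_lit 5) (nat_lit 49) (nat_lit 4) (nat_lit 326) (nat_lit 237) (nat_lit 217))) (XT.nd (nat_lit 78) (nat_lit 0) (nat_lit 0) (XT.lf (nat_lit 0) (nat_lit 3206638592) (nat_lit 152) (nat_lit 4686286822) (nat_lit 228) (nat_lit 4961647121) (nat_lit 46) (nat_lit 5) (nat_lit 48) (nat_lit 5) (nat_lit 49) (nat_lit 4) (nat_lit 327) (nat_lit 237) (nat_lit 216)) (XT.lf (nat_lit 0) (nat_lit 10405428839) (nat_lit 152) (nat_lit 1247442360) (nat_lit 228) (nat_lit 1454537303) (nat_lit 46) (nat_lit 5) (nat_lit 48) (nat_lit 5) (nat_lit 49) (nat_lit 4) (nat_lit 328) (nat_lit 237) (nat_lit 215)))))) (XT.nd (nat_lit 546) (nat_lit 608) (nat_lit 0) (XT.nd (nat_lit 234) (nat_lit 380) (nat_lit 0) (XT.nd (nat_lit 78) (nat_lit 152) (nat_lit 0) (XT.lf (nat_lit 0) (nat_lit 2114661932)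 (nat_lit 304) (nat_lit 8980208643) (nat_lit 76) (nat_lit 2272409301) (nat_lit 42) (nat_lit 5) (nat_lit 46) (nat_lit 5) (nat_lit 43) (nat_lit 4) (nat_lit 329) (nat_lit 237) (nat_lit 214)) (XT.nd (nat_lit 78) (nat_lit 152) (nat_lit 0) (XT.lf (nat_lit 0) (nat_lit 5736406982) (nat_lit 304) (nat_lit 2025145879) (nat_lit 76) (nat_lit 5873762183) (nat_lit 42) (nat_lit 5) (nat_lit 46) (nat_lit 5) (nat_lit 43) (nat_lit 4) (nat_lit 330) (nat_lit 237) (nat_lit 213)) (XT.lf (nat_lit 0) (nat_lit 5133720711) (nat_lit 152) (nat_lit 4319130040) (nat_lit 228) (nat_lit 4458998767) (nat_lit 40) (nat_lit 5) (nat_lit 42) (nat_lit 5) (nat_lit 43) (nat_lit 4) (nat_lit 331) (nat_lit 237) (nat_lit 212)))) (XT.nd (nat_lit 156) (nat_lit 152) (nat_lit 0) (XT.nd (nat_lit 78) (nat_lit 228) (nat_lit 0) (XT.lf (nat_lit 0) (nat_lit 12444871027) (nat_lit 152) (nat_lit 793908790) (nat_lit 228) (nat_lit 959198936) (nat_lit 40) (nat_lit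 5) (nat_lit 42) (nat_lit 5) (nat_lit 43) (nat_lit 4) (nat_lit 332) (nat_lit 237) (nat_lit 211)) (XT.lf (nat_lit 0) (nat_lit 2612843668) (nat_lit 228) (nat_lit 9058292565) (nat_lit 76) (nat_lit 2820262762) (nat_lit 37) (nat_lit 5) (nat_lit 40) (nat_lit 5) (nat_lit 38) (nat_lit 4) (nat_lit 333) (nat_lit 237) (nat_lit 210))) (XT.nd (nat_lit 78) (nat_lit 152) (nat_lit 0) (XT.lf (nat_lit 0) (nat_lit 6237651406) (nat_lit 228) (nat_lit 2042457284) (nat_lit 76) (nat_lit 6514316981) (nat_lit 37) (nat_lit 5) (nat_lit 40) (nat_lit 5) (nat_lit 38) (nat_lit 4) (nat_lit 334) (nat_lit 237) (nat_lit 209)) (XT.lf (nat_lit 0) (nat_lit 5185350789) (nat_lit 152) (nat_lit 4776613947) (nat_lit 228) (nat_lit 5144889766) (nat_lit 35) (nat_lit 5) (nat_lit 37) (nat_lit 5) (nat_lit 38) (nat_lit 4) (nat_lit 335) (nat_lit 237) (nat_lit 208))))) (XT.nd (nat_lit 234) (nat_lit 380) (nat_lit 0) (XT.nd (nat_lit 78) (nat_lit 228)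 (nat_lit 0) (XT.lf (nat_lit 0) (nat_lit 12573151665) (nat_lit 152) (nat_lit 1187169229) (nat_lit 228) (nat_lit 1669499100) (nat_lit 35) (nat_lit 5) (nat_lit 37) (nat_lit 5) (nat_lit 38) (nat_lit 4) (nat_lit 336) (nat_lit 237) (nat_lit 207)) (XT.nd (nat_lit 78) (nat_lit 0) (nat_lit 0) (XT.lf (nat_lit 0) (nat_lit 1882221917) (nat_lit 228) (nat_lit 11396330402) (nat_lit 76) (nat_lit 2483122299) (nat_lit 32) (nat_lit 5) (nat_lit 35) (nat_lit 5) (nat_lit 33) (nat_lit 4) (nat_lit 337) (nat_lit 237) (nat_lit 206)) (XT.lf (nat_lit 0) (nat_lit 5490982941) (nat_lit 228) (nat_lit 4366010103) (nat_lit 76) (nat_lit 6246505020) (nat_lit 32) (nat_lit 5) (nat_lit 35) (nat_lit 5) (nat_lit 33) (nat_lit 4) (nat_lit 338) (nat_lit 237) (nat_lit 205)))) (XT.nd (nat_lit 156) (nat_lit 228) (nat_lit 0) (XT.nd (nat_lit 78) (nat_lit 0) (nat_lit 0) (XT.lf (nat_lit 0) (nat_lit 2835999984) (nat_lit 152) (nat_lit 6344080939)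 (nat_lit 228) (nat_lit 7276362564) (nat_lit 30) (nat_lit 5) (nat_lit 32) (nat_lit 5) (nat_lit 33) (nat_lit 4) (nat_lit 339) (nat_lit 237) (nat_lit 204)) (XT.lf (nat_lit 0) (nat_lit 10249935969) (nat_lit 152) (nat_lit 2719524111) (nat_lit 228) (nat_lit 3850857583) (nat_lit 30) (nat_lit 5) (nat_lit 32) (nat_lit 5) (nat_lit 33) (nat_lit 4) (nat_lit 340) (nat_lit 237) (nat_lit 203))) (XT.nd (nat_lit 78) (nat_lit 76) (nat_lit 0) (XT.lf (nat_lit 0) (nat_lit 601009515) (nat_lit 152) (nat_lit 16233774823) (nat_lit 152) (nat_lit 361483618) (nat_lit 28) (nat_lit 4) (nat_lit 30) (nat_lit 5) (nat_lit 30) (nat_lit 4) (nat_lit 341) (nat_lit 237) (nat_lit 202)) (XT.lf (nat_lit 0) (nat_lit 3210291742) (nat_lit 228) (nat_lit 9610269308) (nat_lit 76) (nat_lit 4760805734) (nat_lit 27) (nat_lit 5) (nat_lit 30) (nat_lit 5) (nat_lit 28) (nat_lit 4) (nat_lit 342) (nat_lit 237) (nat_lit 201))))))))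
noncomputable def xc51 : XT := (XT.nd (nat_lit 2106) (nat_lit 456) (nat_lit 0) (XT.nd (nat_lit 1014) (nat_lit 456) (nat_lit 0) (XT.nd (nat_lit 468) (nat_lit 380) (nat_lit 0) (XT.nd (nat_lit 234) (nat_lit 228) (nat_lit 0) (XT.nd (nat_lit 78) (nat_lit 76) (nat_lit 0) (XT.lf (nat_lit 0) (nat_lit 6830370851) (nat_lit 228) (nat_lit 2508955650) (nat_lit 76) (nat_lit 8640157670) (nat_lit 27) (nat_lit 5) (nat_lit 30) (nat_lit 5) (nat_lit 28) (nat_lit 4) (nat_lit 343) (nat_lit 237) (nat_lit 200)) (XT.nd (nat_lit 78) (nat_lit 0) (nat_lit 0) (XT.lf (nat_lit 0) (nat_lit 4812267027) (nat_lit 76) (nat_lit 5742962159) (nat_lit 152) (nat_lit 7834455292) (nat_lit 26) (nat_lit 5) (nat_lit 27) (nat_lit 5) (nat_lit 28) (nat_lit 4) (nat_lit 344) (nat_lit 237) (nat_lit 199)) (XT.lf (nat_lit 0) (nat_lit 12318375749) (nat_lit 76) (nat_lit 2049341707) (nat_lit 152) (nat_lit 4445220796) (nat_lit 26) (nat_lit 5) (nat_lit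 27) (nat_lit 5) (nat_lit 28) (nat_lit 4) (nat_lit 345) (nat_lit 237) (nat_lit 198)))) (XT.nd (nat_lit 78) (nat_lit 76) (nat_lit 0) (XT.lf (nat_lit 0) (nat_lit 713028428) (nat_lit 152) (nat_lit 17556923178) (nat_lit 152) (nat_lit 979700182) (nat_lit 24) (nat_lit 4) (nat_lit 26) (nat_lit 5) (nat_lit 26) (nat_lit 4) (nat_lit 346) (nat_lit 237) (nat_lit 197)) (XT.nd (nat_lit 78) (nat_lit 0) (nat_lit 0) (XT.lf (nat_lit 0) (nat_lit 2577524691) (nat_lit 228) (nat_lit 11558297770) (nat_lit 76) (nat_lit 5561771138) (nat_lit 23) (nat_lit 5) (nat_lit 26) (nat_lit 5) (nat_lit 24) (nat_lit 4) (nat_lit 347) (nat_lit 237) (nat_lit 196)) (XT.lf (nat_lit 0) (nat_lit 6174933081) (nat_lit 228) (nat_lit 4462791650) (nat_lit 76) (nat_lit 9522384510) (nat_lit 23) (nat_lit 5) (nat_lit 26) (nat_lit 5) (nat_lit 24) (nat_lit 4) (nat_lit 348) (nat_lit 237) (nat_lit 195))))) (XT.nd (nat_lit 234) (nat_lit 304) (nat_lit 0)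 (XT.nd (nat_lit 78) (nat_lit 0) (nat_lit 0) (XT.lf (nat_lit 0) (nat_lit 2820551553) (nat_lit 76) (nat_lit 7041347146) (nat_lit 152) (nat_lit 10775173293) (nat_lit 22) (nat_lit 5) (nat_lit 23) (nat_lit 5) (nat_lit 24) (nat_lit 4) (nat_lit 349) (nat_lit 237) (nat_lit 194)) (XT.nd (nat_lit 78) (nat_lit 0) (nat_lit 0) (XT.lf (nat_lit 0) (nat_lit 10334595660) (nat_lit 76) (nat_lit 3325027671) (nat_lit 152) (nat_lit 7468735880) (nat_lit 22) (nat_lit 5) (nat_lit 23) (nat_lit 5) (nat_lit 24) (nat_lit 4) (nat_lit 350) (nat_lit 237) (nat_lit 193)) (XT.lf (nat_lit 0) (nat_lit 17532184826) (nat_lit 152) (nat_lit 3643137035) (nat_lit 0) (nat_lit 460255531) (nat_lit 22) (nat_lit 5) (nat_lit 24) (nat_lit 4) (nat_lit 22) (nat_lit 4) (nat_lit 351) (nat_lit 237) (nat_lit 192)))) (XT.nd (nat_lit 156) (nat_lit 76) (nat_lit 0) (XT.nd (nat_lit 78) (nat_lit 76) (nat_lit 0) (XT.lf (nat_lit 0) (nat_lit 3685291749) (nat_lit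 152) (nat_lit 17861329296) (nat_lit 152) (nat_lit 610639072) (nat_lit 20) (nat_lit 4) (nat_lit 22) (nat_lit 5) (nat_lit 22) (nat_lit 4) (nat_lit 352) (nat_lit 237) (nat_lit 191)) (XT.lf (nat_lit 0) (nat_lit 2923202670) (nat_lit 228) (nat_lit 11490143103) (nat_lit 76) (nat_lit 8280566316) (nat_lit 19) (nat_lit 5) (nat_lit 22) (nat_lit 5) (nat_lit 20) (nat_lit 4) (nat_lit 353) (nat_lit 237) (nat_lit 190))) (XT.nd (nat_lit 78) (nat_lit 76) (nat_lit 0) (XT.lf (nat_lit 0) (nat_lit 6509464074) (nat_lit 228) (nat_lit 4378531774) (nat_lit 76) (nat_lit 12359743392) (nat_lit 19) (nat_lit 5) (nat_lit 22) (nat_lit 5) (nat_lit 20) (nat_lit 4) (nat_lit 354) (nat_lit 237) (nat_lit 189)) (XT.lf (nat_lit 0) (nat_lit 2932166615) (nat_lit 76) (nat_lit 7259213697) (nat_lit 152) (nat_lit 13627175706) (nat_lit 18) (nat_lit 5) (nat_lit 19) (nat_lit 5) (nat_lit 20) (nat_lit 4) (nat_lit 355) (nat_lit 237) (nat_lit 188))))))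 (XT.nd (nat_lit 546) (nat_lit 152) (nat_lit 0) (XT.nd (nat_lit 234) (nat_lit 152) (nat_lit 0) (XT.nd (nat_lit 78) (nat_lit 152) (nat_lit 0) (XT.lf (nat_lit 0) (nat_lit 10481163922) (nat_lit 76) (nat_lit 3507174064) (nat_lit 152) (nat_lit 10418038126) (nat_lit 18) (nat_lit 5) (nat_lit 19) (nat_lit 5) (nat_lit 20) (nat_lit 4) (nat_lit 356) (nat_lit 237) (nat_lit 187)) (XT.nd (nat_lit 78) (nat_lit 152) (nat_lit 0) (XT.lf (nat_lit 0) (nat_lit 17863873166) (nat_lit 152) (nat_lit 6828231086) (nat_lit 0) (nat_lit 320802351) (nat_lit 18) (nat_lit 5) (nat_lit 20) (nat_lit 4) (nat_lit 18) (nat_lit 4) (nat_lit 357) (nat_lit 237) (nat_lit 186)) (XT.lf (nat_lit 0) (nat_lit 386916526) (nat_lit 152) (nat_lit 21469563755) (nat_lit 152) (nat_lit 3781143945) (nat_lit 16) (nat_lit 4) (nat_lit 18) (nat_lit 5) (nat_lit 18) (nat_lit 4) (nat_lit 358) (nat_lit 237) (nat_lit 185)))) (XT.nd (nat_lit 156) (nat_lit 76) (nat_lit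 0) (XT.nd (nat_lit 78) (nat_lit 76) (nat_lit 0) (XT.lf (nat_lit 0) (nat_lit 7891584483) (nat_lit 152) (nat_lit 18109048085) (nat_lit 152) (nat_lit 279512746) (nat_lit 16) (nat_lit 4) (nat_lit 18) (nat_lit 5) (nat_lit 18) (nat_lit 4) (nat_lit 359) (nat_lit 237) (nat_lit 184)) (XT.lf (nat_lit 0) (nat_lit 3225768963) (nat_lit 228) (nat_lit 11418229710) (nat_lit 76) (nat_lit 12298092169) (nat_lit 15) (nat_lit 5) (nat_lit 18) (nat_lit 5) (nat_lit 16) (nat_lit 4) (nat_lit 360) (nat_lit 237) (nat_lit 183))) (XT.nd (nat_lit 78) (nat_lit 76) (nat_lit 0) (XT.lf (nat_lit 0) (nat_lit 6795180122) (nat_lit 228) (nat_lit 4305339977) (nat_lit 76) (nat_lit 16524367624) (nat_lit 15) (nat_lit 5) (nat_lit 18) (nat_lit 5) (nat_lit 16) (nat_lit 4) (nat_lit 361) (nat_lit 237) (nat_lit 182)) (XT.lf (nat_lit 0) (nat_lit 3017900469) (nat_lit 76) (nat_lit 7448403370) (nat_lit 152) (nat_lit 17862039043) (nat_lit 14) (nat_lit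 5) (nat_lit 15) (nat_lit 5) (nat_lit 16) (nat_lit 4) (nat_lit 362) (nat_lit 237) (nat_lit 181))))) (XT.nd (nat_lit 234) (nat_lit 152) (nat_lit 0) (XT.nd (nat_lit 78) (nat_lit 0) (nat_lit 0) (XT.lf (nat_lit 0) (nat_lit 10587774411) (nat_lit 76) (nat_lit 3669294581) (nat_lit 152) (nat_lit 14795560365) (nat_lit 14) (nat_lit 5) (nat_lit 15) (nat_lit 5) (nat_lit 16) (nat_lit 4) (nat_lit 363) (nat_lit 237) (nat_lit 180)) (XT.nd (nat_lit 78) (nat_lit 0) (nat_lit 0) (XT.lf (nat_lit 0) (nat_lit 18130468841) (nat_lit 152) (nat_lit 11476324861) (nat_lit 0) (nat_lit 192795890) (nat_lit 14) (nat_lit 5) (nat_lit 16) (nat_lit 4) (nat_lit 14) (nat_lit 4) (nat_lit 364) (nat_lit 237) (nat_lit 179)) (XT.lf (nat_lit 0) (nat_lit 22124134631) (nat_lit 152) (nat_lit 4372992395) (nat_lit 0) (nat_lit 4071721841) (nat_lit 14) (nat_lit 5) (nat_lit 16) (nat_lit 4) (nat_lit 14) (nat_lit 4) (nat_lit 365) (nat_lit 237) (nat_lit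 178)))) (XT.nd (nat_lit 156) (nat_lit 76) (nat_lit 0) (XT.nd (nat_lit 78) (nat_lit 0) (nat_lit 0) (XT.lf (nat_lit 0) (nat_lit 2944070163) (nat_lit 76) (nat_lit 23290514509) (nat_lit 76) (nat_lit 5126703818) (nat_lit 13) (nat_lit 4) (nat_lit 14) (nat_lit 5) (nat_lit 14) (nat_lit 4) (nat_lit 366) (nat_lit 237) (nat_lit 177)) (XT.lf (nat_lit 0) (nat_lit 10514024414) (nat_lit 76) (nat_lit 19967528104) (nat_lit 76) (nat_lit 1695564111) (nat_lit 13) (nat_lit 4) (nat_lit 14) (nat_lit 5) (nat_lit 14) (nat_lit 4) (nat_lit 367) (nat_lit 237) (nat_lit 176))) (XT.nd (nat_lit 78) (nat_lit 0) (nat_lit 0) (XT.lf (nat_lit 0) (nat_lit 1772272619) (nat_lit 152) (nat_lit 14779253782) (nat_lit 76) (nat_lit 16466284658) (nat_lit 12) (nat_lit 5) (nat_lit 14) (nat_lit 5) (nat_lit 13) (nat_lit 4) (nat_lit 368) (nat_lit 237) (nat_lit 175)) (XT.lf (nat_lit 0) (nat_lit 5280588379) (nat_lit 152) (nat_lit 7759317650) (nat_lit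 76) (nat_lit 20844211450) (nat_lit 12) (nat_lit 5) (nat_lit 14) (nat_lit 5) (nat_lit 13) (nat_lit 4) (nat_lit 369) (nat_lit 237) (nat_lit 174))))))) (XT.nd (nat_lit 1014) (nat_lit 152) (nat_lit 0) (XT.nd (nat_lit 468) (nat_lit 228) (nat_lit 0) (XT.nd (nat_lit 234) (nat_lit 0) (nat_lit 0) (XT.nd (nat_lit 78) (nat_lit 76) (nat_lit 0) (XT.lf (nat_lit 0) (nat_lit 8865535250) (nat_lit 152) (nat_lit 580851094) (nat_lit 76) (nat_lit 25330895476) (nat_lit 12) (nat_lit 5) (nat_lit 14) (nat_lit 5) (nat_lit 13) (nat_lit 4) (nat_lit 370) (nat_lit 237) (nat_lit 173)) (XT.nd (nat_lit 78) (nat_lit 0) (nat_lit 0) (XT.lf (nat_lit 0) (nat_lit 6897003714) (nat_lit 76) (nat_lit 5699540214) (nat_lit 152) (nat_lit 23099551642) (nat_lit 11) (nat_lit 5) (nat_lit 12) (nat_lit 5) (nat_lit 13) (nat_lit 4) (nat_lit 371) (nat_lit 237) (nat_lit 172)) (XT.lf (nat_lit 0) (nat_lit 14561045519) (nat_lit 76) (nat_lit 1856846091)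 (nat_lit 152) (nat_lit 20225239454) (nat_lit 11) (nat_lit 5) (nat_lit 12) (nat_lit 5) (nat_lit 13) (nat_lit 4) (nat_lit 372) (nat_lit 237) (nat_lit 171)))) (XT.nd (nat_lit 78) (nat_lit 0) (nat_lit 0) (XT.lf (nat_lit 0) (nat_lit 20347209146) (nat_lit 152) (nat_lit 15232962099) (nat_lit 0) (nat_lit 2038615808) (nat_lit 11) (nat_lit 5) (nat_lit 13) (nat_lit 4) (nat_lit 11) (nat_lit 4) (nat_lit 373) (nat_lit 237) (nat_lit 170)) (XT.nd (nat_lit 78) (nat_lit 0) (nat_lit 0) (XT.lf (nat_lit 0) (nat_lit 24386705472) (nat_lit 152) (nat_lit 8244512396) (nat_lit 0) (nat_lit 5992734919) (nat_lit 11) (nat_lit 5) (nat_lit 13) (nat_lit 4) (nat_lit 11) (nat_lit 4) (nat_lit 374) (nat_lit 237) (nat_lit 169)) (XT.lf (nat_lit 0) (nat_lit 28522061105) (nat_lit 152) (nat_lit 1092780884) (nat_lit 0) (nat_lit 10045200051) (nat_lit 11) (nat_lit 5) (nat_lit 13) (nat_lit 4) (nat_lit 11) (nat_lit 4) (nat_lit 375) (nat_lit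 237) (nat_lit 168))))) (XT.nd (nat_lit 234) (nat_lit 152) (nat_lit 0) (XT.nd (nat_lit 78) (nat_lit 0) (nat_lit 0) (XT.lf (nat_lit 0) (nat_lit 6352440517) (nat_lit 76) (nat_lit 26465512488) (nat_lit 76) (nat_lit 7908175220) (nat_lit 10) (nat_lit 4) (nat_lit 11) (nat_lit 5) (nat_lit 11) (nat_lit 4) (nat_lit 376) (nat_lit 237) (nat_lit 167)) (XT.nd (nat_lit 78) (nat_lit 0) (nat_lit 0) (XT.lf (nat_lit 0) (nat_lit 13998839831) (nat_lit 76) (nat_lit 23230616459) (nat_lit 76) (nat_lit 4595146943) (nat_lit 10) (nat_lit 4) (nat_lit 11) (nat_lit 5) (nat_lit 11) (nat_lit 4) (nat_lit 377) (nat_lit 237) (nat_lit 166)) (XT.lf (nat_lit 0) (nat_lit 21831349893) (nat_lit 76) (nat_lit 19918362237) (nat_lit 76) (nat_lit 1207036171) (nat_lit 10) (nat_lit 4) (nat_lit 11) (nat_lit 5) (nat_lit 11) (nat_lit 4) (nat_lit 378) (nat_lit 237) (nat_lit 165)))) (XT.nd (nat_lit 156) (nat_lit 76) (nat_lit 0) (XT.nd (nat_lit 78)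 (nat_lit 0) (nat_lit 0) (XT.lf (nat_lit 0) (nat_lit 2215034060) (nat_lit 152) (nat_lit 14288454059) (nat_lit 76) (nat_lit 27619413084) (nat_lit 9) (nat_lit 5) (nat_lit 11) (nat_lit 5) (nat_lit 10) (nat_lit 4) (nat_lit 379) (nat_lit 237) (nat_lit 164)) (XT.lf (nat_lit 0) (nat_lit 5693040327) (nat_lit 152) (nat_lit 7299603409) (nat_lit 76) (nat_lit 32331717756) (nat_lit 9) (nat_lit 5) (nat_lit 11) (nat_lit 5) (nat_lit 10) (nat_lit 4) (nat_lit 380) (nat_lit 237) (nat_lit 163))) (XT.nd (nat_lit 78) (nat_lit 76) (nat_lit 0) (XT.lf (nat_lit 0) (nat_lit 9253575289) (nat_lit 152) (nat_lit 141136928) (nat_lit 76) (nat_lit 37167814859) (nat_lit 9) (nat_lit 5) (nat_lit 11) (nat_lit 5) (nat_lit 10) (nat_lit 4) (nat_lit 381) (nat_lit 237) (nat_lit 162)) (XT.lf (nat_lit 0) (nat_lit 7336359148) (nat_lit 76) (nat_lit 5633912514) (nat_lit 152) (nat_lit 34866092533) (nat_lit 8) (nat_lit 5) (nat_lit 9) (nat_lit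 5) (nat_lit 10) (nat_lit 4) (nat_lit 382) (nat_lit 237) (nat_lit 161)))))) (XT.nd (nat_lit 546) (nat_lit 76) (nat_lit 0) (XT.nd (nat_lit 234) (nat_lit 76) (nat_lit 0) (XT.nd (nat_lit 78) (nat_lit 0) (nat_lit 0) (XT.lf (nat_lit 0) (nat_lit 15002571292) (nat_lit 76) (nat_lit 1776393311) (nat_lit 152) (nat_lit 32370043682) (nat_lit 8) (nat_lit 5) (nat_lit 9) (nat_lit 5) (nat_lit 10) (nat_lit 4) (nat_lit 383) (nat_lit 237) (nat_lit 160)) (XT.nd (nat_lit 78) (nat_lit 0) (nat_lit 0) (XT.lf (nat_lit 0) (nat_lit 20702551884) (nat_lit 152) (nat_lit 27661212080) (nat_lit 0) (nat_lit 2137255262) (nat_lit 8) (nat_lit 5) (nat_lit 10) (nat_lit 4) (nat_lit 8) (nat_lit 4) (nat_lit 384) (nat_lit 237) (nat_lit 159)) (XT.lf (nat_lit 0) (nat_lit 24741547525) (nat_lit 152) (nat_lit 21035749247) (nat_lit 0) (nat_lit 6116369042) (nat_lit 8) (nat_lit 5) (nat_lit 10) (nat_lit 4) (nat_lit 8) (nat_lit 4) (nat_lit 385) (nat_lit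 237) (nat_lit 158)))) (XT.nd (nat_lit 156) (nat_lit 76) (nat_lit 0) (XT.nd (nat_lit 78) (nat_lit 0) (nat_lit 0) (XT.lf (nat_lit 0) (nat_lit 28882404967) (nat_lit 152) (nat_lit 14247183477) (nat_lit 0) (nat_lit 10199088755) (nat_lit 8) (nat_lit 5) (nat_lit 10) (nat_lit 4) (nat_lit 8) (nat_lit 4) (nat_lit 386) (nat_lit 237) (nat_lit 157)) (XT.lf (nat_lit 0) (nat_lit 33128742436) (nat_lit 152) (nat_lit 7289583013) (nat_lit 0) (nat_lit 14388981826) (nat_lit 8) (nat_lit 5) (nat_lit 10) (nat_lit 4) (nat_lit 8) (nat_lit 4) (nat_lit 387) (nat_lit 237) (nat_lit 156))) (XT.nd (nat_lit 78) (nat_lit 76) (nat_lit 0) (XT.lf (nat_lit 0) (nat_lit 37484270322) (nat_lit 152) (nat_lit 156868399) (nat_lit 0) (nat_lit 18689709326) (nat_lit 8) (nat_lit 5) (nat_lit 10) (nat_lit 4) (nat_lit 8) (nat_lit 4) (nat_lit 388) (nat_lit 237) (nat_lit 155)) (XT.lf (nat_lit 0) (nat_lit 7299635004) (nat_lit 76) (nat_lit 34723327981)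 (nat_lit 76) (nat_lit 15875562727) (nat_lit 7) (nat_lit 4) (nat_lit 8) (nat_lit 5) (nat_lit 8) (nat_lit 4) (nat_lit 389) (nat_lit 237) (nat_lit 154))))) (XT.nd (nat_lit 234) (nat_lit 76) (nat_lit 0) (XT.nd (nat_lit 78) (nat_lit 0) (nat_lit 0) (XT.lf (nat_lit 0) (nat_lit 14950734288) (nat_lit 76) (nat_lit 31731200604) (nat_lit 76) (nat_lit 12831780730) (nat_lit 7) (nat_lit 4) (nat_lit 8) (nat_lit 5) (nat_lit 8) (nat_lit 4) (nat_lit 390) (nat_lit 237) (nat_lit 153)) (XT.nd (nat_lit 78) (nat_lit 0) (nat_lit 0) (XT.lf (nat_lit 0) (nat_lit 22799992891) (nat_lit 76) (nat_lit 28663726173) (nat_lit 76) (nat_lit 9714156183) (nat_lit 7) (nat_lit 4) (nat_lit 8) (nat_lit 5) (nat_lit 8) (nat_lit 4) (nat_lit 391) (nat_lit 237) (nat_lit 152)) (XT.lf (nat_lit 0) (nat_lit 30854269388) (nat_lit 76) (nat_lit 25518224372) (nat_lit 76) (nat_lit 6519964949) (nat_lit 7) (nat_lit 4) (nat_lit 8) (nat_lit 5) (nat_lit 8)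 (nat_lit 4) (nat_lit 392) (nat_lit 237) (nat_lit 151)))) (XT.nd (nat_lit 156) (nat_lit 0) (nat_lit 0) (XT.nd (nat_lit 78) (nat_lit 76) (nat_lit 0) (XT.lf (nat_lit 0) (nat_lit 39120601497) (nat_lit 76) (nat_lit 22291946703) (nat_lit 76) (nat_lit 3246415986) (nat_lit 7) (nat_lit 4) (nat_lit 8) (nat_lit 5) (nat_lit 8) (nat_lit 4) (nat_lit 393) (nat_lit 237) (nat_lit 150)) (XT.lf (nat_lit 0) (nat_lit 107217253) (nat_lit 152) (nat_lit 18873774152) (nat_lit 76) (nat_lit 47497912287) (nat_lit 6) (nat_lit 5) (nat_lit 8) (nat_lit 5) (nat_lit 7) (nat_lit 4) (nat_lit 394) (nat_lit 237) (nat_lit 149))) (XT.nd (nat_lit 78) (nat_lit 0) (nat_lit 0) (XT.lf (nat_lit 0) (nat_lit 3480989969) (nat_lit 152) (nat_lit 12069573267) (nat_lit 76) (nat_lit 52802375041) (nat_lit 6) (nat_lit 5) (nat_lit 8) (nat_lit 5) (nat_lit 7) (nat_lit 4) (nat_lit 395) (nat_lit 237) (nat_lit 148)) (XT.lf (nat_lit 0) (nat_lit 6941199387)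 (nat_lit 152) (nat_lit 5088608079) (nat_lit 76) (nat_lit 58253834176) (nat_lit 6) (nat_lit 5) (nat_lit 8) (nat_lit 5) (nat_lit 7) (nat_lit 4) (nat_lit 396) (nat_lit 237) (nat_lit 147))))))))
noncomputable def xc52 : XT := (XT.nd (nat_lit 34476) (nat_lit 0) (nat_lit 1596) (XT.nd (nat_lit 33462) (nat_lit 0) (nat_lit 4560) (XT.nd (nat_lit 468) (nat_lit 0) (nat_lit 0) (XT.nd (nat_lit 234) (nat_lit 0) (nat_lit 0) (XT.nd (nat_lit 78) (nat_lit 0) (nat_lit 0) (XT.lf (nat_lit 0) (nat_lit 2116522255) (nat_lit 76) (nat_lit 8394692042) (nat_lit 152) (nat_lit 61760876153) (nat_lit 5) (nat_lit 5) (nat_lit 6) (nat_lit 5) (nat_lit 7) (nat_lit 4) (nat_lit 397) (nat_lit 237) (nat_lit 146)) (XT.nd (nat_lit 78) (nat_lit 0) (nat_lit 0) (XT.lf (nat_lit 0) (nat_lit 9615813636) (nat_lit 76) (nat_lit 4609719880) (nat_lit 152) (nat_lit 60093547284) (nat_lit 5) (nat_lit 5) (nat_lit 6) (nat_lit 5) (nat_lit 7) (nat_lit 4)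 (nat_lit 398) (nat_lit 237) (nat_lit 145)) (XT.lf (nat_lit 0) (nat_lit 17314545563) (nat_lit 76) (nat_lit 722968688) (nat_lit 152) (nat_lit 58390383722) (nat_lit 5) (nat_lit 5) (nat_lit 6) (nat_lit 5) (nat_lit 7) (nat_lit 4) (nat_lit 399) (nat_lit 237) (nat_lit 144)))) (XT.nd (nat_lit 78) (nat_lit 0) (nat_lit 0) (XT.lf (nat_lit 0) (nat_lit 21981910580) (nat_lit 152) (nat_lit 53412362765) (nat_lit 0) (nat_lit 3205168583) (nat_lit 5) (nat_lit 5) (nat_lit 7) (nat_lit 4) (nat_lit 5) (nat_lit 4) (nat_lit 400) (nat_lit 237) (nat_lit 143)) (XT.nd (nat_lit 78) (nat_lit 0) (nat_lit 0) (XT.lf (nat_lit 0) (nat_lit 26038712539) (nat_lit 152) (nat_lit 47571860256) (nat_lit 0) (nat_lit 7225741032) (nat_lit 5) (nat_lit 5) (nat_lit 7) (nat_lit 4) (nat_lit 5) (nat_lit 4) (nat_lit 401) (nat_lit 237) (nat_lit 142)) (XT.lf (nat_lit 0) (nat_lit 30204515291) (nat_lit 152) (nat_lit 41579791915) (nat_lit 0) (nat_lit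 11356369501) (nat_lit 5) (nat_lit 5) (nat_lit 7) (nat_lit 4) (nat_lit 5) (nat_lit 4) (nat_lit 402) (nat_lit 237) (nat_lit 141))))) (XT.nd (nat_lit 234) (nat_lit 0) (nat_lit 0) (XT.nd (nat_lit 78) (nat_lit 0) (nat_lit 0) (XT.lf (nat_lit 0) (nat_lit 34482958856) (nat_lit 152) (nat_lit 35430921954) (nat_lit 0) (nat_lit 15600663277) (nat_lit 5) (nat_lit 5) (nat_lit 7) (nat_lit 4) (nat_lit 5) (nat_lit 4) (nat_lit 403) (nat_lit 237) (nat_lit 140)) (XT.nd (nat_lit 78) (nat_lit 0) (nat_lit 0) (XT.lf (nat_lit 0) (nat_lit 38877781680) (nat_lit 152) (nat_lit 29119877575) (nat_lit 0) (nat_lit 19962330967) (nat_lit 5) (nat_lit 5) (nat_lit 7) (nat_lit 4) (nat_lit 5) (nat_lit 4) (nat_lit 404) (nat_lit 237) (nat_lit 139)) (XT.lf (nat_lit 0) (nat_lit 43392823901) (nat_lit 152) (nat_lit 22641144272) (nat_lit 0) (nat_lit 24445183737) (nat_lit 5) (nat_lit 5) (nat_lit 7) (nat_lit 4) (nat_lit 5) (nat_lit 4) (nat_lit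 405) (nat_lit 237) (nat_lit 138)))) (XT.nd (nat_lit 156) (nat_lit 0) (nat_lit 0) (XT.nd (nat_lit 78) (nat_lit 0) (nat_lit 0) (XT.lf (nat_lit 0) (nat_lit 48032030700) (nat_lit 152) (nat_lit 15989061016) (nat_lit 0) (nat_lit 29053138641) (nat_lit 5) (nat_lit 5) (nat_lit 7) (nat_lit 4) (nat_lit 5) (nat_lit 4) (nat_lit 406) (nat_lit 237) (nat_lit 137)) (XT.lf (nat_lit 0) (nat_lit 52799455754) (nat_lit 152) (nat_lit 9157815307) (nat_lit 0) (nat_lit 33790222050) (nat_lit 5) (nat_lit 5) (nat_lit 7) (nat_lit 4) (nat_lit 5) (nat_lit 4) (nat_lit 407) (nat_lit 237) (nat_lit 136))) (XT.nd (nat_lit 32526) (nat_lit 0) (nat_lit 7600) (XT.lf (nat_lit 0) (nat_lit 57699264773) (nat_lit 152) (nat_lit 2141438096) (nat_lit 0) (nat_lit 38660573162) (nat_lit 5) (nat_lit 5) (nat_lit 7) (nat_lit 4) (nat_lit 5) (nat_lit 4) (nat_lit 408) (nat_lit 237) (nat_lit 135)) (XT.lf (nat_lit 0) (nat_lit 2393493816) (nat_lit 380)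 (nat_lit 1005730841) (nat_lit 380) (nat_lit 1005730841) (nat_lit 105) (nat_lit 4) (nat_lit 110) (nat_lit 5) (nat_lit 110) (nat_lit 4) (nat_lit 304) (nat_lit 238) (nat_lit 238)))))) (XT.nd (nat_lit 468) (nat_lit 1520) (nat_lit 0) (XT.nd (nat_lit 234) (nat_lit 760) (nat_lit 0) (XT.nd (nat_lit 78) (nat_lit 380) (nat_lit 0) (XT.lf (nat_lit 0) (nat_lit 1608675743) (nat_lit 380) (nat_lit 6705025395) (nat_lit 0) (nat_lit 615944619) (nat_lit 100) (nat_lit 5) (nat_lit 105) (nat_lit 4) (nat_lit 100) (nat_lit 4) (nat_lit 305) (nat_lit 238) (nat_lit 237)) (XT.nd (nat_lit 78) (nat_lit 380) (nat_lit 0) (XT.lf (nat_lit 0) (nat_lit 5266661231) (nat_lit 380) (nat_lit 476612292) (nat_lit 0) (nat_lit 3310113483) (nat_lit 100) (nat_lit 5) (nat_lit 105) (nat_lit 4) (nat_lit 100) (nat_lit 4) (nat_lit 306) (nat_lit 238) (nat_lit 236)) (XT.lf (nat_lit 0) (nat_lit 5931404332) (nat_lit 380) (nat_lit 3071387572) (nat_lit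 380) (nat_lit 179095528) (nat_lit 95) (nat_lit 4) (nat_lit 100) (nat_lit 5) (nat_lit 100) (nat_lit 4) (nat_lit 307) (nat_lit 238) (nat_lit 235)))) (XT.nd (nat_lit 78) (nat_lit 380) (nat_lit 0) (XT.lf (nat_lit 0) (nat_lit 3130745928) (nat_lit 304) (nat_lit 283799677) (nat_lit 380) (nat_lit 5900366848) (nat_lit 90) (nat_lit 5) (nat_lit 94) (nat_lit 5) (nat_lit 95) (nat_lit 4) (nat_lit 308) (nat_lit 238) (nat_lit 234)) (XT.nd (nat_lit 78) (nat_lit 76) (nat_lit 0) (XT.lf (nat_lit 0) (nat_lit 170687774) (nat_lit 304) (nat_lit 6914259641) (nat_lit 304) (nat_lit 2367841779) (nat_lit 86) (nat_lit 4) (nat_lit 90) (nat_lit 5) (nat_lit 90) (nat_lit 4) (nat_lit 309) (nat_lit 238) (nat_lit 233)) (XT.lf (nat_lit 0) (nat_lit 1225044169) (nat_lit 380) (nat_lit 2890974884) (nat_lit 76) (nat_lit 5479126835) (nat_lit 85) (nat_lit 5) (nat_lit 90) (nat_lit 5) (nat_lit 86) (nat_lit 4) (nat_lit 310) (nat_lit 238) (nat_lit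 232))))) (XT.nd (nat_lit 234) (nat_lit 836) (nat_lit 0) (XT.nd (nat_lit 78) (nat_lit 380) (nat_lit 0) (XT.lf (nat_lit 0) (nat_lit 3617319077) (nat_lit 304) (nat_lit 1211407462) (nat_lit 380) (nat_lit 4913908394) (nat_lit 81) (nat_lit 5) (nat_lit 85) (nat_lit 5) (nat_lit 86) (nat_lit 4) (nat_lit 311) (nat_lit 238) (nat_lit 231)) (XT.nd (nat_lit 78) (nat_lit 76) (nat_lit 0) (XT.lf (nat_lit 0) (nat_lit 353219766) (nat_lit 304) (nat_lit 8154051472) (nat_lit 304) (nat_lit 1388355438) (nat_lit 77) (nat_lit 4) (nat_lit 81) (nat_lit 5) (nat_lit 81) (nat_lit 4) (nat_lit 312) (nat_lit 238) (nat_lit 230)) (XT.lf (nat_lit 0) (nat_lit 2190784476) (nat_lit 380) (nat_lit 3057088735) (nat_lit 76) (nat_lit 4805016436) (nat_lit 76) (nat_lit 5) (nat_lit 81) (nat_lit 5) (nat_lit 77) (nat_lit 4) (nat_lit 313) (nat_lit 238) (nat_lit 229)))) (XT.nd (nat_lit 156) (nat_lit 608) (nat_lit 0) (XT.nd (nat_lit 78) (nat_lit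 0) (nat_lit 0) (XT.lf (nat_lit 0) (nat_lit 3558834877) (nat_lit 228) (nat_lit 2244311026) (nat_lit 304) (nat_lit 4412773408) (nat_lit 73) (nat_lit 5) (nat_lit 76) (nat_lit 5) (nat_lit 77) (nat_lit 4) (nat_lit 314) (nat_lit 238) (nat_lit 228)) (XT.lf (nat_lit 0) (nat_lit 9483588609) (nat_lit 304) (nat_lit 76033171) (nat_lit 0) (nat_lit 825498372) (nat_lit 73) (nat_lit 5) (nat_lit 77) (nat_lit 4) (nat_lit 73) (nat_lit 4) (nat_lit 315) (nat_lit 238) (nat_lit 227))) (XT.nd (nat_lit 78) (nat_lit 228) (nat_lit 0) (XT.lf (nat_lit 0) (nat_lit 2671345535) (nat_lit 380) (nat_lit 3891571022) (nat_lit 76) (nat_lit 3995486637) (nat_lit 68) (nat_lit 5) (nat_lit 73) (nat_lit 5) (nat_lit 69) (nat_lit 4) (nat_lit 316) (nat_lit 238) (nat_lit 226)) (XT.lf (nat_lit 0) (nat_lit 2804990315) (nat_lit 228) (nat_lit 3479043727) (nat_lit 304) (nat_lit 4454126074) (nat_lit 65) (nat_lit 5) (nat_lit 68) (nat_lit 5) (nat_lit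 69) (nat_lit 4) (nat_lit 317) (nat_lit 238) (nat_lit 225))))))) (XT.nd (nat_lit 1014) (nat_lit 1216) (nat_lit 0) (XT.nd (nat_lit 468) (nat_lit 912) (nat_lit 0) (XT.nd (nat_lit 234) (nat_lit 304) (nat_lit 0) (XT.nd (nat_lit 78) (nat_lit 532) (nat_lit 0) (XT.lf (nat_lit 0) (nat_lit 9665881885) (nat_lit 228) (nat_lit 302649096) (nat_lit 304) (nat_lit 955939547) (nat_lit 65) (nat_lit 5) (nat_lit 68) (nat_lit 5) (nat_lit 69) (nat_lit 4) (nat_lit 318) (nat_lit 238) (nat_lit 224)) (XT.nd (nat_lit 78) (nat_lit 228) (nat_lit 0) (XT.lf (nat_lit 0) (nat_lit 2603714706) (nat_lit 304) (nat_lit 5559949109) (nat_lit 76) (nat_lit 2951757652) (nat_lit 61) (nat_lit 5) (nat_lit 65) (nat_lit 5) (nat_lit 62) (nat_lit 4) (nat_lit 319) (nat_lit 238) (nat_lit 223)) (XT.lf (nat_lit 0) (nat_lit 1183293101) (nat_lit 228) (nat_lit 5021102836) (nat_lit 304) (nat_lit 5108875748) (nat_lit 58) (nat_lit 5) (nat_lit 61) (nat_lit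 5) (nat_lit 62) (nat_lit 4) (nat_lit 320) (nat_lit 238) (nat_lit 222)))) (XT.nd (nat_lit 78) (nat_lit 304) (nat_lit 0) (XT.lf (nat_lit 0) (nat_lit 8128690475) (nat_lit 228) (nat_lit 1767847594) (nat_lit 304) (nat_lit 1621072645) (nat_lit 58) (nat_lit 5) (nat_lit 61) (nat_lit 5) (nat_lit 62) (nat_lit 4) (nat_lit 321) (nat_lit 238) (nat_lit 221)) (XT.nd (nat_lit 78) (nat_lit 0) (nat_lit 0) (XT.lf (nat_lit 0) (nat_lit 1910460582) (nat_lit 304) (nat_lit 8252758904) (nat_lit 76) (nat_lit 1565018272) (nat_lit 54) (nat_lit 5) (nat_lit 58) (nat_lit 5) (nat_lit 55) (nat_lit 4) (nat_lit 322) (nat_lit 238) (nat_lit 220)) (XT.lf (nat_lit 0) (nat_lit 5496699102) (nat_lit 304) (nat_lit 1475703378) (nat_lit 76) (nat_lit 4972911112) (nat_lit 54) (nat_lit 5) (nat_lit 58) (nat_lit 5) (nat_lit 55) (nat_lit 4) (nat_lit 323) (nat_lit 238) (nat_lit 219))))) (XT.nd (nat_lit 234) (nat_lit 456) (nat_lit 0) (XT.nd (nat_lit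 78) (nat_lit 304) (nat_lit 0) (XT.lf (nat_lit 0) (nat_lit 5502391228) (nat_lit 152) (nat_lit 3672363310) (nat_lit 228) (nat_lit 2994670486) (nat_lit 52) (nat_lit 5) (nat_lit 54) (nat_lit 5) (nat_lit 55) (nat_lit 4) (nat_lit 324) (nat_lit 238) (nat_lit 218)) (XT.nd (nat_lit 78) (nat_lit 0) (nat_lit 0) (XT.lf (nat_lit 0) (nat_lit 208804283) (nat_lit 228) (nat_lit 291735409) (nat_lit 304) (nat_lit 11901146159) (nat_lit 48) (nat_lit 5) (nat_lit 51) (nat_lit 5) (nat_lit 52) (nat_lit 5) (nat_lit 325) (nat_lit 238) (nat_lit 217)) (XT.lf (nat_lit 0) (nat_lit 4071197494) (nat_lit 304) (nat_lit 5382865773) (nat_lit 76) (nat_lit 3185084250) (nat_lit 48) (nat_lit 5) (nat_lit 52) (nat_lit 5) (nat_lit 49) (nat_lit 4) (nat_lit 326) (nat_lit 238) (nat_lit 216)))) (XT.nd (nat_lit 156) (nat_lit 304) (nat_lit 0) (XT.nd (nat_lit 78) (nat_lit 0) (nat_lit 0) (XT.lf (nat_lit 0) (nat_lit 1551485494) (nat_lit 152) (nat_lit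 6149392277) (nat_lit 228) (nat_lit 5184342795) (nat_lit 46) (nat_lit 5) (nat_lit 48) (nat_lit 5) (nat_lit 49) (nat_lit 4) (nat_lit 327) (nat_lit 238) (nat_lit 215)) (XT.lf (nat_lit 0) (nat_lit 8697911635) (nat_lit 152) (nat_lit 2730891251) (nat_lit 228) (nat_lit 1710235606) (nat_lit 46) (nat_lit 5) (nat_lit 48) (nat_lit 5) (nat_lit 49) (nat_lit 4) (nat_lit 328) (nat_lit 238) (nat_lit 214))) (XT.nd (nat_lit 78) (nat_lit 0) (nat_lit 0) (XT.lf (nat_lit 0) (nat_lit 1800355328) (nat_lit 304) (nat_lit 10822511986) (nat_lit 76) (nat_lit 778044340) (nat_lit 42) (nat_lit 5) (nat_lit 46) (nat_lit 5) (nat_lit 43) (nat_lit 4) (nat_lit 329) (nat_lit 238) (nat_lit 213)) (XT.lf (nat_lit 0) (nat_lit 5390917080) (nat_lit 304) (nat_lit 3919185891) (nat_lit 76) (nat_lit 4359798879) (nat_lit 42) (nat_lit 5) (nat_lit 46) (nat_lit 5) (nat_lit 43) (nat_lit 4) (nat_lit 330) (nat_lit 238) (nat_lit 212)))))) (XT.nd (nat_lit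 546) (nat_lit 456) (nat_lit 0) (XT.nd (nat_lit 234) (nat_lit 380) (nat_lit 0) (XT.nd (nat_lit 78) (nat_lit 228) (nat_lit 0) (XT.lf (nat_lit 0) (nat_lit 3150756142) (nat_lit 152) (nat_lit 5907268190) (nat_lit 228) (nat_lit 4889911046) (nat_lit 40) (nat_lit 5) (nat_lit 42) (nat_lit 5) (nat_lit 43) (nat_lit 4) (nat_lit 331) (nat_lit 238) (nat_lit 211)) (XT.nd (nat_lit 78) (nat_lit 228) (nat_lit 0) (XT.lf (nat_lit 0) (nat_lit 10412169132) (nat_lit 152) (nat_lit 2401912912) (nat_lit 228) (nat_lit 1420897117) (nat_lit 40) (nat_lit 5) (nat_lit 42) (nat_lit 5) (nat_lit 43) (nat_lit 4) (nat_lit 332) (nat_lit 238) (nat_lit 210)) (XT.lf (nat_lit 0) (nat_lit 2094227381) (nat_lit 228) (nat_lit 11237279171) (nat_lit 76) (nat_lit 1199021170) (nat_lit 37) (nat_lit 5) (nat_lit 40) (nat_lit 5) (nat_lit 38) (nat_lit 4) (nat_lit 333) (nat_lit 238) (nat_lit 209)))) (XT.nd (nat_lit 156) (nat_lit 228) (nat_lit 0) (XT.nd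 (nat_lit 78) (nat_lit 152) (nat_lit 0) (XT.lf (nat_lit 0) (nat_lit 5689929994) (nat_lit 228) (nat_lit 4270550854) (nat_lit 76) (nat_lit 4873963549) (nat_lit 37) (nat_lit 5) (nat_lit 40) (nat_lit 5) (nat_lit 38) (nat_lit 4) (nat_lit 334) (nat_lit 238) (nat_lit 208)) (XT.lf (nat_lit 0) (nat_lit 2864288265) (nat_lit 152) (nat_lit 6499386183) (nat_lit 228) (nat_lit 5784732199) (nat_lit 35) (nat_lit 5) (nat_lit 37) (nat_lit 5) (nat_lit 38) (nat_lit 4) (nat_lit 335) (nat_lit 238) (nat_lit 207))) (XT.nd (nat_lit 78) (nat_lit 228) (nat_lit 0) (XT.lf (nat_lit 0) (nat_lit 10204879896) (nat_lit 152) (nat_lit 2929262534) (nat_lit 228) (nat_lit 2338082233) (nat_lit 35) (nat_lit 5) (nat_lit 37) (nat_lit 5) (nat_lit 38) (nat_lit 4) (nat_lit 336) (nat_lit 238) (nat_lit 206)) (XT.lf (nat_lit 0) (nat_lit 1158069692) (nat_lit 228) (nat_lit 13922669742) (nat_lit 76) (nat_lit 725606091) (nat_lit 32) (nat_lit 5) (nat_lit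 35) (nat_lit 5) (nat_lit 33) (nat_lit 4) (nat_lit 337) (nat_lit 238) (nat_lit 205))))) (XT.nd (nat_lit 234) (nat_lit 304) (nat_lit 0) (XT.nd (nat_lit 78) (nat_lit 152) (nat_lit 0) (XT.lf (nat_lit 0) (nat_lit 4739644884) (nat_lit 228) (nat_lit 6938930919) (nat_lit 76) (nat_lit 4470423275) (nat_lit 32) (nat_lit 5) (nat_lit 35) (nat_lit 5) (nat_lit 33) (nat_lit 4) (nat_lit 338) (nat_lit 238) (nat_lit 204)) (XT.nd (nat_lit 78) (nat_lit 0) (nat_lit 0) (XT.lf (nat_lit 0) (nat_lit 165748205) (nat_lit 152) (nat_lit 8210932555) (nat_lit 228) (nat_lit 8126839711) (nat_lit 30) (nat_lit 5) (nat_lit 32) (nat_lit 5) (nat_lit 33) (nat_lit 4) (nat_lit 339) (nat_lit 238) (nat_lit 203)) (XT.lf (nat_lit 0) (nat_lit 7534902836) (nat_lit 152) (nat_lit 4605101360) (nat_lit 228) (nat_lit 4728185818) (nat_lit 30) (nat_lit 5) (nat_lit 32) (nat_lit 5) (nat_lit 33) (nat_lit 4) (nat_lit 340) (nat_lit 238) (nat_lit 202))))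 (XT.nd (nat_lit 156) (nat_lit 76) (nat_lit 0) (XT.nd (nat_lit 78) (nat_lit 228) (nat_lit 0) (XT.lf (nat_lit 0) (nat_lit 15036873711) (nat_lit 152) (nat_lit 928001090) (nat_lit 228) (nat_lit 1280492415) (nat_lit 30) (nat_lit 5) (nat_lit 32) (nat_lit 5) (nat_lit 33) (nat_lit 4) (nat_lit 341) (nat_lit 238) (nat_lit 201)) (XT.lf (nat_lit 0) (nat_lit 2253018469) (nat_lit 228) (nat_lit 12539666174) (nat_lit 76) (nat_lit 2839744886) (nat_lit 27) (nat_lit 5) (nat_lit 30) (nat_lit 5) (nat_lit 28) (nat_lit 4) (nat_lit 342) (nat_lit 238) (nat_lit 200))) (XT.nd (nat_lit 78) (nat_lit 76) (nat_lit 0) (XT.lf (nat_lit 0) (nat_lit 5848426838) (nat_lit 228) (nat_lit 5481226926) (nat_lit 76) (nat_lit 6701645443) (nat_lit 27) (nat_lit 5) (nat_lit 30) (nat_lit 5) (nat_lit 28) (nat_lit 4) (nat_lit 343) (nat_lit 238) (nat_lit 199)) (XT.lf (nat_lit 0) (nat_lit 1738387652) (nat_lit 76) (nat_lit 7781397337) (nat_lit 152)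 (nat_lit 8923331346) (nat_lit 26) (nat_lit 5) (nat_lit 27) (nat_lit 5) (nat_lit 28) (nat_lit 4) (nat_lit 344) (nat_lit 238) (nat_lit 198))))))))
noncomputable def xc53 : XT := (XT.nd (nat_lit 2028) (nat_lit 456) (nat_lit 0) (XT.nd (nat_lit 1014) (nat_lit 456) (nat_lit 0) (XT.nd (nat_lit 468) (nat_lit 304) (nat_lit 0) (XT.nd (nat_lit 234) (nat_lit 76) (nat_lit 0) (XT.nd (nat_lit 78) (nat_lit 228) (nat_lit 0) (XT.lf (nat_lit 0) (nat_lit 9203278828) (nat_lit 76) (nat_lit 4105343685) (nat_lit 152) (nat_lit 5558468589) (nat_lit 26) (nat_lit 5) (nat_lit 27) (nat_lit 5) (nat_lit 28) (nat_lit 4) (nat_lit 345) (nat_lit 238) (nat_lit 197)) (XT.nd (nat_lit 78) (nat_lit 228) (nat_lit 0) (XT.lf (nat_lit 0) (nat_lit 16810882157) (nat_lit 76) (nat_lit 353630368) (nat_lit 152) (nat_lit 2140693573) (nat_lit 26) (nat_lit 5) (nat_lit 27) (nat_lit 5) (nat_lit 28) (nat_lit 4) (nat_lit 346) (nat_lit 238) (nat_lit 196))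 (XT.lf (nat_lit 0) (nat_lit 1388015886) (nat_lit 228) (nat_lit 14897403642) (nat_lit 76) (nat_lit 3469608802) (nat_lit 23) (nat_lit 5) (nat_lit 26) (nat_lit 5) (nat_lit 24) (nat_lit 4) (nat_lit 347) (nat_lit 238) (nat_lit 195)))) (XT.nd (nat_lit 78) (nat_lit 76) (nat_lit 0) (XT.lf (nat_lit 0) (nat_lit 4963021375) (nat_lit 228) (nat_lit 7841339502) (nat_lit 76) (nat_lit 7413865374) (nat_lit 23) (nat_lit 5) (nat_lit 26) (nat_lit 5) (nat_lit 24) (nat_lit 4) (nat_lit 348) (nat_lit 238) (nat_lit 194)) (XT.nd (nat_lit 78) (nat_lit 76) (nat_lit 0) (XT.lf (nat_lit 0) (nat_lit 8601123736) (nat_lit 228) (nat_lit 651328602) (nat_lit 76) (nat_lit 11444212455) (nat_lit 23) (nat_lit 5) (nat_lit 26) (nat_lit 5) (nat_lit 24) (nat_lit 4) (nat_lit 349) (nat_lit 238) (nat_lit 193)) (XT.lf (nat_lit 0) (nat_lit 6811835027) (nat_lit 76) (nat_lit 5559146394) (nat_lit 152) (nat_lit 8817816205) (nat_lit 22) (nat_lit 5)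 (nat_lit 23) (nat_lit 5) (nat_lit 24) (nat_lit 4) (nat_lit 350) (nat_lit 238) (nat_lit 192))))) (XT.nd (nat_lit 234) (nat_lit 76) (nat_lit 0) (XT.nd (nat_lit 78) (nat_lit 228) (nat_lit 0) (XT.lf (nat_lit 0) (nat_lit 14437514042) (nat_lit 76) (nat_lit 1780660863) (nat_lit 152) (nat_lit 5478611270) (nat_lit 22) (nat_lit 5) (nat_lit 23) (nat_lit 5) (nat_lit 24) (nat_lit 4) (nat_lit 351) (nat_lit 238) (nat_lit 191)) (XT.nd (nat_lit 78) (nat_lit 228) (nat_lit 0) (XT.lf (nat_lit 0) (nat_lit 20159671864) (nat_lit 152) (nat_lit 21848565) (nat_lit 0) (nat_lit 2039145703) (nat_lit 22) (nat_lit 5) (nat_lit 24) (nat_lit 4) (nat_lit 22) (nat_lit 4) (nat_lit 352) (nat_lit 238) (nat_lit 190)) (XT.lf (nat_lit 0) (nat_lit 1480576968) (nat_lit 228) (nat_lit 15283454237) (nat_lit 76) (nat_lit 5994330851) (nat_lit 19) (nat_lit 5) (nat_lit 22) (nat_lit 5) (nat_lit 20) (nat_lit 4) (nat_lit 353) (nat_lit 238) (nat_lit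 189)))) (XT.nd (nat_lit 156) (nat_lit 76) (nat_lit 0) (XT.nd (nat_lit 78) (nat_lit 0) (nat_lit 0) (XT.lf (nat_lit 0) (nat_lit 5047075422) (nat_lit 228) (nat_lit 8207053948) (nat_lit 76) (nat_lit 10058661012) (nat_lit 19) (nat_lit 5) (nat_lit 22) (nat_lit 5) (nat_lit 20) (nat_lit 4) (nat_lit 354) (nat_lit 238) (nat_lit 188)) (XT.lf (nat_lit 0) (nat_lit 8681618552) (nat_lit 228) (nat_lit 987758166) (nat_lit 76) (nat_lit 14215659680) (nat_lit 19) (nat_lit 5) (nat_lit 22) (nat_lit 5) (nat_lit 20) (nat_lit 4) (nat_lit 355) (nat_lit 238) (nat_lit 187))) (XT.nd (nat_lit 78) (nat_lit 0) (nat_lit 0) (XT.lf (nat_lit 0) (nat_lit 6507730492) (nat_lit 76) (nat_lit 5942207964) (nat_lit 152) (nat_lit 12023784980) (nat_lit 18) (nat_lit 5) (nat_lit 19) (nat_lit 5) (nat_lit 20) (nat_lit 4) (nat_lit 356) (nat_lit 238) (nat_lit 186)) (XT.lf (nat_lit 0) (nat_lit 14181617169) (nat_lit 76) (nat_lit 2122309535) (nat_lit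 152) (nat_lit 8776981215) (nat_lit 18) (nat_lit 5) (nat_lit 19) (nat_lit 5) (nat_lit 20) (nat_lit 4) (nat_lit 357) (nat_lit 238) (nat_lit 185)))))) (XT.nd (nat_lit 468) (nat_lit 152) (nat_lit 0) (XT.nd (nat_lit 234) (nat_lit 76) (nat_lit 0) (XT.nd (nat_lit 78) (nat_lit 228) (nat_lit 0) (XT.lf (nat_lit 0) (nat_lit 20254412793) (nat_lit 152) (nat_lit 3703607875) (nat_lit 0) (nat_lit 1748875866) (nat_lit 18) (nat_lit 5) (nat_lit 20) (nat_lit 4) (nat_lit 18) (nat_lit 4) (nat_lit 358) (nat_lit 238) (nat_lit 184)) (XT.nd (nat_lit 78) (nat_lit 76) (nat_lit 0) (XT.lf (nat_lit 0) (nat_lit 3695352301) (nat_lit 152) (nat_lit 20649118792) (nat_lit 152) (nat_lit 2006576497) (nat_lit 16) (nat_lit 4) (nat_lit 18) (nat_lit 5) (nat_lit 18) (nat_lit 4) (nat_lit 359) (nat_lit 238) (nat_lit 183)) (XT.lf (nat_lit 0) (nat_lit 1514962568) (nat_lit 228) (nat_lit 15700183200) (nat_lit 76) (nat_lit 9798875453) (nat_lit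 15) (nat_lit 5) (nat_lit 18) (nat_lit 5) (nat_lit 16) (nat_lit 4) (nat_lit 360) (nat_lit 238) (nat_lit 182)))) (XT.nd (nat_lit 78) (nat_lit 76) (nat_lit 0) (XT.lf (nat_lit 0) (nat_lit 5067437924) (nat_lit 228) (nat_lit 8617798928) (nat_lit 76) (nat_lit 14012095865) (nat_lit 15) (nat_lit 5) (nat_lit 18) (nat_lit 5) (nat_lit 16) (nat_lit 4) (nat_lit 361) (nat_lit 238) (nat_lit 181)) (XT.nd (nat_lit 78) (nat_lit 76) (nat_lit 0) (XT.lf (nat_lit 0) (nat_lit 8693109207) (nat_lit 228) (nat_lit 1383065542) (nat_lit 76) (nat_lit 18325983052) (nat_lit 15) (nat_lit 5) (nat_lit 18) (nat_lit 5) (nat_lit 16) (nat_lit 4) (nat_lit 362) (nat_lit 238) (nat_lit 180)) (XT.lf (nat_lit 0) (nat_lit 6129956092) (nat_lit 76) (nat_lit 6324113277) (nat_lit 152) (nat_lit 16673275223) (nat_lit 14) (nat_lit 5) (nat_lit 15) (nat_lit 5) (nat_lit 16) (nat_lit 4) (nat_lit 363) (nat_lit 238) (nat_lit 179))))) (XT.nd (nat_lit 234)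 (nat_lit 152) (nat_lit 0) (XT.nd (nat_lit 78) (nat_lit 0) (nat_lit 0) (XT.lf (nat_lit 0) (nat_lit 13838920855) (nat_lit 76) (nat_lit 2470885852) (nat_lit 152) (nat_lit 13565033980) (nat_lit 14) (nat_lit 5) (nat_lit 15) (nat_lit 5) (nat_lit 16) (nat_lit 4) (nat_lit 364) (nat_lit 238) (nat_lit 178)) (XT.nd (nat_lit 78) (nat_lit 0) (nat_lit 0) (XT.lf (nat_lit 0) (nat_lit 20264289341) (nat_lit 152) (nat_lit 8936825500) (nat_lit 0) (nat_lit 1444166428) (nat_lit 14) (nat_lit 5) (nat_lit 16) (nat_lit 4) (nat_lit 14) (nat_lit 4) (nat_lit 365) (nat_lit 238) (nat_lit 177)) (XT.lf (nat_lit 0) (nat_lit 24331457151) (nat_lit 152) (nat_lit 1704386917) (nat_lit 0) (nat_lit 5403180935) (nat_lit 14) (nat_lit 5) (nat_lit 16) (nat_lit 4) (nat_lit 14) (nat_lit 4) (nat_lit 366) (nat_lit 238) (nat_lit 176)))) (XT.nd (nat_lit 156) (nat_lit 76) (nat_lit 0) (XT.nd (nat_lit 78) (nat_lit 0) (nat_lit 0) (XT.lf (nat_lit 0)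 (nat_lit 5804738545) (nat_lit 76) (nat_lit 22742172458) (nat_lit 76) (nat_lit 3708893036) (nat_lit 13) (nat_lit 4) (nat_lit 14) (nat_lit 5) (nat_lit 14) (nat_lit 4) (nat_lit 367) (nat_lit 238) (nat_lit 175)) (XT.lf (nat_lit 0) (nat_lit 13521043473) (nat_lit 76) (nat_lit 19355818524) (nat_lit 76) (nat_lit 220594242) (nat_lit 13) (nat_lit 4) (nat_lit 14) (nat_lit 5) (nat_lit 14) (nat_lit 4) (nat_lit 368) (nat_lit 238) (nat_lit 174))) (XT.nd (nat_lit 78) (nat_lit 0) (nat_lit 0) (XT.lf (nat_lit 0) (nat_lit 3277928390) (nat_lit 152) (nat_lit 12580005241) (nat_lit 76) (nat_lit 18106320587) (nat_lit 12) (nat_lit 5) (nat_lit 14) (nat_lit 5) (nat_lit 13) (nat_lit 4) (nat_lit 369) (nat_lit 238) (nat_lit 173)) (XT.lf (nat_lit 0) (nat_lit 6849188159) (nat_lit 152) (nat_lit 5426440718) (nat_lit 76) (nat_lit 22582205162) (nat_lit 12) (nat_lit 5) (nat_lit 14) (nat_lit 5) (nat_lit 13) (nat_lit 4) (nat_lit 370)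 (nat_lit 238) (nat_lit 172))))))) (XT.nd (nat_lit 1014) (nat_lit 152) (nat_lit 0) (XT.nd (nat_lit 468) (nat_lit 152) (nat_lit 0) (XT.nd (nat_lit 234) (nat_lit 76) (nat_lit 0) (XT.nd (nat_lit 78) (nat_lit 0) (nat_lit 0) (XT.lf (nat_lit 0) (nat_lit 1930319460) (nat_lit 76) (nat_lit 8588846122) (nat_lit 152) (nat_lit 25259317871) (nat_lit 11) (nat_lit 5) (nat_lit 12) (nat_lit 5) (nat_lit 13) (nat_lit 4) (nat_lit 371) (nat_lit 238) (nat_lit 171)) (XT.nd (nat_lit 78) (nat_lit 0) (nat_lit 0) (XT.lf (nat_lit 0) (nat_lit 9570421560) (nat_lit 76) (nat_lit 4756960173) (nat_lit 152) (nat_lit 22398535747) (nat_lit 11) (nat_lit 5) (nat_lit 12) (nat_lit 5) (nat_lit 13) (nat_lit 4) (nat_lit 372) (nat_lit 238) (nat_lit 170)) (XT.lf (nat_lit 0) (nat_lit 17392544587) (nat_lit 76) (nat_lit 831419195) (nat_lit 152) (nat_lit 19478596207) (nat_lit 11) (nat_lit 5) (nat_lit 12) (nat_lit 5) (nat_lit 13) (nat_lit 4) (nat_lit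 373) (nat_lit 238) (nat_lit 169)))) (XT.nd (nat_lit 78) (nat_lit 76) (nat_lit 0) (XT.lf (nat_lit 0) (nat_lit 22242992342) (nat_lit 152) (nat_lit 13336416783) (nat_lit 0) (nat_lit 3128934956) (nat_lit 11) (nat_lit 5) (nat_lit 13) (nat_lit 4) (nat_lit 11) (nat_lit 4) (nat_lit 374) (nat_lit 238) (nat_lit 168)) (XT.nd (nat_lit 78) (nat_lit 76) (nat_lit 0) (XT.lf (nat_lit 0) (nat_lit 26366235687) (nat_lit 152) (nat_lit 6206863128) (nat_lit 0) (nat_lit 7171702086) (nat_lit 11) (nat_lit 5) (nat_lit 13) (nat_lit 4) (nat_lit 11) (nat_lit 4) (nat_lit 375) (nat_lit 238) (nat_lit 167)) (XT.lf (nat_lit 0) (nat_lit 1114617581) (nat_lit 76) (nat_lit 29485401344) (nat_lit 76) (nat_lit 10212735497) (nat_lit 10) (nat_lit 4) (nat_lit 11) (nat_lit 5) (nat_lit 11) (nat_lit 4) (nat_lit 376) (nat_lit 238) (nat_lit 166))))) (XT.nd (nat_lit 234) (nat_lit 152) (nat_lit 0) (XT.nd (nat_lit 78) (nat_lit 0) (nat_lit 0) (XT.lf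 (nat_lit 0) (nat_lit 8739696092) (nat_lit 76) (nat_lit 26260204176) (nat_lit 76) (nat_lit 6911681779) (nat_lit 10) (nat_lit 4) (nat_lit 11) (nat_lit 5) (nat_lit 11) (nat_lit 4) (nat_lit 377) (nat_lit 238) (nat_lit 165)) (XT.nd (nat_lit 78) (nat_lit 0) (nat_lit 0) (XT.lf (nat_lit 0) (nat_lit 16551506345) (nat_lit 76) (nat_lit 22957366325) (nat_lit 76) (nat_lit 3535196791) (nat_lit 10) (nat_lit 4) (nat_lit 11) (nat_lit 5) (nat_lit 11) (nat_lit 4) (nat_lit 378) (nat_lit 238) (nat_lit 164)) (XT.lf (nat_lit 0) (nat_lit 24556874195) (nat_lit 76) (nat_lit 19574001815) (nat_lit 76) (nat_lit 80330207) (nat_lit 10) (nat_lit 4) (nat_lit 11) (nat_lit 5) (nat_lit 11) (nat_lit 4) (nat_lit 379) (nat_lit 238) (nat_lit 163)))) (XT.nd (nat_lit 156) (nat_lit 76) (nat_lit 0) (XT.nd (nat_lit 78) (nat_lit 0) (nat_lit 0) (XT.lf (nat_lit 0) (nat_lit 3388499013) (nat_lit 152) (nat_lit 12684438100) (nat_lit 76) (nat_lit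 29340078414) (nat_lit 9) (nat_lit 5) (nat_lit 11) (nat_lit 5) (nat_lit 10) (nat_lit 4) (nat_lit 380) (nat_lit 238) (nat_lit 162)) (XT.lf (nat_lit 0) (nat_lit 6938602344) (nat_lit 152) (nat_lit 5545125899) (nat_lit 76) (nat_lit 34167769228) (nat_lit 9) (nat_lit 5) (nat_lit 11) (nat_lit 5) (nat_lit 10) (nat_lit 4) (nat_lit 381) (nat_lit 238) (nat_lit 161))) (XT.nd (nat_lit 78) (nat_lit 0) (nat_lit 0) (XT.lf (nat_lit 0) (nat_lit 1805853705) (nat_lit 76) (nat_lit 8786154615) (nat_lit 152) (nat_lit 37335228297) (nat_lit 8) (nat_lit 5) (nat_lit 9) (nat_lit 5) (nat_lit 10) (nat_lit 4) (nat_lit 382) (nat_lit 238) (nat_lit 160)) (XT.lf (nat_lit 0) (nat_lit 9453651777) (nat_lit 76) (nat_lit 4937039666) (nat_lit 152) (nat_lit 34849492779) (nat_lit 8) (nat_lit 5) (nat_lit 9) (nat_lit 5) (nat_lit 10) (nat_lit 4) (nat_lit 383) (nat_lit 238) (nat_lit 159)))))) (XT.nd (nat_lit 546) (nat_lit 76) (nat_lit 0) (XT.nd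 (nat_lit 234) (nat_lit 76) (nat_lit 0) (XT.nd (nat_lit 78) (nat_lit 0) (nat_lit 0) (XT.lf (nat_lit 0) (nat_lit 17294591979) (nat_lit 76) (nat_lit 989014990) (nat_lit 152) (nat_lit 32309511469) (nat_lit 8) (nat_lit 5) (nat_lit 9) (nat_lit 5) (nat_lit 10) (nat_lit 4) (nat_lit 384) (nat_lit 238) (nat_lit 158)) (XT.nd (nat_lit 78) (nat_lit 0) (nat_lit 0) (XT.lf (nat_lit 0) (nat_lit 22303584230) (nat_lit 152) (nat_lit 26681123579) (nat_lit 0) (nat_lit 3001630802) (nat_lit 8) (nat_lit 5) (nat_lit 10) (nat_lit 4) (nat_lit 8) (nat_lit 4) (nat_lit 385) (nat_lit 238) (nat_lit 157)) (XT.lf (nat_lit 0) (nat_lit 26435207339) (nat_lit 152) (nat_lit 19909613119) (nat_lit 0) (nat_lit 7076809513) (nat_lit 8) (nat_lit 5) (nat_lit 10) (nat_lit 4) (nat_lit 8) (nat_lit 4) (nat_lit 386) (nat_lit 238) (nat_lit 156)))) (XT.nd (nat_lit 156) (nat_lit 76) (nat_lit 0) (XT.nd (nat_lit 78) (nat_lit 0) (nat_lit 0) (XT.lf (nat_lit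 0) (nat_lit 30672579435) (nat_lit 152) (nat_lit 12968571209) (nat_lit 0) (nat_lit 11259381223) (nat_lit 8) (nat_lit 5) (nat_lit 10) (nat_lit 4) (nat_lit 8) (nat_lit 4) (nat_lit 387) (nat_lit 238) (nat_lit 155)) (XT.lf (nat_lit 0) (nat_lit 35019403076) (nat_lit 152) (nat_lit 5851932861) (nat_lit 0) (nat_lit 15553000606) (nat_lit 8) (nat_lit 5) (nat_lit 10) (nat_lit 4) (nat_lit 8) (nat_lit 4) (nat_lit 388) (nat_lit 238) (nat_lit 154))) (XT.nd (nat_lit 78) (nat_lit 0) (nat_lit 0) (XT.lf (nat_lit 0) (nat_lit 1475308938) (nat_lit 76) (nat_lit 38018349093) (nat_lit 76) (nat_lit 18500292003) (nat_lit 7) (nat_lit 4) (nat_lit 8) (nat_lit 5) (nat_lit 8) (nat_lit 4) (nat_lit 389) (nat_lit 238) (nat_lit 153)) (XT.lf (nat_lit 0) (nat_lit 9110953217) (nat_lit 76) (nat_lit 35033323571) (nat_lit 76) (nat_lit 15465116366) (nat_lit 7) (nat_lit 4) (nat_lit 8) (nat_lit 5) (nat_lit 8) (nat_lit 4) (nat_lit 390) (nat_lit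 238) (nat_lit 152))))) (XT.nd (nat_lit 234) (nat_lit 76) (nat_lit 0) (XT.nd (nat_lit 78) (nat_lit 0) (nat_lit 0) (XT.lf (nat_lit 0) (nat_lit 16945206961) (nat_lit 76) (nat_lit 31972744147) (nat_lit 76) (nat_lit 12355847508) (nat_lit 7) (nat_lit 4) (nat_lit 8) (nat_lit 5) (nat_lit 8) (nat_lit 4) (nat_lit 391) (nat_lit 238) (nat_lit 151)) (XT.nd (nat_lit 78) (nat_lit 0) (nat_lit 0) (XT.lf (nat_lit 0) (nat_lit 24984915634) (nat_lit 76) (nat_lit 28833936526) (nat_lit 76) (nat_lit 9169768593) (nat_lit 7) (nat_lit 4) (nat_lit 8) (nat_lit 5) (nat_lit 8) (nat_lit 4) (nat_lit 392) (nat_lit 238) (nat_lit 150)) (XT.lf (nat_lit 0) (nat_lit 33237104223) (nat_lit 76) (nat_lit 25614158063) (nat_lit 76) (nat_lit 5904095669) (nat_lit 7) (nat_lit 4) (nat_lit 8) (nat_lit 5) (nat_lit 8) (nat_lit 4) (nat_lit 393) (nat_lit 238) (nat_lit 149)))) (XT.nd (nat_lit 156) (nat_lit 0) (nat_lit 0) (XT.nd (nat_lit 78) (nat_lit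 76) (nat_lit 0) (XT.lf (nat_lit 0) (nat_lit 41708983379) (nat_lit 76) (nat_lit 22310595356) (nat_lit 76) (nat_lit 2555975234) (nat_lit 7) (nat_lit 4) (nat_lit 8) (nat_lit 5) (nat_lit 8) (nat_lit 4) (nat_lit 394) (nat_lit 238) (nat_lit 148)) (XT.lf (nat_lit 0) (nat_lit 860394710) (nat_lit 152) (nat_lit 18051278790) (nat_lit 76) (nat_lit 49538872706) (nat_lit 6) (nat_lit 5) (nat_lit 8) (nat_lit 5) (nat_lit 7) (nat_lit 4) (nat_lit 395) (nat_lit 238) (nat_lit 147))) (XT.nd (nat_lit 78) (nat_lit 0) (nat_lit 0) (XT.lf (nat_lit 0) (nat_lit 4313537085) (nat_lit 152) (nat_lit 11083399701) (nat_lit 76) (nat_lit 54984526923) (nat_lit 6) (nat_lit 5) (nat_lit 8) (nat_lit 5) (nat_lit 7) (nat_lit 4) (nat_lit 396) (nat_lit 238) (nat_lit 146)) (XT.lf (nat_lit 0) (nat_lit 7856345482) (nat_lit 152) (nat_lit 3932275288) (nat_lit 76) (nat_lit 60582110008) (nat_lit 6) (nat_lit 5) (nat_lit 8) (nat_lit 5) (nat_lit 7)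 (nat_lit 4) (nat_lit 397) (nat_lit 238) (nat_lit 145))))))))
noncomputable def xc54 : XT := (XT.nd (nat_lit 34320) (nat_lit 0) (nat_lit 1672) (XT.nd (nat_lit 33306) (nat_lit 0) (nat_lit 4788) (XT.nd (nat_lit 468) (nat_lit 0) (nat_lit 0) (XT.nd (nat_lit 234) (nat_lit 0) (nat_lit 0) (XT.nd (nat_lit 78) (nat_lit 0) (nat_lit 0) (XT.lf (nat_lit 0) (nat_lit 3476175711) (nat_lit 76) (nat_lit 8049154976) (nat_lit 152) (nat_lit 62893752468) (nat_lit 5) (nat_lit 5) (nat_lit 6) (nat_lit 5) (nat_lit 7) (nat_lit 4) (nat_lit 398) (nat_lit 238) (nat_lit 144)) (XT.nd (nat_lit 78) (nat_lit 0) (nat_lit 0) (XT.lf (nat_lit 0) (nat_lit 11162693664) (nat_lit 76) (nat_lit 4168033003) (nat_lit 152) (nat_lit 61197373149) (nat_lit 5) (nat_lit 5) (nat_lit 6) (nat_lit 5) (nat_lit 7) (nat_lit 4) (nat_lit 399) (nat_lit 238) (nat_lit 143)) (XT.lf (nat_lit 0) (nat_lit 19055734958) (nat_lit 76) (nat_lit 181571852) (nat_lit 152)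 (nat_lit 59463473337) (nat_lit 5) (nat_lit 5) (nat_lit 6) (nat_lit 5) (nat_lit 7) (nat_lit 4) (nat_lit 400) (nat_lit 238) (nat_lit 142)))) (XT.nd (nat_lit 78) (nat_lit 0) (nat_lit 0) (XT.lf (nat_lit 0) (nat_lit 23286105623) (nat_lit 152) (nat_lit 53814447175) (nat_lit 0) (nat_lit 3837341178) (nat_lit 5) (nat_lit 5) (nat_lit 7) (nat_lit 4) (nat_lit 5) (nat_lit 4) (nat_lit 401) (nat_lit 238) (nat_lit 141)) (XT.nd (nat_lit 78) (nat_lit 0) (nat_lit 0) (XT.lf (nat_lit 0) (nat_lit 27445832873) (nat_lit 152) (nat_lit 47833689391) (nat_lit 0) (nat_lit 7962918638) (nat_lit 5) (nat_lit 5) (nat_lit 7) (nat_lit 4) (nat_lit 5) (nat_lit 4) (nat_lit 402) (nat_lit 238) (nat_lit 140)) (XT.lf (nat_lit 0) (nat_lit 31718377892) (nat_lit 152) (nat_lit 41695800553) (nat_lit 0) (nat_lit 12202308523) (nat_lit 5) (nat_lit 5) (nat_lit 7) (nat_lit 4) (nat_lit 5) (nat_lit 4) (nat_lit 403) (nat_lit 238) (nat_lit 139)))))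 (XT.nd (nat_lit 234) (nat_lit 0) (nat_lit 0) (XT.nd (nat_lit 78) (nat_lit 0) (nat_lit 0) (XT.lf (nat_lit 0) (nat_lit 36107473974) (nat_lit 152) (nat_lit 35395417458) (nat_lit 0) (nat_lit 16559215153) (nat_lit 5) (nat_lit 5) (nat_lit 7) (nat_lit 4) (nat_lit 5) (nat_lit 4) (nat_lit 404) (nat_lit 238) (nat_lit 138)) (XT.nd (nat_lit 78) (nat_lit 0) (nat_lit 0) (XT.lf (nat_lit 0) (nat_lit 40616956249) (nat_lit 152) (nat_lit 28927034917) (nat_lit 0) (nat_lit 21037445535) (nat_lit 5) (nat_lit 5) (nat_lit 7) (nat_lit 4) (nat_lit 5) (nat_lit 4) (nat_lit 405) (nat_lit 238) (nat_lit 137)) (XT.lf (nat_lit 0) (nat_lit 45250765044) (nat_lit 152) (nat_lit 22285000944) (nat_lit 0) (nat_lit 25640912684) (nat_lit 5) (nat_lit 5) (nat_lit 7) (nat_lit 4) (nat_lit 5) (nat_lit 4) (nat_lit 406) (nat_lit 238) (nat_lit 136)))) (XT.nd (nat_lit 32448) (nat_lit 0) (nat_lit 7980) (XT.nd (nat_lit 78) (nat_lit 0) (nat_lit 0)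 (XT.lf (nat_lit 0) (nat_lit 50012949316) (nat_lit 152) (nat_lit 15463511822) (nat_lit 0) (nat_lit 30373639049) (nat_lit 5) (nat_lit 5) (nat_lit 7) (nat_lit 4) (nat_lit 5) (nat_lit 4) (nat_lit 407) (nat_lit 238) (nat_lit 135)) (XT.lf (nat_lit 0) (nat_lit 54907670198) (nat_lit 152) (nat_lit 8456607024) (nat_lit 0) (nat_lit 35239760020) (nat_lit 5) (nat_lit 5) (nat_lit 7) (nat_lit 4) (nat_lit 5) (nat_lit 4) (nat_lit 408) (nat_lit 238) (nat_lit 134))) (XT.nd (nat_lit 78) (nat_lit 0) (nat_lit 0) (XT.lf (nat_lit 0) (nat_lit 269492221) (nat_lit 456) (nat_lit 3752509575) (nat_lit 0) (nat_lit 269492221) (nat_lit 110) (nat_lit 5) (nat_lit 116) (nat_lit 4) (nat_lit 110) (nat_lit 4) (nat_lit 302) (nat_lit 239) (nat_lit 239)) (XT.lf (nat_lit 0) (nat_lit 4141166706) (nat_lit 456) (nat_lit 1465604015) (nat_lit 0) (nat_lit 3087978257) (nat_lit 110) (nat_lit 5) (nat_lit 116) (nat_lit 4) (nat_lit 110) (nat_lit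 4) (nat_lit 303) (nat_lit 239) (nat_lit 238)))))) (XT.nd (nat_lit 468) (nat_lit 1672) (nat_lit 0) (XT.nd (nat_lit 234) (nat_lit 760) (nat_lit 0) (XT.nd (nat_lit 78) (nat_lit 380) (nat_lit 0) (XT.lf (nat_lit 0) (nat_lit 4726172452) (nat_lit 380) (nat_lit 3080422345) (nat_lit 380) (nat_lit 1004720838) (nat_lit 105) (nat_lit 4) (nat_lit 110) (nat_lit 5) (nat_lit 110) (nat_lit 4) (nat_lit 304) (nat_lit 239) (nat_lit 237)) (XT.nd (nat_lit 78) (nat_lit 0) (nat_lit 0) (XT.lf (nat_lit 0) (nat_lit 2096344359) (nat_lit 304) (nat_lit 447880758) (nat_lit 380) (nat_lit 6388131631) (nat_lit 100) (nat_lit 5) (nat_lit 104) (nat_lit 5) (nat_lit 105) (nat_lit 4) (nat_lit 305) (nat_lit 239) (nat_lit 236)) (XT.lf (nat_lit 0) (nat_lit 6154254727) (nat_lit 380) (nat_lit 663881142) (nat_lit 0) (nat_lit 2239449626) (nat_lit 100) (nat_lit 5) (nat_lit 105) (nat_lit 4) (nat_lit 100) (nat_lit 4) (nat_lit 306) (nat_lit 239)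 (nat_lit 235)))) (XT.nd (nat_lit 78) (nat_lit 304) (nat_lit 0) (XT.lf (nat_lit 0) (nat_lit 645274242) (nat_lit 456) (nat_lit 3513387998) (nat_lit 76) (nat_lit 5028625050) (nat_lit 94) (nat_lit 5) (nat_lit 100) (nat_lit 5) (nat_lit 95) (nat_lit 4) (nat_lit 307) (nat_lit 239) (nat_lit 234)) (XT.nd (nat_lit 78) (nat_lit 0) (nat_lit 0) (XT.lf (nat_lit 0) (nat_lit 2800546480) (nat_lit 304) (nat_lit 1389537231) (nat_lit 380) (nat_lit 5131581737) (nat_lit 90) (nat_lit 5) (nat_lit 94) (nat_lit 5) (nat_lit 95) (nat_lit 4) (nat_lit 308) (nat_lit 239) (nat_lit 233)) (XT.lf (nat_lit 0) (nat_lit 7806554261) (nat_lit 380) (nat_lit 218640654) (nat_lit 0) (nat_lit 1436008588) (nat_lit 90) (nat_lit 5) (nat_lit 95) (nat_lit 4) (nat_lit 90) (nat_lit 4) (nat_lit 309) (nat_lit 239) (nat_lit 232))))) (XT.nd (nat_lit 234) (nat_lit 988) (nat_lit 0) (XT.nd (nat_lit 78) (nat_lit 304) (nat_lit 0) (XT.lf (nat_lit 0) (nat_lit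 1880691559) (nat_lit 380) (nat_lit 3359923055) (nat_lit 76) (nat_lit 4364089648) (nat_lit 85) (nat_lit 5) (nat_lit 90) (nat_lit 5) (nat_lit 86) (nat_lit 4) (nat_lit 310) (nat_lit 239) (nat_lit 231)) (XT.nd (nat_lit 78) (nat_lit 0) (nat_lit 0) (XT.lf (nat_lit 0) (nat_lit 3079670387) (nat_lit 304) (nat_lit 2359279575) (nat_lit 380) (nat_lit 4314645759) (nat_lit 81) (nat_lit 5) (nat_lit 85) (nat_lit 5) (nat_lit 86) (nat_lit 4) (nat_lit 311) (nat_lit 239) (nat_lit 230)) (XT.lf (nat_lit 0) (nat_lit 9063254895) (nat_lit 380) (nat_lit 249941254) (nat_lit 0) (nat_lit 595057048) (nat_lit 81) (nat_lit 5) (nat_lit 86) (nat_lit 4) (nat_lit 81) (nat_lit 4) (nat_lit 312) (nat_lit 239) (nat_lit 229)))) (XT.nd (nat_lit 156) (nat_lit 380) (nat_lit 0) (XT.nd (nat_lit 78) (nat_lit 228) (nat_lit 0) (XT.lf (nat_lit 0) (nat_lit 2681429700) (nat_lit 380) (nat_lit 3742065641) (nat_lit 76) (nat_lit 3643163735) (nat_lit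 76) (nat_lit 5) (nat_lit 81) (nat_lit 5) (nat_lit 77) (nat_lit 4) (nat_lit 313) (nat_lit 239) (nat_lit 228)) (XT.lf (nat_lit 0) (nat_lit 2801860748) (nat_lit 228) (nat_lit 3446173890) (nat_lit 304) (nat_lit 3983062066) (nat_lit 73) (nat_lit 5) (nat_lit 76) (nat_lit 5) (nat_lit 77) (nat_lit 4) (nat_lit 314) (nat_lit 239) (nat_lit 227))) (XT.nd (nat_lit 78) (nat_lit 380) (nat_lit 0) (XT.lf (nat_lit 0) (nat_lit 9503783873) (nat_lit 228) (nat_lit 378696437) (nat_lit 304) (nat_lit 519231388) (nat_lit 73) (nat_lit 5) (nat_lit 76) (nat_lit 5) (nat_lit 77) (nat_lit 4) (nat_lit 315) (nat_lit 239) (nat_lit 226)) (XT.lf (nat_lit 0) (nat_lit 2996479892) (nat_lit 380) (nat_lit 4804488906) (nat_lit 76) (nat_lit 2775439144) (nat_lit 68) (nat_lit 5) (nat_lit 73) (nat_lit 5) (nat_lit 69) (nat_lit 4) (nat_lit 316) (nat_lit 239) (nat_lit 225))))))) (XT.nd (nat_lit 1014) (nat_lit 1140) (nat_lit 0) (XT.nd (nat_lit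 468) (nat_lit 912) (nat_lit 0) (XT.nd (nat_lit 234) (nat_lit 532) (nat_lit 0) (XT.nd (nat_lit 78) (nat_lit 304) (nat_lit 0) (XT.lf (nat_lit 0) (nat_lit 1816593231) (nat_lit 228) (nat_lit 4746250874) (nat_lit 304) (nat_lit 4194741826) (nat_lit 65) (nat_lit 5) (nat_lit 68) (nat_lit 5) (nat_lit 69) (nat_lit 4) (nat_lit 317) (nat_lit 239) (nat_lit 224)) (XT.nd (nat_lit 78) (nat_lit 304) (nat_lit 0) (XT.lf (nat_lit 0) (nat_lit 8621843689) (nat_lit 228) (nat_lit 1589211802) (nat_lit 304) (nat_lit 733959841) (nat_lit 65) (nat_lit 5) (nat_lit 68) (nat_lit 5) (nat_lit 69) (nat_lit 4) (nat_lit 318) (nat_lit 239) (nat_lit 223)) (XT.lf (nat_lit 0) (nat_lit 2762122433) (nat_lit 304) (nat_lit 6713011721) (nat_lit 76) (nat_lit 1662573992) (nat_lit 61) (nat_lit 5) (nat_lit 65) (nat_lit 5) (nat_lit 62) (nat_lit 4) (nat_lit 319) (nat_lit 239) (nat_lit 222)))) (XT.nd (nat_lit 78) (nat_lit 532) (nat_lit 0) (XT.lf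 (nat_lit 0) (nat_lit 6316154658) (nat_lit 304) (nat_lit 47977457) (nat_lit 76) (nat_lit 4972853561) (nat_lit 61) (nat_lit 5) (nat_lit 65) (nat_lit 5) (nat_lit 62) (nat_lit 4) (nat_lit 320) (nat_lit 239) (nat_lit 221)) (XT.nd (nat_lit 78) (nat_lit 304) (nat_lit 0) (XT.lf (nat_lit 0) (nat_lit 6841887803) (nat_lit 228) (nat_lit 3131166932) (nat_lit 304) (nat_lit 1569354263) (nat_lit 58) (nat_lit 5) (nat_lit 61) (nat_lit 5) (nat_lit 62) (nat_lit 4) (nat_lit 321) (nat_lit 239) (nat_lit 220)) (XT.lf (nat_lit 0) (nat_lit 1900239891) (nat_lit 304) (nat_lit 9658544321) (nat_lit 76) (nat_lit 196090291) (nat_lit 54) (nat_lit 5) (nat_lit 58) (nat_lit 5) (nat_lit 55) (nat_lit 4) (nat_lit 322) (nat_lit 239) (nat_lit 219))))) (XT.nd (nat_lit 234) (nat_lit 684) (nat_lit 0) (XT.nd (nat_lit 78) (nat_lit 228) (nat_lit 0) (XT.lf (nat_lit 0) (nat_lit 5452654475) (nat_lit 304) (nat_lit 2935500645) (nat_lit 76) (nat_lit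 3584834671) (nat_lit 54) (nat_lit 5) (nat_lit 58) (nat_lit 5) (nat_lit 55) (nat_lit 4) (nat_lit 323) (nat_lit 239) (nat_lit 218)) (XT.nd (nat_lit 78) (nat_lit 76) (nat_lit 0) (XT.lf (nat_lit 0) (nat_lit 3960058809) (nat_lit 152) (nat_lit 5122986488) (nat_lit 228) (nat_lit 3115509883) (nat_lit 52) (nat_lit 5) (nat_lit 54) (nat_lit 5) (nat_lit 55) (nat_lit 4) (nat_lit 324) (nat_lit 239) (nat_lit 217)) (XT.lf (nat_lit 0) (nat_lit 347326249) (nat_lit 228) (nat_lit 1418169745) (nat_lit 76) (nat_lit 10666419460) (nat_lit 51) (nat_lit 5) (nat_lit 54) (nat_lit 5) (nat_lit 52) (nat_lit 5) (nat_lit 325) (nat_lit 239) (nat_lit 216)))) (XT.nd (nat_lit 156) (nat_lit 456) (nat_lit 0) (XT.nd (nat_lit 78) (nat_lit 0) (nat_lit 0) (XT.lf (nat_lit 0) (nat_lit 3857313242) (nat_lit 304) (nat_lit 7107289088) (nat_lit 76) (nat_lit 1706616893) (nat_lit 48) (nat_lit 5) (nat_lit 52) (nat_lit 5) (nat_lit 49) (nat_lit 4)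 (nat_lit 326) (nat_lit 239) (nat_lit 215)) (XT.lf (nat_lit 0) (nat_lit 7440562377) (nat_lit 304) (nat_lit 254555184) (nat_lit 76) (nat_lit 5223588983) (nat_lit 48) (nat_lit 5) (nat_lit 52) (nat_lit 5) (nat_lit 49) (nat_lit 4) (nat_lit 327) (nat_lit 239) (nat_lit 214))) (XT.nd (nat_lit 78) (nat_lit 304) (nat_lit 0) (XT.lf (nat_lit 0) (nat_lit 6835965870) (nat_lit 152) (nat_lit 4298937952) (nat_lit 228) (nat_lit 2038648876) (nat_lit 46) (nat_lit 5) (nat_lit 48) (nat_lit 5) (nat_lit 49) (nat_lit 4) (nat_lit 328) (nat_lit 239) (nat_lit 213)) (XT.lf (nat_lit 0) (nat_lit 604293339) (nat_lit 228) (nat_lit 816876406) (nat_lit 304) (nat_lit 12016085776) (nat_lit 42) (nat_lit 5) (nat_lit 45) (nat_lit 5) (nat_lit 46) (nat_lit 5) (nat_lit 329) (nat_lit 239) (nat_lit 212)))))) (XT.nd (nat_lit 546) (nat_lit 608) (nat_lit 0) (XT.nd (nat_lit 234) (nat_lit 380) (nat_lit 0) (XT.nd (nat_lit 78) (nat_lit 152) (nat_lit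 0) (XT.lf (nat_lit 0) (nat_lit 4973604134) (nat_lit 304) (nat_lit 5972013548) (nat_lit 76) (nat_lit 2761790815) (nat_lit 42) (nat_lit 5) (nat_lit 46) (nat_lit 5) (nat_lit 43) (nat_lit 4) (nat_lit 330) (nat_lit 239) (nat_lit 211)) (XT.nd (nat_lit 78) (nat_lit 0) (nat_lit 0) (XT.lf (nat_lit 0) (nat_lit 1007335863) (nat_lit 152) (nat_lit 7583378407) (nat_lit 228) (nat_lit 5396246076) (nat_lit 40) (nat_lit 5) (nat_lit 42) (nat_lit 5) (nat_lit 43) (nat_lit 4) (nat_lit 331) (nat_lit 239) (nat_lit 210)) (XT.lf (nat_lit 0) (nat_lit 8220460185) (nat_lit 152) (nat_lit 4097310479) (nat_lit 228) (nat_lit 1957121374) (nat_lit 40) (nat_lit 5) (nat_lit 42) (nat_lit 5) (nat_lit 43) (nat_lit 4) (nat_lit 332) (nat_lit 239) (nat_lit 209)))) (XT.nd (nat_lit 156) (nat_lit 152) (nat_lit 0) (XT.nd (nat_lit 78) (nat_lit 0) (nat_lit 0) (XT.lf (nat_lit 0) (nat_lit 986167983) (nat_lit 152) (nat_lit 519797833) (nat_lit 228)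 (nat_lit 13066521293) (nat_lit 37) (nat_lit 5) (nat_lit 39) (nat_lit 5) (nat_lit 40) (nat_lit 5) (nat_lit 333) (nat_lit 239) (nat_lit 208)) (XT.lf (nat_lit 0) (nat_lit 5068414412) (nat_lit 228) (nat_lit 6662270858) (nat_lit 76) (nat_lit 3146732488) (nat_lit 37) (nat_lit 5) (nat_lit 40) (nat_lit 5) (nat_lit 38) (nat_lit 4) (nat_lit 334) (nat_lit 239) (nat_lit 207))) (XT.nd (nat_lit 78) (nat_lit 0) (nat_lit 0) (XT.lf (nat_lit 0) (nat_lit 377759097) (nat_lit 152) (nat_lit 8313063358) (nat_lit 228) (nat_lit 6502113525) (nat_lit 35) (nat_lit 5) (nat_lit 37) (nat_lit 5) (nat_lit 38) (nat_lit 4) (nat_lit 335) (nat_lit 239) (nat_lit 206)) (XT.lf (nat_lit 0) (nat_lit 7672516508) (nat_lit 152) (nat_lit 4761698030) (nat_lit 228) (nat_lit 3083367150) (nat_lit 35) (nat_lit 5) (nat_lit 37) (nat_lit 5) (nat_lit 38) (nat_lit 4) (nat_lit 336) (nat_lit 239) (nat_lit 205))))) (XT.nd (nat_lit 234) (nat_lit 380) (nat_lit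 0) (XT.nd (nat_lit 78) (nat_lit 152) (nat_lit 0) (XT.lf (nat_lit 0) (nat_lit 375474481) (nat_lit 228) (nat_lit 761495986) (nat_lit 76) (nat_lit 14716517144) (nat_lit 34) (nat_lit 5) (nat_lit 37) (nat_lit 5) (nat_lit 35) (nat_lit 5) (nat_lit 337) (nat_lit 239) (nat_lit 204)) (XT.nd (nat_lit 78) (nat_lit 0) (nat_lit 0) (XT.lf (nat_lit 0) (nat_lit 3912186840) (nat_lit 228) (nat_lit 9680845567) (nat_lit 76) (nat_lit 2604468747) (nat_lit 32) (nat_lit 5) (nat_lit 35) (nat_lit 5) (nat_lit 33) (nat_lit 4) (nat_lit 338) (nat_lit 239) (nat_lit 203)) (XT.lf (nat_lit 0) (nat_lit 7522004189) (nat_lit 228) (nat_lit 2623308295) (nat_lit 76) (nat_lit 6407540315) (nat_lit 32) (nat_lit 5) (nat_lit 35) (nat_lit 5) (nat_lit 33) (nat_lit 4) (nat_lit 339) (nat_lit 239) (nat_lit 202)))) (XT.nd (nat_lit 156) (nat_lit 228) (nat_lit 0) (XT.nd (nat_lit 78) (nat_lit 0) (nat_lit 0) (XT.lf (nat_lit 0) (nat_lit 4650160314)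 (nat_lit 152) (nat_lit 6584151787) (nat_lit 228) (nat_lit 5684754006) (nat_lit 30) (nat_lit 5) (nat_lit 32) (nat_lit 5) (nat_lit 33) (nat_lit 4) (nat_lit 340) (nat_lit 239) (nat_lit 201)) (XT.lf (nat_lit 0) (nat_lit 12109920468) (nat_lit 152) (nat_lit 2924702222) (nat_lit 228) (nat_lit 2262370328) (nat_lit 30) (nat_lit 5) (nat_lit 32) (nat_lit 5) (nat_lit 33) (nat_lit 4) (nat_lit 341) (nat_lit 239) (nat_lit 200))) (XT.nd (nat_lit 78) (nat_lit 0) (nat_lit 0) (XT.lf (nat_lit 0) (nat_lit 1216945396) (nat_lit 228) (nat_lit 15643979999) (nat_lit 76) (nat_lit 825625913) (nat_lit 27) (nat_lit 5) (nat_lit 30) (nat_lit 5) (nat_lit 28) (nat_lit 4) (nat_lit 342) (nat_lit 239) (nat_lit 199)) (XT.lf (nat_lit 0) (nat_lit 4788401590) (nat_lit 228) (nat_lit 8627166392) (nat_lit 76) (nat_lit 4670583384) (nat_lit 27) (nat_lit 5) (nat_lit 30) (nat_lit 5) (nat_lit 28) (nat_lit 4) (nat_lit 343) (nat_lit 239) (nat_lit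 198))))))))
noncomputable def xc55 : XT := (XT.nd (nat_lit 2106) (nat_lit 456) (nat_lit 0) (XT.nd (nat_lit 1014) (nat_lit 456) (nat_lit 0) (XT.nd (nat_lit 468) (nat_lit 380) (nat_lit 0) (XT.nd (nat_lit 234) (nat_lit 228) (nat_lit 0) (XT.nd (nat_lit 78) (nat_lit 76) (nat_lit 0) (XT.lf (nat_lit 0) (nat_lit 8419794757) (nat_lit 228) (nat_lit 1481887261) (nat_lit 76) (nat_lit 8597496896) (nat_lit 27) (nat_lit 5) (nat_lit 30) (nat_lit 5) (nat_lit 28) (nat_lit 4) (nat_lit 344) (nat_lit 239) (nat_lit 197)) (XT.nd (nat_lit 78) (nat_lit 0) (nat_lit 0) (XT.lf (nat_lit 0) (nat_lit 5913494417) (nat_lit 76) (nat_lit 6257647667) (nat_lit 152) (nat_lit 6753147439) (nat_lit 26) (nat_lit 5) (nat_lit 27) (nat_lit 5) (nat_lit 28) (nat_lit 4) (nat_lit 345) (nat_lit 239) (nat_lit 196)) (XT.lf (nat_lit 0) (nat_lit 13482246256) (nat_lit 76) (nat_lit 2522492743) (nat_lit 152) (nat_lit 3358345126) (nat_lit 26) (nat_lit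 5) (nat_lit 27) (nat_lit 5) (nat_lit 28) (nat_lit 4) (nat_lit 346) (nat_lit 239) (nat_lit 195)))) (XT.nd (nat_lit 78) (nat_lit 0) (nat_lit 0) (XT.lf (nat_lit 0) (nat_lit 117343927) (nat_lit 228) (nat_lit 18416749909) (nat_lit 76) (nat_lit 1281477291) (nat_lit 23) (nat_lit 5) (nat_lit 26) (nat_lit 5) (nat_lit 24) (nat_lit 4) (nat_lit 347) (nat_lit 239) (nat_lit 194)) (XT.nd (nat_lit 78) (nat_lit 0) (nat_lit 0) (XT.lf (nat_lit 0) (nat_lit 3670599026) (nat_lit 228) (nat_lit 11398978954) (nat_lit 76) (nat_lit 5209853475) (nat_lit 23) (nat_lit 5) (nat_lit 26) (nat_lit 5) (nat_lit 24) (nat_lit 4) (nat_lit 348) (nat_lit 239) (nat_lit 193)) (XT.lf (nat_lit 0) (nat_lit 7287584504) (nat_lit 228) (nat_lit 4246145903) (nat_lit 76) (nat_lit 9224782703) (nat_lit 23) (nat_lit 5) (nat_lit 26) (nat_lit 5) (nat_lit 24) (nat_lit 4) (nat_lit 349) (nat_lit 239) (nat_lit 192))))) (XT.nd (nat_lit 234) (nat_lit 304)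 (nat_lit 0) (XT.nd (nat_lit 78) (nat_lit 0) (nat_lit 0) (XT.lf (nat_lit 0) (nat_lit 3108660453) (nat_lit 76) (nat_lit 7892682728) (nat_lit 152) (nat_lit 10250995059) (nat_lit 22) (nat_lit 5) (nat_lit 23) (nat_lit 5) (nat_lit 24) (nat_lit 4) (nat_lit 350) (nat_lit 239) (nat_lit 191)) (XT.nd (nat_lit 78) (nat_lit 0) (nat_lit 0) (XT.lf (nat_lit 0) (nat_lit 10698598342) (nat_lit 76) (nat_lit 4129690070) (nat_lit 152) (nat_lit 6932654880) (nat_lit 22) (nat_lit 5) (nat_lit 23) (nat_lit 5) (nat_lit 24) (nat_lit 4) (nat_lit 351) (nat_lit 239) (nat_lit 190)) (XT.lf (nat_lit 0) (nat_lit 18445793117) (nat_lit 76) (nat_lit 284342130) (nat_lit 152) (nat_lit 3555886296) (nat_lit 22) (nat_lit 5) (nat_lit 23) (nat_lit 5) (nat_lit 24) (nat_lit 4) (nat_lit 352) (nat_lit 239) (nat_lit 189)))) (XT.nd (nat_lit 156) (nat_lit 76) (nat_lit 0) (XT.nd (nat_lit 78) (nat_lit 76) (nat_lit 0) (XT.lf (nat_lit 0) (nat_lit 3563463872)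 (nat_lit 152) (nat_lit 19216137905) (nat_lit 152) (nat_lit 46350763) (nat_lit 20) (nat_lit 4) (nat_lit 22) (nat_lit 5) (nat_lit 22) (nat_lit 4) (nat_lit 353) (nat_lit 239) (nat_lit 188)) (XT.lf (nat_lit 0) (nat_lit 3501864832) (nat_lit 228) (nat_lit 12219828303) (nat_lit 76) (nat_lit 7659284763) (nat_lit 19) (nat_lit 5) (nat_lit 22) (nat_lit 5) (nat_lit 20) (nat_lit 4) (nat_lit 354) (nat_lit 239) (nat_lit 187))) (XT.nd (nat_lit 78) (nat_lit 76) (nat_lit 0) (XT.lf (nat_lit 0) (nat_lit 7117779486) (nat_lit 228) (nat_lit 5033722304) (nat_lit 76) (nat_lit 11802288790) (nat_lit 19) (nat_lit 5) (nat_lit 22) (nat_lit 5) (nat_lit 20) (nat_lit 4) (nat_lit 355) (nat_lit 239) (nat_lit 186)) (XT.lf (nat_lit 0) (nat_lit 2348379343) (nat_lit 76) (nat_lit 8479651922) (nat_lit 152) (nat_lit 13716195980) (nat_lit 18) (nat_lit 5) (nat_lit 19) (nat_lit 5) (nat_lit 20) (nat_lit 4) (nat_lit 356) (nat_lit 239) (nat_lit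 185)))))) (XT.nd (nat_lit 546) (nat_lit 152) (nat_lit 0) (XT.nd (nat_lit 234) (nat_lit 304) (nat_lit 0) (XT.nd (nat_lit 78) (nat_lit 0) (nat_lit 0) (XT.lf (nat_lit 0) (nat_lit 9990358843) (nat_lit 76) (nat_lit 4673794833) (nat_lit 152) (nat_lit 10487801388) (nat_lit 18) (nat_lit 5) (nat_lit 19) (nat_lit 5) (nat_lit 20) (nat_lit 4) (nat_lit 357) (nat_lit 239) (nat_lit 184)) (XT.nd (nat_lit 78) (nat_lit 0) (nat_lit 0) (XT.lf (nat_lit 0) (nat_lit 17798712709) (nat_lit 76) (nat_lit 781435743) (nat_lit 152) (nat_lit 7198837116) (nat_lit 18) (nat_lit 5) (nat_lit 19) (nat_lit 5) (nat_lit 20) (nat_lit 4) (nat_lit 358) (nat_lit 239) (nat_lit 183)) (XT.lf (nat_lit 0) (nat_lit 22610205638) (nat_lit 152) (nat_lit 676371174) (nat_lit 0) (nat_lit 3138366786) (nat_lit 18) (nat_lit 5) (nat_lit 20) (nat_lit 4) (nat_lit 18) (nat_lit 4) (nat_lit 359) (nat_lit 239) (nat_lit 182)))) (XT.nd (nat_lit 156) (nat_lit 76)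 (nat_lit 0) (XT.nd (nat_lit 78) (nat_lit 76) (nat_lit 0) (XT.lf (nat_lit 0) (nat_lit 6913789720) (nat_lit 152) (nat_lit 19888130601) (nat_lit 152) (nat_lit 287151051) (nat_lit 16) (nat_lit 4) (nat_lit 18) (nat_lit 5) (nat_lit 18) (nat_lit 4) (nat_lit 360) (nat_lit 239) (nat_lit 181)) (XT.lf (nat_lit 0) (nat_lit 3254485127) (nat_lit 228) (nat_lit 13119754062) (nat_lit 76) (nat_lit 11398726115) (nat_lit 15) (nat_lit 5) (nat_lit 18) (nat_lit 5) (nat_lit 16) (nat_lit 4) (nat_lit 361) (nat_lit 239) (nat_lit 180))) (XT.nd (nat_lit 78) (nat_lit 76) (nat_lit 0) (XT.lf (nat_lit 0) (nat_lit 6864192791) (nat_lit 228) (nat_lit 5913774998) (nat_lit 76) (nat_lit 15700307673) (nat_lit 15) (nat_lit 5) (nat_lit 18) (nat_lit 5) (nat_lit 16) (nat_lit 4) (nat_lit 362) (nat_lit 239) (nat_lit 179)) (XT.lf (nat_lit 0) (nat_lit 1480604215) (nat_lit 76) (nat_lit 9084357663) (nat_lit 152) (nat_lit 18640312093) (nat_lit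 14) (nat_lit 5) (nat_lit 15) (nat_lit 5) (nat_lit 16) (nat_lit 4) (nat_lit 363) (nat_lit 239) (nat_lit 178))))) (XT.nd (nat_lit 234) (nat_lit 152) (nat_lit 0) (XT.nd (nat_lit 78) (nat_lit 0) (nat_lit 0) (XT.lf (nat_lit 0) (nat_lit 9161925854) (nat_lit 76) (nat_lit 5243460397) (nat_lit 152) (nat_lit 15547849017) (nat_lit 14) (nat_lit 5) (nat_lit 15) (nat_lit 5) (nat_lit 16) (nat_lit 4) (nat_lit 364) (nat_lit 239) (nat_lit 177)) (XT.nd (nat_lit 78) (nat_lit 0) (nat_lit 0) (XT.lf (nat_lit 0) (nat_lit 17019206034) (nat_lit 76) (nat_lit 1311637400) (nat_lit 152) (nat_lit 12393708823) (nat_lit 14) (nat_lit 5) (nat_lit 15) (nat_lit 5) (nat_lit 16) (nat_lit 4) (nat_lit 365) (nat_lit 239) (nat_lit 176)) (XT.lf (nat_lit 0) (nat_lit 22370857323) (nat_lit 152) (nat_lit 6486682450) (nat_lit 0) (nat_lit 2661576312) (nat_lit 14) (nat_lit 5) (nat_lit 16) (nat_lit 4) (nat_lit 14) (nat_lit 4) (nat_lit 366) (nat_lit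 239) (nat_lit 175)))) (XT.nd (nat_lit 156) (nat_lit 76) (nat_lit 0) (XT.nd (nat_lit 78) (nat_lit 0) (nat_lit 0) (XT.lf (nat_lit 0) (nat_lit 901141540) (nat_lit 76) (nat_lit 25623911262) (nat_lit 76) (nat_lit 5812685391) (nat_lit 13) (nat_lit 4) (nat_lit 14) (nat_lit 5) (nat_lit 14) (nat_lit 4) (nat_lit 367) (nat_lit 239) (nat_lit 174)) (XT.lf (nat_lit 0) (nat_lit 8592082960) (nat_lit 76) (nat_lit 22248966347) (nat_lit 76) (nat_lit 2338764883) (nat_lit 13) (nat_lit 4) (nat_lit 14) (nat_lit 5) (nat_lit 14) (nat_lit 4) (nat_lit 368) (nat_lit 239) (nat_lit 173))) (XT.nd (nat_lit 78) (nat_lit 0) (nat_lit 0) (XT.lf (nat_lit 0) (nat_lit 1187403785) (nat_lit 152) (nat_lit 17595864587) (nat_lit 76) (nat_lit 15264370113) (nat_lit 12) (nat_lit 5) (nat_lit 14) (nat_lit 5) (nat_lit 13) (nat_lit 4) (nat_lit 369) (nat_lit 239) (nat_lit 172)) (XT.lf (nat_lit 0) (nat_lit 4745375105) (nat_lit 152) (nat_lit 10466476795)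 (nat_lit 76) (nat_lit 19729769785) (nat_lit 12) (nat_lit 5) (nat_lit 14) (nat_lit 5) (nat_lit 13) (nat_lit 4) (nat_lit 370) (nat_lit 239) (nat_lit 171))))))) (XT.nd (nat_lit 1014) (nat_lit 152) (nat_lit 0) (XT.nd (nat_lit 468) (nat_lit 228) (nat_lit 0) (XT.nd (nat_lit 234) (nat_lit 0) (nat_lit 0) (XT.nd (nat_lit 78) (nat_lit 76) (nat_lit 0) (XT.lf (nat_lit 0) (nat_lit 8383895710) (nat_lit 152) (nat_lit 3170856656) (nat_lit 76) (nat_lit 24308467026) (nat_lit 12) (nat_lit 5) (nat_lit 14) (nat_lit 5) (nat_lit 13) (nat_lit 4) (nat_lit 371) (nat_lit 239) (nat_lit 170)) (XT.nd (nat_lit 78) (nat_lit 0) (nat_lit 0) (XT.lf (nat_lit 0) (nat_lit 4382896747) (nat_lit 76) (nat_lit 7765379227) (nat_lit 152) (nat_lit 24663696977) (nat_lit 11) (nat_lit 5) (nat_lit 12) (nat_lit 5) (nat_lit 13) (nat_lit 4) (nat_lit 372) (nat_lit 239) (nat_lit 169)) (XT.lf (nat_lit 0) (nat_lit 12182454307) (nat_lit 76) (nat_lit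 3850025990) (nat_lit 152) (nat_lit 21756510819) (nat_lit 11) (nat_lit 5) (nat_lit 12) (nat_lit 5) (nat_lit 13) (nat_lit 4) (nat_lit 373) (nat_lit 239) (nat_lit 168)))) (XT.nd (nat_lit 78) (nat_lit 0) (nat_lit 0) (XT.lf (nat_lit 0) (nat_lit 20010379873) (nat_lit 152) (nat_lit 18626099352) (nat_lit 0) (nat_lit 159534050) (nat_lit 11) (nat_lit 5) (nat_lit 13) (nat_lit 4) (nat_lit 11) (nat_lit 4) (nat_lit 374) (nat_lit 239) (nat_lit 167)) (XT.nd (nat_lit 78) (nat_lit 0) (nat_lit 0) (XT.lf (nat_lit 0) (nat_lit 24121863715) (nat_lit 152) (nat_lit 11518077597) (nat_lit 0) (nat_lit 4192885645) (nat_lit 11) (nat_lit 5) (nat_lit 13) (nat_lit 4) (nat_lit 11) (nat_lit 4) (nat_lit 375) (nat_lit 239) (nat_lit 166)) (XT.lf (nat_lit 0) (nat_lit 28333515575) (nat_lit 152) (nat_lit 4239251848) (nat_lit 0) (nat_lit 8328680955) (nat_lit 11) (nat_lit 5) (nat_lit 13) (nat_lit 4) (nat_lit 11) (nat_lit 4) (nat_lit 376)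 (nat_lit 239) (nat_lit 165))))) (XT.nd (nat_lit 234) (nat_lit 152) (nat_lit 0) (XT.nd (nat_lit 78) (nat_lit 0) (nat_lit 0) (XT.lf (nat_lit 0) (nat_lit 3280757428) (nat_lit 76) (nat_lit 29399794757) (nat_lit 76) (nat_lit 9321313001) (nat_lit 10) (nat_lit 4) (nat_lit 11) (nat_lit 5) (nat_lit 11) (nat_lit 4) (nat_lit 377) (nat_lit 239) (nat_lit 164)) (XT.nd (nat_lit 78) (nat_lit 0) (nat_lit 0) (XT.lf (nat_lit 0) (nat_lit 11072470779) (nat_lit 76) (nat_lit 26106099013) (nat_lit 76) (nat_lit 5956115183) (nat_lit 10) (nat_lit 4) (nat_lit 11) (nat_lit 5) (nat_lit 11) (nat_lit 4) (nat_lit 378) (nat_lit 239) (nat_lit 163)) (XT.lf (nat_lit 0) (nat_lit 19058327074) (nat_lit 76) (nat_lit 22731610335) (nat_lit 76) (nat_lit 2512207016) (nat_lit 10) (nat_lit 4) (nat_lit 11) (nat_lit 5) (nat_lit 11) (nat_lit 4) (nat_lit 379) (nat_lit 239) (nat_lit 162)))) (XT.nd (nat_lit 156) (nat_lit 76) (nat_lit 0) (XT.nd (nat_lit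 78) (nat_lit 0) (nat_lit 0) (XT.lf (nat_lit 0) (nat_lit 993645250) (nat_lit 152) (nat_lit 18269701022) (nat_lit 76) (nat_lit 26241625125) (nat_lit 9) (nat_lit 5) (nat_lit 11) (nat_lit 5) (nat_lit 10) (nat_lit 4) (nat_lit 380) (nat_lit 239) (nat_lit 161)) (XT.lf (nat_lit 0) (nat_lit 4533620786) (nat_lit 152) (nat_lit 11148985211) (nat_lit 76) (nat_lit 31061154494) (nat_lit 9) (nat_lit 5) (nat_lit 11) (nat_lit 5) (nat_lit 10) (nat_lit 4) (nat_lit 381) (nat_lit 239) (nat_lit 160))) (XT.nd (nat_lit 78) (nat_lit 76) (nat_lit 0) (XT.lf (nat_lit 0) (nat_lit 8159834980) (nat_lit 152) (nat_lit 3851299063) (nat_lit 76) (nat_lit 36009184565) (nat_lit 9) (nat_lit 5) (nat_lit 11) (nat_lit 5) (nat_lit 10) (nat_lit 4) (nat_lit 382) (nat_lit 239) (nat_lit 159)) (XT.lf (nat_lit 0) (nat_lit 3701972865) (nat_lit 76) (nat_lit 8209069133) (nat_lit 152) (nat_lit 37423651622) (nat_lit 8) (nat_lit 5) (nat_lit 9) (nat_lit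 5) (nat_lit 10) (nat_lit 4) (nat_lit 383) (nat_lit 239) (nat_lit 158)))))) (XT.nd (nat_lit 546) (nat_lit 76) (nat_lit 0) (XT.nd (nat_lit 234) (nat_lit 76) (nat_lit 0) (XT.nd (nat_lit 78) (nat_lit 0) (nat_lit 0) (XT.lf (nat_lit 0) (nat_lit 11525556037) (nat_lit 76) (nat_lit 4268966273) (nat_lit 152) (nat_lit 34893391616) (nat_lit 8) (nat_lit 5) (nat_lit 9) (nat_lit 5) (nat_lit 10) (nat_lit 4) (nat_lit 384) (nat_lit 239) (nat_lit 157)) (XT.nd (nat_lit 78) (nat_lit 0) (nat_lit 0) (XT.lf (nat_lit 0) (nat_lit 19549638192) (nat_lit 76) (nat_lit 226273224) (nat_lit 152) (nat_lit 32306383273) (nat_lit 8) (nat_lit 5) (nat_lit 9) (nat_lit 5) (nat_lit 10) (nat_lit 4) (nat_lit 385) (nat_lit 239) (nat_lit 156)) (XT.lf (nat_lit 0) (nat_lit 23896394076) (nat_lit 152) (nat_lit 25775529514) (nat_lit 0) (nat_lit 3845999531) (nat_lit 8) (nat_lit 5) (nat_lit 10) (nat_lit 4) (nat_lit 8) (nat_lit 4) (nat_lit 386) (nat_lit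 239) (nat_lit 155)))) (XT.nd (nat_lit 156) (nat_lit 76) (nat_lit 0) (XT.nd (nat_lit 78) (nat_lit 0) (nat_lit 0) (XT.lf (nat_lit 0) (nat_lit 28125061927) (nat_lit 152) (nat_lit 18850563870) (nat_lit 0) (nat_lit 8021463124) (nat_lit 8) (nat_lit 5) (nat_lit 10) (nat_lit 4) (nat_lit 8) (nat_lit 4) (nat_lit 387) (nat_lit 239) (nat_lit 154)) (XT.lf (nat_lit 0) (nat_lit 32463434845) (nat_lit 152) (nat_lit 11749533546) (nat_lit 0) (nat_lit 12308181423) (nat_lit 8) (nat_lit 5) (nat_lit 10) (nat_lit 4) (nat_lit 8) (nat_lit 4) (nat_lit 388) (nat_lit 239) (nat_lit 153))) (XT.nd (nat_lit 78) (nat_lit 76) (nat_lit 0) (XT.lf (nat_lit 0) (nat_lit 36915303641) (nat_lit 152) (nat_lit 4466233760) (nat_lit 0) (nat_lit 16709900103) (nat_lit 8) (nat_lit 5) (nat_lit 10) (nat_lit 4) (nat_lit 8) (nat_lit 4) (nat_lit 389) (nat_lit 239) (nat_lit 152)) (XT.lf (nat_lit 0) (nat_lit 3065518850) (nat_lit 76) (nat_lit 38448507091)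 (nat_lit 76) (nat_lit 18194414120) (nat_lit 7) (nat_lit 4) (nat_lit 8) (nat_lit 5) (nat_lit 8) (nat_lit 4) (nat_lit 390) (nat_lit 239) (nat_lit 151))))) (XT.nd (nat_lit 234) (nat_lit 76) (nat_lit 0) (XT.nd (nat_lit 78) (nat_lit 0) (nat_lit 0) (XT.lf (nat_lit 0) (nat_lit 10885204769) (nat_lit 76) (nat_lit 35394621847) (nat_lit 76) (nat_lit 15093257581) (nat_lit 7) (nat_lit 4) (nat_lit 8) (nat_lit 5) (nat_lit 8) (nat_lit 4) (nat_lit 391) (nat_lit 239) (nat_lit 150)) (XT.nd (nat_lit 78) (nat_lit 0) (nat_lit 0) (XT.lf (nat_lit 0) (nat_lit 18910769923) (nat_lit 76) (nat_lit 32262313431) (nat_lit 76) (nat_lit 11915054705) (nat_lit 7) (nat_lit 4) (nat_lit 8) (nat_lit 5) (nat_lit 8) (nat_lit 4) (nat_lit 392) (nat_lit 239) (nat_lit 149)) (XT.lf (nat_lit 0) (nat_lit 27149226940) (nat_lit 76) (nat_lit 29048844874) (nat_lit 76) (nat_lit 8657028420) (nat_lit 7) (nat_lit 4) (nat_lit 8) (nat_lit 5) (nat_lit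 8) (nat_lit 4) (nat_lit 393) (nat_lit 239) (nat_lit 148)))) (XT.nd (nat_lit 156) (nat_lit 76) (nat_lit 0) (XT.nd (nat_lit 78) (nat_lit 0) (nat_lit 0) (XT.lf (nat_lit 0) (nat_lit 35607774474) (nat_lit 76) (nat_lit 25751408292) (nat_lit 76) (nat_lit 5316331907) (nat_lit 7) (nat_lit 4) (nat_lit 8) (nat_lit 5) (nat_lit 8) (nat_lit 4) (nat_lit 394) (nat_lit 239) (nat_lit 147)) (XT.lf (nat_lit 0) (nat_lit 44293803487) (nat_lit 76) (nat_lit 22367122428) (nat_lit 76) (nat_lit 1890046110) (nat_lit 7) (nat_lit 4) (nat_lit 8) (nat_lit 5) (nat_lit 8) (nat_lit 4) (nat_lit 395) (nat_lit 239) (nat_lit 146))) (XT.nd (nat_lit 78) (nat_lit 0) (nat_lit 0) (XT.lf (nat_lit 0) (nat_lit 1593116665) (nat_lit 152) (nat_lit 17283826121) (nat_lit 76) (nat_lit 51605699693) (nat_lit 6) (nat_lit 5) (nat_lit 8) (nat_lit 5) (nat_lit 7) (nat_lit 4) (nat_lit 396) (nat_lit 239) (nat_lit 145)) (XT.lf (nat_lit 0) (nat_lit 5129263696)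 (nat_lit 152) (nat_lit 10145036611) (nat_lit 76) (nat_lit 57197811087) (nat_lit 6) (nat_lit 5) (nat_lit 8) (nat_lit 5) (nat_lit 7) (nat_lit 4) (nat_lit 397) (nat_lit 239) (nat_lit 144))))))))
noncomputable def xc56 : XT := (XT.nd (nat_lit 34164) (nat_lit 0) (nat_lit 1900) (XT.nd (nat_lit 33150) (nat_lit 0) (nat_lit 5168) (XT.nd (nat_lit 468) (nat_lit 0) (nat_lit 0) (XT.nd (nat_lit 234) (nat_lit 0) (nat_lit 0) (XT.nd (nat_lit 78) (nat_lit 76) (nat_lit 0) (XT.lf (nat_lit 0) (nat_lit 8758366428) (nat_lit 152) (nat_lit 2816393954) (nat_lit 76) (nat_lit 62946901809) (nat_lit 6) (nat_lit 5) (nat_lit 8) (nat_lit 5) (nat_lit 7) (nat_lit 4) (nat_lit 398) (nat_lit 239) (nat_lit 143)) (XT.nd (nat_lit 78) (nat_lit 0) (nat_lit 0) (XT.lf (nat_lit 0) (nat_lit 4802214010) (nat_lit 76) (nat_lit 7727543728) (nat_lit 152) (nat_lit 64101943145) (nat_lit 5) (nat_lit 5) (nat_lit 6) (nat_lit 5) (nat_lit 7) (nat_lit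 4) (nat_lit 399) (nat_lit 239) (nat_lit 142)) (XT.lf (nat_lit 0) (nat_lit 12683742463) (nat_lit 76) (nat_lit 3746388657) (nat_lit 152) (nat_lit 62374438133) (nat_lit 5) (nat_lit 5) (nat_lit 6) (nat_lit 5) (nat_lit 7) (nat_lit 4) (nat_lit 400) (nat_lit 239) (nat_lit 141)))) (XT.nd (nat_lit 78) (nat_lit 0) (nat_lit 0) (XT.lf (nat_lit 0) (nat_lit 20438587231) (nat_lit 152) (nat_lit 60267272132) (nat_lit 0) (nat_lit 337035781) (nat_lit 5) (nat_lit 5) (nat_lit 7) (nat_lit 4) (nat_lit 5) (nat_lit 4) (nat_lit 401) (nat_lit 239) (nat_lit 140)) (XT.nd (nat_lit 78) (nat_lit 0) (nat_lit 0) (XT.lf (nat_lit 0) (nat_lit 24592415935) (nat_lit 152) (nat_lit 54297495471) (nat_lit 0) (nat_lit 4457709350) (nat_lit 5) (nat_lit 5) (nat_lit 7) (nat_lit 4) (nat_lit 5) (nat_lit 4) (nat_lit 402) (nat_lit 239) (nat_lit 139)) (XT.lf (nat_lit 0) (nat_lit 28859234211) (nat_lit 152) (nat_lit 48170267918) (nat_lit 0) (nat_lit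 8692338175) (nat_lit 5) (nat_lit 5) (nat_lit 7) (nat_lit 4) (nat_lit 5) (nat_lit 4) (nat_lit 403) (nat_lit 239) (nat_lit 138))))) (XT.nd (nat_lit 234) (nat_lit 0) (nat_lit 0) (XT.nd (nat_lit 78) (nat_lit 0) (nat_lit 0) (XT.lf (nat_lit 0) (nat_lit 33242770348) (nat_lit 152) (nat_lit 41880235585) (nat_lit 0) (nat_lit 13044622417) (nat_lit 5) (nat_lit 5) (nat_lit 7) (nat_lit 4) (nat_lit 5) (nat_lit 4) (nat_lit 404) (nat_lit 239) (nat_lit 137)) (XT.nd (nat_lit 78) (nat_lit 0) (nat_lit 0) (XT.lf (nat_lit 0) (nat_lit 37746854619) (nat_lit 152) (nat_lit 35421902327) (nat_lit 0) (nat_lit 17518365043) (nat_lit 5) (nat_lit 5) (nat_lit 7) (nat_lit 4) (nat_lit 5) (nat_lit 4) (nat_lit 405) (nat_lit 239) (nat_lit 136)) (XT.lf (nat_lit 0) (nat_lit 42375422632) (nat_lit 152) (nat_lit 28789624940) (nat_lit 0) (nat_lit 22117475149) (nat_lit 5) (nat_lit 5) (nat_lit 7) (nat_lit 4) (nat_lit 5) (nat_lit 4) (nat_lit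 406) (nat_lit 239) (nat_lit 135)))) (XT.nd (nat_lit 32292) (nat_lit 0) (nat_lit 8436) (XT.nd (nat_lit 78) (nat_lit 0) (nat_lit 0) (XT.lf (nat_lit 0) (nat_lit 47132518767) (nat_lit 152) (nat_lit 21977608231) (nat_lit 0) (nat_lit 26845971374) (nat_lit 5) (nat_lit 5) (nat_lit 7) (nat_lit 4) (nat_lit 5) (nat_lit 4) (nat_lit 407) (nat_lit 239) (nat_lit 134)) (XT.lf (nat_lit 0) (nat_lit 52022299710) (nat_lit 152) (nat_lit 14979899951) (nat_lit 0) (nat_lit 31707985413) (nat_lit 5) (nat_lit 5) (nat_lit 7) (nat_lit 4) (nat_lit 5) (nat_lit 4) (nat_lit 408) (nat_lit 239) (nat_lit 133))) (XT.nd (nat_lit 78) (nat_lit 380) (nat_lit 0) (XT.lf (nat_lit 0) (nat_lit 1477569468) (nat_lit 456) (nat_lit 1229373207) (nat_lit 0) (nat_lit 1477569468) (nat_lit 121) (nat_lit 5) (nat_lit 127) (nat_lit 4) (nat_lit 121) (nat_lit 4) (nat_lit 300) (nat_lit 240) (nat_lit 240)) (XT.lf (nat_lit 0) (nat_lit 3511255911) (nat_lit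 380) (nat_lit 3040232167) (nat_lit 380) (nat_lit 1922904542) (nat_lit 116) (nat_lit 4) (nat_lit 121) (nat_lit 5) (nat_lit 121) (nat_lit 4) (nat_lit 301) (nat_lit 240) (nat_lit 239)))))) (XT.nd (nat_lit 468) (nat_lit 1596) (nat_lit 0) (XT.nd (nat_lit 234) (nat_lit 836) (nat_lit 0) (XT.nd (nat_lit 78) (nat_lit 380) (nat_lit 0) (XT.lf (nat_lit 0) (nat_lit 1012325425) (nat_lit 380) (nat_lit 571141152) (nat_lit 456) (nat_lit 7000785467) (nat_lit 110) (nat_lit 5) (nat_lit 115) (nat_lit 5) (nat_lit 116) (nat_lit 4) (nat_lit 302) (nat_lit 240) (nat_lit 238)) (XT.nd (nat_lit 78) (nat_lit 380) (nat_lit 0) (XT.lf (nat_lit 0) (nat_lit 5135700308) (nat_lit 456) (nat_lit 1586649783) (nat_lit 0) (nat_lit 1975214699) (nat_lit 110) (nat_lit 5) (nat_lit 116) (nat_lit 4) (nat_lit 110) (nat_lit 4) (nat_lit 303) (nat_lit 240) (nat_lit 237)) (XT.lf (nat_lit 0) (nat_lit 4543673772) (nat_lit 380) (nat_lit 4212536868)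 (nat_lit 380) (nat_lit 59320135) (nat_lit 105) (nat_lit 4) (nat_lit 110) (nat_lit 5) (nat_lit 110) (nat_lit 4) (nat_lit 304) (nat_lit 240) (nat_lit 236)))) (XT.nd (nat_lit 78) (nat_lit 456) (nat_lit 0) (XT.lf (nat_lit 0) (nat_lit 1837259803) (nat_lit 304) (nat_lit 1588500374) (nat_lit 380) (nat_lit 5511950424) (nat_lit 100) (nat_lit 5) (nat_lit 104) (nat_lit 5) (nat_lit 105) (nat_lit 4) (nat_lit 305) (nat_lit 240) (nat_lit 235)) (XT.nd (nat_lit 78) (nat_lit 456) (nat_lit 0) (XT.lf (nat_lit 0) (nat_lit 6982446255) (nat_lit 380) (nat_lit 976177702) (nat_lit 0) (nat_lit 1105963096) (nat_lit 100) (nat_lit 5) (nat_lit 105) (nat_lit 4) (nat_lit 100) (nat_lit 4) (nat_lit 306) (nat_lit 240) (nat_lit 234)) (XT.lf (nat_lit 0) (nat_lit 1405185005) (nat_lit 456) (nat_lit 3905986342) (nat_lit 76) (nat_lit 3884283011) (nat_lit 94) (nat_lit 5) (nat_lit 100) (nat_lit 5) (nat_lit 95) (nat_lit 4) (nat_lit 307)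 (nat_lit 240) (nat_lit 233))))) (XT.nd (nat_lit 234) (nat_lit 912) (nat_lit 0) (XT.nd (nat_lit 78) (nat_lit 380) (nat_lit 0) (XT.lf (nat_lit 0) (nat_lit 2341584767) (nat_lit 304) (nat_lit 2563063143) (nat_lit 380) (nat_lit 4426588380) (nat_lit 90) (nat_lit 5) (nat_lit 94) (nat_lit 5) (nat_lit 95) (nat_lit 4) (nat_lit 308) (nat_lit 240) (nat_lit 232)) (XT.nd (nat_lit 78) (nat_lit 380) (nat_lit 0) (XT.lf (nat_lit 0) (nat_lit 8469389773) (nat_lit 380) (nat_lit 733828754) (nat_lit 0) (nat_lit 269149793) (nat_lit 90) (nat_lit 5) (nat_lit 95) (nat_lit 4) (nat_lit 90) (nat_lit 4) (nat_lit 309) (nat_lit 240) (nat_lit 231)) (XT.lf (nat_lit 0) (nat_lit 2474289182) (nat_lit 380) (nat_lit 3961104056) (nat_lit 76) (nat_lit 3181688309) (nat_lit 85) (nat_lit 5) (nat_lit 90) (nat_lit 5) (nat_lit 86) (nat_lit 4) (nat_lit 310) (nat_lit 240) (nat_lit 230)))) (XT.nd (nat_lit 156) (nat_lit 608) (nat_lit 0) (XT.nd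 (nat_lit 78) (nat_lit 0) (nat_lit 0) (XT.lf (nat_lit 0) (nat_lit 2408886327) (nat_lit 304) (nat_lit 3578130010) (nat_lit 380) (nat_lit 3780361145) (nat_lit 81) (nat_lit 5) (nat_lit 85) (nat_lit 5) (nat_lit 86) (nat_lit 4) (nat_lit 311) (nat_lit 240) (nat_lit 229)) (XT.lf (nat_lit 0) (nat_lit 8937577202) (nat_lit 304) (nat_lit 629427344) (nat_lit 380) (nat_lit 356397332) (nat_lit 81) (nat_lit 5) (nat_lit 85) (nat_lit 5) (nat_lit 86) (nat_lit 4) (nat_lit 312) (nat_lit 240) (nat_lit 228))) (XT.nd (nat_lit 78) (nat_lit 228) (nat_lit 0) (XT.lf (nat_lit 0) (nat_lit 3108679900) (nat_lit 380) (nat_lit 4563760495) (nat_lit 76) (nat_lit 2410816221) (nat_lit 76) (nat_lit 5) (nat_lit 81) (nat_lit 5) (nat_lit 77) (nat_lit 4) (nat_lit 313) (nat_lit 240) (nat_lit 227)) (XT.lf (nat_lit 0) (nat_lit 1907147662) (nat_lit 228) (nat_lit 4722177433) (nat_lit 304) (nat_lit 3619782186) (nat_lit 73) (nat_lit 5) (nat_lit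 76) (nat_lit 5) (nat_lit 77) (nat_lit 4) (nat_lit 314) (nat_lit 240) (nat_lit 226))))))) (XT.nd (nat_lit 1014) (nat_lit 1368) (nat_lit 0) (XT.nd (nat_lit 468) (nat_lit 988) (nat_lit 0) (XT.nd (nat_lit 234) (nat_lit 304) (nat_lit 0) (XT.nd (nat_lit 78) (nat_lit 608) (nat_lit 0) (XT.lf (nat_lit 0) (nat_lit 8554056328) (nat_lit 228) (nat_lit 1672914525) (nat_lit 304) (nat_lit 193888663) (nat_lit 73) (nat_lit 5) (nat_lit 76) (nat_lit 5) (nat_lit 77) (nat_lit 4) (nat_lit 315) (nat_lit 240) (nat_lit 225)) (XT.nd (nat_lit 78) (nat_lit 228) (nat_lit 0) (XT.lf (nat_lit 0) (nat_lit 3256617150) (nat_lit 380) (nat_lit 5858864113) (nat_lit 76) (nat_lit 1481777718) (nat_lit 68) (nat_lit 5) (nat_lit 73) (nat_lit 5) (nat_lit 69) (nat_lit 4) (nat_lit 316) (nat_lit 240) (nat_lit 224)) (XT.lf (nat_lit 0) (nat_lit 685592778) (nat_lit 228) (nat_lit 6090766020) (nat_lit 304) (nat_lit 4003507271) (nat_lit 65) (nat_lit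 5) (nat_lit 68) (nat_lit 5) (nat_lit 69) (nat_lit 4) (nat_lit 317) (nat_lit 240) (nat_lit 223)))) (XT.nd (nat_lit 78) (nat_lit 304) (nat_lit 0) (XT.lf (nat_lit 0) (nat_lit 7436822741) (nat_lit 228) (nat_lit 2952518753) (nat_lit 304) (nat_lit 579040376) (nat_lit 65) (nat_lit 5) (nat_lit 68) (nat_lit 5) (nat_lit 69) (nat_lit 4) (nat_lit 318) (nat_lit 240) (nat_lit 222)) (XT.nd (nat_lit 78) (nat_lit 0) (nat_lit 0) (XT.lf (nat_lit 0) (nat_lit 2853675219) (nat_lit 304) (nat_lit 8012555014) (nat_lit 76) (nat_lit 296637927) (nat_lit 61) (nat_lit 5) (nat_lit 65) (nat_lit 5) (nat_lit 62) (nat_lit 4) (nat_lit 319) (nat_lit 240) (nat_lit 221)) (XT.lf (nat_lit 0) (nat_lit 6373460388) (nat_lit 304) (nat_lit 1401033019) (nat_lit 76) (nat_lit 3588706726) (nat_lit 61) (nat_lit 5) (nat_lit 65) (nat_lit 5) (nat_lit 62) (nat_lit 4) (nat_lit 320) (nat_lit 240) (nat_lit 220))))) (XT.nd (nat_lit 234) (nat_lit 456)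 (nat_lit 0) (XT.nd (nat_lit 78) (nat_lit 304) (nat_lit 0) (XT.lf (nat_lit 0) (nat_lit 5408916144) (nat_lit 228) (nat_lit 4574420151) (nat_lit 304) (nat_lit 1586724129) (nat_lit 58) (nat_lit 5) (nat_lit 61) (nat_lit 5) (nat_lit 62) (nat_lit 4) (nat_lit 321) (nat_lit 240) (nat_lit 219)) (XT.nd (nat_lit 78) (nat_lit 0) (nat_lit 0) (XT.lf (nat_lit 0) (nat_lit 555622496) (nat_lit 228) (nat_lit 1277709620) (nat_lit 304) (nat_lit 9950719864) (nat_lit 54) (nat_lit 5) (nat_lit 57) (nat_lit 5) (nat_lit 58) (nat_lit 5) (nat_lit 322) (nat_lit 240) (nat_lit 218)) (XT.lf (nat_lit 0) (nat_lit 5340625802) (nat_lit 304) (nat_lit 4545542373) (nat_lit 76) (nat_lit 2117376738) (nat_lit 54) (nat_lit 5) (nat_lit 58) (nat_lit 5) (nat_lit 55) (nat_lit 4) (nat_lit 323) (nat_lit 240) (nat_lit 217)))) (XT.nd (nat_lit 156) (nat_lit 228) (nat_lit 0) (XT.nd (nat_lit 78) (nat_lit 76) (nat_lit 0) (XT.lf (nat_lit 0) (nat_lit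 2266049508) (nat_lit 152) (nat_lit 6656800958) (nat_lit 228) (nat_lit 3307728137) (nat_lit 52) (nat_lit 5) (nat_lit 54) (nat_lit 5) (nat_lit 55) (nat_lit 4) (nat_lit 324) (nat_lit 240) (nat_lit 216)) (XT.lf (nat_lit 0) (nat_lit 127087113) (nat_lit 228) (nat_lit 3193421268) (nat_lit 76) (nat_lit 9144461060) (nat_lit 51) (nat_lit 5) (nat_lit 54) (nat_lit 5) (nat_lit 52) (nat_lit 5) (nat_lit 325) (nat_lit 240) (nat_lit 215))) (XT.nd (nat_lit 78) (nat_lit 0) (nat_lit 0) (XT.lf (nat_lit 0) (nat_lit 3573032314) (nat_lit 304) (nat_lit 8987669959) (nat_lit 76) (nat_lit 145513529) (nat_lit 48) (nat_lit 5) (nat_lit 52) (nat_lit 5) (nat_lit 49) (nat_lit 4) (nat_lit 326) (nat_lit 240) (nat_lit 214)) (XT.lf (nat_lit 0) (nat_lit 7125682114) (nat_lit 304) (nat_lit 2184782943) (nat_lit 76) (nat_lit 3644176764) (nat_lit 48) (nat_lit 5) (nat_lit 52) (nat_lit 5) (nat_lit 49) (nat_lit 4) (nat_lit 327) (nat_lit 240)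 (nat_lit 213)))))) (XT.nd (nat_lit 546) (nat_lit 532) (nat_lit 0) (XT.nd (nat_lit 234) (nat_lit 380) (nat_lit 0) (XT.nd (nat_lit 78) (nat_lit 304) (nat_lit 0) (XT.lf (nat_lit 0) (nat_lit 4817964601) (nat_lit 152) (nat_lit 5952952603) (nat_lit 228) (nat_lit 2440064076) (nat_lit 46) (nat_lit 5) (nat_lit 48) (nat_lit 5) (nat_lit 49) (nat_lit 4) (nat_lit 328) (nat_lit 240) (nat_lit 212)) (XT.nd (nat_lit 78) (nat_lit 228) (nat_lit 0) (XT.lf (nat_lit 0) (nat_lit 992166035) (nat_lit 228) (nat_lit 1507598687) (nat_lit 76) (nat_lit 10976116746) (nat_lit 45) (nat_lit 5) (nat_lit 48) (nat_lit 5) (nat_lit 46) (nat_lit 5) (nat_lit 329) (nat_lit 240) (nat_lit 211)) (XT.lf (nat_lit 0) (nat_lit 4484103502) (nat_lit 304) (nat_lit 8185422583) (nat_lit 76) (nat_lit 1078341673) (nat_lit 42) (nat_lit 5) (nat_lit 46) (nat_lit 5) (nat_lit 43) (nat_lit 4) (nat_lit 330) (nat_lit 240) (nat_lit 210)))) (XT.nd (nat_lit 156)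 (nat_lit 228) (nat_lit 0) (XT.nd (nat_lit 78) (nat_lit 152) (nat_lit 0) (XT.lf (nat_lit 0) (nat_lit 8062993373) (nat_lit 304) (nat_lit 1273076304) (nat_lit 76) (nat_lit 4692514408) (nat_lit 42) (nat_lit 5) (nat_lit 46) (nat_lit 5) (nat_lit 43) (nat_lit 4) (nat_lit 331) (nat_lit 240) (nat_lit 209)) (XT.lf (nat_lit 0) (nat_lit 5867829102) (nat_lit 152) (nat_lit 5881582908) (nat_lit 228) (nat_lit 2568340251) (nat_lit 40) (nat_lit 5) (nat_lit 42) (nat_lit 5) (nat_lit 43) (nat_lit 4) (nat_lit 332) (nat_lit 240) (nat_lit 208))) (XT.nd (nat_lit 78) (nat_lit 152) (nat_lit 0) (XT.lf (nat_lit 0) (nat_lit 869570674) (nat_lit 228) (nat_lit 1468774422) (nat_lit 76) (nat_lit 12278307954) (nat_lit 39) (nat_lit 5) (nat_lit 42) (nat_lit 5) (nat_lit 40) (nat_lit 5) (nat_lit 333) (nat_lit 240) (nat_lit 207)) (XT.lf (nat_lit 0) (nat_lit 4372561588) (nat_lit 228) (nat_lit 9219707150) (nat_lit 76) (nat_lit 1331114569)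 (nat_lit 37) (nat_lit 5) (nat_lit 40) (nat_lit 5) (nat_lit 38) (nat_lit 4) (nat_lit 334) (nat_lit 240) (nat_lit 206))))) (XT.nd (nat_lit 234) (nat_lit 380) (nat_lit 0) (XT.nd (nat_lit 78) (nat_lit 152) (nat_lit 0) (XT.lf (nat_lit 0) (nat_lit 7964703068) (nat_lit 228) (nat_lit 2231988463) (nat_lit 76) (nat_lit 5043133410) (nat_lit 37) (nat_lit 5) (nat_lit 40) (nat_lit 5) (nat_lit 38) (nat_lit 4) (nat_lit 335) (nat_lit 240) (nat_lit 205)) (XT.nd (nat_lit 78) (nat_lit 0) (nat_lit 0) (XT.lf (nat_lit 0) (nat_lit 4973848759) (nat_lit 152) (nat_lit 6686076872) (nat_lit 228) (nat_lit 3906005071) (nat_lit 35) (nat_lit 5) (nat_lit 37) (nat_lit 5) (nat_lit 38) (nat_lit 4) (nat_lit 336) (nat_lit 240) (nat_lit 204)) (XT.lf (nat_lit 0) (nat_lit 12353912284) (nat_lit 152) (nat_lit 3082822381) (nat_lit 228) (nat_lit 465992572) (nat_lit 35) (nat_lit 5) (nat_lit 37) (nat_lit 5) (nat_lit 38) (nat_lit 4) (nat_lit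 337) (nat_lit 240) (nat_lit 203)))) (XT.nd (nat_lit 156) (nat_lit 152) (nat_lit 0) (XT.nd (nat_lit 78) (nat_lit 0) (nat_lit 0) (XT.lf (nat_lit 0) (nat_lit 3007885789) (nat_lit 228) (nat_lit 12594149896) (nat_lit 76) (nat_lit 647010990) (nat_lit 32) (nat_lit 5) (nat_lit 35) (nat_lit 5) (nat_lit 33) (nat_lit 4) (nat_lit 338) (nat_lit 240) (nat_lit 202)) (XT.lf (nat_lit 0) (nat_lit 6592824250) (nat_lit 228) (nat_lit 5579241273) (nat_lit 76) (nat_lit 4433092462) (nat_lit 32) (nat_lit 5) (nat_lit 35) (nat_lit 5) (nat_lit 33) (nat_lit 4) (nat_lit 339) (nat_lit 240) (nat_lit 201))) (XT.nd (nat_lit 78) (nat_lit 0) (nat_lit 0) (XT.lf (nat_lit 0) (nat_lit 1593187754) (nat_lit 152) (nat_lit 8658404658) (nat_lit 228) (nat_lit 6721397983) (nat_lit 30) (nat_lit 5) (nat_lit 32) (nat_lit 5) (nat_lit 33) (nat_lit 4) (nat_lit 340) (nat_lit 240) (nat_lit 200)) (XT.lf (nat_lit 0) (nat_lit 9011966626) (nat_lit 152)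 (nat_lit 5016091700) (nat_lit 228) (nat_lit 3323586855) (nat_lit 30) (nat_lit 5) (nat_lit 32) (nat_lit 5) (nat_lit 33) (nat_lit 4) (nat_lit 341) (nat_lit 240) (nat_lit 199))))))))
noncomputable def xc57 : XT := (XT.nd (nat_lit 2028) (nat_lit 532) (nat_lit 0) (XT.nd (nat_lit 1014) (nat_lit 380) (nat_lit 0) (XT.nd (nat_lit 468) (nat_lit 532) (nat_lit 0) (XT.nd (nat_lit 234) (nat_lit 76) (nat_lit 0) (XT.nd (nat_lit 78) (nat_lit 152) (nat_lit 0) (XT.lf (nat_lit 0) (nat_lit 125236756) (nat_lit 228) (nat_lit 1171782042) (nat_lit 76) (nat_lit 16446038527) (nat_lit 29) (nat_lit 5) (nat_lit 32) (nat_lit 5) (nat_lit 30) (nat_lit 5) (nat_lit 342) (nat_lit 240) (nat_lit 198)) (XT.nd (nat_lit 78) (nat_lit 0) (nat_lit 0) (XT.lf (nat_lit 0) (nat_lit 3649368871) (nat_lit 228) (nat_lit 11949522926) (nat_lit 76) (nat_lit 2545196780) (nat_lit 27) (nat_lit 5) (nat_lit 30) (nat_lit 5) (nat_lit 28) (nat_lit 4) (nat_lit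 343) (nat_lit 240) (nat_lit 197)) (XT.lf (nat_lit 0) (nat_lit 7258184816) (nat_lit 228) (nat_lit 4843479953) (nat_lit 76) (nat_lit 6456139808) (nat_lit 27) (nat_lit 5) (nat_lit 30) (nat_lit 5) (nat_lit 28) (nat_lit 4) (nat_lit 344) (nat_lit 240) (nat_lit 196)))) (XT.nd (nat_lit 78) (nat_lit 0) (nat_lit 0) (XT.lf (nat_lit 0) (nat_lit 2446147948) (nat_lit 76) (nat_lit 8508134306) (nat_lit 152) (nat_lit 8030301241) (nat_lit 26) (nat_lit 5) (nat_lit 27) (nat_lit 5) (nat_lit 28) (nat_lit 4) (nat_lit 345) (nat_lit 240) (nat_lit 195)) (XT.nd (nat_lit 78) (nat_lit 0) (nat_lit 0) (XT.lf (nat_lit 0) (nat_lit 9977179894) (nat_lit 76) (nat_lit 4789055492) (nat_lit 152) (nat_lit 4657802522) (nat_lit 26) (nat_lit 5) (nat_lit 27) (nat_lit 5) (nat_lit 28) (nat_lit 4) (nat_lit 346) (nat_lit 240) (nat_lit 194)) (XT.lf (nat_lit 0) (nat_lit 17659801648) (nat_lit 76) (nat_lit 990088297) (nat_lit 152) (nat_lit 1228086411)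 (nat_lit 26) (nat_lit 5) (nat_lit 27) (nat_lit 5) (nat_lit 28) (nat_lit 4) (nat_lit 347) (nat_lit 240) (nat_lit 193))))) (XT.nd (nat_lit 234) (nat_lit 304) (nat_lit 0) (XT.nd (nat_lit 78) (nat_lit 0) (nat_lit 0) (XT.lf (nat_lit 0) (nat_lit 2296536733) (nat_lit 228) (nat_lit 15138818622) (nat_lit 76) (nat_lit 2908422978) (nat_lit 23) (nat_lit 5) (nat_lit 26) (nat_lit 5) (nat_lit 24) (nat_lit 4) (nat_lit 348) (nat_lit 240) (nat_lit 192)) (XT.nd (nat_lit 78) (nat_lit 0) (nat_lit 0) (XT.lf (nat_lit 0) (nat_lit 5893020383) (nat_lit 228) (nat_lit 8022080570) (nat_lit 76) (nat_lit 6908383417) (nat_lit 23) (nat_lit 5) (nat_lit 26) (nat_lit 5) (nat_lit 24) (nat_lit 4) (nat_lit 349) (nat_lit 240) (nat_lit 191)) (XT.lf (nat_lit 0) (nat_lit 9556992026) (nat_lit 228) (nat_lit 762979065) (nat_lit 76) (nat_lit 10998841076) (nat_lit 23) (nat_lit 5) (nat_lit 26) (nat_lit 5) (nat_lit 24) (nat_lit 4) (nat_lit 350)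 (nat_lit 240) (nat_lit 190)))) (XT.nd (nat_lit 156) (nat_lit 228) (nat_lit 0) (XT.nd (nat_lit 78) (nat_lit 0) (nat_lit 0) (XT.lf (nat_lit 0) (nat_lit 6777073921) (nat_lit 76) (nat_lit 6579724650) (nat_lit 152) (nat_lit 8471441599) (nat_lit 22) (nat_lit 5) (nat_lit 23) (nat_lit 5) (nat_lit 24) (nat_lit 4) (nat_lit 351) (nat_lit 240) (nat_lit 189)) (XT.lf (nat_lit 0) (nat_lit 14490579257) (nat_lit 76) (nat_lit 2748980229) (nat_lit 152) (nat_lit 5114340049) (nat_lit 22) (nat_lit 5) (nat_lit 23) (nat_lit 5) (nat_lit 24) (nat_lit 4) (nat_lit 352) (nat_lit 240) (nat_lit 188))) (XT.nd (nat_lit 78) (nat_lit 228) (nat_lit 0) (XT.lf (nat_lit 0) (nat_lit 21212413903) (nat_lit 152) (nat_lit 538608476) (nat_lit 0) (nat_lit 1145114802) (nat_lit 22) (nat_lit 5) (nat_lit 24) (nat_lit 4) (nat_lit 22) (nat_lit 4) (nat_lit 353) (nat_lit 240) (nat_lit 187)) (XT.lf (nat_lit 0) (nat_lit 1872482119) (nat_lit 228) (nat_lit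 16420361147) (nat_lit 76) (nat_lit 5159518104) (nat_lit 19) (nat_lit 5) (nat_lit 22) (nat_lit 5) (nat_lit 20) (nat_lit 4) (nat_lit 354) (nat_lit 240) (nat_lit 186)))))) (XT.nd (nat_lit 468) (nat_lit 152) (nat_lit 0) (XT.nd (nat_lit 234) (nat_lit 152) (nat_lit 0) (XT.nd (nat_lit 78) (nat_lit 76) (nat_lit 0) (XT.lf (nat_lit 0) (nat_lit 5470310875) (nat_lit 228) (nat_lit 9266478237) (nat_lit 76) (nat_lit 9288935100) (nat_lit 19) (nat_lit 5) (nat_lit 22) (nat_lit 5) (nat_lit 20) (nat_lit 4) (nat_lit 355) (nat_lit 240) (nat_lit 185)) (XT.nd (nat_lit 78) (nat_lit 76) (nat_lit 0) (XT.lf (nat_lit 0) (nat_lit 9140429471) (nat_lit 228) (nat_lit 1961486482) (nat_lit 76) (nat_lit 13515456283) (nat_lit 19) (nat_lit 5) (nat_lit 22) (nat_lit 5) (nat_lit 20) (nat_lit 4) (nat_lit 356) (nat_lit 240) (nat_lit 184)) (XT.lf (nat_lit 0) (nat_lit 5610477748) (nat_lit 76) (nat_lit 7329498402) (nat_lit 152) (nat_lit 12286228325)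 (nat_lit 18) (nat_lit 5) (nat_lit 19) (nat_lit 5) (nat_lit 20) (nat_lit 4) (nat_lit 357) (nat_lit 240) (nat_lit 183)))) (XT.nd (nat_lit 78) (nat_lit 152) (nat_lit 0) (XT.lf (nat_lit 0) (nat_lit 13388756040) (nat_lit 76) (nat_lit 3450374622) (nat_lit 152) (nat_lit 9014616464) (nat_lit 18) (nat_lit 5) (nat_lit 19) (nat_lit 5) (nat_lit 20) (nat_lit 4) (nat_lit 358) (nat_lit 240) (nat_lit 182)) (XT.nd (nat_lit 78) (nat_lit 152) (nat_lit 0) (XT.lf (nat_lit 0) (nat_lit 20827059084) (nat_lit 152) (nat_lit 5165007225) (nat_lit 0) (nat_lit 508909447) (nat_lit 18) (nat_lit 5) (nat_lit 20) (nat_lit 4) (nat_lit 18) (nat_lit 4) (nat_lit 359) (nat_lit 240) (nat_lit 181)) (XT.lf (nat_lit 0) (nat_lit 2306537647) (nat_lit 152) (nat_lit 22651954909) (nat_lit 152) (nat_lit 2208425953) (nat_lit 16) (nat_lit 4) (nat_lit 18) (nat_lit 5) (nat_lit 18) (nat_lit 4) (nat_lit 360) (nat_lit 240) (nat_lit 180))))) (XT.nd (nat_lit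 234) (nat_lit 76) (nat_lit 0) (XT.nd (nat_lit 78) (nat_lit 0) (nat_lit 0) (XT.lf (nat_lit 0) (nat_lit 1354737598) (nat_lit 228) (nat_lit 17815139125) (nat_lit 76) (nat_lit 8681974846) (nat_lit 15) (nat_lit 5) (nat_lit 18) (nat_lit 5) (nat_lit 16) (nat_lit 4) (nat_lit 361) (nat_lit 240) (nat_lit 179)) (XT.nd (nat_lit 78) (nat_lit 0) (nat_lit 0) (XT.lf (nat_lit 0) (nat_lit 4948946602) (nat_lit 228) (nat_lit 10637076880) (nat_lit 76) (nat_lit 12971609191) (nat_lit 15) (nat_lit 5) (nat_lit 18) (nat_lit 5) (nat_lit 16) (nat_lit 4) (nat_lit 362) (nat_lit 240) (nat_lit 178)) (XT.lf (nat_lit 0) (nat_lit 8620435974) (nat_lit 228) (nat_lit 3298693294) (nat_lit 76) (nat_lit 17366386119) (nat_lit 15) (nat_lit 5) (nat_lit 18) (nat_lit 5) (nat_lit 16) (nat_lit 4) (nat_lit 363) (nat_lit 240) (nat_lit 177)))) (XT.nd (nat_lit 156) (nat_lit 0) (nat_lit 0) (XT.nd (nat_lit 78) (nat_lit 0) (nat_lit 0) (XT.lf (nat_lit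 0) (nat_lit 4290139895) (nat_lit 76) (nat_lit 8123513365) (nat_lit 152) (nat_lit 17621245279) (nat_lit 14) (nat_lit 5) (nat_lit 15) (nat_lit 5) (nat_lit 16) (nat_lit 4) (nat_lit 364) (nat_lit 240) (nat_lit 176)) (XT.lf (nat_lit 0) (nat_lit 12121363779) (nat_lit 76) (nat_lit 4203312726) (nat_lit 152) (nat_lit 14481977519) (nat_lit 14) (nat_lit 5) (nat_lit 15) (nat_lit 5) (nat_lit 16) (nat_lit 4) (nat_lit 365) (nat_lit 240) (nat_lit 175))) (XT.nd (nat_lit 78) (nat_lit 0) (nat_lit 0) (XT.lf (nat_lit 0) (nat_lit 20136170709) (nat_lit 76) (nat_lit 188412267) (nat_lit 152) (nat_lit 11277843419) (nat_lit 14) (nat_lit 5) (nat_lit 15) (nat_lit 5) (nat_lit 16) (nat_lit 4) (nat_lit 366) (nat_lit 240) (nat_lit 174)) (XT.lf (nat_lit 0) (nat_lit 24454594318) (nat_lit 152) (nat_lit 4119073654) (nat_lit 0) (nat_lit 3848111218) (nat_lit 14) (nat_lit 5) (nat_lit 16) (nat_lit 4) (nat_lit 14) (nat_lit 4) (nat_lit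 367) (nat_lit 240) (nat_lit 173))))))) (XT.nd (nat_lit 1014) (nat_lit 228) (nat_lit 0) (XT.nd (nat_lit 468) (nat_lit 76) (nat_lit 0) (XT.nd (nat_lit 234) (nat_lit 76) (nat_lit 0) (XT.nd (nat_lit 78) (nat_lit 76) (nat_lit 0) (XT.lf (nat_lit 0) (nat_lit 3465265358) (nat_lit 76) (nat_lit 25251394343) (nat_lit 76) (nat_lit 4548818434) (nat_lit 13) (nat_lit 4) (nat_lit 14) (nat_lit 5) (nat_lit 14) (nat_lit 4) (nat_lit 368) (nat_lit 240) (nat_lit 172)) (XT.nd (nat_lit 78) (nat_lit 76) (nat_lit 0) (XT.lf (nat_lit 0) (nat_lit 11313039207) (nat_lit 76) (nat_lit 21808440913) (nat_lit 76) (nat_lit 1012571016) (nat_lit 13) (nat_lit 4) (nat_lit 14) (nat_lit 5) (nat_lit 14) (nat_lit 4) (nat_lit 369) (nat_lit 240) (nat_lit 171)) (XT.lf (nat_lit 0) (nat_lit 2552257805) (nat_lit 152) (nat_lit 15705363240) (nat_lit 76) (nat_lit 16771096925) (nat_lit 12) (nat_lit 5) (nat_lit 14) (nat_lit 5) (nat_lit 13) (nat_lit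 4) (nat_lit 370) (nat_lit 240) (nat_lit 170)))) (XT.nd (nat_lit 78) (nat_lit 76) (nat_lit 0) (XT.lf (nat_lit 0) (nat_lit 6178252772) (nat_lit 152) (nat_lit 8432531989) (nat_lit 76) (nat_lit 21339911140) (nat_lit 12) (nat_lit 5) (nat_lit 14) (nat_lit 5) (nat_lit 13) (nat_lit 4) (nat_lit 371) (nat_lit 240) (nat_lit 169)) (XT.nd (nat_lit 78) (nat_lit 76) (nat_lit 0) (XT.lf (nat_lit 0) (nat_lit 9888341139) (nat_lit 152) (nat_lit 986429821) (nat_lit 76) (nat_lit 26026311582) (nat_lit 12) (nat_lit 5) (nat_lit 14) (nat_lit 5) (nat_lit 13) (nat_lit 4) (nat_lit 372) (nat_lit 240) (nat_lit 168)) (XT.lf (nat_lit 0) (nat_lit 6771587630) (nat_lit 76) (nat_lit 6979269741) (nat_lit 152) (nat_lit 24127898177) (nat_lit 11) (nat_lit 5) (nat_lit 12) (nat_lit 5) (nat_lit 13) (nat_lit 4) (nat_lit 373) (nat_lit 240) (nat_lit 167))))) (XT.nd (nat_lit 234) (nat_lit 76) (nat_lit 0) (XT.nd (nat_lit 78) (nat_lit 0) (nat_lit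 0) (XT.lf (nat_lit 0) (nat_lit 14739388111) (nat_lit 76) (nat_lit 2976137582) (nat_lit 152) (nat_lit 21170653028) (nat_lit 11) (nat_lit 5) (nat_lit 12) (nat_lit 5) (nat_lit 13) (nat_lit 4) (nat_lit 374) (nat_lit 240) (nat_lit 166)) (XT.nd (nat_lit 78) (nat_lit 0) (nat_lit 0) (XT.lf (nat_lit 0) (nat_lit 21786984087) (nat_lit 152) (nat_lit 17031065159) (nat_lit 0) (nat_lit 1106147878) (nat_lit 11) (nat_lit 5) (nat_lit 13) (nat_lit 4) (nat_lit 11) (nat_lit 4) (nat_lit 375) (nat_lit 240) (nat_lit 165)) (XT.lf (nat_lit 0) (nat_lit 25987551488) (nat_lit 152) (nat_lit 9772535291) (nat_lit 0) (nat_lit 5233068143) (nat_lit 11) (nat_lit 5) (nat_lit 13) (nat_lit 4) (nat_lit 11) (nat_lit 4) (nat_lit 376) (nat_lit 240) (nat_lit 164)))) (XT.nd (nat_lit 156) (nat_lit 0) (nat_lit 0) (XT.nd (nat_lit 78) (nat_lit 76) (nat_lit 0) (XT.lf (nat_lit 0) (nat_lit 30292289840) (nat_lit 152) (nat_lit 2336250147) (nat_lit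 0) (nat_lit 9466304421) (nat_lit 11) (nat_lit 5) (nat_lit 13) (nat_lit 4) (nat_lit 11) (nat_lit 4) (nat_lit 377) (nat_lit 240) (nat_lit 163)) (XT.lf (nat_lit 0) (nat_lit 5389455690) (nat_lit 76) (nat_lit 29367311620) (nat_lit 76) (nat_lit 8471906712) (nat_lit 10) (nat_lit 4) (nat_lit 11) (nat_lit 5) (nat_lit 11) (nat_lit 4) (nat_lit 378) (nat_lit 240) (nat_lit 162))) (XT.nd (nat_lit 78) (nat_lit 0) (nat_lit 0) (XT.lf (nat_lit 0) (nat_lit 13356368727) (nat_lit 76) (nat_lit 26001440255) (nat_lit 76) (nat_lit 5038637785) (nat_lit 10) (nat_lit 4) (nat_lit 11) (nat_lit 5) (nat_lit 11) (nat_lit 4) (nat_lit 379) (nat_lit 240) (nat_lit 161)) (XT.lf (nat_lit 0) (nat_lit 21524954385) (nat_lit 76) (nat_lit 22551576385) (nat_lit 76) (nat_lit 1523339388) (nat_lit 10) (nat_lit 4) (nat_lit 11) (nat_lit 5) (nat_lit 11) (nat_lit 4) (nat_lit 380) (nat_lit 240) (nat_lit 160)))))) (XT.nd (nat_lit 546) (nat_lit 76)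 (nat_lit 0) (XT.nd (nat_lit 234) (nat_lit 76) (nat_lit 0) (XT.nd (nat_lit 78) (nat_lit 0) (nat_lit 0) (XT.lf (nat_lit 0) (nat_lit 2036529174) (nat_lit 152) (nat_lit 16957611440) (nat_lit 76) (nat_lit 27845256139) (nat_lit 9) (nat_lit 5) (nat_lit 11) (nat_lit 5) (nat_lit 10) (nat_lit 4) (nat_lit 381) (nat_lit 240) (nat_lit 159)) (XT.nd (nat_lit 78) (nat_lit 0) (nat_lit 0) (XT.lf (nat_lit 0) (nat_lit 5653196949) (nat_lit 152) (nat_lit 9677454173) (nat_lit 76) (nat_lit 32785593265) (nat_lit 9) (nat_lit 5) (nat_lit 11) (nat_lit 5) (nat_lit 10) (nat_lit 4) (nat_lit 382) (nat_lit 240) (nat_lit 158)) (XT.lf (nat_lit 0) (nat_lit 9359549971) (nat_lit 152) (nat_lit 2213439399) (nat_lit 76) (nat_lit 37858978680) (nat_lit 9) (nat_lit 5) (nat_lit 11) (nat_lit 5) (nat_lit 10) (nat_lit 4) (nat_lit 383) (nat_lit 240) (nat_lit 157)))) (XT.nd (nat_lit 156) (nat_lit 0) (nat_lit 0) (XT.nd (nat_lit 78) (nat_lit 0)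 (nat_lit 0) (XT.lf (nat_lit 0) (nat_lit 5549240504) (nat_lit 76) (nat_lit 7662928991) (nat_lit 152) (nat_lit 37573947631) (nat_lit 8) (nat_lit 5) (nat_lit 9) (nat_lit 5) (nat_lit 10) (nat_lit 4) (nat_lit 384) (nat_lit 240) (nat_lit 156)) (XT.lf (nat_lit 0) (nat_lit 13556961994) (nat_lit 76) (nat_lit 3627703012) (nat_lit 152) (nat_lit 34996102549) (nat_lit 8) (nat_lit 5) (nat_lit 9) (nat_lit 5) (nat_lit 10) (nat_lit 4) (nat_lit 385) (nat_lit 240) (nat_lit 155))) (XT.nd (nat_lit 78) (nat_lit 0) (nat_lit 0) (XT.lf (nat_lit 0) (nat_lit 21263746797) (nat_lit 152) (nat_lit 31850058220) (nat_lit 0) (nat_lit 503835772) (nat_lit 8) (nat_lit 5) (nat_lit 10) (nat_lit 4) (nat_lit 8) (nat_lit 4) (nat_lit 386) (nat_lit 240) (nat_lit 154)) (XT.lf (nat_lit 0) (nat_lit 25483963925) (nat_lit 152) (nat_lit 24940700601) (nat_lit 0) (nat_lit 4672398280) (nat_lit 8) (nat_lit 5) (nat_lit 10) (nat_lit 4) (nat_lit 8)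 (nat_lit 4) (nat_lit 387) (nat_lit 240) (nat_lit 153))))) (XT.nd (nat_lit 234) (nat_lit 76) (nat_lit 0) (XT.nd (nat_lit 78) (nat_lit 0) (nat_lit 0) (XT.lf (nat_lit 0) (nat_lit 29814132257) (nat_lit 152) (nat_lit 17854823700) (nat_lit 0) (nat_lit 8952416497) (nat_lit 8) (nat_lit 5) (nat_lit 10) (nat_lit 4) (nat_lit 8) (nat_lit 4) (nat_lit 388) (nat_lit 240) (nat_lit 152)) (XT.nd (nat_lit 78) (nat_lit 0) (nat_lit 0) (XT.lf (nat_lit 0) (nat_lit 34258035436) (nat_lit 152) (nat_lit 10586235974) (nat_lit 0) (nat_lit 13347630243) (nat_lit 8) (nat_lit 5) (nat_lit 10) (nat_lit 4) (nat_lit 8) (nat_lit 4) (nat_lit 389) (nat_lit 240) (nat_lit 151)) (XT.lf (nat_lit 0) (nat_lit 38819556485) (nat_lit 152) (nat_lit 3128586231) (nat_lit 0) (nat_lit 17861879997) (nat_lit 8) (nat_lit 5) (nat_lit 10) (nat_lit 4) (nat_lit 8) (nat_lit 4) (nat_lit 390) (nat_lit 240) (nat_lit 150)))) (XT.nd (nat_lit 156) (nat_lit 0)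 (nat_lit 0) (XT.nd (nat_lit 78) (nat_lit 0) (nat_lit 0) (XT.lf (nat_lit 0) (nat_lit 4614691168) (nat_lit 76) (nat_lit 38932349263) (nat_lit 76) (nat_lit 17928778315) (nat_lit 7) (nat_lit 4) (nat_lit 8) (nat_lit 5) (nat_lit 8) (nat_lit 4) (nat_lit 391) (nat_lit 240) (nat_lit 149)) (XT.lf (nat_lit 0) (nat_lit 12626524750) (nat_lit 76) (nat_lit 35806350754) (nat_lit 76) (nat_lit 14758222077) (nat_lit 7) (nat_lit 4) (nat_lit 8) (nat_lit 5) (nat_lit 8) (nat_lit 4) (nat_lit 392) (nat_lit 240) (nat_lit 148))) (XT.nd (nat_lit 78) (nat_lit 0) (nat_lit 0) (XT.lf (nat_lit 0) (nat_lit 20851650145) (nat_lit 76) (nat_lit 32599008321) (nat_lit 76) (nat_lit 11507619714) (nat_lit 7) (nat_lit 4) (nat_lit 8) (nat_lit 5) (nat_lit 8) (nat_lit 4) (nat_lit 393) (nat_lit 240) (nat_lit 147)) (XT.lf (nat_lit 0) (nat_lit 29297254355) (nat_lit 76) (nat_lit 29307519431) (nat_lit 76) (nat_lit 8174130891) (nat_lit 7) (nat_lit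 4) (nat_lit 8) (nat_lit 5) (nat_lit 8) (nat_lit 4) (nat_lit 394) (nat_lit 240) (nat_lit 146))))))))
noncomputable def xc58 : XT := (XT.nd (nat_lit 34008) (nat_lit 0) (nat_lit 2280) (XT.nd (nat_lit 1014) (nat_lit 0) (nat_lit 0) (XT.nd (nat_lit 468) (nat_lit 0) (nat_lit 0) (XT.nd (nat_lit 234) (nat_lit 76) (nat_lit 0) (XT.nd (nat_lit 78) (nat_lit 76) (nat_lit 0) (XT.lf (nat_lit 0) (nat_lit 37970717034) (nat_lit 76) (nat_lit 25929008027) (nat_lit 76) (nat_lit 4754842853) (nat_lit 7) (nat_lit 4) (nat_lit 8) (nat_lit 5) (nat_lit 8) (nat_lit 4) (nat_lit 395) (nat_lit 240) (nat_lit 145)) (XT.nd (nat_lit 78) (nat_lit 76) (nat_lit 0) (XT.lf (nat_lit 0) (nat_lit 46879616937) (nat_lit 76) (nat_lit 22460522010) (nat_lit 76) (nat_lit 1246767872) (nat_lit 7) (nat_lit 4) (nat_lit 8) (nat_lit 5) (nat_lit 8) (nat_lit 4) (nat_lit 396) (nat_lit 240) (nat_lit 144)) (XT.lf (nat_lit 0) (nat_lit 2307240746) (nat_lit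 152) (nat_lit 16568491311) (nat_lit 76) (nat_lit 53701199185) (nat_lit 6) (nat_lit 5) (nat_lit 8) (nat_lit 5) (nat_lit 7) (nat_lit 4) (nat_lit 397) (nat_lit 240) (nat_lit 143)))) (XT.nd (nat_lit 78) (nat_lit 76) (nat_lit 0) (XT.lf (nat_lit 0) (nat_lit 5930064501) (nat_lit 152) (nat_lit 9251475484) (nat_lit 76) (nat_lit 59445132313) (nat_lit 6) (nat_lit 5) (nat_lit 8) (nat_lit 5) (nat_lit 7) (nat_lit 4) (nat_lit 398) (nat_lit 240) (nat_lit 142)) (XT.nd (nat_lit 78) (nat_lit 76) (nat_lit 0) (XT.lf (nat_lit 0) (nat_lit 9649197900) (nat_lit 152) (nat_lit 1737864194) (nat_lit 76) (nat_lit 65351218469) (nat_lit 6) (nat_lit 5) (nat_lit 8) (nat_lit 5) (nat_lit 7) (nat_lit 4) (nat_lit 399) (nat_lit 240) (nat_lit 141)) (XT.lf (nat_lit 0) (nat_lit 6097899837) (nat_lit 76) (nat_lit 7428607578) (nat_lit 152) (nat_lit 65385335216) (nat_lit 5) (nat_lit 5) (nat_lit 6) (nat_lit 5) (nat_lit 7) (nat_lit 4) (nat_lit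 400) (nat_lit 240) (nat_lit 140))))) (XT.nd (nat_lit 234) (nat_lit 0) (nat_lit 0) (XT.nd (nat_lit 78) (nat_lit 0) (nat_lit 0) (XT.lf (nat_lit 0) (nat_lit 14182331830) (nat_lit 76) (nat_lit 3343476955) (nat_lit 152) (nat_lit 63624636109) (nat_lit 5) (nat_lit 5) (nat_lit 6) (nat_lit 5) (nat_lit 7) (nat_lit 4) (nat_lit 401) (nat_lit 240) (nat_lit 139)) (XT.nd (nat_lit 78) (nat_lit 0) (nat_lit 0) (XT.lf (nat_lit 0) (nat_lit 21641771200) (nat_lit 152) (nat_lit 60976858142) (nat_lit 0) (nat_lit 837678832) (nat_lit 5) (nat_lit 5) (nat_lit 7) (nat_lit 4) (nat_lit 5) (nat_lit 4) (nat_lit 402) (nat_lit 240) (nat_lit 138)) (XT.lf (nat_lit 0) (nat_lit 25903029532) (nat_lit 152) (nat_lit 54859981351) (nat_lit 0) (nat_lit 5067685269) (nat_lit 5) (nat_lit 5) (nat_lit 7) (nat_lit 4) (nat_lit 5) (nat_lit 4) (nat_lit 403) (nat_lit 240) (nat_lit 137)))) (XT.nd (nat_lit 156) (nat_lit 0) (nat_lit 0) (XT.nd (nat_lit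 78) (nat_lit 0) (nat_lit 0) (XT.lf (nat_lit 0) (nat_lit 30281167664) (nat_lit 152) (nat_lit 48579998301) (nat_lit 0) (nat_lit 9415481756) (nat_lit 5) (nat_lit 5) (nat_lit 7) (nat_lit 4) (nat_lit 5) (nat_lit 4) (nat_lit 404) (nat_lit 240) (nat_lit 136)) (XT.lf (nat_lit 0) (nat_lit 34780011154) (nat_lit 152) (nat_lit 42131421628) (nat_lit 0) (nat_lit 13884867338) (nat_lit 5) (nat_lit 5) (nat_lit 7) (nat_lit 4) (nat_lit 5) (nat_lit 4) (nat_lit 405) (nat_lit 240) (nat_lit 135))) (XT.nd (nat_lit 78) (nat_lit 0) (nat_lit 0) (XT.lf (nat_lit 0) (nat_lit 39403491030) (nat_lit 152) (nat_lit 35508616655) (nat_lit 0) (nat_lit 18479747304) (nat_lit 5) (nat_lit 5) (nat_lit 7) (nat_lit 4) (nat_lit 5) (nat_lit 4) (nat_lit 406) (nat_lit 240) (nat_lit 134)) (XT.lf (nat_lit 0) (nat_lit 44155647226) (nat_lit 152) (nat_lit 28705796463) (nat_lit 0) (nat_lit 23204136596) (nat_lit 5) (nat_lit 5) (nat_lit 7) (nat_lit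 4) (nat_lit 5) (nat_lit 4) (nat_lit 407) (nat_lit 240) (nat_lit 133)))))) (XT.nd (nat_lit 32448) (nat_lit 0) (nat_lit 6460) (XT.nd (nat_lit 32214) (nat_lit 0) (nat_lit 7980) (XT.nd (nat_lit 32058) (nat_lit 0) (nat_lit 9196) (XT.lf (nat_lit 0) (nat_lit 49040632112) (nat_lit 152) (nat_lit 21717016841) (nat_lit 0) (nat_lit 28062163324) (nat_lit 5) (nat_lit 5) (nat_lit 7) (nat_lit 4) (nat_lit 5) (nat_lit 4) (nat_lit 408) (nat_lit 240) (nat_lit 132)) (XT.nd (nat_lit 78) (nat_lit 76) (nat_lit 0) (XT.lf (nat_lit 0) (nat_lit 1180851252) (nat_lit 456) (nat_lit 1451823524) (nat_lit 456) (nat_lit 1451823524) (nat_lit 127) (nat_lit 4) (nat_lit 133) (nat_lit 5) (nat_lit 133) (nat_lit 4) (nat_lit 298) (nat_lit 241) (nat_lit 241)) (XT.lf (nat_lit 0) (nat_lit 564003782) (nat_lit 532) (nat_lit 40445199) (nat_lit 76) (nat_lit 7663902297) (nat_lit 126) (nat_lit 5) (nat_lit 133) (nat_lit 5) (nat_lit 127) (nat_lit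 4) (nat_lit 299) (nat_lit 241) (nat_lit 240)))) (XT.nd (nat_lit 78) (nat_lit 836) (nat_lit 0) (XT.lf (nat_lit 0) (nat_lit 4060645312) (nat_lit 456) (nat_lit 2517327273) (nat_lit 0) (nat_lit 1792470232) (nat_lit 121) (nat_lit 5) (nat_lit 127) (nat_lit 4) (nat_lit 121) (nat_lit 4) (nat_lit 300) (nat_lit 241) (nat_lit 239)) (XT.nd (nat_lit 78) (nat_lit 456) (nat_lit 0) (XT.lf (nat_lit 0) (nat_lit 3393502644) (nat_lit 380) (nat_lit 4218339428) (nat_lit 380) (nat_lit 865380245) (nat_lit 116) (nat_lit 4) (nat_lit 121) (nat_lit 5) (nat_lit 121) (nat_lit 4) (nat_lit 301) (nat_lit 241) (nat_lit 238)) (XT.lf (nat_lit 0) (nat_lit 820594201) (nat_lit 380) (nat_lit 1754155470) (nat_lit 456) (nat_lit 6013448605) (nat_lit 110) (nat_lit 5) (nat_lit 115) (nat_lit 5) (nat_lit 116) (nat_lit 4) (nat_lit 302) (nat_lit 241) (nat_lit 237))))) (XT.nd (nat_lit 234) (nat_lit 760) (nat_lit 0) (XT.nd (nat_lit 78) (nat_lit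 760) (nat_lit 0) (XT.lf (nat_lit 0) (nat_lit 6072448073) (nat_lit 456) (nat_lit 1828847088) (nat_lit 0) (nat_lit 801903715) (nat_lit 110) (nat_lit 5) (nat_lit 116) (nat_lit 4) (nat_lit 110) (nat_lit 4) (nat_lit 303) (nat_lit 241) (nat_lit 236)) (XT.nd (nat_lit 78) (nat_lit 304) (nat_lit 0) (XT.lf (nat_lit 0) (nat_lit 809456727) (nat_lit 456) (nat_lit 4591163825) (nat_lit 76) (nat_lit 3421701473) (nat_lit 104) (nat_lit 5) (nat_lit 110) (nat_lit 5) (nat_lit 105) (nat_lit 4) (nat_lit 304) (nat_lit 241) (nat_lit 235)) (XT.lf (nat_lit 0) (nat_lit 1453360142) (nat_lit 304) (nat_lit 2794652380) (nat_lit 380) (nat_lit 4697880631) (nat_lit 100) (nat_lit 5) (nat_lit 104) (nat_lit 5) (nat_lit 105) (nat_lit 4) (nat_lit 305) (nat_lit 241) (nat_lit 234)))) (XT.nd (nat_lit 156) (nat_lit 304) (nat_lit 0) (XT.nd (nat_lit 78) (nat_lit 456) (nat_lit 0) (XT.lf (nat_lit 0) (nat_lit 7659700626) (nat_lit 304) (nat_lit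 93154306) (nat_lit 380) (nat_lit 1321516002) (nat_lit 100) (nat_lit 5) (nat_lit 104) (nat_lit 5) (nat_lit 105) (nat_lit 4) (nat_lit 306) (nat_lit 241) (nat_lit 233)) (XT.lf (nat_lit 0) (nat_lit 2104795561) (nat_lit 456) (nat_lit 4426899603) (nat_lit 76) (nat_lit 2674752254) (nat_lit 94) (nat_lit 5) (nat_lit 100) (nat_lit 5) (nat_lit 95) (nat_lit 4) (nat_lit 307) (nat_lit 241) (nat_lit 232))) (XT.nd (nat_lit 78) (nat_lit 0) (nat_lit 0) (XT.lf (nat_lit 0) (nat_lit 1753459754) (nat_lit 304) (nat_lit 3805402824) (nat_lit 380) (nat_lit 3784770764) (nat_lit 90) (nat_lit 5) (nat_lit 94) (nat_lit 5) (nat_lit 95) (nat_lit 4) (nat_lit 308) (nat_lit 241) (nat_lit 231)) (XT.lf (nat_lit 0) (nat_lit 8097943550) (nat_lit 304) (nat_lit 983906736) (nat_lit 380) (nat_lit 404208598) (nat_lit 90) (nat_lit 5) (nat_lit 94) (nat_lit 5) (nat_lit 95) (nat_lit 4) (nat_lit 309) (nat_lit 241) (nat_lit 230))))))) (XT.nd (nat_lit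 1014) (nat_lit 1672) (nat_lit 0) (XT.nd (nat_lit 468) (nat_lit 1140) (nat_lit 0) (XT.nd (nat_lit 234) (nat_lit 608) (nat_lit 0) (XT.nd (nat_lit 78) (nat_lit 380) (nat_lit 0) (XT.lf (nat_lit 0) (nat_lit 3006355714) (nat_lit 380) (nat_lit 4695043189) (nat_lit 76) (nat_lit 1930889653) (nat_lit 85) (nat_lit 5) (nat_lit 90) (nat_lit 5) (nat_lit 86) (nat_lit 4) (nat_lit 310) (nat_lit 241) (nat_lit 229)) (XT.nd (nat_lit 78) (nat_lit 76) (nat_lit 0) (XT.lf (nat_lit 0) (nat_lit 1604380775) (nat_lit 304) (nat_lit 4869023782) (nat_lit 380) (nat_lit 3310587703) (nat_lit 81) (nat_lit 5) (nat_lit 85) (nat_lit 5) (nat_lit 86) (nat_lit 4) (nat_lit 311) (nat_lit 241) (nat_lit 228)) (XT.lf (nat_lit 0) (nat_lit 73396222) (nat_lit 380) (nat_lit 1863151464) (nat_lit 76) (nat_lit 8004604569) (nat_lit 80) (nat_lit 5) (nat_lit 85) (nat_lit 5) (nat_lit 81) (nat_lit 5) (nat_lit 312) (nat_lit 241) (nat_lit 227)))) (XT.nd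 (nat_lit 78) (nat_lit 304) (nat_lit 0) (XT.lf (nat_lit 0) (nat_lit 3472908401) (nat_lit 380) (nat_lit 5522891284) (nat_lit 76) (nat_lit 1106897086) (nat_lit 76) (nat_lit 5) (nat_lit 81) (nat_lit 5) (nat_lit 77) (nat_lit 4) (nat_lit 313) (nat_lit 241) (nat_lit 226)) (XT.nd (nat_lit 78) (nat_lit 76) (nat_lit 0) (XT.lf (nat_lit 0) (nat_lit 873913830) (nat_lit 228) (nat_lit 6073436608) (nat_lit 304) (nat_lit 3322616336) (nat_lit 73) (nat_lit 5) (nat_lit 76) (nat_lit 5) (nat_lit 77) (nat_lit 4) (nat_lit 314) (nat_lit 241) (nat_lit 225)) (XT.lf (nat_lit 0) (nat_lit 65148412) (nat_lit 304) (nat_lit 2976051440) (nat_lit 76) (nat_lit 7401604115) (nat_lit 72) (nat_lit 5) (nat_lit 76) (nat_lit 5) (nat_lit 73) (nat_lit 5) (nat_lit 315) (nat_lit 241) (nat_lit 224))))) (XT.nd (nat_lit 234) (nat_lit 608) (nat_lit 0) (XT.nd (nat_lit 78) (nat_lit 228) (nat_lit 0) (XT.lf (nat_lit 0) (nat_lit 3451984613) (nat_lit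 380) (nat_lit 7055617942) (nat_lit 76) (nat_lit 113371973) (nat_lit 68) (nat_lit 5) (nat_lit 73) (nat_lit 5) (nat_lit 69) (nat_lit 4) (nat_lit 316) (nat_lit 241) (nat_lit 223)) (XT.nd (nat_lit 78) (nat_lit 228) (nat_lit 0) (XT.lf (nat_lit 0) (nat_lit 6930426512) (nat_lit 380) (nat_lit 577505796) (nat_lit 76) (nat_lit 3296917839) (nat_lit 68) (nat_lit 5) (nat_lit 73) (nat_lit 5) (nat_lit 69) (nat_lit 4) (nat_lit 317) (nat_lit 241) (nat_lit 222)) (XT.lf (nat_lit 0) (nat_lit 6109783584) (nat_lit 228) (nat_lit 4393761188) (nat_lit 304) (nat_lit 491045785) (nat_lit 65) (nat_lit 5) (nat_lit 68) (nat_lit 5) (nat_lit 69) (nat_lit 4) (nat_lit 318) (nat_lit 241) (nat_lit 221)))) (XT.nd (nat_lit 156) (nat_lit 304) (nat_lit 0) (XT.nd (nat_lit 78) (nat_lit 0) (nat_lit 0) (XT.lf (nat_lit 0) (nat_lit 1719624066) (nat_lit 228) (nat_lit 1170076488) (nat_lit 304) (nat_lit 8300885514) (nat_lit 61) (nat_lit 5) (nat_lit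 64) (nat_lit 5) (nat_lit 65) (nat_lit 5) (nat_lit 319) (nat_lit 241) (nat_lit 220)) (XT.lf (nat_lit 0) (nat_lit 6364988662) (nat_lit 304) (nat_lit 2900146175) (nat_lit 76) (nat_lit 2127144360) (nat_lit 61) (nat_lit 5) (nat_lit 65) (nat_lit 5) (nat_lit 62) (nat_lit 4) (nat_lit 320) (nat_lit 241) (nat_lit 219))) (XT.nd (nat_lit 78) (nat_lit 76) (nat_lit 0) (XT.lf (nat_lit 0) (nat_lit 3828523387) (nat_lit 228) (nat_lit 6098868345) (nat_lit 304) (nat_lit 1673197422) (nat_lit 58) (nat_lit 5) (nat_lit 61) (nat_lit 5) (nat_lit 62) (nat_lit 4) (nat_lit 321) (nat_lit 241) (nat_lit 218)) (XT.lf (nat_lit 0) (nat_lit 1711044913) (nat_lit 304) (nat_lit 1115919953) (nat_lit 76) (nat_lit 8988789837) (nat_lit 57) (nat_lit 5) (nat_lit 61) (nat_lit 5) (nat_lit 58) (nat_lit 5) (nat_lit 322) (nat_lit 241) (nat_lit 217)))))) (XT.nd (nat_lit 546) (nat_lit 760) (nat_lit 0) (XT.nd (nat_lit 234) (nat_lit 532) (nat_lit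 0) (XT.nd (nat_lit 78) (nat_lit 152) (nat_lit 0) (XT.lf (nat_lit 0) (nat_lit 5160515193) (nat_lit 304) (nat_lit 6307235392) (nat_lit 76) (nat_lit 569255070) (nat_lit 54) (nat_lit 5) (nat_lit 58) (nat_lit 5) (nat_lit 55) (nat_lit 4) (nat_lit 323) (nat_lit 241) (nat_lit 216)) (XT.nd (nat_lit 78) (nat_lit 0) (nat_lit 0) (XT.lf (nat_lit 0) (nat_lit 418883124) (nat_lit 152) (nat_lit 8275146948) (nat_lit 228) (nat_lit 3571493205) (nat_lit 52) (nat_lit 5) (nat_lit 54) (nat_lit 5) (nat_lit 55) (nat_lit 4) (nat_lit 324) (nat_lit 241) (nat_lit 215)) (XT.lf (nat_lit 0) (nat_lit 7376721218) (nat_lit 152) (nat_lit 4958558997) (nat_lit 228) (nat_lit 165608936) (nat_lit 52) (nat_lit 5) (nat_lit 54) (nat_lit 5) (nat_lit 55) (nat_lit 4) (nat_lit 325) (nat_lit 241) (nat_lit 214)))) (XT.nd (nat_lit 156) (nat_lit 228) (nat_lit 0) (XT.nd (nat_lit 78) (nat_lit 0) (nat_lit 0) (XT.lf (nat_lit 0) (nat_lit 1703373478)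 (nat_lit 228) (nat_lit 1529434690) (nat_lit 304) (nat_lit 9510918610) (nat_lit 48) (nat_lit 5) (nat_lit 51) (nat_lit 5) (nat_lit 52) (nat_lit 5) (nat_lit 326) (nat_lit 241) (nat_lit 213)) (XT.lf (nat_lit 0) (nat_lit 6741048015) (nat_lit 304) (nat_lit 4271159459) (nat_lit 76) (nat_lit 1981297736) (nat_lit 48) (nat_lit 5) (nat_lit 52) (nat_lit 5) (nat_lit 49) (nat_lit 4) (nat_lit 327) (nat_lit 241) (nat_lit 212))) (XT.nd (nat_lit 78) (nat_lit 76) (nat_lit 0) (XT.lf (nat_lit 0) (nat_lit 2642144527) (nat_lit 152) (nat_lit 7694380457) (nat_lit 228) (nat_lit 2914831956) (nat_lit 46) (nat_lit 5) (nat_lit 48) (nat_lit 5) (nat_lit 49) (nat_lit 4) (nat_lit 328) (nat_lit 241) (nat_lit 211)) (XT.lf (nat_lit 0) (nat_lit 497912363) (nat_lit 228) (nat_lit 3766346085) (nat_lit 76) (nat_lit 9253016506) (nat_lit 45) (nat_lit 5) (nat_lit 48) (nat_lit 5) (nat_lit 46) (nat_lit 5) (nat_lit 329) (nat_lit 241) (nat_lit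 210))))) (XT.nd (nat_lit 234) (nat_lit 380) (nat_lit 0) (XT.nd (nat_lit 78) (nat_lit 152) (nat_lit 0) (XT.lf (nat_lit 0) (nat_lit 3222979904) (nat_lit 228) (nat_lit 705792066) (nat_lit 304) (nat_lit 9862339481) (nat_lit 42) (nat_lit 5) (nat_lit 45) (nat_lit 5) (nat_lit 46) (nat_lit 5) (nat_lit 330) (nat_lit 241) (nat_lit 209)) (XT.nd (nat_lit 78) (nat_lit 152) (nat_lit 0) (XT.lf (nat_lit 0) (nat_lit 7473171379) (nat_lit 304) (nat_lit 3694968124) (nat_lit 76) (nat_lit 2904740340) (nat_lit 42) (nat_lit 5) (nat_lit 46) (nat_lit 5) (nat_lit 43) (nat_lit 4) (nat_lit 331) (nat_lit 241) (nat_lit 208)) (XT.lf (nat_lit 0) (nat_lit 3352220186) (nat_lit 152) (nat_lit 7756289271) (nat_lit 228) (nat_lit 3255087824) (nat_lit 40) (nat_lit 5) (nat_lit 42) (nat_lit 5) (nat_lit 43) (nat_lit 4) (nat_lit 332) (nat_lit 241) (nat_lit 207)))) (XT.nd (nat_lit 156) (nat_lit 152) (nat_lit 0) (XT.nd (nat_lit 78) (nat_lit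 152) (nat_lit 0) (XT.lf (nat_lit 0) (nat_lit 169404897) (nat_lit 228) (nat_lit 4068367521) (nat_lit 76) (nat_lit 10425744145) (nat_lit 39) (nat_lit 5) (nat_lit 42) (nat_lit 5) (nat_lit 40) (nat_lit 5) (nat_lit 333) (nat_lit 241) (nat_lit 206)) (XT.lf (nat_lit 0) (nat_lit 3021485736) (nat_lit 152) (nat_lit 585909883) (nat_lit 228) (nat_lit 11364816623) (nat_lit 37) (nat_lit 5) (nat_lit 39) (nat_lit 5) (nat_lit 40) (nat_lit 5) (nat_lit 334) (nat_lit 241) (nat_lit 205))) (XT.nd (nat_lit 78) (nat_lit 152) (nat_lit 0) (XT.lf (nat_lit 0) (nat_lit 7168045449) (nat_lit 228) (nat_lit 5001006597) (nat_lit 76) (nat_lit 3120561547) (nat_lit 37) (nat_lit 5) (nat_lit 40) (nat_lit 5) (nat_lit 38) (nat_lit 4) (nat_lit 335) (nat_lit 241) (nat_lit 204)) (XT.lf (nat_lit 0) (nat_lit 2106518587) (nat_lit 152) (nat_lit 8704080556) (nat_lit 228) (nat_lit 4806714806) (nat_lit 35) (nat_lit 5) (nat_lit 37) (nat_lit 5)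 (nat_lit 38) (nat_lit 4) (nat_lit 336) (nat_lit 241) (nat_lit 203))))))))
noncomputable def xc59 : XT := (XT.nd (nat_lit 2106) (nat_lit 532) (nat_lit 0) (XT.nd (nat_lit 1014) (nat_lit 608) (nat_lit 0) (XT.nd (nat_lit 468) (nat_lit 532) (nat_lit 0) (XT.nd (nat_lit 234) (nat_lit 152) (nat_lit 0) (XT.nd (nat_lit 78) (nat_lit 228) (nat_lit 0) (XT.lf (nat_lit 0) (nat_lit 9444637309) (nat_lit 152) (nat_lit 5117992586) (nat_lit 228) (nat_lit 1392238046) (nat_lit 35) (nat_lit 5) (nat_lit 37) (nat_lit 5) (nat_lit 38) (nat_lit 4) (nat_lit 337) (nat_lit 241) (nat_lit 202)) (XT.nd (nat_lit 78) (nat_lit 0) (nat_lit 0) (XT.lf (nat_lit 0) (nat_lit 608116951) (nat_lit 152) (nat_lit 1431595989) (nat_lit 228) (nat_lit 14263554898) (nat_lit 32) (nat_lit 5) (nat_lit 34) (nat_lit 5) (nat_lit 35) (nat_lit 5) (nat_lit 338) (nat_lit 241) (nat_lit 201)) (XT.lf (nat_lit 0) (nat_lit 5586735765) (nat_lit 228) (nat_lit 8707867926)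 (nat_lit 76) (nat_lit 2365925836) (nat_lit 32) (nat_lit 5) (nat_lit 35) (nat_lit 5) (nat_lit 33) (nat_lit 4) (nat_lit 339) (nat_lit 241) (nat_lit 200)))) (XT.nd (nat_lit 78) (nat_lit 152) (nat_lit 0) (XT.lf (nat_lit 0) (nat_lit 9206738495) (nat_lit 228) (nat_lit 1606709320) (nat_lit 76) (nat_lit 6216089621) (nat_lit 32) (nat_lit 5) (nat_lit 35) (nat_lit 5) (nat_lit 33) (nat_lit 4) (nat_lit 340) (nat_lit 241) (nat_lit 199)) (XT.nd (nat_lit 78) (nat_lit 0) (nat_lit 0) (XT.lf (nat_lit 0) (nat_lit 5740305233) (nat_lit 152) (nat_lit 7203996953) (nat_lit 228) (nat_lit 4465069271) (nat_lit 30) (nat_lit 5) (nat_lit 32) (nat_lit 5) (nat_lit 33) (nat_lit 4) (nat_lit 341) (nat_lit 241) (nat_lit 198)) (XT.lf (nat_lit 0) (nat_lit 13262249747) (nat_lit 152) (nat_lit 3502341593) (nat_lit 228) (nat_lit 1036915187) (nat_lit 30) (nat_lit 5) (nat_lit 32) (nat_lit 5) (nat_lit 33) (nat_lit 4) (nat_lit 342) (nat_lit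 241) (nat_lit 197))))) (XT.nd (nat_lit 234) (nat_lit 304) (nat_lit 0) (XT.nd (nat_lit 78) (nat_lit 0) (nat_lit 0) (XT.lf (nat_lit 0) (nat_lit 2430333410) (nat_lit 228) (nat_lit 15451199557) (nat_lit 76) (nat_lit 323628496) (nat_lit 27) (nat_lit 5) (nat_lit 30) (nat_lit 5) (nat_lit 28) (nat_lit 4) (nat_lit 343) (nat_lit 241) (nat_lit 196)) (XT.nd (nat_lit 78) (nat_lit 0) (nat_lit 0) (XT.lf (nat_lit 0) (nat_lit 6017229722) (nat_lit 228) (nat_lit 8383249943) (nat_lit 76) (nat_lit 4219066200) (nat_lit 27) (nat_lit 5) (nat_lit 30) (nat_lit 5) (nat_lit 28) (nat_lit 4) (nat_lit 344) (nat_lit 241) (nat_lit 195)) (XT.lf (nat_lit 0) (nat_lit 9668532093) (nat_lit 228) (nat_lit 1178339040) (nat_lit 76) (nat_lit 8200807999) (nat_lit 27) (nat_lit 5) (nat_lit 30) (nat_lit 5) (nat_lit 28) (nat_lit 4) (nat_lit 345) (nat_lit 241) (nat_lit 194)))) (XT.nd (nat_lit 156) (nat_lit 228) (nat_lit 0) (XT.nd (nat_lit 78)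 (nat_lit 0) (nat_lit 0) (XT.lf (nat_lit 0) (nat_lit 6292620391) (nat_lit 76) (nat_lit 7155299107) (nat_lit 152) (nat_lit 6040201209) (nat_lit 26) (nat_lit 5) (nat_lit 27) (nat_lit 5) (nat_lit 28) (nat_lit 4) (nat_lit 346) (nat_lit 241) (nat_lit 193)) (XT.lf (nat_lit 0) (nat_lit 13939687528) (nat_lit 76) (nat_lit 3371485188) (nat_lit 152) (nat_lit 2631508375) (nat_lit 26) (nat_lit 5) (nat_lit 27) (nat_lit 5) (nat_lit 28) (nat_lit 4) (nat_lit 347) (nat_lit 241) (nat_lit 192))) (XT.nd (nat_lit 78) (nat_lit 0) (nat_lit 0) (XT.lf (nat_lit 0) (nat_lit 839633859) (nat_lit 228) (nat_lit 19064126329) (nat_lit 76) (nat_lit 507562925) (nat_lit 23) (nat_lit 5) (nat_lit 26) (nat_lit 5) (nat_lit 24) (nat_lit 4) (nat_lit 348) (nat_lit 241) (nat_lit 191)) (XT.lf (nat_lit 0) (nat_lit 4416212821) (nat_lit 228) (nat_lit 11982431966) (nat_lit 76) (nat_lit 4492990559) (nat_lit 23) (nat_lit 5) (nat_lit 26) (nat_lit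 5) (nat_lit 24) (nat_lit 4) (nat_lit 349) (nat_lit 241) (nat_lit 190)))))) (XT.nd (nat_lit 546) (nat_lit 304) (nat_lit 0) (XT.nd (nat_lit 234) (nat_lit 228) (nat_lit 0) (XT.nd (nat_lit 78) (nat_lit 76) (nat_lit 0) (XT.lf (nat_lit 0) (nat_lit 8060859525) (nat_lit 228) (nat_lit 4757353458) (nat_lit 76) (nat_lit 8569338698) (nat_lit 23) (nat_lit 5) (nat_lit 26) (nat_lit 5) (nat_lit 24) (nat_lit 4) (nat_lit 350) (nat_lit 241) (nat_lit 189)) (XT.nd (nat_lit 78) (nat_lit 0) (nat_lit 0) (XT.lf (nat_lit 0) (nat_lit 2669514205) (nat_lit 76) (nat_lit 9132905411) (nat_lit 152) (nat_lit 10096315998) (nat_lit 22) (nat_lit 5) (nat_lit 23) (nat_lit 5) (nat_lit 24) (nat_lit 4) (nat_lit 351) (nat_lit 241) (nat_lit 188)) (XT.lf (nat_lit 0) (nat_lit 10350311347) (nat_lit 76) (nat_lit 5316339163) (nat_lit 152) (nat_lit 6758308655) (nat_lit 22) (nat_lit 5) (nat_lit 23) (nat_lit 5) (nat_lit 24) (nat_lit 4) (nat_lit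 352) (nat_lit 241) (nat_lit 187)))) (XT.nd (nat_lit 156) (nat_lit 0) (nat_lit 0) (XT.nd (nat_lit 78) (nat_lit 228) (nat_lit 0) (XT.lf (nat_lit 0) (nat_lit 18197068682) (nat_lit 76) (nat_lit 1413219319) (nat_lit 152) (nat_lit 3357793365) (nat_lit 22) (nat_lit 5) (nat_lit 23) (nat_lit 5) (nat_lit 24) (nat_lit 4) (nat_lit 353) (nat_lit 241) (nat_lit 186)) (XT.lf (nat_lit 0) (nat_lit 157503551) (nat_lit 228) (nat_lit 20812322848) (nat_lit 76) (nat_lit 2557176773) (nat_lit 19) (nat_lit 5) (nat_lit 22) (nat_lit 5) (nat_lit 20) (nat_lit 4) (nat_lit 354) (nat_lit 241) (nat_lit 185))) (XT.nd (nat_lit 78) (nat_lit 0) (nat_lit 0) (XT.lf (nat_lit 0) (nat_lit 3737773182) (nat_lit 228) (nat_lit 13689724491) (nat_lit 76) (nat_lit 6673402476) (nat_lit 19) (nat_lit 5) (nat_lit 22) (nat_lit 5) (nat_lit 20) (nat_lit 4) (nat_lit 355) (nat_lit 241) (nat_lit 184)) (XT.lf (nat_lit 0) (nat_lit 7390844085) (nat_lit 228)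 (nat_lit 6415106089) (nat_lit 76) (nat_lit 10887116579) (nat_lit 19) (nat_lit 5) (nat_lit 22) (nat_lit 5) (nat_lit 20) (nat_lit 4) (nat_lit 356) (nat_lit 241) (nat_lit 183))))) (XT.nd (nat_lit 234) (nat_lit 228) (nat_lit 0) (XT.nd (nat_lit 78) (nat_lit 0) (nat_lit 0) (XT.lf (nat_lit 0) (nat_lit 1038146805) (nat_lit 76) (nat_lit 10091740758) (nat_lit 152) (nat_lit 14173833465) (nat_lit 18) (nat_lit 5) (nat_lit 19) (nat_lit 5) (nat_lit 20) (nat_lit 4) (nat_lit 357) (nat_lit 241) (nat_lit 182)) (XT.nd (nat_lit 78) (nat_lit 0) (nat_lit 0) (XT.lf (nat_lit 0) (nat_lit 8787225510) (nat_lit 76) (nat_lit 6225466795) (nat_lit 152) (nat_lit 10919068606) (nat_lit 18) (nat_lit 5) (nat_lit 19) (nat_lit 5) (nat_lit 20) (nat_lit 4) (nat_lit 358) (nat_lit 241) (nat_lit 181)) (XT.lf (nat_lit 0) (nat_lit 16711227876) (nat_lit 76) (nat_lit 2268529978) (nat_lit 152) (nat_lit 7599864114) (nat_lit 18) (nat_lit 5) (nat_lit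 19) (nat_lit 5) (nat_lit 20) (nat_lit 4) (nat_lit 359) (nat_lit 241) (nat_lit 180)))) (XT.nd (nat_lit 156) (nat_lit 76) (nat_lit 0) (XT.nd (nat_lit 78) (nat_lit 152) (nat_lit 0) (XT.lf (nat_lit 0) (nat_lit 23051685321) (nat_lit 152) (nat_lit 2447927248) (nat_lit 0) (nat_lit 1747743682) (nat_lit 18) (nat_lit 5) (nat_lit 20) (nat_lit 4) (nat_lit 18) (nat_lit 4) (nat_lit 360) (nat_lit 241) (nat_lit 179)) (XT.lf (nat_lit 0) (nat_lit 5219606811) (nat_lit 152) (nat_lit 22068195496) (nat_lit 152) (nat_lit 646071823) (nat_lit 16) (nat_lit 4) (nat_lit 18) (nat_lit 5) (nat_lit 18) (nat_lit 4) (nat_lit 361) (nat_lit 241) (nat_lit 178))) (XT.nd (nat_lit 78) (nat_lit 0) (nat_lit 0) (XT.lf (nat_lit 0) (nat_lit 2945697126) (nat_lit 228) (nat_lit 15557098344) (nat_lit 76) (nat_lit 10137503307) (nat_lit 15) (nat_lit 5) (nat_lit 18) (nat_lit 5) (nat_lit 16) (nat_lit 4) (nat_lit 362) (nat_lit 241) (nat_lit 177))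 (XT.lf (nat_lit 0) (nat_lit 6602577524) (nat_lit 228) (nat_lit 8245029037) (nat_lit 76) (nat_lit 14521018841) (nat_lit 15) (nat_lit 5) (nat_lit 18) (nat_lit 5) (nat_lit 16) (nat_lit 4) (nat_lit 363) (nat_lit 241) (nat_lit 176))))))) (XT.nd (nat_lit 1014) (nat_lit 228) (nat_lit 0) (XT.nd (nat_lit 468) (nat_lit 152) (nat_lit 0) (XT.nd (nat_lit 234) (nat_lit 76) (nat_lit 0) (XT.nd (nat_lit 78) (nat_lit 76) (nat_lit 0) (XT.lf (nat_lit 0) (nat_lit 10340371892) (nat_lit 228) (nat_lit 765459772) (nat_lit 76) (nat_lit 19013845056) (nat_lit 15) (nat_lit 5) (nat_lit 18) (nat_lit 5) (nat_lit 16) (nat_lit 4) (nat_lit 364) (nat_lit 241) (nat_lit 175)) (XT.nd (nat_lit 78) (nat_lit 0) (nat_lit 0) (XT.lf (nat_lit 0) (nat_lit 7025232586) (nat_lit 76) (nat_lit 7204644511) (nat_lit 152) (nat_lit 16662205969) (nat_lit 14) (nat_lit 5) (nat_lit 15) (nat_lit 5) (nat_lit 16) (nat_lit 4) (nat_lit 365) (nat_lit 241) (nat_lit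 174)) (XT.lf (nat_lit 0) (nat_lit 15015478958) (nat_lit 76) (nat_lit 3200699238) (nat_lit 152) (nat_lit 13472090566) (nat_lit 14) (nat_lit 5) (nat_lit 15) (nat_lit 5) (nat_lit 16) (nat_lit 4) (nat_lit 366) (nat_lit 241) (nat_lit 173)))) (XT.nd (nat_lit 78) (nat_lit 76) (nat_lit 0) (XT.lf (nat_lit 0) (nat_lit 22303922255) (nat_lit 152) (nat_lit 9320796074) (nat_lit 0) (nat_lit 884176260) (nat_lit 14) (nat_lit 5) (nat_lit 16) (nat_lit 4) (nat_lit 14) (nat_lit 4) (nat_lit 367) (nat_lit 241) (nat_lit 172)) (XT.nd (nat_lit 78) (nat_lit 76) (nat_lit 0) (XT.lf (nat_lit 0) (nat_lit 26519753757) (nat_lit 152) (nat_lit 1827517887) (nat_lit 0) (nat_lit 5006713773) (nat_lit 14) (nat_lit 5) (nat_lit 16) (nat_lit 4) (nat_lit 14) (nat_lit 4) (nat_lit 368) (nat_lit 241) (nat_lit 171)) (XT.lf (nat_lit 0) (nat_lit 5960673569) (nat_lit 76) (nat_lit 24933213431) (nat_lit 76) (nat_lit 3329596760) (nat_lit 13) (nat_lit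 4) (nat_lit 14) (nat_lit 5) (nat_lit 14) (nat_lit 4) (nat_lit 369) (nat_lit 241) (nat_lit 170))))) (XT.nd (nat_lit 234) (nat_lit 76) (nat_lit 0) (XT.nd (nat_lit 78) (nat_lit 0) (nat_lit 0) (XT.lf (nat_lit 0) (nat_lit 267919941) (nat_lit 152) (nat_lit 21147677721) (nat_lit 76) (nat_lit 13703601336) (nat_lit 12) (nat_lit 5) (nat_lit 14) (nat_lit 5) (nat_lit 13) (nat_lit 4) (nat_lit 370) (nat_lit 241) (nat_lit 169)) (XT.nd (nat_lit 78) (nat_lit 0) (nat_lit 0) (XT.lf (nat_lit 0) (nat_lit 3881754096) (nat_lit 152) (nat_lit 13896971603) (nat_lit 76) (nat_lit 18262820378) (nat_lit 12) (nat_lit 5) (nat_lit 14) (nat_lit 5) (nat_lit 13) (nat_lit 4) (nat_lit 371) (nat_lit 241) (nat_lit 168)) (XT.lf (nat_lit 0) (nat_lit 7580035848) (nat_lit 152) (nat_lit 6472350147) (nat_lit 76) (nat_lit 22939905119) (nat_lit 12) (nat_lit 5) (nat_lit 14) (nat_lit 5) (nat_lit 13) (nat_lit 4) (nat_lit 372) (nat_lit 241) (nat_lit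 167)))) (XT.nd (nat_lit 156) (nat_lit 0) (nat_lit 0) (XT.nd (nat_lit 78) (nat_lit 0) (nat_lit 0) (XT.lf (nat_lit 0) (nat_lit 1155216615) (nat_lit 76) (nat_lit 10221884739) (nat_lit 152) (nat_lit 26594830366) (nat_lit 11) (nat_lit 5) (nat_lit 12) (nat_lit 5) (nat_lit 13) (nat_lit 4) (nat_lit 373) (nat_lit 241) (nat_lit 166)) (XT.lf (nat_lit 0) (nat_lit 9102366497) (nat_lit 76) (nat_lit 6228075807) (nat_lit 152) (nat_lit 23649256369) (nat_lit 11) (nat_lit 5) (nat_lit 12) (nat_lit 5) (nat_lit 13) (nat_lit 4) (nat_lit 374) (nat_lit 241) (nat_lit 165))) (XT.nd (nat_lit 78) (nat_lit 0) (nat_lit 0) (XT.lf (nat_lit 0) (nat_lit 17247231151) (nat_lit 76) (nat_lit 2132827510) (nat_lit 152) (nat_lit 20638317518) (nat_lit 11) (nat_lit 5) (nat_lit 12) (nat_lit 5) (nat_lit 13) (nat_lit 4) (nat_lit 375) (nat_lit 241) (nat_lit 164)) (XT.lf (nat_lit 0) (nat_lit 23549362408) (nat_lit 152) (nat_lit 15511817856) (nat_lit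 0) (nat_lit 2027095352) (nat_lit 11) (nat_lit 5) (nat_lit 13) (nat_lit 4) (nat_lit 11) (nat_lit 4) (nat_lit 376) (nat_lit 241) (nat_lit 163)))))) (XT.nd (nat_lit 546) (nat_lit 76) (nat_lit 0) (XT.nd (nat_lit 234) (nat_lit 76) (nat_lit 0) (XT.nd (nat_lit 78) (nat_lit 76) (nat_lit 0) (XT.lf (nat_lit 0) (nat_lit 27843652594) (nat_lit 152) (nat_lit 8094663527) (nat_lit 0) (nat_lit 6251966049) (nat_lit 11) (nat_lit 5) (nat_lit 13) (nat_lit 4) (nat_lit 11) (nat_lit 4) (nat_lit 377) (nat_lit 241) (nat_lit 162)) (XT.nd (nat_lit 78) (nat_lit 76) (nat_lit 0) (XT.lf (nat_lit 0) (nat_lit 32246179468) (nat_lit 152) (nat_lit 492698989) (nat_lit 0) (nat_lit 10587095361) (nat_lit 11) (nat_lit 5) (nat_lit 13) (nat_lit 4) (nat_lit 11) (nat_lit 4) (nat_lit 378) (nat_lit 241) (nat_lit 161)) (XT.lf (nat_lit 0) (nat_lit 7446016859) (nat_lit 76) (nat_lit 29386348709) (nat_lit 76) (nat_lit 7661830075) (nat_lit 10) (nat_lit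 4) (nat_lit 11) (nat_lit 5) (nat_lit 11) (nat_lit 4) (nat_lit 379) (nat_lit 241) (nat_lit 160)))) (XT.nd (nat_lit 156) (nat_lit 76) (nat_lit 0) (XT.nd (nat_lit 78) (nat_lit 0) (nat_lit 0) (XT.lf (nat_lit 0) (nat_lit 15596746681) (nat_lit 76) (nat_lit 25944607483) (nat_lit 76) (nat_lit 4156560182) (nat_lit 10) (nat_lit 4) (nat_lit 11) (nat_lit 5) (nat_lit 11) (nat_lit 4) (nat_lit 380) (nat_lit 241) (nat_lit 159)) (XT.lf (nat_lit 0) (nat_lit 23956806796) (nat_lit 76) (nat_lit 22415622725) (nat_lit 76) (nat_lit 565897107) (nat_lit 10) (nat_lit 4) (nat_lit 11) (nat_lit 5) (nat_lit 11) (nat_lit 4) (nat_lit 381) (nat_lit 241) (nat_lit 158))) (XT.nd (nat_lit 78) (nat_lit 0) (nat_lit 0) (XT.lf (nat_lit 0) (nat_lit 3052544990) (nat_lit 152) (nat_lit 15712941147) (nat_lit 76) (nat_lit 29450132401) (nat_lit 9) (nat_lit 5) (nat_lit 11) (nat_lit 5) (nat_lit 10) (nat_lit 4) (nat_lit 382) (nat_lit 241) (nat_lit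 157)) (XT.lf (nat_lit 0) (nat_lit 6749899597) (nat_lit 152) (nat_lit 8265449025) (nat_lit 76) (nat_lit 34516266478) (nat_lit 9) (nat_lit 5) (nat_lit 11) (nat_lit 5) (nat_lit 10) (nat_lit 4) (nat_lit 383) (nat_lit 241) (nat_lit 156))))) (XT.nd (nat_lit 234) (nat_lit 0) (nat_lit 0) (XT.nd (nat_lit 78) (nat_lit 76) (nat_lit 0) (XT.lf (nat_lit 0) (nat_lit 10540440101) (nat_lit 152) (nat_lit 627096200) (nat_lit 76) (nat_lit 39720093104) (nat_lit 9) (nat_lit 5) (nat_lit 11) (nat_lit 5) (nat_lit 10) (nat_lit 4) (nat_lit 384) (nat_lit 241) (nat_lit 155)) (XT.nd (nat_lit 78) (nat_lit 0) (nat_lit 0) (XT.lf (nat_lit 0) (nat_lit 7352260705) (nat_lit 76) (nat_lit 7145892347) (nat_lit 152) (nat_lit 37784573035) (nat_lit 8) (nat_lit 5) (nat_lit 9) (nat_lit 5) (nat_lit 10) (nat_lit 4) (nat_lit 385) (nat_lit 241) (nat_lit 154)) (XT.lf (nat_lit 0) (nat_lit 15552547539) (nat_lit 76) (nat_lit 3011364672) (nat_lit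 152) (nat_lit 35156089485) (nat_lit 8) (nat_lit 5) (nat_lit 9) (nat_lit 5) (nat_lit 10) (nat_lit 4) (nat_lit 386) (nat_lit 241) (nat_lit 153)))) (XT.nd (nat_lit 156) (nat_lit 0) (nat_lit 0) (XT.nd (nat_lit 78) (nat_lit 0) (nat_lit 0) (XT.lf (nat_lit 0) (nat_lit 22746977673) (nat_lit 152) (nat_lit 31244302881) (nat_lit 0) (nat_lit 1209260324) (nat_lit 8) (nat_lit 5) (nat_lit 10) (nat_lit 4) (nat_lit 8) (nat_lit 4) (nat_lit 387) (nat_lit 241) (nat_lit 152)) (XT.lf (nat_lit 0) (nat_lit 27069180388) (nat_lit 152) (nat_lit 24173138040) (nat_lit 0) (nat_lit 5482773606) (nat_lit 8) (nat_lit 5) (nat_lit 10) (nat_lit 4) (nat_lit 8) (nat_lit 4) (nat_lit 388) (nat_lit 241) (nat_lit 151))) (XT.nd (nat_lit 78) (nat_lit 0) (nat_lit 0) (XT.lf (nat_lit 0) (nat_lit 31505349959) (nat_lit 152) (nat_lit 16918833868) (nat_lit 0) (nat_lit 9871671882) (nat_lit 8) (nat_lit 5) (nat_lit 10) (nat_lit 4) (nat_lit 8) (nat_lit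 4) (nat_lit 389) (nat_lit 241) (nat_lit 150)) (XT.lf (nat_lit 0) (nat_lit 36059362649) (nat_lit 152) (nat_lit 9475051653) (nat_lit 0) (nat_lit 14379790112) (nat_lit 8) (nat_lit 5) (nat_lit 10) (nat_lit 4) (nat_lit 8) (nat_lit 4) (nat_lit 390) (nat_lit 241) (nat_lit 149))))))))
noncomputable def xc60 : XT := (XT.nd (nat_lit 33852) (nat_lit 0) (nat_lit 2812) (XT.nd (nat_lit 1014) (nat_lit 0) (nat_lit 0) (XT.nd (nat_lit 468) (nat_lit 152) (nat_lit 0) (XT.nd (nat_lit 234) (nat_lit 0) (nat_lit 0) (XT.nd (nat_lit 78) (nat_lit 76) (nat_lit 0) (XT.lf (nat_lit 0) (nat_lit 40735197693) (nat_lit 152) (nat_lit 1835287118) (nat_lit 0) (nat_lit 19011067428) (nat_lit 8) (nat_lit 5) (nat_lit 10) (nat_lit 4) (nat_lit 8) (nat_lit 4) (nat_lit 391) (nat_lit 241) (nat_lit 148)) (XT.nd (nat_lit 78) (nat_lit 0) (nat_lit 0) (XT.lf (nat_lit 0) (nat_lit 6126689027) (nat_lit 76) (nat_lit 39469145228) (nat_lit 76) (nat_lit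 17701755032) (nat_lit 7) (nat_lit 4) (nat_lit 8) (nat_lit 5) (nat_lit 8) (nat_lit 4) (nat_lit 392) (nat_lit 241) (nat_lit 147)) (XT.lf (nat_lit 0) (nat_lit 14338871099) (nat_lit 76) (nat_lit 36267750488) (nat_lit 76) (nat_lit 14458360359) (nat_lit 7) (nat_lit 4) (nat_lit 8) (nat_lit 5) (nat_lit 8) (nat_lit 4) (nat_lit 393) (nat_lit 241) (nat_lit 146)))) (XT.nd (nat_lit 78) (nat_lit 0) (nat_lit 0) (XT.lf (nat_lit 0) (nat_lit 22771908975) (nat_lit 76) (nat_lit 32982036057) (nat_lit 76) (nat_lit 11131869294) (nat_lit 7) (nat_lit 4) (nat_lit 8) (nat_lit 5) (nat_lit 8) (nat_lit 4) (nat_lit 394) (nat_lit 241) (nat_lit 145)) (XT.nd (nat_lit 78) (nat_lit 0) (nat_lit 0) (XT.lf (nat_lit 0) (nat_lit 31433171331) (nat_lit 76) (nat_lit 29609130923) (nat_lit 76) (nat_lit 7719375196) (nat_lit 7) (nat_lit 4) (nat_lit 8) (nat_lit 5) (nat_lit 8) (nat_lit 4) (nat_lit 395) (nat_lit 241) (nat_lit 144)) (XT.lf (nat_lit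 0) (nat_lit 40330226259) (nat_lit 76) (nat_lit 26146087888) (nat_lit 76) (nat_lit 4217896273) (nat_lit 7) (nat_lit 4) (nat_lit 8) (nat_lit 5) (nat_lit 8) (nat_lit 4) (nat_lit 396) (nat_lit 241) (nat_lit 143))))) (XT.nd (nat_lit 234) (nat_lit 76) (nat_lit 0) (XT.nd (nat_lit 78) (nat_lit 76) (nat_lit 0) (XT.lf (nat_lit 0) (nat_lit 49470847886) (nat_lit 76) (nat_lit 22589880991) (nat_lit 76) (nat_lit 624372980) (nat_lit 7) (nat_lit 4) (nat_lit 8) (nat_lit 5) (nat_lit 8) (nat_lit 4) (nat_lit 397) (nat_lit 241) (nat_lit 142)) (XT.nd (nat_lit 78) (nat_lit 0) (nat_lit 0) (XT.lf (nat_lit 0) (nat_lit 3004538448) (nat_lit 152) (nat_lit 15902524472) (nat_lit 76) (nat_lit 55828144767) (nat_lit 6) (nat_lit 5) (nat_lit 8) (nat_lit 5) (nat_lit 7) (nat_lit 4) (nat_lit 398) (nat_lit 241) (nat_lit 141)) (XT.lf (nat_lit 0) (nat_lit 6717753310) (nat_lit 152) (nat_lit 8399872584) (nat_lit 76) (nat_lit 61729369396)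 (nat_lit 6) (nat_lit 5) (nat_lit 8) (nat_lit 5) (nat_lit 7) (nat_lit 4) (nat_lit 399) (nat_lit 241) (nat_lit 140)))) (XT.nd (nat_lit 156) (nat_lit 0) (nat_lit 0) (XT.nd (nat_lit 78) (nat_lit 76) (nat_lit 0) (XT.lf (nat_lit 0) (nat_lit 10530699928) (nat_lit 152) (nat_lit 693740738) (nat_lit 76) (nat_lit 67798049307) (nat_lit 6) (nat_lit 5) (nat_lit 8) (nat_lit 5) (nat_lit 7) (nat_lit 4) (nat_lit 400) (nat_lit 241) (nat_lit 139)) (XT.lf (nat_lit 0) (nat_lit 7366348573) (nat_lit 76) (nat_lit 7151171279) (nat_lit 152) (nat_lit 66743948507) (nat_lit 5) (nat_lit 5) (nat_lit 6) (nat_lit 5) (nat_lit 7) (nat_lit 4) (nat_lit 401) (nat_lit 241) (nat_lit 138))) (XT.nd (nat_lit 78) (nat_lit 0) (nat_lit 0) (XT.lf (nat_lit 0) (nat_lit 15661696680) (nat_lit 76) (nat_lit 2958058423) (nat_lit 152) (nat_lit 64947989983) (nat_lit 5) (nat_lit 5) (nat_lit 6) (nat_lit 5) (nat_lit 7) (nat_lit 4) (nat_lit 402) (nat_lit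 241) (nat_lit 137)) (XT.lf (nat_lit 0) (nat_lit 22847180762) (nat_lit 152) (nat_lit 61770786231) (nat_lit 0) (nat_lit 1325182632) (nat_lit 5) (nat_lit 5) (nat_lit 7) (nat_lit 4) (nat_lit 5) (nat_lit 4) (nat_lit 403) (nat_lit 241) (nat_lit 136)))))) (XT.nd (nat_lit 32292) (nat_lit 0) (nat_lit 7980) (XT.nd (nat_lit 234) (nat_lit 0) (nat_lit 0) (XT.nd (nat_lit 78) (nat_lit 0) (nat_lit 0) (XT.lf (nat_lit 0) (nat_lit 27220078113) (nat_lit 152) (nat_lit 55500559767) (nat_lit 0) (nat_lit 5668622075) (nat_lit 5) (nat_lit 5) (nat_lit 7) (nat_lit 4) (nat_lit 5) (nat_lit 4) (nat_lit 404) (nat_lit 241) (nat_lit 135)) (XT.nd (nat_lit 78) (nat_lit 0) (nat_lit 0) (XT.lf (nat_lit 0) (nat_lit 31713833466) (nat_lit 152) (nat_lit 49061455507) (nat_lit 0) (nat_lit 10133777517) (nat_lit 5) (nat_lit 5) (nat_lit 7) (nat_lit 4) (nat_lit 5) (nat_lit 4) (nat_lit 405) (nat_lit 241) (nat_lit 134)) (XT.lf (nat_lit 0) (nat_lit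 36332373403) (nat_lit 152) (nat_lit 42447847052) (nat_lit 0) (nat_lit 14724550551) (nat_lit 5) (nat_lit 5) (nat_lit 7) (nat_lit 4) (nat_lit 5) (nat_lit 4) (nat_lit 406) (nat_lit 241) (nat_lit 133)))) (XT.nd (nat_lit 78) (nat_lit 0) (nat_lit 0) (XT.lf (nat_lit 0) (nat_lit 41079733542) (nat_lit 152) (nat_lit 35653955518) (nat_lit 0) (nat_lit 19444952532) (nat_lit 5) (nat_lit 5) (nat_lit 7) (nat_lit 4) (nat_lit 5) (nat_lit 4) (nat_lit 407) (nat_lit 241) (nat_lit 132)) (XT.nd (nat_lit 31902) (nat_lit 0) (nat_lit 10260) (XT.lf (nat_lit 0) (nat_lit 45960062061) (nat_lit 152) (nat_lit 28673844496) (nat_lit 0) (nat_lit 24299108082) (nat_lit 5) (nat_lit 5) (nat_lit 7) (nat_lit 4) (nat_lit 5) (nat_lit 4) (nat_lit 408) (nat_lit 241) (nat_lit 131)) (XT.lf (nat_lit 0) (nat_lit 3500864406) (nat_lit 532) (nat_lit 245148680) (nat_lit 532) (nat_lit 245148680) (nat_lit 140) (nat_lit 4) (nat_lit 147) (nat_lit 5)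 (nat_lit 147) (nat_lit 4) (nat_lit 296) (nat_lit 242) (nat_lit 242))))) (XT.nd (nat_lit 234) (nat_lit 1216) (nat_lit 0) (XT.nd (nat_lit 78) (nat_lit 532) (nat_lit 0) (XT.lf (nat_lit 0) (nat_lit 2955606295) (nat_lit 532) (nat_lit 3383913252) (nat_lit 0) (nat_lit 1734672230) (nat_lit 133) (nat_lit 5) (nat_lit 140) (nat_lit 4) (nat_lit 133) (nat_lit 4) (nat_lit 297) (nat_lit 242) (nat_lit 241)) (XT.nd (nat_lit 78) (nat_lit 76) (nat_lit 0) (XT.lf (nat_lit 0) (nat_lit 2304829487) (nat_lit 456) (nat_lit 4135950506) (nat_lit 456) (nat_lit 1729643563) (nat_lit 127) (nat_lit 4) (nat_lit 133) (nat_lit 5) (nat_lit 133) (nat_lit 4) (nat_lit 298) (nat_lit 242) (nat_lit 240)) (XT.lf (nat_lit 0) (nat_lit 1670423673) (nat_lit 532) (nat_lit 166194340) (nat_lit 76) (nat_lit 6434220195) (nat_lit 126) (nat_lit 5) (nat_lit 133) (nat_lit 5) (nat_lit 127) (nat_lit 4) (nat_lit 299) (nat_lit 242) (nat_lit 239)))) (XT.nd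 (nat_lit 156) (nat_lit 380) (nat_lit 0) (XT.nd (nat_lit 78) (nat_lit 456) (nat_lit 0) (XT.lf (nat_lit 0) (nat_lit 5109955334) (nat_lit 456) (nat_lit 2693121033) (nat_lit 0) (nat_lit 571623274) (nat_lit 121) (nat_lit 5) (nat_lit 127) (nat_lit 4) (nat_lit 121) (nat_lit 4) (nat_lit 300) (nat_lit 242) (nat_lit 238)) (XT.lf (nat_lit 0) (nat_lit 130664296) (nat_lit 456) (nat_lit 5326271986) (nat_lit 76) (nat_lit 3025909469) (nat_lit 115) (nat_lit 5) (nat_lit 121) (nat_lit 5) (nat_lit 116) (nat_lit 4) (nat_lit 301) (nat_lit 242) (nat_lit 237))) (XT.nd (nat_lit 78) (nat_lit 0) (nat_lit 0) (XT.lf (nat_lit 0) (nat_lit 508050366) (nat_lit 380) (nat_lit 3000365364) (nat_lit 456) (nat_lit 5086572972) (nat_lit 110) (nat_lit 5) (nat_lit 115) (nat_lit 5) (nat_lit 116) (nat_lit 4) (nat_lit 302) (nat_lit 242) (nat_lit 236)) (XT.lf (nat_lit 0) (nat_lit 6514876353) (nat_lit 380) (nat_lit 441597067) (nat_lit 456)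 (nat_lit 1755055391) (nat_lit 110) (nat_lit 5) (nat_lit 115) (nat_lit 5) (nat_lit 116) (nat_lit 4) (nat_lit 303) (nat_lit 242) (nat_lit 235))))))) (XT.nd (nat_lit 1014) (nat_lit 1976) (nat_lit 0) (XT.nd (nat_lit 468) (nat_lit 1596) (nat_lit 0) (XT.nd (nat_lit 234) (nat_lit 836) (nat_lit 0) (XT.nd (nat_lit 78) (nat_lit 304) (nat_lit 0) (XT.lf (nat_lit 0) (nat_lit 1618500939) (nat_lit 456) (nat_lit 5035395825) (nat_lit 76) (nat_lit 2178036960) (nat_lit 104) (nat_lit 5) (nat_lit 110) (nat_lit 5) (nat_lit 105) (nat_lit 4) (nat_lit 304) (nat_lit 242) (nat_lit 234)) (XT.nd (nat_lit 78) (nat_lit 0) (nat_lit 0) (XT.lf (nat_lit 0) (nat_lit 944309931) (nat_lit 304) (nat_lit 4067390695) (nat_lit 380) (nat_lit 3945210928) (nat_lit 100) (nat_lit 5) (nat_lit 104) (nat_lit 5) (nat_lit 105) (nat_lit 4) (nat_lit 305) (nat_lit 242) (nat_lit 233)) (XT.lf (nat_lit 0) (nat_lit 7096303694) (nat_lit 304) (nat_lit 1380432651)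 (nat_lit 380) (nat_lit 609891870) (nat_lit 100) (nat_lit 5) (nat_lit 104) (nat_lit 5) (nat_lit 105) (nat_lit 4) (nat_lit 306) (nat_lit 242) (nat_lit 232)))) (XT.nd (nat_lit 78) (nat_lit 380) (nat_lit 0) (XT.lf (nat_lit 0) (nat_lit 2744717220) (nat_lit 456) (nat_lit 5076582950) (nat_lit 76) (nat_lit 1398975911) (nat_lit 94) (nat_lit 5) (nat_lit 100) (nat_lit 5) (nat_lit 95) (nat_lit 4) (nat_lit 307) (nat_lit 242) (nat_lit 231)) (XT.nd (nat_lit 78) (nat_lit 76) (nat_lit 0) (XT.lf (nat_lit 0) (nat_lit 1035657546) (nat_lit 304) (nat_lit 5117641814) (nat_lit 380) (nat_lit 3205568076) (nat_lit 90) (nat_lit 5) (nat_lit 94) (nat_lit 5) (nat_lit 95) (nat_lit 4) (nat_lit 308) (nat_lit 242) (nat_lit 230)) (XT.lf (nat_lit 0) (nat_lit 133188253) (nat_lit 380) (nat_lit 2177217830) (nat_lit 76) (nat_lit 7192026703) (nat_lit 89) (nat_lit 5) (nat_lit 94) (nat_lit 5) (nat_lit 90) (nat_lit 5) (nat_lit 309) (nat_lit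 242) (nat_lit 229))))) (XT.nd (nat_lit 234) (nat_lit 912) (nat_lit 0) (XT.nd (nat_lit 78) (nat_lit 380) (nat_lit 0) (XT.lf (nat_lit 0) (nat_lit 3477356068) (nat_lit 380) (nat_lit 5562381761) (nat_lit 76) (nat_lit 610600750) (nat_lit 85) (nat_lit 5) (nat_lit 90) (nat_lit 5) (nat_lit 86) (nat_lit 4) (nat_lit 310) (nat_lit 242) (nat_lit 228)) (XT.nd (nat_lit 78) (nat_lit 76) (nat_lit 0) (XT.lf (nat_lit 0) (nat_lit 665450764) (nat_lit 304) (nat_lit 6233088856) (nat_lit 380) (nat_lit 2904914949) (nat_lit 81) (nat_lit 5) (nat_lit 85) (nat_lit 5) (nat_lit 86) (nat_lit 4) (nat_lit 311) (nat_lit 242) (nat_lit 227)) (XT.lf (nat_lit 0) (nat_lit 434485352) (nat_lit 380) (nat_lit 2878954638) (nat_lit 76) (nat_lit 6648191854) (nat_lit 80) (nat_lit 5) (nat_lit 85) (nat_lit 5) (nat_lit 81) (nat_lit 5) (nat_lit 312) (nat_lit 242) (nat_lit 226)))) (XT.nd (nat_lit 156) (nat_lit 608) (nat_lit 0) (XT.nd (nat_lit 78)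 (nat_lit 0) (nat_lit 0) (XT.lf (nat_lit 0) (nat_lit 3501976670) (nat_lit 304) (nat_lit 275101232) (nat_lit 380) (nat_lit 6347839291) (nat_lit 76) (nat_lit 5) (nat_lit 80) (nat_lit 5) (nat_lit 81) (nat_lit 5) (nat_lit 313) (nat_lit 242) (nat_lit 225)) (XT.lf (nat_lit 0) (nat_lit 7205260263) (nat_lit 380) (nat_lit 292914008) (nat_lit 76) (nat_lit 2795432994) (nat_lit 76) (nat_lit 5) (nat_lit 81) (nat_lit 5) (nat_lit 77) (nat_lit 4) (nat_lit 314) (nat_lit 242) (nat_lit 224))) (XT.nd (nat_lit 78) (nat_lit 304) (nat_lit 0) (XT.lf (nat_lit 0) (nat_lit 256884555) (nat_lit 304) (nat_lit 4227243614) (nat_lit 76) (nat_lit 5983418007) (nat_lit 72) (nat_lit 5) (nat_lit 76) (nat_lit 5) (nat_lit 73) (nat_lit 5) (nat_lit 315) (nat_lit 242) (nat_lit 223)) (XT.lf (nat_lit 0) (nat_lit 2238338981) (nat_lit 304) (nat_lit 1357462772) (nat_lit 380) (nat_lit 7051382090) (nat_lit 68) (nat_lit 5) (nat_lit 72) (nat_lit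 5) (nat_lit 73) (nat_lit 5) (nat_lit 316) (nat_lit 242) (nat_lit 222)))))) (XT.nd (nat_lit 546) (nat_lit 912) (nat_lit 0) (XT.nd (nat_lit 234) (nat_lit 532) (nat_lit 0) (XT.nd (nat_lit 78) (nat_lit 532) (nat_lit 0) (XT.lf (nat_lit 0) (nat_lit 7027496431) (nat_lit 380) (nat_lit 1969107606) (nat_lit 76) (nat_lit 1835886520) (nat_lit 68) (nat_lit 5) (nat_lit 73) (nat_lit 5) (nat_lit 69) (nat_lit 4) (nat_lit 317) (nat_lit 242) (nat_lit 221)) (XT.nd (nat_lit 78) (nat_lit 304) (nat_lit 0) (XT.lf (nat_lit 0) (nat_lit 4639566671) (nat_lit 228) (nat_lit 5914198445) (nat_lit 304) (nat_lit 469899181) (nat_lit 65) (nat_lit 5) (nat_lit 68) (nat_lit 5) (nat_lit 69) (nat_lit 4) (nat_lit 318) (nat_lit 242) (nat_lit 220)) (XT.lf (nat_lit 0) (nat_lit 139178805) (nat_lit 228) (nat_lit 2723478553) (nat_lit 304) (nat_lit 8358455910) (nat_lit 61) (nat_lit 5) (nat_lit 64) (nat_lit 5) (nat_lit 65) (nat_lit 5) (nat_lit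 319) (nat_lit 242) (nat_lit 219)))) (XT.nd (nat_lit 156) (nat_lit 304) (nat_lit 0) (XT.nd (nat_lit 78) (nat_lit 228) (nat_lit 0) (XT.lf (nat_lit 0) (nat_lit 6290732079) (nat_lit 304) (nat_lit 4546626831) (nat_lit 76) (nat_lit 586889368) (nat_lit 61) (nat_lit 5) (nat_lit 65) (nat_lit 5) (nat_lit 62) (nat_lit 4) (nat_lit 320) (nat_lit 242) (nat_lit 218)) (XT.lf (nat_lit 0) (nat_lit 2099328606) (nat_lit 228) (nat_lit 7705843556) (nat_lit 304) (nat_lit 1828849699) (nat_lit 58) (nat_lit 5) (nat_lit 61) (nat_lit 5) (nat_lit 62) (nat_lit 4) (nat_lit 321) (nat_lit 242) (nat_lit 217))) (XT.nd (nat_lit 78) (nat_lit 228) (nat_lit 0) (XT.lf (nat_lit 0) (nat_lit 1527206347) (nat_lit 304) (nat_lit 2926187141) (nat_lit 76) (nat_lit 7396798836) (nat_lit 57) (nat_lit 5) (nat_lit 61) (nat_lit 5) (nat_lit 58) (nat_lit 5) (nat_lit 322) (nat_lit 242) (nat_lit 216)) (XT.lf (nat_lit 0) (nat_lit 3840569369) (nat_lit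 228) (nat_lit 1081996715) (nat_lit 304) (nat_lit 7150523146) (nat_lit 54) (nat_lit 5) (nat_lit 57) (nat_lit 5) (nat_lit 58) (nat_lit 5) (nat_lit 323) (nat_lit 242) (nat_lit 215))))) (XT.nd (nat_lit 234) (nat_lit 684) (nat_lit 0) (XT.nd (nat_lit 78) (nat_lit 228) (nat_lit 0) (XT.lf (nat_lit 0) (nat_lit 8411601460) (nat_lit 304) (nat_lit 1552163279) (nat_lit 76) (nat_lit 2339198478) (nat_lit 54) (nat_lit 5) (nat_lit 58) (nat_lit 5) (nat_lit 55) (nat_lit 4) (nat_lit 324) (nat_lit 242) (nat_lit 214)) (XT.nd (nat_lit 78) (nat_lit 76) (nat_lit 0) (XT.lf (nat_lit 0) (nat_lit 5327265370) (nat_lit 152) (nat_lit 6680735346) (nat_lit 228) (nat_lit 531695239) (nat_lit 52) (nat_lit 5) (nat_lit 54) (nat_lit 5) (nat_lit 55) (nat_lit 4) (nat_lit 325) (nat_lit 242) (nat_lit 213)) (XT.lf (nat_lit 0) (nat_lit 2828416006) (nat_lit 228) (nat_lit 461342178) (nat_lit 76) (nat_lit 9494264569) (nat_lit 51) (nat_lit 5)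 (nat_lit 54) (nat_lit 5) (nat_lit 52) (nat_lit 5) (nat_lit 326) (nat_lit 242) (nat_lit 212)))) (XT.nd (nat_lit 156) (nat_lit 304) (nat_lit 0) (XT.nd (nat_lit 78) (nat_lit 152) (nat_lit 0) (XT.lf (nat_lit 0) (nat_lit 6286323994) (nat_lit 304) (nat_lit 6515507779) (nat_lit 76) (nat_lit 233498897) (nat_lit 48) (nat_lit 5) (nat_lit 52) (nat_lit 5) (nat_lit 49) (nat_lit 4) (nat_lit 327) (nat_lit 242) (nat_lit 211)) (XT.lf (nat_lit 0) (nat_lit 306604444) (nat_lit 152) (nat_lit 9524743152) (nat_lit 228) (nat_lit 3463367363) (nat_lit 46) (nat_lit 5) (nat_lit 48) (nat_lit 5) (nat_lit 49) (nat_lit 4) (nat_lit 328) (nat_lit 242) (nat_lit 210))) (XT.nd (nat_lit 78) (nat_lit 304) (nat_lit 0) (XT.lf (nat_lit 0) (nat_lit 7375246988) (nat_lit 152) (nat_lit 6117197509) (nat_lit 228) (nat_lit 69181968) (nat_lit 46) (nat_lit 5) (nat_lit 48) (nat_lit 5) (nat_lit 49) (nat_lit 4) (nat_lit 329) (nat_lit 242) (nat_lit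 209)) (XT.lf (nat_lit 0) (nat_lit 710166689) (nat_lit 228) (nat_lit 2601606397) (nat_lit 304) (nat_lit 10525264813) (nat_lit 42) (nat_lit 5) (nat_lit 45) (nat_lit 5) (nat_lit 46) (nat_lit 5) (nat_lit 330) (nat_lit 242) (nat_lit 208))))))))
noncomputable def xc61 : XT := (XT.nd (nat_lit 2028) (nat_lit 760) (nat_lit 0) (XT.nd (nat_lit 1014) (nat_lit 760) (nat_lit 0) (XT.nd (nat_lit 468) (nat_lit 608) (nat_lit 0) (XT.nd (nat_lit 234) (nat_lit 228) (nat_lit 0) (XT.nd (nat_lit 78) (nat_lit 152) (nat_lit 0) (XT.lf (nat_lit 0) (nat_lit 6811049781) (nat_lit 304) (nat_lit 6280112564) (nat_lit 76) (nat_lit 1029014472) (nat_lit 42) (nat_lit 5) (nat_lit 46) (nat_lit 5) (nat_lit 43) (nat_lit 4) (nat_lit 331) (nat_lit 242) (nat_lit 207)) (XT.nd (nat_lit 78) (nat_lit 0) (nat_lit 0) (XT.lf (nat_lit 0) (nat_lit 671435332) (nat_lit 152) (nat_lit 9723067660) (nat_lit 228) (nat_lit 4017964163) (nat_lit 40) (nat_lit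 5) (nat_lit 42) (nat_lit 5) (nat_lit 43) (nat_lit 4) (nat_lit 332) (nat_lit 242) (nat_lit 206)) (XT.lf (nat_lit 0) (nat_lit 7873170990) (nat_lit 152) (nat_lit 6223398027) (nat_lit 228) (nat_lit 616656142) (nat_lit 40) (nat_lit 5) (nat_lit 42) (nat_lit 5) (nat_lit 43) (nat_lit 4) (nat_lit 333) (nat_lit 242) (nat_lit 205)))) (XT.nd (nat_lit 78) (nat_lit 0) (nat_lit 0) (XT.lf (nat_lit 0) (nat_lit 157671117) (nat_lit 152) (nat_lit 2622888311) (nat_lit 228) (nat_lit 12243138457) (nat_lit 37) (nat_lit 5) (nat_lit 39) (nat_lit 5) (nat_lit 40) (nat_lit 5) (nat_lit 334) (nat_lit 242) (nat_lit 204)) (XT.nd (nat_lit 78) (nat_lit 0) (nat_lit 0) (XT.lf (nat_lit 0) (nat_lit 6296522239) (nat_lit 228) (nat_lit 7939086274) (nat_lit 76) (nat_lit 1106845864) (nat_lit 37) (nat_lit 5) (nat_lit 40) (nat_lit 5) (nat_lit 38) (nat_lit 4) (nat_lit 335) (nat_lit 242) (nat_lit 203)) (XT.lf (nat_lit 0) (nat_lit 9894451704)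 (nat_lit 228) (nat_lit 913793164) (nat_lit 76) (nat_lit 4863262700) (nat_lit 37) (nat_lit 5) (nat_lit 40) (nat_lit 5) (nat_lit 38) (nat_lit 4) (nat_lit 336) (nat_lit 242) (nat_lit 202))))) (XT.nd (nat_lit 234) (nat_lit 228) (nat_lit 0) (XT.nd (nat_lit 78) (nat_lit 228) (nat_lit 0) (XT.lf (nat_lit 0) (nat_lit 6365416172) (nat_lit 152) (nat_lit 7248050942) (nat_lit 228) (nat_lit 2396598603) (nat_lit 35) (nat_lit 5) (nat_lit 37) (nat_lit 5) (nat_lit 38) (nat_lit 4) (nat_lit 337) (nat_lit 242) (nat_lit 201)) (XT.nd (nat_lit 78) (nat_lit 152) (nat_lit 0) (XT.lf (nat_lit 0) (nat_lit 1025505291) (nat_lit 228) (nat_lit 2568533585) (nat_lit 76) (nat_lit 12765612657) (nat_lit 34) (nat_lit 5) (nat_lit 37) (nat_lit 5) (nat_lit 35) (nat_lit 5) (nat_lit 338) (nat_lit 242) (nat_lit 200)) (XT.lf (nat_lit 0) (nat_lit 4502859628) (nat_lit 228) (nat_lit 12011922006) (nat_lit 76) (nat_lit 204234177) (nat_lit 32)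 (nat_lit 5) (nat_lit 35) (nat_lit 5) (nat_lit 33) (nat_lit 4) (nat_lit 339) (nat_lit 242) (nat_lit 199)))) (XT.nd (nat_lit 156) (nat_lit 76) (nat_lit 0) (XT.nd (nat_lit 78) (nat_lit 152) (nat_lit 0) (XT.lf (nat_lit 0) (nat_lit 8100094651) (nat_lit 228) (nat_lit 4949774652) (nat_lit 76) (nat_lit 4038849617) (nat_lit 32) (nat_lit 5) (nat_lit 35) (nat_lit 5) (nat_lit 33) (nat_lit 4) (nat_lit 340) (nat_lit 242) (nat_lit 198)) (XT.lf (nat_lit 0) (nat_lit 2292077557) (nat_lit 152) (nat_lit 9490329742) (nat_lit 228) (nat_lit 5687814988) (nat_lit 30) (nat_lit 5) (nat_lit 32) (nat_lit 5) (nat_lit 33) (nat_lit 4) (nat_lit 341) (nat_lit 242) (nat_lit 197))) (XT.nd (nat_lit 78) (nat_lit 76) (nat_lit 0) (XT.lf (nat_lit 0) (nat_lit 9776518393) (nat_lit 152) (nat_lit 5804356805) (nat_lit 228) (nat_lit 2282148268) (nat_lit 30) (nat_lit 5) (nat_lit 32) (nat_lit 5) (nat_lit 33) (nat_lit 4) (nat_lit 342) (nat_lit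 242) (nat_lit 196)) (XT.lf (nat_lit 0) (nat_lit 1158315939) (nat_lit 228) (nat_lit 868700097) (nat_lit 76) (nat_lit 16241564777) (nat_lit 29) (nat_lit 5) (nat_lit 32) (nat_lit 5) (nat_lit 30) (nat_lit 5) (nat_lit 343) (nat_lit 242) (nat_lit 195)))))) (XT.nd (nat_lit 468) (nat_lit 304) (nat_lit 0) (XT.nd (nat_lit 234) (nat_lit 228) (nat_lit 0) (XT.nd (nat_lit 78) (nat_lit 76) (nat_lit 0) (XT.lf (nat_lit 0) (nat_lit 4695845145) (nat_lit 228) (nat_lit 12104290233) (nat_lit 76) (nat_lit 1884321347) (nat_lit 27) (nat_lit 5) (nat_lit 30) (nat_lit 5) (nat_lit 28) (nat_lit 4) (nat_lit 344) (nat_lit 242) (nat_lit 194)) (XT.nd (nat_lit 78) (nat_lit 76) (nat_lit 0) (XT.lf (nat_lit 0) (nat_lit 8326486159) (nat_lit 228) (nat_lit 4935285974) (nat_lit 76) (nat_lit 5851447891) (nat_lit 27) (nat_lit 5) (nat_lit 30) (nat_lit 5) (nat_lit 28) (nat_lit 4) (nat_lit 345) (nat_lit 242) (nat_lit 193)) (XT.lf (nat_lit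 0) (nat_lit 2425348229) (nat_lit 76) (nat_lit 9623291180) (nat_lit 152) (nat_lit 7506749110) (nat_lit 26) (nat_lit 5) (nat_lit 27) (nat_lit 5) (nat_lit 28) (nat_lit 4) (nat_lit 346) (nat_lit 242) (nat_lit 192)))) (XT.nd (nat_lit 78) (nat_lit 228) (nat_lit 0) (XT.lf (nat_lit 0) (nat_lit 10037896320) (nat_lit 76) (nat_lit 5854189179) (nat_lit 152) (nat_lit 4118467224) (nat_lit 26) (nat_lit 5) (nat_lit 27) (nat_lit 5) (nat_lit 28) (nat_lit 4) (nat_lit 347) (nat_lit 242) (nat_lit 191)) (XT.nd (nat_lit 78) (nat_lit 228) (nat_lit 0) (XT.lf (nat_lit 0) (nat_lit 17810788171) (nat_lit 76) (nat_lit 2001009451) (nat_lit 152) (nat_lit 668764285) (nat_lit 26) (nat_lit 5) (nat_lit 27) (nat_lit 5) (nat_lit 28) (nat_lit 4) (nat_lit 348) (nat_lit 242) (nat_lit 190)) (XT.lf (nat_lit 0) (nat_lit 2855871406) (nat_lit 228) (nat_lit 16130660590) (nat_lit 76) (nat_lit 1976493590) (nat_lit 23) (nat_lit 5) (nat_lit 26)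 (nat_lit 5) (nat_lit 24) (nat_lit 4) (nat_lit 349) (nat_lit 242) (nat_lit 189))))) (XT.nd (nat_lit 234) (nat_lit 228) (nat_lit 0) (XT.nd (nat_lit 78) (nat_lit 76) (nat_lit 0) (XT.lf (nat_lit 0) (nat_lit 6481756032) (nat_lit 228) (nat_lit 8938614120) (nat_lit 76) (nat_lit 6039143167) (nat_lit 23) (nat_lit 5) (nat_lit 26) (nat_lit 5) (nat_lit 24) (nat_lit 4) (nat_lit 350) (nat_lit 242) (nat_lit 188)) (XT.nd (nat_lit 78) (nat_lit 76) (nat_lit 0) (XT.lf (nat_lit 0) (nat_lit 10179439511) (nat_lit 228) (nat_lit 1595908232) (nat_lit 76) (nat_lit 10196674093) (nat_lit 23) (nat_lit 5) (nat_lit 26) (nat_lit 5) (nat_lit 24) (nat_lit 4) (nat_lit 351) (nat_lit 242) (nat_lit 187)) (XT.lf (nat_lit 0) (nat_lit 6021371679) (nat_lit 76) (nat_lit 7988662257) (nat_lit 152) (nat_lit 8489228592) (nat_lit 22) (nat_lit 5) (nat_lit 23) (nat_lit 5) (nat_lit 24) (nat_lit 4) (nat_lit 352) (nat_lit 242) (nat_lit 186)))) (XT.nd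 (nat_lit 156) (nat_lit 228) (nat_lit 0) (XT.nd (nat_lit 78) (nat_lit 0) (nat_lit 0) (XT.lf (nat_lit 0) (nat_lit 13837298404) (nat_lit 76) (nat_lit 4098906701) (nat_lit 152) (nat_lit 5106711424) (nat_lit 22) (nat_lit 5) (nat_lit 23) (nat_lit 5) (nat_lit 24) (nat_lit 4) (nat_lit 353) (nat_lit 242) (nat_lit 185)) (XT.lf (nat_lit 0) (nat_lit 21826939691) (nat_lit 76) (nat_lit 118797804) (nat_lit 152) (nat_lit 1658190767) (nat_lit 22) (nat_lit 5) (nat_lit 23) (nat_lit 5) (nat_lit 24) (nat_lit 4) (nat_lit 354) (nat_lit 242) (nat_lit 184))) (XT.nd (nat_lit 78) (nat_lit 0) (nat_lit 0) (XT.lf (nat_lit 0) (nat_lit 1918652541) (nat_lit 228) (nat_lit 18307326038) (nat_lit 76) (nat_lit 3953405502) (nat_lit 19) (nat_lit 5) (nat_lit 22) (nat_lit 5) (nat_lit 20) (nat_lit 4) (nat_lit 355) (nat_lit 242) (nat_lit 183)) (XT.lf (nat_lit 0) (nat_lit 5555172284) (nat_lit 228) (nat_lit 11062196327) (nat_lit 76) (nat_lit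 8154685547) (nat_lit 19) (nat_lit 5) (nat_lit 22) (nat_lit 5) (nat_lit 20) (nat_lit 4) (nat_lit 356) (nat_lit 242) (nat_lit 182))))))) (XT.nd (nat_lit 1014) (nat_lit 304) (nat_lit 0) (XT.nd (nat_lit 468) (nat_lit 152) (nat_lit 0) (XT.nd (nat_lit 234) (nat_lit 228) (nat_lit 0) (XT.nd (nat_lit 78) (nat_lit 76) (nat_lit 0) (XT.lf (nat_lit 0) (nat_lit 9268167374) (nat_lit 228) (nat_lit 3657831214) (nat_lit 76) (nat_lit 12457498034) (nat_lit 19) (nat_lit 5) (nat_lit 22) (nat_lit 5) (nat_lit 20) (nat_lit 4) (nat_lit 357) (nat_lit 242) (nat_lit 181)) (XT.nd (nat_lit 78) (nat_lit 0) (nat_lit 0) (XT.lf (nat_lit 0) (nat_lit 3990100363) (nat_lit 76) (nat_lit 9109137098) (nat_lit 152) (nat_lit 12913857625) (nat_lit 18) (nat_lit 5) (nat_lit 19) (nat_lit 5) (nat_lit 20) (nat_lit 4) (nat_lit 358) (nat_lit 242) (nat_lit 180)) (XT.lf (nat_lit 0) (nat_lit 11886579318) (nat_lit 76) (nat_lit 5164312466) (nat_lit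 152) (nat_lit 9610533049) (nat_lit 18) (nat_lit 5) (nat_lit 19) (nat_lit 5) (nat_lit 20) (nat_lit 4) (nat_lit 359) (nat_lit 242) (nat_lit 179)))) (XT.nd (nat_lit 78) (nat_lit 228) (nat_lit 0) (XT.lf (nat_lit 0) (nat_lit 19965707473) (nat_lit 76) (nat_lit 1125014680) (nat_lit 152) (nat_lit 6239406042) (nat_lit 18) (nat_lit 5) (nat_lit 19) (nat_lit 5) (nat_lit 20) (nat_lit 4) (nat_lit 360) (nat_lit 242) (nat_lit 178)) (XT.nd (nat_lit 78) (nat_lit 76) (nat_lit 0) (XT.lf (nat_lit 0) (nat_lit 189496606) (nat_lit 152) (nat_lit 25063539401) (nat_lit 152) (nat_lit 2765830146) (nat_lit 16) (nat_lit 4) (nat_lit 18) (nat_lit 5) (nat_lit 18) (nat_lit 4) (nat_lit 361) (nat_lit 242) (nat_lit 177)) (XT.lf (nat_lit 0) (nat_lit 852693949) (nat_lit 228) (nat_lit 20678138438) (nat_lit 76) (nat_lit 7195513618) (nat_lit 15) (nat_lit 5) (nat_lit 18) (nat_lit 5) (nat_lit 16) (nat_lit 4) (nat_lit 362) (nat_lit 242) (nat_lit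 176))))) (XT.nd (nat_lit 234) (nat_lit 76) (nat_lit 0) (XT.nd (nat_lit 78) (nat_lit 76) (nat_lit 0) (XT.lf (nat_lit 0) (nat_lit 4495390878) (nat_lit 228) (nat_lit 13391616974) (nat_lit 76) (nat_lit 11568095760) (nat_lit 15) (nat_lit 5) (nat_lit 18) (nat_lit 5) (nat_lit 16) (nat_lit 4) (nat_lit 363) (nat_lit 242) (nat_lit 175)) (XT.nd (nat_lit 78) (nat_lit 76) (nat_lit 0) (XT.lf (nat_lit 0) (nat_lit 8219414888) (nat_lit 228) (nat_lit 5936851441) (nat_lit 76) (nat_lit 16050307032) (nat_lit 15) (nat_lit 5) (nat_lit 18) (nat_lit 5) (nat_lit 16) (nat_lit 4) (nat_lit 364) (nat_lit 242) (nat_lit 174)) (XT.lf (nat_lit 0) (nat_lit 1726359524) (nat_lit 76) (nat_lit 10318255278) (nat_lit 152) (nat_lit 18936299226) (nat_lit 14) (nat_lit 5) (nat_lit 15) (nat_lit 5) (nat_lit 16) (nat_lit 4) (nat_lit 365) (nat_lit 242) (nat_lit 173)))) (XT.nd (nat_lit 156) (nat_lit 76) (nat_lit 0) (XT.nd (nat_lit 78) (nat_lit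 0) (nat_lit 0) (XT.lf (nat_lit 0) (nat_lit 9692760695) (nat_lit 76) (nat_lit 6324946109) (nat_lit 152) (nat_lit 15759794207) (nat_lit 14) (nat_lit 5) (nat_lit 15) (nat_lit 5) (nat_lit 16) (nat_lit 4) (nat_lit 366) (nat_lit 242) (nat_lit 172)) (XT.lf (nat_lit 0) (nat_lit 17851158018) (nat_lit 76) (nat_lit 2232800082) (nat_lit 152) (nat_lit 12514818388) (nat_lit 14) (nat_lit 5) (nat_lit 15) (nat_lit 5) (nat_lit 16) (nat_lit 4) (nat_lit 367) (nat_lit 242) (nat_lit 171))) (XT.nd (nat_lit 78) (nat_lit 76) (nat_lit 0) (XT.lf (nat_lit 0) (nat_lit 24265779349) (nat_lit 152) (nat_lit 7255635513) (nat_lit 0) (nat_lit 1923477489) (nat_lit 14) (nat_lit 5) (nat_lit 16) (nat_lit 4) (nat_lit 14) (nat_lit 4) (nat_lit 368) (nat_lit 242) (nat_lit 170)) (XT.lf (nat_lit 0) (nat_lit 401990611) (nat_lit 76) (nat_lit 28172306759) (nat_lit 76) (nat_lit 5742066368) (nat_lit 13) (nat_lit 4) (nat_lit 14) (nat_lit 5) (nat_lit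 14) (nat_lit 4) (nat_lit 369) (nat_lit 242) (nat_lit 169)))))) (XT.nd (nat_lit 546) (nat_lit 152) (nat_lit 0) (XT.nd (nat_lit 234) (nat_lit 76) (nat_lit 0) (XT.nd (nat_lit 78) (nat_lit 76) (nat_lit 0) (XT.lf (nat_lit 0) (nat_lit 8393665000) (nat_lit 76) (nat_lit 24667237978) (nat_lit 76) (nat_lit 2151620370) (nat_lit 13) (nat_lit 4) (nat_lit 14) (nat_lit 5) (nat_lit 14) (nat_lit 4) (nat_lit 370) (nat_lit 242) (nat_lit 168)) (XT.nd (nat_lit 78) (nat_lit 0) (nat_lit 0) (XT.lf (nat_lit 0) (nat_lit 1492393032) (nat_lit 152) (nat_lit 19568950252) (nat_lit 76) (nat_lit 15074506022) (nat_lit 12) (nat_lit 5) (nat_lit 14) (nat_lit 5) (nat_lit 13) (nat_lit 4) (nat_lit 371) (nat_lit 242) (nat_lit 167)) (XT.lf (nat_lit 0) (nat_lit 5179212051) (nat_lit 152) (nat_lit 12165183857) (nat_lit 76) (nat_lit 19742546393) (nat_lit 12) (nat_lit 5) (nat_lit 14) (nat_lit 5) (nat_lit 13) (nat_lit 4) (nat_lit 372) (nat_lit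 242) (nat_lit 166)))) (XT.nd (nat_lit 156) (nat_lit 0) (nat_lit 0) (XT.nd (nat_lit 78) (nat_lit 76) (nat_lit 0) (XT.lf (nat_lit 0) (nat_lit 8954044042) (nat_lit 152) (nat_lit 4580407163) (nat_lit 76) (nat_lit 24532802665) (nat_lit 12) (nat_lit 5) (nat_lit 14) (nat_lit 5) (nat_lit 13) (nat_lit 4) (nat_lit 373) (nat_lit 242) (nat_lit 165)) (XT.lf (nat_lit 0) (nat_lit 3255534509) (nat_lit 76) (nat_lit 9595947080) (nat_lit 152) (nat_lit 26225220177) (nat_lit 11) (nat_lit 5) (nat_lit 12) (nat_lit 5) (nat_lit 13) (nat_lit 4) (nat_lit 374) (nat_lit 242) (nat_lit 164))) (XT.nd (nat_lit 78) (nat_lit 0) (nat_lit 0) (XT.lf (nat_lit 0) (nat_lit 11380933993) (nat_lit 76) (nat_lit 5509486818) (nat_lit 152) (nat_lit 23225282506) (nat_lit 11) (nat_lit 5) (nat_lit 12) (nat_lit 5) (nat_lit 13) (nat_lit 4) (nat_lit 375) (nat_lit 242) (nat_lit 163)) (XT.lf (nat_lit 0) (nat_lit 19711732067) (nat_lit 76) (nat_lit 1317752857)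 (nat_lit 152) (nat_lit 20157028642) (nat_lit 11) (nat_lit 5) (nat_lit 12) (nat_lit 5) (nat_lit 13) (nat_lit 4) (nat_lit 376) (nat_lit 242) (nat_lit 162))))) (XT.nd (nat_lit 234) (nat_lit 76) (nat_lit 0) (XT.nd (nat_lit 78) (nat_lit 76) (nat_lit 0) (XT.lf (nat_lit 0) (nat_lit 25300964213) (nat_lit 152) (nat_lit 14063533730) (nat_lit 0) (nat_lit 2924710020) (nat_lit 11) (nat_lit 5) (nat_lit 13) (nat_lit 4) (nat_lit 11) (nat_lit 4) (nat_lit 377) (nat_lit 242) (nat_lit 161)) (XT.nd (nat_lit 78) (nat_lit 76) (nat_lit 0) (XT.lf (nat_lit 0) (nat_lit 29693642689) (nat_lit 152) (nat_lit 6479601819) (nat_lit 0) (nat_lit 7251953969) (nat_lit 11) (nat_lit 5) (nat_lit 13) (nat_lit 4) (nat_lit 11) (nat_lit 4) (nat_lit 378) (nat_lit 242) (nat_lit 160)) (XT.lf (nat_lit 0) (nat_lit 1322107087) (nat_lit 76) (nat_lit 32889293383) (nat_lit 76) (nat_lit 10384075997) (nat_lit 10) (nat_lit 4) (nat_lit 11) (nat_lit 5)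 (nat_lit 11) (nat_lit 4) (nat_lit 379) (nat_lit 242) (nat_lit 159)))) (XT.nd (nat_lit 156) (nat_lit 76) (nat_lit 0) (XT.nd (nat_lit 78) (nat_lit 0) (nat_lit 0) (XT.lf (nat_lit 0) (nat_lit 9455501144) (nat_lit 76) (nat_lit 29455438219) (nat_lit 76) (nat_lit 6888542515) (nat_lit 10) (nat_lit 4) (nat_lit 11) (nat_lit 5) (nat_lit 11) (nat_lit 4) (nat_lit 380) (nat_lit 242) (nat_lit 158)) (XT.lf (nat_lit 0) (nat_lit 17798730420) (nat_lit 76) (nat_lit 25934109831) (nat_lit 76) (nat_lit 3307332267) (nat_lit 10) (nat_lit 4) (nat_lit 11) (nat_lit 5) (nat_lit 11) (nat_lit 4) (nat_lit 381) (nat_lit 242) (nat_lit 157))) (XT.nd (nat_lit 78) (nat_lit 0) (nat_lit 0) (XT.lf (nat_lit 0) (nat_lit 355606690) (nat_lit 152) (nat_lit 21963033713) (nat_lit 76) (nat_lit 25999887495) (nat_lit 9) (nat_lit 5) (nat_lit 11) (nat_lit 5) (nat_lit 10) (nat_lit 4) (nat_lit 382) (nat_lit 242) (nat_lit 156)) (XT.lf (nat_lit 0)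 (nat_lit 4044224971) (nat_lit 152) (nat_lit 14531583000) (nat_lit 76) (nat_lit 31058981437) (nat_lit 9) (nat_lit 5) (nat_lit 11) (nat_lit 5) (nat_lit 10) (nat_lit 4) (nat_lit 383) (nat_lit 242) (nat_lit 155))))))))
noncomputable def xc62 : XT := (XT.nd (nat_lit 33696) (nat_lit 0) (nat_lit 4028) (XT.nd (nat_lit 1014) (nat_lit 152) (nat_lit 0) (XT.nd (nat_lit 468) (nat_lit 76) (nat_lit 0) (XT.nd (nat_lit 234) (nat_lit 0) (nat_lit 0) (XT.nd (nat_lit 78) (nat_lit 76) (nat_lit 0) (XT.lf (nat_lit 0) (nat_lit 7826283605) (nat_lit 152) (nat_lit 6908804358) (nat_lit 76) (nat_lit 36255972981) (nat_lit 9) (nat_lit 5) (nat_lit 11) (nat_lit 5) (nat_lit 10) (nat_lit 4) (nat_lit 384) (nat_lit 242) (nat_lit 154)) (XT.nd (nat_lit 78) (nat_lit 0) (nat_lit 0) (XT.lf (nat_lit 0) (nat_lit 930112741) (nat_lit 76) (nat_lit 10783915375) (nat_lit 152) (nat_lit 40674231259) (nat_lit 8) (nat_lit 5) (nat_lit 9) (nat_lit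 5) (nat_lit 10) (nat_lit 4) (nat_lit 385) (nat_lit 242) (nat_lit 153)) (XT.lf (nat_lit 0) (nat_lit 9115427249) (nat_lit 76) (nat_lit 6656221127) (nat_lit 152) (nat_lit 38054133391) (nat_lit 8) (nat_lit 5) (nat_lit 9) (nat_lit 5) (nat_lit 10) (nat_lit 4) (nat_lit 386) (nat_lit 242) (nat_lit 152)))) (XT.nd (nat_lit 78) (nat_lit 0) (nat_lit 0) (XT.lf (nat_lit 0) (nat_lit 17516792628) (nat_lit 76) (nat_lit 2418163873) (nat_lit 152) (nat_lit 35371959708) (nat_lit 8) (nat_lit 5) (nat_lit 9) (nat_lit 5) (nat_lit 10) (nat_lit 4) (nat_lit 387) (nat_lit 242) (nat_lit 151)) (XT.nd (nat_lit 78) (nat_lit 0) (nat_lit 0) (XT.lf (nat_lit 0) (nat_lit 24226180738) (nat_lit 152) (nat_lit 30709997424) (nat_lit 0) (nat_lit 1896221025) (nat_lit 8) (nat_lit 5) (nat_lit 10) (nat_lit 4) (nat_lit 8) (nat_lit 4) (nat_lit 388) (nat_lit 242) (nat_lit 150)) (XT.lf (nat_lit 0) (nat_lit 28654841950) (nat_lit 152) (nat_lit 23469560780)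 (nat_lit 0) (nat_lit 6278987776) (nat_lit 8) (nat_lit 5) (nat_lit 10) (nat_lit 4) (nat_lit 8) (nat_lit 4) (nat_lit 389) (nat_lit 242) (nat_lit 149))))) (XT.nd (nat_lit 234) (nat_lit 76) (nat_lit 0) (XT.nd (nat_lit 78) (nat_lit 0) (nat_lit 0) (XT.lf (nat_lit 0) (nat_lit 33201564972) (nat_lit 152) (nat_lit 16039242184) (nat_lit 0) (nat_lit 10781153070) (nat_lit 8) (nat_lit 5) (nat_lit 10) (nat_lit 4) (nat_lit 8) (nat_lit 4) (nat_lit 390) (nat_lit 242) (nat_lit 148)) (XT.nd (nat_lit 78) (nat_lit 0) (nat_lit 0) (XT.lf (nat_lit 0) (nat_lit 37870322668) (nat_lit 152) (nat_lit 8412549125) (nat_lit 0) (nat_lit 15406650836) (nat_lit 8) (nat_lit 5) (nat_lit 10) (nat_lit 4) (nat_lit 8) (nat_lit 4) (nat_lit 391) (nat_lit 242) (nat_lit 147)) (XT.lf (nat_lit 0) (nat_lit 42665194537) (nat_lit 152) (nat_lit 582817501) (nat_lit 0) (nat_lit 20159522771) (nat_lit 8) (nat_lit 5) (nat_lit 10) (nat_lit 4) (nat_lit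 8) (nat_lit 4) (nat_lit 392) (nat_lit 242) (nat_lit 146)))) (XT.nd (nat_lit 156) (nat_lit 0) (nat_lit 0) (XT.nd (nat_lit 78) (nat_lit 0) (nat_lit 0) (XT.lf (nat_lit 0) (nat_lit 7605199024) (nat_lit 76) (nat_lit 40058277071) (nat_lit 76) (nat_lit 17511828672) (nat_lit 7) (nat_lit 4) (nat_lit 8) (nat_lit 5) (nat_lit 8) (nat_lit 4) (nat_lit 393) (nat_lit 242) (nat_lit 145)) (XT.lf (nat_lit 0) (nat_lit 16026036577) (nat_lit 76) (nat_lit 36778168911) (nat_lit 76) (nat_lit 14192131547) (nat_lit 7) (nat_lit 4) (nat_lit 8) (nat_lit 5) (nat_lit 8) (nat_lit 4) (nat_lit 394) (nat_lit 242) (nat_lit 144))) (XT.nd (nat_lit 78) (nat_lit 0) (nat_lit 0) (XT.lf (nat_lit 0) (nat_lit 24675453959) (nat_lit 76) (nat_lit 33410706759) (nat_lit 76) (nat_lit 10786233507) (nat_lit 7) (nat_lit 4) (nat_lit 8) (nat_lit 5) (nat_lit 8) (nat_lit 4) (nat_lit 395) (nat_lit 242) (nat_lit 143)) (XT.lf (nat_lit 0) (nat_lit 33561008912)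 (nat_lit 76) (nat_lit 29952948172) (nat_lit 76) (nat_lit 7291158524) (nat_lit 7) (nat_lit 4) (nat_lit 8) (nat_lit 5) (nat_lit 8) (nat_lit 4) (nat_lit 396) (nat_lit 242) (nat_lit 142)))))) (XT.nd (nat_lit 468) (nat_lit 0) (nat_lit 0) (XT.nd (nat_lit 234) (nat_lit 76) (nat_lit 0) (XT.nd (nat_lit 78) (nat_lit 76) (nat_lit 0) (XT.lf (nat_lit 0) (nat_lit 42690465514) (nat_lit 76) (nat_lit 26401871807) (nat_lit 76) (nat_lit 3703852648) (nat_lit 7) (nat_lit 4) (nat_lit 8) (nat_lit 5) (nat_lit 8) (nat_lit 4) (nat_lit 397) (nat_lit 242) (nat_lit 141)) (XT.nd (nat_lit 78) (nat_lit 76) (nat_lit 0) (XT.lf (nat_lit 0) (nat_lit 52071800961) (nat_lit 76) (nat_lit 22754374782) (nat_lit 76) (nat_lit 21181341) (nat_lit 7) (nat_lit 4) (nat_lit 8) (nat_lit 5) (nat_lit 8) (nat_lit 4) (nat_lit 398) (nat_lit 242) (nat_lit 140)) (XT.lf (nat_lit 0) (nat_lit 3686700692) (nat_lit 152) (nat_lit 15283340824) (nat_lit 76)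 (nat_lit 57989283394) (nat_lit 6) (nat_lit 5) (nat_lit 8) (nat_lit 5) (nat_lit 7) (nat_lit 4) (nat_lit 399) (nat_lit 242) (nat_lit 139)))) (XT.nd (nat_lit 78) (nat_lit 76) (nat_lit 0) (XT.lf (nat_lit 0) (nat_lit 7494068522) (nat_lit 152) (nat_lit 7587539264) (nat_lit 76) (nat_lit 64053380850) (nat_lit 6) (nat_lit 5) (nat_lit 8) (nat_lit 5) (nat_lit 7) (nat_lit 4) (nat_lit 400) (nat_lit 242) (nat_lit 138)) (XT.nd (nat_lit 78) (nat_lit 0) (nat_lit 0) (XT.lf (nat_lit 0) (nat_lit 325120929) (nat_lit 76) (nat_lit 11082666630) (nat_lit 152) (nat_lit 69968374121) (nat_lit 5) (nat_lit 5) (nat_lit 6) (nat_lit 5) (nat_lit 7) (nat_lit 4) (nat_lit 401) (nat_lit 242) (nat_lit 137)) (XT.lf (nat_lit 0) (nat_lit 8610537957) (nat_lit 76) (nat_lit 6894130844) (nat_lit 152) (nat_lit 68177931808) (nat_lit 5) (nat_lit 5) (nat_lit 6) (nat_lit 5) (nat_lit 7) (nat_lit 4) (nat_lit 402) (nat_lit 242) (nat_lit 136)))))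 (XT.nd (nat_lit 234) (nat_lit 0) (nat_lit 0) (XT.nd (nat_lit 78) (nat_lit 0) (nat_lit 0) (XT.lf (nat_lit 0) (nat_lit 17124944596) (nat_lit 76) (nat_lit 2588959813) (nat_lit 152) (nat_lit 66344647979) (nat_lit 5) (nat_lit 5) (nat_lit 6) (nat_lit 5) (nat_lit 7) (nat_lit 4) (nat_lit 403) (nat_lit 242) (nat_lit 135)) (XT.nd (nat_lit 78) (nat_lit 0) (nat_lit 0) (XT.lf (nat_lit 0) (nat_lit 24056826957) (nat_lit 152) (nat_lit 62647967075) (nat_lit 0) (nat_lit 1800769420) (nat_lit 5) (nat_lit 5) (nat_lit 7) (nat_lit 4) (nat_lit 5) (nat_lit 4) (nat_lit 404) (nat_lit 242) (nat_lit 134)) (XT.lf (nat_lit 0) (nat_lit 28545642371) (nat_lit 152) (nat_lit 56218059334) (nat_lit 0) (nat_lit 6261817931) (nat_lit 5) (nat_lit 5) (nat_lit 7) (nat_lit 4) (nat_lit 5) (nat_lit 4) (nat_lit 405) (nat_lit 242) (nat_lit 133)))) (XT.nd (nat_lit 156) (nat_lit 0) (nat_lit 0) (XT.nd (nat_lit 78) (nat_lit 0) (nat_lit 0) (XT.lf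 (nat_lit 0) (nat_lit 33159386251) (nat_lit 152) (nat_lit 49613379536) (nat_lit 0) (nat_lit 10848603652) (nat_lit 5) (nat_lit 5) (nat_lit 7) (nat_lit 4) (nat_lit 5) (nat_lit 4) (nat_lit 406) (nat_lit 242) (nat_lit 132)) (XT.lf (nat_lit 0) (nat_lit 37902090024) (nat_lit 152) (nat_lit 42828156603) (nat_lit 0) (nat_lit 15565134455) (nat_lit 5) (nat_lit 5) (nat_lit 7) (nat_lit 4) (nat_lit 5) (nat_lit 4) (nat_lit 407) (nat_lit 242) (nat_lit 131))) (XT.nd (nat_lit 31746) (nat_lit 0) (nat_lit 10792) (XT.lf (nat_lit 0) (nat_lit 42777897799) (nat_lit 152) (nat_lit 35856461697) (nat_lit 0) (nat_lit 20415531580) (nat_lit 5) (nat_lit 5) (nat_lit 7) (nat_lit 4) (nat_lit 5) (nat_lit 4) (nat_lit 408) (nat_lit 242) (nat_lit 130)) (XT.lf (nat_lit 0) (nat_lit 920748911) (nat_lit 532) (nat_lit 2062031645) (nat_lit 0) (nat_lit 920748911) (nat_lit 147) (nat_lit 5) (nat_lit 154) (nat_lit 4) (nat_lit 147) (nat_lit 4)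 (nat_lit 294) (nat_lit 243) (nat_lit 243))))))) (XT.nd (nat_lit 1014) (nat_lit 2736) (nat_lit 0) (XT.nd (nat_lit 468) (nat_lit 2052) (nat_lit 0) (XT.nd (nat_lit 234) (nat_lit 912) (nat_lit 0) (XT.nd (nat_lit 78) (nat_lit 532) (nat_lit 0) (XT.lf (nat_lit 0) (nat_lit 1342383627) (nat_lit 532) (nat_lit 3923098118) (nat_lit 532) (nat_lit 2627809169) (nat_lit 140) (nat_lit 4) (nat_lit 147) (nat_lit 5) (nat_lit 147) (nat_lit 4) (nat_lit 295) (nat_lit 243) (nat_lit 242)) (XT.nd (nat_lit 78) (nat_lit 456) (nat_lit 0) (XT.lf (nat_lit 0) (nat_lit 743611630) (nat_lit 608) (nat_lit 1043319425) (nat_lit 76) (nat_lit 6196594190) (nat_lit 139) (nat_lit 5) (nat_lit 147) (nat_lit 5) (nat_lit 140) (nat_lit 4) (nat_lit 296) (nat_lit 243) (nat_lit 241)) (XT.lf (nat_lit 0) (nat_lit 4121905820) (nat_lit 532) (nat_lit 3497112589) (nat_lit 0) (nat_lit 458036791) (nat_lit 133) (nat_lit 5) (nat_lit 140) (nat_lit 4) (nat_lit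 133) (nat_lit 4) (nat_lit 297) (nat_lit 243) (nat_lit 240)))) (XT.nd (nat_lit 78) (nat_lit 456) (nat_lit 0) (XT.lf (nat_lit 0) (nat_lit 2134160738) (nat_lit 456) (nat_lit 5427630705) (nat_lit 456) (nat_lit 612914222) (nat_lit 127) (nat_lit 4) (nat_lit 133) (nat_lit 5) (nat_lit 133) (nat_lit 4) (nat_lit 298) (nat_lit 243) (nat_lit 239)) (XT.nd (nat_lit 78) (nat_lit 380) (nat_lit 0) (XT.lf (nat_lit 0) (nat_lit 2721988245) (nat_lit 532) (nat_lit 406407970) (nat_lit 76) (nat_lit 5147759860) (nat_lit 126) (nat_lit 5) (nat_lit 133) (nat_lit 5) (nat_lit 127) (nat_lit 4) (nat_lit 299) (nat_lit 243) (nat_lit 238)) (XT.lf (nat_lit 0) (nat_lit 5388363032) (nat_lit 380) (nat_lit 722568614) (nat_lit 456) (nat_lit 2270658458) (nat_lit 121) (nat_lit 5) (nat_lit 126) (nat_lit 5) (nat_lit 127) (nat_lit 4) (nat_lit 300) (nat_lit 243) (nat_lit 237))))) (XT.nd (nat_lit 234) (nat_lit 1216) (nat_lit 0) (XT.nd (nat_lit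 78) (nat_lit 380) (nat_lit 0) (XT.lf (nat_lit 0) (nat_lit 1052947396) (nat_lit 456) (nat_lit 5697484415) (nat_lit 76) (nat_lit 1740641662) (nat_lit 115) (nat_lit 5) (nat_lit 121) (nat_lit 5) (nat_lit 116) (nat_lit 4) (nat_lit 301) (nat_lit 243) (nat_lit 236)) (XT.nd (nat_lit 78) (nat_lit 0) (nat_lit 0) (XT.lf (nat_lit 0) (nat_lit 74420825) (nat_lit 380) (nat_lit 4310859755) (nat_lit 456) (nat_lit 4219348677) (nat_lit 110) (nat_lit 5) (nat_lit 115) (nat_lit 5) (nat_lit 116) (nat_lit 4) (nat_lit 302) (nat_lit 243) (nat_lit 235)) (XT.lf (nat_lit 0) (nat_lit 6027820349) (nat_lit 380) (nat_lit 1764955871) (nat_lit 456) (nat_lit 929658829) (nat_lit 110) (nat_lit 5) (nat_lit 115) (nat_lit 5) (nat_lit 116) (nat_lit 4) (nat_lit 303) (nat_lit 243) (nat_lit 234)))) (XT.nd (nat_lit 156) (nat_lit 456) (nat_lit 0) (XT.nd (nat_lit 78) (nat_lit 304) (nat_lit 0) (XT.lf (nat_lit 0) (nat_lit 2369676982) (nat_lit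 456) (nat_lit 5604370945) (nat_lit 76) (nat_lit 870343451) (nat_lit 104) (nat_lit 5) (nat_lit 110) (nat_lit 5) (nat_lit 105) (nat_lit 4) (nat_lit 304) (nat_lit 243) (nat_lit 233)) (XT.lf (nat_lit 0) (nat_lit 309664369) (nat_lit 304) (nat_lit 5407827420) (nat_lit 380) (nat_lit 3253283643) (nat_lit 100) (nat_lit 5) (nat_lit 104) (nat_lit 5) (nat_lit 105) (nat_lit 4) (nat_lit 305) (nat_lit 243) (nat_lit 232))) (XT.nd (nat_lit 78) (nat_lit 380) (nat_lit 0) (XT.lf (nat_lit 0) (nat_lit 41362157) (nat_lit 380) (nat_lit 2693206076) (nat_lit 76) (nat_lit 6367114489) (nat_lit 99) (nat_lit 5) (nat_lit 104) (nat_lit 5) (nat_lit 100) (nat_lit 5) (nat_lit 306) (nat_lit 243) (nat_lit 231)) (XT.lf (nat_lit 0) (nat_lit 3325509135) (nat_lit 456) (nat_lit 5855604065) (nat_lit 76) (nat_lit 55839223) (nat_lit 94) (nat_lit 5) (nat_lit 100) (nat_lit 5) (nat_lit 95) (nat_lit 4) (nat_lit 307) (nat_lit 243) (nat_lit 230))))))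 (XT.nd (nat_lit 546) (nat_lit 1368) (nat_lit 0) (XT.nd (nat_lit 234) (nat_lit 684) (nat_lit 0) (XT.nd (nat_lit 78) (nat_lit 380) (nat_lit 0) (XT.lf (nat_lit 0) (nat_lit 187550937) (nat_lit 304) (nat_lit 6500926729) (nat_lit 380) (nat_lit 2688474218) (nat_lit 90) (nat_lit 5) (nat_lit 94) (nat_lit 5) (nat_lit 95) (nat_lit 4) (nat_lit 308) (nat_lit 243) (nat_lit 229)) (XT.nd (nat_lit 78) (nat_lit 304) (nat_lit 0) (XT.lf (nat_lit 0) (nat_lit 602918863) (nat_lit 380) (nat_lit 3101179552) (nat_lit 76) (nat_lit 5817425304) (nat_lit 89) (nat_lit 5) (nat_lit 94) (nat_lit 5) (nat_lit 90) (nat_lit 5) (nat_lit 309) (nat_lit 243) (nat_lit 228)) (XT.lf (nat_lit 0) (nat_lit 3099489922) (nat_lit 304) (nat_lit 795862189) (nat_lit 380) (nat_lit 5775665765) (nat_lit 85) (nat_lit 5) (nat_lit 89) (nat_lit 5) (nat_lit 90) (nat_lit 5) (nat_lit 310) (nat_lit 243) (nat_lit 227)))) (XT.nd (nat_lit 156) (nat_lit 304) (nat_lit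 0) (XT.nd (nat_lit 78) (nat_lit 380) (nat_lit 0) (XT.lf (nat_lit 0) (nat_lit 7266721910) (nat_lit 380) (nat_lit 400748449) (nat_lit 76) (nat_lit 2158193190) (nat_lit 85) (nat_lit 5) (nat_lit 90) (nat_lit 5) (nat_lit 86) (nat_lit 4) (nat_lit 311) (nat_lit 243) (nat_lit 226)) (XT.lf (nat_lit 0) (nat_lit 734140168) (nat_lit 380) (nat_lit 4030695884) (nat_lit 76) (nat_lit 5220125265) (nat_lit 80) (nat_lit 5) (nat_lit 85) (nat_lit 5) (nat_lit 81) (nat_lit 5) (nat_lit 312) (nat_lit 243) (nat_lit 225))) (XT.nd (nat_lit 78) (nat_lit 0) (nat_lit 0) (XT.lf (nat_lit 0) (nat_lit 2275870156) (nat_lit 304) (nat_lit 1754513853) (nat_lit 380) (nat_lit 6119285396) (nat_lit 76) (nat_lit 5) (nat_lit 80) (nat_lit 5) (nat_lit 81) (nat_lit 5) (nat_lit 313) (nat_lit 243) (nat_lit 224)) (XT.lf (nat_lit 0) (nat_lit 7410156377) (nat_lit 380) (nat_lit 1580396213) (nat_lit 76) (nat_lit 1329290522) (nat_lit 76) (nat_lit 5)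 (nat_lit 81) (nat_lit 5) (nat_lit 77) (nat_lit 4) (nat_lit 314) (nat_lit 243) (nat_lit 223))))) (XT.nd (nat_lit 234) (nat_lit 760) (nat_lit 0) (XT.nd (nat_lit 78) (nat_lit 304) (nat_lit 0) (XT.lf (nat_lit 0) (nat_lit 385270766) (nat_lit 304) (nat_lit 5619609209) (nat_lit 76) (nat_lit 4490283697) (nat_lit 72) (nat_lit 5) (nat_lit 76) (nat_lit 5) (nat_lit 73) (nat_lit 5) (nat_lit 315) (nat_lit 243) (nat_lit 222)) (XT.nd (nat_lit 78) (nat_lit 0) (nat_lit 0) (XT.lf (nat_lit 0) (nat_lit 767710069) (nat_lit 304) (nat_lit 2909292377) (nat_lit 380) (nat_lit 6999243137) (nat_lit 68) (nat_lit 5) (nat_lit 72) (nat_lit 5) (nat_lit 73) (nat_lit 5) (nat_lit 316) (nat_lit 243) (nat_lit 221)) (XT.lf (nat_lit 0) (nat_lit 7061063037) (nat_lit 380) (nat_lit 3503806998) (nat_lit 76) (nat_lit 298139126) (nat_lit 68) (nat_lit 5) (nat_lit 73) (nat_lit 5) (nat_lit 69) (nat_lit 4) (nat_lit 317) (nat_lit 243) (nat_lit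 220)))) (XT.nd (nat_lit 156) (nat_lit 456) (nat_lit 0) (XT.nd (nat_lit 78) (nat_lit 76) (nat_lit 0) (XT.lf (nat_lit 0) (nat_lit 3024887345) (nat_lit 228) (nat_lit 7515159062) (nat_lit 304) (nat_lit 515582086) (nat_lit 65) (nat_lit 5) (nat_lit 68) (nat_lit 5) (nat_lit 69) (nat_lit 4) (nat_lit 318) (nat_lit 243) (nat_lit 219)) (XT.lf (nat_lit 0) (nat_lit 2784892149) (nat_lit 304) (nat_lit 1558393069) (nat_lit 76) (nat_lit 6910820111) (nat_lit 64) (nat_lit 5) (nat_lit 68) (nat_lit 5) (nat_lit 65) (nat_lit 5) (nat_lit 319) (nat_lit 243) (nat_lit 218))) (XT.nd (nat_lit 78) (nat_lit 228) (nat_lit 0) (XT.lf (nat_lit 0) (nat_lit 5106786296) (nat_lit 228) (nat_lit 1053970870) (nat_lit 304) (nat_lit 5298074200) (nat_lit 61) (nat_lit 5) (nat_lit 64) (nat_lit 5) (nat_lit 65) (nat_lit 5) (nat_lit 320) (nat_lit 243) (nat_lit 217)) (XT.lf (nat_lit 0) (nat_lit 219820855) (nat_lit 228) (nat_lit 9396749937) (nat_lit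 304) (nat_lit 2053816969) (nat_lit 58) (nat_lit 5) (nat_lit 61) (nat_lit 5) (nat_lit 62) (nat_lit 4) (nat_lit 321) (nat_lit 243) (nat_lit 216))))))))
noncomputable def xc63 : XT := (XT.nd (nat_lit 2106) (nat_lit 1140) (nat_lit 0) (XT.nd (nat_lit 1014) (nat_lit 988) (nat_lit 0) (XT.nd (nat_lit 468) (nat_lit 684) (nat_lit 0) (XT.nd (nat_lit 234) (nat_lit 456) (nat_lit 0) (XT.nd (nat_lit 78) (nat_lit 228) (nat_lit 0) (XT.lf (nat_lit 0) (nat_lit 1276314800) (nat_lit 304) (nat_lit 4887603050) (nat_lit 76) (nat_lit 5723637314) (nat_lit 57) (nat_lit 5) (nat_lit 61) (nat_lit 5) (nat_lit 58) (nat_lit 5) (nat_lit 322) (nat_lit 243) (nat_lit 215)) (XT.nd (nat_lit 78) (nat_lit 0) (nat_lit 0) (XT.lf (nat_lit 0) (nat_lit 1792880351) (nat_lit 228) (nat_lit 2829679286) (nat_lit 304) (nat_lit 7489387859) (nat_lit 54) (nat_lit 5) (nat_lit 57) (nat_lit 5) (nat_lit 58) (nat_lit 5) (nat_lit 323) (nat_lit 243) (nat_lit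 214)) (XT.lf (nat_lit 0) (nat_lit 8065618395) (nat_lit 304) (nat_lit 3668501866) (nat_lit 76) (nat_lit 609101859) (nat_lit 54) (nat_lit 5) (nat_lit 58) (nat_lit 5) (nat_lit 55) (nat_lit 4) (nat_lit 324) (nat_lit 243) (nat_lit 213)))) (XT.nd (nat_lit 78) (nat_lit 304) (nat_lit 0) (XT.lf (nat_lit 0) (nat_lit 3122673173) (nat_lit 152) (nat_lit 8489825575) (nat_lit 228) (nat_lit 968962394) (nat_lit 52) (nat_lit 5) (nat_lit 54) (nat_lit 5) (nat_lit 55) (nat_lit 4) (nat_lit 325) (nat_lit 243) (nat_lit 212)) (XT.nd (nat_lit 78) (nat_lit 228) (nat_lit 0) (XT.lf (nat_lit 0) (nat_lit 2371452718) (nat_lit 228) (nat_lit 2748868223) (nat_lit 76) (nat_lit 7706459490) (nat_lit 51) (nat_lit 5) (nat_lit 54) (nat_lit 5) (nat_lit 52) (nat_lit 5) (nat_lit 326) (nat_lit 243) (nat_lit 211)) (XT.lf (nat_lit 0) (nat_lit 4144201357) (nat_lit 228) (nat_lit 1632604958) (nat_lit 304) (nat_lit 7302877623) (nat_lit 48) (nat_lit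 5) (nat_lit 51) (nat_lit 5) (nat_lit 52) (nat_lit 5) (nat_lit 327) (nat_lit 243) (nat_lit 210))))) (XT.nd (nat_lit 234) (nat_lit 456) (nat_lit 0) (XT.nd (nat_lit 78) (nat_lit 228) (nat_lit 0) (XT.lf (nat_lit 0) (nat_lit 9276001938) (nat_lit 304) (nat_lit 2147948031) (nat_lit 76) (nat_lit 1916511504) (nat_lit 48) (nat_lit 5) (nat_lit 52) (nat_lit 5) (nat_lit 49) (nat_lit 4) (nat_lit 328) (nat_lit 243) (nat_lit 209)) (XT.nd (nat_lit 78) (nat_lit 76) (nat_lit 0) (XT.lf (nat_lit 0) (nat_lit 4834092020) (nat_lit 152) (nat_lit 8055131697) (nat_lit 228) (nat_lit 719603387) (nat_lit 46) (nat_lit 5) (nat_lit 48) (nat_lit 5) (nat_lit 49) (nat_lit 4) (nat_lit 329) (nat_lit 243) (nat_lit 208)) (XT.lf (nat_lit 0) (nat_lit 2640906648) (nat_lit 228) (nat_lit 1928911865) (nat_lit 76) (nat_lit 9315618549) (nat_lit 45) (nat_lit 5) (nat_lit 48) (nat_lit 5) (nat_lit 46) (nat_lit 5) (nat_lit 330) (nat_lit 243) (nat_lit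 207)))) (XT.nd (nat_lit 156) (nat_lit 228) (nat_lit 0) (XT.nd (nat_lit 78) (nat_lit 0) (nat_lit 0) (XT.lf (nat_lit 0) (nat_lit 5130293030) (nat_lit 228) (nat_lit 954936427) (nat_lit 304) (nat_lit 8085011494) (nat_lit 42) (nat_lit 5) (nat_lit 45) (nat_lit 5) (nat_lit 46) (nat_lit 5) (nat_lit 331) (nat_lit 243) (nat_lit 206)) (XT.lf (nat_lit 0) (nat_lit 9627694114) (nat_lit 304) (nat_lit 2134389360) (nat_lit 76) (nat_lit 2701693351) (nat_lit 42) (nat_lit 5) (nat_lit 46) (nat_lit 5) (nat_lit 43) (nat_lit 4) (nat_lit 332) (nat_lit 243) (nat_lit 205))) (XT.nd (nat_lit 78) (nat_lit 76) (nat_lit 0) (XT.lf (nat_lit 0) (nat_lit 4983213536) (nat_lit 152) (nat_lit 8300604427) (nat_lit 228) (nat_lit 1482110547) (nat_lit 40) (nat_lit 5) (nat_lit 42) (nat_lit 5) (nat_lit 43) (nat_lit 4) (nat_lit 333) (nat_lit 243) (nat_lit 204)) (XT.lf (nat_lit 0) (nat_lit 1905934228) (nat_lit 228) (nat_lit 2820691130) (nat_lit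 76) (nat_lit 10350821755) (nat_lit 39) (nat_lit 5) (nat_lit 42) (nat_lit 5) (nat_lit 40) (nat_lit 5) (nat_lit 334) (nat_lit 243) (nat_lit 203)))))) (XT.nd (nat_lit 546) (nat_lit 456) (nat_lit 0) (XT.nd (nat_lit 234) (nat_lit 228) (nat_lit 0) (XT.nd (nat_lit 78) (nat_lit 152) (nat_lit 0) (XT.lf (nat_lit 0) (nat_lit 4339502967) (nat_lit 152) (nat_lit 1019670642) (nat_lit 228) (nat_lit 10038925805) (nat_lit 37) (nat_lit 5) (nat_lit 39) (nat_lit 5) (nat_lit 40) (nat_lit 5) (nat_lit 335) (nat_lit 243) (nat_lit 202)) (XT.nd (nat_lit 78) (nat_lit 152) (nat_lit 0) (XT.lf (nat_lit 0) (nat_lit 8923636247) (nat_lit 228) (nat_lit 4063430095) (nat_lit 76) (nat_lit 2741103965) (nat_lit 37) (nat_lit 5) (nat_lit 40) (nat_lit 5) (nat_lit 38) (nat_lit 4) (nat_lit 336) (nat_lit 243) (nat_lit 201)) (XT.lf (nat_lit 0) (nat_lit 3113558290) (nat_lit 152) (nat_lit 9474858665) (nat_lit 228) (nat_lit 3479951839) (nat_lit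 35) (nat_lit 5) (nat_lit 37) (nat_lit 5) (nat_lit 38) (nat_lit 4) (nat_lit 337) (nat_lit 243) (nat_lit 200)))) (XT.nd (nat_lit 156) (nat_lit 0) (nat_lit 0) (XT.nd (nat_lit 78) (nat_lit 228) (nat_lit 0) (XT.lf (nat_lit 0) (nat_lit 10511230223) (nat_lit 152) (nat_lit 5846911991) (nat_lit 228) (nat_lit 60807196) (nat_lit 35) (nat_lit 5) (nat_lit 37) (nat_lit 5) (nat_lit 38) (nat_lit 4) (nat_lit 338) (nat_lit 243) (nat_lit 199)) (XT.lf (nat_lit 0) (nat_lit 1265637318) (nat_lit 152) (nat_lit 2094747439) (nat_lit 228) (nat_lit 13419679105) (nat_lit 32) (nat_lit 5) (nat_lit 34) (nat_lit 5) (nat_lit 35) (nat_lit 5) (nat_lit 339) (nat_lit 243) (nat_lit 198))) (XT.nd (nat_lit 78) (nat_lit 0) (nat_lit 0) (XT.lf (nat_lit 0) (nat_lit 6915379216) (nat_lit 228) (nat_lit 8470018198) (nat_lit 76) (nat_lit 1765648587) (nat_lit 32) (nat_lit 5) (nat_lit 35) (nat_lit 5) (nat_lit 33) (nat_lit 4) (nat_lit 340) (nat_lit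 243) (nat_lit 197)) (XT.lf (nat_lit 0) (nat_lit 10554198266) (nat_lit 228) (nat_lit 1309664524) (nat_lit 76) (nat_lit 5670002857) (nat_lit 32) (nat_lit 5) (nat_lit 35) (nat_lit 5) (nat_lit 33) (nat_lit 4) (nat_lit 341) (nat_lit 243) (nat_lit 196))))) (XT.nd (nat_lit 234) (nat_lit 76) (nat_lit 0) (XT.nd (nat_lit 78) (nat_lit 228) (nat_lit 0) (XT.lf (nat_lit 0) (nat_lit 6112300080) (nat_lit 152) (nat_lit 8206340550) (nat_lit 228) (nat_lit 3609058097) (nat_lit 30) (nat_lit 5) (nat_lit 32) (nat_lit 5) (nat_lit 33) (nat_lit 4) (nat_lit 342) (nat_lit 243) (nat_lit 195)) (XT.nd (nat_lit 78) (nat_lit 228) (nat_lit 0) (XT.lf (nat_lit 0) (nat_lit 13712008310) (nat_lit 152) (nat_lit 4455478689) (nat_lit 228) (nat_lit 166737628) (nat_lit 30) (nat_lit 5) (nat_lit 32) (nat_lit 5) (nat_lit 33) (nat_lit 4) (nat_lit 343) (nat_lit 243) (nat_lit 194)) (XT.lf (nat_lit 0) (nat_lit 2737186376) (nat_lit 152) (nat_lit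 561083579) (nat_lit 228) (nat_lit 15454162117) (nat_lit 27) (nat_lit 5) (nat_lit 29) (nat_lit 5) (nat_lit 30) (nat_lit 5) (nat_lit 344) (nat_lit 243) (nat_lit 193)))) (XT.nd (nat_lit 156) (nat_lit 76) (nat_lit 0) (XT.nd (nat_lit 78) (nat_lit 0) (nat_lit 0) (XT.lf (nat_lit 0) (nat_lit 6903457922) (nat_lit 228) (nat_lit 8875708778) (nat_lit 76) (nat_lit 3402802158) (nat_lit 27) (nat_lit 5) (nat_lit 30) (nat_lit 5) (nat_lit 28) (nat_lit 4) (nat_lit 345) (nat_lit 243) (nat_lit 192)) (XT.lf (nat_lit 0) (nat_lit 10582821932) (nat_lit 228) (nat_lit 1596247308) (nat_lit 76) (nat_lit 7446361396) (nat_lit 27) (nat_lit 5) (nat_lit 30) (nat_lit 5) (nat_lit 28) (nat_lit 4) (nat_lit 346) (nat_lit 243) (nat_lit 191))) (XT.nd (nat_lit 78) (nat_lit 0) (nat_lit 0) (XT.lf (nat_lit 0) (nat_lit 5951018693) (nat_lit 76) (nat_lit 8440369623) (nat_lit 152) (nat_lit 5690262242) (nat_lit 26) (nat_lit 5) (nat_lit 27) (nat_lit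 5) (nat_lit 28) (nat_lit 4) (nat_lit 347) (nat_lit 243) (nat_lit 190)) (XT.lf (nat_lit 0) (nat_lit 13691373032) (nat_lit 76) (nat_lit 4601057288) (nat_lit 152) (nat_lit 2259798579) (nat_lit 26) (nat_lit 5) (nat_lit 27) (nat_lit 5) (nat_lit 28) (nat_lit 4) (nat_lit 348) (nat_lit 243) (nat_lit 189))))))) (XT.nd (nat_lit 1014) (nat_lit 532) (nat_lit 0) (XT.nd (nat_lit 468) (nat_lit 304) (nat_lit 0) (XT.nd (nat_lit 234) (nat_lit 76) (nat_lit 0) (XT.nd (nat_lit 78) (nat_lit 0) (nat_lit 0) (XT.lf (nat_lit 0) (nat_lit 560830230) (nat_lit 152) (nat_lit 656109426) (nat_lit 228) (nat_lit 19820588607) (nat_lit 23) (nat_lit 5) (nat_lit 25) (nat_lit 5) (nat_lit 26) (nat_lit 5) (nat_lit 349) (nat_lit 243) (nat_lit 188)) (XT.nd (nat_lit 78) (nat_lit 0) (nat_lit 0) (XT.lf (nat_lit 0) (nat_lit 4818301748) (nat_lit 228) (nat_lit 13310414577) (nat_lit 76) (nat_lit 3406043632) (nat_lit 23) (nat_lit 5) (nat_lit 26)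 (nat_lit 5) (nat_lit 24) (nat_lit 4) (nat_lit 350) (nat_lit 243) (nat_lit 187)) (XT.lf (nat_lit 0) (nat_lit 8498300170) (nat_lit 228) (nat_lit 5998844553) (nat_lit 76) (nat_lit 7550662350) (nat_lit 23) (nat_lit 5) (nat_lit 26) (nat_lit 5) (nat_lit 24) (nat_lit 4) (nat_lit 351) (nat_lit 243) (nat_lit 186)))) (XT.nd (nat_lit 78) (nat_lit 0) (nat_lit 0) (XT.lf (nat_lit 0) (nat_lit 1499977682) (nat_lit 76) (nat_lit 10768284548) (nat_lit 152) (nat_lit 10308612315) (nat_lit 22) (nat_lit 5) (nat_lit 23) (nat_lit 5) (nat_lit 24) (nat_lit 4) (nat_lit 352) (nat_lit 243) (nat_lit 185)) (XT.nd (nat_lit 78) (nat_lit 0) (nat_lit 0) (XT.lf (nat_lit 0) (nat_lit 9285971777) (nat_lit 76) (nat_lit 6891504029) (nat_lit 152) (nat_lit 6943569051) (nat_lit 22) (nat_lit 5) (nat_lit 23) (nat_lit 5) (nat_lit 24) (nat_lit 4) (nat_lit 353) (nat_lit 243) (nat_lit 184)) (XT.lf (nat_lit 0) (nat_lit 17246552257) (nat_lit 76)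 (nat_lit 2923992256) (nat_lit 152) (nat_lit 3512013350) (nat_lit 22) (nat_lit 5) (nat_lit 23) (nat_lit 5) (nat_lit 24) (nat_lit 4) (nat_lit 354) (nat_lit 243) (nat_lit 183))))) (XT.nd (nat_lit 234) (nat_lit 76) (nat_lit 0) (XT.nd (nat_lit 78) (nat_lit 0) (nat_lit 0) (XT.lf (nat_lit 0) (nat_lit 11359428) (nat_lit 228) (nat_lit 23123317675) (nat_lit 76) (nat_lit 1126567481) (nat_lit 19) (nat_lit 5) (nat_lit 22) (nat_lit 5) (nat_lit 20) (nat_lit 4) (nat_lit 355) (nat_lit 243) (nat_lit 182)) (XT.nd (nat_lit 78) (nat_lit 0) (nat_lit 0) (XT.lf (nat_lit 0) (nat_lit 3631810085) (nat_lit 228) (nat_lit 15906817762) (nat_lit 76) (nat_lit 5315775625) (nat_lit 19) (nat_lit 5) (nat_lit 22) (nat_lit 5) (nat_lit 20) (nat_lit 4) (nat_lit 356) (nat_lit 243) (nat_lit 181)) (XT.lf (nat_lit 0) (nat_lit 7329204120) (nat_lit 228) (nat_lit 8530248569) (nat_lit 76) (nat_lit 9606867820) (nat_lit 19) (nat_lit 5) (nat_lit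 22) (nat_lit 5) (nat_lit 20) (nat_lit 4) (nat_lit 357) (nat_lit 243) (nat_lit 180)))) (XT.nd (nat_lit 156) (nat_lit 0) (nat_lit 0) (XT.nd (nat_lit 78) (nat_lit 76) (nat_lit 0) (XT.lf (nat_lit 0) (nat_lit 11106772267) (nat_lit 228) (nat_lit 987164551) (nat_lit 76) (nat_lit 14003593564) (nat_lit 19) (nat_lit 5) (nat_lit 22) (nat_lit 5) (nat_lit 20) (nat_lit 4) (nat_lit 358) (nat_lit 243) (nat_lit 179)) (XT.lf (nat_lit 0) (nat_lit 6862946135) (nat_lit 76) (nat_lit 8170840014) (nat_lit 152) (nat_lit 11712819358) (nat_lit 18) (nat_lit 5) (nat_lit 19) (nat_lit 5) (nat_lit 20) (nat_lit 4) (nat_lit 359) (nat_lit 243) (nat_lit 178))) (XT.nd (nat_lit 78) (nat_lit 0) (nat_lit 0) (XT.lf (nat_lit 0) (nat_lit 14916130834) (nat_lit 76) (nat_lit 4142959124) (nat_lit 152) (nat_lit 8356660695) (nat_lit 18) (nat_lit 5) (nat_lit 19) (nat_lit 5) (nat_lit 20) (nat_lit 4) (nat_lit 360) (nat_lit 243) (nat_lit 177)) (XT.lf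 (nat_lit 0) (nat_lit 23159779800) (nat_lit 76) (nat_lit 16743067) (nat_lit 152) (nat_lit 4929317986) (nat_lit 18) (nat_lit 5) (nat_lit 19) (nat_lit 5) (nat_lit 20) (nat_lit 4) (nat_lit 361) (nat_lit 243) (nat_lit 176)))))) (XT.nd (nat_lit 546) (nat_lit 228) (nat_lit 0) (XT.nd (nat_lit 234) (nat_lit 76) (nat_lit 0) (XT.nd (nat_lit 78) (nat_lit 76) (nat_lit 0) (XT.lf (nat_lit 0) (nat_lit 2797728193) (nat_lit 152) (nat_lit 24659330597) (nat_lit 152) (nat_lit 1358399022) (nat_lit 16) (nat_lit 4) (nat_lit 18) (nat_lit 5) (nat_lit 18) (nat_lit 4) (nat_lit 362) (nat_lit 243) (nat_lit 175)) (XT.nd (nat_lit 78) (nat_lit 0) (nat_lit 0) (XT.lf (nat_lit 0) (nat_lit 2297034805) (nat_lit 228) (nat_lit 18742954125) (nat_lit 76) (nat_lit 8505036652) (nat_lit 15) (nat_lit 5) (nat_lit 18) (nat_lit 5) (nat_lit 16) (nat_lit 4) (nat_lit 363) (nat_lit 243) (nat_lit 174)) (XT.lf (nat_lit 0) (nat_lit 6007689535) (nat_lit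 228) (nat_lit 11312269885) (nat_lit 76) (nat_lit 12976942153) (nat_lit 15) (nat_lit 5) (nat_lit 18) (nat_lit 5) (nat_lit 16) (nat_lit 4) (nat_lit 364) (nat_lit 243) (nat_lit 173)))) (XT.nd (nat_lit 156) (nat_lit 0) (nat_lit 0) (XT.nd (nat_lit 78) (nat_lit 76) (nat_lit 0) (XT.lf (nat_lit 0) (nat_lit 9803314742) (nat_lit 228) (nat_lit 3706126306) (nat_lit 76) (nat_lit 17562693446) (nat_lit 15) (nat_lit 5) (nat_lit 18) (nat_lit 5) (nat_lit 16) (nat_lit 4) (nat_lit 365) (nat_lit 243) (nat_lit 172)) (XT.lf (nat_lit 0) (nat_lit 4163365001) (nat_lit 76) (nat_lit 9563882803) (nat_lit 152) (nat_lit 18142953309) (nat_lit 14) (nat_lit 5) (nat_lit 15) (nat_lit 5) (nat_lit 16) (nat_lit 4) (nat_lit 366) (nat_lit 243) (nat_lit 171))) (XT.nd (nat_lit 78) (nat_lit 0) (nat_lit 0) (XT.lf (nat_lit 0) (nat_lit 12299285934) (nat_lit 76) (nat_lit 5481762324) (nat_lit 152) (nat_lit 14910806582) (nat_lit 14) (nat_lit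 5) (nat_lit 15) (nat_lit 5) (nat_lit 16) (nat_lit 4) (nat_lit 367) (nat_lit 243) (nat_lit 170)) (XT.lf (nat_lit 0) (nat_lit 20634986368) (nat_lit 76) (nat_lit 1296937320) (nat_lit 152) (nat_lit 11606979978) (nat_lit 14) (nat_lit 5) (nat_lit 15) (nat_lit 5) (nat_lit 16) (nat_lit 4) (nat_lit 368) (nat_lit 243) (nat_lit 169))))) (XT.nd (nat_lit 234) (nat_lit 152) (nat_lit 0) (XT.nd (nat_lit 78) (nat_lit 76) (nat_lit 0) (XT.lf (nat_lit 0) (nat_lit 26212283624) (nat_lit 152) (nat_lit 5263120354) (nat_lit 0) (nat_lit 2935820273) (nat_lit 14) (nat_lit 5) (nat_lit 16) (nat_lit 4) (nat_lit 14) (nat_lit 4) (nat_lit 369) (nat_lit 243) (nat_lit 168)) (XT.nd (nat_lit 78) (nat_lit 0) (nat_lit 0) (XT.lf (nat_lit 0) (nat_lit 2602566080) (nat_lit 76) (nat_lit 28033037267) (nat_lit 76) (nat_lit 4673683415) (nat_lit 13) (nat_lit 4) (nat_lit 14) (nat_lit 5) (nat_lit 14) (nat_lit 4) (nat_lit 370) (nat_lit 243) (nat_lit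 167)) (XT.lf (nat_lit 0) (nat_lit 10770247524) (nat_lit 76) (nat_lit 24451489394) (nat_lit 76) (nat_lit 1011659327) (nat_lit 13) (nat_lit 4) (nat_lit 14) (nat_lit 5) (nat_lit 14) (nat_lit 4) (nat_lit 371) (nat_lit 243) (nat_lit 166)))) (XT.nd (nat_lit 156) (nat_lit 76) (nat_lit 0) (XT.nd (nat_lit 78) (nat_lit 0) (nat_lit 0) (XT.lf (nat_lit 0) (nat_lit 2683771942) (nat_lit 152) (nat_lit 18069905270) (nat_lit 76) (nat_lit 16431441594) (nat_lit 12) (nat_lit 5) (nat_lit 14) (nat_lit 5) (nat_lit 13) (nat_lit 4) (nat_lit 372) (nat_lit 243) (nat_lit 165)) (XT.lf (nat_lit 0) (nat_lit 6447799208) (nat_lit 152) (nat_lit 10504786470) (nat_lit 76) (nat_lit 21213172680) (nat_lit 12) (nat_lit 5) (nat_lit 14) (nat_lit 5) (nat_lit 13) (nat_lit 4) (nat_lit 373) (nat_lit 243) (nat_lit 164))) (XT.nd (nat_lit 78) (nat_lit 76) (nat_lit 0) (XT.lf (nat_lit 0) (nat_lit 10303452543) (nat_lit 152) (nat_lit 2751457336)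 (nat_lit 76) (nat_lit 26121553633) (nat_lit 12) (nat_lit 5) (nat_lit 14) (nat_lit 5) (nat_lit 13) (nat_lit 4) (nat_lit 374) (nat_lit 243) (nat_lit 163)) (XT.lf (nat_lit 0) (nat_lit 5300284526) (nat_lit 76) (nat_lit 9004766015) (nat_lit 152) (nat_lit 25911538381) (nat_lit 11) (nat_lit 5) (nat_lit 12) (nat_lit 5) (nat_lit 13) (nat_lit 4) (nat_lit 375) (nat_lit 243) (nat_lit 162))))))))
noncomputable def xc64 : XT := (XT.nd (nat_lit 2028) (nat_lit 76) (nat_lit 0) (XT.nd (nat_lit 1014) (nat_lit 152) (nat_lit 0) (XT.nd (nat_lit 468) (nat_lit 152) (nat_lit 0) (XT.nd (nat_lit 234) (nat_lit 76) (nat_lit 0) (XT.nd (nat_lit 78) (nat_lit 0) (nat_lit 0) (XT.lf (nat_lit 0) (nat_lit 13612734811) (nat_lit 76) (nat_lit 4821315619) (nat_lit 152) (nat_lit 22853654184) (nat_lit 11) (nat_lit 5) (nat_lit 12) (nat_lit 5) (nat_lit 13) (nat_lit 4) (nat_lit 376) (nat_lit 243) (nat_lit 161)) (XT.nd (nat_lit 78) (nat_lit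 0) (nat_lit 0) (XT.lf (nat_lit 0) (nat_lit 22138397425) (nat_lit 76) (nat_lit 528687574) (nat_lit 152) (nat_lit 19724470766) (nat_lit 11) (nat_lit 5) (nat_lit 12) (nat_lit 5) (nat_lit 13) (nat_lit 4) (nat_lit 377) (nat_lit 243) (nat_lit 160)) (XT.lf (nat_lit 0) (nat_lit 27045119855) (nat_lit 152) (nat_lit 12681651767) (nat_lit 0) (nat_lit 3801217281) (nat_lit 11) (nat_lit 5) (nat_lit 13) (nat_lit 4) (nat_lit 11) (nat_lit 4) (nat_lit 378) (nat_lit 243) (nat_lit 159)))) (XT.nd (nat_lit 78) (nat_lit 76) (nat_lit 0) (XT.lf (nat_lit 0) (nat_lit 31540885675) (nat_lit 152) (nat_lit 4922739412) (nat_lit 0) (nat_lit 8235304783) (nat_lit 11) (nat_lit 5) (nat_lit 13) (nat_lit 4) (nat_lit 11) (nat_lit 4) (nat_lit 379) (nat_lit 243) (nat_lit 158)) (XT.nd (nat_lit 78) (nat_lit 0) (nat_lit 0) (XT.lf (nat_lit 0) (nat_lit 3095851638) (nat_lit 76) (nat_lit 33087136309) (nat_lit 76) (nat_lit 9721673556) (nat_lit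 10) (nat_lit 4) (nat_lit 11) (nat_lit 5) (nat_lit 11) (nat_lit 4) (nat_lit 380) (nat_lit 243) (nat_lit 157)) (XT.lf (nat_lit 0) (nat_lit 11422740294) (nat_lit 76) (nat_lit 29573241292) (nat_lit 76) (nat_lit 6149640809) (nat_lit 10) (nat_lit 4) (nat_lit 11) (nat_lit 5) (nat_lit 11) (nat_lit 4) (nat_lit 381) (nat_lit 243) (nat_lit 156))))) (XT.nd (nat_lit 234) (nat_lit 76) (nat_lit 0) (XT.nd (nat_lit 78) (nat_lit 76) (nat_lit 0) (XT.lf (nat_lit 0) (nat_lit 19967230309) (nat_lit 76) (nat_lit 25968579657) (nat_lit 76) (nat_lit 2488534777) (nat_lit 10) (nat_lit 4) (nat_lit 11) (nat_lit 5) (nat_lit 11) (nat_lit 4) (nat_lit 382) (nat_lit 243) (nat_lit 155)) (XT.nd (nat_lit 78) (nat_lit 0) (nat_lit 0) (XT.lf (nat_lit 0) (nat_lit 1240161910) (nat_lit 152) (nat_lit 21017316587) (nat_lit 76) (nat_lit 27484102628) (nat_lit 9) (nat_lit 5) (nat_lit 11) (nat_lit 5) (nat_lit 10) (nat_lit 4) (nat_lit 383) (nat_lit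 243) (nat_lit 154)) (XT.lf (nat_lit 0) (nat_lit 5013985720) (nat_lit 152) (nat_lit 13409658512) (nat_lit 76) (nat_lit 32674458170) (nat_lit 9) (nat_lit 5) (nat_lit 11) (nat_lit 5) (nat_lit 10) (nat_lit 4) (nat_lit 384) (nat_lit 243) (nat_lit 153)))) (XT.nd (nat_lit 156) (nat_lit 0) (nat_lit 0) (XT.nd (nat_lit 78) (nat_lit 76) (nat_lit 0) (XT.lf (nat_lit 0) (nat_lit 8884794443) (nat_lit 152) (nat_lit 5603571423) (nat_lit 76) (nat_lit 38007445656) (nat_lit 9) (nat_lit 5) (nat_lit 11) (nat_lit 5) (nat_lit 10) (nat_lit 4) (nat_lit 385) (nat_lit 243) (nat_lit 152)) (XT.lf (nat_lit 0) (nat_lit 2455684787) (nat_lit 76) (nat_lit 10423891097) (nat_lit 152) (nat_lit 41055645735) (nat_lit 8) (nat_lit 5) (nat_lit 9) (nat_lit 5) (nat_lit 10) (nat_lit 4) (nat_lit 386) (nat_lit 243) (nat_lit 151))) (XT.nd (nat_lit 78) (nat_lit 0) (nat_lit 0) (XT.lf (nat_lit 0) (nat_lit 10842937313) (nat_lit 76) (nat_lit 6192275004)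 (nat_lit 152) (nat_lit 38381376362) (nat_lit 8) (nat_lit 5) (nat_lit 9) (nat_lit 5) (nat_lit 10) (nat_lit 4) (nat_lit 387) (nat_lit 243) (nat_lit 150)) (XT.lf (nat_lit 0) (nat_lit 19453992763) (nat_lit 76) (nat_lit 1846405143) (nat_lit 152) (nat_lit 35642457305) (nat_lit 8) (nat_lit 5) (nat_lit 9) (nat_lit 5) (nat_lit 10) (nat_lit 4) (nat_lit 388) (nat_lit 243) (nat_lit 149)))))) (XT.nd (nat_lit 468) (nat_lit 76) (nat_lit 0) (XT.nd (nat_lit 234) (nat_lit 76) (nat_lit 0) (XT.nd (nat_lit 78) (nat_lit 0) (nat_lit 0) (XT.lf (nat_lit 0) (nat_lit 25704020674) (nat_lit 152) (nat_lit 30244140648) (nat_lit 0) (nat_lit 2566438686) (nat_lit 8) (nat_lit 5) (nat_lit 10) (nat_lit 4) (nat_lit 8) (nat_lit 4) (nat_lit 389) (nat_lit 243) (nat_lit 148)) (XT.nd (nat_lit 78) (nat_lit 0) (nat_lit 0) (XT.lf (nat_lit 0) (nat_lit 30243666348) (nat_lit 152) (nat_lit 22826893527) (nat_lit 0) (nat_lit 7062824430) (nat_lit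 8) (nat_lit 5) (nat_lit 10) (nat_lit 4) (nat_lit 8) (nat_lit 4) (nat_lit 390) (nat_lit 243) (nat_lit 147)) (XT.lf (nat_lit 0) (nat_lit 34905552833) (nat_lit 152) (nat_lit 15212891220) (nat_lit 0) (nat_lit 11682710982) (nat_lit 8) (nat_lit 5) (nat_lit 10) (nat_lit 4) (nat_lit 8) (nat_lit 4) (nat_lit 391) (nat_lit 243) (nat_lit 146)))) (XT.nd (nat_lit 78) (nat_lit 76) (nat_lit 0) (XT.lf (nat_lit 0) (nat_lit 39693753623) (nat_lit 152) (nat_lit 7395480715) (nat_lit 0) (nat_lit 16430135138) (nat_lit 8) (nat_lit 5) (nat_lit 10) (nat_lit 4) (nat_lit 8) (nat_lit 4) (nat_lit 392) (nat_lit 243) (nat_lit 145)) (XT.nd (nat_lit 78) (nat_lit 0) (nat_lit 0) (XT.lf (nat_lit 0) (nat_lit 644750131) (nat_lit 76) (nat_lit 43973900182) (nat_lit 76) (nat_lit 20670692733) (nat_lit 7) (nat_lit 4) (nat_lit 8) (nat_lit 5) (nat_lit 8) (nat_lit 4) (nat_lit 393) (nat_lit 243) (nat_lit 144)) (XT.lf (nat_lit 0) (nat_lit 9053742710)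 (nat_lit 76) (nat_lit 40699235004) (nat_lit 76) (nat_lit 17357591666) (nat_lit 7) (nat_lit 4) (nat_lit 8) (nat_lit 5) (nat_lit 8) (nat_lit 4) (nat_lit 394) (nat_lit 243) (nat_lit 143))))) (XT.nd (nat_lit 234) (nat_lit 76) (nat_lit 0) (XT.nd (nat_lit 78) (nat_lit 0) (nat_lit 0) (XT.lf (nat_lit 0) (nat_lit 17691660116) (nat_lit 76) (nat_lit 37337057300) (nat_lit 76) (nat_lit 13958097566) (nat_lit 7) (nat_lit 4) (nat_lit 8) (nat_lit 5) (nat_lit 8) (nat_lit 4) (nat_lit 395) (nat_lit 243) (nat_lit 142)) (XT.nd (nat_lit 78) (nat_lit 0) (nat_lit 0) (XT.lf (nat_lit 0) (nat_lit 26566050045) (nat_lit 76) (nat_lit 33884429244) (nat_lit 76) (nat_lit 10469240000) (nat_lit 7) (nat_lit 4) (nat_lit 8) (nat_lit 5) (nat_lit 8) (nat_lit 4) (nat_lit 396) (nat_lit 243) (nat_lit 141)) (XT.lf (nat_lit 0) (nat_lit 35684666817) (nat_lit 76) (nat_lit 30338333979) (nat_lit 76) (nat_lit 6887970451) (nat_lit 7) (nat_lit 4)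 (nat_lit 8) (nat_lit 5) (nat_lit 8) (nat_lit 4) (nat_lit 397) (nat_lit 243) (nat_lit 140)))) (XT.nd (nat_lit 156) (nat_lit 0) (nat_lit 0) (XT.nd (nat_lit 78) (nat_lit 76) (nat_lit 0) (XT.lf (nat_lit 0) (nat_lit 45055478157) (nat_lit 76) (nat_lit 26695672972) (nat_lit 76) (nat_lit 3211159657) (nat_lit 7) (nat_lit 4) (nat_lit 8) (nat_lit 5) (nat_lit 8) (nat_lit 4) (nat_lit 398) (nat_lit 243) (nat_lit 139)) (XT.lf (nat_lit 0) (nat_lit 553391554) (nat_lit 152) (nat_lit 22394283594) (nat_lit 76) (nat_lit 54127692428) (nat_lit 6) (nat_lit 5) (nat_lit 8) (nat_lit 5) (nat_lit 7) (nat_lit 4) (nat_lit 399) (nat_lit 243) (nat_lit 138))) (XT.nd (nat_lit 78) (nat_lit 0) (nat_lit 0) (XT.lf (nat_lit 0) (nat_lit 4355343084) (nat_lit 152) (nat_lit 14708511439) (nat_lit 76) (nat_lit 60187340898) (nat_lit 6) (nat_lit 5) (nat_lit 8) (nat_lit 5) (nat_lit 7) (nat_lit 4) (nat_lit 400) (nat_lit 243) (nat_lit 137)) (XT.lf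 (nat_lit 0) (nat_lit 8260678316) (nat_lit 152) (nat_lit 6811932812) (nat_lit 76) (nat_lit 66420010434) (nat_lit 6) (nat_lit 5) (nat_lit 8) (nat_lit 5) (nat_lit 7) (nat_lit 4) (nat_lit 401) (nat_lit 243) (nat_lit 136))))))) (XT.nd (nat_lit 32526) (nat_lit 0) (nat_lit 6080) (XT.nd (nat_lit 468) (nat_lit 0) (nat_lit 0) (XT.nd (nat_lit 234) (nat_lit 0) (nat_lit 0) (XT.nd (nat_lit 78) (nat_lit 0) (nat_lit 0) (XT.lf (nat_lit 0) (nat_lit 1328271573) (nat_lit 76) (nat_lit 10957306266) (nat_lit 152) (nat_lit 71515643641) (nat_lit 5) (nat_lit 5) (nat_lit 6) (nat_lit 5) (nat_lit 7) (nat_lit 4) (nat_lit 402) (nat_lit 243) (nat_lit 135)) (XT.nd (nat_lit 78) (nat_lit 0) (nat_lit 0) (XT.lf (nat_lit 0) (nat_lit 9833317219) (nat_lit 76) (nat_lit 6656449563) (nat_lit 152) (nat_lit 69687559370) (nat_lit 5) (nat_lit 5) (nat_lit 6) (nat_lit 5) (nat_lit 7) (nat_lit 4) (nat_lit 403) (nat_lit 243) (nat_lit 134)) (XT.lf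 (nat_lit 0) (nat_lit 18575064898) (nat_lit 76) (nat_lit 2235070154) (nat_lit 152) (nat_lit 67814880242) (nat_lit 5) (nat_lit 5) (nat_lit 6) (nat_lit 5) (nat_lit 7) (nat_lit 4) (nat_lit 404) (nat_lit 243) (nat_lit 133)))) (XT.nd (nat_lit 78) (nat_lit 0) (nat_lit 0) (XT.lf (nat_lit 0) (nat_lit 25272669547) (nat_lit 152) (nat_lit 63607486451) (nat_lit 0) (nat_lit 2265605312) (nat_lit 5) (nat_lit 5) (nat_lit 7) (nat_lit 4) (nat_lit 5) (nat_lit 4) (nat_lit 405) (nat_lit 243) (nat_lit 132)) (XT.nd (nat_lit 78) (nat_lit 0) (nat_lit 0) (XT.lf (nat_lit 0) (nat_lit 29881757061) (nat_lit 152) (nat_lit 57011475254) (nat_lit 0) (nat_lit 6848519856) (nat_lit 5) (nat_lit 5) (nat_lit 7) (nat_lit 4) (nat_lit 5) (nat_lit 4) (nat_lit 406) (nat_lit 243) (nat_lit 131)) (XT.lf (nat_lit 0) (nat_lit 34619940090) (nat_lit 152) (nat_lit 50234668436) (nat_lit 0) (nat_lit 11561292234) (nat_lit 5) (nat_lit 5) (nat_lit 7)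 (nat_lit 4) (nat_lit 5) (nat_lit 4) (nat_lit 407) (nat_lit 243) (nat_lit 130))))) (XT.nd (nat_lit 31746) (nat_lit 0) (nat_lit 9728) (XT.nd (nat_lit 31590) (nat_lit 0) (nat_lit 11324) (XT.lf (nat_lit 0) (nat_lit 39491358793) (nat_lit 152) (nat_lit 43271144518) (nat_lit 0) (nat_lit 16408040404) (nat_lit 5) (nat_lit 5) (nat_lit 7) (nat_lit 4) (nat_lit 5) (nat_lit 4) (nat_lit 408) (nat_lit 243) (nat_lit 129)) (XT.nd (nat_lit 78) (nat_lit 0) (nat_lit 0) (XT.lf (nat_lit 0) (nat_lit 281240906) (nat_lit 532) (nat_lit 1770438993) (nat_lit 532) (nat_lit 1770438993) (nat_lit 154) (nat_lit 4) (nat_lit 161) (nat_lit 5) (nat_lit 161) (nat_lit 4) (nat_lit 292) (nat_lit 244) (nat_lit 244)) (XT.lf (nat_lit 0) (nat_lit 5954747724) (nat_lit 532) (nat_lit 1572101343) (nat_lit 532) (nat_lit 197929297) (nat_lit 154) (nat_lit 4) (nat_lit 161) (nat_lit 5) (nat_lit 161) (nat_lit 4) (nat_lit 293) (nat_lit 244) (nat_lit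 243)))) (XT.nd (nat_lit 156) (nat_lit 532) (nat_lit 0) (XT.nd (nat_lit 78) (nat_lit 532) (nat_lit 0) (XT.lf (nat_lit 0) (nat_lit 3129665216) (nat_lit 532) (nat_lit 4178612055) (nat_lit 0) (nat_lit 500228650) (nat_lit 147) (nat_lit 5) (nat_lit 154) (nat_lit 4) (nat_lit 147) (nat_lit 4) (nat_lit 294) (nat_lit 244) (nat_lit 242)) (XT.lf (nat_lit 0) (nat_lit 1232735260) (nat_lit 532) (nat_lit 5275218877) (nat_lit 532) (nat_lit 1388220225) (nat_lit 140) (nat_lit 4) (nat_lit 147) (nat_lit 5) (nat_lit 147) (nat_lit 4) (nat_lit 295) (nat_lit 244) (nat_lit 241))) (XT.nd (nat_lit 78) (nat_lit 456) (nat_lit 0) (XT.lf (nat_lit 0) (nat_lit 1914670301) (nat_lit 608) (nat_lit 1221152005) (nat_lit 76) (nat_lit 4851621005) (nat_lit 139) (nat_lit 5) (nat_lit 147) (nat_lit 5) (nat_lit 140) (nat_lit 4) (nat_lit 296) (nat_lit 244) (nat_lit 240)) (XT.lf (nat_lit 0) (nat_lit 4350334392) (nat_lit 456) (nat_lit 892838015)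 (nat_lit 532) (nat_lit 2839354667) (nat_lit 133) (nat_lit 5) (nat_lit 139) (nat_lit 5) (nat_lit 140) (nat_lit 4) (nat_lit 297) (nat_lit 244) (nat_lit 239)))))) (XT.nd (nat_lit 546) (nat_lit 1444) (nat_lit 0) (XT.nd (nat_lit 234) (nat_lit 1292) (nat_lit 0) (XT.nd (nat_lit 78) (nat_lit 380) (nat_lit 0) (XT.lf (nat_lit 0) (nat_lit 438784093) (nat_lit 532) (nat_lit 6336601347) (nat_lit 76) (nat_lit 1406332178) (nat_lit 126) (nat_lit 5) (nat_lit 133) (nat_lit 5) (nat_lit 127) (nat_lit 4) (nat_lit 298) (nat_lit 244) (nat_lit 238)) (XT.nd (nat_lit 78) (nat_lit 380) (nat_lit 0) (XT.lf (nat_lit 0) (nat_lit 3719616341) (nat_lit 532) (nat_lit 761295986) (nat_lit 76) (nat_lit 3803397200) (nat_lit 126) (nat_lit 5) (nat_lit 133) (nat_lit 5) (nat_lit 127) (nat_lit 4) (nat_lit 299) (nat_lit 244) (nat_lit 237)) (XT.lf (nat_lit 0) (nat_lit 4973991179) (nat_lit 380) (nat_lit 2089701820) (nat_lit 456) (nat_lit 1327449909)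 (nat_lit 121) (nat_lit 5) (nat_lit 126) (nat_lit 5) (nat_lit 127) (nat_lit 4) (nat_lit 300) (nat_lit 244) (nat_lit 236)))) (XT.nd (nat_lit 156) (nat_lit 836) (nat_lit 0) (XT.nd (nat_lit 78) (nat_lit 0) (nat_lit 0) (XT.lf (nat_lit 0) (nat_lit 1919161618) (nat_lit 456) (nat_lit 6189362756) (nat_lit 76) (nat_lit 393637857) (nat_lit 115) (nat_lit 5) (nat_lit 121) (nat_lit 5) (nat_lit 116) (nat_lit 4) (nat_lit 301) (nat_lit 244) (nat_lit 235)) (XT.lf (nat_lit 0) (nat_lit 5210730942) (nat_lit 456) (nat_lit 471293652) (nat_lit 76) (nat_lit 2934965157) (nat_lit 115) (nat_lit 5) (nat_lit 121) (nat_lit 5) (nat_lit 116) (nat_lit 4) (nat_lit 302) (nat_lit 244) (nat_lit 234))) (XT.nd (nat_lit 78) (nat_lit 456) (nat_lit 0) (XT.lf (nat_lit 0) (nat_lit 5420855850) (nat_lit 380) (nat_lit 3153369574) (nat_lit 456) (nat_lit 161937553) (nat_lit 110) (nat_lit 5) (nat_lit 115) (nat_lit 5) (nat_lit 116) (nat_lit 4)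 (nat_lit 303) (nat_lit 244) (nat_lit 233)) (XT.lf (nat_lit 0) (nat_lit 2556045038) (nat_lit 380) (nat_lit 512522866) (nat_lit 456) (nat_lit 5790990165) (nat_lit 104) (nat_lit 5) (nat_lit 109) (nat_lit 5) (nat_lit 110) (nat_lit 5) (nat_lit 304) (nat_lit 244) (nat_lit 232))))) (XT.nd (nat_lit 234) (nat_lit 684) (nat_lit 0) (XT.nd (nat_lit 78) (nat_lit 760) (nat_lit 0) (XT.lf (nat_lit 0) (nat_lit 6370339270) (nat_lit 456) (nat_lit 442327896) (nat_lit 76) (nat_lit 2174699638) (nat_lit 104) (nat_lit 5) (nat_lit 110) (nat_lit 5) (nat_lit 105) (nat_lit 4) (nat_lit 305) (nat_lit 244) (nat_lit 231)) (XT.nd (nat_lit 78) (nat_lit 380) (nat_lit 0) (XT.lf (nat_lit 0) (nat_lit 622888714) (nat_lit 380) (nat_lit 3528819005) (nat_lit 76) (nat_lit 4967693198) (nat_lit 99) (nat_lit 5) (nat_lit 104) (nat_lit 5) (nat_lit 100) (nat_lit 5) (nat_lit 306) (nat_lit 244) (nat_lit 230)) (XT.lf (nat_lit 0) (nat_lit 2478156135)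 (nat_lit 380) (nat_lit 1382815126) (nat_lit 456) (nat_lit 5395120987) (nat_lit 94) (nat_lit 5) (nat_lit 99) (nat_lit 5) (nat_lit 100) (nat_lit 5) (nat_lit 307) (nat_lit 244) (nat_lit 229)))) (XT.nd (nat_lit 156) (nat_lit 304) (nat_lit 0) (XT.nd (nat_lit 78) (nat_lit 380) (nat_lit 0) (XT.lf (nat_lit 0) (nat_lit 7172474483) (nat_lit 456) (nat_lit 776154146) (nat_lit 76) (nat_lit 1449045578) (nat_lit 94) (nat_lit 5) (nat_lit 100) (nat_lit 5) (nat_lit 95) (nat_lit 4) (nat_lit 308) (nat_lit 244) (nat_lit 228)) (XT.lf (nat_lit 0) (nat_lit 1013281242) (nat_lit 380) (nat_lit 4156922344) (nat_lit 76) (nat_lit 4373261345) (nat_lit 89) (nat_lit 5) (nat_lit 94) (nat_lit 5) (nat_lit 90) (nat_lit 5) (nat_lit 309) (nat_lit 244) (nat_lit 227))) (XT.nd (nat_lit 78) (nat_lit 0) (nat_lit 0) (XT.lf (nat_lit 0) (nat_lit 1971976172) (nat_lit 304) (nat_lit 2287766698) (nat_lit 380) (nat_lit 5434630636) (nat_lit 85)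 (nat_lit 5) (nat_lit 89) (nat_lit 5) (nat_lit 90) (nat_lit 5) (nat_lit 310) (nat_lit 244) (nat_lit 226)) (XT.lf (nat_lit 0) (nat_lit 7582046599) (nat_lit 380) (nat_lit 1587488373) (nat_lit 76) (nat_lit 680990431) (nat_lit 85) (nat_lit 5) (nat_lit 90) (nat_lit 5) (nat_lit 86) (nat_lit 4) (nat_lit 311) (nat_lit 244) (nat_lit 225))))))))
noncomputable def xc65 : XT := (XT.nd (nat_lit 2028) (nat_lit 1672) (nat_lit 0) (XT.nd (nat_lit 1014) (nat_lit 1292) (nat_lit 0) (XT.nd (nat_lit 468) (nat_lit 1064) (nat_lit 0) (XT.nd (nat_lit 234) (nat_lit 608) (nat_lit 0) (XT.nd (nat_lit 78) (nat_lit 304) (nat_lit 0) (XT.lf (nat_lit 0) (nat_lit 972622504) (nat_lit 380) (nat_lit 5319381579) (nat_lit 76) (nat_lit 3719156977) (nat_lit 80) (nat_lit 5) (nat_lit 85) (nat_lit 5) (nat_lit 81) (nat_lit 5) (nat_lit 312) (nat_lit 244) (nat_lit 224)) (XT.nd (nat_lit 78) (nat_lit 0) (nat_lit 0) (XT.lf (nat_lit 0) (nat_lit 911592081)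 (nat_lit 304) (nat_lit 3310604044) (nat_lit 380) (nat_lit 5955104466) (nat_lit 76) (nat_lit 5) (nat_lit 80) (nat_lit 5) (nat_lit 81) (nat_lit 5) (nat_lit 313) (nat_lit 244) (nat_lit 223)) (XT.lf (nat_lit 0) (nat_lit 7340101754) (nat_lit 304) (nat_lit 215789774) (nat_lit 380) (nat_lit 2792995505) (nat_lit 76) (nat_lit 5) (nat_lit 80) (nat_lit 5) (nat_lit 81) (nat_lit 5) (nat_lit 314) (nat_lit 244) (nat_lit 222)))) (XT.nd (nat_lit 78) (nat_lit 304) (nat_lit 0) (XT.lf (nat_lit 0) (nat_lit 450419228) (nat_lit 304) (nat_lit 7154364855) (nat_lit 76) (nat_lit 2920896507) (nat_lit 72) (nat_lit 5) (nat_lit 76) (nat_lit 5) (nat_lit 73) (nat_lit 5) (nat_lit 315) (nat_lit 244) (nat_lit 221)) (XT.nd (nat_lit 78) (nat_lit 304) (nat_lit 0) (XT.lf (nat_lit 0) (nat_lit 3702684866) (nat_lit 304) (nat_lit 830148744) (nat_lit 76) (nat_lit 6175140714) (nat_lit 72) (nat_lit 5) (nat_lit 76) (nat_lit 5) (nat_lit 73)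 (nat_lit 5) (nat_lit 316) (nat_lit 244) (nat_lit 220)) (XT.lf (nat_lit 0) (nat_lit 5700181792) (nat_lit 304) (nat_lit 1343892182) (nat_lit 380) (nat_lit 3851971104) (nat_lit 68) (nat_lit 5) (nat_lit 72) (nat_lit 5) (nat_lit 73) (nat_lit 5) (nat_lit 317) (nat_lit 244) (nat_lit 219))))) (XT.nd (nat_lit 234) (nat_lit 532) (nat_lit 0) (XT.nd (nat_lit 78) (nat_lit 304) (nat_lit 0) (XT.lf (nat_lit 0) (nat_lit 1264334722) (nat_lit 228) (nat_lit 9198041935) (nat_lit 304) (nat_lit 628134416) (nat_lit 65) (nat_lit 5) (nat_lit 68) (nat_lit 5) (nat_lit 69) (nat_lit 4) (nat_lit 318) (nat_lit 244) (nat_lit 218)) (XT.nd (nat_lit 78) (nat_lit 228) (nat_lit 0) (XT.lf (nat_lit 0) (nat_lit 2643821682) (nat_lit 304) (nat_lit 3399980920) (nat_lit 76) (nat_lit 5246163935) (nat_lit 64) (nat_lit 5) (nat_lit 68) (nat_lit 5) (nat_lit 65) (nat_lit 5) (nat_lit 319) (nat_lit 244) (nat_lit 217)) (XT.lf (nat_lit 0) (nat_lit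 3181775751) (nat_lit 228) (nat_lit 2789586728) (nat_lit 304) (nat_lit 5524803841) (nat_lit 61) (nat_lit 5) (nat_lit 64) (nat_lit 5) (nat_lit 65) (nat_lit 5) (nat_lit 320) (nat_lit 244) (nat_lit 216)))) (XT.nd (nat_lit 156) (nat_lit 228) (nat_lit 0) (XT.nd (nat_lit 78) (nat_lit 304) (nat_lit 0) (XT.lf (nat_lit 0) (nat_lit 9378837438) (nat_lit 304) (nat_lit 1776290490) (nat_lit 76) (nat_lit 554068262) (nat_lit 61) (nat_lit 5) (nat_lit 65) (nat_lit 5) (nat_lit 62) (nat_lit 4) (nat_lit 321) (nat_lit 244) (nat_lit 215)) (XT.lf (nat_lit 0) (nat_lit 958151047) (nat_lit 304) (nat_lit 7001881538) (nat_lit 76) (nat_lit 3967843284) (nat_lit 57) (nat_lit 5) (nat_lit 61) (nat_lit 5) (nat_lit 58) (nat_lit 5) (nat_lit 322) (nat_lit 244) (nat_lit 214))) (XT.nd (nat_lit 78) (nat_lit 228) (nat_lit 0) (XT.lf (nat_lit 0) (nat_lit 4258587581) (nat_lit 304) (nat_lit 401350022) (nat_lit 76) (nat_lit 7493726187) (nat_lit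 57) (nat_lit 5) (nat_lit 61) (nat_lit 5) (nat_lit 58) (nat_lit 5) (nat_lit 323) (nat_lit 244) (nat_lit 213)) (XT.lf (nat_lit 0) (nat_lit 6434127478) (nat_lit 228) (nat_lit 1229442677) (nat_lit 304) (nat_lit 4722531261) (nat_lit 54) (nat_lit 5) (nat_lit 57) (nat_lit 5) (nat_lit 58) (nat_lit 5) (nat_lit 324) (nat_lit 244) (nat_lit 212)))))) (XT.nd (nat_lit 468) (nat_lit 608) (nat_lit 0) (XT.nd (nat_lit 234) (nat_lit 228) (nat_lit 0) (XT.nd (nat_lit 78) (nat_lit 304) (nat_lit 0) (XT.lf (nat_lit 0) (nat_lit 761018285) (nat_lit 152) (nat_lit 10387410443) (nat_lit 228) (nat_lit 1477792479) (nat_lit 52) (nat_lit 5) (nat_lit 54) (nat_lit 5) (nat_lit 55) (nat_lit 4) (nat_lit 325) (nat_lit 244) (nat_lit 211)) (XT.nd (nat_lit 78) (nat_lit 228) (nat_lit 0) (XT.lf (nat_lit 0) (nat_lit 1845145148) (nat_lit 228) (nat_lit 5194442416) (nat_lit 76) (nat_lit 5832940823) (nat_lit 51) (nat_lit 5) (nat_lit 54) (nat_lit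 5) (nat_lit 52) (nat_lit 5) (nat_lit 326) (nat_lit 244) (nat_lit 210)) (XT.lf (nat_lit 0) (nat_lit 1606336882) (nat_lit 228) (nat_lit 3593158015) (nat_lit 304) (nat_lit 7927485519) (nat_lit 48) (nat_lit 5) (nat_lit 51) (nat_lit 5) (nat_lit 52) (nat_lit 5) (nat_lit 327) (nat_lit 244) (nat_lit 209)))) (XT.nd (nat_lit 78) (nat_lit 228) (nat_lit 0) (XT.lf (nat_lit 0) (nat_lit 8631653860) (nat_lit 228) (nat_lit 22006914) (nat_lit 304) (nat_lit 4735465942) (nat_lit 48) (nat_lit 5) (nat_lit 51) (nat_lit 5) (nat_lit 52) (nat_lit 5) (nat_lit 328) (nat_lit 244) (nat_lit 208)) (XT.nd (nat_lit 78) (nat_lit 76) (nat_lit 0) (XT.lf (nat_lit 0) (nat_lit 2130271478) (nat_lit 152) (nat_lit 10084782293) (nat_lit 228) (nat_lit 1444010790) (nat_lit 46) (nat_lit 5) (nat_lit 48) (nat_lit 5) (nat_lit 49) (nat_lit 4) (nat_lit 329) (nat_lit 244) (nat_lit 207)) (XT.lf (nat_lit 0) (nat_lit 1905090843) (nat_lit 228) (nat_lit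 4717867859) (nat_lit 76) (nat_lit 7313707400) (nat_lit 45) (nat_lit 5) (nat_lit 48) (nat_lit 5) (nat_lit 46) (nat_lit 5) (nat_lit 330) (nat_lit 244) (nat_lit 206))))) (XT.nd (nat_lit 234) (nat_lit 228) (nat_lit 0) (XT.nd (nat_lit 78) (nat_lit 152) (nat_lit 0) (XT.lf (nat_lit 0) (nat_lit 2244380307) (nat_lit 228) (nat_lit 3052491992) (nat_lit 304) (nat_lit 8926189811) (nat_lit 42) (nat_lit 5) (nat_lit 45) (nat_lit 5) (nat_lit 46) (nat_lit 5) (nat_lit 331) (nat_lit 244) (nat_lit 205)) (XT.nd (nat_lit 78) (nat_lit 152) (nat_lit 0) (XT.lf (nat_lit 0) (nat_lit 8794557584) (nat_lit 304) (nat_lit 5093801659) (nat_lit 76) (nat_lit 629597537) (nat_lit 42) (nat_lit 5) (nat_lit 46) (nat_lit 5) (nat_lit 43) (nat_lit 4) (nat_lit 332) (nat_lit 244) (nat_lit 204)) (XT.lf (nat_lit 0) (nat_lit 1924462131) (nat_lit 152) (nat_lit 10472917309) (nat_lit 228) (nat_lit 2424343051) (nat_lit 40) (nat_lit 5) (nat_lit 42)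 (nat_lit 5) (nat_lit 43) (nat_lit 4) (nat_lit 333) (nat_lit 244) (nat_lit 203)))) (XT.nd (nat_lit 156) (nat_lit 0) (nat_lit 0) (XT.nd (nat_lit 78) (nat_lit 152) (nat_lit 0) (XT.lf (nat_lit 0) (nat_lit 958259631) (nat_lit 228) (nat_lit 5965930645) (nat_lit 76) (nat_lit 8210051497) (nat_lit 39) (nat_lit 5) (nat_lit 42) (nat_lit 5) (nat_lit 40) (nat_lit 5) (nat_lit 334) (nat_lit 244) (nat_lit 202)) (XT.lf (nat_lit 0) (nat_lit 1092305292) (nat_lit 152) (nat_lit 3264845258) (nat_lit 228) (nat_lit 11099387675) (nat_lit 37) (nat_lit 5) (nat_lit 39) (nat_lit 5) (nat_lit 40) (nat_lit 5) (nat_lit 335) (nat_lit 244) (nat_lit 201))) (XT.nd (nat_lit 78) (nat_lit 0) (nat_lit 0) (XT.lf (nat_lit 0) (nat_lit 7877055342) (nat_lit 228) (nat_lit 7386250080) (nat_lit 76) (nat_lit 524653729) (nat_lit 37) (nat_lit 5) (nat_lit 40) (nat_lit 5) (nat_lit 38) (nat_lit 4) (nat_lit 336) (nat_lit 244) (nat_lit 200)) (XT.lf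 (nat_lit 0) (nat_lit 11489599969) (nat_lit 228) (nat_lit 307654830) (nat_lit 76) (nat_lit 4332482832) (nat_lit 37) (nat_lit 5) (nat_lit 40) (nat_lit 5) (nat_lit 38) (nat_lit 4) (nat_lit 337) (nat_lit 244) (nat_lit 199))))))) (XT.nd (nat_lit 1014) (nat_lit 608) (nat_lit 0) (XT.nd (nat_lit 468) (nat_lit 532) (nat_lit 0) (XT.nd (nat_lit 234) (nat_lit 152) (nat_lit 0) (XT.nd (nat_lit 78) (nat_lit 228) (nat_lit 0) (XT.lf (nat_lit 0) (nat_lit 7046626754) (nat_lit 152) (nat_lit 8187667066) (nat_lit 228) (nat_lit 1246787904) (nat_lit 35) (nat_lit 5) (nat_lit 37) (nat_lit 5) (nat_lit 38) (nat_lit 4) (nat_lit 338) (nat_lit 244) (nat_lit 198)) (XT.nd (nat_lit 78) (nat_lit 152) (nat_lit 0) (XT.lf (nat_lit 0) (nat_lit 2163783204) (nat_lit 228) (nat_lit 2311018839) (nat_lit 76) (nat_lit 12368760865) (nat_lit 34) (nat_lit 5) (nat_lit 37) (nat_lit 5) (nat_lit 35) (nat_lit 5) (nat_lit 339) (nat_lit 244) (nat_lit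 197)) (XT.lf (nat_lit 0) (nat_lit 5039942879) (nat_lit 152) (nat_lit 617550393) (nat_lit 228) (nat_lit 11558901778) (nat_lit 32) (nat_lit 5) (nat_lit 34) (nat_lit 5) (nat_lit 35) (nat_lit 5) (nat_lit 340) (nat_lit 244) (nat_lit 196)))) (XT.nd (nat_lit 78) (nat_lit 152) (nat_lit 0) (XT.lf (nat_lit 0) (nat_lit 9269540374) (nat_lit 228) (nat_lit 5045863047) (nat_lit 76) (nat_lit 3284625570) (nat_lit 32) (nat_lit 5) (nat_lit 35) (nat_lit 5) (nat_lit 33) (nat_lit 4) (nat_lit 341) (nat_lit 244) (nat_lit 195)) (XT.nd (nat_lit 78) (nat_lit 0) (nat_lit 0) (XT.lf (nat_lit 0) (nat_lit 2266393066) (nat_lit 152) (nat_lit 10710391649) (nat_lit 228) (nat_lit 5018804110) (nat_lit 30) (nat_lit 5) (nat_lit 32) (nat_lit 5) (nat_lit 33) (nat_lit 4) (nat_lit 342) (nat_lit 244) (nat_lit 194)) (XT.lf (nat_lit 0) (nat_lit 9831780118) (nat_lit 152) (nat_lit 6973881427) (nat_lit 228) (nat_lit 1597062764) (nat_lit 30) (nat_lit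 5) (nat_lit 32) (nat_lit 5) (nat_lit 33) (nat_lit 4) (nat_lit 343) (nat_lit 244) (nat_lit 193))))) (XT.nd (nat_lit 234) (nat_lit 304) (nat_lit 0) (XT.nd (nat_lit 78) (nat_lit 152) (nat_lit 0) (XT.lf (nat_lit 0) (nat_lit 1849954250) (nat_lit 228) (nat_lit 1284926005) (nat_lit 76) (nat_lit 15687850908) (nat_lit 29) (nat_lit 5) (nat_lit 32) (nat_lit 5) (nat_lit 30) (nat_lit 5) (nat_lit 344) (nat_lit 244) (nat_lit 192)) (XT.nd (nat_lit 78) (nat_lit 0) (nat_lit 0) (XT.lf (nat_lit 0) (nat_lit 5398203959) (nat_lit 228) (nat_lit 13003050539) (nat_lit 76) (nat_lit 852731206) (nat_lit 27) (nat_lit 5) (nat_lit 30) (nat_lit 5) (nat_lit 28) (nat_lit 4) (nat_lit 345) (nat_lit 244) (nat_lit 191)) (XT.lf (nat_lit 0) (nat_lit 9058659901) (nat_lit 228) (nat_lit 5756448735) (nat_lit 76) (nat_lit 4882915415) (nat_lit 27) (nat_lit 5) (nat_lit 30) (nat_lit 5) (nat_lit 28) (nat_lit 4) (nat_lit 346) (nat_lit 244) (nat_lit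 190)))) (XT.nd (nat_lit 156) (nat_lit 228) (nat_lit 0) (XT.nd (nat_lit 78) (nat_lit 0) (nat_lit 0) (XT.lf (nat_lit 0) (nat_lit 1675483589) (nat_lit 76) (nat_lit 11132286289) (nat_lit 152) (nat_lit 7348266842) (nat_lit 26) (nat_lit 5) (nat_lit 27) (nat_lit 5) (nat_lit 28) (nat_lit 4) (nat_lit 347) (nat_lit 244) (nat_lit 189)) (XT.lf (nat_lit 0) (nat_lit 9384248111) (nat_lit 76) (nat_lit 7306437443) (nat_lit 152) (nat_lit 3936482088) (nat_lit 26) (nat_lit 5) (nat_lit 27) (nat_lit 5) (nat_lit 28) (nat_lit 4) (nat_lit 348) (nat_lit 244) (nat_lit 188))) (XT.nd (nat_lit 78) (nat_lit 228) (nat_lit 0) (XT.lf (nat_lit 0) (nat_lit 17262016026) (nat_lit 76) (nat_lit 3392347970) (nat_lit 152) (nat_lit 459157565) (nat_lit 26) (nat_lit 5) (nat_lit 27) (nat_lit 5) (nat_lit 28) (nat_lit 4) (nat_lit 349) (nat_lit 244) (nat_lit 187)) (XT.lf (nat_lit 0) (nat_lit 3069043169) (nat_lit 228) (nat_lit 17876574851) (nat_lit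 76) (nat_lit 667739328) (nat_lit 23) (nat_lit 5) (nat_lit 26) (nat_lit 5) (nat_lit 24) (nat_lit 4) (nat_lit 350) (nat_lit 244) (nat_lit 186)))))) (XT.nd (nat_lit 546) (nat_lit 304) (nat_lit 0) (XT.nd (nat_lit 234) (nat_lit 228) (nat_lit 0) (XT.nd (nat_lit 78) (nat_lit 76) (nat_lit 0) (XT.lf (nat_lit 0) (nat_lit 6731871632) (nat_lit 228) (nat_lit 10595233820) (nat_lit 76) (nat_lit 4799821920) (nat_lit 23) (nat_lit 5) (nat_lit 26) (nat_lit 5) (nat_lit 24) (nat_lit 4) (nat_lit 351) (nat_lit 244) (nat_lit 185)) (XT.nd (nat_lit 78) (nat_lit 76) (nat_lit 0) (XT.lf (nat_lit 0) (nat_lit 10470745128) (nat_lit 228) (nat_lit 3155030089) (nat_lit 76) (nat_lit 9031159869) (nat_lit 23) (nat_lit 5) (nat_lit 26) (nat_lit 5) (nat_lit 24) (nat_lit 4) (nat_lit 352) (nat_lit 244) (nat_lit 184)) (XT.lf (nat_lit 0) (nat_lit 4539111913) (nat_lit 76) (nat_lit 9793451439) (nat_lit 152) (nat_lit 8869971268) (nat_lit 22)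 (nat_lit 5) (nat_lit 23) (nat_lit 5) (nat_lit 24) (nat_lit 4) (nat_lit 353) (nat_lit 244) (nat_lit 183)))) (XT.nd (nat_lit 156) (nat_lit 228) (nat_lit 0) (XT.nd (nat_lit 78) (nat_lit 0) (nat_lit 0) (XT.lf (nat_lit 0) (nat_lit 12471478018) (nat_lit 76) (nat_lit 5838169883) (nat_lit 152) (nat_lit 5454886398) (nat_lit 22) (nat_lit 5) (nat_lit 23) (nat_lit 5) (nat_lit 24) (nat_lit 4) (nat_lit 354) (nat_lit 244) (nat_lit 182)) (XT.lf (nat_lit 0) (nat_lit 20586208133) (nat_lit 76) (nat_lit 1788334094) (nat_lit 152) (nat_lit 1969810911) (nat_lit 22) (nat_lit 5) (nat_lit 23) (nat_lit 5) (nat_lit 24) (nat_lit 4) (nat_lit 355) (nat_lit 244) (nat_lit 181))) (XT.nd (nat_lit 78) (nat_lit 0) (nat_lit 0) (XT.lf (nat_lit 0) (nat_lit 1619076878) (nat_lit 228) (nat_lit 20953203558) (nat_lit 76) (nat_lit 2367906212) (nat_lit 19) (nat_lit 5) (nat_lit 22) (nat_lit 5) (nat_lit 20) (nat_lit 4) (nat_lit 356) (nat_lit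 244) (nat_lit 180)) (XT.lf (nat_lit 0) (nat_lit 5301324258) (nat_lit 228) (nat_lit 13603620695) (nat_lit 76) (nat_lit 6647619483) (nat_lit 19) (nat_lit 5) (nat_lit 22) (nat_lit 5) (nat_lit 20) (nat_lit 4) (nat_lit 357) (nat_lit 244) (nat_lit 179))))) (XT.nd (nat_lit 234) (nat_lit 228) (nat_lit 0) (XT.nd (nat_lit 78) (nat_lit 76) (nat_lit 0) (XT.lf (nat_lit 0) (nat_lit 9064186915) (nat_lit 228) (nat_lit 6086736997) (nat_lit 76) (nat_lit 11033297727) (nat_lit 19) (nat_lit 5) (nat_lit 22) (nat_lit 5) (nat_lit 20) (nat_lit 4) (nat_lit 358) (nat_lit 244) (nat_lit 178)) (XT.nd (nat_lit 78) (nat_lit 0) (nat_lit 0) (XT.lf (nat_lit 0) (nat_lit 1635938742) (nat_lit 76) (nat_lit 11290739686) (nat_lit 152) (nat_lit 13908559993) (nat_lit 18) (nat_lit 5) (nat_lit 19) (nat_lit 5) (nat_lit 20) (nat_lit 4) (nat_lit 359) (nat_lit 244) (nat_lit 177)) (XT.lf (nat_lit 0) (nat_lit 9663935622) (nat_lit 76) (nat_lit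 7273943161) (nat_lit 152) (nat_lit 10566933701) (nat_lit 18) (nat_lit 5) (nat_lit 19) (nat_lit 5) (nat_lit 20) (nat_lit 4) (nat_lit 360) (nat_lit 244) (nat_lit 176)))) (XT.nd (nat_lit 156) (nat_lit 228) (nat_lit 0) (XT.nd (nat_lit 78) (nat_lit 0) (nat_lit 0) (XT.lf (nat_lit 0) (nat_lit 17883130394) (nat_lit 76) (nat_lit 3158488622) (nat_lit 152) (nat_lit 7153700091) (nat_lit 18) (nat_lit 5) (nat_lit 19) (nat_lit 5) (nat_lit 20) (nat_lit 4) (nat_lit 361) (nat_lit 244) (nat_lit 175)) (XT.lf (nat_lit 0) (nat_lit 25251666791) (nat_lit 152) (nat_lit 2616838638) (nat_lit 0) (nat_lit 1038550760) (nat_lit 18) (nat_lit 5) (nat_lit 20) (nat_lit 4) (nat_lit 18) (nat_lit 4) (nat_lit 362) (nat_lit 244) (nat_lit 174))) (XT.nd (nat_lit 78) (nat_lit 0) (nat_lit 0) (XT.lf (nat_lit 0) (nat_lit 5588412) (nat_lit 228) (nat_lit 24303716415) (nat_lit 76) (nat_lit 5329165056) (nat_lit 15) (nat_lit 5) (nat_lit 18) (nat_lit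 5) (nat_lit 16) (nat_lit 4) (nat_lit 363) (nat_lit 244) (nat_lit 173)) (XT.lf (nat_lit 0) (nat_lit 3703263257) (nat_lit 228) (nat_lit 16896412071) (nat_lit 76) (nat_lit 9791064955) (nat_lit 15) (nat_lit 5) (nat_lit 18) (nat_lit 5) (nat_lit 16) (nat_lit 4) (nat_lit 364) (nat_lit 244) (nat_lit 172))))))))
noncomputable def xc66 : XT := (XT.nd (nat_lit 2028) (nat_lit 228) (nat_lit 0) (XT.nd (nat_lit 1014) (nat_lit 228) (nat_lit 0) (XT.nd (nat_lit 468) (nat_lit 228) (nat_lit 0) (XT.nd (nat_lit 234) (nat_lit 0) (nat_lit 0) (XT.nd (nat_lit 78) (nat_lit 76) (nat_lit 0) (XT.lf (nat_lit 0) (nat_lit 7486286636) (nat_lit 228) (nat_lit 9312967420) (nat_lit 76) (nat_lit 14367102071) (nat_lit 15) (nat_lit 5) (nat_lit 18) (nat_lit 5) (nat_lit 16) (nat_lit 4) (nat_lit 365) (nat_lit 244) (nat_lit 171)) (XT.nd (nat_lit 78) (nat_lit 76) (nat_lit 0) (XT.lf (nat_lit 0) (nat_lit 11357964102) (nat_lit 228) (nat_lit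 1546756153) (nat_lit 76) (nat_lit 19061274884) (nat_lit 15) (nat_lit 5) (nat_lit 18) (nat_lit 5) (nat_lit 16) (nat_lit 4) (nat_lit 366) (nat_lit 244) (nat_lit 170)) (XT.lf (nat_lit 0) (nat_lit 6536559562) (nat_lit 76) (nat_lit 8847952522) (nat_lit 152) (nat_lit 17403958946) (nat_lit 14) (nat_lit 5) (nat_lit 15) (nat_lit 5) (nat_lit 16) (nat_lit 4) (nat_lit 367) (nat_lit 244) (nat_lit 169)))) (XT.nd (nat_lit 78) (nat_lit 0) (nat_lit 0) (XT.lf (nat_lit 0) (nat_lit 14851073843) (nat_lit 76) (nat_lit 4672577558) (nat_lit 152) (nat_lit 14112224992) (nat_lit 14) (nat_lit 5) (nat_lit 15) (nat_lit 5) (nat_lit 16) (nat_lit 4) (nat_lit 368) (nat_lit 244) (nat_lit 168)) (XT.nd (nat_lit 78) (nat_lit 0) (nat_lit 0) (XT.lf (nat_lit 0) (nat_lit 23373268319) (nat_lit 76) (nat_lit 390566181) (nat_lit 152) (nat_lit 10745572107) (nat_lit 14) (nat_lit 5) (nat_lit 15) (nat_lit 5) (nat_lit 16) (nat_lit 4) (nat_lit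 369) (nat_lit 244) (nat_lit 167)) (XT.lf (nat_lit 0) (nat_lit 28147234369) (nat_lit 152) (nat_lit 3337703357) (nat_lit 0) (nat_lit 3923733187) (nat_lit 14) (nat_lit 5) (nat_lit 16) (nat_lit 4) (nat_lit 14) (nat_lit 4) (nat_lit 370) (nat_lit 244) (nat_lit 166))))) (XT.nd (nat_lit 234) (nat_lit 76) (nat_lit 0) (XT.nd (nat_lit 78) (nat_lit 76) (nat_lit 0) (XT.lf (nat_lit 0) (nat_lit 4743529057) (nat_lit 76) (nat_lit 27946100498) (nat_lit 76) (nat_lit 3644467069) (nat_lit 13) (nat_lit 4) (nat_lit 14) (nat_lit 5) (nat_lit 14) (nat_lit 4) (nat_lit 371) (nat_lit 244) (nat_lit 165)) (XT.nd (nat_lit 78) (nat_lit 0) (nat_lit 0) (XT.lf (nat_lit 0) (nat_lit 91535037) (nat_lit 152) (nat_lit 24191673852) (nat_lit 76) (nat_lit 13003697524) (nat_lit 12) (nat_lit 5) (nat_lit 14) (nat_lit 5) (nat_lit 13) (nat_lit 4) (nat_lit 372) (nat_lit 244) (nat_lit 164)) (XT.lf (nat_lit 0) (nat_lit 3845072279) (nat_lit 152)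 (nat_lit 16645640387) (nat_lit 76) (nat_lit 17777151730) (nat_lit 12) (nat_lit 5) (nat_lit 14) (nat_lit 5) (nat_lit 13) (nat_lit 4) (nat_lit 373) (nat_lit 244) (nat_lit 163)))) (XT.nd (nat_lit 156) (nat_lit 76) (nat_lit 0) (XT.nd (nat_lit 78) (nat_lit 0) (nat_lit 0) (XT.lf (nat_lit 0) (nat_lit 7690541125) (nat_lit 152) (nat_lit 8910840704) (nat_lit 76) (nat_lit 22677496878) (nat_lit 12) (nat_lit 5) (nat_lit 14) (nat_lit 5) (nat_lit 13) (nat_lit 4) (nat_lit 374) (nat_lit 244) (nat_lit 162)) (XT.lf (nat_lit 0) (nat_lit 11631301693) (nat_lit 152) (nat_lit 980516241) (nat_lit 76) (nat_lit 27709014822) (nat_lit 12) (nat_lit 5) (nat_lit 14) (nat_lit 5) (nat_lit 13) (nat_lit 4) (nat_lit 375) (nat_lit 244) (nat_lit 161))) (XT.nd (nat_lit 78) (nat_lit 0) (nat_lit 0) (XT.lf (nat_lit 0) (nat_lit 7294606458) (nat_lit 76) (nat_lit 8446311127) (nat_lit 152) (nat_lit 25651615796) (nat_lit 11) (nat_lit 5) (nat_lit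 12) (nat_lit 5) (nat_lit 13) (nat_lit 4) (nat_lit 376) (nat_lit 244) (nat_lit 160)) (XT.lf (nat_lit 0) (nat_lit 15802974521) (nat_lit 76) (nat_lit 4161491138) (nat_lit 152) (nat_lit 22532206784) (nat_lit 11) (nat_lit 5) (nat_lit 12) (nat_lit 5) (nat_lit 13) (nat_lit 4) (nat_lit 377) (nat_lit 244) (nat_lit 159)))))) (XT.nd (nat_lit 468) (nat_lit 152) (nat_lit 0) (XT.nd (nat_lit 234) (nat_lit 76) (nat_lit 0) (XT.nd (nat_lit 78) (nat_lit 0) (nat_lit 0) (XT.lf (nat_lit 0) (nat_lit 24298296724) (nat_lit 152) (nat_lit 19104268100) (nat_lit 0) (nat_lit 231870089) (nat_lit 11) (nat_lit 5) (nat_lit 13) (nat_lit 4) (nat_lit 11) (nat_lit 4) (nat_lit 378) (nat_lit 244) (nat_lit 158)) (XT.nd (nat_lit 78) (nat_lit 0) (nat_lit 0) (XT.lf (nat_lit 0) (nat_lit 28785049864) (nat_lit 152) (nat_lit 11361858154) (nat_lit 0) (nat_lit 4658741367) (nat_lit 11) (nat_lit 5) (nat_lit 13) (nat_lit 4) (nat_lit 11) (nat_lit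 4) (nat_lit 379) (nat_lit 244) (nat_lit 157)) (XT.lf (nat_lit 0) (nat_lit 33388642742) (nat_lit 152) (nat_lit 3419700074) (nat_lit 0) (nat_lit 9204196516) (nat_lit 11) (nat_lit 5) (nat_lit 13) (nat_lit 4) (nat_lit 11) (nat_lit 4) (nat_lit 380) (nat_lit 244) (nat_lit 156)))) (XT.nd (nat_lit 78) (nat_lit 0) (nat_lit 0) (XT.lf (nat_lit 0) (nat_lit 4823265164) (nat_lit 76) (nat_lit 33336196929) (nat_lit 76) (nat_lit 9095306305) (nat_lit 10) (nat_lit 4) (nat_lit 11) (nat_lit 5) (nat_lit 11) (nat_lit 4) (nat_lit 381) (nat_lit 244) (nat_lit 155)) (XT.nd (nat_lit 78) (nat_lit 0) (nat_lit 0) (XT.lf (nat_lit 0) (nat_lit 13352352577) (nat_lit 76) (nat_lit 29738541958) (nat_lit 76) (nat_lit 5442850949) (nat_lit 10) (nat_lit 4) (nat_lit 11) (nat_lit 5) (nat_lit 11) (nat_lit 4) (nat_lit 382) (nat_lit 244) (nat_lit 154)) (XT.lf (nat_lit 0) (nat_lit 22106956028) (nat_lit 76) (nat_lit 26046766588) (nat_lit 76)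 (nat_lit 1697871321) (nat_lit 10) (nat_lit 4) (nat_lit 11) (nat_lit 5) (nat_lit 11) (nat_lit 4) (nat_lit 383) (nat_lit 244) (nat_lit 153))))) (XT.nd (nat_lit 234) (nat_lit 76) (nat_lit 0) (XT.nd (nat_lit 78) (nat_lit 0) (nat_lit 0) (XT.lf (nat_lit 0) (nat_lit 2101089097) (nat_lit 152) (nat_lit 20135339018) (nat_lit 76) (nat_lit 28972419193) (nat_lit 9) (nat_lit 5) (nat_lit 11) (nat_lit 5) (nat_lit 10) (nat_lit 4) (nat_lit 384) (nat_lit 244) (nat_lit 152)) (XT.nd (nat_lit 78) (nat_lit 0) (nat_lit 0) (XT.lf (nat_lit 0) (nat_lit 5964135708) (nat_lit 152) (nat_lit 12343504514) (nat_lit 76) (nat_lit 34299151610) (nat_lit 9) (nat_lit 5) (nat_lit 11) (nat_lit 5) (nat_lit 10) (nat_lit 4) (nat_lit 385) (nat_lit 244) (nat_lit 151)) (XT.lf (nat_lit 0) (nat_lit 9927775575) (nat_lit 152) (nat_lit 4346005019) (nat_lit 76) (nat_lit 39773358050) (nat_lit 9) (nat_lit 5) (nat_lit 11) (nat_lit 5) (nat_lit 10) (nat_lit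 4) (nat_lit 386) (nat_lit 244) (nat_lit 150)))) (XT.nd (nat_lit 156) (nat_lit 0) (nat_lit 0) (XT.nd (nat_lit 78) (nat_lit 0) (nat_lit 0) (XT.lf (nat_lit 0) (nat_lit 3941051686) (nat_lit 76) (nat_lit 10092304184) (nat_lit 152) (nat_lit 41496653912) (nat_lit 8) (nat_lit 5) (nat_lit 9) (nat_lit 5) (nat_lit 10) (nat_lit 4) (nat_lit 387) (nat_lit 244) (nat_lit 149)) (XT.lf (nat_lit 0) (nat_lit 12538804418) (nat_lit 76) (nat_lit 5752505734) (nat_lit 152) (nat_lit 38765185425) (nat_lit 8) (nat_lit 5) (nat_lit 9) (nat_lit 5) (nat_lit 10) (nat_lit 4) (nat_lit 388) (nat_lit 244) (nat_lit 148))) (XT.nd (nat_lit 78) (nat_lit 0) (nat_lit 0) (XT.lf (nat_lit 0) (nat_lit 21368271755) (nat_lit 76) (nat_lit 1294479316) (nat_lit 152) (nat_lit 35966457016) (nat_lit 8) (nat_lit 5) (nat_lit 9) (nat_lit 5) (nat_lit 10) (nat_lit 4) (nat_lit 389) (nat_lit 244) (nat_lit 147)) (XT.lf (nat_lit 0) (nat_lit 27183082207) (nat_lit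 152) (nat_lit 29843936637) (nat_lit 0) (nat_lit 3221555167) (nat_lit 8) (nat_lit 5) (nat_lit 10) (nat_lit 4) (nat_lit 8) (nat_lit 4) (nat_lit 390) (nat_lit 244) (nat_lit 146))))))) (XT.nd (nat_lit 1014) (nat_lit 0) (nat_lit 0) (XT.nd (nat_lit 468) (nat_lit 152) (nat_lit 0) (XT.nd (nat_lit 234) (nat_lit 76) (nat_lit 0) (XT.nd (nat_lit 78) (nat_lit 0) (nat_lit 0) (XT.lf (nat_lit 0) (nat_lit 31838297613) (nat_lit 152) (nat_lit 22242255449) (nat_lit 0) (nat_lit 7835993940) (nat_lit 8) (nat_lit 5) (nat_lit 10) (nat_lit 4) (nat_lit 8) (nat_lit 4) (nat_lit 391) (nat_lit 244) (nat_lit 145)) (XT.nd (nat_lit 78) (nat_lit 0) (nat_lit 0) (XT.lf (nat_lit 0) (nat_lit 36620021627) (nat_lit 152) (nat_lit 14436807195) (nat_lit 0) (nat_lit 12578128989) (nat_lit 8) (nat_lit 5) (nat_lit 10) (nat_lit 4) (nat_lit 8) (nat_lit 4) (nat_lit 392) (nat_lit 244) (nat_lit 144)) (XT.lf (nat_lit 0) (nat_lit 41532432453) (nat_lit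 152) (nat_lit 6420771582) (nat_lit 0) (nat_lit 17452103927) (nat_lit 8) (nat_lit 5) (nat_lit 10) (nat_lit 4) (nat_lit 8) (nat_lit 4) (nat_lit 393) (nat_lit 244) (nat_lit 143)))) (XT.nd (nat_lit 78) (nat_lit 0) (nat_lit 0) (XT.lf (nat_lit 0) (nat_lit 1848935076) (nat_lit 76) (nat_lit 44748660508) (nat_lit 76) (nat_lit 20631015586) (nat_lit 7) (nat_lit 4) (nat_lit 8) (nat_lit 5) (nat_lit 8) (nat_lit 4) (nat_lit 394) (nat_lit 244) (nat_lit 142)) (XT.nd (nat_lit 78) (nat_lit 0) (nat_lit 0) (XT.lf (nat_lit 0) (nat_lit 10475687458) (nat_lit 76) (nat_lit 41391613336) (nat_lit 76) (nat_lit 17237738903) (nat_lit 7) (nat_lit 4) (nat_lit 8) (nat_lit 5) (nat_lit 8) (nat_lit 4) (nat_lit 395) (nat_lit 244) (nat_lit 141)) (XT.lf (nat_lit 0) (nat_lit 19339237557) (nat_lit 76) (nat_lit 37943966380) (nat_lit 76) (nat_lit 13754917665) (nat_lit 7) (nat_lit 4) (nat_lit 8) (nat_lit 5) (nat_lit 8) (nat_lit 4) (nat_lit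 396) (nat_lit 244) (nat_lit 140))))) (XT.nd (nat_lit 234) (nat_lit 152) (nat_lit 0) (XT.nd (nat_lit 78) (nat_lit 0) (nat_lit 0) (XT.lf (nat_lit 0) (nat_lit 28447330224) (nat_lit 76) (nat_lit 34402707133) (nat_lit 76) (nat_lit 10179508629) (nat_lit 7) (nat_lit 4) (nat_lit 8) (nat_lit 5) (nat_lit 8) (nat_lit 4) (nat_lit 397) (nat_lit 244) (nat_lit 139)) (XT.nd (nat_lit 78) (nat_lit 0) (nat_lit 0) (XT.lf (nat_lit 0) (nat_lit 37807923985) (nat_lit 76) (nat_lit 30764741290) (nat_lit 76) (nat_lit 6508387651) (nat_lit 7) (nat_lit 4) (nat_lit 8) (nat_lit 5) (nat_lit 8) (nat_lit 4) (nat_lit 398) (nat_lit 244) (nat_lit 138)) (XT.lf (nat_lit 0) (nat_lit 47429198000) (nat_lit 76) (nat_lit 27026890047) (nat_lit 76) (nat_lit 2738346957) (nat_lit 7) (nat_lit 4) (nat_lit 8) (nat_lit 5) (nat_lit 8) (nat_lit 4) (nat_lit 399) (nat_lit 244) (nat_lit 137)))) (XT.nd (nat_lit 156) (nat_lit 76) (nat_lit 0) (XT.nd (nat_lit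 78) (nat_lit 0) (nat_lit 0) (XT.lf (nat_lit 0) (nat_lit 1111781040) (nat_lit 152) (nat_lit 22062879471) (nat_lit 76) (nat_lit 56196551359) (nat_lit 6) (nat_lit 5) (nat_lit 8) (nat_lit 5) (nat_lit 7) (nat_lit 4) (nat_lit 400) (nat_lit 244) (nat_lit 136)) (XT.lf (nat_lit 0) (nat_lit 5012010890) (nat_lit 152) (nat_lit 14175754520) (nat_lit 76) (nat_lit 62425027298) (nat_lit 6) (nat_lit 5) (nat_lit 8) (nat_lit 5) (nat_lit 7) (nat_lit 4) (nat_lit 401) (nat_lit 244) (nat_lit 135))) (XT.nd (nat_lit 78) (nat_lit 76) (nat_lit 0) (XT.lf (nat_lit 0) (nat_lit 9019185573) (nat_lit 152) (nat_lit 6070647823) (nat_lit 76) (nat_lit 68832092468) (nat_lit 6) (nat_lit 5) (nat_lit 8) (nat_lit 5) (nat_lit 7) (nat_lit 4) (nat_lit 402) (nat_lit 244) (nat_lit 134)) (XT.lf (nat_lit 0) (nat_lit 2304491684) (nat_lit 76) (nat_lit 10854467001) (nat_lit 152) (nat_lit 73141005774) (nat_lit 5) (nat_lit 5) (nat_lit 6) (nat_lit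 5) (nat_lit 7) (nat_lit 4) (nat_lit 403) (nat_lit 244) (nat_lit 133)))))) (XT.nd (nat_lit 31902) (nat_lit 0) (nat_lit 9196) (XT.nd (nat_lit 234) (nat_lit 0) (nat_lit 0) (XT.nd (nat_lit 78) (nat_lit 0) (nat_lit 0) (XT.lf (nat_lit 0) (nat_lit 11037415729) (nat_lit 76) (nat_lit 6437154260) (nat_lit 152) (nat_lit 71273227727) (nat_lit 5) (nat_lit 5) (nat_lit 6) (nat_lit 5) (nat_lit 7) (nat_lit 4) (nat_lit 404) (nat_lit 244) (nat_lit 132)) (XT.nd (nat_lit 78) (nat_lit 0) (nat_lit 0) (XT.lf (nat_lit 0) (nat_lit 20014937227) (nat_lit 76) (nat_lit 1895337027) (nat_lit 152) (nat_lit 69359075752) (nat_lit 5) (nat_lit 5) (nat_lit 6) (nat_lit 5) (nat_lit 7) (nat_lit 4) (nat_lit 405) (nat_lit 244) (nat_lit 131)) (XT.lf (nat_lit 0) (nat_lit 26496621885) (nat_lit 152) (nat_lit 64648598559) (nat_lit 0) (nat_lit 2720803944) (nat_lit 5) (nat_lit 5) (nat_lit 7) (nat_lit 4) (nat_lit 5) (nat_lit 4) (nat_lit 406) (nat_lit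 244) (nat_lit 130)))) (XT.nd (nat_lit 31512) (nat_lit 0) (nat_lit 11856) (XT.nd (nat_lit 78) (nat_lit 0) (nat_lit 0) (XT.lf (nat_lit 0) (nat_lit 31230415842) (nat_lit 152) (nat_lit 57879962729) (nat_lit 0) (nat_lit 7429927367) (nat_lit 5) (nat_lit 5) (nat_lit 7) (nat_lit 4) (nat_lit 5) (nat_lit 4) (nat_lit 407) (nat_lit 244) (nat_lit 129)) (XT.lf (nat_lit 0) (nat_lit 36097573311) (nat_lit 152) (nat_lit 50924371807) (nat_lit 0) (nat_lit 12273132861) (nat_lit 5) (nat_lit 5) (nat_lit 7) (nat_lit 4) (nat_lit 5) (nat_lit 4) (nat_lit 408) (nat_lit 244) (nat_lit 128))) (XT.nd (nat_lit 78) (nat_lit 608) (nat_lit 0) (XT.lf (nat_lit 0) (nat_lit 2596341004) (nat_lit 608) (nat_lit 575083611) (nat_lit 608) (nat_lit 575083611) (nat_lit 169) (nat_lit 4) (nat_lit 177) (nat_lit 5) (nat_lit 177) (nat_lit 4) (nat_lit 290) (nat_lit 245) (nat_lit 245)) (XT.lf (nat_lit 0) (nat_lit 2149776761) (nat_lit 608) (nat_lit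 4683384166) (nat_lit 0) (nat_lit 734379554) (nat_lit 161) (nat_lit 5) (nat_lit 169) (nat_lit 4) (nat_lit 161) (nat_lit 4) (nat_lit 291) (nat_lit 245) (nat_lit 244))))) (XT.nd (nat_lit 234) (nat_lit 1596) (nat_lit 0) (XT.nd (nat_lit 78) (nat_lit 532) (nat_lit 0) (XT.lf (nat_lit 0) (nat_lit 509781896) (nat_lit 532) (nat_lit 4962741918) (nat_lit 532) (nat_lit 2173172665) (nat_lit 154) (nat_lit 4) (nat_lit 161) (nat_lit 5) (nat_lit 161) (nat_lit 4) (nat_lit 292) (nat_lit 245) (nat_lit 243)) (XT.nd (nat_lit 78) (nat_lit 456) (nat_lit 0) (XT.lf (nat_lit 0) (nat_lit 1101550215) (nat_lit 608) (nat_lit 1887569933) (nat_lit 76) (nat_lit 4738209128) (nat_lit 153) (nat_lit 5) (nat_lit 161) (nat_lit 5) (nat_lit 154) (nat_lit 4) (nat_lit 293) (nat_lit 245) (nat_lit 242)) (XT.lf (nat_lit 0) (nat_lit 3461501212) (nat_lit 456) (nat_lit 913132793) (nat_lit 532) (nat_lit 3437950813) (nat_lit 147) (nat_lit 5) (nat_lit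 153) (nat_lit 5) (nat_lit 154) (nat_lit 4) (nat_lit 294) (nat_lit 245) (nat_lit 241)))) (XT.nd (nat_lit 156) (nat_lit 988) (nat_lit 0) (XT.nd (nat_lit 78) (nat_lit 76) (nat_lit 0) (XT.lf (nat_lit 0) (nat_lit 1013342718) (nat_lit 532) (nat_lit 6685352912) (nat_lit 532) (nat_lit 203248150) (nat_lit 140) (nat_lit 4) (nat_lit 147) (nat_lit 5) (nat_lit 147) (nat_lit 4) (nat_lit 295) (nat_lit 245) (nat_lit 240)) (XT.lf (nat_lit 0) (nat_lit 3033469372) (nat_lit 608) (nat_lit 1509534814) (nat_lit 76) (nat_lit 3451218364) (nat_lit 139) (nat_lit 5) (nat_lit 147) (nat_lit 5) (nat_lit 140) (nat_lit 4) (nat_lit 296) (nat_lit 245) (nat_lit 239))) (XT.nd (nat_lit 78) (nat_lit 532) (nat_lit 0) (XT.lf (nat_lit 0) (nat_lit 4004890166) (nat_lit 456) (nat_lit 2311964642) (nat_lit 532) (nat_lit 1773863300) (nat_lit 133) (nat_lit 5) (nat_lit 139) (nat_lit 5) (nat_lit 140) (nat_lit 4) (nat_lit 297) (nat_lit 245) (nat_lit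 238)) (XT.lf (nat_lit 0) (nat_lit 1424230977) (nat_lit 532) (nat_lit 6755075893) (nat_lit 76) (nat_lit 12127055) (nat_lit 126) (nat_lit 5) (nat_lit 133) (nat_lit 5) (nat_lit 127) (nat_lit 4) (nat_lit 298) (nat_lit 245) (nat_lit 237))))))))
noncomputable def xc67 : XT := (XT.nd (nat_lit 2028) (nat_lit 2356) (nat_lit 0) (XT.nd (nat_lit 1014) (nat_lit 2356) (nat_lit 0) (XT.nd (nat_lit 468) (nat_lit 1444) (nat_lit 0) (XT.nd (nat_lit 234) (nat_lit 836) (nat_lit 0) (XT.nd (nat_lit 78) (nat_lit 836) (nat_lit 0) (XT.lf (nat_lit 0) (nat_lit 4664179676) (nat_lit 532) (nat_lit 1231168482) (nat_lit 76) (nat_lit 2399957530) (nat_lit 126) (nat_lit 5) (nat_lit 133) (nat_lit 5) (nat_lit 127) (nat_lit 4) (nat_lit 299) (nat_lit 245) (nat_lit 236)) (XT.nd (nat_lit 78) (nat_lit 456) (nat_lit 0) (XT.lf (nat_lit 0) (nat_lit 4443873248) (nat_lit 380) (nat_lit 3519594501) (nat_lit 456) (nat_lit 440066772) (nat_lit 121)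 (nat_lit 5) (nat_lit 126) (nat_lit 5) (nat_lit 127) (nat_lit 4) (nat_lit 300) (nat_lit 245) (nat_lit 235)) (XT.lf (nat_lit 0) (nat_lit 1703522481) (nat_lit 380) (nat_lit 1036504885) (nat_lit 456) (nat_lit 5775795438) (nat_lit 115) (nat_lit 5) (nat_lit 120) (nat_lit 5) (nat_lit 121) (nat_lit 5) (nat_lit 301) (nat_lit 245) (nat_lit 234)))) (XT.nd (nat_lit 78) (nat_lit 836) (nat_lit 0) (XT.lf (nat_lit 0) (nat_lit 5982751150) (nat_lit 456) (nat_lit 1135125876) (nat_lit 76) (nat_lit 1514286065) (nat_lit 115) (nat_lit 5) (nat_lit 121) (nat_lit 5) (nat_lit 116) (nat_lit 4) (nat_lit 302) (nat_lit 245) (nat_lit 233)) (XT.nd (nat_lit 78) (nat_lit 380) (nat_lit 0) (XT.lf (nat_lit 0) (nat_lit 538070601) (nat_lit 456) (nat_lit 4064547292) (nat_lit 76) (nat_lit 4149948439) (nat_lit 109) (nat_lit 5) (nat_lit 115) (nat_lit 5) (nat_lit 110) (nat_lit 5) (nat_lit 303) (nat_lit 245) (nat_lit 232)) (XT.lf (nat_lit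 0) (nat_lit 1739634004) (nat_lit 380) (nat_lit 1980402874) (nat_lit 456) (nat_lit 5157282600) (nat_lit 104) (nat_lit 5) (nat_lit 109) (nat_lit 5) (nat_lit 110) (nat_lit 5) (nat_lit 304) (nat_lit 245) (nat_lit 231))))) (XT.nd (nat_lit 234) (nat_lit 684) (nat_lit 0) (XT.nd (nat_lit 78) (nat_lit 760) (nat_lit 0) (XT.lf (nat_lit 0) (nat_lit 6970668884) (nat_lit 456) (nat_lit 1312617553) (nat_lit 76) (nat_lit 723418070) (nat_lit 104) (nat_lit 5) (nat_lit 110) (nat_lit 5) (nat_lit 105) (nat_lit 4) (nat_lit 305) (nat_lit 245) (nat_lit 230)) (XT.nd (nat_lit 78) (nat_lit 380) (nat_lit 0) (XT.lf (nat_lit 0) (nat_lit 1147097119) (nat_lit 380) (nat_lit 4492030801) (nat_lit 76) (nat_lit 3500846240) (nat_lit 99) (nat_lit 5) (nat_lit 104) (nat_lit 5) (nat_lit 100) (nat_lit 5) (nat_lit 306) (nat_lit 245) (nat_lit 229)) (XT.lf (nat_lit 0) (nat_lit 1445762083) (nat_lit 380) (nat_lit 2893736752) (nat_lit 456) (nat_lit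 4938575620) (nat_lit 94) (nat_lit 5) (nat_lit 99) (nat_lit 5) (nat_lit 100) (nat_lit 5) (nat_lit 307) (nat_lit 245) (nat_lit 228)))) (XT.nd (nat_lit 156) (nat_lit 304) (nat_lit 0) (XT.nd (nat_lit 78) (nat_lit 380) (nat_lit 0) (XT.lf (nat_lit 0) (nat_lit 7555202750) (nat_lit 380) (nat_lit 46410864) (nat_lit 456) (nat_lit 1819561873) (nat_lit 94) (nat_lit 5) (nat_lit 99) (nat_lit 5) (nat_lit 100) (nat_lit 5) (nat_lit 308) (nat_lit 245) (nat_lit 227)) (XT.lf (nat_lit 0) (nat_lit 1364633958) (nat_lit 380) (nat_lit 5345368701) (nat_lit 76) (nat_lit 2858272933) (nat_lit 89) (nat_lit 5) (nat_lit 94) (nat_lit 5) (nat_lit 90) (nat_lit 5) (nat_lit 309) (nat_lit 245) (nat_lit 226))) (XT.nd (nat_lit 78) (nat_lit 0) (nat_lit 0) (XT.lf (nat_lit 0) (nat_lit 710596231) (nat_lit 304) (nat_lit 3854264230) (nat_lit 380) (nat_lit 5155745002) (nat_lit 85) (nat_lit 5) (nat_lit 89) (nat_lit 5) (nat_lit 90) (nat_lit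 5) (nat_lit 310) (nat_lit 245) (nat_lit 225)) (XT.lf (nat_lit 0) (nat_lit 6960687961) (nat_lit 304) (nat_lit 886223455) (nat_lit 380) (nat_lit 2031086773) (nat_lit 85) (nat_lit 5) (nat_lit 89) (nat_lit 5) (nat_lit 90) (nat_lit 5) (nat_lit 311) (nat_lit 245) (nat_lit 224)))))) (XT.nd (nat_lit 468) (nat_lit 1064) (nat_lit 0) (XT.nd (nat_lit 234) (nat_lit 608) (nat_lit 0) (XT.nd (nat_lit 78) (nat_lit 304) (nat_lit 0) (XT.lf (nat_lit 0) (nat_lit 1150140742) (nat_lit 380) (nat_lit 6746137759) (nat_lit 76) (nat_lit 2143975465) (nat_lit 80) (nat_lit 5) (nat_lit 85) (nat_lit 5) (nat_lit 81) (nat_lit 5) (nat_lit 312) (nat_lit 245) (nat_lit 223)) (XT.nd (nat_lit 78) (nat_lit 304) (nat_lit 0) (XT.lf (nat_lit 0) (nat_lit 4358372996) (nat_lit 380) (nat_lit 580496620) (nat_lit 76) (nat_lit 5268794545) (nat_lit 80) (nat_lit 5) (nat_lit 85) (nat_lit 5) (nat_lit 81) (nat_lit 5) (nat_lit 313) (nat_lit 245) (nat_lit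 222)) (XT.lf (nat_lit 0) (nat_lit 5789382070) (nat_lit 304) (nat_lit 1864912947) (nat_lit 380) (nat_lit 2726118326) (nat_lit 76) (nat_lit 5) (nat_lit 80) (nat_lit 5) (nat_lit 81) (nat_lit 5) (nat_lit 314) (nat_lit 245) (nat_lit 221)))) (XT.nd (nat_lit 78) (nat_lit 304) (nat_lit 0) (XT.lf (nat_lit 0) (nat_lit 452386866) (nat_lit 304) (nat_lit 8832851600) (nat_lit 76) (nat_lit 1273885126) (nat_lit 72) (nat_lit 5) (nat_lit 76) (nat_lit 5) (nat_lit 73) (nat_lit 5) (nat_lit 315) (nat_lit 245) (nat_lit 220)) (XT.nd (nat_lit 78) (nat_lit 304) (nat_lit 0) (XT.lf (nat_lit 0) (nat_lit 3673500714) (nat_lit 304) (nat_lit 2555356245) (nat_lit 76) (nat_lit 4513521951) (nat_lit 72) (nat_lit 5) (nat_lit 76) (nat_lit 5) (nat_lit 73) (nat_lit 5) (nat_lit 316) (nat_lit 245) (nat_lit 219)) (XT.lf (nat_lit 0) (nat_lit 3894376568) (nat_lit 304) (nat_lit 3072910293) (nat_lit 380) (nat_lit 3964617136) (nat_lit 68) (nat_lit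 5) (nat_lit 72) (nat_lit 5) (nat_lit 73) (nat_lit 5) (nat_lit 317) (nat_lit 245) (nat_lit 218))))) (XT.nd (nat_lit 234) (nat_lit 532) (nat_lit 0) (XT.nd (nat_lit 78) (nat_lit 532) (nat_lit 0) (XT.lf (nat_lit 0) (nat_lit 10326874962) (nat_lit 380) (nat_lit 631070014) (nat_lit 76) (nat_lit 170211934) (nat_lit 68) (nat_lit 5) (nat_lit 73) (nat_lit 5) (nat_lit 69) (nat_lit 4) (nat_lit 318) (nat_lit 245) (nat_lit 217)) (XT.nd (nat_lit 78) (nat_lit 228) (nat_lit 0) (XT.lf (nat_lit 0) (nat_lit 2437984821) (nat_lit 304) (nat_lit 5389909782) (nat_lit 76) (nat_lit 3500873762) (nat_lit 64) (nat_lit 5) (nat_lit 68) (nat_lit 5) (nat_lit 65) (nat_lit 5) (nat_lit 319) (nat_lit 245) (nat_lit 216)) (XT.lf (nat_lit 0) (nat_lit 1106834194) (nat_lit 228) (nat_lit 4609794512) (nat_lit 304) (nat_lit 5819829665) (nat_lit 61) (nat_lit 5) (nat_lit 64) (nat_lit 5) (nat_lit 65) (nat_lit 5) (nat_lit 320) (nat_lit 245) (nat_lit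 215)))) (XT.nd (nat_lit 156) (nat_lit 228) (nat_lit 0) (XT.nd (nat_lit 78) (nat_lit 304) (nat_lit 0) (XT.lf (nat_lit 0) (nat_lit 7819472536) (nat_lit 228) (nat_lit 1270667238) (nat_lit 304) (nat_lit 2660390023) (nat_lit 61) (nat_lit 5) (nat_lit 64) (nat_lit 5) (nat_lit 65) (nat_lit 5) (nat_lit 321) (nat_lit 245) (nat_lit 214)) (XT.lf (nat_lit 0) (nat_lit 572437079) (nat_lit 304) (nat_lit 9270870034) (nat_lit 76) (nat_lit 2127882559) (nat_lit 57) (nat_lit 5) (nat_lit 61) (nat_lit 5) (nat_lit 58) (nat_lit 5) (nat_lit 322) (nat_lit 245) (nat_lit 213))) (XT.nd (nat_lit 78) (nat_lit 228) (nat_lit 0) (XT.lf (nat_lit 0) (nat_lit 3845131828) (nat_lit 304) (nat_lit 2713995150) (nat_lit 76) (nat_lit 5638703587) (nat_lit 57) (nat_lit 5) (nat_lit 61) (nat_lit 5) (nat_lit 58) (nat_lit 5) (nat_lit 323) (nat_lit 245) (nat_lit 212)) (XT.lf (nat_lit 0) (nat_lit 4032227551) (nat_lit 228) (nat_lit 3167864546) (nat_lit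 304) (nat_lit 5231696877) (nat_lit 54) (nat_lit 5) (nat_lit 57) (nat_lit 5) (nat_lit 58) (nat_lit 5) (nat_lit 324) (nat_lit 245) (nat_lit 211))))))) (XT.nd (nat_lit 1014) (nat_lit 1064) (nat_lit 0) (XT.nd (nat_lit 468) (nat_lit 608) (nat_lit 0) (XT.nd (nat_lit 234) (nat_lit 456) (nat_lit 0) (XT.nd (nat_lit 78) (nat_lit 228) (nat_lit 0) (XT.lf (nat_lit 0) (nat_lit 10632301073) (nat_lit 304) (nat_lit 1725423564) (nat_lit 76) (nat_lit 315783143) (nat_lit 54) (nat_lit 5) (nat_lit 58) (nat_lit 5) (nat_lit 55) (nat_lit 4) (nat_lit 325) (nat_lit 245) (nat_lit 210)) (XT.nd (nat_lit 78) (nat_lit 0) (nat_lit 0) (XT.lf (nat_lit 0) (nat_lit 1249033417) (nat_lit 228) (nat_lit 7800201667) (nat_lit 76) (nat_lit 3872071513) (nat_lit 51) (nat_lit 5) (nat_lit 54) (nat_lit 5) (nat_lit 52) (nat_lit 5) (nat_lit 326) (nat_lit 245) (nat_lit 209)) (XT.lf (nat_lit 0) (nat_lit 4562108731) (nat_lit 228) (nat_lit 1072289539)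 (nat_lit 76) (nat_lit 7542616460) (nat_lit 51) (nat_lit 5) (nat_lit 54) (nat_lit 5) (nat_lit 52) (nat_lit 5) (nat_lit 327) (nat_lit 245) (nat_lit 208)))) (XT.nd (nat_lit 78) (nat_lit 228) (nat_lit 0) (XT.lf (nat_lit 0) (nat_lit 5890572098) (nat_lit 228) (nat_lit 2089713733) (nat_lit 304) (nat_lit 5459972211) (nat_lit 48) (nat_lit 5) (nat_lit 51) (nat_lit 5) (nat_lit 52) (nat_lit 5) (nat_lit 328) (nat_lit 245) (nat_lit 207)) (XT.nd (nat_lit 78) (nat_lit 228) (nat_lit 0) (XT.lf (nat_lit 0) (nat_lit 11476445233) (nat_lit 304) (nat_lit 724164898) (nat_lit 76) (nat_lit 1511559609) (nat_lit 48) (nat_lit 5) (nat_lit 52) (nat_lit 5) (nat_lit 49) (nat_lit 4) (nat_lit 329) (nat_lit 245) (nat_lit 206)) (XT.lf (nat_lit 0) (nat_lit 1096856167) (nat_lit 228) (nat_lit 7672996154) (nat_lit 76) (nat_lit 5221122256) (nat_lit 45) (nat_lit 5) (nat_lit 48) (nat_lit 5) (nat_lit 46) (nat_lit 5) (nat_lit 330) (nat_lit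 245) (nat_lit 205))))) (XT.nd (nat_lit 234) (nat_lit 380) (nat_lit 0) (XT.nd (nat_lit 78) (nat_lit 228) (nat_lit 0) (XT.lf (nat_lit 0) (nat_lit 4442985407) (nat_lit 228) (nat_lit 794002356) (nat_lit 76) (nat_lit 9041767803) (nat_lit 45) (nat_lit 5) (nat_lit 48) (nat_lit 5) (nat_lit 46) (nat_lit 5) (nat_lit 331) (nat_lit 245) (nat_lit 204)) (XT.nd (nat_lit 78) (nat_lit 0) (nat_lit 0) (XT.lf (nat_lit 0) (nat_lit 6337256377) (nat_lit 228) (nat_lit 1565705311) (nat_lit 304) (nat_lit 6671834785) (nat_lit 42) (nat_lit 5) (nat_lit 45) (nat_lit 5) (nat_lit 46) (nat_lit 5) (nat_lit 332) (nat_lit 245) (nat_lit 203)) (XT.lf (nat_lit 0) (nat_lit 11449030618) (nat_lit 304) (nat_lit 1280275917) (nat_lit 76) (nat_lit 2150972768) (nat_lit 42) (nat_lit 5) (nat_lit 46) (nat_lit 5) (nat_lit 43) (nat_lit 4) (nat_lit 333) (nat_lit 245) (nat_lit 202)))) (XT.nd (nat_lit 156) (nat_lit 152) (nat_lit 0) (XT.nd (nat_lit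 78) (nat_lit 76) (nat_lit 0) (XT.lf (nat_lit 0) (nat_lit 5909650102) (nat_lit 152) (nat_lit 9218409936) (nat_lit 228) (nat_lit 66097865) (nat_lit 40) (nat_lit 5) (nat_lit 42) (nat_lit 5) (nat_lit 43) (nat_lit 4) (nat_lit 334) (nat_lit 245) (nat_lit 201)) (XT.lf (nat_lit 0) (nat_lit 3301122361) (nat_lit 228) (nat_lit 2284420850) (nat_lit 76) (nat_lit 9931932317) (nat_lit 39) (nat_lit 5) (nat_lit 42) (nat_lit 5) (nat_lit 40) (nat_lit 5) (nat_lit 335) (nat_lit 245) (nat_lit 200))) (XT.nd (nat_lit 78) (nat_lit 0) (nat_lit 0) (XT.lf (nat_lit 0) (nat_lit 4947714247) (nat_lit 152) (nat_lit 1823609908) (nat_lit 228) (nat_lit 9079076300) (nat_lit 37) (nat_lit 5) (nat_lit 39) (nat_lit 5) (nat_lit 40) (nat_lit 5) (nat_lit 336) (nat_lit 245) (nat_lit 199)) (XT.lf (nat_lit 0) (nat_lit 10344682181) (nat_lit 228) (nat_lit 3843101497) (nat_lit 76) (nat_lit 2005583388) (nat_lit 37) (nat_lit 5) (nat_lit 40) (nat_lit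 5) (nat_lit 38) (nat_lit 4) (nat_lit 337) (nat_lit 245) (nat_lit 198)))))) (XT.nd (nat_lit 546) (nat_lit 456) (nat_lit 0) (XT.nd (nat_lit 234) (nat_lit 228) (nat_lit 0) (XT.nd (nat_lit 78) (nat_lit 228) (nat_lit 0) (XT.lf (nat_lit 0) (nat_lit 3404635810) (nat_lit 152) (nat_lit 10628705016) (nat_lit 228) (nat_lit 2513063559) (nat_lit 35) (nat_lit 5) (nat_lit 37) (nat_lit 5) (nat_lit 38) (nat_lit 4) (nat_lit 338) (nat_lit 245) (nat_lit 197)) (XT.nd (nat_lit 78) (nat_lit 152) (nat_lit 0) (XT.lf (nat_lit 0) (nat_lit 901248683) (nat_lit 228) (nat_lit 6041717124) (nat_lit 76) (nat_lit 9966925453) (nat_lit 34) (nat_lit 5) (nat_lit 37) (nat_lit 5) (nat_lit 35) (nat_lit 5) (nat_lit 339) (nat_lit 245) (nat_lit 196)) (XT.lf (nat_lit 0) (nat_lit 1199788083) (nat_lit 152) (nat_lit 3137899017) (nat_lit 228) (nat_lit 12946765588) (nat_lit 32) (nat_lit 5) (nat_lit 34) (nat_lit 5) (nat_lit 35) (nat_lit 5) (nat_lit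 340) (nat_lit 245) (nat_lit 195)))) (XT.nd (nat_lit 156) (nat_lit 228) (nat_lit 0) (XT.nd (nat_lit 78) (nat_lit 0) (nat_lit 0) (XT.lf (nat_lit 0) (nat_lit 7905278257) (nat_lit 228) (nat_lit 8964509341) (nat_lit 76) (nat_lit 799643523) (nat_lit 32) (nat_lit 5) (nat_lit 35) (nat_lit 5) (nat_lit 33) (nat_lit 4) (nat_lit 341) (nat_lit 245) (nat_lit 194)) (XT.lf (nat_lit 0) (nat_lit 11571097018) (nat_lit 228) (nat_lit 1730130167) (nat_lit 76) (nat_lit 4765017033) (nat_lit 32) (nat_lit 5) (nat_lit 35) (nat_lit 5) (nat_lit 33) (nat_lit 4) (nat_lit 342) (nat_lit 245) (nat_lit 193))) (XT.nd (nat_lit 78) (nat_lit 76) (nat_lit 0) (XT.lf (nat_lit 0) (nat_lit 5767502368) (nat_lit 152) (nat_lit 9596121515) (nat_lit 228) (nat_lit 3110856509) (nat_lit 30) (nat_lit 5) (nat_lit 32) (nat_lit 5) (nat_lit 33) (nat_lit 4) (nat_lit 343) (nat_lit 245) (nat_lit 192)) (XT.lf (nat_lit 0) (nat_lit 346680797) (nat_lit 228)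 (nat_lit 5439147457) (nat_lit 76) (nat_lit 13109675723) (nat_lit 29) (nat_lit 5) (nat_lit 32) (nat_lit 5) (nat_lit 30) (nat_lit 5) (nat_lit 344) (nat_lit 245) (nat_lit 191))))) (XT.nd (nat_lit 234) (nat_lit 304) (nat_lit 0) (XT.nd (nat_lit 78) (nat_lit 0) (nat_lit 0) (XT.lf (nat_lit 0) (nat_lit 1990229316) (nat_lit 152) (nat_lit 1836836478) (nat_lit 228) (nat_lit 15501737992) (nat_lit 27) (nat_lit 5) (nat_lit 29) (nat_lit 5) (nat_lit 30) (nat_lit 5) (nat_lit 345) (nat_lit 245) (nat_lit 190)) (XT.nd (nat_lit 78) (nat_lit 0) (nat_lit 0) (XT.lf (nat_lit 0) (nat_lit 7451507593) (nat_lit 228) (nat_lit 10106218458) (nat_lit 76) (nat_lit 2216205562) (nat_lit 27) (nat_lit 5) (nat_lit 30) (nat_lit 5) (nat_lit 28) (nat_lit 4) (nat_lit 346) (nat_lit 245) (nat_lit 189)) (XT.lf (nat_lit 0) (nat_lit 11166689130) (nat_lit 228) (nat_lit 2737954238) (nat_lit 76) (nat_lit 6328327557) (nat_lit 27) (nat_lit 5) (nat_lit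 30) (nat_lit 5) (nat_lit 28) (nat_lit 4) (nat_lit 347) (nat_lit 245) (nat_lit 188)))) (XT.nd (nat_lit 156) (nat_lit 228) (nat_lit 0) (XT.nd (nat_lit 78) (nat_lit 0) (nat_lit 0) (XT.lf (nat_lit 0) (nat_lit 4885649899) (nat_lit 76) (nat_lit 10119513841) (nat_lit 152) (nat_lit 5700279875) (nat_lit 26) (nat_lit 5) (nat_lit 27) (nat_lit 5) (nat_lit 28) (nat_lit 4) (nat_lit 348) (nat_lit 245) (nat_lit 187)) (XT.lf (nat_lit 0) (nat_lit 12733641382) (nat_lit 76) (nat_lit 6218114997) (nat_lit 152) (nat_lit 2240562015) (nat_lit 26) (nat_lit 5) (nat_lit 27) (nat_lit 5) (nat_lit 28) (nat_lit 4) (nat_lit 349) (nat_lit 245) (nat_lit 186))) (XT.nd (nat_lit 78) (nat_lit 152) (nat_lit 0) (XT.lf (nat_lit 0) (nat_lit 1263108531) (nat_lit 152) (nat_lit 948822366) (nat_lit 76) (nat_lit 19482523568) (nat_lit 25) (nat_lit 5) (nat_lit 27) (nat_lit 5) (nat_lit 26) (nat_lit 5) (nat_lit 350) (nat_lit 245) (nat_lit 185))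 (XT.lf (nat_lit 0) (nat_lit 4878610417) (nat_lit 228) (nat_lit 15389092296) (nat_lit 76) (nat_lit 1941749156) (nat_lit 23) (nat_lit 5) (nat_lit 26) (nat_lit 5) (nat_lit 24) (nat_lit 4) (nat_lit 351) (nat_lit 245) (nat_lit 184))))))))
noncomputable def xc68 : XT := (XT.nd (nat_lit 2028) (nat_lit 456) (nat_lit 0) (XT.nd (nat_lit 1014) (nat_lit 304) (nat_lit 0) (XT.nd (nat_lit 468) (nat_lit 304) (nat_lit 0) (XT.nd (nat_lit 234) (nat_lit 228) (nat_lit 0) (XT.nd (nat_lit 78) (nat_lit 76) (nat_lit 0) (XT.lf (nat_lit 0) (nat_lit 8601299580) (nat_lit 228) (nat_lit 7977382290) (nat_lit 76) (nat_lit 6161270605) (nat_lit 23) (nat_lit 5) (nat_lit 26) (nat_lit 5) (nat_lit 24) (nat_lit 4) (nat_lit 352) (nat_lit 245) (nat_lit 183)) (XT.nd (nat_lit 78) (nat_lit 76) (nat_lit 0) (XT.lf (nat_lit 0) (nat_lit 12403772141) (nat_lit 228) (nat_lit 399478521) (nat_lit 76) (nat_lit 10484088867) (nat_lit 23) (nat_lit 5)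 (nat_lit 26) (nat_lit 5) (nat_lit 24) (nat_lit 4) (nat_lit 353) (nat_lit 245) (nat_lit 182)) (XT.lf (nat_lit 0) (nat_lit 7497544579) (nat_lit 76) (nat_lit 8863877053) (nat_lit 152) (nat_lit 7488507567) (nat_lit 22) (nat_lit 5) (nat_lit 23) (nat_lit 5) (nat_lit 24) (nat_lit 4) (nat_lit 354) (nat_lit 245) (nat_lit 181)))) (XT.nd (nat_lit 78) (nat_lit 228) (nat_lit 0) (XT.lf (nat_lit 0) (nat_lit 15585679940) (nat_lit 76) (nat_lit 4825569417) (nat_lit 152) (nat_lit 4018957418) (nat_lit 22) (nat_lit 5) (nat_lit 23) (nat_lit 5) (nat_lit 24) (nat_lit 4) (nat_lit 355) (nat_lit 245) (nat_lit 180)) (XT.nd (nat_lit 78) (nat_lit 228) (nat_lit 0) (XT.lf (nat_lit 0) (nat_lit 23864044456) (nat_lit 76) (nat_lit 688833085) (nat_lit 152) (nat_lit 475919246) (nat_lit 22) (nat_lit 5) (nat_lit 23) (nat_lit 5) (nat_lit 24) (nat_lit 4) (nat_lit 356) (nat_lit 245) (nat_lit 179)) (XT.lf (nat_lit 0) (nat_lit 3182755855)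 (nat_lit 228) (nat_lit 18882380636) (nat_lit 76) (nat_lit 3577167271) (nat_lit 19) (nat_lit 5) (nat_lit 22) (nat_lit 5) (nat_lit 20) (nat_lit 4) (nat_lit 357) (nat_lit 245) (nat_lit 178))))) (XT.nd (nat_lit 234) (nat_lit 228) (nat_lit 0) (XT.nd (nat_lit 78) (nat_lit 76) (nat_lit 0) (XT.lf (nat_lit 0) (nat_lit 6931341337) (nat_lit 228) (nat_lit 11390934142) (nat_lit 76) (nat_lit 7952119788) (nat_lit 19) (nat_lit 5) (nat_lit 22) (nat_lit 5) (nat_lit 20) (nat_lit 4) (nat_lit 358) (nat_lit 245) (nat_lit 177)) (XT.nd (nat_lit 78) (nat_lit 76) (nat_lit 0) (XT.lf (nat_lit 0) (nat_lit 10764245872) (nat_lit 228) (nat_lit 3724877774) (nat_lit 76) (nat_lit 12437181825) (nat_lit 19) (nat_lit 5) (nat_lit 22) (nat_lit 5) (nat_lit 20) (nat_lit 4) (nat_lit 359) (nat_lit 245) (nat_lit 176)) (XT.lf (nat_lit 0) (nat_lit 4204532539) (nat_lit 76) (nat_lit 10520702601) (nat_lit 152) (nat_lit 12872156368) (nat_lit 18)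 (nat_lit 5) (nat_lit 19) (nat_lit 5) (nat_lit 20) (nat_lit 4) (nat_lit 360) (nat_lit 245) (nat_lit 175)))) (XT.nd (nat_lit 156) (nat_lit 228) (nat_lit 0) (XT.nd (nat_lit 78) (nat_lit 0) (nat_lit 0) (XT.lf (nat_lit 0) (nat_lit 12399985374) (nat_lit 76) (nat_lit 6415696139) (nat_lit 152) (nat_lit 9472620911) (nat_lit 18) (nat_lit 5) (nat_lit 19) (nat_lit 5) (nat_lit 20) (nat_lit 4) (nat_lit 361) (nat_lit 245) (nat_lit 174)) (XT.lf (nat_lit 0) (nat_lit 20794509435) (nat_lit 76) (nat_lit 2208131323) (nat_lit 152) (nat_lit 5998096724) (nat_lit 18) (nat_lit 5) (nat_lit 19) (nat_lit 5) (nat_lit 20) (nat_lit 4) (nat_lit 362) (nat_lit 245) (nat_lit 173))) (XT.nd (nat_lit 78) (nat_lit 228) (nat_lit 0) (XT.lf (nat_lit 0) (nat_lit 27310012356) (nat_lit 152) (nat_lit 360120426) (nat_lit 0) (nat_lit 2064579185) (nat_lit 18) (nat_lit 5) (nat_lit 20) (nat_lit 4) (nat_lit 18) (nat_lit 4) (nat_lit 363) (nat_lit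 245) (nat_lit 172)) (XT.lf (nat_lit 0) (nat_lit 1304122479) (nat_lit 228) (nat_lit 22694157346) (nat_lit 76) (nat_lit 6489891662) (nat_lit 15) (nat_lit 5) (nat_lit 18) (nat_lit 5) (nat_lit 16) (nat_lit 4) (nat_lit 364) (nat_lit 245) (nat_lit 171)))))) (XT.nd (nat_lit 468) (nat_lit 228) (nat_lit 0) (XT.nd (nat_lit 234) (nat_lit 0) (nat_lit 0) (XT.nd (nat_lit 78) (nat_lit 76) (nat_lit 0) (XT.lf (nat_lit 0) (nat_lit 5074911073) (nat_lit 228) (nat_lit 15132750490) (nat_lit 76) (nat_lit 11056497538) (nat_lit 15) (nat_lit 5) (nat_lit 18) (nat_lit 5) (nat_lit 16) (nat_lit 4) (nat_lit 365) (nat_lit 245) (nat_lit 170)) (XT.nd (nat_lit 78) (nat_lit 76) (nat_lit 0) (XT.lf (nat_lit 0) (nat_lit 8934710106) (nat_lit 228) (nat_lit 7387935139) (nat_lit 76) (nat_lit 15741513808) (nat_lit 15) (nat_lit 5) (nat_lit 18) (nat_lit 5) (nat_lit 16) (nat_lit 4) (nat_lit 366) (nat_lit 245) (nat_lit 169)) (XT.lf (nat_lit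 0) (nat_lit 557943507) (nat_lit 76) (nat_lit 12334312007) (nat_lit 152) (nat_lit 19996453961) (nat_lit 14) (nat_lit 5) (nat_lit 15) (nat_lit 5) (nat_lit 16) (nat_lit 4) (nat_lit 367) (nat_lit 245) (nat_lit 168)))) (XT.nd (nat_lit 78) (nat_lit 0) (nat_lit 0) (XT.lf (nat_lit 0) (nat_lit 8851888708) (nat_lit 76) (nat_lit 8168111839) (nat_lit 152) (nat_lit 16716460444) (nat_lit 14) (nat_lit 5) (nat_lit 15) (nat_lit 5) (nat_lit 16) (nat_lit 4) (nat_lit 368) (nat_lit 245) (nat_lit 167)) (XT.nd (nat_lit 78) (nat_lit 0) (nat_lit 0) (XT.lf (nat_lit 0) (nat_lit 17354113203) (nat_lit 76) (nat_lit 3895008032) (nat_lit 152) (nat_lit 13361206042) (nat_lit 14) (nat_lit 5) (nat_lit 15) (nat_lit 5) (nat_lit 16) (nat_lit 4) (nat_lit 369) (nat_lit 245) (nat_lit 166)) (XT.lf (nat_lit 0) (nat_lit 25588010928) (nat_lit 152) (nat_lit 9443723787) (nat_lit 0) (nat_lit 479196250) (nat_lit 14) (nat_lit 5) (nat_lit 16) (nat_lit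 4) (nat_lit 14) (nat_lit 4) (nat_lit 370) (nat_lit 245) (nat_lit 165))))) (XT.nd (nat_lit 234) (nat_lit 76) (nat_lit 0) (XT.nd (nat_lit 78) (nat_lit 152) (nat_lit 0) (XT.lf (nat_lit 0) (nat_lit 30074300318) (nat_lit 152) (nat_lit 1474114401) (nat_lit 0) (nat_lit 4889629089) (nat_lit 14) (nat_lit 5) (nat_lit 16) (nat_lit 4) (nat_lit 14) (nat_lit 4) (nat_lit 371) (nat_lit 245) (nat_lit 164)) (XT.nd (nat_lit 78) (nat_lit 76) (nat_lit 0) (XT.lf (nat_lit 0) (nat_lit 6830302828) (nat_lit 76) (nat_lit 27909822483) (nat_lit 76) (nat_lit 2651504117) (nat_lit 13) (nat_lit 4) (nat_lit 14) (nat_lit 5) (nat_lit 14) (nat_lit 4) (nat_lit 372) (nat_lit 245) (nat_lit 163)) (XT.lf (nat_lit 0) (nat_lit 1143589030) (nat_lit 152) (nat_lit 23008334707) (nat_lit 76) (nat_lit 14221737467) (nat_lit 12) (nat_lit 5) (nat_lit 14) (nat_lit 5) (nat_lit 13) (nat_lit 4) (nat_lit 373) (nat_lit 245) (nat_lit 162)))) (XT.nd (nat_lit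 156) (nat_lit 76) (nat_lit 0) (XT.nd (nat_lit 78) (nat_lit 0) (nat_lit 0) (XT.lf (nat_lit 0) (nat_lit 4979170022) (nat_lit 152) (nat_lit 15291524783) (nat_lit 76) (nat_lit 19114280862) (nat_lit 12) (nat_lit 5) (nat_lit 14) (nat_lit 5) (nat_lit 13) (nat_lit 4) (nat_lit 374) (nat_lit 245) (nat_lit 161)) (XT.lf (nat_lit 0) (nat_lit 8910330732) (nat_lit 152) (nat_lit 7378666104) (nat_lit 76) (nat_lit 24138224290) (nat_lit 12) (nat_lit 5) (nat_lit 14) (nat_lit 5) (nat_lit 13) (nat_lit 4) (nat_lit 375) (nat_lit 245) (nat_lit 160))) (XT.nd (nat_lit 78) (nat_lit 0) (nat_lit 0) (XT.lf (nat_lit 0) (nat_lit 751826315) (nat_lit 76) (nat_lit 12195906853) (nat_lit 152) (nat_lit 28553358301) (nat_lit 11) (nat_lit 5) (nat_lit 12) (nat_lit 5) (nat_lit 13) (nat_lit 4) (nat_lit 376) (nat_lit 245) (nat_lit 159)) (XT.lf (nat_lit 0) (nat_lit 9243403551) (nat_lit 76) (nat_lit 7918667500) (nat_lit 152) (nat_lit 25443439003)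 (nat_lit 11) (nat_lit 5) (nat_lit 12) (nat_lit 5) (nat_lit 13) (nat_lit 4) (nat_lit 377) (nat_lit 245) (nat_lit 158))))))) (XT.nd (nat_lit 1014) (nat_lit 228) (nat_lit 0) (XT.nd (nat_lit 468) (nat_lit 152) (nat_lit 0) (XT.nd (nat_lit 234) (nat_lit 76) (nat_lit 0) (XT.nd (nat_lit 78) (nat_lit 0) (nat_lit 0) (XT.lf (nat_lit 0) (nat_lit 17956635503) (nat_lit 76) (nat_lit 3528051444) (nat_lit 152) (nat_lit 22258925156) (nat_lit 11) (nat_lit 5) (nat_lit 12) (nat_lit 5) (nat_lit 13) (nat_lit 4) (nat_lit 378) (nat_lit 245) (nat_lit 157)) (XT.nd (nat_lit 78) (nat_lit 0) (nat_lit 0) (XT.lf (nat_lit 0) (nat_lit 25928776124) (nat_lit 152) (nat_lit 18026674622) (nat_lit 0) (nat_lit 960658781) (nat_lit 11) (nat_lit 5) (nat_lit 13) (nat_lit 4) (nat_lit 11) (nat_lit 4) (nat_lit 379) (nat_lit 245) (nat_lit 156)) (XT.lf (nat_lit 0) (nat_lit 30523873687) (nat_lit 152) (nat_lit 10100071646) (nat_lit 0) (nat_lit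 5499311947) (nat_lit 11) (nat_lit 5) (nat_lit 13) (nat_lit 4) (nat_lit 11) (nat_lit 4) (nat_lit 380) (nat_lit 245) (nat_lit 155)))) (XT.nd (nat_lit 78) (nat_lit 76) (nat_lit 0) (XT.lf (nat_lit 0) (nat_lit 35240080984) (nat_lit 152) (nat_lit 1966327724) (nat_lit 0) (nat_lit 10160718858) (nat_lit 11) (nat_lit 5) (nat_lit 13) (nat_lit 4) (nat_lit 11) (nat_lit 4) (nat_lit 381) (nat_lit 245) (nat_lit 154)) (XT.nd (nat_lit 78) (nat_lit 0) (nat_lit 0) (XT.lf (nat_lit 0) (nat_lit 6508671928) (nat_lit 76) (nat_lit 33635412378) (nat_lit 76) (nat_lit 8502845994) (nat_lit 10) (nat_lit 4) (nat_lit 11) (nat_lit 5) (nat_lit 11) (nat_lit 4) (nat_lit 382) (nat_lit 245) (nat_lit 153)) (XT.lf (nat_lit 0) (nat_lit 15248756950) (nat_lit 76) (nat_lit 29950241461) (nat_lit 76) (nat_lit 4766020458) (nat_lit 10) (nat_lit 4) (nat_lit 11) (nat_lit 5) (nat_lit 11) (nat_lit 4) (nat_lit 383) (nat_lit 245) (nat_lit 152)))))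 (XT.nd (nat_lit 234) (nat_lit 76) (nat_lit 0) (XT.nd (nat_lit 78) (nat_lit 76) (nat_lit 0) (XT.lf (nat_lit 0) (nat_lit 24222430530) (nat_lit 76) (nat_lit 26167531959) (nat_lit 76) (nat_lit 933160839) (nat_lit 10) (nat_lit 4) (nat_lit 11) (nat_lit 5) (nat_lit 11) (nat_lit 4) (nat_lit 384) (nat_lit 245) (nat_lit 151)) (XT.nd (nat_lit 78) (nat_lit 0) (nat_lit 0) (XT.lf (nat_lit 0) (nat_lit 2940559069) (nat_lit 152) (nat_lit 19313725642) (nat_lit 76) (nat_lit 30467280792) (nat_lit 9) (nat_lit 5) (nat_lit 11) (nat_lit 5) (nat_lit 10) (nat_lit 4) (nat_lit 385) (nat_lit 245) (nat_lit 150)) (XT.lf (nat_lit 0) (nat_lit 6896882400) (nat_lit 152) (nat_lit 11329660574) (nat_lit 76) (nat_lit 35935591230) (nat_lit 9) (nat_lit 5) (nat_lit 11) (nat_lit 5) (nat_lit 10) (nat_lit 4) (nat_lit 386) (nat_lit 245) (nat_lit 149)))) (XT.nd (nat_lit 156) (nat_lit 0) (nat_lit 0) (XT.nd (nat_lit 78) (nat_lit 76) (nat_lit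 0) (XT.lf (nat_lit 0) (nat_lit 10957475463) (nat_lit 152) (nat_lit 3132551116) (nat_lit 76) (nat_lit 41556330706) (nat_lit 9) (nat_lit 5) (nat_lit 11) (nat_lit 5) (nat_lit 10) (nat_lit 4) (nat_lit 387) (nat_lit 245) (nat_lit 148)) (XT.lf (nat_lit 0) (nat_lit 5389942446) (nat_lit 76) (nat_lit 9787755328) (nat_lit 152) (nat_lit 41996279522) (nat_lit 8) (nat_lit 5) (nat_lit 9) (nat_lit 5) (nat_lit 10) (nat_lit 4) (nat_lit 388) (nat_lit 245) (nat_lit 147))) (XT.nd (nat_lit 78) (nat_lit 0) (nat_lit 0) (XT.lf (nat_lit 0) (nat_lit 14206870696) (nat_lit 76) (nat_lit 5335451797) (nat_lit 152) (nat_lit 39204573990) (nat_lit 8) (nat_lit 5) (nat_lit 9) (nat_lit 5) (nat_lit 10) (nat_lit 4) (nat_lit 389) (nat_lit 245) (nat_lit 146)) (XT.lf (nat_lit 0) (nat_lit 23263593835) (nat_lit 76) (nat_lit 760858250) (nat_lit 152) (nat_lit 36342958496) (nat_lit 8) (nat_lit 5) (nat_lit 9) (nat_lit 5) (nat_lit 10) (nat_lit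 4) (nat_lit 390) (nat_lit 245) (nat_lit 145)))))) (XT.nd (nat_lit 546) (nat_lit 152) (nat_lit 0) (XT.nd (nat_lit 234) (nat_lit 76) (nat_lit 0) (XT.nd (nat_lit 78) (nat_lit 0) (nat_lit 0) (XT.lf (nat_lit 0) (nat_lit 28665876881) (nat_lit 152) (nat_lit 29506783975) (nat_lit 0) (nat_lit 3863138499) (nat_lit 8) (nat_lit 5) (nat_lit 10) (nat_lit 4) (nat_lit 8) (nat_lit 4) (nat_lit 391) (nat_lit 245) (nat_lit 144)) (XT.nd (nat_lit 78) (nat_lit 0) (nat_lit 0) (XT.lf (nat_lit 0) (nat_lit 33441312763) (nat_lit 152) (nat_lit 21712949558) (nat_lit 0) (nat_lit 8600138493) (nat_lit 8) (nat_lit 5) (nat_lit 10) (nat_lit 4) (nat_lit 8) (nat_lit 4) (nat_lit 392) (nat_lit 245) (nat_lit 143)) (XT.lf (nat_lit 0) (nat_lit 38347618607) (nat_lit 152) (nat_lit 13708189514) (nat_lit 0) (nat_lit 13469127941) (nat_lit 8) (nat_lit 5) (nat_lit 10) (nat_lit 4) (nat_lit 8) (nat_lit 4) (nat_lit 393) (nat_lit 245) (nat_lit 142))))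 (XT.nd (nat_lit 156) (nat_lit 0) (nat_lit 0) (XT.nd (nat_lit 78) (nat_lit 76) (nat_lit 0) (XT.lf (nat_lit 0) (nat_lit 43389081477) (nat_lit 152) (nat_lit 5485509392) (nat_lit 0) (nat_lit 18474361300) (nat_lit 8) (nat_lit 5) (nat_lit 10) (nat_lit 4) (nat_lit 8) (nat_lit 4) (nat_lit 394) (nat_lit 245) (nat_lit 141)) (XT.lf (nat_lit 0) (nat_lit 3021230766) (nat_lit 76) (nat_lit 45577917685) (nat_lit 76) (nat_lit 20628023226) (nat_lit 7) (nat_lit 4) (nat_lit 8) (nat_lit 5) (nat_lit 8) (nat_lit 4) (nat_lit 395) (nat_lit 245) (nat_lit 140))) (XT.nd (nat_lit 78) (nat_lit 0) (nat_lit 0) (XT.lf (nat_lit 0) (nat_lit 11874256759) (nat_lit 76) (nat_lit 42135106747) (nat_lit 76) (nat_lit 17151062499) (nat_lit 7) (nat_lit 4) (nat_lit 8) (nat_lit 5) (nat_lit 8) (nat_lit 4) (nat_lit 396) (nat_lit 245) (nat_lit 139)) (XT.lf (nat_lit 0) (nat_lit 20972131847) (nat_lit 76) (nat_lit 38598542664) (nat_lit 76) (nat_lit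 13581343281) (nat_lit 7) (nat_lit 4) (nat_lit 8) (nat_lit 5) (nat_lit 8) (nat_lit 4) (nat_lit 397) (nat_lit 245) (nat_lit 138))))) (XT.nd (nat_lit 234) (nat_lit 152) (nat_lit 0) (XT.nd (nat_lit 78) (nat_lit 0) (nat_lit 0) (XT.lf (nat_lit 0) (nat_lit 30322805628) (nat_lit 76) (nat_lit 34965135233) (nat_lit 76) (nat_lit 9915746399) (nat_lit 7) (nat_lit 4) (nat_lit 8) (nat_lit 5) (nat_lit 8) (nat_lit 4) (nat_lit 398) (nat_lit 245) (nat_lit 137)) (XT.nd (nat_lit 78) (nat_lit 0) (nat_lit 0) (XT.lf (nat_lit 0) (nat_lit 39934448595) (nat_lit 76) (nat_lit 31231709632) (nat_lit 76) (nat_lit 6151068904) (nat_lit 7) (nat_lit 4) (nat_lit 8) (nat_lit 5) (nat_lit 8) (nat_lit 4) (nat_lit 399) (nat_lit 245) (nat_lit 136)) (XT.lf (nat_lit 0) (nat_lit 49815459271) (nat_lit 76) (nat_lit 27395003645) (nat_lit 76) (nat_lit 2284021272) (nat_lit 7) (nat_lit 4) (nat_lit 8) (nat_lit 5) (nat_lit 8) (nat_lit 4) (nat_lit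 400) (nat_lit 245) (nat_lit 135)))) (XT.nd (nat_lit 156) (nat_lit 76) (nat_lit 0) (XT.nd (nat_lit 78) (nat_lit 0) (nat_lit 0) (XT.lf (nat_lit 0) (nat_lit 1655821378) (nat_lit 152) (nat_lit 21779122882) (nat_lit 76) (nat_lit 58301929621) (nat_lit 6) (nat_lit 5) (nat_lit 8) (nat_lit 5) (nat_lit 7) (nat_lit 4) (nat_lit 401) (nat_lit 245) (nat_lit 134)) (XT.lf (nat_lit 0) (nat_lit 5658183748) (nat_lit 152) (nat_lit 13682927182) (nat_lit 76) (nat_lit 64705041924) (nat_lit 6) (nat_lit 5) (nat_lit 8) (nat_lit 5) (nat_lit 7) (nat_lit 4) (nat_lit 402) (nat_lit 245) (nat_lit 133))) (XT.nd (nat_lit 78) (nat_lit 76) (nat_lit 0) (XT.lf (nat_lit 0) (nat_lit 9771132529) (nat_lit 152) (nat_lit 5361408060) (nat_lit 76) (nat_lit 71292456997) (nat_lit 6) (nat_lit 5) (nat_lit 8) (nat_lit 5) (nat_lit 7) (nat_lit 4) (nat_lit 403) (nat_lit 245) (nat_lit 132)) (XT.lf (nat_lit 0) (nat_lit 3256246817) (nat_lit 76) (nat_lit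 10773315779) (nat_lit 152) (nat_lit 74844985051) (nat_lit 5) (nat_lit 5) (nat_lit 6) (nat_lit 5) (nat_lit 7) (nat_lit 4) (nat_lit 404) (nat_lit 245) (nat_lit 131))))))))
noncomputable def xc69 : XT := (XT.nd (nat_lit 33228) (nat_lit 0) (nat_lit 2432) (XT.nd (nat_lit 32214) (nat_lit 0) (nat_lit 6384) (XT.nd (nat_lit 31668) (nat_lit 0) (nat_lit 10184) (XT.nd (nat_lit 234) (nat_lit 0) (nat_lit 0) (XT.nd (nat_lit 78) (nat_lit 0) (nat_lit 0) (XT.lf (nat_lit 0) (nat_lit 12225451194) (nat_lit 76) (nat_lit 6235331769) (nat_lit 152) (nat_lit 72935452815) (nat_lit 5) (nat_lit 5) (nat_lit 6) (nat_lit 5) (nat_lit 7) (nat_lit 4) (nat_lit 405) (nat_lit 245) (nat_lit 130)) (XT.nd (nat_lit 78) (nat_lit 0) (nat_lit 0) (XT.lf (nat_lit 0) (nat_lit 21447339706) (nat_lit 76) (nat_lit 1568763042) (nat_lit 152) (nat_lit 70977739535) (nat_lit 5) (nat_lit 5) (nat_lit 6) (nat_lit 5) (nat_lit 7) (nat_lit 4) (nat_lit 406)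 (nat_lit 245) (nat_lit 129)) (XT.lf (nat_lit 0) (nat_lit 27730555560) (nat_lit 152) (nat_lit 65770719834) (nat_lit 0) (nat_lit 3167429922) (nat_lit 5) (nat_lit 5) (nat_lit 7) (nat_lit 4) (nat_lit 5) (nat_lit 4) (nat_lit 407) (nat_lit 245) (nat_lit 128)))) (XT.nd (nat_lit 31278) (nat_lit 0) (nat_lit 12464) (XT.lf (nat_lit 0) (nat_lit 32593575908) (nat_lit 152) (nat_lit 58822830851) (nat_lit 0) (nat_lit 8007195926) (nat_lit 5) (nat_lit 5) (nat_lit 7) (nat_lit 4) (nat_lit 5) (nat_lit 4) (nat_lit 408) (nat_lit 245) (nat_lit 127)) (XT.nd (nat_lit 78) (nat_lit 608) (nat_lit 0) (XT.lf (nat_lit 0) (nat_lit 597296380) (nat_lit 684) (nat_lit 2481844039) (nat_lit 0) (nat_lit 597296380) (nat_lit 177) (nat_lit 5) (nat_lit 186) (nat_lit 4) (nat_lit 177) (nat_lit 4) (nat_lit 288) (nat_lit 246) (nat_lit 246)) (XT.lf (nat_lit 0) (nat_lit 14579585) (nat_lit 608) (nat_lit 4454463186) (nat_lit 608) (nat_lit 2952868289)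 (nat_lit 169) (nat_lit 4) (nat_lit 177) (nat_lit 5) (nat_lit 177) (nat_lit 4) (nat_lit 289) (nat_lit 246) (nat_lit 245))))) (XT.nd (nat_lit 234) (nat_lit 1140) (nat_lit 0) (XT.nd (nat_lit 78) (nat_lit 1064) (nat_lit 0) (XT.lf (nat_lit 0) (nat_lit 298014859) (nat_lit 684) (nat_lit 2354483855) (nat_lit 76) (nat_lit 4841886900) (nat_lit 168) (nat_lit 5) (nat_lit 177) (nat_lit 5) (nat_lit 169) (nat_lit 4) (nat_lit 290) (nat_lit 246) (nat_lit 244)) (XT.nd (nat_lit 78) (nat_lit 532) (nat_lit 0) (XT.lf (nat_lit 0) (nat_lit 2774795360) (nat_lit 532) (nat_lit 747198032) (nat_lit 608) (nat_lit 4048261906) (nat_lit 161) (nat_lit 5) (nat_lit 168) (nat_lit 5) (nat_lit 169) (nat_lit 4) (nat_lit 291) (nat_lit 246) (nat_lit 243)) (XT.lf (nat_lit 0) (nat_lit 351636098) (nat_lit 532) (nat_lit 6440006862) (nat_lit 532) (nat_lit 858430868) (nat_lit 154) (nat_lit 4) (nat_lit 161) (nat_lit 5) (nat_lit 161) (nat_lit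 4) (nat_lit 292) (nat_lit 246) (nat_lit 242)))) (XT.nd (nat_lit 156) (nat_lit 608) (nat_lit 0) (XT.nd (nat_lit 78) (nat_lit 456) (nat_lit 0) (XT.lf (nat_lit 0) (nat_lit 2346559706) (nat_lit 608) (nat_lit 2113348738) (nat_lit 76) (nat_lit 3272806959) (nat_lit 153) (nat_lit 5) (nat_lit 161) (nat_lit 5) (nat_lit 154) (nat_lit 4) (nat_lit 293) (nat_lit 246) (nat_lit 241)) (XT.lf (nat_lit 0) (nat_lit 3181107662) (nat_lit 456) (nat_lit 2393047357) (nat_lit 532) (nat_lit 2245244281) (nat_lit 147) (nat_lit 5) (nat_lit 153) (nat_lit 5) (nat_lit 154) (nat_lit 4) (nat_lit 294) (nat_lit 246) (nat_lit 240))) (XT.nd (nat_lit 78) (nat_lit 0) (nat_lit 0) (XT.lf (nat_lit 0) (nat_lit 672449646) (nat_lit 532) (nat_lit 239887363) (nat_lit 608) (nat_lit 6997930363) (nat_lit 139) (nat_lit 5) (nat_lit 146) (nat_lit 5) (nat_lit 147) (nat_lit 5) (nat_lit 295) (nat_lit 246) (nat_lit 239)) (XT.lf (nat_lit 0) (nat_lit 4100986436)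 (nat_lit 608) (nat_lit 1908719836) (nat_lit 76) (nat_lit 1994162614) (nat_lit 139) (nat_lit 5) (nat_lit 147) (nat_lit 5) (nat_lit 140) (nat_lit 4) (nat_lit 296) (nat_lit 246) (nat_lit 238)))))) (XT.nd (nat_lit 468) (nat_lit 1976) (nat_lit 0) (XT.nd (nat_lit 234) (nat_lit 836) (nat_lit 0) (XT.nd (nat_lit 78) (nat_lit 532) (nat_lit 0) (XT.lf (nat_lit 0) (nat_lit 3547933361) (nat_lit 456) (nat_lit 3791467273) (nat_lit 532) (nat_lit 762369544) (nat_lit 133) (nat_lit 5) (nat_lit 139) (nat_lit 5) (nat_lit 140) (nat_lit 4) (nat_lit 297) (nat_lit 246) (nat_lit 237)) (XT.nd (nat_lit 78) (nat_lit 0) (nat_lit 0) (XT.lf (nat_lit 0) (nat_lit 899029371) (nat_lit 456) (nat_lit 1471361922) (nat_lit 532) (nat_lit 5833224224) (nat_lit 126) (nat_lit 5) (nat_lit 132) (nat_lit 5) (nat_lit 133) (nat_lit 5) (nat_lit 298) (nat_lit 246) (nat_lit 236)) (XT.lf (nat_lit 0) (nat_lit 5556503596) (nat_lit 532) (nat_lit 1816436028)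 (nat_lit 76) (nat_lit 936214543) (nat_lit 126) (nat_lit 5) (nat_lit 133) (nat_lit 5) (nat_lit 127) (nat_lit 4) (nat_lit 299) (nat_lit 246) (nat_lit 235)))) (XT.nd (nat_lit 78) (nat_lit 380) (nat_lit 0) (XT.lf (nat_lit 0) (nat_lit 384611808) (nat_lit 456) (nat_lit 4625000445) (nat_lit 76) (nat_lit 3409050399) (nat_lit 120) (nat_lit 5) (nat_lit 126) (nat_lit 5) (nat_lit 121) (nat_lit 5) (nat_lit 300) (nat_lit 246) (nat_lit 234)) (XT.nd (nat_lit 78) (nat_lit 0) (nat_lit 0) (XT.lf (nat_lit 0) (nat_lit 970874381) (nat_lit 380) (nat_lit 2539903362) (nat_lit 456) (nat_lit 5021453911) (nat_lit 115) (nat_lit 5) (nat_lit 120) (nat_lit 5) (nat_lit 121) (nat_lit 5) (nat_lit 301) (nat_lit 246) (nat_lit 233)) (XT.lf (nat_lit 0) (nat_lit 6701300406) (nat_lit 456) (nat_lit 1919108110) (nat_lit 76) (nat_lit 29775478) (nat_lit 115) (nat_lit 5) (nat_lit 121) (nat_lit 5) (nat_lit 116) (nat_lit 4) (nat_lit 302) (nat_lit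 246) (nat_lit 232))))) (XT.nd (nat_lit 234) (nat_lit 1140) (nat_lit 0) (XT.nd (nat_lit 78) (nat_lit 380) (nat_lit 0) (XT.lf (nat_lit 0) (nat_lit 1179635569) (nat_lit 456) (nat_lit 4938724710) (nat_lit 76) (nat_lit 2653427124) (nat_lit 109) (nat_lit 5) (nat_lit 115) (nat_lit 5) (nat_lit 110) (nat_lit 5) (nat_lit 303) (nat_lit 246) (nat_lit 231)) (XT.nd (nat_lit 78) (nat_lit 0) (nat_lit 0) (XT.lf (nat_lit 0) (nat_lit 798862723) (nat_lit 380) (nat_lit 3517257646) (nat_lit 456) (nat_lit 4581826738) (nat_lit 104) (nat_lit 5) (nat_lit 109) (nat_lit 5) (nat_lit 110) (nat_lit 5) (nat_lit 304) (nat_lit 246) (nat_lit 230)) (XT.lf (nat_lit 0) (nat_lit 6712857655) (nat_lit 380) (nat_lit 810966357) (nat_lit 456) (nat_lit 1504836863) (nat_lit 104) (nat_lit 5) (nat_lit 109) (nat_lit 5) (nat_lit 110) (nat_lit 5) (nat_lit 305) (nat_lit 246) (nat_lit 229)))) (XT.nd (nat_lit 156) (nat_lit 380) (nat_lit 0) (XT.nd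 (nat_lit 78) (nat_lit 380) (nat_lit 0) (XT.lf (nat_lit 0) (nat_lit 1614445416) (nat_lit 380) (nat_lit 5583683106) (nat_lit 76) (nat_lit 1965291904) (nat_lit 99) (nat_lit 5) (nat_lit 104) (nat_lit 5) (nat_lit 100) (nat_lit 5) (nat_lit 306) (nat_lit 246) (nat_lit 228)) (XT.lf (nat_lit 0) (nat_lit 283827977) (nat_lit 380) (nat_lit 4477134566) (nat_lit 456) (nat_lit 4541972133) (nat_lit 94) (nat_lit 5) (nat_lit 99) (nat_lit 5) (nat_lit 100) (nat_lit 5) (nat_lit 307) (nat_lit 246) (nat_lit 227))) (XT.nd (nat_lit 78) (nat_lit 380) (nat_lit 0) (XT.lf (nat_lit 0) (nat_lit 6346127111) (nat_lit 380) (nat_lit 1642792819) (nat_lit 456) (nat_lit 1458176827) (nat_lit 94) (nat_lit 5) (nat_lit 99) (nat_lit 5) (nat_lit 100) (nat_lit 5) (nat_lit 308) (nat_lit 246) (nat_lit 226)) (XT.lf (nat_lit 0) (nat_lit 1657284019) (nat_lit 380) (nat_lit 6667557069) (nat_lit 76) (nat_lit 1271136293) (nat_lit 89) (nat_lit 5)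 (nat_lit 94) (nat_lit 5) (nat_lit 90) (nat_lit 5) (nat_lit 309) (nat_lit 246) (nat_lit 225))))))) (XT.nd (nat_lit 1014) (nat_lit 1520) (nat_lit 0) (XT.nd (nat_lit 468) (nat_lit 1368) (nat_lit 0) (XT.nd (nat_lit 234) (nat_lit 380) (nat_lit 0) (XT.nd (nat_lit 78) (nat_lit 684) (nat_lit 0) (XT.lf (nat_lit 0) (nat_lit 4817563362) (nat_lit 380) (nat_lit 672370582) (nat_lit 76) (nat_lit 4259604968) (nat_lit 89) (nat_lit 5) (nat_lit 94) (nat_lit 5) (nat_lit 90) (nat_lit 5) (nat_lit 310) (nat_lit 246) (nat_lit 224)) (XT.nd (nat_lit 78) (nat_lit 380) (nat_lit 0) (XT.lf (nat_lit 0) (nat_lit 5517887423) (nat_lit 304) (nat_lit 2542536580) (nat_lit 380) (nat_lit 1847715621) (nat_lit 85) (nat_lit 5) (nat_lit 89) (nat_lit 5) (nat_lit 90) (nat_lit 5) (nat_lit 311) (nat_lit 246) (nat_lit 223)) (XT.lf (nat_lit 0) (nat_lit 1266849997) (nat_lit 380) (nat_lit 8312211103) (nat_lit 76) (nat_lit 493204356) (nat_lit 80)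 (nat_lit 5) (nat_lit 85) (nat_lit 5) (nat_lit 81) (nat_lit 5) (nat_lit 312) (nat_lit 246) (nat_lit 222)))) (XT.nd (nat_lit 78) (nat_lit 380) (nat_lit 0) (XT.lf (nat_lit 0) (nat_lit 4443452554) (nat_lit 380) (nat_lit 2192729264) (nat_lit 76) (nat_lit 3604472262) (nat_lit 80) (nat_lit 5) (nat_lit 85) (nat_lit 5) (nat_lit 81) (nat_lit 5) (nat_lit 313) (nat_lit 246) (nat_lit 221)) (XT.nd (nat_lit 78) (nat_lit 76) (nat_lit 0) (XT.lf (nat_lit 0) (nat_lit 4099356078) (nat_lit 304) (nat_lit 3593064490) (nat_lit 380) (nat_lit 2722419990) (nat_lit 76) (nat_lit 5) (nat_lit 80) (nat_lit 5) (nat_lit 81) (nat_lit 5) (nat_lit 314) (nat_lit 246) (nat_lit 220)) (XT.lf (nat_lit 0) (nat_lit 396239030) (nat_lit 380) (nat_lit 64300699) (nat_lit 76) (nat_lit 10134830264) (nat_lit 75) (nat_lit 5) (nat_lit 80) (nat_lit 5) (nat_lit 76) (nat_lit 5) (nat_lit 315) (nat_lit 246) (nat_lit 219))))) (XT.nd (nat_lit 234) (nat_lit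 836) (nat_lit 0) (XT.nd (nat_lit 78) (nat_lit 304) (nat_lit 0) (XT.lf (nat_lit 0) (nat_lit 3582044792) (nat_lit 304) (nat_lit 4424400686) (nat_lit 76) (nat_lit 2773265319) (nat_lit 72) (nat_lit 5) (nat_lit 76) (nat_lit 5) (nat_lit 73) (nat_lit 5) (nat_lit 316) (nat_lit 246) (nat_lit 218)) (XT.nd (nat_lit 78) (nat_lit 0) (nat_lit 0) (XT.lf (nat_lit 0) (nat_lit 1943219225) (nat_lit 304) (nat_lit 4884492446) (nat_lit 380) (nat_lit 4142993271) (nat_lit 68) (nat_lit 5) (nat_lit 72) (nat_lit 5) (nat_lit 73) (nat_lit 5) (nat_lit 317) (nat_lit 246) (nat_lit 217)) (XT.lf (nat_lit 0) (nat_lit 8504041319) (nat_lit 304) (nat_lit 1652662230) (nat_lit 380) (nat_lit 1011196930) (nat_lit 68) (nat_lit 5) (nat_lit 72) (nat_lit 5) (nat_lit 73) (nat_lit 5) (nat_lit 318) (nat_lit 246) (nat_lit 216)))) (XT.nd (nat_lit 156) (nat_lit 532) (nat_lit 0) (XT.nd (nat_lit 78) (nat_lit 0) (nat_lit 0) (XT.lf (nat_lit 0) (nat_lit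 2167201708) (nat_lit 304) (nat_lit 7529918426) (nat_lit 76) (nat_lit 1673424582) (nat_lit 64) (nat_lit 5) (nat_lit 68) (nat_lit 5) (nat_lit 65) (nat_lit 5) (nat_lit 319) (nat_lit 246) (nat_lit 215)) (XT.lf (nat_lit 0) (nat_lit 5407097964) (nat_lit 304) (nat_lit 1097999094) (nat_lit 76) (nat_lit 5074322732) (nat_lit 64) (nat_lit 5) (nat_lit 68) (nat_lit 5) (nat_lit 65) (nat_lit 5) (nat_lit 320) (nat_lit 246) (nat_lit 214))) (XT.nd (nat_lit 78) (nat_lit 304) (nat_lit 0) (XT.lf (nat_lit 0) (nat_lit 5549984378) (nat_lit 228) (nat_lit 3192159133) (nat_lit 304) (nat_lit 3052523650) (nat_lit 61) (nat_lit 5) (nat_lit 64) (nat_lit 5) (nat_lit 65) (nat_lit 5) (nat_lit 321) (nat_lit 246) (nat_lit 213)) (XT.lf (nat_lit 0) (nat_lit 118835867) (nat_lit 304) (nat_lit 11696551149) (nat_lit 76) (nat_lit 202147406) (nat_lit 57) (nat_lit 5) (nat_lit 61) (nat_lit 5) (nat_lit 58) (nat_lit 5) (nat_lit 322) (nat_lit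 246) (nat_lit 212)))))) (XT.nd (nat_lit 546) (nat_lit 836) (nat_lit 0) (XT.nd (nat_lit 234) (nat_lit 456) (nat_lit 0) (XT.nd (nat_lit 78) (nat_lit 228) (nat_lit 0) (XT.lf (nat_lit 0) (nat_lit 3364596842) (nat_lit 304) (nat_lit 5182061344) (nat_lit 76) (nat_lit 3698345254) (nat_lit 57) (nat_lit 5) (nat_lit 61) (nat_lit 5) (nat_lit 58) (nat_lit 5) (nat_lit 323) (nat_lit 246) (nat_lit 211)) (XT.nd (nat_lit 78) (nat_lit 0) (nat_lit 0) (XT.lf (nat_lit 0) (nat_lit 1473072460) (nat_lit 228) (nat_lit 5195735193) (nat_lit 304) (nat_lit 5811696209) (nat_lit 54) (nat_lit 5) (nat_lit 57) (nat_lit 5) (nat_lit 58) (nat_lit 5) (nat_lit 324) (nat_lit 246) (nat_lit 210)) (XT.lf (nat_lit 0) (nat_lit 8351370790) (nat_lit 228) (nat_lit 1720770574) (nat_lit 304) (nat_lit 2650966520) (nat_lit 54) (nat_lit 5) (nat_lit 57) (nat_lit 5) (nat_lit 58) (nat_lit 5) (nat_lit 325) (nat_lit 246) (nat_lit 209)))) (XT.nd (nat_lit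 156) (nat_lit 228) (nat_lit 0) (XT.nd (nat_lit 78) (nat_lit 0) (nat_lit 0) (XT.lf (nat_lit 0) (nat_lit 582596649) (nat_lit 228) (nat_lit 10568422853) (nat_lit 76) (nat_lit 1822138178) (nat_lit 51) (nat_lit 5) (nat_lit 54) (nat_lit 5) (nat_lit 52) (nat_lit 5) (nat_lit 326) (nat_lit 246) (nat_lit 208)) (XT.lf (nat_lit 0) (nat_lit 3870591049) (nat_lit 228) (nat_lit 3880823105) (nat_lit 76) (nat_lit 5478221437) (nat_lit 51) (nat_lit 5) (nat_lit 54) (nat_lit 5) (nat_lit 52) (nat_lit 5) (nat_lit 327) (nat_lit 246) (nat_lit 207))) (XT.nd (nat_lit 78) (nat_lit 0) (nat_lit 0) (XT.lf (nat_lit 0) (nat_lit 2986226044) (nat_lit 228) (nat_lit 4250273350) (nat_lit 304) (nat_lit 6257964416) (nat_lit 48) (nat_lit 5) (nat_lit 51) (nat_lit 5) (nat_lit 52) (nat_lit 5) (nat_lit 328) (nat_lit 246) (nat_lit 206)) (XT.lf (nat_lit 0) (nat_lit 10060168051) (nat_lit 228) (nat_lit 633657834) (nat_lit 304) (nat_lit 3073730965)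 (nat_lit 48) (nat_lit 5) (nat_lit 51) (nat_lit 5) (nat_lit 52) (nat_lit 5) (nat_lit 329) (nat_lit 246) (nat_lit 205))))) (XT.nd (nat_lit 234) (nat_lit 380) (nat_lit 0) (XT.nd (nat_lit 78) (nat_lit 228) (nat_lit 0) (XT.lf (nat_lit 0) (nat_lit 215496397) (nat_lit 228) (nat_lit 10796878900) (nat_lit 76) (nat_lit 3036034644) (nat_lit 45) (nat_lit 5) (nat_lit 48) (nat_lit 5) (nat_lit 46) (nat_lit 5) (nat_lit 330) (nat_lit 246) (nat_lit 204)) (XT.nd (nat_lit 78) (nat_lit 228) (nat_lit 0) (XT.lf (nat_lit 0) (nat_lit 3538249075) (nat_lit 228) (nat_lit 3956194253) (nat_lit 76) (nat_lit 6842463866) (nat_lit 45) (nat_lit 5) (nat_lit 48) (nat_lit 5) (nat_lit 46) (nat_lit 5) (nat_lit 331) (nat_lit 246) (nat_lit 203)) (XT.lf (nat_lit 0) (nat_lit 3074197090) (nat_lit 228) (nat_lit 3869966052) (nat_lit 304) (nat_lit 7690421356) (nat_lit 42) (nat_lit 5) (nat_lit 45) (nat_lit 5) (nat_lit 46) (nat_lit 5) (nat_lit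 332) (nat_lit 246) (nat_lit 202)))) (XT.nd (nat_lit 156) (nat_lit 228) (nat_lit 0) (XT.nd (nat_lit 78) (nat_lit 152) (nat_lit 0) (XT.lf (nat_lit 0) (nat_lit 10321835997) (nat_lit 228) (nat_lit 124919433) (nat_lit 304) (nat_lit 4494630304) (nat_lit 42) (nat_lit 5) (nat_lit 45) (nat_lit 5) (nat_lit 46) (nat_lit 5) (nat_lit 333) (nat_lit 246) (nat_lit 201)) (XT.lf (nat_lit 0) (nat_lit 2468133643) (nat_lit 152) (nat_lit 11601497106) (nat_lit 228) (nat_lit 1187331905) (nat_lit 40) (nat_lit 5) (nat_lit 42) (nat_lit 5) (nat_lit 43) (nat_lit 4) (nat_lit 334) (nat_lit 246) (nat_lit 200))) (XT.nd (nat_lit 78) (nat_lit 152) (nat_lit 0) (XT.lf (nat_lit 0) (nat_lit 2179961235) (nat_lit 228) (nat_lit 5814342276) (nat_lit 76) (nat_lit 7586967211) (nat_lit 39) (nat_lit 5) (nat_lit 42) (nat_lit 5) (nat_lit 40) (nat_lit 5) (nat_lit 335) (nat_lit 246) (nat_lit 199)) (XT.lf (nat_lit 0) (nat_lit 1311518908) (nat_lit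 152) (nat_lit 4282519523) (nat_lit 228) (nat_lit 10321853489) (nat_lit 37) (nat_lit 5) (nat_lit 39) (nat_lit 5) (nat_lit 40) (nat_lit 5) (nat_lit 336) (nat_lit 246) (nat_lit 198))))))))
noncomputable def xc70 : XT := (XT.nd (nat_lit 2028) (nat_lit 760) (nat_lit 0) (XT.nd (nat_lit 1014) (nat_lit 608) (nat_lit 0) (XT.nd (nat_lit 468) (nat_lit 456) (nat_lit 0) (XT.nd (nat_lit 234) (nat_lit 228) (nat_lit 0) (XT.nd (nat_lit 78) (nat_lit 152) (nat_lit 0) (XT.lf (nat_lit 0) (nat_lit 8699350308) (nat_lit 152) (nat_lit 427492766) (nat_lit 228) (nat_lit 7133244228) (nat_lit 37) (nat_lit 5) (nat_lit 39) (nat_lit 5) (nat_lit 40) (nat_lit 5) (nat_lit 337) (nat_lit 246) (nat_lit 197)) (XT.nd (nat_lit 78) (nat_lit 152) (nat_lit 0) (XT.lf (nat_lit 0) (nat_lit 12758251206) (nat_lit 228) (nat_lit 409769709) (nat_lit 76) (nat_lit 3446833035) (nat_lit 37) (nat_lit 5) (nat_lit 40) (nat_lit 5) (nat_lit 38) (nat_lit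 4) (nat_lit 338) (nat_lit 246) (nat_lit 196)) (XT.lf (nat_lit 0) (nat_lit 7020609277) (nat_lit 152) (nat_lit 9509478375) (nat_lit 228) (nat_lit 449254649) (nat_lit 35) (nat_lit 5) (nat_lit 37) (nat_lit 5) (nat_lit 38) (nat_lit 4) (nat_lit 339) (nat_lit 246) (nat_lit 195)))) (XT.nd (nat_lit 78) (nat_lit 152) (nat_lit 0) (XT.lf (nat_lit 0) (nat_lit 2964652457) (nat_lit 228) (nat_lit 2769837277) (nat_lit 76) (nat_lit 11620493298) (nat_lit 34) (nat_lit 5) (nat_lit 37) (nat_lit 5) (nat_lit 35) (nat_lit 5) (nat_lit 340) (nat_lit 246) (nat_lit 194)) (XT.nd (nat_lit 78) (nat_lit 0) (nat_lit 0) (XT.lf (nat_lit 0) (nat_lit 4655058858) (nat_lit 152) (nat_lit 1822681713) (nat_lit 228) (nat_lit 11263866483) (nat_lit 32) (nat_lit 5) (nat_lit 34) (nat_lit 5) (nat_lit 35) (nat_lit 5) (nat_lit 341) (nat_lit 246) (nat_lit 193)) (XT.lf (nat_lit 0) (nat_lit 10106971005) (nat_lit 228) (nat_lit 5867319600) (nat_lit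 76) (nat_lit 2165237388) (nat_lit 32) (nat_lit 5) (nat_lit 35) (nat_lit 5) (nat_lit 33) (nat_lit 4) (nat_lit 342) (nat_lit 246) (nat_lit 192))))) (XT.nd (nat_lit 234) (nat_lit 228) (nat_lit 0) (XT.nd (nat_lit 78) (nat_lit 76) (nat_lit 0) (XT.lf (nat_lit 0) (nat_lit 1515623750) (nat_lit 152) (nat_lit 12324490232) (nat_lit 228) (nat_lit 4709441595) (nat_lit 30) (nat_lit 5) (nat_lit 32) (nat_lit 5) (nat_lit 33) (nat_lit 4) (nat_lit 343) (nat_lit 246) (nat_lit 191)) (XT.nd (nat_lit 78) (nat_lit 76) (nat_lit 0) (XT.lf (nat_lit 0) (nat_lit 9176569959) (nat_lit 152) (nat_lit 8530831550) (nat_lit 228) (nat_lit 1263837474) (nat_lit 30) (nat_lit 5) (nat_lit 32) (nat_lit 5) (nat_lit 33) (nat_lit 4) (nat_lit 344) (nat_lit 246) (nat_lit 190)) (XT.lf (nat_lit 0) (nat_lit 2204150750) (nat_lit 228) (nat_lit 2422839784) (nat_lit 76) (nat_lit 14779033539) (nat_lit 29) (nat_lit 5) (nat_lit 32) (nat_lit 5) (nat_lit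 30) (nat_lit 5) (nat_lit 345) (nat_lit 246) (nat_lit 189)))) (XT.nd (nat_lit 156) (nat_lit 76) (nat_lit 0) (XT.nd (nat_lit 78) (nat_lit 0) (nat_lit 0) (XT.lf (nat_lit 0) (nat_lit 5198246899) (nat_lit 152) (nat_lit 567165745) (nat_lit 228) (nat_lit 14087643444) (nat_lit 27) (nat_lit 5) (nat_lit 29) (nat_lit 5) (nat_lit 30) (nat_lit 5) (nat_lit 346) (nat_lit 246) (nat_lit 188)) (XT.lf (nat_lit 0) (nat_lit 9457838677) (nat_lit 228) (nat_lit 7311164274) (nat_lit 76) (nat_lit 3543783650) (nat_lit 27) (nat_lit 5) (nat_lit 30) (nat_lit 5) (nat_lit 28) (nat_lit 4) (nat_lit 347) (nat_lit 246) (nat_lit 187))) (XT.nd (nat_lit 78) (nat_lit 0) (nat_lit 0) (XT.lf (nat_lit 0) (nat_lit 191647584) (nat_lit 76) (nat_lit 13042744508) (nat_lit 152) (nat_lit 7552733122) (nat_lit 26) (nat_lit 5) (nat_lit 27) (nat_lit 5) (nat_lit 28) (nat_lit 4) (nat_lit 348) (nat_lit 246) (nat_lit 186)) (XT.lf (nat_lit 0) (nat_lit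 8010729909) (nat_lit 76) (nat_lit 9153666664) (nat_lit 152) (nat_lit 4110109111) (nat_lit 26) (nat_lit 5) (nat_lit 27) (nat_lit 5) (nat_lit 28) (nat_lit 4) (nat_lit 349) (nat_lit 246) (nat_lit 185)))))) (XT.nd (nat_lit 468) (nat_lit 304) (nat_lit 0) (XT.nd (nat_lit 234) (nat_lit 76) (nat_lit 0) (XT.nd (nat_lit 78) (nat_lit 228) (nat_lit 0) (XT.lf (nat_lit 0) (nat_lit 16007408403) (nat_lit 76) (nat_lit 5172199620) (nat_lit 152) (nat_lit 597896196) (nat_lit 26) (nat_lit 5) (nat_lit 27) (nat_lit 5) (nat_lit 28) (nat_lit 4) (nat_lit 350) (nat_lit 246) (nat_lit 184)) (XT.nd (nat_lit 78) (nat_lit 0) (nat_lit 0) (XT.lf (nat_lit 0) (nat_lit 1900482759) (nat_lit 152) (nat_lit 1046473757) (nat_lit 228) (nat_lit 19348194377) (nat_lit 23) (nat_lit 5) (nat_lit 25) (nat_lit 5) (nat_lit 26) (nat_lit 5) (nat_lit 351) (nat_lit 246) (nat_lit 183)) (XT.lf (nat_lit 0) (nat_lit 6643873389) (nat_lit 228) (nat_lit 13000562594)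 (nat_lit 76) (nat_lit 3181995833) (nat_lit 23) (nat_lit 5) (nat_lit 26) (nat_lit 5) (nat_lit 24) (nat_lit 4) (nat_lit 352) (nat_lit 246) (nat_lit 182)))) (XT.nd (nat_lit 78) (nat_lit 76) (nat_lit 0) (XT.lf (nat_lit 0) (nat_lit 10431090664) (nat_lit 228) (nat_lit 5449516895) (nat_lit 76) (nat_lit 7493675910) (nat_lit 23) (nat_lit 5) (nat_lit 26) (nat_lit 5) (nat_lit 24) (nat_lit 4) (nat_lit 353) (nat_lit 246) (nat_lit 181)) (XT.nd (nat_lit 78) (nat_lit 0) (nat_lit 0) (XT.lf (nat_lit 0) (nat_lit 2320405786) (nat_lit 76) (nat_lit 12003757588) (nat_lit 152) (nat_lit 9614653806) (nat_lit 22) (nat_lit 5) (nat_lit 23) (nat_lit 5) (nat_lit 24) (nat_lit 4) (nat_lit 354) (nat_lit 246) (nat_lit 180)) (XT.lf (nat_lit 0) (nat_lit 10382720996) (nat_lit 76) (nat_lit 7976642333) (nat_lit 152) (nat_lit 6160176801) (nat_lit 22) (nat_lit 5) (nat_lit 23) (nat_lit 5) (nat_lit 24) (nat_lit 4) (nat_lit 355) (nat_lit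 246) (nat_lit 179))))) (XT.nd (nat_lit 234) (nat_lit 76) (nat_lit 0) (XT.nd (nat_lit 78) (nat_lit 228) (nat_lit 0) (XT.lf (nat_lit 0) (nat_lit 18636017405) (nat_lit 76) (nat_lit 3850772391) (nat_lit 152) (nat_lit 2631772750) (nat_lit 22) (nat_lit 5) (nat_lit 23) (nat_lit 5) (nat_lit 24) (nat_lit 4) (nat_lit 356) (nat_lit 246) (nat_lit 178)) (XT.nd (nat_lit 78) (nat_lit 0) (nat_lit 0) (XT.lf (nat_lit 0) (nat_lit 971647735) (nat_lit 228) (nat_lit 24371140900) (nat_lit 76) (nat_lit 392828266) (nat_lit 19) (nat_lit 5) (nat_lit 22) (nat_lit 5) (nat_lit 20) (nat_lit 4) (nat_lit 357) (nat_lit 246) (nat_lit 177)) (XT.lf (nat_lit 0) (nat_lit 4706371881) (nat_lit 228) (nat_lit 16904390721) (nat_lit 76) (nat_lit 4757367455) (nat_lit 19) (nat_lit 5) (nat_lit 22) (nat_lit 5) (nat_lit 20) (nat_lit 4) (nat_lit 358) (nat_lit 246) (nat_lit 176)))) (XT.nd (nat_lit 156) (nat_lit 76) (nat_lit 0) (XT.nd (nat_lit 78)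 (nat_lit 0) (nat_lit 0) (XT.lf (nat_lit 0) (nat_lit 8525818810) (nat_lit 228) (nat_lit 9262311357) (nat_lit 76) (nat_lit 9232319465) (nat_lit 19) (nat_lit 5) (nat_lit 22) (nat_lit 5) (nat_lit 20) (nat_lit 4) (nat_lit 359) (nat_lit 246) (nat_lit 175)) (XT.lf (nat_lit 0) (nat_lit 12433325902) (nat_lit 228) (nat_lit 1438225263) (nat_lit 76) (nat_lit 13821594449) (nat_lit 19) (nat_lit 5) (nat_lit 22) (nat_lit 5) (nat_lit 20) (nat_lit 4) (nat_lit 360) (nat_lit 246) (nat_lit 174))) (XT.nd (nat_lit 78) (nat_lit 0) (nat_lit 0) (XT.lf (nat_lit 0) (nat_lit 6705553645) (nat_lit 76) (nat_lit 9791211722) (nat_lit 152) (nat_lit 11888106689) (nat_lit 18) (nat_lit 5) (nat_lit 19) (nat_lit 5) (nat_lit 20) (nat_lit 4) (nat_lit 361) (nat_lit 246) (nat_lit 173)) (XT.lf (nat_lit 0) (nat_lit 15077698654) (nat_lit 76) (nat_lit 5593495220) (nat_lit 152) (nat_lit 8426494325) (nat_lit 18) (nat_lit 5) (nat_lit 19) (nat_lit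 5) (nat_lit 20) (nat_lit 4) (nat_lit 362) (nat_lit 246) (nat_lit 172))))))) (XT.nd (nat_lit 1014) (nat_lit 304) (nat_lit 0) (XT.nd (nat_lit 468) (nat_lit 152) (nat_lit 0) (XT.nd (nat_lit 234) (nat_lit 76) (nat_lit 0) (XT.nd (nat_lit 78) (nat_lit 228) (nat_lit 0) (XT.lf (nat_lit 0) (nat_lit 23656901726) (nat_lit 76) (nat_lit 1289257007) (nat_lit 152) (nat_lit 4886481165) (nat_lit 18) (nat_lit 5) (nat_lit 19) (nat_lit 5) (nat_lit 20) (nat_lit 4) (nat_lit 363) (nat_lit 246) (nat_lit 171)) (XT.nd (nat_lit 78) (nat_lit 76) (nat_lit 0) (XT.lf (nat_lit 0) (nat_lit 1866673480) (nat_lit 152) (nat_lit 27506707428) (nat_lit 152) (nat_lit 1215548872) (nat_lit 16) (nat_lit 4) (nat_lit 18) (nat_lit 5) (nat_lit 18) (nat_lit 4) (nat_lit 364) (nat_lit 246) (nat_lit 170)) (XT.lf (nat_lit 0) (nat_lit 2567081025) (nat_lit 228) (nat_lit 21170560762) (nat_lit 76) (nat_lit 7627987086) (nat_lit 15) (nat_lit 5) (nat_lit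 18) (nat_lit 5) (nat_lit 16) (nat_lit 4) (nat_lit 365) (nat_lit 246) (nat_lit 169)))) (XT.nd (nat_lit 78) (nat_lit 76) (nat_lit 0) (XT.lf (nat_lit 0) (nat_lit 6415347600) (nat_lit 228) (nat_lit 13446518146) (nat_lit 76) (nat_lit 12304113508) (nat_lit 15) (nat_lit 5) (nat_lit 18) (nat_lit 5) (nat_lit 16) (nat_lit 4) (nat_lit 366) (nat_lit 246) (nat_lit 168)) (XT.nd (nat_lit 78) (nat_lit 76) (nat_lit 0) (XT.lf (nat_lit 0) (nat_lit 10356333153) (nat_lit 228) (nat_lit 5531694690) (nat_lit 76) (nat_lit 17103002954) (nat_lit 15) (nat_lit 5) (nat_lit 18) (nat_lit 5) (nat_lit 16) (nat_lit 4) (nat_lit 367) (nat_lit 246) (nat_lit 167)) (XT.lf (nat_lit 0) (nat_lit 2632188958) (nat_lit 76) (nat_lit 11786594515) (nat_lit 152) (nat_lit 19421961880) (nat_lit 14) (nat_lit 5) (nat_lit 15) (nat_lit 5) (nat_lit 16) (nat_lit 4) (nat_lit 368) (nat_lit 246) (nat_lit 166))))) (XT.nd (nat_lit 234) (nat_lit 152) (nat_lit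 0) (XT.nd (nat_lit 78) (nat_lit 0) (nat_lit 0) (XT.lf (nat_lit 0) (nat_lit 11115025122) (nat_lit 76) (nat_lit 7522138832) (nat_lit 152) (nat_lit 16077773967) (nat_lit 14) (nat_lit 5) (nat_lit 15) (nat_lit 5) (nat_lit 16) (nat_lit 4) (nat_lit 369) (nat_lit 246) (nat_lit 165)) (XT.nd (nat_lit 78) (nat_lit 0) (nat_lit 0) (XT.lf (nat_lit 0) (nat_lit 19814134417) (nat_lit 76) (nat_lit 3146793843) (nat_lit 152) (nat_lit 12655071067) (nat_lit 14) (nat_lit 5) (nat_lit 15) (nat_lit 5) (nat_lit 16) (nat_lit 4) (nat_lit 370) (nat_lit 246) (nat_lit 164)) (XT.lf (nat_lit 0) (nat_lit 27406766710) (nat_lit 152) (nat_lit 7820511173) (nat_lit 0) (nat_lit 1317051658) (nat_lit 14) (nat_lit 5) (nat_lit 16) (nat_lit 4) (nat_lit 14) (nat_lit 4) (nat_lit 371) (nat_lit 246) (nat_lit 163)))) (XT.nd (nat_lit 156) (nat_lit 76) (nat_lit 0) (XT.nd (nat_lit 78) (nat_lit 0) (nat_lit 0) (XT.lf (nat_lit 0) (nat_lit 339277178)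 (nat_lit 76) (nat_lit 31661013930) (nat_lit 76) (nat_lit 5499796803) (nat_lit 13) (nat_lit 4) (nat_lit 14) (nat_lit 5) (nat_lit 14) (nat_lit 4) (nat_lit 372) (nat_lit 246) (nat_lit 162)) (XT.lf (nat_lit 0) (nat_lit 8868059400) (nat_lit 76) (nat_lit 27922665248) (nat_lit 76) (nat_lit 1692028632) (nat_lit 13) (nat_lit 4) (nat_lit 14) (nat_lit 5) (nat_lit 14) (nat_lit 4) (nat_lit 373) (nat_lit 246) (nat_lit 161))) (XT.nd (nat_lit 78) (nat_lit 0) (nat_lit 0) (XT.lf (nat_lit 0) (nat_lit 2166970073) (nat_lit 152) (nat_lit 21899084927) (nat_lit 76) (nat_lit 15428792096) (nat_lit 12) (nat_lit 5) (nat_lit 14) (nat_lit 5) (nat_lit 13) (nat_lit 4) (nat_lit 374) (nat_lit 246) (nat_lit 160)) (XT.lf (nat_lit 0) (nat_lit 6088810533) (nat_lit 152) (nat_lit 14003183322) (nat_lit 76) (nat_lit 20445381623) (nat_lit 12) (nat_lit 5) (nat_lit 14) (nat_lit 5) (nat_lit 13) (nat_lit 4) (nat_lit 375) (nat_lit 246) (nat_lit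 159)))))) (XT.nd (nat_lit 546) (nat_lit 228) (nat_lit 0) (XT.nd (nat_lit 234) (nat_lit 0) (nat_lit 0) (XT.nd (nat_lit 78) (nat_lit 76) (nat_lit 0) (XT.lf (nat_lit 0) (nat_lit 10109937169) (nat_lit 152) (nat_lit 5903824918) (nat_lit 76) (nat_lit 25597975227) (nat_lit 12) (nat_lit 5) (nat_lit 14) (nat_lit 5) (nat_lit 13) (nat_lit 4) (nat_lit 376) (nat_lit 246) (nat_lit 158)) (XT.nd (nat_lit 78) (nat_lit 0) (nat_lit 0) (XT.lf (nat_lit 0) (nat_lit 2453952851) (nat_lit 76) (nat_lit 11803499631) (nat_lit 152) (nat_lit 28460711218) (nat_lit 11) (nat_lit 5) (nat_lit 12) (nat_lit 5) (nat_lit 13) (nat_lit 4) (nat_lit 377) (nat_lit 246) (nat_lit 157)) (XT.lf (nat_lit 0) (nat_lit 11151357839) (nat_lit 76) (nat_lit 7420029052) (nat_lit 152) (nat_lit 25285142337) (nat_lit 11) (nat_lit 5) (nat_lit 12) (nat_lit 5) (nat_lit 13) (nat_lit 4) (nat_lit 378) (nat_lit 246) (nat_lit 156)))) (XT.nd (nat_lit 156) (nat_lit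 0) (nat_lit 0) (XT.nd (nat_lit 78) (nat_lit 0) (nat_lit 0) (XT.lf (nat_lit 0) (nat_lit 20078492026) (nat_lit 76) (nat_lit 2919137188) (nat_lit 152) (nat_lit 22031935788) (nat_lit 11) (nat_lit 5) (nat_lit 12) (nat_lit 5) (nat_lit 13) (nat_lit 4) (nat_lit 379) (nat_lit 246) (nat_lit 155)) (XT.lf (nat_lit 0) (nat_lit 27556418366) (nat_lit 152) (nat_lit 17011511509) (nat_lit 0) (nat_lit 1669874991) (nat_lit 11) (nat_lit 5) (nat_lit 13) (nat_lit 4) (nat_lit 11) (nat_lit 4) (nat_lit 380) (nat_lit 246) (nat_lit 154))) (XT.nd (nat_lit 78) (nat_lit 0) (nat_lit 0) (XT.lf (nat_lit 0) (nat_lit 32264618013) (nat_lit 152) (nat_lit 8892429764) (nat_lit 0) (nat_lit 6324870380) (nat_lit 11) (nat_lit 5) (nat_lit 13) (nat_lit 4) (nat_lit 11) (nat_lit 4) (nat_lit 381) (nat_lit 246) (nat_lit 153)) (XT.lf (nat_lit 0) (nat_lit 37098281584) (nat_lit 152) (nat_lit 558672866) (nat_lit 0) (nat_lit 11106879330) (nat_lit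 11) (nat_lit 5) (nat_lit 13) (nat_lit 4) (nat_lit 11) (nat_lit 4) (nat_lit 382) (nat_lit 246) (nat_lit 152))))) (XT.nd (nat_lit 234) (nat_lit 152) (nat_lit 0) (XT.nd (nat_lit 78) (nat_lit 0) (nat_lit 0) (XT.lf (nat_lit 0) (nat_lit 8156197907) (nat_lit 76) (nat_lit 33983837123) (nat_lit 76) (nat_lit 7942284754) (nat_lit 10) (nat_lit 4) (nat_lit 11) (nat_lit 5) (nat_lit 11) (nat_lit 4) (nat_lit 383) (nat_lit 246) (nat_lit 151)) (XT.nd (nat_lit 78) (nat_lit 0) (nat_lit 0) (XT.lf (nat_lit 0) (nat_lit 17116186475) (nat_lit 76) (nat_lit 30207352951) (nat_lit 76) (nat_lit 4117111148) (nat_lit 10) (nat_lit 4) (nat_lit 11) (nat_lit 5) (nat_lit 11) (nat_lit 4) (nat_lit 384) (nat_lit 246) (nat_lit 150)) (XT.lf (nat_lit 0) (nat_lit 26318003268) (nat_lit 76) (nat_lit 26329843593) (nat_lit 76) (nat_lit 192330497) (nat_lit 10) (nat_lit 4) (nat_lit 11) (nat_lit 5) (nat_lit 11) (nat_lit 4) (nat_lit 385) (nat_lit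 246) (nat_lit 149)))) (XT.nd (nat_lit 156) (nat_lit 76) (nat_lit 0) (XT.nd (nat_lit 78) (nat_lit 0) (nat_lit 0) (XT.lf (nat_lit 0) (nat_lit 3760642462) (nat_lit 152) (nat_lit 18549303358) (nat_lit 76) (nat_lit 31971071130) (nat_lit 9) (nat_lit 5) (nat_lit 11) (nat_lit 5) (nat_lit 10) (nat_lit 4) (nat_lit 386) (nat_lit 246) (nat_lit 148)) (XT.lf (nat_lit 0) (nat_lit 7814338989) (nat_lit 152) (nat_lit 10364857136) (nat_lit 76) (nat_lit 37586253059) (nat_lit 9) (nat_lit 5) (nat_lit 11) (nat_lit 5) (nat_lit 10) (nat_lit 4) (nat_lit 387) (nat_lit 246) (nat_lit 147))) (XT.nd (nat_lit 78) (nat_lit 76) (nat_lit 0) (XT.lf (nat_lit 0) (nat_lit 11976054210) (nat_lit 152) (nat_lit 1959835168) (nat_lit 76) (nat_lit 43358937220) (nat_lit 9) (nat_lit 5) (nat_lit 11) (nat_lit 5) (nat_lit 10) (nat_lit 4) (nat_lit 388) (nat_lit 246) (nat_lit 146)) (XT.lf (nat_lit 0) (nat_lit 6805914647) (nat_lit 76) (nat_lit 9508932543)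 (nat_lit 152) (nat_lit 42553675677) (nat_lit 8) (nat_lit 5) (nat_lit 9) (nat_lit 5) (nat_lit 10) (nat_lit 4) (nat_lit 389) (nat_lit 246) (nat_lit 145))))))))
noncomputable def xc71 : XT := (XT.nd (nat_lit 33150) (nat_lit 0) (nat_lit 4484) (XT.nd (nat_lit 1014) (nat_lit 76) (nat_lit 0) (XT.nd (nat_lit 468) (nat_lit 152) (nat_lit 0) (XT.nd (nat_lit 234) (nat_lit 0) (nat_lit 0) (XT.nd (nat_lit 78) (nat_lit 0) (nat_lit 0) (XT.lf (nat_lit 0) (nat_lit 15850818494) (nat_lit 76) (nat_lit 4939733366) (nat_lit 152) (nat_lit 39698679918) (nat_lit 8) (nat_lit 5) (nat_lit 9) (nat_lit 5) (nat_lit 10) (nat_lit 4) (nat_lit 390) (nat_lit 246) (nat_lit 144)) (XT.nd (nat_lit 78) (nat_lit 0) (nat_lit 0) (XT.lf (nat_lit 0) (nat_lit 25143775123) (nat_lit 76) (nat_lit 244089837) (nat_lit 152) (nat_lit 36771080948) (nat_lit 8) (nat_lit 5) (nat_lit 9) (nat_lit 5) (nat_lit 10) (nat_lit 4) (nat_lit 391) (nat_lit 246) (nat_lit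 143)) (XT.lf (nat_lit 0) (nat_lit 30154849519) (nat_lit 152) (nat_lit 29230265597) (nat_lit 0) (nat_lit 4492687737) (nat_lit 8) (nat_lit 5) (nat_lit 10) (nat_lit 4) (nat_lit 8) (nat_lit 4) (nat_lit 392) (nat_lit 246) (nat_lit 142)))) (XT.nd (nat_lit 78) (nat_lit 0) (nat_lit 0) (XT.lf (nat_lit 0) (nat_lit 35055228196) (nat_lit 152) (nat_lit 21236452707) (nat_lit 0) (nat_lit 9356836903) (nat_lit 8) (nat_lit 5) (nat_lit 10) (nat_lit 4) (nat_lit 8) (nat_lit 4) (nat_lit 393) (nat_lit 246) (nat_lit 141)) (XT.nd (nat_lit 78) (nat_lit 0) (nat_lit 0) (XT.lf (nat_lit 0) (nat_lit 40090936534) (nat_lit 152) (nat_lit 13024400891) (nat_lit 0) (nat_lit 14357370959) (nat_lit 8) (nat_lit 5) (nat_lit 10) (nat_lit 4) (nat_lit 8) (nat_lit 4) (nat_lit 394) (nat_lit 246) (nat_lit 140)) (XT.lf (nat_lit 0) (nat_lit 45266374667) (nat_lit 152) (nat_lit 4586934569) (nat_lit 0) (nat_lit 19498659303) (nat_lit 8) (nat_lit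 5) (nat_lit 10) (nat_lit 4) (nat_lit 8) (nat_lit 4) (nat_lit 395) (nat_lit 246) (nat_lit 139))))) (XT.nd (nat_lit 234) (nat_lit 76) (nat_lit 0) (XT.nd (nat_lit 78) (nat_lit 0) (nat_lit 0) (XT.lf (nat_lit 0) (nat_lit 4164584852) (nat_lit 76) (nat_lit 46461512508) (nat_lit 76) (nat_lit 20660642009) (nat_lit 7) (nat_lit 4) (nat_lit 8) (nat_lit 5) (nat_lit 8) (nat_lit 4) (nat_lit 396) (nat_lit 246) (nat_lit 138)) (XT.nd (nat_lit 78) (nat_lit 0) (nat_lit 0) (XT.lf (nat_lit 0) (nat_lit 13252539960) (nat_lit 76) (nat_lit 42929506836) (nat_lit 76) (nat_lit 17096446886) (nat_lit 7) (nat_lit 4) (nat_lit 8) (nat_lit 5) (nat_lit 8) (nat_lit 4) (nat_lit 397) (nat_lit 246) (nat_lit 137)) (XT.lf (nat_lit 0) (nat_lit 22593582693) (nat_lit 76) (nat_lit 39300525047) (nat_lit 76) (nat_lit 13436213202) (nat_lit 7) (nat_lit 4) (nat_lit 8) (nat_lit 5) (nat_lit 8) (nat_lit 4) (nat_lit 398) (nat_lit 246) (nat_lit 136))))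 (XT.nd (nat_lit 156) (nat_lit 76) (nat_lit 0) (XT.nd (nat_lit 78) (nat_lit 0) (nat_lit 0) (XT.lf (nat_lit 0) (nat_lit 32195875128) (nat_lit 76) (nat_lit 35571396186) (nat_lit 76) (nat_lit 9676742696) (nat_lit 7) (nat_lit 4) (nat_lit 8) (nat_lit 5) (nat_lit 8) (nat_lit 4) (nat_lit 399) (nat_lit 246) (nat_lit 135)) (XT.lf (nat_lit 0) (nat_lit 42067807617) (nat_lit 76) (nat_lit 31738861791) (nat_lit 76) (nat_lit 5814750393) (nat_lit 7) (nat_lit 4) (nat_lit 8) (nat_lit 5) (nat_lit 8) (nat_lit 4) (nat_lit 400) (nat_lit 246) (nat_lit 134))) (XT.nd (nat_lit 78) (nat_lit 76) (nat_lit 0) (XT.lf (nat_lit 0) (nat_lit 52218006121) (nat_lit 76) (nat_lit 27799573045) (nat_lit 76) (nat_lit 1846861738) (nat_lit 7) (nat_lit 4) (nat_lit 8) (nat_lit 5) (nat_lit 8) (nat_lit 4) (nat_lit 401) (nat_lit 246) (nat_lit 133)) (XT.lf (nat_lit 0) (nat_lit 2186867408) (nat_lit 152) (nat_lit 21541137371) (nat_lit 76) (nat_lit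 60446389264) (nat_lit 6) (nat_lit 5) (nat_lit 8) (nat_lit 5) (nat_lit 7) (nat_lit 4) (nat_lit 402) (nat_lit 246) (nat_lit 132)))))) (XT.nd (nat_lit 31590) (nat_lit 0) (nat_lit 11248) (XT.nd (nat_lit 234) (nat_lit 0) (nat_lit 0) (XT.nd (nat_lit 78) (nat_lit 76) (nat_lit 0) (XT.lf (nat_lit 0) (nat_lit 6295280123) (nat_lit 152) (nat_lit 13228017718) (nat_lit 76) (nat_lit 67030078381) (nat_lit 6) (nat_lit 5) (nat_lit 8) (nat_lit 5) (nat_lit 7) (nat_lit 4) (nat_lit 403) (nat_lit 246) (nat_lit 131)) (XT.nd (nat_lit 78) (nat_lit 76) (nat_lit 0) (XT.lf (nat_lit 0) (nat_lit 10518005207) (nat_lit 152) (nat_lit 4682058768) (nat_lit 76) (nat_lit 73803934783) (nat_lit 6) (nat_lit 5) (nat_lit 8) (nat_lit 5) (nat_lit 7) (nat_lit 4) (nat_lit 404) (nat_lit 246) (nat_lit 130)) (XT.lf (nat_lit 0) (nat_lit 4185888583) (nat_lit 76) (nat_lit 10713081156) (nat_lit 152) (nat_lit 76628226112) (nat_lit 5) (nat_lit 5) (nat_lit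 6) (nat_lit 5) (nat_lit 7) (nat_lit 4) (nat_lit 405) (nat_lit 246) (nat_lit 129)))) (XT.nd (nat_lit 156) (nat_lit 0) (nat_lit 0) (XT.nd (nat_lit 78) (nat_lit 0) (nat_lit 0) (XT.lf (nat_lit 0) (nat_lit 13399937411) (nat_lit 76) (nat_lit 6050125610) (nat_lit 152) (nat_lit 74674867380) (nat_lit 5) (nat_lit 5) (nat_lit 6) (nat_lit 5) (nat_lit 7) (nat_lit 4) (nat_lit 406) (nat_lit 246) (nat_lit 128)) (XT.lf (nat_lit 0) (nat_lit 22874956675) (nat_lit 76) (nat_lit 1254402523) (nat_lit 152) (nat_lit 72671490149) (nat_lit 5) (nat_lit 5) (nat_lit 6) (nat_lit 5) (nat_lit 7) (nat_lit 4) (nat_lit 407) (nat_lit 246) (nat_lit 127))) (XT.nd (nat_lit 31122) (nat_lit 0) (nat_lit 14896) (XT.lf (nat_lit 0) (nat_lit 28976304839) (nat_lit 152) (nat_lit 66973423216) (nat_lit 0) (nat_lit 3606502080) (nat_lit 5) (nat_lit 5) (nat_lit 7) (nat_lit 4) (nat_lit 5) (nat_lit 4) (nat_lit 408) (nat_lit 246) (nat_lit 126)) (XT.lf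 (nat_lit 0) (nat_lit 1754640257) (nat_lit 1140) (nat_lit 102524361) (nat_lit 0) (nat_lit 1754640257) (nat_lit 201) (nat_lit 5) (nat_lit 216) (nat_lit 4) (nat_lit 201) (nat_lit 4) (nat_lit 286) (nat_lit 247) (nat_lit 247))))) (XT.nd (nat_lit 234) (nat_lit 1824) (nat_lit 0) (XT.nd (nat_lit 78) (nat_lit 684) (nat_lit 0) (XT.lf (nat_lit 0) (nat_lit 4705844687) (nat_lit 1140) (nat_lit 2087228600) (nat_lit 1140) (nat_lit 494186573) (nat_lit 186) (nat_lit 4) (nat_lit 201) (nat_lit 5) (nat_lit 201) (nat_lit 4) (nat_lit 287) (nat_lit 247) (nat_lit 246)) (XT.nd (nat_lit 78) (nat_lit 0) (nat_lit 0) (XT.lf (nat_lit 0) (nat_lit 2336833738) (nat_lit 608) (nat_lit 360958630) (nat_lit 684) (nat_lit 4656462869) (nat_lit 177) (nat_lit 5) (nat_lit 185) (nat_lit 5) (nat_lit 186) (nat_lit 4) (nat_lit 288) (nat_lit 247) (nat_lit 245)) (XT.lf (nat_lit 0) (nat_lit 5923085982) (nat_lit 684) (nat_lit 84768253) (nat_lit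 0) (nat_lit 1416989217) (nat_lit 177) (nat_lit 5) (nat_lit 186) (nat_lit 4) (nat_lit 177) (nat_lit 4) (nat_lit 289) (nat_lit 247) (nat_lit 244)))) (XT.nd (nat_lit 156) (nat_lit 608) (nat_lit 0) (XT.nd (nat_lit 78) (nat_lit 532) (nat_lit 0) (XT.lf (nat_lit 0) (nat_lit 1674770771) (nat_lit 684) (nat_lit 2521709305) (nat_lit 76) (nat_lit 3301872313) (nat_lit 168) (nat_lit 5) (nat_lit 177) (nat_lit 5) (nat_lit 169) (nat_lit 4) (nat_lit 290) (nat_lit 247) (nat_lit 243)) (XT.lf (nat_lit 0) (nat_lit 2555432560) (nat_lit 532) (nat_lit 2297325359) (nat_lit 608) (nat_lit 2722913503) (nat_lit 161) (nat_lit 5) (nat_lit 168) (nat_lit 5) (nat_lit 169) (nat_lit 4) (nat_lit 291) (nat_lit 247) (nat_lit 242))) (XT.nd (nat_lit 78) (nat_lit 0) (nat_lit 0) (XT.lf (nat_lit 0) (nat_lit 80743648) (nat_lit 532) (nat_lit 318925083) (nat_lit 608) (nat_lit 7257496310) (nat_lit 153) (nat_lit 5) (nat_lit 160) (nat_lit 5) (nat_lit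 161) (nat_lit 5) (nat_lit 292) (nat_lit 247) (nat_lit 241)) (XT.lf (nat_lit 0) (nat_lit 3542049362) (nat_lit 608) (nat_lit 2445661720) (nat_lit 76) (nat_lit 1753287449) (nat_lit 153) (nat_lit 5) (nat_lit 161) (nat_lit 5) (nat_lit 154) (nat_lit 4) (nat_lit 293) (nat_lit 247) (nat_lit 240))))))) (XT.nd (nat_lit 1014) (nat_lit 2660) (nat_lit 0) (XT.nd (nat_lit 468) (nat_lit 2052) (nat_lit 0) (XT.nd (nat_lit 234) (nat_lit 988) (nat_lit 0) (XT.nd (nat_lit 78) (nat_lit 608) (nat_lit 0) (XT.lf (nat_lit 0) (nat_lit 2793519539) (nat_lit 456) (nat_lit 3930852642) (nat_lit 532) (nat_lit 1104730267) (nat_lit 147) (nat_lit 5) (nat_lit 153) (nat_lit 5) (nat_lit 154) (nat_lit 4) (nat_lit 294) (nat_lit 247) (nat_lit 239)) (XT.nd (nat_lit 78) (nat_lit 0) (nat_lit 0) (XT.lf (nat_lit 0) (nat_lit 206988781) (nat_lit 532) (nat_lit 1777878870) (nat_lit 608) (nat_lit 5936204101) (nat_lit 139) (nat_lit 5) (nat_lit 146)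 (nat_lit 5) (nat_lit 147) (nat_lit 5) (nat_lit 295) (nat_lit 247) (nat_lit 238)) (XT.lf (nat_lit 0) (nat_lit 5118154274) (nat_lit 608) (nat_lit 2419055874) (nat_lit 76) (nat_lit 479180598) (nat_lit 139) (nat_lit 5) (nat_lit 147) (nat_lit 5) (nat_lit 140) (nat_lit 4) (nat_lit 296) (nat_lit 247) (nat_lit 237)))) (XT.nd (nat_lit 78) (nat_lit 456) (nat_lit 0) (XT.lf (nat_lit 0) (nat_lit 192185563) (nat_lit 532) (nat_lit 5138512416) (nat_lit 76) (nat_lit 2784938436) (nat_lit 132) (nat_lit 5) (nat_lit 139) (nat_lit 5) (nat_lit 133) (nat_lit 5) (nat_lit 297) (nat_lit 247) (nat_lit 236)) (XT.nd (nat_lit 78) (nat_lit 0) (nat_lit 0) (XT.lf (nat_lit 0) (nat_lit 246494489) (nat_lit 456) (nat_lit 3018166508) (nat_lit 532) (nat_lit 4954014966) (nat_lit 126) (nat_lit 5) (nat_lit 132) (nat_lit 5) (nat_lit 133) (nat_lit 5) (nat_lit 298) (nat_lit 247) (nat_lit 235)) (XT.lf (nat_lit 0) (nat_lit 5802308178) (nat_lit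 456) (nat_lit 600835218) (nat_lit 532) (nat_lit 1922550400) (nat_lit 126) (nat_lit 5) (nat_lit 132) (nat_lit 5) (nat_lit 133) (nat_lit 5) (nat_lit 299) (nat_lit 247) (nat_lit 234))))) (XT.nd (nat_lit 234) (nat_lit 1216) (nat_lit 0) (XT.nd (nat_lit 78) (nat_lit 380) (nat_lit 0) (XT.lf (nat_lit 0) (nat_lit 1147440386) (nat_lit 456) (nat_lit 5413684619) (nat_lit 76) (nat_lit 1875417492) (nat_lit 120) (nat_lit 5) (nat_lit 126) (nat_lit 5) (nat_lit 121) (nat_lit 5) (nat_lit 300) (nat_lit 247) (nat_lit 233)) (XT.nd (nat_lit 78) (nat_lit 0) (nat_lit 0) (XT.lf (nat_lit 0) (nat_lit 118189970) (nat_lit 380) (nat_lit 4110037059) (nat_lit 456) (nat_lit 4323291870) (nat_lit 115) (nat_lit 5) (nat_lit 120) (nat_lit 5) (nat_lit 121) (nat_lit 5) (nat_lit 301) (nat_lit 247) (nat_lit 232)) (XT.lf (nat_lit 0) (nat_lit 5831795180) (nat_lit 380) (nat_lit 1550112015) (nat_lit 456) (nat_lit 1288713996) (nat_lit 115)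 (nat_lit 5) (nat_lit 120) (nat_lit 5) (nat_lit 121) (nat_lit 5) (nat_lit 302) (nat_lit 247) (nat_lit 231)))) (XT.nd (nat_lit 156) (nat_lit 760) (nat_lit 0) (XT.nd (nat_lit 78) (nat_lit 0) (nat_lit 0) (XT.lf (nat_lit 0) (nat_lit 1766477924) (nat_lit 456) (nat_lit 5937046584) (nat_lit 76) (nat_lit 1090365176) (nat_lit 109) (nat_lit 5) (nat_lit 115) (nat_lit 5) (nat_lit 110) (nat_lit 5) (nat_lit 303) (nat_lit 247) (nat_lit 230)) (XT.lf (nat_lit 0) (nat_lit 4859906668) (nat_lit 456) (nat_lit 261878931) (nat_lit 76) (nat_lit 3799596358) (nat_lit 109) (nat_lit 5) (nat_lit 115) (nat_lit 5) (nat_lit 110) (nat_lit 5) (nat_lit 304) (nat_lit 247) (nat_lit 229))) (XT.nd (nat_lit 78) (nat_lit 380) (nat_lit 0) (XT.lf (nat_lit 0) (nat_lit 5600532130) (nat_lit 380) (nat_lit 2429718479) (nat_lit 456) (nat_lit 1023005603) (nat_lit 104) (nat_lit 5) (nat_lit 109) (nat_lit 5) (nat_lit 110) (nat_lit 5) (nat_lit 305)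 (nat_lit 247) (nat_lit 228)) (XT.lf (nat_lit 0) (nat_lit 2025341968) (nat_lit 380) (nat_lit 6804729790) (nat_lit 76) (nat_lit 359688445) (nat_lit 99) (nat_lit 5) (nat_lit 104) (nat_lit 5) (nat_lit 100) (nat_lit 5) (nat_lit 306) (nat_lit 247) (nat_lit 227)))))) (XT.nd (nat_lit 546) (nat_lit 1216) (nat_lit 0) (XT.nd (nat_lit 234) (nat_lit 684) (nat_lit 0) (XT.nd (nat_lit 78) (nat_lit 760) (nat_lit 0) (XT.lf (nat_lit 0) (nat_lit 5135426530) (nat_lit 380) (nat_lit 988978844) (nat_lit 76) (nat_lit 3205998385) (nat_lit 99) (nat_lit 5) (nat_lit 104) (nat_lit 5) (nat_lit 100) (nat_lit 5) (nat_lit 307) (nat_lit 247) (nat_lit 226)) (XT.nd (nat_lit 78) (nat_lit 380) (nat_lit 0) (XT.lf (nat_lit 0) (nat_lit 5007869191) (nat_lit 380) (nat_lit 3312656337) (nat_lit 456) (nat_lit 1155361334) (nat_lit 94) (nat_lit 5) (nat_lit 99) (nat_lit 5) (nat_lit 100) (nat_lit 5) (nat_lit 308) (nat_lit 247) (nat_lit 225)) (XT.lf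 (nat_lit 0) (nat_lit 1498018202) (nat_lit 304) (nat_lit 397287910) (nat_lit 380) (nat_lit 7731173825) (nat_lit 89) (nat_lit 5) (nat_lit 93) (nat_lit 5) (nat_lit 94) (nat_lit 5) (nat_lit 309) (nat_lit 247) (nat_lit 224)))) (XT.nd (nat_lit 156) (nat_lit 380) (nat_lit 0) (XT.nd (nat_lit 78) (nat_lit 304) (nat_lit 0) (XT.lf (nat_lit 0) (nat_lit 5019614564) (nat_lit 380) (nat_lit 2175002054) (nat_lit 76) (nat_lit 2586536253) (nat_lit 89) (nat_lit 5) (nat_lit 94) (nat_lit 5) (nat_lit 90) (nat_lit 5) (nat_lit 310) (nat_lit 247) (nat_lit 223)) (XT.lf (nat_lit 0) (nat_lit 3940251386) (nat_lit 304) (nat_lit 4275843163) (nat_lit 380) (nat_lit 1725081790) (nat_lit 85) (nat_lit 5) (nat_lit 89) (nat_lit 5) (nat_lit 90) (nat_lit 5) (nat_lit 311) (nat_lit 247) (nat_lit 222))) (XT.nd (nat_lit 78) (nat_lit 0) (nat_lit 0) (XT.lf (nat_lit 0) (nat_lit 75786448) (nat_lit 304) (nat_lit 1259169706) (nat_lit 380) (nat_lit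 8771904229) (nat_lit 80) (nat_lit 5) (nat_lit 84) (nat_lit 5) (nat_lit 85) (nat_lit 5) (nat_lit 312) (nat_lit 247) (nat_lit 221)) (XT.lf (nat_lit 0) (nat_lit 4468746360) (nat_lit 380) (nat_lit 3944303041) (nat_lit 76) (nat_lit 1863512655) (nat_lit 80) (nat_lit 5) (nat_lit 85) (nat_lit 5) (nat_lit 81) (nat_lit 5) (nat_lit 313) (nat_lit 247) (nat_lit 220))))) (XT.nd (nat_lit 234) (nat_lit 608) (nat_lit 0) (XT.nd (nat_lit 78) (nat_lit 304) (nat_lit 0) (XT.lf (nat_lit 0) (nat_lit 2268547056) (nat_lit 304) (nat_lit 5401754439) (nat_lit 380) (nat_lit 2781897267) (nat_lit 76) (nat_lit 5) (nat_lit 80) (nat_lit 5) (nat_lit 81) (nat_lit 5) (nat_lit 314) (nat_lit 247) (nat_lit 219)) (XT.nd (nat_lit 78) (nat_lit 228) (nat_lit 0) (XT.lf (nat_lit 0) (nat_lit 308245382) (nat_lit 380) (nat_lit 1975596069) (nat_lit 76) (nat_lit 8349820451) (nat_lit 75) (nat_lit 5) (nat_lit 80) (nat_lit 5) (nat_lit 76) (nat_lit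 5) (nat_lit 315) (nat_lit 247) (nat_lit 218)) (XT.lf (nat_lit 0) (nat_lit 3428237186) (nat_lit 304) (nat_lit 6438915213) (nat_lit 76) (nat_lit 952850206) (nat_lit 72) (nat_lit 5) (nat_lit 76) (nat_lit 5) (nat_lit 73) (nat_lit 5) (nat_lit 316) (nat_lit 247) (nat_lit 217)))) (XT.nd (nat_lit 156) (nat_lit 304) (nat_lit 0) (XT.nd (nat_lit 78) (nat_lit 304) (nat_lit 0) (XT.lf (nat_lit 0) (nat_lit 6626716353) (nat_lit 304) (nat_lit 151970617) (nat_lit 76) (nat_lit 4233750148) (nat_lit 72) (nat_lit 5) (nat_lit 76) (nat_lit 5) (nat_lit 73) (nat_lit 5) (nat_lit 317) (nat_lit 247) (nat_lit 216)) (XT.lf (nat_lit 0) (nat_lit 6363490029) (nat_lit 304) (nat_lit 3562643363) (nat_lit 380) (nat_lit 1284410525) (nat_lit 68) (nat_lit 5) (nat_lit 72) (nat_lit 5) (nat_lit 73) (nat_lit 5) (nat_lit 318) (nat_lit 247) (nat_lit 215))) (XT.nd (nat_lit 78) (nat_lit 0) (nat_lit 0) (XT.lf (nat_lit 0) (nat_lit 1591054215)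 (nat_lit 228) (nat_lit 242512701) (nat_lit 304) (nat_lit 9581695243) (nat_lit 64) (nat_lit 5) (nat_lit 67) (nat_lit 5) (nat_lit 68) (nat_lit 5) (nat_lit 319) (nat_lit 247) (nat_lit 214)) (XT.lf (nat_lit 0) (nat_lit 5043842612) (nat_lit 304) (nat_lit 3431924735) (nat_lit 76) (nat_lit 3149280482) (nat_lit 64) (nat_lit 5) (nat_lit 68) (nat_lit 5) (nat_lit 65) (nat_lit 5) (nat_lit 320) (nat_lit 247) (nat_lit 213))))))))
noncomputable def xc72 : XT := (XT.nd (nat_lit 2028) (nat_lit 1064) (nat_lit 0) (XT.nd (nat_lit 1014) (nat_lit 1140) (nat_lit 0) (XT.nd (nat_lit 468) (nat_lit 912) (nat_lit 0) (XT.nd (nat_lit 234) (nat_lit 228) (nat_lit 0) (XT.nd (nat_lit 78) (nat_lit 304) (nat_lit 0) (XT.lf (nat_lit 0) (nat_lit 3128053181) (nat_lit 228) (nat_lit 5201059349) (nat_lit 304) (nat_lit 3512697277) (nat_lit 61) (nat_lit 5) (nat_lit 64) (nat_lit 5) (nat_lit 65) (nat_lit 5) (nat_lit 321) (nat_lit 247) (nat_lit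 212)) (XT.nd (nat_lit 78) (nat_lit 304) (nat_lit 0) (XT.lf (nat_lit 0) (nat_lit 9873280175) (nat_lit 228) (nat_lit 1821311394) (nat_lit 304) (nat_lit 371075601) (nat_lit 61) (nat_lit 5) (nat_lit 64) (nat_lit 5) (nat_lit 65) (nat_lit 5) (nat_lit 322) (nat_lit 247) (nat_lit 211)) (XT.lf (nat_lit 0) (nat_lit 2816562739) (nat_lit 304) (nat_lit 7807705168) (nat_lit 76) (nat_lit 1670955729) (nat_lit 57) (nat_lit 5) (nat_lit 61) (nat_lit 5) (nat_lit 58) (nat_lit 5) (nat_lit 323) (nat_lit 247) (nat_lit 210)))) (XT.nd (nat_lit 78) (nat_lit 228) (nat_lit 0) (XT.lf (nat_lit 0) (nat_lit 6081225812) (nat_lit 304) (nat_lit 1221268315) (nat_lit 76) (nat_lit 5229435321) (nat_lit 57) (nat_lit 5) (nat_lit 61) (nat_lit 5) (nat_lit 58) (nat_lit 5) (nat_lit 324) (nat_lit 247) (nat_lit 209)) (XT.nd (nat_lit 78) (nat_lit 0) (nat_lit 0) (XT.lf (nat_lit 0) (nat_lit 5593164063) (nat_lit 228) (nat_lit 3854393745) (nat_lit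 304) (nat_lit 3328104121) (nat_lit 54) (nat_lit 5) (nat_lit 57) (nat_lit 5) (nat_lit 58) (nat_lit 5) (nat_lit 325) (nat_lit 247) (nat_lit 208)) (XT.lf (nat_lit 0) (nat_lit 12559095826) (nat_lit 228) (nat_lit 318788349) (nat_lit 304) (nat_lit 149968356) (nat_lit 54) (nat_lit 5) (nat_lit 57) (nat_lit 5) (nat_lit 58) (nat_lit 5) (nat_lit 326) (nat_lit 247) (nat_lit 207))))) (XT.nd (nat_lit 234) (nat_lit 456) (nat_lit 0) (XT.nd (nat_lit 78) (nat_lit 228) (nat_lit 0) (XT.lf (nat_lit 0) (nat_lit 3108896519) (nat_lit 228) (nat_lit 6853063294) (nat_lit 76) (nat_lit 3323392400) (nat_lit 51) (nat_lit 5) (nat_lit 54) (nat_lit 5) (nat_lit 52) (nat_lit 5) (nat_lit 327) (nat_lit 247) (nat_lit 206)) (XT.nd (nat_lit 78) (nat_lit 228) (nat_lit 0) (XT.lf (nat_lit 0) (nat_lit 6422458266) (nat_lit 228) (nat_lit 82284455) (nat_lit 76) (nat_lit 7047024464) (nat_lit 51) (nat_lit 5) (nat_lit 54) (nat_lit 5) (nat_lit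 52) (nat_lit 5) (nat_lit 328) (nat_lit 247) (nat_lit 205)) (XT.lf (nat_lit 0) (nat_lit 6952394176) (nat_lit 228) (nat_lit 2903269598) (nat_lit 304) (nat_lit 3969935958) (nat_lit 48) (nat_lit 5) (nat_lit 51) (nat_lit 5) (nat_lit 52) (nat_lit 5) (nat_lit 329) (nat_lit 247) (nat_lit 204)))) (XT.nd (nat_lit 156) (nat_lit 228) (nat_lit 0) (XT.nd (nat_lit 78) (nat_lit 76) (nat_lit 0) (XT.lf (nat_lit 0) (nat_lit 9306565) (nat_lit 152) (nat_lit 13345017007) (nat_lit 228) (nat_lit 754481233) (nat_lit 46) (nat_lit 5) (nat_lit 48) (nat_lit 5) (nat_lit 49) (nat_lit 4) (nat_lit 330) (nat_lit 247) (nat_lit 203)) (XT.lf (nat_lit 0) (nat_lit 2560298398) (nat_lit 228) (nat_lit 7288754408) (nat_lit 76) (nat_lit 4549162229) (nat_lit 45) (nat_lit 5) (nat_lit 48) (nat_lit 5) (nat_lit 46) (nat_lit 5) (nat_lit 331) (nat_lit 247) (nat_lit 202))) (XT.nd (nat_lit 78) (nat_lit 228) (nat_lit 0) (XT.lf (nat_lit 0) (nat_lit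 5914626750) (nat_lit 228) (nat_lit 354461771) (nat_lit 76) (nat_lit 8428365497) (nat_lit 45) (nat_lit 5) (nat_lit 48) (nat_lit 5) (nat_lit 46) (nat_lit 5) (nat_lit 332) (nat_lit 247) (nat_lit 201)) (XT.lf (nat_lit 0) (nat_lit 6850366623) (nat_lit 228) (nat_lit 2541640726) (nat_lit 304) (nat_lit 5613017953) (nat_lit 42) (nat_lit 5) (nat_lit 45) (nat_lit 5) (nat_lit 46) (nat_lit 5) (nat_lit 333) (nat_lit 247) (nat_lit 200)))))) (XT.nd (nat_lit 468) (nat_lit 608) (nat_lit 0) (XT.nd (nat_lit 234) (nat_lit 304) (nat_lit 0) (XT.nd (nat_lit 78) (nat_lit 228) (nat_lit 0) (XT.lf (nat_lit 0) (nat_lit 12946692145) (nat_lit 304) (nat_lit 1127136625) (nat_lit 76) (nat_lit 1248832465) (nat_lit 42) (nat_lit 5) (nat_lit 46) (nat_lit 5) (nat_lit 43) (nat_lit 4) (nat_lit 334) (nat_lit 247) (nat_lit 199)) (XT.nd (nat_lit 78) (nat_lit 0) (nat_lit 0) (XT.lf (nat_lit 0) (nat_lit 982187610) (nat_lit 228) (nat_lit 9521858193)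 (nat_lit 76) (nat_lit 5144248742) (nat_lit 39) (nat_lit 5) (nat_lit 42) (nat_lit 5) (nat_lit 40) (nat_lit 5) (nat_lit 335) (nat_lit 247) (nat_lit 198)) (XT.lf (nat_lit 0) (nat_lit 4363103059) (nat_lit 228) (nat_lit 2455879411) (nat_lit 76) (nat_lit 9164940293) (nat_lit 39) (nat_lit 5) (nat_lit 42) (nat_lit 5) (nat_lit 40) (nat_lit 5) (nat_lit 336) (nat_lit 247) (nat_lit 197)))) (XT.nd (nat_lit 78) (nat_lit 152) (nat_lit 0) (XT.lf (nat_lit 0) (nat_lit 4849121402) (nat_lit 152) (nat_lit 3002426721) (nat_lit 228) (nat_lit 8477912627) (nat_lit 37) (nat_lit 5) (nat_lit 39) (nat_lit 5) (nat_lit 40) (nat_lit 5) (nat_lit 337) (nat_lit 247) (nat_lit 196)) (XT.nd (nat_lit 78) (nat_lit 152) (nat_lit 0) (XT.lf (nat_lit 0) (nat_lit 11438385240) (nat_lit 228) (nat_lit 4338059675) (nat_lit 76) (nat_lit 909131083) (nat_lit 37) (nat_lit 5) (nat_lit 40) (nat_lit 5) (nat_lit 38) (nat_lit 4) (nat_lit 338) (nat_lit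 247) (nat_lit 195)) (XT.lf (nat_lit 0) (nat_lit 2981027023) (nat_lit 152) (nat_lit 12171121810) (nat_lit 228) (nat_lit 1899668837) (nat_lit 35) (nat_lit 5) (nat_lit 37) (nat_lit 5) (nat_lit 38) (nat_lit 4) (nat_lit 339) (nat_lit 247) (nat_lit 194))))) (XT.nd (nat_lit 234) (nat_lit 380) (nat_lit 0) (XT.nd (nat_lit 78) (nat_lit 152) (nat_lit 0) (XT.lf (nat_lit 0) (nat_lit 1523351958) (nat_lit 228) (nat_lit 6900492230) (nat_lit 76) (nat_lit 9004618654) (nat_lit 34) (nat_lit 5) (nat_lit 37) (nat_lit 5) (nat_lit 35) (nat_lit 5) (nat_lit 340) (nat_lit 247) (nat_lit 193)) (XT.nd (nat_lit 78) (nat_lit 0) (nat_lit 0) (XT.lf (nat_lit 0) (nat_lit 409975190) (nat_lit 152) (nat_lit 4567028329) (nat_lit 228) (nat_lit 12839876631) (nat_lit 32) (nat_lit 5) (nat_lit 34) (nat_lit 5) (nat_lit 35) (nat_lit 5) (nat_lit 341) (nat_lit 247) (nat_lit 192)) (XT.lf (nat_lit 0) (nat_lit 8017707260) (nat_lit 152) (nat_lit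 548910590) (nat_lit 228) (nat_lit 9649381617) (nat_lit 32) (nat_lit 5) (nat_lit 34) (nat_lit 5) (nat_lit 35) (nat_lit 5) (nat_lit 342) (nat_lit 247) (nat_lit 191)))) (XT.nd (nat_lit 156) (nat_lit 228) (nat_lit 0) (XT.nd (nat_lit 78) (nat_lit 152) (nat_lit 0) (XT.lf (nat_lit 0) (nat_lit 12261942224) (nat_lit 228) (nat_lit 2870443513) (nat_lit 76) (nat_lit 3494785479) (nat_lit 32) (nat_lit 5) (nat_lit 35) (nat_lit 5) (nat_lit 33) (nat_lit 4) (nat_lit 343) (nat_lit 247) (nat_lit 190)) (XT.lf (nat_lit 0) (nat_lit 4702881317) (nat_lit 152) (nat_lit 11380464152) (nat_lit 228) (nat_lit 2966895008) (nat_lit 30) (nat_lit 5) (nat_lit 32) (nat_lit 5) (nat_lit 33) (nat_lit 4) (nat_lit 344) (nat_lit 247) (nat_lit 189))) (XT.nd (nat_lit 78) (nat_lit 152) (nat_lit 0) (XT.lf (nat_lit 0) (nat_lit 516920671) (nat_lit 228) (nat_lit 6989120030) (nat_lit 76) (nat_lit 11980006942) (nat_lit 29) (nat_lit 5) (nat_lit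 32) (nat_lit 5) (nat_lit 30) (nat_lit 5) (nat_lit 345) (nat_lit 247) (nat_lit 188)) (XT.lf (nat_lit 0) (nat_lit 511421515) (nat_lit 152) (nat_lit 3504810036) (nat_lit 228) (nat_lit 15918715173) (nat_lit 27) (nat_lit 5) (nat_lit 29) (nat_lit 5) (nat_lit 30) (nat_lit 5) (nat_lit 346) (nat_lit 247) (nat_lit 187))))))) (XT.nd (nat_lit 1014) (nat_lit 456) (nat_lit 0) (XT.nd (nat_lit 468) (nat_lit 304) (nat_lit 0) (XT.nd (nat_lit 234) (nat_lit 228) (nat_lit 0) (XT.nd (nat_lit 78) (nat_lit 76) (nat_lit 0) (XT.lf (nat_lit 0) (nat_lit 7663619577) (nat_lit 228) (nat_lit 12080837247) (nat_lit 76) (nat_lit 651579841) (nat_lit 27) (nat_lit 5) (nat_lit 30) (nat_lit 5) (nat_lit 28) (nat_lit 4) (nat_lit 347) (nat_lit 247) (nat_lit 186)) (XT.nd (nat_lit 78) (nat_lit 76) (nat_lit 0) (XT.lf (nat_lit 0) (nat_lit 11422020493) (nat_lit 228) (nat_lit 4610110158) (nat_lit 76) (nat_lit 4838797246) (nat_lit 27) (nat_lit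 5) (nat_lit 30) (nat_lit 5) (nat_lit 28) (nat_lit 4) (nat_lit 348) (nat_lit 247) (nat_lit 185)) (XT.lf (nat_lit 0) (nat_lit 3089154791) (nat_lit 76) (nat_lit 12201568016) (nat_lit 152) (nat_lit 6069432436) (nat_lit 26) (nat_lit 5) (nat_lit 27) (nat_lit 5) (nat_lit 28) (nat_lit 4) (nat_lit 349) (nat_lit 247) (nat_lit 184)))) (XT.nd (nat_lit 78) (nat_lit 228) (nat_lit 0) (XT.lf (nat_lit 0) (nat_lit 11058583630) (nat_lit 76) (nat_lit 8231714696) (nat_lit 152) (nat_lit 2573332112) (nat_lit 26) (nat_lit 5) (nat_lit 27) (nat_lit 5) (nat_lit 28) (nat_lit 4) (nat_lit 350) (nat_lit 247) (nat_lit 183)) (XT.nd (nat_lit 78) (nat_lit 152) (nat_lit 0) (XT.lf (nat_lit 0) (nat_lit 976461832) (nat_lit 152) (nat_lit 3179332777) (nat_lit 76) (nat_lit 18227067525) (nat_lit 25) (nat_lit 5) (nat_lit 27) (nat_lit 5) (nat_lit 26) (nat_lit 5) (nat_lit 351) (nat_lit 247) (nat_lit 182)) (XT.lf (nat_lit 0) (nat_lit 4596756182)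 (nat_lit 228) (nat_lit 18228960188) (nat_lit 76) (nat_lit 90732302) (nat_lit 23) (nat_lit 5) (nat_lit 26) (nat_lit 5) (nat_lit 24) (nat_lit 4) (nat_lit 352) (nat_lit 247) (nat_lit 181))))) (XT.nd (nat_lit 234) (nat_lit 228) (nat_lit 0) (XT.nd (nat_lit 78) (nat_lit 76) (nat_lit 0) (XT.lf (nat_lit 0) (nat_lit 8369162500) (nat_lit 228) (nat_lit 10703990284) (nat_lit 76) (nat_lit 4391598607) (nat_lit 23) (nat_lit 5) (nat_lit 26) (nat_lit 5) (nat_lit 24) (nat_lit 4) (nat_lit 353) (nat_lit 247) (nat_lit 180)) (XT.nd (nat_lit 78) (nat_lit 76) (nat_lit 0) (XT.lf (nat_lit 0) (nat_lit 12225550480) (nat_lit 228) (nat_lit 3004663383) (nat_lit 76) (nat_lit 8800178323) (nat_lit 23) (nat_lit 5) (nat_lit 26) (nat_lit 5) (nat_lit 24) (nat_lit 4) (nat_lit 354) (nat_lit 247) (nat_lit 179)) (XT.lf (nat_lit 0) (nat_lit 4972785026) (nat_lit 76) (nat_lit 11244306207) (nat_lit 152) (nat_lit 8395340030) (nat_lit 22) (nat_lit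 5) (nat_lit 23) (nat_lit 5) (nat_lit 24) (nat_lit 4) (nat_lit 355) (nat_lit 247) (nat_lit 178)))) (XT.nd (nat_lit 156) (nat_lit 228) (nat_lit 0) (XT.nd (nat_lit 78) (nat_lit 0) (nat_lit 0) (XT.lf (nat_lit 0) (nat_lit 13201743467) (nat_lit 76) (nat_lit 7128986158) (nat_lit 152) (nat_lit 4881143862) (nat_lit 22) (nat_lit 5) (nat_lit 23) (nat_lit 5) (nat_lit 24) (nat_lit 4) (nat_lit 356) (nat_lit 247) (nat_lit 177)) (XT.lf (nat_lit 0) (nat_lit 21629603599) (nat_lit 76) (nat_lit 2910999014) (nat_lit 152) (nat_lit 1289523754) (nat_lit 22) (nat_lit 5) (nat_lit 23) (nat_lit 5) (nat_lit 24) (nat_lit 4) (nat_lit 357) (nat_lit 247) (nat_lit 176))) (XT.nd (nat_lit 78) (nat_lit 0) (nat_lit 0) (XT.lf (nat_lit 0) (nat_lit 2387334400) (nat_lit 228) (nat_lit 22631924317) (nat_lit 76) (nat_lit 1446249198) (nat_lit 19) (nat_lit 5) (nat_lit 22) (nat_lit 5) (nat_lit 20) (nat_lit 4) (nat_lit 358) (nat_lit 247) (nat_lit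 175)) (XT.lf (nat_lit 0) (nat_lit 6193715691) (nat_lit 228) (nat_lit 15013123599) (nat_lit 76) (nat_lit 5911385647) (nat_lit 19) (nat_lit 5) (nat_lit 22) (nat_lit 5) (nat_lit 20) (nat_lit 4) (nat_lit 359) (nat_lit 247) (nat_lit 174)))))) (XT.nd (nat_lit 546) (nat_lit 152) (nat_lit 0) (XT.nd (nat_lit 234) (nat_lit 228) (nat_lit 0) (XT.nd (nat_lit 78) (nat_lit 76) (nat_lit 0) (XT.lf (nat_lit 0) (nat_lit 10088537698) (nat_lit 228) (nat_lit 7211638131) (nat_lit 76) (nat_lit 10491130961) (nat_lit 19) (nat_lit 5) (nat_lit 22) (nat_lit 5) (nat_lit 20) (nat_lit 4) (nat_lit 360) (nat_lit 247) (nat_lit 173)) (XT.nd (nat_lit 78) (nat_lit 0) (nat_lit 0) (XT.lf (nat_lit 0) (nat_lit 794859488) (nat_lit 76) (nat_lit 13287984850) (nat_lit 152) (nat_lit 14402268043) (nat_lit 18) (nat_lit 5) (nat_lit 19) (nat_lit 5) (nat_lit 20) (nat_lit 4) (nat_lit 361) (nat_lit 247) (nat_lit 172)) (XT.lf (nat_lit 0) (nat_lit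 9145277262) (nat_lit 76) (nat_lit 9099829818) (nat_lit 152) (nat_lit 10953191430) (nat_lit 18) (nat_lit 5) (nat_lit 19) (nat_lit 5) (nat_lit 20) (nat_lit 4) (nat_lit 362) (nat_lit 247) (nat_lit 171)))) (XT.nd (nat_lit 156) (nat_lit 228) (nat_lit 0) (XT.nd (nat_lit 78) (nat_lit 0) (nat_lit 0) (XT.lf (nat_lit 0) (nat_lit 17703385932) (nat_lit 76) (nat_lit 4804874586) (nat_lit 152) (nat_lit 7425348903) (nat_lit 18) (nat_lit 5) (nat_lit 19) (nat_lit 5) (nat_lit 20) (nat_lit 4) (nat_lit 363) (nat_lit 247) (nat_lit 170)) (XT.lf (nat_lit 0) (nat_lit 26476663456) (nat_lit 76) (nat_lit 399366280) (nat_lit 152) (nat_lit 3815657880) (nat_lit 18) (nat_lit 5) (nat_lit 19) (nat_lit 5) (nat_lit 20) (nat_lit 4) (nat_lit 364) (nat_lit 247) (nat_lit 169))) (XT.nd (nat_lit 78) (nat_lit 76) (nat_lit 0) (XT.lf (nat_lit 0) (nat_lit 4038782304) (nat_lit 152) (nat_lit 27391881370) (nat_lit 152) (nat_lit 40178848) (nat_lit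 16) (nat_lit 4) (nat_lit 18) (nat_lit 5) (nat_lit 18) (nat_lit 4) (nat_lit 365) (nat_lit 247) (nat_lit 168)) (XT.lf (nat_lit 0) (nat_lit 3797675199) (nat_lit 228) (nat_lit 19727799082) (nat_lit 76) (nat_lit 8746070430) (nat_lit 15) (nat_lit 5) (nat_lit 18) (nat_lit 5) (nat_lit 16) (nat_lit 4) (nat_lit 366) (nat_lit 247) (nat_lit 167))))) (XT.nd (nat_lit 234) (nat_lit 76) (nat_lit 0) (XT.nd (nat_lit 78) (nat_lit 76) (nat_lit 0) (XT.lf (nat_lit 0) (nat_lit 7727790303) (nat_lit 228) (nat_lit 11832555921) (nat_lit 76) (nat_lit 13536580341) (nat_lit 15) (nat_lit 5) (nat_lit 18) (nat_lit 5) (nat_lit 16) (nat_lit 4) (nat_lit 367) (nat_lit 247) (nat_lit 166)) (XT.nd (nat_lit 78) (nat_lit 76) (nat_lit 0) (XT.lf (nat_lit 0) (nat_lit 11754384580) (nat_lit 228) (nat_lit 3739045754) (nat_lit 76) (nat_lit 18454290546) (nat_lit 15) (nat_lit 5) (nat_lit 18) (nat_lit 5) (nat_lit 16) (nat_lit 4) (nat_lit 368) (nat_lit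 247) (nat_lit 165)) (XT.lf (nat_lit 0) (nat_lit 4650552445) (nat_lit 76) (nat_lit 11275127921) (nat_lit 152) (nat_lit 18897649581) (nat_lit 14) (nat_lit 5) (nat_lit 15) (nat_lit 5) (nat_lit 16) (nat_lit 4) (nat_lit 369) (nat_lit 247) (nat_lit 164)))) (XT.nd (nat_lit 156) (nat_lit 76) (nat_lit 0) (XT.nd (nat_lit 78) (nat_lit 0) (nat_lit 0) (XT.lf (nat_lit 0) (nat_lit 13331386379) (nat_lit 76) (nat_lit 6907934620) (nat_lit 152) (nat_lit 15485377908) (nat_lit 14) (nat_lit 5) (nat_lit 15) (nat_lit 5) (nat_lit 16) (nat_lit 4) (nat_lit 370) (nat_lit 247) (nat_lit 163)) (XT.lf (nat_lit 0) (nat_lit 22236626899) (nat_lit 76) (nat_lit 2425791467) (nat_lit 152) (nat_lit 11991296716) (nat_lit 14) (nat_lit 5) (nat_lit 15) (nat_lit 5) (nat_lit 16) (nat_lit 4) (nat_lit 371) (nat_lit 247) (nat_lit 162))) (XT.nd (nat_lit 78) (nat_lit 76) (nat_lit 0) (XT.lf (nat_lit 0) (nat_lit 29219746838) (nat_lit 152) (nat_lit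 6258044478) (nat_lit 0) (nat_lit 2132771635) (nat_lit 14) (nat_lit 5) (nat_lit 16) (nat_lit 4) (nat_lit 14) (nat_lit 4) (nat_lit 372) (nat_lit 247) (nat_lit 161)) (XT.lf (nat_lit 0) (nat_lit 2128919073) (nat_lit 76) (nat_lit 31810405601) (nat_lit 76) (nat_lit 4656032835) (nat_lit 13) (nat_lit 4) (nat_lit 14) (nat_lit 5) (nat_lit 14) (nat_lit 4) (nat_lit 373) (nat_lit 247) (nat_lit 160))))))))
noncomputable def xc73 : XT := (XT.nd (nat_lit 2028) (nat_lit 152) (nat_lit 0) (XT.nd (nat_lit 1014) (nat_lit 152) (nat_lit 0) (XT.nd (nat_lit 468) (nat_lit 152) (nat_lit 0) (XT.nd (nat_lit 234) (nat_lit 76) (nat_lit 0) (XT.nd (nat_lit 78) (nat_lit 76) (nat_lit 0) (XT.lf (nat_lit 0) (nat_lit 10861735725) (nat_lit 76) (nat_lit 27983220209) (nat_lit 76) (nat_lit 763412916) (nat_lit 13) (nat_lit 4) (nat_lit 14) (nat_lit 5) (nat_lit 14) (nat_lit 4) (nat_lit 374) (nat_lit 247) (nat_lit 159)) (XT.nd (nat_lit 78)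 (nat_lit 0) (nat_lit 0) (XT.lf (nat_lit 0) (nat_lit 3164275691) (nat_lit 152) (nat_lit 20859856305) (nat_lit 76) (nat_lit 16627260068) (nat_lit 12) (nat_lit 5) (nat_lit 14) (nat_lit 5) (nat_lit 13) (nat_lit 4) (nat_lit 375) (nat_lit 247) (nat_lit 158)) (XT.lf (nat_lit 0) (nat_lit 7176617096) (nat_lit 152) (nat_lit 12776481569) (nat_lit 76) (nat_lit 21772921916) (nat_lit 12) (nat_lit 5) (nat_lit 14) (nat_lit 5) (nat_lit 13) (nat_lit 4) (nat_lit 376) (nat_lit 247) (nat_lit 157)))) (XT.nd (nat_lit 78) (nat_lit 76) (nat_lit 0) (XT.lf (nat_lit 0) (nat_lit 11292014165) (nat_lit 152) (nat_lit 4482107382) (nat_lit 76) (nat_lit 27059292002) (nat_lit 12) (nat_lit 5) (nat_lit 14) (nat_lit 5) (nat_lit 13) (nat_lit 4) (nat_lit 377) (nat_lit 247) (nat_lit 156)) (XT.nd (nat_lit 78) (nat_lit 0) (nat_lit 0) (XT.lf (nat_lit 0) (nat_lit 4110728894) (nat_lit 76) (nat_lit 11442848820) (nat_lit 152) (nat_lit 28419775432)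 (nat_lit 11) (nat_lit 5) (nat_lit 12) (nat_lit 5) (nat_lit 13) (nat_lit 4) (nat_lit 378) (nat_lit 247) (nat_lit 155)) (XT.lf (nat_lit 0) (nat_lit 13022944649) (nat_lit 76) (nat_lit 6948692253) (nat_lit 152) (nat_lit 25175000371) (nat_lit 11) (nat_lit 5) (nat_lit 12) (nat_lit 5) (nat_lit 13) (nat_lit 4) (nat_lit 379) (nat_lit 247) (nat_lit 154))))) (XT.nd (nat_lit 234) (nat_lit 152) (nat_lit 0) (XT.nd (nat_lit 78) (nat_lit 0) (nat_lit 0) (XT.lf (nat_lit 0) (nat_lit 22173124529) (nat_lit 76) (nat_lit 2332985411) (nat_lit 152) (nat_lit 21849499457) (nat_lit 11) (nat_lit 5) (nat_lit 12) (nat_lit 5) (nat_lit 13) (nat_lit 4) (nat_lit 380) (nat_lit 247) (nat_lit 153)) (XT.nd (nat_lit 78) (nat_lit 0) (nat_lit 0) (XT.lf (nat_lit 0) (nat_lit 29184109088) (nat_lit 152) (nat_lit 16055212163) (nat_lit 0) (nat_lit 2361310147) (nat_lit 11) (nat_lit 5) (nat_lit 13) (nat_lit 4) (nat_lit 11) (nat_lit 4) (nat_lit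 381) (nat_lit 247) (nat_lit 152)) (XT.lf (nat_lit 0) (nat_lit 34010224680) (nat_lit 152) (nat_lit 7735275773) (nat_lit 0) (nat_lit 7137275624) (nat_lit 11) (nat_lit 5) (nat_lit 13) (nat_lit 4) (nat_lit 11) (nat_lit 4) (nat_lit 382) (nat_lit 247) (nat_lit 151)))) (XT.nd (nat_lit 156) (nat_lit 76) (nat_lit 0) (XT.nd (nat_lit 78) (nat_lit 0) (nat_lit 0) (XT.lf (nat_lit 0) (nat_lit 823081518) (nat_lit 76) (nat_lit 38151078074) (nat_lit 76) (nat_lit 11229439585) (nat_lit 10) (nat_lit 4) (nat_lit 11) (nat_lit 5) (nat_lit 11) (nat_lit 4) (nat_lit 383) (nat_lit 247) (nat_lit 150)) (XT.lf (nat_lit 0) (nat_lit 9769783666) (nat_lit 76) (nat_lit 34380637912) (nat_lit 76) (nat_lit 7411728128) (nat_lit 10) (nat_lit 4) (nat_lit 11) (nat_lit 5) (nat_lit 11) (nat_lit 4) (nat_lit 384) (nat_lit 247) (nat_lit 149))) (XT.nd (nat_lit 78) (nat_lit 76) (nat_lit 0) (XT.lf (nat_lit 0) (nat_lit 18958701022) (nat_lit 76)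 (nat_lit 30508996525) (nat_lit 76) (nat_lit 3494192281) (nat_lit 10) (nat_lit 4) (nat_lit 11) (nat_lit 5) (nat_lit 11) (nat_lit 4) (nat_lit 385) (nat_lit 247) (nat_lit 148)) (XT.lf (nat_lit 0) (nat_lit 516315358) (nat_lit 152) (nat_lit 26011241795) (nat_lit 76) (nat_lit 27876333607) (nat_lit 9) (nat_lit 5) (nat_lit 11) (nat_lit 5) (nat_lit 10) (nat_lit 4) (nat_lit 386) (nat_lit 247) (nat_lit 147)))))) (XT.nd (nat_lit 468) (nat_lit 76) (nat_lit 0) (XT.nd (nat_lit 234) (nat_lit 76) (nat_lit 0) (XT.nd (nat_lit 78) (nat_lit 0) (nat_lit 0) (XT.lf (nat_lit 0) (nat_lit 4563316219) (nat_lit 152) (nat_lit 17839089978) (nat_lit 76) (nat_lit 33486119858) (nat_lit 9) (nat_lit 5) (nat_lit 11) (nat_lit 5) (nat_lit 10) (nat_lit 4) (nat_lit 387) (nat_lit 247) (nat_lit 146)) (XT.nd (nat_lit 78) (nat_lit 0) (nat_lit 0) (XT.lf (nat_lit 0) (nat_lit 8718530793) (nat_lit 152) (nat_lit 9446004325) (nat_lit 76) (nat_lit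 39253565499) (nat_lit 9) (nat_lit 5) (nat_lit 11) (nat_lit 5) (nat_lit 10) (nat_lit 4) (nat_lit 388) (nat_lit 247) (nat_lit 145)) (XT.lf (nat_lit 0) (nat_lit 12985589850) (nat_lit 152) (nat_lit 824651072) (nat_lit 76) (nat_lit 45183710044) (nat_lit 9) (nat_lit 5) (nat_lit 11) (nat_lit 5) (nat_lit 10) (nat_lit 4) (nat_lit 389) (nat_lit 247) (nat_lit 144)))) (XT.nd (nat_lit 78) (nat_lit 0) (nat_lit 0) (XT.lf (nat_lit 0) (nat_lit 8192365559) (nat_lit 76) (nat_lit 9254606358) (nat_lit 152) (nat_lit 43168119644) (nat_lit 8) (nat_lit 5) (nat_lit 9) (nat_lit 5) (nat_lit 10) (nat_lit 4) (nat_lit 390) (nat_lit 247) (nat_lit 143)) (XT.nd (nat_lit 78) (nat_lit 0) (nat_lit 0) (XT.lf (nat_lit 0) (nat_lit 17474181372) (nat_lit 76) (nat_lit 4564047541) (nat_lit 152) (nat_lit 40246760409) (nat_lit 8) (nat_lit 5) (nat_lit 9) (nat_lit 5) (nat_lit 10) (nat_lit 4) (nat_lit 391) (nat_lit 247) (nat_lit 142)) (XT.lf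 (nat_lit 0) (nat_lit 26757760228) (nat_lit 152) (nat_lit 36995323841) (nat_lit 0) (nat_lit 252187686) (nat_lit 8) (nat_lit 5) (nat_lit 10) (nat_lit 4) (nat_lit 8) (nat_lit 4) (nat_lit 392) (nat_lit 247) (nat_lit 141))))) (XT.nd (nat_lit 234) (nat_lit 76) (nat_lit 0) (XT.nd (nat_lit 78) (nat_lit 0) (nat_lit 0) (XT.lf (nat_lit 0) (nat_lit 31652384374) (nat_lit 152) (nat_lit 29012139257) (nat_lit 0) (nat_lit 5111637549) (nat_lit 8) (nat_lit 5) (nat_lit 10) (nat_lit 4) (nat_lit 8) (nat_lit 4) (nat_lit 393) (nat_lit 247) (nat_lit 140)) (XT.nd (nat_lit 78) (nat_lit 0) (nat_lit 0) (XT.lf (nat_lit 0) (nat_lit 36682505788) (nat_lit 152) (nat_lit 20810406184) (nat_lit 0) (nat_lit 10107609174) (nat_lit 8) (nat_lit 5) (nat_lit 10) (nat_lit 4) (nat_lit 8) (nat_lit 4) (nat_lit 394) (nat_lit 247) (nat_lit 139)) (XT.lf (nat_lit 0) (nat_lit 41852519724) (nat_lit 152) (nat_lit 12382958059) (nat_lit 0) (nat_lit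 15244467975) (nat_lit 8) (nat_lit 5) (nat_lit 10) (nat_lit 4) (nat_lit 8) (nat_lit 4) (nat_lit 395) (nat_lit 247) (nat_lit 138)))) (XT.nd (nat_lit 156) (nat_lit 0) (nat_lit 0) (XT.nd (nat_lit 78) (nat_lit 76) (nat_lit 0) (XT.lf (nat_lit 0) (nat_lit 47166943668) (nat_lit 152) (nat_lit 3722431092) (nat_lit 0) (nat_lit 20526702469) (nat_lit 8) (nat_lit 5) (nat_lit 10) (nat_lit 4) (nat_lit 8) (nat_lit 4) (nat_lit 396) (nat_lit 247) (nat_lit 137)) (XT.lf (nat_lit 0) (nat_lit 5281809289) (nat_lit 76) (nat_lit 47399383986) (nat_lit 76) (nat_lit 20727890892) (nat_lit 7) (nat_lit 4) (nat_lit 8) (nat_lit 5) (nat_lit 8) (nat_lit 4) (nat_lit 397) (nat_lit 247) (nat_lit 136))) (XT.nd (nat_lit 78) (nat_lit 0) (nat_lit 0) (XT.lf (nat_lit 0) (nat_lit 14613501490) (nat_lit 76) (nat_lit 43774698937) (nat_lit 76) (nat_lit 17072864198) (nat_lit 7) (nat_lit 4) (nat_lit 8) (nat_lit 5) (nat_lit 8) (nat_lit 4) (nat_lit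 398) (nat_lit 247) (nat_lit 135)) (XT.lf (nat_lit 0) (nat_lit 24206715738) (nat_lit 76) (nat_lit 40049741668) (nat_lit 76) (nat_lit 13318449021) (nat_lit 7) (nat_lit 4) (nat_lit 8) (nat_lit 5) (nat_lit 8) (nat_lit 4) (nat_lit 399) (nat_lit 247) (nat_lit 134))))))) (XT.nd (nat_lit 31902) (nat_lit 0) (nat_lit 8740) (XT.nd (nat_lit 468) (nat_lit 76) (nat_lit 0) (XT.nd (nat_lit 234) (nat_lit 76) (nat_lit 0) (XT.nd (nat_lit 78) (nat_lit 0) (nat_lit 0) (XT.lf (nat_lit 0) (nat_lit 34069834454) (nat_lit 76) (nat_lit 36221257362) (nat_lit 76) (nat_lit 9461364805) (nat_lit 7) (nat_lit 4) (nat_lit 8) (nat_lit 5) (nat_lit 8) (nat_lit 4) (nat_lit 400) (nat_lit 247) (nat_lit 133)) (XT.nd (nat_lit 78) (nat_lit 0) (nat_lit 0) (XT.lf (nat_lit 0) (nat_lit 44211475896) (nat_lit 76) (nat_lit 32285900742) (nat_lit 76) (nat_lit 5498241282) (nat_lit 7) (nat_lit 4) (nat_lit 8) (nat_lit 5) (nat_lit 8) (nat_lit 4) (nat_lit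 401) (nat_lit 247) (nat_lit 132)) (XT.lf (nat_lit 0) (nat_lit 54640501694) (nat_lit 76) (nat_lit 28240233147) (nat_lit 76) (nat_lit 1425615528) (nat_lit 7) (nat_lit 4) (nat_lit 8) (nat_lit 5) (nat_lit 8) (nat_lit 4) (nat_lit 402) (nat_lit 247) (nat_lit 131)))) (XT.nd (nat_lit 78) (nat_lit 0) (nat_lit 0) (XT.lf (nat_lit 0) (nat_lit 2706212132) (nat_lit 152) (nat_lit 21347179958) (nat_lit 76) (nat_lit 62632485018) (nat_lit 6) (nat_lit 5) (nat_lit 8) (nat_lit 5) (nat_lit 7) (nat_lit 4) (nat_lit 403) (nat_lit 247) (nat_lit 130)) (XT.nd (nat_lit 78) (nat_lit 0) (nat_lit 0) (XT.lf (nat_lit 0) (nat_lit 6924661539) (nat_lit 152) (nat_lit 12809138314) (nat_lit 76) (nat_lit 69402829350) (nat_lit 6) (nat_lit 5) (nat_lit 8) (nat_lit 5) (nat_lit 7) (nat_lit 4) (nat_lit 404) (nat_lit 247) (nat_lit 129)) (XT.lf (nat_lit 0) (nat_lit 11261237607) (nat_lit 152) (nat_lit 4030559429) (nat_lit 76) (nat_lit 76369362164)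 (nat_lit 6) (nat_lit 5) (nat_lit 8) (nat_lit 5) (nat_lit 7) (nat_lit 4) (nat_lit 405) (nat_lit 247) (nat_lit 128))))) (XT.nd (nat_lit 31122) (nat_lit 0) (nat_lit 13680) (XT.nd (nat_lit 78) (nat_lit 0) (nat_lit 0) (XT.lf (nat_lit 0) (nat_lit 5095662018) (nat_lit 76) (nat_lit 10673050181) (nat_lit 152) (nat_lit 78491491324) (nat_lit 5) (nat_lit 5) (nat_lit 6) (nat_lit 5) (nat_lit 7) (nat_lit 4) (nat_lit 406) (nat_lit 247) (nat_lit 127)) (XT.nd (nat_lit 78) (nat_lit 0) (nat_lit 0) (XT.lf (nat_lit 0) (nat_lit 14563291628) (nat_lit 76) (nat_lit 5880732864) (nat_lit 152) (nat_lit 76492218671) (nat_lit 5) (nat_lit 5) (nat_lit 6) (nat_lit 5) (nat_lit 7) (nat_lit 4) (nat_lit 407) (nat_lit 247) (nat_lit 126)) (XT.lf (nat_lit 0) (nat_lit 24300386050) (nat_lit 76) (nat_lit 951358371) (nat_lit 152) (nat_lit 74441057445) (nat_lit 5) (nat_lit 5) (nat_lit 6) (nat_lit 5) (nat_lit 7) (nat_lit 4) (nat_lit 408) (nat_lit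 247) (nat_lit 125)))) (XT.nd (nat_lit 156) (nat_lit 1216) (nat_lit 0) (XT.nd (nat_lit 78) (nat_lit 1140) (nat_lit 0) (XT.lf (nat_lit 0) (nat_lit 2289627547) (nat_lit 988) (nat_lit 631437781) (nat_lit 988) (nat_lit 631437781) (nat_lit 216) (nat_lit 4) (nat_lit 229) (nat_lit 5) (nat_lit 229) (nat_lit 4) (nat_lit 284) (nat_lit 248) (nat_lit 248)) (XT.lf (nat_lit 0) (nat_lit 1913636608) (nat_lit 1140) (nat_lit 4976987276) (nat_lit 0) (nat_lit 272803321) (nat_lit 201) (nat_lit 5) (nat_lit 216) (nat_lit 4) (nat_lit 201) (nat_lit 4) (nat_lit 285) (nat_lit 248) (nat_lit 247))) (XT.nd (nat_lit 78) (nat_lit 1216) (nat_lit 0) (XT.lf (nat_lit 0) (nat_lit 5103308780) (nat_lit 1140) (nat_lit 252354771) (nat_lit 0) (nat_lit 1869433466) (nat_lit 201) (nat_lit 5) (nat_lit 216) (nat_lit 4) (nat_lit 201) (nat_lit 4) (nat_lit 286) (nat_lit 248) (nat_lit 246)) (XT.lf (nat_lit 0) (nat_lit 1030027657) (nat_lit 1216)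 (nat_lit 2689561913) (nat_lit 76) (nat_lit 3570325976) (nat_lit 185) (nat_lit 5) (nat_lit 201) (nat_lit 5) (nat_lit 186) (nat_lit 4) (nat_lit 287) (nat_lit 248) (nat_lit 245)))))) (XT.nd (nat_lit 546) (nat_lit 2052) (nat_lit 0) (XT.nd (nat_lit 234) (nat_lit 1596) (nat_lit 0) (XT.nd (nat_lit 78) (nat_lit 684) (nat_lit 0) (XT.lf (nat_lit 0) (nat_lit 2174314197) (nat_lit 608) (nat_lit 1991413463) (nat_lit 684) (nat_lit 3192515879) (nat_lit 177) (nat_lit 5) (nat_lit 185) (nat_lit 5) (nat_lit 186) (nat_lit 4) (nat_lit 288) (nat_lit 248) (nat_lit 244)) (XT.nd (nat_lit 78) (nat_lit 684) (nat_lit 0) (XT.lf (nat_lit 0) (nat_lit 7145868839) (nat_lit 608) (nat_lit 187057721) (nat_lit 684) (nat_lit 97721885) (nat_lit 177) (nat_lit 5) (nat_lit 185) (nat_lit 5) (nat_lit 186) (nat_lit 4) (nat_lit 289) (nat_lit 248) (nat_lit 243)) (XT.lf (nat_lit 0) (nat_lit 3003747407) (nat_lit 684) (nat_lit 2791100806) (nat_lit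 76) (nat_lit 1710403716) (nat_lit 168) (nat_lit 5) (nat_lit 177) (nat_lit 5) (nat_lit 169) (nat_lit 4) (nat_lit 290) (nat_lit 248) (nat_lit 242)))) (XT.nd (nat_lit 156) (nat_lit 988) (nat_lit 0) (XT.nd (nat_lit 78) (nat_lit 76) (nat_lit 0) (XT.lf (nat_lit 0) (nat_lit 2233292033) (nat_lit 532) (nat_lit 3902741313) (nat_lit 608) (nat_lit 1447976233) (nat_lit 161) (nat_lit 5) (nat_lit 168) (nat_lit 5) (nat_lit 169) (nat_lit 4) (nat_lit 291) (nat_lit 248) (nat_lit 241)) (XT.lf (nat_lit 0) (nat_lit 1606667036) (nat_lit 608) (nat_lit 310478736) (nat_lit 76) (nat_lit 5749345272) (nat_lit 160) (nat_lit 5) (nat_lit 168) (nat_lit 5) (nat_lit 161) (nat_lit 5) (nat_lit 292) (nat_lit 248) (nat_lit 240))) (XT.nd (nat_lit 78) (nat_lit 456) (nat_lit 0) (XT.lf (nat_lit 0) (nat_lit 4689063785) (nat_lit 608) (nat_lit 2884799249) (nat_lit 76) (nat_lit 178322862) (nat_lit 153) (nat_lit 5) (nat_lit 161) (nat_lit 5)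 (nat_lit 154) (nat_lit 4) (nat_lit 293) (nat_lit 248) (nat_lit 239)) (XT.lf (nat_lit 0) (nat_lit 2298398176) (nat_lit 456) (nat_lit 5527892360) (nat_lit 532) (nat_lit 15412205) (nat_lit 147) (nat_lit 5) (nat_lit 153) (nat_lit 5) (nat_lit 154) (nat_lit 4) (nat_lit 294) (nat_lit 248) (nat_lit 238))))) (XT.nd (nat_lit 234) (nat_lit 912) (nat_lit 0) (XT.nd (nat_lit 78) (nat_lit 1064) (nat_lit 0) (XT.lf (nat_lit 0) (nat_lit 3010887510) (nat_lit 532) (nat_lit 361964967) (nat_lit 76) (nat_lit 4561823279) (nat_lit 146) (nat_lit 5) (nat_lit 153) (nat_lit 5) (nat_lit 147) (nat_lit 5) (nat_lit 295) (nat_lit 248) (nat_lit 237)) (XT.nd (nat_lit 78) (nat_lit 532) (nat_lit 0) (XT.lf (nat_lit 0) (nat_lit 4979752348) (nat_lit 532) (nat_lit 1116845123) (nat_lit 608) (nat_lit 1934879527) (nat_lit 139) (nat_lit 5) (nat_lit 146) (nat_lit 5) (nat_lit 147) (nat_lit 5) (nat_lit 296) (nat_lit 248) (nat_lit 236)) (XT.lf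 (nat_lit 0) (nat_lit 1080607835) (nat_lit 532) (nat_lit 5845305654) (nat_lit 76) (nat_lit 1206267246) (nat_lit 132) (nat_lit 5) (nat_lit 139) (nat_lit 5) (nat_lit 133) (nat_lit 5) (nat_lit 297) (nat_lit 248) (nat_lit 235)))) (XT.nd (nat_lit 156) (nat_lit 456) (nat_lit 0) (XT.nd (nat_lit 78) (nat_lit 456) (nat_lit 0) (XT.lf (nat_lit 0) (nat_lit 4112717439) (nat_lit 532) (nat_lit 511514194) (nat_lit 76) (nat_lit 3612249909) (nat_lit 132) (nat_lit 5) (nat_lit 139) (nat_lit 5) (nat_lit 133) (nat_lit 5) (nat_lit 298) (nat_lit 248) (nat_lit 234)) (XT.lf (nat_lit 0) (nat_lit 4988168863) (nat_lit 456) (nat_lit 2220684744) (nat_lit 532) (nat_lit 1135964978) (nat_lit 126) (nat_lit 5) (nat_lit 132) (nat_lit 5) (nat_lit 133) (nat_lit 5) (nat_lit 299) (nat_lit 248) (nat_lit 233))) (XT.nd (nat_lit 78) (nat_lit 0) (nat_lit 0) (XT.lf (nat_lit 0) (nat_lit 1857672799) (nat_lit 456) (nat_lit 6322172744) (nat_lit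 76) (nat_lit 277471044) (nat_lit 120) (nat_lit 5) (nat_lit 126) (nat_lit 5) (nat_lit 121) (nat_lit 5) (nat_lit 300) (nat_lit 248) (nat_lit 232)) (XT.lf (nat_lit 0) (nat_lit 4901223552) (nat_lit 456) (nat_lit 838586306) (nat_lit 76) (nat_lit 2833644887) (nat_lit 120) (nat_lit 5) (nat_lit 126) (nat_lit 5) (nat_lit 121) (nat_lit 5) (nat_lit 301) (nat_lit 248) (nat_lit 231))))))))
noncomputable def xc74 : XT := (XT.nd (nat_lit 2028) (nat_lit 2128) (nat_lit 0) (XT.nd (nat_lit 1014) (nat_lit 1900) (nat_lit 0) (XT.nd (nat_lit 468) (nat_lit 1748) (nat_lit 0) (XT.nd (nat_lit 234) (nat_lit 760) (nat_lit 0) (XT.nd (nat_lit 78) (nat_lit 456) (nat_lit 0) (XT.lf (nat_lit 0) (nat_lit 4812798355) (nat_lit 380) (nat_lit 3198397930) (nat_lit 456) (nat_lit 682715352) (nat_lit 115) (nat_lit 5) (nat_lit 120) (nat_lit 5) (nat_lit 121) (nat_lit 5) (nat_lit 302) (nat_lit 248) (nat_lit 230)) (XT.nd (nat_lit 78) (nat_lit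 0) (nat_lit 0) (XT.lf (nat_lit 0) (nat_lit 1753048223) (nat_lit 380) (nat_lit 551362251) (nat_lit 456) (nat_lit 6514323012) (nat_lit 109) (nat_lit 5) (nat_lit 114) (nat_lit 5) (nat_lit 115) (nat_lit 5) (nat_lit 303) (nat_lit 248) (nat_lit 229)) (XT.lf (nat_lit 0) (nat_lit 5358192682) (nat_lit 456) (nat_lit 1430684661) (nat_lit 76) (nat_lit 2158577509) (nat_lit 109) (nat_lit 5) (nat_lit 115) (nat_lit 5) (nat_lit 110) (nat_lit 5) (nat_lit 304) (nat_lit 248) (nat_lit 228)))) (XT.nd (nat_lit 78) (nat_lit 380) (nat_lit 0) (XT.lf (nat_lit 0) (nat_lit 4363443550) (nat_lit 380) (nat_lit 4119855299) (nat_lit 456) (nat_lit 597425931) (nat_lit 104) (nat_lit 5) (nat_lit 109) (nat_lit 5) (nat_lit 110) (nat_lit 5) (nat_lit 305) (nat_lit 248) (nat_lit 227)) (XT.nd (nat_lit 78) (nat_lit 0) (nat_lit 0) (XT.lf (nat_lit 0) (nat_lit 1049475896) (nat_lit 304) (nat_lit 1343585279) (nat_lit 380) (nat_lit 6825567873)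 (nat_lit 99) (nat_lit 5) (nat_lit 103) (nat_lit 5) (nat_lit 104) (nat_lit 5) (nat_lit 306) (nat_lit 248) (nat_lit 226)) (XT.lf (nat_lit 0) (nat_lit 5457507811) (nat_lit 380) (nat_lit 2385362214) (nat_lit 76) (nat_lit 1517806986) (nat_lit 99) (nat_lit 5) (nat_lit 104) (nat_lit 5) (nat_lit 100) (nat_lit 5) (nat_lit 307) (nat_lit 248) (nat_lit 225))))) (XT.nd (nat_lit 234) (nat_lit 988) (nat_lit 0) (XT.nd (nat_lit 78) (nat_lit 380) (nat_lit 0) (XT.lf (nat_lit 0) (nat_lit 3539259639) (nat_lit 380) (nat_lit 5057460520) (nat_lit 456) (nat_lit 910850797) (nat_lit 94) (nat_lit 5) (nat_lit 99) (nat_lit 5) (nat_lit 100) (nat_lit 5) (nat_lit 308) (nat_lit 248) (nat_lit 224)) (XT.nd (nat_lit 78) (nat_lit 304) (nat_lit 0) (XT.lf (nat_lit 0) (nat_lit 2089044558) (nat_lit 456) (nat_lit 77659937) (nat_lit 76) (nat_lit 7492801325) (nat_lit 93) (nat_lit 5) (nat_lit 99) (nat_lit 5) (nat_lit 94) (nat_lit 5) (nat_lit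 309) (nat_lit 248) (nat_lit 223)) (XT.lf (nat_lit 0) (nat_lit 5164359931) (nat_lit 380) (nat_lit 3812477454) (nat_lit 76) (nat_lit 838842498) (nat_lit 89) (nat_lit 5) (nat_lit 94) (nat_lit 5) (nat_lit 90) (nat_lit 5) (nat_lit 310) (nat_lit 248) (nat_lit 222)))) (XT.nd (nat_lit 156) (nat_lit 608) (nat_lit 0) (XT.nd (nat_lit 78) (nat_lit 76) (nat_lit 0) (XT.lf (nat_lit 0) (nat_lit 2226401332) (nat_lit 304) (nat_lit 6087657743) (nat_lit 380) (nat_lit 1663078125) (nat_lit 85) (nat_lit 5) (nat_lit 89) (nat_lit 5) (nat_lit 90) (nat_lit 5) (nat_lit 311) (nat_lit 248) (nat_lit 221)) (XT.lf (nat_lit 0) (nat_lit 1364864875) (nat_lit 380) (nat_lit 1719238572) (nat_lit 76) (nat_lit 7059655144) (nat_lit 84) (nat_lit 5) (nat_lit 89) (nat_lit 5) (nat_lit 85) (nat_lit 5) (nat_lit 312) (nat_lit 248) (nat_lit 220))) (XT.nd (nat_lit 78) (nat_lit 304) (nat_lit 0) (XT.lf (nat_lit 0) (nat_lit 4434276515) (nat_lit 380)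 (nat_lit 5836748451) (nat_lit 76) (nat_lit 44394498) (nat_lit 80) (nat_lit 5) (nat_lit 85) (nat_lit 5) (nat_lit 81) (nat_lit 5) (nat_lit 313) (nat_lit 248) (nat_lit 219)) (XT.lf (nat_lit 0) (nat_lit 295355269) (nat_lit 304) (nat_lit 7292563202) (nat_lit 380) (nat_lit 2904602125) (nat_lit 76) (nat_lit 5) (nat_lit 80) (nat_lit 5) (nat_lit 81) (nat_lit 5) (nat_lit 314) (nat_lit 248) (nat_lit 218)))))) (XT.nd (nat_lit 468) (nat_lit 988) (nat_lit 0) (XT.nd (nat_lit 234) (nat_lit 608) (nat_lit 0) (XT.nd (nat_lit 78) (nat_lit 228) (nat_lit 0) (XT.lf (nat_lit 0) (nat_lit 159122328) (nat_lit 380) (nat_lit 4030357241) (nat_lit 76) (nat_lit 6485429410) (nat_lit 75) (nat_lit 5) (nat_lit 80) (nat_lit 5) (nat_lit 76) (nat_lit 5) (nat_lit 315) (nat_lit 248) (nat_lit 217)) (XT.nd (nat_lit 78) (nat_lit 0) (nat_lit 0) (XT.lf (nat_lit 0) (nat_lit 2253043250) (nat_lit 228) (nat_lit 968207252) (nat_lit 304) (nat_lit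 7641759828) (nat_lit 72) (nat_lit 5) (nat_lit 75) (nat_lit 5) (nat_lit 76) (nat_lit 5) (nat_lit 316) (nat_lit 248) (nat_lit 216)) (XT.lf (nat_lit 0) (nat_lit 6382744707) (nat_lit 304) (nat_lit 2355226271) (nat_lit 76) (nat_lit 2318607430) (nat_lit 72) (nat_lit 5) (nat_lit 76) (nat_lit 5) (nat_lit 73) (nat_lit 5) (nat_lit 317) (nat_lit 248) (nat_lit 215)))) (XT.nd (nat_lit 78) (nat_lit 304) (nat_lit 0) (XT.lf (nat_lit 0) (nat_lit 4075281448) (nat_lit 304) (nat_lit 5558012829) (nat_lit 380) (nat_lit 1622880271) (nat_lit 68) (nat_lit 5) (nat_lit 72) (nat_lit 5) (nat_lit 73) (nat_lit 5) (nat_lit 318) (nat_lit 248) (nat_lit 214)) (XT.nd (nat_lit 78) (nat_lit 228) (nat_lit 0) (XT.lf (nat_lit 0) (nat_lit 1459650704) (nat_lit 380) (nat_lit 811039733) (nat_lit 76) (nat_lit 9191583476) (nat_lit 67) (nat_lit 5) (nat_lit 72) (nat_lit 5) (nat_lit 68) (nat_lit 5) (nat_lit 319) (nat_lit 248) (nat_lit 213)) (XT.lf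 (nat_lit 0) (nat_lit 4615905675) (nat_lit 304) (nat_lit 5918580403) (nat_lit 76) (nat_lit 1139215466) (nat_lit 64) (nat_lit 5) (nat_lit 68) (nat_lit 5) (nat_lit 65) (nat_lit 5) (nat_lit 320) (nat_lit 248) (nat_lit 212))))) (XT.nd (nat_lit 234) (nat_lit 456) (nat_lit 0) (XT.nd (nat_lit 78) (nat_lit 304) (nat_lit 0) (XT.lf (nat_lit 0) (nat_lit 551562695) (nat_lit 228) (nat_lit 7299123236) (nat_lit 304) (nat_lit 4041312997) (nat_lit 61) (nat_lit 5) (nat_lit 64) (nat_lit 5) (nat_lit 65) (nat_lit 5) (nat_lit 321) (nat_lit 248) (nat_lit 211)) (XT.nd (nat_lit 78) (nat_lit 304) (nat_lit 0) (XT.lf (nat_lit 0) (nat_lit 7257619306) (nat_lit 228) (nat_lit 3933195486) (nat_lit 304) (nat_lit 925822119) (nat_lit 61) (nat_lit 5) (nat_lit 64) (nat_lit 5) (nat_lit 65) (nat_lit 5) (nat_lit 322) (nat_lit 248) (nat_lit 210)) (XT.lf (nat_lit 0) (nat_lit 1750818146) (nat_lit 228) (nat_lit 454097572) (nat_lit 304) (nat_lit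 10143488363) (nat_lit 57) (nat_lit 5) (nat_lit 60) (nat_lit 5) (nat_lit 61) (nat_lit 5) (nat_lit 323) (nat_lit 248) (nat_lit 209)))) (XT.nd (nat_lit 156) (nat_lit 228) (nat_lit 0) (XT.nd (nat_lit 78) (nat_lit 228) (nat_lit 0) (XT.lf (nat_lit 0) (nat_lit 5440565510) (nat_lit 304) (nat_lit 4045572372) (nat_lit 76) (nat_lit 3099860817) (nat_lit 57) (nat_lit 5) (nat_lit 61) (nat_lit 5) (nat_lit 58) (nat_lit 5) (nat_lit 324) (nat_lit 248) (nat_lit 208)) (XT.lf (nat_lit 0) (nat_lit 2674242744) (nat_lit 228) (nat_lit 6080665997) (nat_lit 304) (nat_lit 4076399974) (nat_lit 54) (nat_lit 5) (nat_lit 57) (nat_lit 5) (nat_lit 58) (nat_lit 5) (nat_lit 325) (nat_lit 248) (nat_lit 207))) (XT.nd (nat_lit 78) (nat_lit 228) (nat_lit 0) (XT.lf (nat_lit 0) (nat_lit 9602885114) (nat_lit 228) (nat_lit 2558758235) (nat_lit 304) (nat_lit 922581070) (nat_lit 54) (nat_lit 5) (nat_lit 57) (nat_lit 5) (nat_lit 58) (nat_lit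 5) (nat_lit 326) (nat_lit 248) (nat_lit 206)) (XT.lf (nat_lit 0) (nat_lit 2276359583) (nat_lit 228) (nat_lit 9991607208) (nat_lit 76) (nat_lit 1076246489) (nat_lit 51) (nat_lit 5) (nat_lit 54) (nat_lit 5) (nat_lit 52) (nat_lit 5) (nat_lit 327) (nat_lit 248) (nat_lit 205))))))) (XT.nd (nat_lit 1014) (nat_lit 836) (nat_lit 0) (XT.nd (nat_lit 468) (nat_lit 608) (nat_lit 0) (XT.nd (nat_lit 234) (nat_lit 456) (nat_lit 0) (XT.nd (nat_lit 78) (nat_lit 228) (nat_lit 0) (XT.lf (nat_lit 0) (nat_lit 5566968740) (nat_lit 228) (nat_lit 3257719908) (nat_lit 76) (nat_lit 4786644060) (nat_lit 51) (nat_lit 5) (nat_lit 54) (nat_lit 5) (nat_lit 52) (nat_lit 5) (nat_lit 328) (nat_lit 248) (nat_lit 204)) (XT.nd (nat_lit 78) (nat_lit 0) (nat_lit 0) (XT.lf (nat_lit 0) (nat_lit 3677231474) (nat_lit 228) (nat_lit 5269175840) (nat_lit 304) (nat_lit 4940386365) (nat_lit 48) (nat_lit 5) (nat_lit 51) (nat_lit 5) (nat_lit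 52) (nat_lit 5) (nat_lit 329) (nat_lit 248) (nat_lit 203)) (XT.lf (nat_lit 0) (nat_lit 10815015723) (nat_lit 228) (nat_lit 1600498752) (nat_lit 304) (nat_lit 1755385822) (nat_lit 48) (nat_lit 5) (nat_lit 51) (nat_lit 5) (nat_lit 52) (nat_lit 5) (nat_lit 330) (nat_lit 248) (nat_lit 202)))) (XT.nd (nat_lit 78) (nat_lit 228) (nat_lit 0) (XT.lf (nat_lit 0) (nat_lit 1508278858) (nat_lit 228) (nat_lit 10794594766) (nat_lit 76) (nat_lit 2159859036) (nat_lit 45) (nat_lit 5) (nat_lit 48) (nat_lit 5) (nat_lit 46) (nat_lit 5) (nat_lit 331) (nat_lit 248) (nat_lit 201)) (XT.nd (nat_lit 78) (nat_lit 228) (nat_lit 0) (XT.lf (nat_lit 0) (nat_lit 4841214344) (nat_lit 228) (nat_lit 3895360429) (nat_lit 76) (nat_lit 6026052353) (nat_lit 45) (nat_lit 5) (nat_lit 48) (nat_lit 5) (nat_lit 46) (nat_lit 5) (nat_lit 332) (nat_lit 248) (nat_lit 200)) (XT.lf (nat_lit 0) (nat_lit 3204282548) (nat_lit 228) (nat_lit 5058494230)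 (nat_lit 304) (nat_lit 6809109473) (nat_lit 42) (nat_lit 5) (nat_lit 45) (nat_lit 5) (nat_lit 46) (nat_lit 5) (nat_lit 333) (nat_lit 248) (nat_lit 199))))) (XT.nd (nat_lit 234) (nat_lit 380) (nat_lit 0) (XT.nd (nat_lit 78) (nat_lit 228) (nat_lit 0) (XT.lf (nat_lit 0) (nat_lit 10528347808) (nat_lit 228) (nat_lit 1256381504) (nat_lit 304) (nat_lit 3605787751) (nat_lit 42) (nat_lit 5) (nat_lit 45) (nat_lit 5) (nat_lit 46) (nat_lit 5) (nat_lit 334) (nat_lit 248) (nat_lit 198)) (XT.nd (nat_lit 78) (nat_lit 76) (nat_lit 0) (XT.lf (nat_lit 0) (nat_lit 2305436185) (nat_lit 152) (nat_lit 13114001866) (nat_lit 228) (nat_lit 299081264) (nat_lit 40) (nat_lit 5) (nat_lit 42) (nat_lit 5) (nat_lit 43) (nat_lit 4) (nat_lit 335) (nat_lit 248) (nat_lit 197)) (XT.lf (nat_lit 0) (nat_lit 3067714391) (nat_lit 228) (nat_lit 6377520606) (nat_lit 76) (nat_lit 6609609278) (nat_lit 39) (nat_lit 5) (nat_lit 42) (nat_lit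 5) (nat_lit 40) (nat_lit 5) (nat_lit 336) (nat_lit 248) (nat_lit 196)))) (XT.nd (nat_lit 156) (nat_lit 228) (nat_lit 0) (XT.nd (nat_lit 78) (nat_lit 0) (nat_lit 0) (XT.lf (nat_lit 0) (nat_lit 816467032) (nat_lit 152) (nat_lit 5681553375) (nat_lit 228) (nat_lit 9904117494) (nat_lit 37) (nat_lit 5) (nat_lit 39) (nat_lit 5) (nat_lit 40) (nat_lit 5) (nat_lit 337) (nat_lit 248) (nat_lit 195)) (XT.lf (nat_lit 0) (nat_lit 8292037711) (nat_lit 152) (nat_lit 1764788723) (nat_lit 228) (nat_lit 6702278787) (nat_lit 37) (nat_lit 5) (nat_lit 39) (nat_lit 5) (nat_lit 40) (nat_lit 5) (nat_lit 338) (nat_lit 248) (nat_lit 194))) (XT.nd (nat_lit 78) (nat_lit 228) (nat_lit 0) (XT.lf (nat_lit 0) (nat_lit 13706288872) (nat_lit 228) (nat_lit 1220707048) (nat_lit 76) (nat_lit 2200290821) (nat_lit 37) (nat_lit 5) (nat_lit 40) (nat_lit 5) (nat_lit 38) (nat_lit 4) (nat_lit 339) (nat_lit 248) (nat_lit 193)) (XT.lf (nat_lit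 0) (nat_lit 993116) (nat_lit 228) (nat_lit 11219198271) (nat_lit 76) (nat_lit 6285110926) (nat_lit 34) (nat_lit 5) (nat_lit 37) (nat_lit 5) (nat_lit 35) (nat_lit 5) (nat_lit 340) (nat_lit 248) (nat_lit 192)))))) (XT.nd (nat_lit 546) (nat_lit 304) (nat_lit 0) (XT.nd (nat_lit 234) (nat_lit 380) (nat_lit 0) (XT.nd (nat_lit 78) (nat_lit 152) (nat_lit 0) (XT.lf (nat_lit 0) (nat_lit 3432616164) (nat_lit 228) (nat_lit 3947402634) (nat_lit 76) (nat_lit 10514371574) (nat_lit 34) (nat_lit 5) (nat_lit 37) (nat_lit 5) (nat_lit 35) (nat_lit 5) (nat_lit 341) (nat_lit 248) (nat_lit 191)) (XT.nd (nat_lit 78) (nat_lit 0) (nat_lit 0) (XT.lf (nat_lit 0) (nat_lit 3551397394) (nat_lit 152) (nat_lit 3414280370) (nat_lit 228) (nat_lit 11329538113) (nat_lit 32) (nat_lit 5) (nat_lit 34) (nat_lit 5) (nat_lit 35) (nat_lit 5) (nat_lit 342) (nat_lit 248) (nat_lit 190)) (XT.lf (nat_lit 0) (nat_lit 10616008899) (nat_lit 228)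 (nat_lit 7418324978) (nat_lit 76) (nat_lit 673412873) (nat_lit 32) (nat_lit 5) (nat_lit 35) (nat_lit 5) (nat_lit 33) (nat_lit 4) (nat_lit 343) (nat_lit 248) (nat_lit 189)))) (XT.nd (nat_lit 156) (nat_lit 228) (nat_lit 0) (XT.nd (nat_lit 78) (nat_lit 0) (nat_lit 0) (XT.lf (nat_lit 0) (nat_lit 34882344) (nat_lit 152) (nat_lit 14340716827) (nat_lit 228) (nat_lit 4757080284) (nat_lit 30) (nat_lit 5) (nat_lit 32) (nat_lit 5) (nat_lit 33) (nat_lit 4) (nat_lit 344) (nat_lit 248) (nat_lit 188)) (XT.lf (nat_lit 0) (nat_lit 7805405079) (nat_lit 152) (nat_lit 10483532533) (nat_lit 228) (nat_lit 1280211562) (nat_lit 30) (nat_lit 5) (nat_lit 32) (nat_lit 5) (nat_lit 33) (nat_lit 4) (nat_lit 345) (nat_lit 248) (nat_lit 187))) (XT.nd (nat_lit 78) (nat_lit 152) (nat_lit 0) (XT.lf (nat_lit 0) (nat_lit 2222758565) (nat_lit 228) (nat_lit 4289117109) (nat_lit 76) (nat_lit 13507189721) (nat_lit 29) (nat_lit 5) (nat_lit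 32) (nat_lit 5) (nat_lit 30) (nat_lit 5) (nat_lit 346) (nat_lit 248) (nat_lit 186)) (XT.lf (nat_lit 0) (nat_lit 3407914443) (nat_lit 152) (nat_lit 2397596788) (nat_lit 228) (nat_lit 14676591211) (nat_lit 27) (nat_lit 5) (nat_lit 29) (nat_lit 5) (nat_lit 30) (nat_lit 5) (nat_lit 347) (nat_lit 248) (nat_lit 185))))) (XT.nd (nat_lit 234) (nat_lit 228) (nat_lit 0) (XT.nd (nat_lit 78) (nat_lit 76) (nat_lit 0) (XT.lf (nat_lit 0) (nat_lit 9525029771) (nat_lit 228) (nat_lit 9607933196) (nat_lit 76) (nat_lit 1825204990) (nat_lit 27) (nat_lit 5) (nat_lit 30) (nat_lit 5) (nat_lit 28) (nat_lit 4) (nat_lit 348) (nat_lit 248) (nat_lit 184)) (XT.nd (nat_lit 78) (nat_lit 76) (nat_lit 0) (XT.lf (nat_lit 0) (nat_lit 13348663250) (nat_lit 228) (nat_lit 1995666697) (nat_lit 76) (nat_lit 6104425002) (nat_lit 27) (nat_lit 5) (nat_lit 30) (nat_lit 5) (nat_lit 28) (nat_lit 4) (nat_lit 349) (nat_lit 248) (nat_lit 183))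 (XT.lf (nat_lit 0) (nat_lit 5907588487) (nat_lit 76) (nat_lit 11405904408) (nat_lit 152) (nat_lit 4639786989) (nat_lit 26) (nat_lit 5) (nat_lit 27) (nat_lit 5) (nat_lit 28) (nat_lit 4) (nat_lit 350) (nat_lit 248) (nat_lit 182)))) (XT.nd (nat_lit 156) (nat_lit 152) (nat_lit 0) (XT.nd (nat_lit 78) (nat_lit 76) (nat_lit 0) (XT.lf (nat_lit 0) (nat_lit 14036709152) (nat_lit 76) (nat_lit 7350791720) (nat_lit 152) (nat_lit 1085747202) (nat_lit 26) (nat_lit 5) (nat_lit 27) (nat_lit 5) (nat_lit 28) (nat_lit 4) (nat_lit 351) (nat_lit 248) (nat_lit 181)) (XT.lf (nat_lit 0) (nat_lit 2495319070) (nat_lit 152) (nat_lit 675084003) (nat_lit 76) (nat_lit 19838563831) (nat_lit 25) (nat_lit 5) (nat_lit 27) (nat_lit 5) (nat_lit 26) (nat_lit 5) (nat_lit 352) (nat_lit 248) (nat_lit 180))) (XT.nd (nat_lit 78) (nat_lit 0) (nat_lit 0) (XT.lf (nat_lit 0) (nat_lit 6216185964) (nat_lit 228) (nat_lit 16167489976) (nat_lit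 76) (nat_lit 1175146407) (nat_lit 23) (nat_lit 5) (nat_lit 26) (nat_lit 5) (nat_lit 24) (nat_lit 4) (nat_lit 353) (nat_lit 248) (nat_lit 179)) (XT.lf (nat_lit 0) (nat_lit 10058613196) (nat_lit 228) (nat_lit 8492742013) (nat_lit 76) (nat_lit 5573533105) (nat_lit 23) (nat_lit 5) (nat_lit 26) (nat_lit 5) (nat_lit 24) (nat_lit 4) (nat_lit 354) (nat_lit 248) (nat_lit 178))))))))
noncomputable def xc75 : XT := (XT.nd (nat_lit 2106) (nat_lit 456) (nat_lit 0) (XT.nd (nat_lit 1014) (nat_lit 304) (nat_lit 0) (XT.nd (nat_lit 468) (nat_lit 304) (nat_lit 0) (XT.nd (nat_lit 234) (nat_lit 228) (nat_lit 0) (XT.nd (nat_lit 78) (nat_lit 76) (nat_lit 0) (XT.lf (nat_lit 0) (nat_lit 13988798374) (nat_lit 228) (nat_lit 636193597) (nat_lit 76) (nat_lit 10083782254) (nat_lit 23) (nat_lit 5) (nat_lit 26) (nat_lit 5) (nat_lit 24) (nat_lit 4) (nat_lit 355) (nat_lit 248) (nat_lit 177)) (XT.nd (nat_lit 78) (nat_lit 0) (nat_lit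 0) (XT.lf (nat_lit 0) (nat_lit 7556474248) (nat_lit 76) (nat_lit 10526338844) (nat_lit 152) (nat_lit 7225998053) (nat_lit 22) (nat_lit 5) (nat_lit 23) (nat_lit 5) (nat_lit 24) (nat_lit 4) (nat_lit 356) (nat_lit 248) (nat_lit 176)) (XT.lf (nat_lit 0) (nat_lit 15961393511) (nat_lit 76) (nat_lit 6318295986) (nat_lit 152) (nat_lit 3647770238) (nat_lit 22) (nat_lit 5) (nat_lit 23) (nat_lit 5) (nat_lit 24) (nat_lit 4) (nat_lit 357) (nat_lit 248) (nat_lit 175)))) (XT.nd (nat_lit 78) (nat_lit 152) (nat_lit 0) (XT.lf (nat_lit 0) (nat_lit 11187243) (nat_lit 152) (nat_lit 1992310562) (nat_lit 76) (nat_lit 24561946580) (nat_lit 21) (nat_lit 5) (nat_lit 23) (nat_lit 5) (nat_lit 22) (nat_lit 5) (nat_lit 358) (nat_lit 248) (nat_lit 174)) (XT.nd (nat_lit 78) (nat_lit 0) (nat_lit 0) (XT.lf (nat_lit 0) (nat_lit 3765898756) (nat_lit 228) (nat_lit 20982339480) (nat_lit 76) (nat_lit 2471478585) (nat_lit 19) (nat_lit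 5) (nat_lit 22) (nat_lit 5) (nat_lit 20) (nat_lit 4) (nat_lit 359) (nat_lit 248) (nat_lit 173)) (XT.lf (nat_lit 0) (nat_lit 7648405146) (nat_lit 228) (nat_lit 13202796368) (nat_lit 76) (nat_lit 7041971791) (nat_lit 19) (nat_lit 5) (nat_lit 22) (nat_lit 5) (nat_lit 20) (nat_lit 4) (nat_lit 360) (nat_lit 248) (nat_lit 172))))) (XT.nd (nat_lit 234) (nat_lit 228) (nat_lit 0) (XT.nd (nat_lit 78) (nat_lit 76) (nat_lit 0) (XT.lf (nat_lit 0) (nat_lit 11623114202) (nat_lit 228) (nat_lit 5233112577) (nat_lit 76) (nat_lit 11731345058) (nat_lit 19) (nat_lit 5) (nat_lit 22) (nat_lit 5) (nat_lit 20) (nat_lit 4) (nat_lit 361) (nat_lit 248) (nat_lit 171)) (XT.nd (nat_lit 78) (nat_lit 0) (nat_lit 0) (XT.lf (nat_lit 0) (nat_lit 2992061592) (nat_lit 76) (nat_lit 12730198904) (nat_lit 152) (nat_lit 13580395832) (nat_lit 18) (nat_lit 5) (nat_lit 19) (nat_lit 5) (nat_lit 20) (nat_lit 4) (nat_lit 362) (nat_lit 248)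 (nat_lit 170)) (XT.lf (nat_lit 0) (nat_lit 11529690259) (nat_lit 76) (nat_lit 8444256275) (nat_lit 152) (nat_lit 10064369452) (nat_lit 18) (nat_lit 5) (nat_lit 19) (nat_lit 5) (nat_lit 20) (nat_lit 4) (nat_lit 363) (nat_lit 248) (nat_lit 169)))) (XT.nd (nat_lit 156) (nat_lit 228) (nat_lit 0) (XT.nd (nat_lit 78) (nat_lit 0) (nat_lit 0) (XT.lf (nat_lit 0) (nat_lit 20283084285) (nat_lit 76) (nat_lit 4047498068) (nat_lit 152) (nat_lit 6466150418) (nat_lit 18) (nat_lit 5) (nat_lit 19) (nat_lit 5) (nat_lit 20) (nat_lit 4) (nat_lit 364) (nat_lit 248) (nat_lit 168)) (XT.lf (nat_lit 0) (nat_lit 28800434185) (nat_lit 152) (nat_lit 2323136570) (nat_lit 0) (nat_lit 454864839) (nat_lit 18) (nat_lit 5) (nat_lit 20) (nat_lit 4) (nat_lit 18) (nat_lit 4) (nat_lit 365) (nat_lit 248) (nat_lit 167))) (XT.nd (nat_lit 78) (nat_lit 0) (nat_lit 0) (XT.lf (nat_lit 0) (nat_lit 1079405616) (nat_lit 228) (nat_lit 26237266444)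 (nat_lit 76) (nat_lit 5064275605) (nat_lit 15) (nat_lit 5) (nat_lit 18) (nat_lit 5) (nat_lit 16) (nat_lit 4) (nat_lit 366) (nat_lit 248) (nat_lit 166)) (XT.lf (nat_lit 0) (nat_lit 4998966887) (nat_lit 228) (nat_lit 18361033278) (nat_lit 76) (nat_lit 9846650046) (nat_lit 15) (nat_lit 5) (nat_lit 18) (nat_lit 5) (nat_lit 16) (nat_lit 4) (nat_lit 367) (nat_lit 248) (nat_lit 165)))))) (XT.nd (nat_lit 546) (nat_lit 152) (nat_lit 0) (XT.nd (nat_lit 234) (nat_lit 76) (nat_lit 0) (XT.nd (nat_lit 78) (nat_lit 76) (nat_lit 0) (XT.lf (nat_lit 0) (nat_lit 9015314723) (nat_lit 228) (nat_lit 10285979417) (nat_lit 76) (nat_lit 14756461736) (nat_lit 15) (nat_lit 5) (nat_lit 18) (nat_lit 5) (nat_lit 16) (nat_lit 4) (nat_lit 368) (nat_lit 248) (nat_lit 164)) (XT.nd (nat_lit 78) (nat_lit 76) (nat_lit 0) (XT.lf (nat_lit 0) (nat_lit 13131958555) (nat_lit 228) (nat_lit 2005048990) (nat_lit 76) (nat_lit 19798000800)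 (nat_lit 15) (nat_lit 5) (nat_lit 18) (nat_lit 5) (nat_lit 16) (nat_lit 4) (nat_lit 369) (nat_lit 248) (nat_lit 163)) (XT.lf (nat_lit 0) (nat_lit 6618137468) (nat_lit 76) (nat_lit 10797975567) (nat_lit 152) (nat_lit 18421152585) (nat_lit 14) (nat_lit 5) (nat_lit 15) (nat_lit 5) (nat_lit 16) (nat_lit 4) (nat_lit 370) (nat_lit 248) (nat_lit 162)))) (XT.nd (nat_lit 156) (nat_lit 76) (nat_lit 0) (XT.nd (nat_lit 78) (nat_lit 0) (nat_lit 0) (XT.lf (nat_lit 0) (nat_lit 15506151707) (nat_lit 76) (nat_lit 6323516161) (nat_lit 152) (nat_lit 14936903825) (nat_lit 14) (nat_lit 5) (nat_lit 15) (nat_lit 5) (nat_lit 16) (nat_lit 4) (nat_lit 371) (nat_lit 248) (nat_lit 161)) (XT.lf (nat_lit 0) (nat_lit 24626855549) (nat_lit 76) (nat_lit 1729966670) (nat_lit 152) (nat_lit 11367506083) (nat_lit 14) (nat_lit 5) (nat_lit 15) (nat_lit 5) (nat_lit 16) (nat_lit 4) (nat_lit 372) (nat_lit 248) (nat_lit 160))) (XT.nd (nat_lit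 78) (nat_lit 76) (nat_lit 0) (XT.lf (nat_lit 0) (nat_lit 31030241710) (nat_lit 152) (nat_lit 4751863641) (nat_lit 0) (nat_lit 2928405672) (nat_lit 14) (nat_lit 5) (nat_lit 16) (nat_lit 4) (nat_lit 14) (nat_lit 4) (nat_lit 373) (nat_lit 248) (nat_lit 159)) (XT.lf (nat_lit 0) (nat_lit 3870101736) (nat_lit 76) (nat_lit 32010227481) (nat_lit 76) (nat_lit 3844862776) (nat_lit 13) (nat_lit 4) (nat_lit 14) (nat_lit 5) (nat_lit 14) (nat_lit 4) (nat_lit 374) (nat_lit 248) (nat_lit 158))))) (XT.nd (nat_lit 234) (nat_lit 76) (nat_lit 0) (XT.nd (nat_lit 78) (nat_lit 0) (nat_lit 0) (XT.lf (nat_lit 0) (nat_lit 134170787) (nat_lit 152) (nat_lit 27954676324) (nat_lit 76) (nat_lit 12680523401) (nat_lit 12) (nat_lit 5) (nat_lit 14) (nat_lit 5) (nat_lit 13) (nat_lit 4) (nat_lit 375) (nat_lit 248) (nat_lit 157)) (XT.nd (nat_lit 78) (nat_lit 0) (nat_lit 0) (XT.lf (nat_lit 0) (nat_lit 4137982843) (nat_lit 152) (nat_lit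 19886819711) (nat_lit 76) (nat_lit 17819455388) (nat_lit 12) (nat_lit 5) (nat_lit 14) (nat_lit 5) (nat_lit 13) (nat_lit 4) (nat_lit 376) (nat_lit 248) (nat_lit 156)) (XT.lf (nat_lit 0) (nat_lit 8245098989) (nat_lit 152) (nat_lit 11607511663) (nat_lit 76) (nat_lit 23099291630) (nat_lit 12) (nat_lit 5) (nat_lit 14) (nat_lit 5) (nat_lit 13) (nat_lit 4) (nat_lit 377) (nat_lit 248) (nat_lit 155)))) (XT.nd (nat_lit 156) (nat_lit 0) (nat_lit 0) (XT.nd (nat_lit 78) (nat_lit 76) (nat_lit 0) (XT.lf (nat_lit 0) (nat_lit 12459107968) (nat_lit 152) (nat_lit 3109517833) (nat_lit 76) (nat_lit 28524645574) (nat_lit 12) (nat_lit 5) (nat_lit 14) (nat_lit 5) (nat_lit 13) (nat_lit 4) (nat_lit 378) (nat_lit 248) (nat_lit 154)) (XT.lf (nat_lit 0) (nat_lit 5726328504) (nat_lit 76) (nat_lit 11112408392) (nat_lit 152) (nat_lit 28428974291) (nat_lit 11) (nat_lit 5) (nat_lit 12) (nat_lit 5) (nat_lit 13) (nat_lit 4) (nat_lit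 379) (nat_lit 248) (nat_lit 153))) (XT.nd (nat_lit 78) (nat_lit 0) (nat_lit 0) (XT.lf (nat_lit 0) (nat_lit 14862446331) (nat_lit 76) (nat_lit 6503050213) (nat_lit 152) (nat_lit 25111420864) (nat_lit 11) (nat_lit 5) (nat_lit 12) (nat_lit 5) (nat_lit 13) (nat_lit 4) (nat_lit 380) (nat_lit 248) (nat_lit 152)) (XT.lf (nat_lit 0) (nat_lit 24244933161) (nat_lit 76) (nat_lit 1767923703) (nat_lit 152) (nat_lit 21710004326) (nat_lit 11) (nat_lit 5) (nat_lit 12) (nat_lit 5) (nat_lit 13) (nat_lit 4) (nat_lit 381) (nat_lit 248) (nat_lit 151))))))) (XT.nd (nat_lit 1014) (nat_lit 228) (nat_lit 0) (XT.nd (nat_lit 468) (nat_lit 76) (nat_lit 0) (XT.nd (nat_lit 234) (nat_lit 76) (nat_lit 0) (XT.nd (nat_lit 78) (nat_lit 76) (nat_lit 0) (XT.lf (nat_lit 0) (nat_lit 30814649959) (nat_lit 152) (nat_lit 15154415243) (nat_lit 0) (nat_lit 3036672882) (nat_lit 11) (nat_lit 5) (nat_lit 13) (nat_lit 4) (nat_lit 11) (nat_lit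 4) (nat_lit 382) (nat_lit 248) (nat_lit 150)) (XT.nd (nat_lit 78) (nat_lit 76) (nat_lit 0) (XT.lf (nat_lit 0) (nat_lit 35763558216) (nat_lit 152) (nat_lit 6625146390) (nat_lit 0) (nat_lit 7938309844) (nat_lit 11) (nat_lit 5) (nat_lit 13) (nat_lit 4) (nat_lit 11) (nat_lit 4) (nat_lit 383) (nat_lit 248) (nat_lit 149)) (XT.lf (nat_lit 0) (nat_lit 2176802917) (nat_lit 76) (nat_lit 38691033402) (nat_lit 76) (nat_lit 10819890570) (nat_lit 10) (nat_lit 4) (nat_lit 11) (nat_lit 5) (nat_lit 11) (nat_lit 4) (nat_lit 384) (nat_lit 248) (nat_lit 148)))) (XT.nd (nat_lit 78) (nat_lit 76) (nat_lit 0) (XT.lf (nat_lit 0) (nat_lit 11353196548) (nat_lit 76) (nat_lit 34825089074) (nat_lit 76) (nat_lit 6909388514) (nat_lit 10) (nat_lit 4) (nat_lit 11) (nat_lit 5) (nat_lit 11) (nat_lit 4) (nat_lit 385) (nat_lit 248) (nat_lit 147)) (XT.nd (nat_lit 78) (nat_lit 76) (nat_lit 0) (XT.lf (nat_lit 0) (nat_lit 20780199307)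 (nat_lit 76) (nat_lit 30854394601) (nat_lit 76) (nat_lit 2895434109) (nat_lit 10) (nat_lit 4) (nat_lit 11) (nat_lit 5) (nat_lit 11) (nat_lit 4) (nat_lit 386) (nat_lit 248) (nat_lit 146)) (XT.lf (nat_lit 0) (nat_lit 1201566453) (nat_lit 152) (nat_lit 25561780524) (nat_lit 76) (nat_lit 29252348463) (nat_lit 9) (nat_lit 5) (nat_lit 11) (nat_lit 5) (nat_lit 10) (nat_lit 4) (nat_lit 387) (nat_lit 248) (nat_lit 145))))) (XT.nd (nat_lit 234) (nat_lit 0) (nat_lit 0) (XT.nd (nat_lit 78) (nat_lit 76) (nat_lit 0) (XT.lf (nat_lit 0) (nat_lit 5350469719) (nat_lit 152) (nat_lit 17180283526) (nat_lit 76) (nat_lit 35014708161) (nat_lit 9) (nat_lit 5) (nat_lit 11) (nat_lit 5) (nat_lit 10) (nat_lit 4) (nat_lit 388) (nat_lit 248) (nat_lit 144)) (XT.nd (nat_lit 78) (nat_lit 76) (nat_lit 0) (XT.lf (nat_lit 0) (nat_lit 9611401293) (nat_lit 152) (nat_lit 8570181395) (nat_lit 76) (nat_lit 40939914898) (nat_lit 9) (nat_lit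 5) (nat_lit 11) (nat_lit 5) (nat_lit 10) (nat_lit 4) (nat_lit 389) (nat_lit 248) (nat_lit 143)) (XT.lf (nat_lit 0) (nat_lit 281543179) (nat_lit 76) (nat_lit 13709247505) (nat_lit 152) (nat_lit 46754309225) (nat_lit 8) (nat_lit 5) (nat_lit 9) (nat_lit 5) (nat_lit 10) (nat_lit 4) (nat_lit 390) (nat_lit 248) (nat_lit 142)))) (XT.nd (nat_lit 156) (nat_lit 0) (nat_lit 0) (XT.nd (nat_lit 78) (nat_lit 0) (nat_lit 0) (XT.lf (nat_lit 0) (nat_lit 9552542665) (nat_lit 76) (nat_lit 9023625301) (nat_lit 152) (nat_lit 43839007985) (nat_lit 8) (nat_lit 5) (nat_lit 9) (nat_lit 5) (nat_lit 10) (nat_lit 4) (nat_lit 391) (nat_lit 248) (nat_lit 141)) (XT.lf (nat_lit 0) (nat_lit 19080354521) (nat_lit 76) (nat_lit 4207163872) (nat_lit 152) (nat_lit 40848187252) (nat_lit 8) (nat_lit 5) (nat_lit 9) (nat_lit 5) (nat_lit 10) (nat_lit 4) (nat_lit 392) (nat_lit 248) (nat_lit 140))) (XT.nd (nat_lit 78) (nat_lit 0) (nat_lit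 0) (XT.lf (nat_lit 0) (nat_lit 28136113782) (nat_lit 152) (nat_lit 37042043451) (nat_lit 0) (nat_lit 729820481) (nat_lit 8) (nat_lit 5) (nat_lit 10) (nat_lit 4) (nat_lit 8) (nat_lit 4) (nat_lit 393) (nat_lit 248) (nat_lit 139)) (XT.lf (nat_lit 0) (nat_lit 33160810999) (nat_lit 152) (nat_lit 28850328575) (nat_lit 0) (nat_lit 5721362563) (nat_lit 8) (nat_lit 5) (nat_lit 10) (nat_lit 4) (nat_lit 8) (nat_lit 4) (nat_lit 394) (nat_lit 248) (nat_lit 138)))))) (XT.nd (nat_lit 546) (nat_lit 152) (nat_lit 0) (XT.nd (nat_lit 234) (nat_lit 76) (nat_lit 0) (XT.nd (nat_lit 78) (nat_lit 0) (nat_lit 0) (XT.lf (nat_lit 0) (nat_lit 38325558723) (nat_lit 152) (nat_lit 20432606855) (nat_lit 0) (nat_lit 10853920836) (nat_lit 8) (nat_lit 5) (nat_lit 10) (nat_lit 4) (nat_lit 8) (nat_lit 4) (nat_lit 395) (nat_lit 248) (nat_lit 137)) (XT.nd (nat_lit 78) (nat_lit 0) (nat_lit 0) (XT.lf (nat_lit 0) (nat_lit 43634869841)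 (nat_lit 152) (nat_lit 11781523001) (nat_lit 0) (nat_lit 16131980059) (nat_lit 8) (nat_lit 5) (nat_lit 10) (nat_lit 4) (nat_lit 8) (nat_lit 4) (nat_lit 396) (nat_lit 248) (nat_lit 136)) (XT.lf (nat_lit 0) (nat_lit 49093383556) (nat_lit 152) (nat_lit 2889517812) (nat_lit 0) (nat_lit 21560152130) (nat_lit 8) (nat_lit 5) (nat_lit 10) (nat_lit 4) (nat_lit 8) (nat_lit 4) (nat_lit 397) (nat_lit 248) (nat_lit 135)))) (XT.nd (nat_lit 156) (nat_lit 0) (nat_lit 0) (XT.nd (nat_lit 78) (nat_lit 0) (nat_lit 0) (XT.lf (nat_lit 0) (nat_lit 6375589132) (nat_lit 76) (nat_lit 48391566375) (nat_lit 76) (nat_lit 20828877041) (nat_lit 7) (nat_lit 4) (nat_lit 8) (nat_lit 5) (nat_lit 8) (nat_lit 4) (nat_lit 398) (nat_lit 248) (nat_lit 134)) (XT.lf (nat_lit 0) (nat_lit 15959989606) (nat_lit 76) (nat_lit 44670659196) (nat_lit 76) (nat_lit 17079369951) (nat_lit 7) (nat_lit 4) (nat_lit 8) (nat_lit 5) (nat_lit 8) (nat_lit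 4) (nat_lit 399) (nat_lit 248) (nat_lit 133))) (XT.nd (nat_lit 78) (nat_lit 0) (nat_lit 0) (XT.lf (nat_lit 0) (nat_lit 25814551261) (nat_lit 76) (nat_lit 40846107016) (nat_lit 76) (nat_lit 13227050868) (nat_lit 7) (nat_lit 4) (nat_lit 8) (nat_lit 5) (nat_lit 8) (nat_lit 4) (nat_lit 400) (nat_lit 248) (nat_lit 132)) (XT.lf (nat_lit 0) (nat_lit 35947884876) (nat_lit 76) (nat_lit 36914567994) (nat_lit 76) (nat_lit 9268553687) (nat_lit 7) (nat_lit 4) (nat_lit 8) (nat_lit 5) (nat_lit 8) (nat_lit 4) (nat_lit 401) (nat_lit 248) (nat_lit 131))))) (XT.nd (nat_lit 234) (nat_lit 76) (nat_lit 0) (XT.nd (nat_lit 78) (nat_lit 76) (nat_lit 0) (XT.lf (nat_lit 0) (nat_lit 46368844823) (nat_lit 76) (nat_lit 32872606804) (nat_lit 76) (nat_lit 5200419528) (nat_lit 7) (nat_lit 4) (nat_lit 8) (nat_lit 5) (nat_lit 8) (nat_lit 4) (nat_lit 402) (nat_lit 248) (nat_lit 130)) (XT.nd (nat_lit 78) (nat_lit 76) (nat_lit 0)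 (XT.lf (nat_lit 0) (nat_lit 57086536792) (nat_lit 76) (nat_lit 28716691636) (nat_lit 76) (nat_lit 1019093711) (nat_lit 7) (nat_lit 4) (nat_lit 8) (nat_lit 5) (nat_lit 8) (nat_lit 4) (nat_lit 403) (nat_lit 248) (nat_lit 129)) (XT.lf (nat_lit 0) (nat_lit 3215090741) (nat_lit 152) (nat_lit 21195634255) (nat_lit 76) (nat_lit 64862768906) (nat_lit 6) (nat_lit 5) (nat_lit 8) (nat_lit 5) (nat_lit 7) (nat_lit 4) (nat_lit 404) (nat_lit 248) (nat_lit 128)))) (XT.nd (nat_lit 156) (nat_lit 76) (nat_lit 0) (XT.nd (nat_lit 78) (nat_lit 0) (nat_lit 0) (XT.lf (nat_lit 0) (nat_lit 7547636573) (nat_lit 152) (nat_lit 12424518189) (nat_lit 76) (nat_lit 71825991257) (nat_lit 6) (nat_lit 5) (nat_lit 8) (nat_lit 5) (nat_lit 7) (nat_lit 4) (nat_lit 405) (nat_lit 248) (nat_lit 127)) (XT.lf (nat_lit 0) (nat_lit 12002215695) (nat_lit 152) (nat_lit 3404976916) (nat_lit 76) (nat_lit 78991585773) (nat_lit 6) (nat_lit 5) (nat_lit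 8) (nat_lit 5) (nat_lit 7) (nat_lit 4) (nat_lit 406) (nat_lit 248) (nat_lit 126))) (XT.nd (nat_lit 78) (nat_lit 0) (nat_lit 0) (XT.lf (nat_lit 0) (nat_lit 5987712554) (nat_lit 76) (nat_lit 10652565458) (nat_lit 152) (nat_lit 80435658655) (nat_lit 5) (nat_lit 5) (nat_lit 6) (nat_lit 5) (nat_lit 7) (nat_lit 4) (nat_lit 407) (nat_lit 248) (nat_lit 125)) (XT.lf (nat_lit 0) (nat_lit 15717841518) (nat_lit 76) (nat_lit 5726401230) (nat_lit 152) (nat_lit 78388366389) (nat_lit 5) (nat_lit 5) (nat_lit 6) (nat_lit 5) (nat_lit 7) (nat_lit 4) (nat_lit 408) (nat_lit 248) (nat_lit 124))))))))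
noncomputable def xc76 : XT := (XT.nd (nat_lit 2028) (nat_lit 4332) (nat_lit 0) (XT.nd (nat_lit 1014) (nat_lit 3572) (nat_lit 0) (XT.nd (nat_lit 468) (nat_lit 2964) (nat_lit 0) (XT.nd (nat_lit 234) (nat_lit 2280) (nat_lit 0) (XT.nd (nat_lit 78) (nat_lit 1064) (nat_lit 0) (XT.lf (nat_lit 0) (nat_lit 589407872) (nat_lit 988) (nat_lit 2319573481) (nat_lit 0) (nat_lit 589407872) (nat_lit 229) (nat_lit 5) (nat_lit 242) (nat_lit 4) (nat_lit 229) (nat_lit 4) (nat_lit 282) (nat_lit 249) (nat_lit 249)) (XT.nd (nat_lit 78) (nat_lit 1064) (nat_lit 0) (XT.lf (nat_lit 0) (nat_lit 4335582539) (nat_lit 988) (nat_lit 119581337) (nat_lit 0) (nat_lit 2594822505) (nat_lit 229) (nat_lit 5) (nat_lit 242) (nat_lit 4) (nat_lit 229) (nat_lit 4) (nat_lit 283) (nat_lit 249) (nat_lit 248)) (XT.lf (nat_lit 0) (nat_lit 420793646) (nat_lit 1064) (nat_lit 2576607217) (nat_lit 76) (nat_lit 4108986120) (nat_lit 215) (nat_lit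 5) (nat_lit 229) (nat_lit 5) (nat_lit 216) (nat_lit 4) (nat_lit 284) (nat_lit 249) (nat_lit 247)))) (XT.nd (nat_lit 78) (nat_lit 1216) (nat_lit 0) (XT.lf (nat_lit 0) (nat_lit 2079136522) (nat_lit 1064) (nat_lit 1443419206) (nat_lit 1140) (nat_lit 3643474375) (nat_lit 201) (nat_lit 5) (nat_lit 215) (nat_lit 5) (nat_lit 216) (nat_lit 4) (nat_lit 285) (nat_lit 249) (nat_lit 246)) (XT.nd (nat_lit 78) (nat_lit 1216) (nat_lit 0) (XT.lf (nat_lit 0) (nat_lit 6652911104) (nat_lit 1140) (nat_lit 394314250) (nat_lit 0) (nat_lit 182334760) (nat_lit 201) (nat_lit 5) (nat_lit 216) (nat_lit 4) (nat_lit 201) (nat_lit 4) (nat_lit 286) (nat_lit 249) (nat_lit 245)) (XT.lf (nat_lit 0) (nat_lit 2498536771) (nat_lit 1216) (nat_lit 2900141594) (nat_lit 76) (nat_lit 1896725122) (nat_lit 185) (nat_lit 5) (nat_lit 201) (nat_lit 5) (nat_lit 186) (nat_lit 4) (nat_lit 287) (nat_lit 249) (nat_lit 244))))) (XT.nd (nat_lit 234)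 (nat_lit 1672) (nat_lit 0) (XT.nd (nat_lit 78) (nat_lit 684) (nat_lit 0) (XT.lf (nat_lit 0) (nat_lit 1913547935) (nat_lit 608) (nat_lit 3674421670) (nat_lit 684) (nat_lit 1777223737) (nat_lit 177) (nat_lit 5) (nat_lit 185) (nat_lit 5) (nat_lit 186) (nat_lit 4) (nat_lit 288) (nat_lit 249) (nat_lit 243)) (XT.nd (nat_lit 78) (nat_lit 608) (nat_lit 0) (XT.lf (nat_lit 0) (nat_lit 1248449307) (nat_lit 684) (nat_lit 610750477) (nat_lit 76) (nat_lit 5579390424) (nat_lit 176) (nat_lit 5) (nat_lit 185) (nat_lit 5) (nat_lit 177) (nat_lit 5) (nat_lit 289) (nat_lit 249) (nat_lit 242)) (XT.lf (nat_lit 0) (nat_lit 4286106010) (nat_lit 684) (nat_lit 3162893747) (nat_lit 76) (nat_lit 66090506) (nat_lit 168) (nat_lit 5) (nat_lit 177) (nat_lit 5) (nat_lit 169) (nat_lit 4) (nat_lit 290) (nat_lit 249) (nat_lit 241)))) (XT.nd (nat_lit 156) (nat_lit 1064) (nat_lit 0) (XT.nd (nat_lit 78) (nat_lit 76) (nat_lit 0) (XT.lf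 (nat_lit 0) (nat_lit 1808092298) (nat_lit 532) (nat_lit 5564848685) (nat_lit 608) (nat_lit 222336072) (nat_lit 161) (nat_lit 5) (nat_lit 168) (nat_lit 5) (nat_lit 169) (nat_lit 4) (nat_lit 291) (nat_lit 249) (nat_lit 240)) (XT.lf (nat_lit 0) (nat_lit 2767337931) (nat_lit 608) (nat_lit 804273788) (nat_lit 76) (nat_lit 4107086776) (nat_lit 160) (nat_lit 5) (nat_lit 168) (nat_lit 5) (nat_lit 161) (nat_lit 5) (nat_lit 292) (nat_lit 249) (nat_lit 239))) (XT.nd (nat_lit 78) (nat_lit 532) (nat_lit 0) (XT.lf (nat_lit 0) (nat_lit 4320465111) (nat_lit 532) (nat_lit 1482389746) (nat_lit 608) (nat_lit 1963004928) (nat_lit 153) (nat_lit 5) (nat_lit 160) (nat_lit 5) (nat_lit 161) (nat_lit 5) (nat_lit 293) (nat_lit 249) (nat_lit 238)) (XT.lf (nat_lit 0) (nat_lit 1003686407) (nat_lit 532) (nat_lit 6171740310) (nat_lit 76) (nat_lit 681489268) (nat_lit 146) (nat_lit 5) (nat_lit 153) (nat_lit 5) (nat_lit 147) (nat_lit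 5) (nat_lit 294) (nat_lit 249) (nat_lit 237)))))) (XT.nd (nat_lit 468) (nat_lit 1596) (nat_lit 0) (XT.nd (nat_lit 234) (nat_lit 912) (nat_lit 0) (XT.nd (nat_lit 78) (nat_lit 1064) (nat_lit 0) (XT.lf (nat_lit 0) (nat_lit 3990799956) (nat_lit 532) (nat_lit 1035909838) (nat_lit 76) (nat_lit 2924396273) (nat_lit 146) (nat_lit 5) (nat_lit 153) (nat_lit 5) (nat_lit 147) (nat_lit 5) (nat_lit 295) (nat_lit 249) (nat_lit 236)) (XT.nd (nat_lit 78) (nat_lit 532) (nat_lit 0) (XT.lf (nat_lit 0) (nat_lit 4247478393) (nat_lit 532) (nat_lit 2784239625) (nat_lit 608) (nat_lit 1017586397) (nat_lit 139) (nat_lit 5) (nat_lit 146) (nat_lit 5) (nat_lit 147) (nat_lit 5) (nat_lit 296) (nat_lit 249) (nat_lit 235)) (XT.lf (nat_lit 0) (nat_lit 1479744915) (nat_lit 456) (nat_lit 443064226) (nat_lit 532) (nat_lit 6228700533) (nat_lit 132) (nat_lit 5) (nat_lit 138) (nat_lit 5) (nat_lit 139) (nat_lit 5) (nat_lit 297) (nat_lit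 249) (nat_lit 234)))) (XT.nd (nat_lit 78) (nat_lit 912) (nat_lit 0) (XT.lf (nat_lit 0) (nat_lit 4913770059) (nat_lit 532) (nat_lit 1378768130) (nat_lit 76) (nat_lit 1964555575) (nat_lit 132) (nat_lit 5) (nat_lit 139) (nat_lit 5) (nat_lit 133) (nat_lit 5) (nat_lit 298) (nat_lit 249) (nat_lit 233)) (XT.nd (nat_lit 78) (nat_lit 456) (nat_lit 0) (XT.lf (nat_lit 0) (nat_lit 4059042742) (nat_lit 456) (nat_lit 3906116930) (nat_lit 532) (nat_lit 401660929) (nat_lit 126) (nat_lit 5) (nat_lit 132) (nat_lit 5) (nat_lit 133) (nat_lit 5) (nat_lit 299) (nat_lit 249) (nat_lit 232)) (XT.lf (nat_lit 0) (nat_lit 1115746676) (nat_lit 380) (nat_lit 1413773014) (nat_lit 456) (nat_lit 5951075683) (nat_lit 120) (nat_lit 5) (nat_lit 125) (nat_lit 5) (nat_lit 126) (nat_lit 5) (nat_lit 300) (nat_lit 249) (nat_lit 231))))) (XT.nd (nat_lit 234) (nat_lit 760) (nat_lit 0) (XT.nd (nat_lit 78) (nat_lit 836) (nat_lit 0) (XT.lf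 (nat_lit 0) (nat_lit 5524432065) (nat_lit 456) (nat_lit 1912314770) (nat_lit 76) (nat_lit 1161489223) (nat_lit 120) (nat_lit 5) (nat_lit 126) (nat_lit 5) (nat_lit 121) (nat_lit 5) (nat_lit 301) (nat_lit 249) (nat_lit 230)) (XT.nd (nat_lit 78) (nat_lit 456) (nat_lit 0) (XT.lf (nat_lit 0) (nat_lit 3673495700) (nat_lit 380) (nat_lit 4915929923) (nat_lit 456) (nat_lit 130658817) (nat_lit 115) (nat_lit 5) (nat_lit 120) (nat_lit 5) (nat_lit 121) (nat_lit 5) (nat_lit 302) (nat_lit 249) (nat_lit 229)) (XT.lf (nat_lit 0) (nat_lit 514466719) (nat_lit 380) (nat_lit 2285501451) (nat_lit 456) (nat_lit 6046190401) (nat_lit 109) (nat_lit 5) (nat_lit 114) (nat_lit 5) (nat_lit 115) (nat_lit 5) (nat_lit 303) (nat_lit 249) (nat_lit 228)))) (XT.nd (nat_lit 156) (nat_lit 380) (nat_lit 0) (XT.nd (nat_lit 78) (nat_lit 380) (nat_lit 0) (XT.lf (nat_lit 0) (nat_lit 5803734650) (nat_lit 456) (nat_lit 2724164439) (nat_lit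 76) (nat_lit 448519860) (nat_lit 109) (nat_lit 5) (nat_lit 115) (nat_lit 5) (nat_lit 110) (nat_lit 5) (nat_lit 304) (nat_lit 249) (nat_lit 227)) (XT.lf (nat_lit 0) (nat_lit 3000510963) (nat_lit 380) (nat_lit 5882853637) (nat_lit 456) (nat_lit 227725981) (nat_lit 104) (nat_lit 5) (nat_lit 109) (nat_lit 5) (nat_lit 110) (nat_lit 5) (nat_lit 305) (nat_lit 249) (nat_lit 226))) (XT.nd (nat_lit 78) (nat_lit 304) (nat_lit 0) (XT.lf (nat_lit 0) (nat_lit 2713268031) (nat_lit 456) (nat_lit 410968172) (nat_lit 76) (nat_lit 6125955670) (nat_lit 103) (nat_lit 5) (nat_lit 109) (nat_lit 5) (nat_lit 104) (nat_lit 5) (nat_lit 306) (nat_lit 249) (nat_lit 225)) (XT.lf (nat_lit 0) (nat_lit 5479328361) (nat_lit 304) (nat_lit 247813263) (nat_lit 380) (nat_lit 3666649646) (nat_lit 99) (nat_lit 5) (nat_lit 103) (nat_lit 5) (nat_lit 104) (nat_lit 5) (nat_lit 307) (nat_lit 249) (nat_lit 224))))))) (XT.nd (nat_lit 1014)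 (nat_lit 1672) (nat_lit 0) (XT.nd (nat_lit 468) (nat_lit 1216) (nat_lit 0) (XT.nd (nat_lit 234) (nat_lit 684) (nat_lit 0) (XT.nd (nat_lit 78) (nat_lit 380) (nat_lit 0) (XT.lf (nat_lit 0) (nat_lit 1939015202) (nat_lit 380) (nat_lit 6878729954) (nat_lit 456) (nat_lit 724431566) (nat_lit 94) (nat_lit 5) (nat_lit 99) (nat_lit 5) (nat_lit 100) (nat_lit 5) (nat_lit 308) (nat_lit 249) (nat_lit 223)) (XT.nd (nat_lit 78) (nat_lit 304) (nat_lit 0) (XT.lf (nat_lit 0) (nat_lit 2241145551) (nat_lit 456) (nat_lit 1756828698) (nat_lit 76) (nat_lit 5697035332) (nat_lit 93) (nat_lit 5) (nat_lit 99) (nat_lit 5) (nat_lit 94) (nat_lit 5) (nat_lit 309) (nat_lit 249) (nat_lit 222)) (XT.lf (nat_lit 0) (nat_lit 4256975929) (nat_lit 304) (nat_lit 1004606907) (nat_lit 380) (nat_lit 4591277575) (nat_lit 89) (nat_lit 5) (nat_lit 93) (nat_lit 5) (nat_lit 94) (nat_lit 5) (nat_lit 310) (nat_lit 249) (nat_lit 221)))) (XT.nd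 (nat_lit 78) (nat_lit 380) (nat_lit 0) (XT.lf (nat_lit 0) (nat_lit 374839723) (nat_lit 304) (nat_lit 7979563460) (nat_lit 380) (nat_lit 1661650447) (nat_lit 85) (nat_lit 5) (nat_lit 89) (nat_lit 5) (nat_lit 90) (nat_lit 5) (nat_lit 311) (nat_lit 249) (nat_lit 220)) (XT.nd (nat_lit 78) (nat_lit 304) (nat_lit 0) (XT.lf (nat_lit 0) (nat_lit 1336986516) (nat_lit 380) (nat_lit 3651613074) (nat_lit 76) (nat_lit 5194981207) (nat_lit 84) (nat_lit 5) (nat_lit 89) (nat_lit 5) (nat_lit 85) (nat_lit 5) (nat_lit 312) (nat_lit 249) (nat_lit 219)) (XT.lf (nat_lit 0) (nat_lit 2466814641) (nat_lit 304) (nat_lit 1891379354) (nat_lit 380) (nat_lit 5998520830) (nat_lit 80) (nat_lit 5) (nat_lit 84) (nat_lit 5) (nat_lit 85) (nat_lit 5) (nat_lit 313) (nat_lit 249) (nat_lit 218))))) (XT.nd (nat_lit 234) (nat_lit 836) (nat_lit 0) (XT.nd (nat_lit 78) (nat_lit 380) (nat_lit 0) (XT.lf (nat_lit 0) (nat_lit 7462713145) (nat_lit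 380) (nat_lit 1786390753) (nat_lit 76) (nat_lit 1286211987) (nat_lit 80) (nat_lit 5) (nat_lit 85) (nat_lit 5) (nat_lit 81) (nat_lit 5) (nat_lit 314) (nat_lit 249) (nat_lit 217)) (XT.nd (nat_lit 78) (nat_lit 76) (nat_lit 0) (XT.lf (nat_lit 0) (nat_lit 4488249999) (nat_lit 304) (nat_lit 6178601575) (nat_lit 380) (nat_lit 52280617) (nat_lit 76) (nat_lit 5) (nat_lit 80) (nat_lit 5) (nat_lit 81) (nat_lit 5) (nat_lit 315) (nat_lit 249) (nat_lit 216)) (XT.lf (nat_lit 0) (nat_lit 2962051462) (nat_lit 380) (nat_lit 30935713) (nat_lit 76) (nat_lit 7915749947) (nat_lit 75) (nat_lit 5) (nat_lit 80) (nat_lit 5) (nat_lit 76) (nat_lit 5) (nat_lit 316) (nat_lit 249) (nat_lit 215)))) (XT.nd (nat_lit 156) (nat_lit 304) (nat_lit 0) (XT.nd (nat_lit 78) (nat_lit 304) (nat_lit 0) (XT.lf (nat_lit 0) (nat_lit 6076904142) (nat_lit 304) (nat_lit 4706392117) (nat_lit 76) (nat_lit 320431505) (nat_lit 72) (nat_lit 5) (nat_lit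 76) (nat_lit 5) (nat_lit 73) (nat_lit 5) (nat_lit 317) (nat_lit 249) (nat_lit 214)) (XT.lf (nat_lit 0) (nat_lit 1637416172) (nat_lit 304) (nat_lit 7640514154) (nat_lit 380) (nat_lit 2026901918) (nat_lit 68) (nat_lit 5) (nat_lit 72) (nat_lit 5) (nat_lit 73) (nat_lit 5) (nat_lit 318) (nat_lit 249) (nat_lit 213))) (XT.nd (nat_lit 78) (nat_lit 228) (nat_lit 0) (XT.lf (nat_lit 0) (nat_lit 1037535263) (nat_lit 380) (nat_lit 3332961639) (nat_lit 76) (nat_lit 7141351888) (nat_lit 67) (nat_lit 5) (nat_lit 72) (nat_lit 5) (nat_lit 68) (nat_lit 5) (nat_lit 319) (nat_lit 249) (nat_lit 212)) (XT.lf (nat_lit 0) (nat_lit 3155614372) (nat_lit 228) (nat_lit 976687371) (nat_lit 304) (nat_lit 7592840049) (nat_lit 64) (nat_lit 5) (nat_lit 67) (nat_lit 5) (nat_lit 68) (nat_lit 5) (nat_lit 320) (nat_lit 249) (nat_lit 211)))))) (XT.nd (nat_lit 546) (nat_lit 684) (nat_lit 0) (XT.nd (nat_lit 234) (nat_lit 684) (nat_lit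 0) (XT.nd (nat_lit 78) (nat_lit 304) (nat_lit 0) (XT.lf (nat_lit 0) (nat_lit 7327417878) (nat_lit 304) (nat_lit 2139164807) (nat_lit 76) (nat_lit 2478066530) (nat_lit 64) (nat_lit 5) (nat_lit 68) (nat_lit 5) (nat_lit 65) (nat_lit 5) (nat_lit 321) (nat_lit 249) (nat_lit 210)) (XT.nd (nat_lit 78) (nat_lit 76) (nat_lit 0) (XT.lf (nat_lit 0) (nat_lit 4486288731) (nat_lit 228) (nat_lit 6135673979) (nat_lit 304) (nat_lit 1548711536) (nat_lit 61) (nat_lit 5) (nat_lit 64) (nat_lit 5) (nat_lit 65) (nat_lit 5) (nat_lit 322) (nat_lit 249) (nat_lit 209)) (XT.lf (nat_lit 0) (nat_lit 1553201035) (nat_lit 304) (nat_lit 1140147822) (nat_lit 76) (nat_lit 9710519997) (nat_lit 60) (nat_lit 5) (nat_lit 64) (nat_lit 5) (nat_lit 61) (nat_lit 5) (nat_lit 323) (nat_lit 249) (nat_lit 208)))) (XT.nd (nat_lit 156) (nat_lit 456) (nat_lit 0) (XT.nd (nat_lit 78) (nat_lit 0) (nat_lit 0) (XT.lf (nat_lit 0) (nat_lit 4732106872)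 (nat_lit 304) (nat_lit 7031052497) (nat_lit 76) (nat_lit 880024292) (nat_lit 57) (nat_lit 5) (nat_lit 61) (nat_lit 5) (nat_lit 58) (nat_lit 5) (nat_lit 324) (nat_lit 249) (nat_lit 207)) (XT.lf (nat_lit 0) (nat_lit 7997510336) (nat_lit 304) (nat_lit 399983231) (nat_lit 76) (nat_lit 4492485652) (nat_lit 57) (nat_lit 5) (nat_lit 61) (nat_lit 5) (nat_lit 58) (nat_lit 5) (nat_lit 325) (nat_lit 249) (nat_lit 206))) (XT.nd (nat_lit 78) (nat_lit 228) (nat_lit 0) (XT.lf (nat_lit 0) (nat_lit 6484495394) (nat_lit 228) (nat_lit 4892923527) (nat_lit 304) (nat_lit 1766297629) (nat_lit 54) (nat_lit 5) (nat_lit 57) (nat_lit 5) (nat_lit 58) (nat_lit 5) (nat_lit 326) (nat_lit 249) (nat_lit 205)) (XT.lf (nat_lit 0) (nat_lit 94297126) (nat_lit 152) (nat_lit 1290359379) (nat_lit 228) (nat_lit 12021241608) (nat_lit 51) (nat_lit 5) (nat_lit 53) (nat_lit 5) (nat_lit 54) (nat_lit 5) (nat_lit 327) (nat_lit 249) (nat_lit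 204))))) (XT.nd (nat_lit 234) (nat_lit 456) (nat_lit 0) (XT.nd (nat_lit 78) (nat_lit 228) (nat_lit 0) (XT.lf (nat_lit 0) (nat_lit 4640577871) (nat_lit 228) (nat_lit 6601126992) (nat_lit 76) (nat_lit 2432368727) (nat_lit 51) (nat_lit 5) (nat_lit 54) (nat_lit 5) (nat_lit 52) (nat_lit 5) (nat_lit 328) (nat_lit 249) (nat_lit 203)) (XT.nd (nat_lit 78) (nat_lit 0) (nat_lit 0) (XT.lf (nat_lit 0) (nat_lit 231818152) (nat_lit 228) (nat_lit 7733443855) (nat_lit 304) (nat_lit 5985930154) (nat_lit 48) (nat_lit 5) (nat_lit 51) (nat_lit 5) (nat_lit 52) (nat_lit 5) (nat_lit 329) (nat_lit 249) (nat_lit 202)) (XT.lf (nat_lit 0) (nat_lit 7335169507) (nat_lit 228) (nat_lit 4077863800) (nat_lit 304) (nat_lit 2822920078) (nat_lit 48) (nat_lit 5) (nat_lit 51) (nat_lit 5) (nat_lit 52) (nat_lit 5) (nat_lit 330) (nat_lit 249) (nat_lit 201)))) (XT.nd (nat_lit 156) (nat_lit 228) (nat_lit 0) (XT.nd (nat_lit 78) (nat_lit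 0) (nat_lit 0) (XT.lf (nat_lit 0) (nat_lit 50430315) (nat_lit 152) (nat_lit 334052010) (nat_lit 228) (nat_lit 14145937785) (nat_lit 45) (nat_lit 5) (nat_lit 47) (nat_lit 5) (nat_lit 48) (nat_lit 5) (nat_lit 331) (nat_lit 249) (nat_lit 200)) (XT.lf (nat_lit 0) (nat_lit 3693436926) (nat_lit 228) (nat_lit 7611581530) (nat_lit 76) (nat_lit 3526028843) (nat_lit 45) (nat_lit 5) (nat_lit 48) (nat_lit 5) (nat_lit 46) (nat_lit 5) (nat_lit 332) (nat_lit 249) (nat_lit 199))) (XT.nd (nat_lit 78) (nat_lit 228) (nat_lit 0) (XT.lf (nat_lit 0) (nat_lit 7064033009) (nat_lit 228) (nat_lit 607511456) (nat_lit 76) (nat_lit 7470303861) (nat_lit 45) (nat_lit 5) (nat_lit 48) (nat_lit 5) (nat_lit 46) (nat_lit 5) (nat_lit 333) (nat_lit 249) (nat_lit 198)) (XT.lf (nat_lit 0) (nat_lit 6671741303) (nat_lit 228) (nat_lit 3888396200) (nat_lit 304) (nat_lit 4901129611) (nat_lit 42) (nat_lit 5) (nat_lit 45) (nat_lit 5) (nat_lit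 46) (nat_lit 5) (nat_lit 334) (nat_lit 249) (nat_lit 197))))))))
noncomputable def xc77 : XT := (XT.nd (nat_lit 2028) (nat_lit 684) (nat_lit 0) (XT.nd (nat_lit 1014) (nat_lit 760) (nat_lit 0) (XT.nd (nat_lit 468) (nat_lit 456) (nat_lit 0) (XT.nd (nat_lit 234) (nat_lit 304) (nat_lit 0) (XT.nd (nat_lit 78) (nat_lit 228) (nat_lit 0) (XT.lf (nat_lit 0) (nat_lit 14117334435) (nat_lit 228) (nat_lit 10720660) (nat_lit 304) (nat_lit 1663230173) (nat_lit 42) (nat_lit 5) (nat_lit 45) (nat_lit 5) (nat_lit 46) (nat_lit 5) (nat_lit 335) (nat_lit 249) (nat_lit 196)) (XT.nd (nat_lit 78) (nat_lit 0) (nat_lit 0) (XT.lf (nat_lit 0) (nat_lit 1694133411) (nat_lit 228) (nat_lit 10482423809) (nat_lit 76) (nat_lit 3952539416) (nat_lit 39) (nat_lit 5) (nat_lit 42) (nat_lit 5) (nat_lit 40) (nat_lit 5) (nat_lit 336) (nat_lit 249) (nat_lit 195)) (XT.lf (nat_lit 0) (nat_lit 5097780654) (nat_lit 228) (nat_lit 3335748540)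 (nat_lit 76) (nat_lit 8043671969) (nat_lit 39) (nat_lit 5) (nat_lit 42) (nat_lit 5) (nat_lit 40) (nat_lit 5) (nat_lit 337) (nat_lit 249) (nat_lit 194)))) (XT.nd (nat_lit 78) (nat_lit 152) (nat_lit 0) (XT.lf (nat_lit 0) (nat_lit 4042361691) (nat_lit 152) (nat_lit 4562960365) (nat_lit 228) (nat_lit 8230395175) (nat_lit 37) (nat_lit 5) (nat_lit 39) (nat_lit 5) (nat_lit 40) (nat_lit 5) (nat_lit 338) (nat_lit 249) (nat_lit 193)) (XT.nd (nat_lit 78) (nat_lit 152) (nat_lit 0) (XT.lf (nat_lit 0) (nat_lit 11648954811) (nat_lit 152) (nat_lit 566237616) (nat_lit 228) (nat_lit 4989904584) (nat_lit 37) (nat_lit 5) (nat_lit 39) (nat_lit 5) (nat_lit 40) (nat_lit 5) (nat_lit 339) (nat_lit 249) (nat_lit 192)) (XT.lf (nat_lit 0) (nat_lit 1839644789) (nat_lit 152) (nat_lit 14109779970) (nat_lit 228) (nat_lit 1635672137) (nat_lit 35) (nat_lit 5) (nat_lit 37) (nat_lit 5) (nat_lit 38) (nat_lit 4) (nat_lit 340) (nat_lit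 249) (nat_lit 191))))) (XT.nd (nat_lit 234) (nat_lit 228) (nat_lit 0) (XT.nd (nat_lit 78) (nat_lit 152) (nat_lit 0) (XT.lf (nat_lit 0) (nat_lit 1810308004) (nat_lit 228) (nat_lit 8487711730) (nat_lit 76) (nat_lit 7677173342) (nat_lit 34) (nat_lit 5) (nat_lit 37) (nat_lit 5) (nat_lit 35) (nat_lit 5) (nat_lit 341) (nat_lit 249) (nat_lit 190)) (XT.nd (nat_lit 78) (nat_lit 152) (nat_lit 0) (XT.lf (nat_lit 0) (nat_lit 5292182119) (nat_lit 228) (nat_lit 1087123267) (nat_lit 76) (nat_lit 11998258147) (nat_lit 34) (nat_lit 5) (nat_lit 37) (nat_lit 5) (nat_lit 35) (nat_lit 5) (nat_lit 342) (nat_lit 249) (nat_lit 189)) (XT.lf (nat_lit 0) (nat_lit 6607437806) (nat_lit 152) (nat_lit 2300987403) (nat_lit 228) (nat_lit 9882700894) (nat_lit 32) (nat_lit 5) (nat_lit 34) (nat_lit 5) (nat_lit 35) (nat_lit 5) (nat_lit 343) (nat_lit 249) (nat_lit 188)))) (XT.nd (nat_lit 156) (nat_lit 76) (nat_lit 0) (XT.nd (nat_lit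 78) (nat_lit 152) (nat_lit 0) (XT.lf (nat_lit 0) (nat_lit 12629113797) (nat_lit 228) (nat_lit 4737225715) (nat_lit 76) (nat_lit 1850895138) (nat_lit 32) (nat_lit 5) (nat_lit 35) (nat_lit 5) (nat_lit 33) (nat_lit 4) (nat_lit 344) (nat_lit 249) (nat_lit 187)) (XT.lf (nat_lit 0) (nat_lit 2911110680) (nat_lit 152) (nat_lit 13568661105) (nat_lit 228) (nat_lit 3175821532) (nat_lit 30) (nat_lit 5) (nat_lit 32) (nat_lit 5) (nat_lit 33) (nat_lit 4) (nat_lit 345) (nat_lit 249) (nat_lit 186))) (XT.nd (nat_lit 78) (nat_lit 0) (nat_lit 0) (XT.lf (nat_lit 0) (nat_lit 348210429) (nat_lit 228) (nat_lit 9279052394) (nat_lit 76) (nat_lit 10479279263) (nat_lit 29) (nat_lit 5) (nat_lit 32) (nat_lit 5) (nat_lit 30) (nat_lit 5) (nat_lit 346) (nat_lit 249) (nat_lit 185)) (XT.lf (nat_lit 0) (nat_lit 3882739724) (nat_lit 228) (nat_lit 1675141436) (nat_lit 76) (nat_lit 15013152485) (nat_lit 29) (nat_lit 5) (nat_lit 32)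 (nat_lit 5) (nat_lit 30) (nat_lit 5) (nat_lit 347) (nat_lit 249) (nat_lit 184)))))) (XT.nd (nat_lit 468) (nat_lit 304) (nat_lit 0) (XT.nd (nat_lit 234) (nat_lit 228) (nat_lit 0) (XT.nd (nat_lit 78) (nat_lit 76) (nat_lit 0) (XT.lf (nat_lit 0) (nat_lit 6225912345) (nat_lit 152) (nat_lit 1326761426) (nat_lit 228) (nat_lit 13495920507) (nat_lit 27) (nat_lit 5) (nat_lit 29) (nat_lit 5) (nat_lit 30) (nat_lit 5) (nat_lit 348) (nat_lit 249) (nat_lit 183)) (XT.nd (nat_lit 78) (nat_lit 76) (nat_lit 0) (XT.lf (nat_lit 0) (nat_lit 11348627405) (nat_lit 228) (nat_lit 7223601516) (nat_lit 76) (nat_lit 2967790109) (nat_lit 27) (nat_lit 5) (nat_lit 30) (nat_lit 5) (nat_lit 28) (nat_lit 4) (nat_lit 349) (nat_lit 249) (nat_lit 182)) (XT.lf (nat_lit 0) (nat_lit 549922103) (nat_lit 76) (nat_lit 14697542320) (nat_lit 152) (nat_lit 6799066468) (nat_lit 26) (nat_lit 5) (nat_lit 27) (nat_lit 5) (nat_lit 28) (nat_lit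 4) (nat_lit 350) (nat_lit 249) (nat_lit 181)))) (XT.nd (nat_lit 78) (nat_lit 228) (nat_lit 0) (XT.lf (nat_lit 0) (nat_lit 8654105474) (nat_lit 76) (nat_lit 10653057835) (nat_lit 152) (nat_lit 3259771984) (nat_lit 26) (nat_lit 5) (nat_lit 27) (nat_lit 5) (nat_lit 28) (nat_lit 4) (nat_lit 351) (nat_lit 249) (nat_lit 180)) (XT.nd (nat_lit 78) (nat_lit 152) (nat_lit 0) (XT.lf (nat_lit 0) (nat_lit 349680867) (nat_lit 152) (nat_lit 6154973703) (nat_lit 76) (nat_lit 16599054131) (nat_lit 25) (nat_lit 5) (nat_lit 27) (nat_lit 5) (nat_lit 26) (nat_lit 5) (nat_lit 352) (nat_lit 249) (nat_lit 179)) (XT.lf (nat_lit 0) (nat_lit 1789992101) (nat_lit 152) (nat_lit 2201449391) (nat_lit 228) (nat_lit 19664502190) (nat_lit 23) (nat_lit 5) (nat_lit 25) (nat_lit 5) (nat_lit 26) (nat_lit 5) (nat_lit 353) (nat_lit 249) (nat_lit 178))))) (XT.nd (nat_lit 234) (nat_lit 228) (nat_lit 0) (XT.nd (nat_lit 78) (nat_lit 76)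 (nat_lit 0) (XT.lf (nat_lit 0) (nat_lit 7799152923) (nat_lit 228) (nat_lit 14193904987) (nat_lit 76) (nat_lit 2229999381) (nat_lit 23) (nat_lit 5) (nat_lit 26) (nat_lit 5) (nat_lit 24) (nat_lit 4) (nat_lit 354) (nat_lit 249) (nat_lit 177)) (XT.nd (nat_lit 78) (nat_lit 76) (nat_lit 0) (XT.lf (nat_lit 0) (nat_lit 11716178757) (nat_lit 228) (nat_lit 6360524577) (nat_lit 76) (nat_lit 6730640634) (nat_lit 23) (nat_lit 5) (nat_lit 26) (nat_lit 5) (nat_lit 24) (nat_lit 4) (nat_lit 355) (nat_lit 249) (nat_lit 176)) (XT.lf (nat_lit 0) (nat_lit 1695276989) (nat_lit 76) (nat_lit 14045799012) (nat_lit 152) (nat_lit 9668384224) (nat_lit 22) (nat_lit 5) (nat_lit 23) (nat_lit 5) (nat_lit 24) (nat_lit 4) (nat_lit 356) (nat_lit 249) (nat_lit 175)))) (XT.nd (nat_lit 156) (nat_lit 228) (nat_lit 0) (XT.nd (nat_lit 78) (nat_lit 0) (nat_lit 0) (XT.lf (nat_lit 0) (nat_lit 10077923563) (nat_lit 76) (nat_lit 9847410800)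 (nat_lit 152) (nat_lit 6103158635) (nat_lit 22) (nat_lit 5) (nat_lit 23) (nat_lit 5) (nat_lit 24) (nat_lit 4) (nat_lit 357) (nat_lit 249) (nat_lit 174)) (XT.lf (nat_lit 0) (nat_lit 18668152876) (nat_lit 76) (nat_lit 5542099031) (nat_lit 152) (nat_lit 2456602025) (nat_lit 22) (nat_lit 5) (nat_lit 23) (nat_lit 5) (nat_lit 24) (nat_lit 4) (nat_lit 358) (nat_lit 249) (nat_lit 173))) (XT.nd (nat_lit 78) (nat_lit 0) (nat_lit 0) (XT.lf (nat_lit 0) (nat_lit 138828167) (nat_lit 152) (nat_lit 1112108713) (nat_lit 228) (nat_lit 26073756376) (nat_lit 19) (nat_lit 5) (nat_lit 21) (nat_lit 5) (nat_lit 22) (nat_lit 5) (nat_lit 359) (nat_lit 249) (nat_lit 172)) (XT.lf (nat_lit 0) (nat_lit 5110796091) (nat_lit 228) (nat_lit 19416934966) (nat_lit 76) (nat_lit 3471103111) (nat_lit 19) (nat_lit 5) (nat_lit 22) (nat_lit 5) (nat_lit 20) (nat_lit 4) (nat_lit 360) (nat_lit 249) (nat_lit 171))))))) (XT.nd (nat_lit 1014)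 (nat_lit 304) (nat_lit 0) (XT.nd (nat_lit 468) (nat_lit 304) (nat_lit 0) (XT.nd (nat_lit 234) (nat_lit 0) (nat_lit 0) (XT.nd (nat_lit 78) (nat_lit 76) (nat_lit 0) (XT.lf (nat_lit 0) (nat_lit 9073896497) (nat_lit 228) (nat_lit 11467933951) (nat_lit 76) (nat_lit 8151755380) (nat_lit 19) (nat_lit 5) (nat_lit 22) (nat_lit 5) (nat_lit 20) (nat_lit 4) (nat_lit 361) (nat_lit 249) (nat_lit 170)) (XT.nd (nat_lit 78) (nat_lit 76) (nat_lit 0) (XT.lf (nat_lit 0) (nat_lit 13133010732) (nat_lit 228) (nat_lit 3321226043) (nat_lit 76) (nat_lit 12955639231) (nat_lit 19) (nat_lit 5) (nat_lit 22) (nat_lit 5) (nat_lit 20) (nat_lit 4) (nat_lit 362) (nat_lit 249) (nat_lit 169)) (XT.lf (nat_lit 0) (nat_lit 5130420214) (nat_lit 76) (nat_lit 12210582116) (nat_lit 152) (nat_lit 12805848755) (nat_lit 18) (nat_lit 5) (nat_lit 19) (nat_lit 5) (nat_lit 20) (nat_lit 4) (nat_lit 363) (nat_lit 249) (nat_lit 168)))) (XT.nd (nat_lit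 78) (nat_lit 0) (nat_lit 0) (XT.lf (nat_lit 0) (nat_lit 13864509874) (nat_lit 76) (nat_lit 7822319152) (nat_lit 152) (nat_lit 9218767573) (nat_lit 18) (nat_lit 5) (nat_lit 19) (nat_lit 5) (nat_lit 20) (nat_lit 4) (nat_lit 364) (nat_lit 249) (nat_lit 167)) (XT.nd (nat_lit 78) (nat_lit 0) (nat_lit 0) (XT.lf (nat_lit 0) (nat_lit 22822575753) (nat_lit 76) (nat_lit 3319151349) (nat_lit 152) (nat_lit 5546025257) (nat_lit 18) (nat_lit 5) (nat_lit 19) (nat_lit 5) (nat_lit 20) (nat_lit 4) (nat_lit 365) (nat_lit 249) (nat_lit 166)) (XT.lf (nat_lit 0) (nat_lit 30722113039) (nat_lit 152) (nat_lit 494080367) (nat_lit 0) (nat_lit 1277432683) (nat_lit 18) (nat_lit 5) (nat_lit 20) (nat_lit 4) (nat_lit 18) (nat_lit 4) (nat_lit 366) (nat_lit 249) (nat_lit 165))))) (XT.nd (nat_lit 234) (nat_lit 76) (nat_lit 0) (XT.nd (nat_lit 78) (nat_lit 0) (nat_lit 0) (XT.lf (nat_lit 0) (nat_lit 2167478495) (nat_lit 228) (nat_lit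 25122831257) (nat_lit 76) (nat_lit 6029987857) (nat_lit 15) (nat_lit 5) (nat_lit 18) (nat_lit 5) (nat_lit 16) (nat_lit 4) (nat_lit 367) (nat_lit 249) (nat_lit 164)) (XT.nd (nat_lit 78) (nat_lit 0) (nat_lit 0) (XT.lf (nat_lit 0) (nat_lit 6173878331) (nat_lit 228) (nat_lit 17065696139) (nat_lit 76) (nat_lit 10932131085) (nat_lit 15) (nat_lit 5) (nat_lit 18) (nat_lit 5) (nat_lit 16) (nat_lit 4) (nat_lit 368) (nat_lit 249) (nat_lit 163)) (XT.lf (nat_lit 0) (nat_lit 10280863910) (nat_lit 228) (nat_lit 8802162550) (nat_lit 76) (nat_lit 15966225042) (nat_lit 15) (nat_lit 5) (nat_lit 18) (nat_lit 5) (nat_lit 16) (nat_lit 4) (nat_lit 369) (nat_lit 249) (nat_lit 162)))) (XT.nd (nat_lit 156) (nat_lit 0) (nat_lit 0) (XT.nd (nat_lit 78) (nat_lit 76) (nat_lit 0) (XT.lf (nat_lit 0) (nat_lit 14492023860) (nat_lit 228) (nat_lit 325009926) (nat_lit 76) (nat_lit 21136668449) (nat_lit 15) (nat_lit 5) (nat_lit 18)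 (nat_lit 5) (nat_lit 16) (nat_lit 4) (nat_lit 370) (nat_lit 249) (nat_lit 161)) (XT.lf (nat_lit 0) (nat_lit 8539811434) (nat_lit 76) (nat_lit 10353316293) (nat_lit 152) (nat_lit 17990257628) (nat_lit 14) (nat_lit 5) (nat_lit 15) (nat_lit 5) (nat_lit 16) (nat_lit 4) (nat_lit 371) (nat_lit 249) (nat_lit 160))) (XT.nd (nat_lit 78) (nat_lit 0) (nat_lit 0) (XT.lf (nat_lit 0) (nat_lit 17644277853) (nat_lit 76) (nat_lit 5767009471) (nat_lit 152) (nat_lit 14430127896) (nat_lit 14) (nat_lit 5) (nat_lit 15) (nat_lit 5) (nat_lit 16) (nat_lit 4) (nat_lit 372) (nat_lit 249) (nat_lit 159)) (XT.lf (nat_lit 0) (nat_lit 26989876355) (nat_lit 76) (nat_lit 1057387830) (nat_lit 152) (nat_lit 10781460350) (nat_lit 14) (nat_lit 5) (nat_lit 15) (nat_lit 5) (nat_lit 16) (nat_lit 4) (nat_lit 373) (nat_lit 249) (nat_lit 158)))))) (XT.nd (nat_lit 546) (nat_lit 76) (nat_lit 0) (XT.nd (nat_lit 234) (nat_lit 76) (nat_lit 0)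 (XT.nd (nat_lit 78) (nat_lit 152) (nat_lit 0) (XT.lf (nat_lit 0) (nat_lit 32841441606) (nat_lit 152) (nat_lit 3297735442) (nat_lit 0) (nat_lit 3705908977) (nat_lit 14) (nat_lit 5) (nat_lit 16) (nat_lit 4) (nat_lit 14) (nat_lit 4) (nat_lit 374) (nat_lit 249) (nat_lit 157)) (XT.nd (nat_lit 78) (nat_lit 76) (nat_lit 0) (XT.lf (nat_lit 0) (nat_lit 5567235130) (nat_lit 76) (nat_lit 32259354846) (nat_lit 76) (nat_lit 3063940356) (nat_lit 13) (nat_lit 4) (nat_lit 14) (nat_lit 5) (nat_lit 14) (nat_lit 4) (nat_lit 375) (nat_lit 249) (nat_lit 156)) (XT.lf (nat_lit 0) (nat_lit 991379290) (nat_lit 152) (nat_lit 27241052260) (nat_lit 76) (nat_lit 13734121160) (nat_lit 12) (nat_lit 5) (nat_lit 14) (nat_lit 5) (nat_lit 13) (nat_lit 4) (nat_lit 376) (nat_lit 249) (nat_lit 155)))) (XT.nd (nat_lit 156) (nat_lit 76) (nat_lit 0) (XT.nd (nat_lit 78) (nat_lit 0) (nat_lit 0) (XT.lf (nat_lit 0) (nat_lit 5090455706) (nat_lit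 152) (nat_lit 18976371532) (nat_lit 76) (nat_lit 19007613862) (nat_lit 12) (nat_lit 5) (nat_lit 14) (nat_lit 5) (nat_lit 13) (nat_lit 4) (nat_lit 377) (nat_lit 249) (nat_lit 154)) (XT.lf (nat_lit 0) (nat_lit 9296659122) (nat_lit 152) (nat_lit 10492578984) (nat_lit 76) (nat_lit 24426809031) (nat_lit 12) (nat_lit 5) (nat_lit 14) (nat_lit 5) (nat_lit 13) (nat_lit 4) (nat_lit 378) (nat_lit 249) (nat_lit 153))) (XT.nd (nat_lit 78) (nat_lit 76) (nat_lit 0) (XT.lf (nat_lit 0) (nat_lit 13613664861) (nat_lit 152) (nat_lit 1782261592) (nat_lit 76) (nat_lit 29996441885) (nat_lit 12) (nat_lit 5) (nat_lit 14) (nat_lit 5) (nat_lit 13) (nat_lit 4) (nat_lit 379) (nat_lit 249) (nat_lit 152)) (XT.lf (nat_lit 0) (nat_lit 7304733255) (nat_lit 76) (nat_lit 10810729373) (nat_lit 152) (nat_lit 28486863405) (nat_lit 11) (nat_lit 5) (nat_lit 12) (nat_lit 5) (nat_lit 13) (nat_lit 4) (nat_lit 380) (nat_lit 249) (nat_lit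 151))))) (XT.nd (nat_lit 234) (nat_lit 76) (nat_lit 0) (XT.nd (nat_lit 78) (nat_lit 0) (nat_lit 0) (XT.lf (nat_lit 0) (nat_lit 16673965251) (nat_lit 76) (nat_lit 6081587087) (nat_lit 152) (nat_lit 25092938135) (nat_lit 11) (nat_lit 5) (nat_lit 12) (nat_lit 5) (nat_lit 13) (nat_lit 4) (nat_lit 381) (nat_lit 249) (nat_lit 150)) (XT.nd (nat_lit 78) (nat_lit 0) (nat_lit 0) (XT.lf (nat_lit 0) (nat_lit 26298150602) (nat_lit 76) (nat_lit 1222364684) (nat_lit 152) (nat_lit 21611959452) (nat_lit 11) (nat_lit 5) (nat_lit 12) (nat_lit 5) (nat_lit 13) (nat_lit 4) (nat_lit 382) (nat_lit 249) (nat_lit 149)) (XT.lf (nat_lit 0) (nat_lit 32450765958) (nat_lit 152) (nat_lit 14305952889) (nat_lit 0) (nat_lit 3697594380) (nat_lit 11) (nat_lit 5) (nat_lit 13) (nat_lit 4) (nat_lit 11) (nat_lit 4) (nat_lit 383) (nat_lit 249) (nat_lit 148)))) (XT.nd (nat_lit 156) (nat_lit 0) (nat_lit 0) (XT.nd (nat_lit 78) (nat_lit 76)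 (nat_lit 0) (XT.lf (nat_lit 0) (nat_lit 37527413020) (nat_lit 152) (nat_lit 5558760188) (nat_lit 0) (nat_lit 8729683714) (nat_lit 11) (nat_lit 5) (nat_lit 13) (nat_lit 4) (nat_lit 11) (nat_lit 4) (nat_lit 384) (nat_lit 249) (nat_lit 147)) (XT.lf (nat_lit 0) (nat_lit 3494844259) (nat_lit 76) (nat_lit 39281892584) (nat_lit 76) (nat_lit 10440903347) (nat_lit 10) (nat_lit 4) (nat_lit 11) (nat_lit 5) (nat_lit 11) (nat_lit 4) (nat_lit 385) (nat_lit 249) (nat_lit 146))) (XT.nd (nat_lit 78) (nat_lit 0) (nat_lit 0) (XT.lf (nat_lit 0) (nat_lit 12910042206) (nat_lit 76) (nat_lit 35316568135) (nat_lit 76) (nat_lit 6433578965) (nat_lit 10) (nat_lit 4) (nat_lit 11) (nat_lit 5) (nat_lit 11) (nat_lit 4) (nat_lit 386) (nat_lit 249) (nat_lit 145)) (XT.lf (nat_lit 0) (nat_lit 22584430298) (nat_lit 76) (nat_lit 31242867592) (nat_lit 76) (nat_lit 2319101789) (nat_lit 10) (nat_lit 4) (nat_lit 11) (nat_lit 5) (nat_lit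 11) (nat_lit 4) (nat_lit 387) (nat_lit 249) (nat_lit 144))))))))
noncomputable def xc78 : XT := (XT.nd (nat_lit 32604) (nat_lit 0) (nat_lit 6384) (XT.nd (nat_lit 1014) (nat_lit 152) (nat_lit 0) (XT.nd (nat_lit 468) (nat_lit 76) (nat_lit 0) (XT.nd (nat_lit 234) (nat_lit 76) (nat_lit 0) (XT.nd (nat_lit 78) (nat_lit 0) (nat_lit 0) (XT.lf (nat_lit 0) (nat_lit 1868928023) (nat_lit 152) (nat_lit 25169430880) (nat_lit 76) (nat_lit 30638661351) (nat_lit 9) (nat_lit 5) (nat_lit 11) (nat_lit 5) (nat_lit 10) (nat_lit 4) (nat_lit 388) (nat_lit 249) (nat_lit 143)) (XT.nd (nat_lit 78) (nat_lit 0) (nat_lit 0) (XT.lf (nat_lit 0) (nat_lit 6123910584) (nat_lit 152) (nat_lit 16570252169) (nat_lit 76) (nat_lit 36559074099) (nat_lit 9) (nat_lit 5) (nat_lit 11) (nat_lit 5) (nat_lit 10) (nat_lit 4) (nat_lit 389) (nat_lit 249) (nat_lit 142)) (XT.lf (nat_lit 0) (nat_lit 10494817869) (nat_lit 152) (nat_lit 7734626776)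 (nat_lit 76) (nat_lit 42647650882) (nat_lit 9) (nat_lit 5) (nat_lit 11) (nat_lit 5) (nat_lit 10) (nat_lit 4) (nat_lit 390) (nat_lit 249) (nat_lit 141)))) (XT.nd (nat_lit 78) (nat_lit 0) (nat_lit 0) (XT.lf (nat_lit 0) (nat_lit 1371937182) (nat_lit 76) (nat_lit 13626719834) (nat_lit 152) (nat_lit 47550962532) (nat_lit 8) (nat_lit 5) (nat_lit 9) (nat_lit 5) (nat_lit 10) (nat_lit 4) (nat_lit 391) (nat_lit 249) (nat_lit 140)) (XT.nd (nat_lit 78) (nat_lit 0) (nat_lit 0) (XT.lf (nat_lit 0) (nat_lit 10889553613) (nat_lit 76) (nat_lit 8814911637) (nat_lit 152) (nat_lit 44565852041) (nat_lit 8) (nat_lit 5) (nat_lit 9) (nat_lit 5) (nat_lit 10) (nat_lit 4) (nat_lit 392) (nat_lit 249) (nat_lit 139)) (XT.lf (nat_lit 0) (nat_lit 20672604640) (nat_lit 76) (nat_lit 3867920125) (nat_lit 152) (nat_lit 41502442400) (nat_lit 8) (nat_lit 5) (nat_lit 9) (nat_lit 5) (nat_lit 10) (nat_lit 4) (nat_lit 393) (nat_lit 249)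 (nat_lit 138))))) (XT.nd (nat_lit 234) (nat_lit 76) (nat_lit 0) (XT.nd (nat_lit 78) (nat_lit 0) (nat_lit 0) (XT.lf (nat_lit 0) (nat_lit 29522774956) (nat_lit 152) (nat_lit 37151193241) (nat_lit 0) (nat_lit 1194798482) (nat_lit 8) (nat_lit 5) (nat_lit 10) (nat_lit 4) (nat_lit 8) (nat_lit 4) (nat_lit 394) (nat_lit 249) (nat_lit 137)) (XT.nd (nat_lit 78) (nat_lit 0) (nat_lit 0) (XT.lf (nat_lit 0) (nat_lit 34682409854) (nat_lit 152) (nat_lit 28742914633) (nat_lit 0) (nat_lit 6323181485) (nat_lit 8) (nat_lit 5) (nat_lit 10) (nat_lit 4) (nat_lit 8) (nat_lit 4) (nat_lit 395) (nat_lit 249) (nat_lit 136)) (XT.lf (nat_lit 0) (nat_lit 39986757062) (nat_lit 152) (nat_lit 20100998848) (nat_lit 0) (nat_lit 11597187048) (nat_lit 8) (nat_lit 5) (nat_lit 10) (nat_lit 4) (nat_lit 8) (nat_lit 4) (nat_lit 396) (nat_lit 249) (nat_lit 135)))) (XT.nd (nat_lit 156) (nat_lit 76) (nat_lit 0) (XT.nd (nat_lit 78) (nat_lit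 0) (nat_lit 0) (XT.lf (nat_lit 0) (nat_lit 45440451448) (nat_lit 152) (nat_lit 11217894697) (nat_lit 0) (nat_lit 17021423527) (nat_lit 8) (nat_lit 5) (nat_lit 10) (nat_lit 4) (nat_lit 8) (nat_lit 4) (nat_lit 397) (nat_lit 249) (nat_lit 134)) (XT.lf (nat_lit 0) (nat_lit 51048258376) (nat_lit 152) (nat_lit 2085840246) (nat_lit 0) (nat_lit 22600630544) (nat_lit 8) (nat_lit 5) (nat_lit 10) (nat_lit 4) (nat_lit 8) (nat_lit 4) (nat_lit 398) (nat_lit 249) (nat_lit 133))) (XT.nd (nat_lit 78) (nat_lit 0) (nat_lit 0) (XT.lf (nat_lit 0) (nat_lit 7448490856) (nat_lit 76) (nat_lit 49438186465) (nat_lit 76) (nat_lit 20962791729) (nat_lit 7) (nat_lit 4) (nat_lit 8) (nat_lit 5) (nat_lit 8) (nat_lit 4) (nat_lit 399) (nat_lit 249) (nat_lit 132)) (XT.lf (nat_lit 0) (nat_lit 17294744684) (nat_lit 76) (nat_lit 45617451883) (nat_lit 76) (nat_lit 17115098988) (nat_lit 7) (nat_lit 4) (nat_lit 8) (nat_lit 5) (nat_lit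 8) (nat_lit 4) (nat_lit 400) (nat_lit 249) (nat_lit 131)))))) (XT.nd (nat_lit 468) (nat_lit 76) (nat_lit 0) (XT.nd (nat_lit 234) (nat_lit 76) (nat_lit 0) (XT.nd (nat_lit 78) (nat_lit 0) (nat_lit 0) (XT.lf (nat_lit 0) (nat_lit 27420012448) (nat_lit 76) (nat_lit 41689619266) (nat_lit 76) (nat_lit 13161093402) (nat_lit 7) (nat_lit 4) (nat_lit 8) (nat_lit 5) (nat_lit 8) (nat_lit 4) (nat_lit 401) (nat_lit 249) (nat_lit 130)) (XT.nd (nat_lit 78) (nat_lit 0) (nat_lit 0) (XT.lf (nat_lit 0) (nat_lit 37833141471) (nat_lit 76) (nat_lit 37651256528) (nat_lit 76) (nat_lit 9097320015) (nat_lit 7) (nat_lit 4) (nat_lit 8) (nat_lit 5) (nat_lit 8) (nat_lit 4) (nat_lit 402) (nat_lit 249) (nat_lit 129)) (XT.lf (nat_lit 0) (nat_lit 48543230602) (nat_lit 76) (nat_lit 33498835003) (nat_lit 76) (nat_lit 4920227956) (nat_lit 7) (nat_lit 4) (nat_lit 8) (nat_lit 5) (nat_lit 8) (nat_lit 4) (nat_lit 403) (nat_lit 249) (nat_lit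 128)))) (XT.nd (nat_lit 78) (nat_lit 76) (nat_lit 0) (XT.lf (nat_lit 0) (nat_lit 59559638173) (nat_lit 76) (nat_lit 29228726361) (nat_lit 76) (nat_lit 626167339) (nat_lit 7) (nat_lit 4) (nat_lit 8) (nat_lit 5) (nat_lit 8) (nat_lit 4) (nat_lit 404) (nat_lit 249) (nat_lit 127)) (XT.nd (nat_lit 78) (nat_lit 0) (nat_lit 0) (XT.lf (nat_lit 0) (nat_lit 3714684423) (nat_lit 152) (nat_lit 21085003987) (nat_lit 76) (nat_lit 67139794717) (nat_lit 6) (nat_lit 5) (nat_lit 8) (nat_lit 5) (nat_lit 7) (nat_lit 4) (nat_lit 405) (nat_lit 249) (nat_lit 126)) (XT.lf (nat_lit 0) (nat_lit 8165464661) (nat_lit 152) (nat_lit 12072497137) (nat_lit 76) (nat_lit 74302268805) (nat_lit 6) (nat_lit 5) (nat_lit 8) (nat_lit 5) (nat_lit 7) (nat_lit 4) (nat_lit 406) (nat_lit 249) (nat_lit 125))))) (XT.nd (nat_lit 30810) (nat_lit 0) (nat_lit 15960) (XT.nd (nat_lit 78) (nat_lit 76) (nat_lit 0) (XT.lf (nat_lit 0) (nat_lit 12742281186)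 (nat_lit 152) (nat_lit 2803479042) (nat_lit 76) (nat_lit 81673467142) (nat_lit 6) (nat_lit 5) (nat_lit 8) (nat_lit 5) (nat_lit 7) (nat_lit 4) (nat_lit 407) (nat_lit 249) (nat_lit 124)) (XT.nd (nat_lit 30654) (nat_lit 0) (nat_lit 18012) (XT.lf (nat_lit 0) (nat_lit 6864092611) (nat_lit 76) (nat_lit 10651022404) (nat_lit 152) (nat_lit 82461719830) (nat_lit 5) (nat_lit 5) (nat_lit 6) (nat_lit 5) (nat_lit 7) (nat_lit 4) (nat_lit 408) (nat_lit 249) (nat_lit 123)) (XT.lf (nat_lit 0) (nat_lit 177803277) (nat_lit 836) (nat_lit 1635758317) (nat_lit 836) (nat_lit 1635758317) (nat_lit 242) (nat_lit 4) (nat_lit 253) (nat_lit 5) (nat_lit 253) (nat_lit 4) (nat_lit 280) (nat_lit 250) (nat_lit 250)))) (XT.nd (nat_lit 156) (nat_lit 1064) (nat_lit 0) (XT.nd (nat_lit 78) (nat_lit 988) (nat_lit 0) (XT.lf (nat_lit 0) (nat_lit 4799210573) (nat_lit 836) (nat_lit 1997226231) (nat_lit 836) (nat_lit 150453911) (nat_lit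 242) (nat_lit 4) (nat_lit 253) (nat_lit 5) (nat_lit 253) (nat_lit 4) (nat_lit 281) (nat_lit 250) (nat_lit 249)) (XT.lf (nat_lit 0) (nat_lit 2307332737) (nat_lit 912) (nat_lit 622267209) (nat_lit 988) (nat_lit 4068535287) (nat_lit 229) (nat_lit 5) (nat_lit 241) (nat_lit 5) (nat_lit 242) (nat_lit 4) (nat_lit 282) (nat_lit 250) (nat_lit 248))) (XT.nd (nat_lit 78) (nat_lit 1064) (nat_lit 0) (XT.lf (nat_lit 0) (nat_lit 6033608190) (nat_lit 988) (nat_lit 209598872) (nat_lit 0) (nat_lit 809807034) (nat_lit 229) (nat_lit 5) (nat_lit 242) (nat_lit 4) (nat_lit 229) (nat_lit 4) (nat_lit 283) (nat_lit 250) (nat_lit 247)) (XT.lf (nat_lit 0) (nat_lit 2035450456) (nat_lit 1064) (nat_lit 2732670016) (nat_lit 76) (nat_lit 2342306509) (nat_lit 215) (nat_lit 5) (nat_lit 229) (nat_lit 5) (nat_lit 216) (nat_lit 4) (nat_lit 284) (nat_lit 250) (nat_lit 246))))))) (XT.nd (nat_lit 1014) (nat_lit 3268) (nat_lit 0) (XT.nd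 (nat_lit 468) (nat_lit 2736) (nat_lit 0) (XT.nd (nat_lit 234) (nat_lit 1292) (nat_lit 0) (XT.nd (nat_lit 78) (nat_lit 1216) (nat_lit 0) (XT.lf (nat_lit 0) (nat_lit 1875493182) (nat_lit 1064) (nat_lit 3214738172) (nat_lit 1140) (nat_lit 2081328876) (nat_lit 201) (nat_lit 5) (nat_lit 215) (nat_lit 5) (nat_lit 216) (nat_lit 4) (nat_lit 285) (nat_lit 250) (nat_lit 245)) (XT.nd (nat_lit 78) (nat_lit 1140) (nat_lit 0) (XT.lf (nat_lit 0) (nat_lit 919819551) (nat_lit 1140) (nat_lit 655299334) (nat_lit 76) (nat_lit 5661156614) (nat_lit 200) (nat_lit 5) (nat_lit 215) (nat_lit 5) (nat_lit 201) (nat_lit 5) (nat_lit 286) (nat_lit 250) (nat_lit 244)) (XT.lf (nat_lit 0) (nat_lit 3922267293) (nat_lit 1216) (nat_lit 3208587793) (nat_lit 76) (nat_lit 173015906) (nat_lit 185) (nat_lit 5) (nat_lit 201) (nat_lit 5) (nat_lit 186) (nat_lit 4) (nat_lit 287) (nat_lit 250) (nat_lit 243)))) (XT.nd (nat_lit 78) (nat_lit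 684) (nat_lit 0) (XT.lf (nat_lit 0) (nat_lit 1554307097) (nat_lit 608) (nat_lit 5411453839) (nat_lit 684) (nat_lit 409349782) (nat_lit 177) (nat_lit 5) (nat_lit 185) (nat_lit 5) (nat_lit 186) (nat_lit 4) (nat_lit 288) (nat_lit 250) (nat_lit 242)) (XT.nd (nat_lit 78) (nat_lit 608) (nat_lit 0) (XT.lf (nat_lit 0) (nat_lit 2547485089) (nat_lit 684) (nat_lit 1037319196) (nat_lit 76) (nat_lit 3864640795) (nat_lit 176) (nat_lit 5) (nat_lit 185) (nat_lit 5) (nat_lit 177) (nat_lit 5) (nat_lit 289) (nat_lit 250) (nat_lit 241)) (XT.lf (nat_lit 0) (nat_lit 3873977900) (nat_lit 608) (nat_lit 1664994127) (nat_lit 684) (nat_lit 1988423812) (nat_lit 168) (nat_lit 5) (nat_lit 176) (nat_lit 5) (nat_lit 177) (nat_lit 5) (nat_lit 290) (nat_lit 250) (nat_lit 240))))) (XT.nd (nat_lit 234) (nat_lit 1596) (nat_lit 0) (XT.nd (nat_lit 78) (nat_lit 532) (nat_lit 0) (XT.lf (nat_lit 0) (nat_lit 936440914) (nat_lit 608) (nat_lit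 6339202668) (nat_lit 76) (nat_lit 333564687) (nat_lit 160) (nat_lit 5) (nat_lit 168) (nat_lit 5) (nat_lit 161) (nat_lit 5) (nat_lit 291) (nat_lit 250) (nat_lit 239)) (XT.nd (nat_lit 78) (nat_lit 532) (nat_lit 0) (XT.lf (nat_lit 0) (nat_lit 3881919437) (nat_lit 608) (nat_lit 1402648578) (nat_lit 76) (nat_lit 2409253331) (nat_lit 160) (nat_lit 5) (nat_lit 168) (nat_lit 5) (nat_lit 161) (nat_lit 5) (nat_lit 292) (nat_lit 250) (nat_lit 238)) (XT.lf (nat_lit 0) (nat_lit 3666395368) (nat_lit 532) (nat_lit 3206057654) (nat_lit 608) (nat_lit 909937410) (nat_lit 153) (nat_lit 5) (nat_lit 160) (nat_lit 5) (nat_lit 161) (nat_lit 5) (nat_lit 293) (nat_lit 250) (nat_lit 237)))) (XT.nd (nat_lit 156) (nat_lit 1064) (nat_lit 0) (XT.nd (nat_lit 78) (nat_lit 0) (nat_lit 0) (XT.lf (nat_lit 0) (nat_lit 953594018) (nat_lit 456) (nat_lit 1030421834) (nat_lit 532) (nat_lit 5890747713) (nat_lit 146) (nat_lit 5) (nat_lit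 152) (nat_lit 5) (nat_lit 153) (nat_lit 5) (nat_lit 294) (nat_lit 250) (nat_lit 236)) (XT.lf (nat_lit 0) (nat_lit 4923471522) (nat_lit 532) (nat_lit 1819473811) (nat_lit 76) (nat_lit 1227491398) (nat_lit 146) (nat_lit 5) (nat_lit 153) (nat_lit 5) (nat_lit 147) (nat_lit 5) (nat_lit 295) (nat_lit 250) (nat_lit 235))) (XT.nd (nat_lit 78) (nat_lit 532) (nat_lit 0) (XT.lf (nat_lit 0) (nat_lit 3404711941) (nat_lit 532) (nat_lit 4514923220) (nat_lit 608) (nat_lit 150394347) (nat_lit 139) (nat_lit 5) (nat_lit 146) (nat_lit 5) (nat_lit 147) (nat_lit 5) (nat_lit 296) (nat_lit 250) (nat_lit 234)) (XT.lf (nat_lit 0) (nat_lit 546597215) (nat_lit 456) (nat_lit 2181113636) (nat_lit 532) (nat_lit 5445683706) (nat_lit 132) (nat_lit 5) (nat_lit 138) (nat_lit 5) (nat_lit 139) (nat_lit 5) (nat_lit 297) (nat_lit 250) (nat_lit 233)))))) (XT.nd (nat_lit 546) (nat_lit 1520) (nat_lit 0) (XT.nd (nat_lit 234) (nat_lit 1216)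 (nat_lit 0) (XT.nd (nat_lit 78) (nat_lit 532) (nat_lit 0) (XT.lf (nat_lit 0) (nat_lit 5666149350) (nat_lit 532) (nat_lit 2360835107) (nat_lit 76) (nat_lit 253617262) (nat_lit 132) (nat_lit 5) (nat_lit 139) (nat_lit 5) (nat_lit 133) (nat_lit 5) (nat_lit 298) (nat_lit 250) (nat_lit 232)) (XT.nd (nat_lit 78) (nat_lit 0) (nat_lit 0) (XT.lf (nat_lit 0) (nat_lit 275519982) (nat_lit 532) (nat_lit 5380302292) (nat_lit 76) (nat_lit 2735815763) (nat_lit 125) (nat_lit 5) (nat_lit 132) (nat_lit 5) (nat_lit 126) (nat_lit 5) (nat_lit 299) (nat_lit 250) (nat_lit 231)) (XT.lf (nat_lit 0) (nat_lit 3153591945) (nat_lit 532) (nat_lit 25193116) (nat_lit 76) (nat_lit 5327913418) (nat_lit 125) (nat_lit 5) (nat_lit 132) (nat_lit 5) (nat_lit 126) (nat_lit 5) (nat_lit 300) (nat_lit 250) (nat_lit 230)))) (XT.nd (nat_lit 156) (nat_lit 380) (nat_lit 0) (XT.nd (nat_lit 78) (nat_lit 456) (nat_lit 0) (XT.lf (nat_lit 0) (nat_lit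 5513846185) (nat_lit 380) (nat_lit 589077392) (nat_lit 456) (nat_lit 2522825122) (nat_lit 120) (nat_lit 5) (nat_lit 125) (nat_lit 5) (nat_lit 126) (nat_lit 5) (nat_lit 301) (nat_lit 250) (nat_lit 229)) (XT.lf (nat_lit 0) (nat_lit 360758191) (nat_lit 456) (nat_lit 6339807609) (nat_lit 76) (nat_lit 2048490564) (nat_lit 114) (nat_lit 5) (nat_lit 120) (nat_lit 5) (nat_lit 115) (nat_lit 5) (nat_lit 302) (nat_lit 250) (nat_lit 228))) (XT.nd (nat_lit 78) (nat_lit 380) (nat_lit 0) (XT.lf (nat_lit 0) (nat_lit 3251055018) (nat_lit 456) (nat_lit 832406592) (nat_lit 76) (nat_lit 4792803162) (nat_lit 114) (nat_lit 5) (nat_lit 120) (nat_lit 5) (nat_lit 115) (nat_lit 5) (nat_lit 303) (nat_lit 250) (nat_lit 227)) (XT.lf (nat_lit 0) (nat_lit 4851399761) (nat_lit 380) (nat_lit 1358581636) (nat_lit 456) (nat_lit 2797926374) (nat_lit 109) (nat_lit 5) (nat_lit 114) (nat_lit 5) (nat_lit 115) (nat_lit 5) (nat_lit 304)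 (nat_lit 250) (nat_lit 226))))) (XT.nd (nat_lit 234) (nat_lit 760) (nat_lit 0) (XT.nd (nat_lit 78) (nat_lit 304) (nat_lit 0) (XT.lf (nat_lit 0) (nat_lit 84730972) (nat_lit 456) (nat_lit 7634667386) (nat_lit 76) (nat_lit 1424956869) (nat_lit 103) (nat_lit 5) (nat_lit 109) (nat_lit 5) (nat_lit 104) (nat_lit 5) (nat_lit 305) (nat_lit 250) (nat_lit 225)) (XT.nd (nat_lit 78) (nat_lit 304) (nat_lit 0) (XT.lf (nat_lit 0) (nat_lit 2990028113) (nat_lit 456) (nat_lit 1979102112) (nat_lit 76) (nat_lit 4315232459) (nat_lit 103) (nat_lit 5) (nat_lit 109) (nat_lit 5) (nat_lit 104) (nat_lit 5) (nat_lit 306) (nat_lit 250) (nat_lit 224)) (XT.lf (nat_lit 0) (nat_lit 3838538714) (nat_lit 304) (nat_lit 2119247883) (nat_lit 380) (nat_lit 3471592181) (nat_lit 99) (nat_lit 5) (nat_lit 103) (nat_lit 5) (nat_lit 104) (nat_lit 5) (nat_lit 307) (nat_lit 250) (nat_lit 223)))) (XT.nd (nat_lit 156) (nat_lit 304) (nat_lit 0)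 (XT.nd (nat_lit 78) (nat_lit 76) (nat_lit 0) (XT.lf (nat_lit 0) (nat_lit 205737610) (nat_lit 380) (nat_lit 8778056041) (nat_lit 456) (nat_lit 595940752) (nat_lit 94) (nat_lit 5) (nat_lit 99) (nat_lit 5) (nat_lit 100) (nat_lit 5) (nat_lit 308) (nat_lit 250) (nat_lit 222)) (XT.lf (nat_lit 0) (nat_lit 2337342128) (nat_lit 456) (nat_lit 3570187045) (nat_lit 76) (nat_lit 3825925065) (nat_lit 93) (nat_lit 5) (nat_lit 99) (nat_lit 5) (nat_lit 94) (nat_lit 5) (nat_lit 309) (nat_lit 250) (nat_lit 221))) (XT.nd (nat_lit 78) (nat_lit 0) (nat_lit 0) (XT.lf (nat_lit 0) (nat_lit 2366645036) (nat_lit 304) (nat_lit 2944044021) (nat_lit 380) (nat_lit 4582058260) (nat_lit 89) (nat_lit 5) (nat_lit 93) (nat_lit 5) (nat_lit 94) (nat_lit 5) (nat_lit 310) (nat_lit 250) (nat_lit 220)) (XT.lf (nat_lit 0) (nat_lit 8352696597) (nat_lit 380) (nat_lit 1584516328) (nat_lit 76) (nat_lit 120280672) (nat_lit 89) (nat_lit 5) (nat_lit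 94) (nat_lit 5) (nat_lit 90) (nat_lit 5) (nat_lit 311) (nat_lit 250) (nat_lit 219))))))))
noncomputable def xc79 : XT := (XT.nd (nat_lit 2106) (nat_lit 1596) (nat_lit 0) (XT.nd (nat_lit 1014) (nat_lit 1368) (nat_lit 0) (XT.nd (nat_lit 468) (nat_lit 1140) (nat_lit 0) (XT.nd (nat_lit 234) (nat_lit 608) (nat_lit 0) (XT.nd (nat_lit 78) (nat_lit 304) (nat_lit 0) (XT.lf (nat_lit 0) (nat_lit 1250568210) (nat_lit 380) (nat_lit 5724504407) (nat_lit 76) (nat_lit 3251311032) (nat_lit 84) (nat_lit 5) (nat_lit 89) (nat_lit 5) (nat_lit 85) (nat_lit 5) (nat_lit 312) (nat_lit 250) (nat_lit 218)) (XT.nd (nat_lit 78) (nat_lit 0) (nat_lit 0) (XT.lf (nat_lit 0) (nat_lit 312404507) (nat_lit 304) (nat_lit 3911064182) (nat_lit 380) (nat_lit 6177524442) (nat_lit 80) (nat_lit 5) (nat_lit 84) (nat_lit 5) (nat_lit 85) (nat_lit 5) (nat_lit 313) (nat_lit 250) (nat_lit 217)) (XT.lf (nat_lit 0) (nat_lit 6568411762) (nat_lit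 304) (nat_lit 719796704) (nat_lit 380) (nat_lit 3292604587) (nat_lit 80) (nat_lit 5) (nat_lit 84) (nat_lit 5) (nat_lit 85) (nat_lit 5) (nat_lit 314) (nat_lit 250) (nat_lit 216)))) (XT.nd (nat_lit 78) (nat_lit 304) (nat_lit 0) (XT.lf (nat_lit 0) (nat_lit 2185567267) (nat_lit 304) (nat_lit 8251236334) (nat_lit 380) (nat_lit 329516793) (nat_lit 76) (nat_lit 5) (nat_lit 80) (nat_lit 5) (nat_lit 81) (nat_lit 5) (nat_lit 315) (nat_lit 250) (nat_lit 215)) (XT.nd (nat_lit 78) (nat_lit 228) (nat_lit 0) (XT.lf (nat_lit 0) (nat_lit 2663857543) (nat_lit 380) (nat_lit 2416968460) (nat_lit 76) (nat_lit 5875993617) (nat_lit 75) (nat_lit 5) (nat_lit 80) (nat_lit 5) (nat_lit 76) (nat_lit 5) (nat_lit 316) (nat_lit 250) (nat_lit 214)) (XT.lf (nat_lit 0) (nat_lit 3928605782) (nat_lit 228) (nat_lit 1797601280) (nat_lit 304) (nat_lit 5427200934) (nat_lit 72) (nat_lit 5) (nat_lit 75) (nat_lit 5) (nat_lit 76) (nat_lit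 5) (nat_lit 317) (nat_lit 250) (nat_lit 213))))) (XT.nd (nat_lit 234) (nat_lit 532) (nat_lit 0) (XT.nd (nat_lit 78) (nat_lit 608) (nat_lit 0) (XT.lf (nat_lit 0) (nat_lit 8868884502) (nat_lit 304) (nat_lit 933654419) (nat_lit 76) (nat_lit 1553745995) (nat_lit 72) (nat_lit 5) (nat_lit 76) (nat_lit 5) (nat_lit 73) (nat_lit 5) (nat_lit 318) (nat_lit 250) (nat_lit 212)) (XT.nd (nat_lit 78) (nat_lit 228) (nat_lit 0) (XT.lf (nat_lit 0) (nat_lit 551557568) (nat_lit 380) (nat_lit 6007962323) (nat_lit 76) (nat_lit 5004969043) (nat_lit 67) (nat_lit 5) (nat_lit 72) (nat_lit 5) (nat_lit 68) (nat_lit 5) (nat_lit 319) (nat_lit 250) (nat_lit 211)) (XT.lf (nat_lit 0) (nat_lit 389611353) (nat_lit 228) (nat_lit 3205637696) (nat_lit 304) (nat_lit 8184085250) (nat_lit 64) (nat_lit 5) (nat_lit 67) (nat_lit 5) (nat_lit 68) (nat_lit 5) (nat_lit 320) (nat_lit 250) (nat_lit 210)))) (XT.nd (nat_lit 156) (nat_lit 304) (nat_lit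 0) (XT.nd (nat_lit 78) (nat_lit 228) (nat_lit 0) (XT.lf (nat_lit 0) (nat_lit 6744692889) (nat_lit 304) (nat_lit 4975221704) (nat_lit 76) (nat_lit 280316826) (nat_lit 64) (nat_lit 5) (nat_lit 68) (nat_lit 5) (nat_lit 65) (nat_lit 5) (nat_lit 321) (nat_lit 250) (nat_lit 209)) (XT.lf (nat_lit 0) (nat_lit 1556866899) (nat_lit 228) (nat_lit 8430671369) (nat_lit 304) (nat_lit 2240288125) (nat_lit 61) (nat_lit 5) (nat_lit 64) (nat_lit 5) (nat_lit 65) (nat_lit 5) (nat_lit 322) (nat_lit 250) (nat_lit 208))) (XT.nd (nat_lit 78) (nat_lit 228) (nat_lit 0) (XT.lf (nat_lit 0) (nat_lit 851672850) (nat_lit 304) (nat_lit 4156404899) (nat_lit 76) (nat_lit 7453863959) (nat_lit 60) (nat_lit 5) (nat_lit 64) (nat_lit 5) (nat_lit 61) (nat_lit 5) (nat_lit 323) (nat_lit 250) (nat_lit 207)) (XT.lf (nat_lit 0) (nat_lit 2508756406) (nat_lit 228) (nat_lit 1460513802) (nat_lit 304) (nat_lit 8733842912) (nat_lit 57) (nat_lit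 5) (nat_lit 60) (nat_lit 5) (nat_lit 61) (nat_lit 5) (nat_lit 324) (nat_lit 250) (nat_lit 206)))))) (XT.nd (nat_lit 546) (nat_lit 684) (nat_lit 0) (XT.nd (nat_lit 234) (nat_lit 380) (nat_lit 0) (XT.nd (nat_lit 78) (nat_lit 304) (nat_lit 0) (XT.lf (nat_lit 0) (nat_lit 7198077710) (nat_lit 304) (nat_lit 3584744934) (nat_lit 76) (nat_lit 2168200759) (nat_lit 57) (nat_lit 5) (nat_lit 61) (nat_lit 5) (nat_lit 58) (nat_lit 5) (nat_lit 325) (nat_lit 250) (nat_lit 205)) (XT.nd (nat_lit 78) (nat_lit 76) (nat_lit 0) (XT.lf (nat_lit 0) (nat_lit 3201201859) (nat_lit 228) (nat_lit 7323323787) (nat_lit 304) (nat_lit 2681855261) (nat_lit 54) (nat_lit 5) (nat_lit 57) (nat_lit 5) (nat_lit 58) (nat_lit 5) (nat_lit 326) (nat_lit 250) (nat_lit 204)) (XT.lf (nat_lit 0) (nat_lit 464239130) (nat_lit 304) (nat_lit 3279274678) (nat_lit 76) (nat_lit 9726009872) (nat_lit 53) (nat_lit 5) (nat_lit 57) (nat_lit 5) (nat_lit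 54) (nat_lit 5) (nat_lit 327) (nat_lit 250) (nat_lit 203)))) (XT.nd (nat_lit 156) (nat_lit 228) (nat_lit 0) (XT.nd (nat_lit 78) (nat_lit 0) (nat_lit 0) (XT.lf (nat_lit 0) (nat_lit 3624437185) (nat_lit 152) (nat_lit 18214091) (nat_lit 228) (nat_lit 10097388125) (nat_lit 51) (nat_lit 5) (nat_lit 53) (nat_lit 5) (nat_lit 54) (nat_lit 5) (nat_lit 328) (nat_lit 250) (nat_lit 202)) (XT.lf (nat_lit 0) (nat_lit 6943927078) (nat_lit 228) (nat_lit 3320766578) (nat_lit 76) (nat_lit 3753181096) (nat_lit 51) (nat_lit 5) (nat_lit 54) (nat_lit 5) (nat_lit 52) (nat_lit 5) (nat_lit 329) (nat_lit 250) (nat_lit 201))) (XT.nd (nat_lit 78) (nat_lit 0) (nat_lit 0) (XT.lf (nat_lit 0) (nat_lit 3683065016) (nat_lit 228) (nat_lit 6655362398) (nat_lit 304) (nat_lit 3965820798) (nat_lit 48) (nat_lit 5) (nat_lit 51) (nat_lit 5) (nat_lit 52) (nat_lit 5) (nat_lit 330) (nat_lit 250) (nat_lit 200)) (XT.lf (nat_lit 0) (nat_lit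 10899197718) (nat_lit 228) (nat_lit 2928272751) (nat_lit 304) (nat_lit 771988981) (nat_lit 48) (nat_lit 5) (nat_lit 51) (nat_lit 5) (nat_lit 52) (nat_lit 5) (nat_lit 331) (nat_lit 250) (nat_lit 199))))) (XT.nd (nat_lit 234) (nat_lit 228) (nat_lit 0) (XT.nd (nat_lit 78) (nat_lit 228) (nat_lit 0) (XT.lf (nat_lit 0) (nat_lit 2470291584) (nat_lit 228) (nat_lit 11506372258) (nat_lit 76) (nat_lit 926110481) (nat_lit 45) (nat_lit 5) (nat_lit 48) (nat_lit 5) (nat_lit 46) (nat_lit 5) (nat_lit 332) (nat_lit 250) (nat_lit 198)) (XT.nd (nat_lit 78) (nat_lit 228) (nat_lit 0) (XT.lf (nat_lit 0) (nat_lit 5821310165) (nat_lit 228) (nat_lit 4534385495) (nat_lit 76) (nat_lit 4858479551) (nat_lit 45) (nat_lit 5) (nat_lit 48) (nat_lit 5) (nat_lit 46) (nat_lit 5) (nat_lit 333) (nat_lit 250) (nat_lit 197)) (XT.lf (nat_lit 0) (nat_lit 2634946003) (nat_lit 228) (nat_lit 6624657225) (nat_lit 304) (nat_lit 6275737282)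 (nat_lit 42) (nat_lit 5) (nat_lit 45) (nat_lit 5) (nat_lit 46) (nat_lit 5) (nat_lit 334) (nat_lit 250) (nat_lit 196)))) (XT.nd (nat_lit 156) (nat_lit 0) (nat_lit 0) (XT.nd (nat_lit 78) (nat_lit 228) (nat_lit 0) (XT.lf (nat_lit 0) (nat_lit 10049695670) (nat_lit 228) (nat_lit 2759074990) (nat_lit 304) (nat_lit 3057162324) (nat_lit 42) (nat_lit 5) (nat_lit 45) (nat_lit 5) (nat_lit 46) (nat_lit 5) (nat_lit 335) (nat_lit 250) (nat_lit 195)) (XT.lf (nat_lit 0) (nat_lit 241159903) (nat_lit 228) (nat_lit 14774175829) (nat_lit 76) (nat_lit 1191408997) (nat_lit 39) (nat_lit 5) (nat_lit 42) (nat_lit 5) (nat_lit 40) (nat_lit 5) (nat_lit 336) (nat_lit 250) (nat_lit 194))) (XT.nd (nat_lit 78) (nat_lit 0) (nat_lit 0) (XT.lf (nat_lit 0) (nat_lit 3626544629) (nat_lit 228) (nat_lit 7657966733) (nat_lit 76) (nat_lit 5270896582) (nat_lit 39) (nat_lit 5) (nat_lit 42) (nat_lit 5) (nat_lit 40) (nat_lit 5) (nat_lit 337)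 (nat_lit 250) (nat_lit 193)) (XT.lf (nat_lit 0) (nat_lit 7077497778) (nat_lit 228) (nat_lit 388316345) (nat_lit 76) (nat_lit 9449818034) (nat_lit 39) (nat_lit 5) (nat_lit 42) (nat_lit 5) (nat_lit 40) (nat_lit 5) (nat_lit 338) (nat_lit 250) (nat_lit 192))))))) (XT.nd (nat_lit 1014) (nat_lit 608) (nat_lit 0) (XT.nd (nat_lit 468) (nat_lit 456) (nat_lit 0) (XT.nd (nat_lit 234) (nat_lit 152) (nat_lit 0) (XT.nd (nat_lit 78) (nat_lit 228) (nat_lit 0) (XT.lf (nat_lit 0) (nat_lit 7181259697) (nat_lit 152) (nat_lit 3484805712) (nat_lit 228) (nat_lit 6619595801) (nat_lit 37) (nat_lit 5) (nat_lit 39) (nat_lit 5) (nat_lit 40) (nat_lit 5) (nat_lit 339) (nat_lit 250) (nat_lit 191)) (XT.nd (nat_lit 78) (nat_lit 228) (nat_lit 0) (XT.lf (nat_lit 0) (nat_lit 14337462694) (nat_lit 228) (nat_lit 2745302723) (nat_lit 76) (nat_lit 584790624) (nat_lit 37) (nat_lit 5) (nat_lit 40) (nat_lit 5) (nat_lit 38) (nat_lit 4)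 (nat_lit 340) (nat_lit 250) (nat_lit 190)) (XT.lf (nat_lit 0) (nat_lit 104720559) (nat_lit 228) (nat_lit 13222919452) (nat_lit 76) (nat_lit 4731837086) (nat_lit 34) (nat_lit 5) (nat_lit 37) (nat_lit 5) (nat_lit 35) (nat_lit 5) (nat_lit 341) (nat_lit 250) (nat_lit 189)))) (XT.nd (nat_lit 78) (nat_lit 152) (nat_lit 0) (XT.lf (nat_lit 0) (nat_lit 3570041973) (nat_lit 228) (nat_lit 5850399931) (nat_lit 76) (nat_lit 9041911285) (nat_lit 34) (nat_lit 5) (nat_lit 37) (nat_lit 5) (nat_lit 35) (nat_lit 5) (nat_lit 342) (nat_lit 250) (nat_lit 188)) (XT.nd (nat_lit 78) (nat_lit 0) (nat_lit 0) (XT.lf (nat_lit 0) (nat_lit 1721568839) (nat_lit 152) (nat_lit 5401679679) (nat_lit 228) (nat_lit 11754567128) (nat_lit 32) (nat_lit 5) (nat_lit 34) (nat_lit 5) (nat_lit 35) (nat_lit 5) (nat_lit 343) (nat_lit 250) (nat_lit 187)) (XT.lf (nat_lit 0) (nat_lit 9585846151) (nat_lit 152) (nat_lit 1224083028) (nat_lit 228)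 (nat_lit 8495023788) (nat_lit 32) (nat_lit 5) (nat_lit 34) (nat_lit 5) (nat_lit 35) (nat_lit 5) (nat_lit 344) (nat_lit 250) (nat_lit 186))))) (XT.nd (nat_lit 234) (nat_lit 228) (nat_lit 0) (XT.nd (nat_lit 78) (nat_lit 228) (nat_lit 0) (XT.lf (nat_lit 0) (nat_lit 14605333456) (nat_lit 228) (nat_lit 2142374805) (nat_lit 76) (nat_lit 2997269271) (nat_lit 32) (nat_lit 5) (nat_lit 35) (nat_lit 5) (nat_lit 33) (nat_lit 4) (nat_lit 345) (nat_lit 250) (nat_lit 185)) (XT.nd (nat_lit 78) (nat_lit 76) (nat_lit 0) (XT.lf (nat_lit 0) (nat_lit 5708578665) (nat_lit 152) (nat_lit 12842459343) (nat_lit 228) (nat_lit 1646088014) (nat_lit 30) (nat_lit 5) (nat_lit 32) (nat_lit 5) (nat_lit 33) (nat_lit 4) (nat_lit 346) (nat_lit 250) (nat_lit 184)) (XT.lf (nat_lit 0) (nat_lit 1905548394) (nat_lit 228) (nat_lit 6894657765) (nat_lit 76) (nat_lit 11862344120) (nat_lit 29) (nat_lit 5) (nat_lit 32) (nat_lit 5) (nat_lit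 30) (nat_lit 5) (nat_lit 347) (nat_lit 250) (nat_lit 183)))) (XT.nd (nat_lit 156) (nat_lit 76) (nat_lit 0) (XT.nd (nat_lit 78) (nat_lit 0) (nat_lit 0) (XT.lf (nat_lit 0) (nat_lit 876926213) (nat_lit 152) (nat_lit 4632561809) (nat_lit 228) (nat_lit 15632610086) (nat_lit 27) (nat_lit 5) (nat_lit 29) (nat_lit 5) (nat_lit 30) (nat_lit 5) (nat_lit 348) (nat_lit 250) (nat_lit 182)) (XT.lf (nat_lit 0) (nat_lit 8972554424) (nat_lit 152) (nat_lit 289400289) (nat_lit 228) (nat_lit 12372879903) (nat_lit 27) (nat_lit 5) (nat_lit 29) (nat_lit 5) (nat_lit 30) (nat_lit 5) (nat_lit 349) (nat_lit 250) (nat_lit 181))) (XT.nd (nat_lit 78) (nat_lit 76) (nat_lit 0) (XT.lf (nat_lit 0) (nat_lit 13138654273) (nat_lit 228) (nat_lit 4921156318) (nat_lit 76) (nat_lit 4082206949) (nat_lit 27) (nat_lit 5) (nat_lit 30) (nat_lit 5) (nat_lit 28) (nat_lit 4) (nat_lit 350) (nat_lit 250) (nat_lit 180)) (XT.lf (nat_lit 0) (nat_lit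 3060875428) (nat_lit 76) (nat_lit 14075338779) (nat_lit 152) (nat_lit 5528078642) (nat_lit 26) (nat_lit 5) (nat_lit 27) (nat_lit 5) (nat_lit 28) (nat_lit 4) (nat_lit 351) (nat_lit 250) (nat_lit 179)))))) (XT.nd (nat_lit 546) (nat_lit 304) (nat_lit 0) (XT.nd (nat_lit 234) (nat_lit 76) (nat_lit 0) (XT.nd (nat_lit 78) (nat_lit 228) (nat_lit 0) (XT.lf (nat_lit 0) (nat_lit 11335530252) (nat_lit 76) (nat_lit 9940484705) (nat_lit 152) (nat_lit 1925565318) (nat_lit 26) (nat_lit 5) (nat_lit 27) (nat_lit 5) (nat_lit 28) (nat_lit 4) (nat_lit 352) (nat_lit 250) (nat_lit 178)) (XT.nd (nat_lit 78) (nat_lit 152) (nat_lit 0) (XT.lf (nat_lit 0) (nat_lit 1723332799) (nat_lit 152) (nat_lit 3960594339) (nat_lit 76) (nat_lit 18071362693) (nat_lit 25) (nat_lit 5) (nat_lit 27) (nat_lit 5) (nat_lit 26) (nat_lit 5) (nat_lit 353) (nat_lit 250) (nat_lit 177)) (XT.lf (nat_lit 0) (nat_lit 4199396629) (nat_lit 152) (nat_lit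 1257890355) (nat_lit 228) (nat_lit 18867335159) (nat_lit 23) (nat_lit 5) (nat_lit 25) (nat_lit 5) (nat_lit 26) (nat_lit 5) (nat_lit 354) (nat_lit 250) (nat_lit 176)))) (XT.nd (nat_lit 156) (nat_lit 76) (nat_lit 0) (XT.nd (nat_lit 78) (nat_lit 0) (nat_lit 0) (XT.lf (nat_lit 0) (nat_lit 9349445146) (nat_lit 228) (nat_lit 12302246702) (nat_lit 76) (nat_lit 3257968814) (nat_lit 23) (nat_lit 5) (nat_lit 26) (nat_lit 5) (nat_lit 24) (nat_lit 4) (nat_lit 355) (nat_lit 250) (nat_lit 175)) (XT.lf (nat_lit 0) (nat_lit 13345642407) (nat_lit 228) (nat_lit 4301364164) (nat_lit 76) (nat_lit 7865636991) (nat_lit 23) (nat_lit 5) (nat_lit 26) (nat_lit 5) (nat_lit 24) (nat_lit 4) (nat_lit 356) (nat_lit 250) (nat_lit 174))) (XT.nd (nat_lit 78) (nat_lit 0) (nat_lit 0) (XT.lf (nat_lit 0) (nat_lit 3974052858) (nat_lit 76) (nat_lit 13501427147) (nat_lit 152) (nat_lit 8657834431) (nat_lit 22) (nat_lit 5) (nat_lit 23)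 (nat_lit 5) (nat_lit 24) (nat_lit 4) (nat_lit 357) (nat_lit 250) (nat_lit 173)) (XT.lf (nat_lit 0) (nat_lit 12543288027) (nat_lit 76) (nat_lit 9205215809) (nat_lit 152) (nat_lit 5023533667) (nat_lit 22) (nat_lit 5) (nat_lit 23) (nat_lit 5) (nat_lit 24) (nat_lit 4) (nat_lit 358) (nat_lit 250) (nat_lit 172))))) (XT.nd (nat_lit 234) (nat_lit 76) (nat_lit 0) (XT.nd (nat_lit 78) (nat_lit 228) (nat_lit 0) (XT.lf (nat_lit 0) (nat_lit 21328223440) (nat_lit 76) (nat_lit 4798053929) (nat_lit 152) (nat_lit 1304358603) (nat_lit 22) (nat_lit 5) (nat_lit 23) (nat_lit 5) (nat_lit 24) (nat_lit 4) (nat_lit 359) (nat_lit 250) (nat_lit 171)) (XT.nd (nat_lit 78) (nat_lit 0) (nat_lit 0) (XT.lf (nat_lit 0) (nat_lit 2246629979) (nat_lit 152) (nat_lit 229065140) (nat_lit 228) (nat_lit 25632620529) (nat_lit 19) (nat_lit 5) (nat_lit 21) (nat_lit 5) (nat_lit 22) (nat_lit 5) (nat_lit 360) (nat_lit 250) (nat_lit 170)) (XT.lf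 (nat_lit 0) (nat_lit 6425323078) (nat_lit 228) (nat_lit 17930563104) (nat_lit 76) (nat_lit 4447590026) (nat_lit 19) (nat_lit 5) (nat_lit 22) (nat_lit 5) (nat_lit 20) (nat_lit 4) (nat_lit 361) (nat_lit 250) (nat_lit 169)))) (XT.nd (nat_lit 156) (nat_lit 76) (nat_lit 0) (XT.nd (nat_lit 78) (nat_lit 0) (nat_lit 0) (XT.lf (nat_lit 0) (nat_lit 10473495047) (nat_lit 228) (nat_lit 9803350696) (nat_lit 76) (nat_lit 9243253499) (nat_lit 19) (nat_lit 5) (nat_lit 22) (nat_lit 5) (nat_lit 20) (nat_lit 4) (nat_lit 362) (nat_lit 250) (nat_lit 168)) (XT.lf (nat_lit 0) (nat_lit 14621546349) (nat_lit 228) (nat_lit 1470745084) (nat_lit 76) (nat_lit 14166585551) (nat_lit 19) (nat_lit 5) (nat_lit 22) (nat_lit 5) (nat_lit 20) (nat_lit 4) (nat_lit 363) (nat_lit 250) (nat_lit 167))) (XT.nd (nat_lit 78) (nat_lit 0) (nat_lit 0) (XT.lf (nat_lit 0) (nat_lit 7215331760) (nat_lit 76) (nat_lit 11727127919) (nat_lit 152) (nat_lit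 12075914544) (nat_lit 18) (nat_lit 5) (nat_lit 19) (nat_lit 5) (nat_lit 20) (nat_lit 4) (nat_lit 364) (nat_lit 250) (nat_lit 166)) (XT.lf (nat_lit 0) (nat_lit 16155201422) (nat_lit 76) (nat_lit 7231967697) (nat_lit 152) (nat_lit 8413670723) (nat_lit 18) (nat_lit 5) (nat_lit 19) (nat_lit 5) (nat_lit 20) (nat_lit 4) (nat_lit 365) (nat_lit 250) (nat_lit 165))))))))
noncomputable def xc80 : XT := (XT.nd (nat_lit 2028) (nat_lit 228) (nat_lit 0) (XT.nd (nat_lit 1014) (nat_lit 228) (nat_lit 0) (XT.nd (nat_lit 468) (nat_lit 152) (nat_lit 0) (XT.nd (nat_lit 234) (nat_lit 76) (nat_lit 0) (XT.nd (nat_lit 78) (nat_lit 228) (nat_lit 0) (XT.lf (nat_lit 0) (nat_lit 25327404727) (nat_lit 76) (nat_lit 2617734598) (nat_lit 152) (nat_lit 4662250795) (nat_lit 18) (nat_lit 5) (nat_lit 19) (nat_lit 5) (nat_lit 20) (nat_lit 4) (nat_lit 366) (nat_lit 250) (nat_lit 164)) (XT.nd (nat_lit 78) (nat_lit 76) (nat_lit 0) (XT.lf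 (nat_lit 0) (nat_lit 1306342942) (nat_lit 152) (nat_lit 31346942339) (nat_lit 152) (nat_lit 784456561) (nat_lit 16) (nat_lit 4) (nat_lit 18) (nat_lit 5) (nat_lit 18) (nat_lit 4) (nat_lit 367) (nat_lit 250) (nat_lit 163)) (XT.lf (nat_lit 0) (nat_lit 3227592595) (nat_lit 228) (nat_lit 24084119945) (nat_lit 76) (nat_lit 6977956947) (nat_lit 15) (nat_lit 5) (nat_lit 18) (nat_lit 5) (nat_lit 16) (nat_lit 4) (nat_lit 368) (nat_lit 250) (nat_lit 162)))) (XT.nd (nat_lit 78) (nat_lit 76) (nat_lit 0) (XT.lf (nat_lit 0) (nat_lit 7325201230) (nat_lit 228) (nat_lit 15837476490) (nat_lit 76) (nat_lit 12004822643) (nat_lit 15) (nat_lit 5) (nat_lit 18) (nat_lit 5) (nat_lit 16) (nat_lit 4) (nat_lit 369) (nat_lit 250) (nat_lit 161)) (XT.nd (nat_lit 78) (nat_lit 76) (nat_lit 0) (XT.lf (nat_lit 0) (nat_lit 11527257351) (nat_lit 228) (nat_lit 7376722054) (nat_lit 76) (nat_lit 17168248323) (nat_lit 15) (nat_lit 5)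 (nat_lit 18) (nat_lit 5) (nat_lit 16) (nat_lit 4) (nat_lit 370) (nat_lit 250) (nat_lit 160)) (XT.lf (nat_lit 0) (nat_lit 1331518985) (nat_lit 76) (nat_lit 14518713046) (nat_lit 152) (nat_lit 21154026105) (nat_lit 14) (nat_lit 5) (nat_lit 15) (nat_lit 5) (nat_lit 16) (nat_lit 4) (nat_lit 371) (nat_lit 250) (nat_lit 159))))) (XT.nd (nat_lit 234) (nat_lit 152) (nat_lit 0) (XT.nd (nat_lit 78) (nat_lit 0) (nat_lit 0) (XT.lf (nat_lit 0) (nat_lit 10420220917) (nat_lit 76) (nat_lit 9939437941) (nat_lit 152) (nat_lit 17602894441) (nat_lit 14) (nat_lit 5) (nat_lit 15) (nat_lit 5) (nat_lit 16) (nat_lit 4) (nat_lit 372) (nat_lit 250) (nat_lit 158)) (XT.nd (nat_lit 78) (nat_lit 0) (nat_lit 0) (XT.lf (nat_lit 0) (nat_lit 19750514091) (nat_lit 76) (nat_lit 5236643211) (nat_lit 152) (nat_lit 13962962883) (nat_lit 14) (nat_lit 5) (nat_lit 15) (nat_lit 5) (nat_lit 16) (nat_lit 4) (nat_lit 373) (nat_lit 250) (nat_lit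 157)) (XT.lf (nat_lit 0) (nat_lit 29330551192) (nat_lit 76) (nat_lit 406219616) (nat_lit 152) (nat_lit 10231050908) (nat_lit 14) (nat_lit 5) (nat_lit 15) (nat_lit 5) (nat_lit 16) (nat_lit 4) (nat_lit 374) (nat_lit 250) (nat_lit 156)))) (XT.nd (nat_lit 156) (nat_lit 76) (nat_lit 0) (XT.nd (nat_lit 78) (nat_lit 76) (nat_lit 0) (XT.lf (nat_lit 0) (nat_lit 34656445100) (nat_lit 152) (nat_lit 1891639596) (nat_lit 0) (nat_lit 4467148584) (nat_lit 14) (nat_lit 5) (nat_lit 16) (nat_lit 4) (nat_lit 14) (nat_lit 4) (nat_lit 375) (nat_lit 250) (nat_lit 155)) (XT.lf (nat_lit 0) (nat_lit 7224524918) (nat_lit 76) (nat_lit 32556780643) (nat_lit 76) (nat_lit 2311039729) (nat_lit 13) (nat_lit 4) (nat_lit 14) (nat_lit 5) (nat_lit 14) (nat_lit 4) (nat_lit 376) (nat_lit 250) (nat_lit 154))) (XT.nd (nat_lit 78) (nat_lit 0) (nat_lit 0) (XT.lf (nat_lit 0) (nat_lit 1825327832) (nat_lit 152) (nat_lit 26595125799) (nat_lit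 76) (nat_lit 14780683447) (nat_lit 12) (nat_lit 5) (nat_lit 14) (nat_lit 5) (nat_lit 13) (nat_lit 4) (nat_lit 377) (nat_lit 250) (nat_lit 153)) (XT.lf (nat_lit 0) (nat_lit 6023953032) (nat_lit 152) (nat_lit 18125120902) (nat_lit 76) (nat_lit 20193899222) (nat_lit 12) (nat_lit 5) (nat_lit 14) (nat_lit 5) (nat_lit 13) (nat_lit 4) (nat_lit 378) (nat_lit 250) (nat_lit 152)))))) (XT.nd (nat_lit 468) (nat_lit 152) (nat_lit 0) (XT.nd (nat_lit 234) (nat_lit 0) (nat_lit 0) (XT.nd (nat_lit 78) (nat_lit 76) (nat_lit 0) (XT.lf (nat_lit 0) (nat_lit 10333601278) (nat_lit 152) (nat_lit 9428189581) (nat_lit 76) (nat_lit 25757726840) (nat_lit 12) (nat_lit 5) (nat_lit 14) (nat_lit 5) (nat_lit 13) (nat_lit 4) (nat_lit 379) (nat_lit 250) (nat_lit 151)) (XT.nd (nat_lit 78) (nat_lit 76) (nat_lit 0) (XT.lf (nat_lit 0) (nat_lit 14758038285) (nat_lit 152) (nat_lit 496732573) (nat_lit 76) (nat_lit 31477027897) (nat_lit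 12) (nat_lit 5) (nat_lit 14) (nat_lit 5) (nat_lit 13) (nat_lit 4) (nat_lit 380) (nat_lit 250) (nat_lit 150)) (XT.lf (nat_lit 0) (nat_lit 8849744699) (nat_lit 76) (nat_lit 10536454525) (nat_lit 152) (nat_lit 28592124303) (nat_lit 11) (nat_lit 5) (nat_lit 12) (nat_lit 5) (nat_lit 13) (nat_lit 4) (nat_lit 381) (nat_lit 250) (nat_lit 149)))) (XT.nd (nat_lit 78) (nat_lit 0) (nat_lit 0) (XT.lf (nat_lit 0) (nat_lit 18461436098) (nat_lit 76) (nat_lit 5682872827) (nat_lit 152) (nat_lit 25118206858) (nat_lit 11) (nat_lit 5) (nat_lit 12) (nat_lit 5) (nat_lit 13) (nat_lit 4) (nat_lit 382) (nat_lit 250) (nat_lit 148)) (XT.nd (nat_lit 78) (nat_lit 0) (nat_lit 0) (XT.lf (nat_lit 0) (nat_lit 28336854237) (nat_lit 76) (nat_lit 694800796) (nat_lit 152) (nat_lit 21553988700) (nat_lit 11) (nat_lit 5) (nat_lit 12) (nat_lit 5) (nat_lit 13) (nat_lit 4) (nat_lit 383) (nat_lit 250) (nat_lit 147)) (XT.lf (nat_lit 0) (nat_lit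 34095112294) (nat_lit 152) (nat_lit 13506839637) (nat_lit 0) (nat_lit 4345633449) (nat_lit 11) (nat_lit 5) (nat_lit 13) (nat_lit 4) (nat_lit 11) (nat_lit 4) (nat_lit 384) (nat_lit 250) (nat_lit 146))))) (XT.nd (nat_lit 234) (nat_lit 76) (nat_lit 0) (XT.nd (nat_lit 78) (nat_lit 76) (nat_lit 0) (XT.lf (nat_lit 0) (nat_lit 39304520224) (nat_lit 152) (nat_lit 4533006646) (nat_lit 0) (nat_lit 9513041447) (nat_lit 11) (nat_lit 5) (nat_lit 13) (nat_lit 4) (nat_lit 11) (nat_lit 4) (nat_lit 385) (nat_lit 250) (nat_lit 145)) (XT.nd (nat_lit 78) (nat_lit 0) (nat_lit 0) (XT.lf (nat_lit 0) (nat_lit 4780514598) (nat_lit 76) (nat_lit 39923190515) (nat_lit 76) (nat_lit 10090935104) (nat_lit 10) (nat_lit 4) (nat_lit 11) (nat_lit 5) (nat_lit 11) (nat_lit 4) (nat_lit 386) (nat_lit 250) (nat_lit 144)) (XT.lf (nat_lit 0) (nat_lit 14443775522) (nat_lit 76) (nat_lit 35854551735) (nat_lit 76) (nat_lit 5982707360) (nat_lit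 10) (nat_lit 4) (nat_lit 11) (nat_lit 5) (nat_lit 11) (nat_lit 4) (nat_lit 387) (nat_lit 250) (nat_lit 143)))) (XT.nd (nat_lit 156) (nat_lit 0) (nat_lit 0) (XT.nd (nat_lit 78) (nat_lit 76) (nat_lit 0) (XT.lf (nat_lit 0) (nat_lit 24375004032) (nat_lit 76) (nat_lit 31673829888) (nat_lit 76) (nat_lit 1763549625) (nat_lit 10) (nat_lit 4) (nat_lit 11) (nat_lit 5) (nat_lit 11) (nat_lit 4) (nat_lit 388) (nat_lit 250) (nat_lit 142)) (XT.lf (nat_lit 0) (nat_lit 2520070400) (nat_lit 152) (nat_lit 24831853745) (nat_lit 76) (nat_lit 32037359729) (nat_lit 9) (nat_lit 5) (nat_lit 11) (nat_lit 5) (nat_lit 10) (nat_lit 4) (nat_lit 389) (nat_lit 250) (nat_lit 141))) (XT.nd (nat_lit 78) (nat_lit 0) (nat_lit 0) (XT.lf (nat_lit 0) (nat_lit 6885370171) (nat_lit 152) (nat_lit 16006524723) (nat_lit 76) (nat_lit 38121417717) (nat_lit 9) (nat_lit 5) (nat_lit 11) (nat_lit 5) (nat_lit 10) (nat_lit 4) (nat_lit 390) (nat_lit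 250) (nat_lit 140)) (XT.lf (nat_lit 0) (nat_lit 11370577230) (nat_lit 152) (nat_lit 6936728675) (nat_lit 76) (nat_lit 44379091472) (nat_lit 9) (nat_lit 5) (nat_lit 11) (nat_lit 5) (nat_lit 10) (nat_lit 4) (nat_lit 391) (nat_lit 250) (nat_lit 139))))))) (XT.nd (nat_lit 1014) (nat_lit 76) (nat_lit 0) (XT.nd (nat_lit 468) (nat_lit 76) (nat_lit 0) (XT.nd (nat_lit 234) (nat_lit 0) (nat_lit 0) (XT.nd (nat_lit 78) (nat_lit 0) (nat_lit 0) (XT.lf (nat_lit 0) (nat_lit 2432934781) (nat_lit 76) (nat_lit 13570062767) (nat_lit 152) (nat_lit 48406300938) (nat_lit 8) (nat_lit 5) (nat_lit 9) (nat_lit 5) (nat_lit 10) (nat_lit 4) (nat_lit 392) (nat_lit 250) (nat_lit 138)) (XT.nd (nat_lit 78) (nat_lit 0) (nat_lit 0) (XT.lf (nat_lit 0) (nat_lit 12206375642) (nat_lit 76) (nat_lit 8627457372) (nat_lit 152) (nat_lit 45348273748) (nat_lit 8) (nat_lit 5) (nat_lit 9) (nat_lit 5) (nat_lit 10) (nat_lit 4) (nat_lit 393) (nat_lit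 250) (nat_lit 137)) (XT.lf (nat_lit 0) (nat_lit 22254079304) (nat_lit 76) (nat_lit 3545218297) (nat_lit 152) (nat_lit 42209113872) (nat_lit 8) (nat_lit 5) (nat_lit 9) (nat_lit 5) (nat_lit 10) (nat_lit 4) (nat_lit 394) (nat_lit 250) (nat_lit 136)))) (XT.nd (nat_lit 78) (nat_lit 0) (nat_lit 0) (XT.lf (nat_lit 0) (nat_lit 30919889783) (nat_lit 152) (nat_lit 37321142825) (nat_lit 0) (nat_lit 1648291023) (nat_lit 8) (nat_lit 5) (nat_lit 10) (nat_lit 4) (nat_lit 8) (nat_lit 4) (nat_lit 395) (nat_lit 250) (nat_lit 135)) (XT.nd (nat_lit 78) (nat_lit 0) (nat_lit 0) (XT.lf (nat_lit 0) (nat_lit 36219417662) (nat_lit 152) (nat_lit 28688128078) (nat_lit 0) (nat_lit 6918360995) (nat_lit 8) (nat_lit 5) (nat_lit 10) (nat_lit 4) (nat_lit 8) (nat_lit 4) (nat_lit 396) (nat_lit 250) (nat_lit 134)) (XT.lf (nat_lit 0) (nat_lit 41668433087) (nat_lit 152) (nat_lit 19813665713) (nat_lit 0) (nat_lit 12338776510) (nat_lit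 8) (nat_lit 5) (nat_lit 10) (nat_lit 4) (nat_lit 8) (nat_lit 4) (nat_lit 397) (nat_lit 250) (nat_lit 133))))) (XT.nd (nat_lit 234) (nat_lit 0) (nat_lit 0) (XT.nd (nat_lit 78) (nat_lit 76) (nat_lit 0) (XT.lf (nat_lit 0) (nat_lit 47271697335) (nat_lit 152) (nat_lit 10690001343) (nat_lit 0) (nat_lit 17914273854) (nat_lit 8) (nat_lit 5) (nat_lit 10) (nat_lit 4) (nat_lit 8) (nat_lit 4) (nat_lit 398) (nat_lit 250) (nat_lit 132)) (XT.nd (nat_lit 78) (nat_lit 76) (nat_lit 0) (XT.lf (nat_lit 0) (nat_lit 53034106460) (nat_lit 152) (nat_lit 1309162837) (nat_lit 0) (nat_lit 23649724821) (nat_lit 8) (nat_lit 5) (nat_lit 10) (nat_lit 4) (nat_lit 8) (nat_lit 4) (nat_lit 399) (nat_lit 250) (nat_lit 131)) (XT.lf (nat_lit 0) (nat_lit 8502970231) (nat_lit 76) (nat_lit 50539461098) (nat_lit 76) (nat_lit 21128906489) (nat_lit 7) (nat_lit 4) (nat_lit 8) (nat_lit 5) (nat_lit 8) (nat_lit 4) (nat_lit 400) (nat_lit 250)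 (nat_lit 130)))) (XT.nd (nat_lit 156) (nat_lit 0) (nat_lit 0) (XT.nd (nat_lit 78) (nat_lit 0) (nat_lit 0) (XT.lf (nat_lit 0) (nat_lit 18620407072) (nat_lit 76) (nat_lit 46615226934) (nat_lit 76) (nat_lit 17179261675) (nat_lit 7) (nat_lit 4) (nat_lit 8) (nat_lit 5) (nat_lit 8) (nat_lit 4) (nat_lit 401) (nat_lit 250) (nat_lit 129)) (XT.lf (nat_lit 0) (nat_lit 29025933256) (nat_lit 76) (nat_lit 42580357839) (nat_lit 76) (nat_lit 13119722046) (nat_lit 7) (nat_lit 4) (nat_lit 8) (nat_lit 5) (nat_lit 8) (nat_lit 4) (nat_lit 402) (nat_lit 250) (nat_lit 128))) (XT.nd (nat_lit 78) (nat_lit 0) (nat_lit 0) (XT.lf (nat_lit 0) (nat_lit 39728640991) (nat_lit 76) (nat_lit 38431328200) (nat_lit 76) (nat_lit 8946740432) (nat_lit 7) (nat_lit 4) (nat_lit 8) (nat_lit 5) (nat_lit 8) (nat_lit 4) (nat_lit 403) (nat_lit 250) (nat_lit 127)) (XT.lf (nat_lit 0) (nat_lit 50737882158) (nat_lit 76) (nat_lit 34164512651) (nat_lit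 76) (nat_lit 4656670539) (nat_lit 7) (nat_lit 4) (nat_lit 8) (nat_lit 5) (nat_lit 8) (nat_lit 4) (nat_lit 404) (nat_lit 250) (nat_lit 126)))))) (XT.nd (nat_lit 30966) (nat_lit 0) (nat_lit 13604) (XT.nd (nat_lit 234) (nat_lit 0) (nat_lit 0) (XT.nd (nat_lit 78) (nat_lit 76) (nat_lit 0) (XT.lf (nat_lit 0) (nat_lit 62063276481) (nat_lit 76) (nat_lit 29776182907) (nat_lit 76) (nat_lit 245763761) (nat_lit 7) (nat_lit 4) (nat_lit 8) (nat_lit 5) (nat_lit 8) (nat_lit 4) (nat_lit 405) (nat_lit 250) (nat_lit 125)) (XT.nd (nat_lit 78) (nat_lit 0) (nat_lit 0) (XT.lf (nat_lit 0) (nat_lit 4206123975) (nat_lit 152) (nat_lit 21013906925) (nat_lit 76) (nat_lit 69466122355) (nat_lit 6) (nat_lit 5) (nat_lit 8) (nat_lit 5) (nat_lit 7) (nat_lit 4) (nat_lit 406) (nat_lit 250) (nat_lit 124)) (XT.lf (nat_lit 0) (nat_lit 8779359688) (nat_lit 152) (nat_lit 11751519447) (nat_lit 76) (nat_lit 76834379389) (nat_lit 6) (nat_lit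 5) (nat_lit 8) (nat_lit 5) (nat_lit 7) (nat_lit 4) (nat_lit 407) (nat_lit 250) (nat_lit 123)))) (XT.nd (nat_lit 30576) (nat_lit 0) (nat_lit 17936) (XT.nd (nat_lit 30498) (nat_lit 0) (nat_lit 19608) (XT.lf (nat_lit 0) (nat_lit 13482735143) (nat_lit 152) (nat_lit 2224328458) (nat_lit 76) (nat_lit 84417887196) (nat_lit 6) (nat_lit 5) (nat_lit 8) (nat_lit 5) (nat_lit 7) (nat_lit 4) (nat_lit 408) (nat_lit 250) (nat_lit 122)) (XT.lf (nat_lit 0) (nat_lit 2719765032) (nat_lit 684) (nat_lit 342792411) (nat_lit 684) (nat_lit 342792411) (nat_lit 264) (nat_lit 4) (nat_lit 273) (nat_lit 5) (nat_lit 273) (nat_lit 4) (nat_lit 278) (nat_lit 251) (nat_lit 251))) (XT.nd (nat_lit 78) (nat_lit 836) (nat_lit 0) (XT.lf (nat_lit 0) (nat_lit 2395280487) (nat_lit 836) (nat_lit 3965309155) (nat_lit 0) (nat_lit 493104997) (nat_lit 253) (nat_lit 5) (nat_lit 264) (nat_lit 4) (nat_lit 253) (nat_lit 4) (nat_lit 279) (nat_lit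 251) (nat_lit 250)) (XT.lf (nat_lit 0) (nat_lit 312146400) (nat_lit 836) (nat_lit 5168498599) (nat_lit 836) (nat_lit 1419550788) (nat_lit 242) (nat_lit 4) (nat_lit 253) (nat_lit 5) (nat_lit 253) (nat_lit 4) (nat_lit 280) (nat_lit 251) (nat_lit 249))))) (XT.nd (nat_lit 234) (nat_lit 3268) (nat_lit 0) (XT.nd (nat_lit 78) (nat_lit 988) (nat_lit 0) (XT.lf (nat_lit 0) (nat_lit 1620513314) (nat_lit 912) (nat_lit 2252288617) (nat_lit 76) (nat_lit 3076678771) (nat_lit 241) (nat_lit 5) (nat_lit 253) (nat_lit 5) (nat_lit 242) (nat_lit 4) (nat_lit 281) (nat_lit 251) (nat_lit 248)) (XT.nd (nat_lit 78) (nat_lit 76) (nat_lit 0) (XT.lf (nat_lit 0) (nat_lit 2156354816) (nat_lit 912) (nat_lit 2493421290) (nat_lit 988) (nat_lit 2352429559) (nat_lit 229) (nat_lit 5) (nat_lit 241) (nat_lit 5) (nat_lit 242) (nat_lit 4) (nat_lit 282) (nat_lit 251) (nat_lit 247)) (XT.lf (nat_lit 0) (nat_lit 629100988) (nat_lit 988)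 (nat_lit 405890291) (nat_lit 76) (nat_lit 6023595560) (nat_lit 228) (nat_lit 5) (nat_lit 241) (nat_lit 5) (nat_lit 229) (nat_lit 5) (nat_lit 283) (nat_lit 251) (nat_lit 246)))) (XT.nd (nat_lit 156) (nat_lit 1216) (nat_lit 0) (XT.nd (nat_lit 78) (nat_lit 1064) (nat_lit 0) (XT.lf (nat_lit 0) (nat_lit 3607148983) (nat_lit 1064) (nat_lit 2981936352) (nat_lit 76) (nat_lit 528408592) (nat_lit 215) (nat_lit 5) (nat_lit 229) (nat_lit 5) (nat_lit 216) (nat_lit 4) (nat_lit 284) (nat_lit 251) (nat_lit 245)) (XT.lf (nat_lit 0) (nat_lit 1578086748) (nat_lit 1064) (nat_lit 5037272011) (nat_lit 1140) (nat_lit 564743897) (nat_lit 201) (nat_lit 5) (nat_lit 215) (nat_lit 5) (nat_lit 216) (nat_lit 4) (nat_lit 285) (nat_lit 251) (nat_lit 244))) (XT.nd (nat_lit 78) (nat_lit 1140) (nat_lit 0) (XT.lf (nat_lit 0) (nat_lit 2363469665) (nat_lit 1140) (nat_lit 1018684512) (nat_lit 76) (nat_lit 3863600468) (nat_lit 200)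 (nat_lit 5) (nat_lit 215) (nat_lit 5) (nat_lit 201) (nat_lit 5) (nat_lit 286) (nat_lit 251) (nat_lit 243)) (XT.lf (nat_lit 0) (nat_lit 3683975265) (nat_lit 1140) (nat_lit 1634196893) (nat_lit 1216) (nat_lit 1996682034) (nat_lit 185) (nat_lit 5) (nat_lit 200) (nat_lit 5) (nat_lit 201) (nat_lit 5) (nat_lit 287) (nat_lit 251) (nat_lit 242))))))))
noncomputable def xc81 : XT := (XT.nd (nat_lit 2028) (nat_lit 3572) (nat_lit 0) (XT.nd (nat_lit 1014) (nat_lit 3116) (nat_lit 0) (XT.nd (nat_lit 468) (nat_lit 2052) (nat_lit 0) (XT.nd (nat_lit 234) (nat_lit 1216) (nat_lit 0) (XT.nd (nat_lit 78) (nat_lit 608) (nat_lit 0) (XT.lf (nat_lit 0) (nat_lit 894498935) (nat_lit 684) (nat_lit 6300496147) (nat_lit 76) (nat_lit 192746163) (nat_lit 176) (nat_lit 5) (nat_lit 185) (nat_lit 5) (nat_lit 177) (nat_lit 5) (nat_lit 288) (nat_lit 251) (nat_lit 241)) (XT.nd (nat_lit 78) (nat_lit 608) (nat_lit 0) (XT.lf (nat_lit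 0) (nat_lit 3802427445) (nat_lit 684) (nat_lit 1563919132) (nat_lit 76) (nat_lit 2096904148) (nat_lit 176) (nat_lit 5) (nat_lit 185) (nat_lit 5) (nat_lit 177) (nat_lit 5) (nat_lit 289) (nat_lit 251) (nat_lit 240)) (XT.lf (nat_lit 0) (nat_lit 3294346403) (nat_lit 608) (nat_lit 3454269537) (nat_lit 684) (nat_lit 794008200) (nat_lit 168) (nat_lit 5) (nat_lit 176) (nat_lit 5) (nat_lit 177) (nat_lit 5) (nat_lit 290) (nat_lit 251) (nat_lit 239)))) (XT.nd (nat_lit 78) (nat_lit 608) (nat_lit 0) (XT.lf (nat_lit 0) (nat_lit 611970049) (nat_lit 532) (nat_lit 1446537919) (nat_lit 608) (nat_lit 5567115438) (nat_lit 160) (nat_lit 5) (nat_lit 167) (nat_lit 5) (nat_lit 168) (nat_lit 5) (nat_lit 291) (nat_lit 251) (nat_lit 238)) (XT.nd (nat_lit 78) (nat_lit 608) (nat_lit 0) (XT.lf (nat_lit 0) (nat_lit 4951385460) (nat_lit 608) (nat_lit 2106125957) (nat_lit 76) (nat_lit 654361391) (nat_lit 160) (nat_lit 5) (nat_lit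 168) (nat_lit 5) (nat_lit 161) (nat_lit 5) (nat_lit 292) (nat_lit 251) (nat_lit 237)) (XT.lf (nat_lit 0) (nat_lit 93342194) (nat_lit 608) (nat_lit 4896353234) (nat_lit 76) (nat_lit 2812121843) (nat_lit 152) (nat_lit 5) (nat_lit 160) (nat_lit 5) (nat_lit 153) (nat_lit 5) (nat_lit 293) (nat_lit 251) (nat_lit 236))))) (XT.nd (nat_lit 234) (nat_lit 988) (nat_lit 0) (XT.nd (nat_lit 78) (nat_lit 608) (nat_lit 0) (XT.lf (nat_lit 0) (nat_lit 105878878) (nat_lit 456) (nat_lit 2818221275) (nat_lit 532) (nat_lit 4971244368) (nat_lit 146) (nat_lit 5) (nat_lit 152) (nat_lit 5) (nat_lit 153) (nat_lit 5) (nat_lit 294) (nat_lit 251) (nat_lit 235)) (XT.nd (nat_lit 78) (nat_lit 608) (nat_lit 0) (XT.lf (nat_lit 0) (nat_lit 5273987349) (nat_lit 456) (nat_lit 540929561) (nat_lit 532) (nat_lit 2177611741) (nat_lit 146) (nat_lit 5) (nat_lit 152) (nat_lit 5) (nat_lit 153) (nat_lit 5) (nat_lit 295) (nat_lit 251) (nat_lit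 234)) (XT.lf (nat_lit 0) (nat_lit 654429922) (nat_lit 608) (nat_lit 5649369773) (nat_lit 76) (nat_lit 1789678211) (nat_lit 138) (nat_lit 5) (nat_lit 146) (nat_lit 5) (nat_lit 139) (nat_lit 5) (nat_lit 296) (nat_lit 251) (nat_lit 233)))) (XT.nd (nat_lit 156) (nat_lit 532) (nat_lit 0) (XT.nd (nat_lit 78) (nat_lit 456) (nat_lit 0) (XT.lf (nat_lit 0) (nat_lit 3489007993) (nat_lit 608) (nat_lit 491422191) (nat_lit 76) (nat_lit 4217634573) (nat_lit 138) (nat_lit 5) (nat_lit 146) (nat_lit 5) (nat_lit 139) (nat_lit 5) (nat_lit 297) (nat_lit 251) (nat_lit 232)) (XT.lf (nat_lit 0) (nat_lit 4833082886) (nat_lit 456) (nat_lit 1552352000) (nat_lit 532) (nat_lit 1921143400) (nat_lit 132) (nat_lit 5) (nat_lit 138) (nat_lit 5) (nat_lit 139) (nat_lit 5) (nat_lit 298) (nat_lit 251) (nat_lit 231))) (XT.nd (nat_lit 78) (nat_lit 0) (nat_lit 0) (XT.lf (nat_lit 0) (nat_lit 894815834) (nat_lit 532) (nat_lit 6575826989)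 (nat_lit 76) (nat_lit 948629747) (nat_lit 125) (nat_lit 5) (nat_lit 132) (nat_lit 5) (nat_lit 126) (nat_lit 5) (nat_lit 299) (nat_lit 251) (nat_lit 230)) (XT.lf (nat_lit 0) (nat_lit 3739348413) (nat_lit 532) (nat_lit 1262253847) (nat_lit 76) (nat_lit 3533779049) (nat_lit 125) (nat_lit 5) (nat_lit 132) (nat_lit 5) (nat_lit 126) (nat_lit 5) (nat_lit 300) (nat_lit 251) (nat_lit 229)))))) (XT.nd (nat_lit 468) (nat_lit 1444) (nat_lit 0) (XT.nd (nat_lit 234) (nat_lit 836) (nat_lit 0) (XT.nd (nat_lit 78) (nat_lit 456) (nat_lit 0) (XT.lf (nat_lit 0) (nat_lit 4211036703) (nat_lit 380) (nat_lit 2432557430) (nat_lit 456) (nat_lit 2012230860) (nat_lit 120) (nat_lit 5) (nat_lit 125) (nat_lit 5) (nat_lit 126) (nat_lit 5) (nat_lit 301) (nat_lit 251) (nat_lit 228)) (XT.nd (nat_lit 78) (nat_lit 0) (nat_lit 0) (XT.lf (nat_lit 0) (nat_lit 797636205) (nat_lit 456) (nat_lit 7759106222) (nat_lit 76) (nat_lit 224194108)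 (nat_lit 114) (nat_lit 5) (nat_lit 120) (nat_lit 5) (nat_lit 115) (nat_lit 5) (nat_lit 302) (nat_lit 251) (nat_lit 227)) (XT.lf (nat_lit 0) (nat_lit 3656054227) (nat_lit 456) (nat_lit 2292830809) (nat_lit 76) (nat_lit 2960253689) (nat_lit 114) (nat_lit 5) (nat_lit 120) (nat_lit 5) (nat_lit 115) (nat_lit 5) (nat_lit 303) (nat_lit 251) (nat_lit 226)))) (XT.nd (nat_lit 78) (nat_lit 456) (nat_lit 0) (XT.lf (nat_lit 0) (nat_lit 3321187826) (nat_lit 380) (nat_lit 3248133150) (nat_lit 456) (nat_lit 2472866863) (nat_lit 109) (nat_lit 5) (nat_lit 114) (nat_lit 5) (nat_lit 115) (nat_lit 5) (nat_lit 304) (nat_lit 251) (nat_lit 225)) (XT.nd (nat_lit 78) (nat_lit 380) (nat_lit 0) (XT.lf (nat_lit 0) (nat_lit 344062137) (nat_lit 456) (nat_lit 113462639) (nat_lit 76) (nat_lit 8722832580) (nat_lit 108) (nat_lit 5) (nat_lit 114) (nat_lit 5) (nat_lit 109) (nat_lit 5) (nat_lit 305) (nat_lit 251) (nat_lit 224)) (XT.lf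 (nat_lit 0) (nat_lit 3213495044) (nat_lit 456) (nat_lit 3676775192) (nat_lit 76) (nat_lit 2431203748) (nat_lit 103) (nat_lit 5) (nat_lit 109) (nat_lit 5) (nat_lit 104) (nat_lit 5) (nat_lit 306) (nat_lit 251) (nat_lit 223))))) (XT.nd (nat_lit 234) (nat_lit 684) (nat_lit 0) (XT.nd (nat_lit 78) (nat_lit 456) (nat_lit 0) (XT.lf (nat_lit 0) (nat_lit 2066839031) (nat_lit 304) (nat_lit 4067924775) (nat_lit 380) (nat_lit 3333153242) (nat_lit 99) (nat_lit 5) (nat_lit 103) (nat_lit 5) (nat_lit 104) (nat_lit 5) (nat_lit 307) (nat_lit 251) (nat_lit 222)) (XT.nd (nat_lit 78) (nat_lit 456) (nat_lit 0) (XT.lf (nat_lit 0) (nat_lit 7978824836) (nat_lit 304) (nat_lit 1143151573) (nat_lit 380) (nat_lit 497491433) (nat_lit 99) (nat_lit 5) (nat_lit 103) (nat_lit 5) (nat_lit 104) (nat_lit 5) (nat_lit 308) (nat_lit 251) (nat_lit 221)) (XT.lf (nat_lit 0) (nat_lit 2377718344) (nat_lit 456) (nat_lit 5519319467) (nat_lit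 76) (nat_lit 1877835575) (nat_lit 93) (nat_lit 5) (nat_lit 99) (nat_lit 5) (nat_lit 94) (nat_lit 5) (nat_lit 309) (nat_lit 251) (nat_lit 220)))) (XT.nd (nat_lit 156) (nat_lit 380) (nat_lit 0) (XT.nd (nat_lit 78) (nat_lit 0) (nat_lit 0) (XT.lf (nat_lit 0) (nat_lit 339028670) (nat_lit 304) (nat_lit 4964468886) (nat_lit 380) (nat_lit 4632124617) (nat_lit 89) (nat_lit 5) (nat_lit 93) (nat_lit 5) (nat_lit 94) (nat_lit 5) (nat_lit 310) (nat_lit 251) (nat_lit 219)) (XT.lf (nat_lit 0) (nat_lit 6408039205) (nat_lit 304) (nat_lit 1908656984) (nat_lit 380) (nat_lit 1784564374) (nat_lit 89) (nat_lit 5) (nat_lit 93) (nat_lit 5) (nat_lit 94) (nat_lit 5) (nat_lit 311) (nat_lit 251) (nat_lit 218))) (XT.nd (nat_lit 78) (nat_lit 0) (nat_lit 0) (XT.lf (nat_lit 0) (nat_lit 1105534447) (nat_lit 380) (nat_lit 7939723835) (nat_lit 76) (nat_lit 1226946268) (nat_lit 84) (nat_lit 5) (nat_lit 89) (nat_lit 5) (nat_lit 85)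 (nat_lit 5) (nat_lit 312) (nat_lit 251) (nat_lit 217)) (XT.lf (nat_lit 0) (nat_lit 4048638223) (nat_lit 380) (nat_lit 1947239697) (nat_lit 76) (nat_lit 4451855492) (nat_lit 84) (nat_lit 5) (nat_lit 89) (nat_lit 5) (nat_lit 85) (nat_lit 5) (nat_lit 313) (nat_lit 251) (nat_lit 216))))))) (XT.nd (nat_lit 1014) (nat_lit 1520) (nat_lit 0) (XT.nd (nat_lit 468) (nat_lit 760) (nat_lit 0) (XT.nd (nat_lit 234) (nat_lit 608) (nat_lit 0) (XT.nd (nat_lit 78) (nat_lit 380) (nat_lit 0) (XT.lf (nat_lit 0) (nat_lit 4232060800) (nat_lit 304) (nat_lit 2835848505) (nat_lit 380) (nat_lit 3561032827) (nat_lit 80) (nat_lit 5) (nat_lit 84) (nat_lit 5) (nat_lit 85) (nat_lit 5) (nat_lit 314) (nat_lit 251) (nat_lit 215)) (XT.nd (nat_lit 78) (nat_lit 380) (nat_lit 0) (XT.lf (nat_lit 0) (nat_lit 10149436809) (nat_lit 380) (nat_lit 258752014) (nat_lit 76) (nat_lit 408296696) (nat_lit 80) (nat_lit 5) (nat_lit 85) (nat_lit 5)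 (nat_lit 81) (nat_lit 5) (nat_lit 315) (nat_lit 251) (nat_lit 214)) (XT.lf (nat_lit 0) (nat_lit 2304750558) (nat_lit 380) (nat_lit 4951104860) (nat_lit 76) (nat_lit 3752094149) (nat_lit 75) (nat_lit 5) (nat_lit 80) (nat_lit 5) (nat_lit 76) (nat_lit 5) (nat_lit 316) (nat_lit 251) (nat_lit 213)))) (XT.nd (nat_lit 78) (nat_lit 380) (nat_lit 0) (XT.lf (nat_lit 0) (nat_lit 1306708768) (nat_lit 228) (nat_lit 4010334020) (nat_lit 304) (nat_lit 5889018851) (nat_lit 72) (nat_lit 5) (nat_lit 75) (nat_lit 5) (nat_lit 76) (nat_lit 5) (nat_lit 317) (nat_lit 251) (nat_lit 212)) (XT.nd (nat_lit 78) (nat_lit 380) (nat_lit 0) (XT.lf (nat_lit 0) (nat_lit 7780184117) (nat_lit 228) (nat_lit 639824848) (nat_lit 304) (nat_lit 2990142273) (nat_lit 72) (nat_lit 5) (nat_lit 75) (nat_lit 5) (nat_lit 76) (nat_lit 5) (nat_lit 318) (nat_lit 251) (nat_lit 211)) (XT.lf (nat_lit 0) (nat_lit 1292976) (nat_lit 380) (nat_lit 8838379164)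 (nat_lit 76) (nat_lit 2780568198) (nat_lit 67) (nat_lit 5) (nat_lit 72) (nat_lit 5) (nat_lit 68) (nat_lit 5) (nat_lit 319) (nat_lit 251) (nat_lit 210))))) (XT.nd (nat_lit 234) (nat_lit 532) (nat_lit 0) (XT.nd (nat_lit 78) (nat_lit 228) (nat_lit 0) (XT.lf (nat_lit 0) (nat_lit 3017465989) (nat_lit 380) (nat_lit 2484357385) (nat_lit 76) (nat_lit 6334107412) (nat_lit 67) (nat_lit 5) (nat_lit 72) (nat_lit 5) (nat_lit 68) (nat_lit 5) (nat_lit 320) (nat_lit 251) (nat_lit 209)) (XT.nd (nat_lit 78) (nat_lit 0) (nat_lit 0) (XT.lf (nat_lit 0) (nat_lit 4068831308) (nat_lit 228) (nat_lit 2047550833) (nat_lit 304) (nat_lit 5941980554) (nat_lit 64) (nat_lit 5) (nat_lit 67) (nat_lit 5) (nat_lit 68) (nat_lit 5) (nat_lit 321) (nat_lit 251) (nat_lit 208)) (XT.lf (nat_lit 0) (nat_lit 9301725226) (nat_lit 304) (nat_lit 1503287510) (nat_lit 76) (nat_lit 1482688409) (nat_lit 64) (nat_lit 5) (nat_lit 68) (nat_lit 5)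 (nat_lit 65) (nat_lit 5) (nat_lit 322) (nat_lit 251) (nat_lit 207)))) (XT.nd (nat_lit 156) (nat_lit 228) (nat_lit 0) (XT.nd (nat_lit 78) (nat_lit 0) (nat_lit 0) (XT.lf (nat_lit 0) (nat_lit 82888245) (nat_lit 304) (nat_lit 7334753418) (nat_lit 76) (nat_lit 5105536625) (nat_lit 60) (nat_lit 5) (nat_lit 64) (nat_lit 5) (nat_lit 61) (nat_lit 5) (nat_lit 323) (nat_lit 251) (nat_lit 206)) (XT.lf (nat_lit 0) (nat_lit 3154269096) (nat_lit 304) (nat_lit 752792396) (nat_lit 76) (nat_lit 8858691548) (nat_lit 60) (nat_lit 5) (nat_lit 64) (nat_lit 5) (nat_lit 61) (nat_lit 5) (nat_lit 324) (nat_lit 251) (nat_lit 205))) (XT.nd (nat_lit 78) (nat_lit 0) (nat_lit 0) (XT.lf (nat_lit 0) (nat_lit 6077732527) (nat_lit 228) (nat_lit 254923828) (nat_lit 304) (nat_lit 6682535929) (nat_lit 57) (nat_lit 5) (nat_lit 60) (nat_lit 5) (nat_lit 61) (nat_lit 5) (nat_lit 325) (nat_lit 251) (nat_lit 204)) (XT.lf (nat_lit 0) (nat_lit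 9604620128) (nat_lit 304) (nat_lit 244988632) (nat_lit 76) (nat_lit 3422591431) (nat_lit 57) (nat_lit 5) (nat_lit 61) (nat_lit 5) (nat_lit 58) (nat_lit 5) (nat_lit 326) (nat_lit 251) (nat_lit 203)))))) (XT.nd (nat_lit 546) (nat_lit 608) (nat_lit 0) (XT.nd (nat_lit 234) (nat_lit 456) (nat_lit 0) (XT.nd (nat_lit 78) (nat_lit 228) (nat_lit 0) (XT.lf (nat_lit 0) (nat_lit 6710739519) (nat_lit 228) (nat_lit 6289130763) (nat_lit 304) (nat_lit 536325523) (nat_lit 54) (nat_lit 5) (nat_lit 57) (nat_lit 5) (nat_lit 58) (nat_lit 5) (nat_lit 327) (nat_lit 251) (nat_lit 202)) (XT.nd (nat_lit 78) (nat_lit 152) (nat_lit 0) (XT.lf (nat_lit 0) (nat_lit 2597145336) (nat_lit 304) (nat_lit 19904763) (nat_lit 76) (nat_lit 11191492830) (nat_lit 53) (nat_lit 5) (nat_lit 57) (nat_lit 5) (nat_lit 54) (nat_lit 5) (nat_lit 328) (nat_lit 251) (nat_lit 201)) (XT.lf (nat_lit 0) (nat_lit 5852849380) (nat_lit 228) (nat_lit 7041808174)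 (nat_lit 76) (nat_lit 1193101985) (nat_lit 51) (nat_lit 5) (nat_lit 54) (nat_lit 5) (nat_lit 52) (nat_lit 5) (nat_lit 329) (nat_lit 251) (nat_lit 200)))) (XT.nd (nat_lit 156) (nat_lit 228) (nat_lit 0) (XT.nd (nat_lit 78) (nat_lit 228) (nat_lit 0) (XT.lf (nat_lit 0) (nat_lit 9192146738) (nat_lit 228) (nat_lit 141669409) (nat_lit 76) (nat_lit 5041986640) (nat_lit 51) (nat_lit 5) (nat_lit 54) (nat_lit 5) (nat_lit 52) (nat_lit 5) (nat_lit 330) (nat_lit 251) (nat_lit 199)) (XT.lf (nat_lit 0) (nat_lit 7040132817) (nat_lit 228) (nat_lit 5620142724) (nat_lit 304) (nat_lit 2011379209) (nat_lit 48) (nat_lit 5) (nat_lit 51) (nat_lit 5) (nat_lit 52) (nat_lit 5) (nat_lit 331) (nat_lit 251) (nat_lit 198))) (XT.nd (nat_lit 78) (nat_lit 152) (nat_lit 0) (XT.lf (nat_lit 0) (nat_lit 1194111635) (nat_lit 304) (nat_lit 611037960) (nat_lit 76) (nat_lit 13172019217) (nat_lit 47) (nat_lit 5) (nat_lit 51) (nat_lit 5)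 (nat_lit 48) (nat_lit 5) (nat_lit 332) (nat_lit 251) (nat_lit 197)) (XT.lf (nat_lit 0) (nat_lit 4502720848) (nat_lit 228) (nat_lit 8642297910) (nat_lit 76) (nat_lit 2144835391) (nat_lit 45) (nat_lit 5) (nat_lit 48) (nat_lit 5) (nat_lit 46) (nat_lit 5) (nat_lit 333) (nat_lit 251) (nat_lit 196))))) (XT.nd (nat_lit 234) (nat_lit 380) (nat_lit 0) (XT.nd (nat_lit 78) (nat_lit 228) (nat_lit 0) (XT.lf (nat_lit 0) (nat_lit 7897231524) (nat_lit 228) (nat_lit 1554625297) (nat_lit 76) (nat_lit 6160487913) (nat_lit 45) (nat_lit 5) (nat_lit 48) (nat_lit 5) (nat_lit 46) (nat_lit 5) (nat_lit 334) (nat_lit 251) (nat_lit 195)) (XT.nd (nat_lit 78) (nat_lit 0) (nat_lit 0) (XT.lf (nat_lit 0) (nat_lit 5799239167) (nat_lit 228) (nat_lit 5613714324) (nat_lit 304) (nat_lit 4530998551) (nat_lit 42) (nat_lit 5) (nat_lit 45) (nat_lit 5) (nat_lit 46) (nat_lit 5) (nat_lit 335) (nat_lit 251) (nat_lit 194)) (XT.lf (nat_lit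 0) (nat_lit 13346569827) (nat_lit 228) (nat_lit 1667398096) (nat_lit 304) (nat_lit 1272167631) (nat_lit 42) (nat_lit 5) (nat_lit 45) (nat_lit 5) (nat_lit 46) (nat_lit 5) (nat_lit 336) (nat_lit 251) (nat_lit 193)))) (XT.nd (nat_lit 156) (nat_lit 152) (nat_lit 0) (XT.nd (nat_lit 78) (nat_lit 0) (nat_lit 0) (XT.lf (nat_lit 0) (nat_lit 2075178404) (nat_lit 228) (nat_lit 12169896453) (nat_lit 76) (nat_lit 2391987172) (nat_lit 39) (nat_lit 5) (nat_lit 42) (nat_lit 5) (nat_lit 40) (nat_lit 5) (nat_lit 337) (nat_lit 251) (nat_lit 192)) (XT.lf (nat_lit 0) (nat_lit 5508917379) (nat_lit 228) (nat_lit 4928963355) (nat_lit 76) (nat_lit 6559932126) (nat_lit 39) (nat_lit 5) (nat_lit 42) (nat_lit 5) (nat_lit 40) (nat_lit 5) (nat_lit 338) (nat_lit 251) (nat_lit 191))) (XT.nd (nat_lit 78) (nat_lit 0) (nat_lit 0) (XT.lf (nat_lit 0) (nat_lit 2521809160) (nat_lit 152) (nat_lit 6514173569) (nat_lit 228) (nat_lit 8333714146)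 (nat_lit 37) (nat_lit 5) (nat_lit 39) (nat_lit 5) (nat_lit 40) (nat_lit 5) (nat_lit 339) (nat_lit 251) (nat_lit 190)) (XT.lf (nat_lit 0) (nat_lit 10241100499) (nat_lit 152) (nat_lit 2444054884) (nat_lit 228) (nat_lit 5067112669) (nat_lit 37) (nat_lit 5) (nat_lit 39) (nat_lit 5) (nat_lit 40) (nat_lit 5) (nat_lit 340) (nat_lit 251) (nat_lit 189))))))))
noncomputable def xc82 : XT := (XT.nd (nat_lit 2028) (nat_lit 760) (nat_lit 0) (XT.nd (nat_lit 1014) (nat_lit 608) (nat_lit 0) (XT.nd (nat_lit 468) (nat_lit 304) (nat_lit 0) (XT.nd (nat_lit 234) (nat_lit 304) (nat_lit 0) (XT.nd (nat_lit 78) (nat_lit 228) (nat_lit 0) (XT.lf (nat_lit 0) (nat_lit 16427894622) (nat_lit 228) (nat_lit 26344592) (nat_lit 76) (nat_lit 1692573341) (nat_lit 37) (nat_lit 5) (nat_lit 40) (nat_lit 5) (nat_lit 38) (nat_lit 4) (nat_lit 341) (nat_lit 251) (nat_lit 188)) (XT.nd (nat_lit 78) (nat_lit 0) (nat_lit 0) (XT.lf (nat_lit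 0) (nat_lit 1763614339) (nat_lit 228) (nat_lit 10811895238) (nat_lit 76) (nat_lit 5975173503) (nat_lit 34) (nat_lit 5) (nat_lit 37) (nat_lit 5) (nat_lit 35) (nat_lit 5) (nat_lit 342) (nat_lit 251) (nat_lit 187)) (XT.lf (nat_lit 0) (nat_lit 5284669605) (nat_lit 228) (nat_lit 3299978146) (nat_lit 76) (nat_lit 10382470860) (nat_lit 34) (nat_lit 5) (nat_lit 37) (nat_lit 5) (nat_lit 35) (nat_lit 5) (nat_lit 343) (nat_lit 251) (nat_lit 186)))) (XT.nd (nat_lit 78) (nat_lit 152) (nat_lit 0) (XT.lf (nat_lit 0) (nat_lit 4472424847) (nat_lit 152) (nat_lit 4451172791) (nat_lit 228) (nat_lit 10472099159) (nat_lit 32) (nat_lit 5) (nat_lit 34) (nat_lit 5) (nat_lit 35) (nat_lit 5) (nat_lit 344) (nat_lit 251) (nat_lit 185)) (XT.nd (nat_lit 78) (nat_lit 152) (nat_lit 0) (XT.lf (nat_lit 0) (nat_lit 12494012741) (nat_lit 152) (nat_lit 180652821) (nat_lit 228) (nat_lit 7162393935) (nat_lit 32) (nat_lit 5) (nat_lit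 34) (nat_lit 5) (nat_lit 35) (nat_lit 5) (nat_lit 345) (nat_lit 251) (nat_lit 184)) (XT.lf (nat_lit 0) (nat_lit 380636070) (nat_lit 152) (nat_lit 16172168332) (nat_lit 228) (nat_lit 3738438368) (nat_lit 30) (nat_lit 5) (nat_lit 32) (nat_lit 5) (nat_lit 33) (nat_lit 4) (nat_lit 346) (nat_lit 251) (nat_lit 183))))) (XT.nd (nat_lit 234) (nat_lit 76) (nat_lit 0) (XT.nd (nat_lit 78) (nat_lit 228) (nat_lit 0) (XT.lf (nat_lit 0) (nat_lit 8434397872) (nat_lit 152) (nat_lit 12159525380) (nat_lit 228) (nat_lit 163744606) (nat_lit 30) (nat_lit 5) (nat_lit 32) (nat_lit 5) (nat_lit 33) (nat_lit 4) (nat_lit 347) (nat_lit 251) (nat_lit 182)) (XT.nd (nat_lit 78) (nat_lit 152) (nat_lit 0) (XT.lf (nat_lit 0) (nat_lit 3420808589) (nat_lit 228) (nat_lit 4591584971) (nat_lit 76) (nat_lit 13225553946) (nat_lit 29) (nat_lit 5) (nat_lit 32) (nat_lit 5) (nat_lit 30) (nat_lit 5) (nat_lit 348) (nat_lit 251) (nat_lit 181))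 (XT.lf (nat_lit 0) (nat_lit 3388539542) (nat_lit 152) (nat_lit 3725748392) (nat_lit 228) (nat_lit 14618172641) (nat_lit 27) (nat_lit 5) (nat_lit 29) (nat_lit 5) (nat_lit 30) (nat_lit 5) (nat_lit 349) (nat_lit 251) (nat_lit 180)))) (XT.nd (nat_lit 156) (nat_lit 76) (nat_lit 0) (XT.nd (nat_lit 78) (nat_lit 0) (nat_lit 0) (XT.lf (nat_lit 0) (nat_lit 10944295623) (nat_lit 228) (nat_lit 10593503400) (nat_lit 76) (nat_lit 703251969) (nat_lit 27) (nat_lit 5) (nat_lit 30) (nat_lit 5) (nat_lit 28) (nat_lit 4) (nat_lit 350) (nat_lit 251) (nat_lit 179)) (XT.lf (nat_lit 0) (nat_lit 14899170812) (nat_lit 228) (nat_lit 2694247466) (nat_lit 76) (nat_lit 5171195107) (nat_lit 27) (nat_lit 5) (nat_lit 30) (nat_lit 5) (nat_lit 28) (nat_lit 4) (nat_lit 351) (nat_lit 251) (nat_lit 178))) (XT.nd (nat_lit 78) (nat_lit 0) (nat_lit 0) (XT.lf (nat_lit 0) (nat_lit 5503965394) (nat_lit 76) (nat_lit 13495497132) (nat_lit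 152) (nat_lit 4303629908) (nat_lit 26) (nat_lit 5) (nat_lit 27) (nat_lit 5) (nat_lit 28) (nat_lit 4) (nat_lit 352) (nat_lit 251) (nat_lit 177)) (XT.lf (nat_lit 0) (nat_lit 13958376454) (nat_lit 76) (nat_lit 9265784868) (nat_lit 152) (nat_lit 633535100) (nat_lit 26) (nat_lit 5) (nat_lit 27) (nat_lit 5) (nat_lit 28) (nat_lit 4) (nat_lit 353) (nat_lit 251) (nat_lit 176)))))) (XT.nd (nat_lit 468) (nat_lit 304) (nat_lit 0) (XT.nd (nat_lit 234) (nat_lit 76) (nat_lit 0) (XT.nd (nat_lit 78) (nat_lit 152) (nat_lit 0) (XT.lf (nat_lit 0) (nat_lit 3059943242) (nat_lit 152) (nat_lit 1836949567) (nat_lit 76) (nat_lit 19531909587) (nat_lit 25) (nat_lit 5) (nat_lit 27) (nat_lit 5) (nat_lit 26) (nat_lit 5) (nat_lit 354) (nat_lit 251) (nat_lit 175)) (XT.nd (nat_lit 78) (nat_lit 0) (nat_lit 0) (XT.lf (nat_lit 0) (nat_lit 6545856203) (nat_lit 152) (nat_lit 343979863) (nat_lit 228) (nat_lit 18125878451) (nat_lit 23)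 (nat_lit 5) (nat_lit 25) (nat_lit 5) (nat_lit 26) (nat_lit 5) (nat_lit 355) (nat_lit 251) (nat_lit 174)) (XT.lf (nat_lit 0) (nat_lit 10870684120) (nat_lit 228) (nat_lit 10486871240) (nat_lit 76) (nat_lit 4261608012) (nat_lit 23) (nat_lit 5) (nat_lit 26) (nat_lit 5) (nat_lit 24) (nat_lit 4) (nat_lit 356) (nat_lit 251) (nat_lit 173)))) (XT.nd (nat_lit 78) (nat_lit 76) (nat_lit 0) (XT.lf (nat_lit 0) (nat_lit 14950628785) (nat_lit 228) (nat_lit 2309586775) (nat_lit 76) (nat_lit 8981120793) (nat_lit 23) (nat_lit 5) (nat_lit 26) (nat_lit 5) (nat_lit 24) (nat_lit 4) (nat_lit 357) (nat_lit 251) (nat_lit 172)) (XT.nd (nat_lit 78) (nat_lit 0) (nat_lit 0) (XT.lf (nat_lit 0) (nat_lit 6193300422) (nat_lit 76) (nat_lit 12996161889) (nat_lit 152) (nat_lit 7691627981) (nat_lit 22) (nat_lit 5) (nat_lit 23) (nat_lit 5) (nat_lit 24) (nat_lit 4) (nat_lit 358) (nat_lit 251) (nat_lit 171)) (XT.lf (nat_lit 0) (nat_lit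 14958446840) (nat_lit 76) (nat_lit 8597578038) (nat_lit 152) (nat_lit 3984005227) (nat_lit 22) (nat_lit 5) (nat_lit 23) (nat_lit 5) (nat_lit 24) (nat_lit 4) (nat_lit 359) (nat_lit 251) (nat_lit 170))))) (XT.nd (nat_lit 234) (nat_lit 76) (nat_lit 0) (XT.nd (nat_lit 78) (nat_lit 228) (nat_lit 0) (XT.lf (nat_lit 0) (nat_lit 23947546039) (nat_lit 76) (nat_lit 4083942882) (nat_lit 152) (nat_lit 187921934) (nat_lit 22) (nat_lit 5) (nat_lit 23) (nat_lit 5) (nat_lit 24) (nat_lit 4) (nat_lit 360) (nat_lit 251) (nat_lit 169)) (XT.nd (nat_lit 78) (nat_lit 0) (nat_lit 0) (XT.lf (nat_lit 0) (nat_lit 3675079656) (nat_lit 228) (nat_lit 24626646995) (nat_lit 76) (nat_lit 615612345) (nat_lit 19) (nat_lit 5) (nat_lit 22) (nat_lit 5) (nat_lit 20) (nat_lit 4) (nat_lit 361) (nat_lit 251) (nat_lit 168)) (XT.lf (nat_lit 0) (nat_lit 7712628066) (nat_lit 228) (nat_lit 16518362256) (nat_lit 76) (nat_lit 5403294870) (nat_lit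 19) (nat_lit 5) (nat_lit 22) (nat_lit 5) (nat_lit 20) (nat_lit 4) (nat_lit 362) (nat_lit 251) (nat_lit 167)))) (XT.nd (nat_lit 156) (nat_lit 0) (nat_lit 0) (XT.nd (nat_lit 78) (nat_lit 76) (nat_lit 0) (XT.lf (nat_lit 0) (nat_lit 11850365233) (nat_lit 228) (nat_lit 8204133022) (nat_lit 76) (nat_lit 10318878428) (nat_lit 19) (nat_lit 5) (nat_lit 22) (nat_lit 5) (nat_lit 20) (nat_lit 4) (nat_lit 363) (nat_lit 251) (nat_lit 166)) (XT.lf (nat_lit 0) (nat_lit 329739982) (nat_lit 76) (nat_lit 15765336337) (nat_lit 152) (nat_lit 15040087869) (nat_lit 18) (nat_lit 5) (nat_lit 19) (nat_lit 5) (nat_lit 20) (nat_lit 4) (nat_lit 364) (nat_lit 251) (nat_lit 165))) (XT.nd (nat_lit 78) (nat_lit 0) (nat_lit 0) (XT.lf (nat_lit 0) (nat_lit 9251943414) (nat_lit 76) (nat_lit 11277950465) (nat_lit 152) (nat_lit 11388036761) (nat_lit 18) (nat_lit 5) (nat_lit 19) (nat_lit 5) (nat_lit 20) (nat_lit 4) (nat_lit 365) (nat_lit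 251) (nat_lit 164)) (XT.lf (nat_lit 0) (nat_lit 18406995039) (nat_lit 76) (nat_lit 6671265280) (nat_lit 152) (nat_lit 7646512670) (nat_lit 18) (nat_lit 5) (nat_lit 19) (nat_lit 5) (nat_lit 20) (nat_lit 4) (nat_lit 366) (nat_lit 251) (nat_lit 163))))))) (XT.nd (nat_lit 1014) (nat_lit 304) (nat_lit 0) (XT.nd (nat_lit 468) (nat_lit 152) (nat_lit 0) (XT.nd (nat_lit 234) (nat_lit 76) (nat_lit 0) (XT.nd (nat_lit 78) (nat_lit 228) (nat_lit 0) (XT.lf (nat_lit 0) (nat_lit 27802894416) (nat_lit 76) (nat_lit 1941255522) (nat_lit 152) (nat_lit 3812246305) (nat_lit 18) (nat_lit 5) (nat_lit 19) (nat_lit 5) (nat_lit 20) (nat_lit 4) (nat_lit 367) (nat_lit 251) (nat_lit 162)) (XT.nd (nat_lit 78) (nat_lit 0) (nat_lit 0) (XT.lf (nat_lit 0) (nat_lit 173883090) (nat_lit 228) (nat_lit 31347383437) (nat_lit 76) (nat_lit 2890484217) (nat_lit 15) (nat_lit 5) (nat_lit 18) (nat_lit 5) (nat_lit 16) (nat_lit 4) (nat_lit 368)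 (nat_lit 251) (nat_lit 161)) (XT.lf (nat_lit 0) (nat_lit 4262387896) (nat_lit 228) (nat_lit 23117138171) (nat_lit 76) (nat_lit 7910332185) (nat_lit 15) (nat_lit 5) (nat_lit 18) (nat_lit 5) (nat_lit 16) (nat_lit 4) (nat_lit 369) (nat_lit 251) (nat_lit 160)))) (XT.nd (nat_lit 78) (nat_lit 76) (nat_lit 0) (XT.lf (nat_lit 0) (nat_lit 8455605348) (nat_lit 228) (nat_lit 14672304306) (nat_lit 76) (nat_lit 13066944536) (nat_lit 15) (nat_lit 5) (nat_lit 18) (nat_lit 5) (nat_lit 16) (nat_lit 4) (nat_lit 370) (nat_lit 251) (nat_lit 159)) (XT.nd (nat_lit 78) (nat_lit 76) (nat_lit 0) (XT.lf (nat_lit 0) (nat_lit 12757199422) (nat_lit 228) (nat_lit 6005502863) (nat_lit 76) (nat_lit 18364827047) (nat_lit 15) (nat_lit 5) (nat_lit 18) (nat_lit 5) (nat_lit 16) (nat_lit 4) (nat_lit 371) (nat_lit 251) (nat_lit 158)) (XT.lf (nat_lit 0) (nat_lit 2948372458) (nat_lit 76) (nat_lit 14250897894) (nat_lit 152) (nat_lit 20888578038)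 (nat_lit 14) (nat_lit 5) (nat_lit 15) (nat_lit 5) (nat_lit 16) (nat_lit 4) (nat_lit 372) (nat_lit 251) (nat_lit 157))))) (XT.nd (nat_lit 234) (nat_lit 152) (nat_lit 0) (XT.nd (nat_lit 78) (nat_lit 0) (nat_lit 0) (XT.lf (nat_lit 0) (nat_lit 12263806091) (nat_lit 76) (nat_lit 9554731231) (nat_lit 152) (nat_lit 17257128022) (nat_lit 14) (nat_lit 5) (nat_lit 15) (nat_lit 5) (nat_lit 16) (nat_lit 4) (nat_lit 373) (nat_lit 251) (nat_lit 156)) (XT.nd (nat_lit 78) (nat_lit 0) (nat_lit 0) (XT.lf (nat_lit 0) (nat_lit 21829416453) (nat_lit 76) (nat_lit 4730742654) (nat_lit 152) (nat_lit 13533450553) (nat_lit 14) (nat_lit 5) (nat_lit 15) (nat_lit 5) (nat_lit 16) (nat_lit 4) (nat_lit 374) (nat_lit 251) (nat_lit 155)) (XT.lf (nat_lit 0) (nat_lit 31430444428) (nat_lit 152) (nat_lit 9491174519) (nat_lit 0) (nat_lit 220886890) (nat_lit 14) (nat_lit 5) (nat_lit 16) (nat_lit 4) (nat_lit 14) (nat_lit 4) (nat_lit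 375) (nat_lit 251) (nat_lit 154)))) (XT.nd (nat_lit 156) (nat_lit 76) (nat_lit 0) (XT.nd (nat_lit 78) (nat_lit 76) (nat_lit 0) (XT.lf (nat_lit 0) (nat_lit 36478267066) (nat_lit 152) (nat_lit 529755634) (nat_lit 0) (nat_lit 5213909142) (nat_lit 14) (nat_lit 5) (nat_lit 16) (nat_lit 4) (nat_lit 14) (nat_lit 4) (nat_lit 376) (nat_lit 251) (nat_lit 153)) (XT.lf (nat_lit 0) (nat_lit 8845985647) (nat_lit 76) (nat_lit 32901610324) (nat_lit 76) (nat_lit 1584048142) (nat_lit 13) (nat_lit 4) (nat_lit 14) (nat_lit 5) (nat_lit 14) (nat_lit 4) (nat_lit 377) (nat_lit 251) (nat_lit 152))) (XT.nd (nat_lit 78) (nat_lit 0) (nat_lit 0) (XT.lf (nat_lit 0) (nat_lit 2638130050) (nat_lit 152) (nat_lit 26013812800) (nat_lit 76) (nat_lit 15822217488) (nat_lit 12) (nat_lit 5) (nat_lit 14) (nat_lit 5) (nat_lit 13) (nat_lit 4) (nat_lit 378) (nat_lit 251) (nat_lit 151)) (XT.lf (nat_lit 0) (nat_lit 6940635101) (nat_lit 152)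 (nat_lit 17329877663) (nat_lit 76) (nat_lit 21380408954) (nat_lit 12) (nat_lit 5) (nat_lit 14) (nat_lit 5) (nat_lit 13) (nat_lit 4) (nat_lit 379) (nat_lit 251) (nat_lit 150)))))) (XT.nd (nat_lit 546) (nat_lit 228) (nat_lit 0) (XT.nd (nat_lit 234) (nat_lit 0) (nat_lit 0) (XT.nd (nat_lit 78) (nat_lit 76) (nat_lit 0) (XT.lf (nat_lit 0) (nat_lit 11358136965) (nat_lit 152) (nat_lit 8411038310) (nat_lit 76) (nat_lit 27094238019) (nat_lit 12) (nat_lit 5) (nat_lit 14) (nat_lit 5) (nat_lit 13) (nat_lit 4) (nat_lit 380) (nat_lit 251) (nat_lit 149)) (XT.nd (nat_lit 78) (nat_lit 0) (nat_lit 0) (XT.lf (nat_lit 0) (nat_lit 765434808) (nat_lit 76) (nat_lit 15136418617) (nat_lit 152) (nat_lit 32210620369) (nat_lit 11) (nat_lit 5) (nat_lit 12) (nat_lit 5) (nat_lit 13) (nat_lit 4) (nat_lit 381) (nat_lit 251) (nat_lit 148)) (XT.lf (nat_lit 0) (nat_lit 10364996156) (nat_lit 76) (nat_lit 10288313332) (nat_lit 152)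 (nat_lit 28743558496) (nat_lit 11) (nat_lit 5) (nat_lit 12) (nat_lit 5) (nat_lit 13) (nat_lit 4) (nat_lit 382) (nat_lit 251) (nat_lit 147)))) (XT.nd (nat_lit 156) (nat_lit 0) (nat_lit 0) (XT.nd (nat_lit 78) (nat_lit 0) (nat_lit 0) (XT.lf (nat_lit 0) (nat_lit 20228637546) (nat_lit 76) (nat_lit 5305558207) (nat_lit 152) (nat_lit 25185996233) (nat_lit 11) (nat_lit 5) (nat_lit 12) (nat_lit 5) (nat_lit 13) (nat_lit 4) (nat_lit 383) (nat_lit 251) (nat_lit 146)) (XT.lf (nat_lit 0) (nat_lit 30364977694) (nat_lit 76) (nat_lit 183799379) (nat_lit 152) (nat_lit 21534825030) (nat_lit 11) (nat_lit 5) (nat_lit 12) (nat_lit 5) (nat_lit 13) (nat_lit 4) (nat_lit 384) (nat_lit 251) (nat_lit 145))) (XT.nd (nat_lit 78) (nat_lit 0) (nat_lit 0) (XT.lf (nat_lit 0) (nat_lit 35750281015) (nat_lit 152) (nat_lit 12754261964) (nat_lit 0) (nat_lit 4982281308) (nat_lit 11) (nat_lit 5) (nat_lit 13) (nat_lit 4) (nat_lit 11)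 (nat_lit 4) (nat_lit 385) (nat_lit 251) (nat_lit 144)) (XT.lf (nat_lit 0) (nat_lit 41097554231) (nat_lit 152) (nat_lit 3544935814) (nat_lit 0) (nat_lit 10289965559) (nat_lit 11) (nat_lit 5) (nat_lit 13) (nat_lit 4) (nat_lit 11) (nat_lit 4) (nat_lit 386) (nat_lit 251) (nat_lit 143))))) (XT.nd (nat_lit 234) (nat_lit 152) (nat_lit 0) (XT.nd (nat_lit 78) (nat_lit 0) (nat_lit 0) (XT.lf (nat_lit 0) (nat_lit 6036970861) (nat_lit 76) (nat_lit 40614562499) (nat_lit 76) (nat_lit 9768537940) (nat_lit 10) (nat_lit 4) (nat_lit 11) (nat_lit 5) (nat_lit 11) (nat_lit 4) (nat_lit 387) (nat_lit 251) (nat_lit 142)) (XT.nd (nat_lit 78) (nat_lit 0) (nat_lit 0) (XT.lf (nat_lit 0) (nat_lit 15957710948) (nat_lit 76) (nat_lit 36438611849) (nat_lit 76) (nat_lit 5555270893) (nat_lit 10) (nat_lit 4) (nat_lit 11) (nat_lit 5) (nat_lit 11) (nat_lit 4) (nat_lit 388) (nat_lit 251) (nat_lit 141)) (XT.lf (nat_lit 0) (nat_lit 26155401881)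 (nat_lit 76) (nat_lit 32146786107) (nat_lit 76) (nat_lit 1227215640) (nat_lit 10) (nat_lit 4) (nat_lit 11) (nat_lit 5) (nat_lit 11) (nat_lit 4) (nat_lit 389) (nat_lit 251) (nat_lit 140)))) (XT.nd (nat_lit 156) (nat_lit 76) (nat_lit 0) (XT.nd (nat_lit 78) (nat_lit 0) (nat_lit 0) (XT.lf (nat_lit 0) (nat_lit 3156587337) (nat_lit 152) (nat_lit 24546872454) (nat_lit 76) (nat_lit 33450491584) (nat_lit 9) (nat_lit 5) (nat_lit 11) (nat_lit 5) (nat_lit 10) (nat_lit 4) (nat_lit 390) (nat_lit 251) (nat_lit 139)) (XT.lf (nat_lit 0) (nat_lit 7636508775) (nat_lit 152) (nat_lit 15486781723) (nat_lit 76) (nat_lit 39703905941) (nat_lit 9) (nat_lit 5) (nat_lit 11) (nat_lit 5) (nat_lit 10) (nat_lit 4) (nat_lit 391) (nat_lit 251) (nat_lit 138))) (XT.nd (nat_lit 78) (nat_lit 76) (nat_lit 0) (XT.lf (nat_lit 0) (nat_lit 12240410565) (nat_lit 152) (nat_lit 6174016223) (nat_lit 76) (nat_lit 46136527995) (nat_lit 9) (nat_lit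 5) (nat_lit 11) (nat_lit 5) (nat_lit 10) (nat_lit 4) (nat_lit 392) (nat_lit 251) (nat_lit 137)) (XT.lf (nat_lit 0) (nat_lit 3467219349) (nat_lit 76) (nat_lit 13538425218) (nat_lit 152) (nat_lit 49320088166) (nat_lit 8) (nat_lit 5) (nat_lit 9) (nat_lit 5) (nat_lit 10) (nat_lit 4) (nat_lit 393) (nat_lit 251) (nat_lit 136))))))))
noncomputable def xc83 : XT := (XT.nd (nat_lit 32292) (nat_lit 0) (nat_lit 5928) (XT.nd (nat_lit 1014) (nat_lit 0) (nat_lit 0) (XT.nd (nat_lit 468) (nat_lit 152) (nat_lit 0) (XT.nd (nat_lit 234) (nat_lit 0) (nat_lit 0) (XT.nd (nat_lit 78) (nat_lit 0) (nat_lit 0) (XT.lf (nat_lit 0) (nat_lit 13505864508) (nat_lit 76) (nat_lit 8460320480) (nat_lit 152) (nat_lit 46186001766) (nat_lit 8) (nat_lit 5) (nat_lit 9) (nat_lit 5) (nat_lit 10) (nat_lit 4) (nat_lit 394) (nat_lit 251) (nat_lit 135)) (XT.nd (nat_lit 78) (nat_lit 0) (nat_lit 0) (XT.lf (nat_lit 0) (nat_lit 23827815855) (nat_lit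 76) (nat_lit 3238020853) (nat_lit 152) (nat_lit 42967891954) (nat_lit 8) (nat_lit 5) (nat_lit 9) (nat_lit 5) (nat_lit 10) (nat_lit 4) (nat_lit 395) (nat_lit 251) (nat_lit 134)) (XT.lf (nat_lit 0) (nat_lit 32329559789) (nat_lit 152) (nat_lit 37550414009) (nat_lit 0) (nat_lit 2091413604) (nat_lit 8) (nat_lit 5) (nat_lit 10) (nat_lit 4) (nat_lit 8) (nat_lit 4) (nat_lit 396) (nat_lit 251) (nat_lit 133)))) (XT.nd (nat_lit 78) (nat_lit 0) (nat_lit 0) (XT.lf (nat_lit 0) (nat_lit 37774032535) (nat_lit 152) (nat_lit 28684341726) (nat_lit 0) (nat_lit 7508119446) (nat_lit 8) (nat_lit 5) (nat_lit 10) (nat_lit 4) (nat_lit 8) (nat_lit 4) (nat_lit 397) (nat_lit 251) (nat_lit 132)) (XT.nd (nat_lit 78) (nat_lit 0) (nat_lit 0) (XT.lf (nat_lit 0) (nat_lit 43372886413) (nat_lit 152) (nat_lit 19568823068) (nat_lit 0) (nat_lit 13080015165) (nat_lit 8) (nat_lit 5) (nat_lit 10) (nat_lit 4) (nat_lit 8) (nat_lit 4) (nat_lit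 398) (nat_lit 251) (nat_lit 131)) (XT.lf (nat_lit 0) (nat_lit 49131013626) (nat_lit 152) (nat_lit 10195893019) (nat_lit 0) (nat_lit 18811969410) (nat_lit 8) (nat_lit 5) (nat_lit 10) (nat_lit 4) (nat_lit 8) (nat_lit 4) (nat_lit 399) (nat_lit 251) (nat_lit 130))))) (XT.nd (nat_lit 234) (nat_lit 76) (nat_lit 0) (XT.nd (nat_lit 78) (nat_lit 76) (nat_lit 0) (XT.lf (nat_lit 0) (nat_lit 55053445549) (nat_lit 152) (nat_lit 557361639) (nat_lit 0) (nat_lit 24708990682) (nat_lit 8) (nat_lit 5) (nat_lit 10) (nat_lit 4) (nat_lit 8) (nat_lit 4) (nat_lit 400) (nat_lit 251) (nat_lit 129)) (XT.nd (nat_lit 78) (nat_lit 0) (nat_lit 0) (XT.lf (nat_lit 0) (nat_lit 9541379773) (nat_lit 76) (nat_lit 51695694926) (nat_lit 76) (nat_lit 21326569525) (nat_lit 7) (nat_lit 4) (nat_lit 8) (nat_lit 5) (nat_lit 8) (nat_lit 4) (nat_lit 401) (nat_lit 251) (nat_lit 128)) (XT.lf (nat_lit 0) (nat_lit 19939524561) (nat_lit 76) (nat_lit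 47664217717) (nat_lit 76) (nat_lit 17271140342) (nat_lit 7) (nat_lit 4) (nat_lit 8) (nat_lit 5) (nat_lit 8) (nat_lit 4) (nat_lit 402) (nat_lit 251) (nat_lit 127)))) (XT.nd (nat_lit 156) (nat_lit 76) (nat_lit 0) (XT.nd (nat_lit 78) (nat_lit 0) (nat_lit 0) (XT.lf (nat_lit 0) (nat_lit 30635065891) (nat_lit 76) (nat_lit 43518481172) (nat_lit 76) (nat_lit 13102149452) (nat_lit 7) (nat_lit 4) (nat_lit 8) (nat_lit 5) (nat_lit 8) (nat_lit 4) (nat_lit 403) (nat_lit 251) (nat_lit 126)) (XT.lf (nat_lit 0) (nat_lit 41637349384) (nat_lit 76) (nat_lit 39254862801) (nat_lit 76) (nat_lit 8815954047) (nat_lit 7) (nat_lit 4) (nat_lit 8) (nat_lit 5) (nat_lit 8) (nat_lit 4) (nat_lit 404) (nat_lit 251) (nat_lit 125))) (XT.nd (nat_lit 78) (nat_lit 76) (nat_lit 0) (XT.lf (nat_lit 0) (nat_lit 52955988683) (nat_lit 76) (nat_lit 34869637113) (nat_lit 76) (nat_lit 4408808910) (nat_lit 7) (nat_lit 4) (nat_lit 8) (nat_lit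 5) (nat_lit 8) (nat_lit 4) (nat_lit 405) (nat_lit 251) (nat_lit 124)) (XT.lf (nat_lit 0) (nat_lit 120734020) (nat_lit 152) (nat_lit 30237019161) (nat_lit 76) (nat_lit 64478920666) (nat_lit 6) (nat_lit 5) (nat_lit 8) (nat_lit 5) (nat_lit 7) (nat_lit 4) (nat_lit 406) (nat_lit 251) (nat_lit 123)))))) (XT.nd (nat_lit 30732) (nat_lit 0) (nat_lit 14744) (XT.nd (nat_lit 30498) (nat_lit 0) (nat_lit 18772) (XT.nd (nat_lit 78) (nat_lit 0) (nat_lit 0) (XT.lf (nat_lit 0) (nat_lit 4690493216) (nat_lit 152) (nat_lit 20981069177) (nat_lit 76) (nat_lit 71844322065) (nat_lit 6) (nat_lit 5) (nat_lit 8) (nat_lit 5) (nat_lit 7) (nat_lit 4) (nat_lit 407) (nat_lit 251) (nat_lit 122)) (XT.nd (nat_lit 30342) (nat_lit 0) (nat_lit 20292) (XT.lf (nat_lit 0) (nat_lit 9390493412) (nat_lit 152) (nat_lit 11460128181) (nat_lit 76) (nat_lit 79425057411) (nat_lit 6) (nat_lit 5) (nat_lit 8) (nat_lit 5) (nat_lit 7) (nat_lit 4) (nat_lit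 408) (nat_lit 251) (nat_lit 121)) (XT.lf (nat_lit 0) (nat_lit 962537528) (nat_lit 684) (nat_lit 1440936901) (nat_lit 0) (nat_lit 962537528) (nat_lit 273) (nat_lit 5) (nat_lit 282) (nat_lit 4) (nat_lit 273) (nat_lit 4) (nat_lit 276) (nat_lit 252) (nat_lit 252)))) (XT.nd (nat_lit 78) (nat_lit 836) (nat_lit 0) (XT.lf (nat_lit 0) (nat_lit 1208696984) (nat_lit 684) (nat_lit 3789868677) (nat_lit 684) (nat_lit 1771850699) (nat_lit 264) (nat_lit 4) (nat_lit 273) (nat_lit 5) (nat_lit 273) (nat_lit 4) (nat_lit 277) (nat_lit 252) (nat_lit 251)) (XT.nd (nat_lit 78) (nat_lit 760) (nat_lit 0) (XT.lf (nat_lit 0) (nat_lit 1257083119) (nat_lit 760) (nat_lit 1425379998) (nat_lit 76) (nat_lit 4129432076) (nat_lit 263) (nat_lit 5) (nat_lit 273) (nat_lit 5) (nat_lit 264) (nat_lit 4) (nat_lit 278) (nat_lit 252) (nat_lit 250)) (XT.lf (nat_lit 0) (nat_lit 2790357929) (nat_lit 760) (nat_lit 1480475642) (nat_lit 836) (nat_lit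 2585567294) (nat_lit 253) (nat_lit 5) (nat_lit 263) (nat_lit 5) (nat_lit 264) (nat_lit 4) (nat_lit 279) (nat_lit 252) (nat_lit 249))))) (XT.nd (nat_lit 234) (nat_lit 2204) (nat_lit 0) (XT.nd (nat_lit 78) (nat_lit 912) (nat_lit 0) (XT.lf (nat_lit 0) (nat_lit 175820852) (nat_lit 836) (nat_lit 207600768) (nat_lit 912) (nat_lit 6521271367) (nat_lit 241) (nat_lit 5) (nat_lit 252) (nat_lit 5) (nat_lit 253) (nat_lit 5) (nat_lit 280) (nat_lit 252) (nat_lit 248)) (XT.nd (nat_lit 78) (nat_lit 912) (nat_lit 0) (XT.lf (nat_lit 0) (nat_lit 3347385712) (nat_lit 912) (nat_lit 2446738439) (nat_lit 76) (nat_lit 1160984544) (nat_lit 241) (nat_lit 5) (nat_lit 253) (nat_lit 5) (nat_lit 242) (nat_lit 4) (nat_lit 281) (nat_lit 252) (nat_lit 247)) (XT.lf (nat_lit 0) (nat_lit 1916469531) (nat_lit 912) (nat_lit 4412820740) (nat_lit 988) (nat_lit 680049741) (nat_lit 229) (nat_lit 5) (nat_lit 241) (nat_lit 5) (nat_lit 242)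 (nat_lit 4) (nat_lit 282) (nat_lit 252) (nat_lit 246)))) (XT.nd (nat_lit 156) (nat_lit 1140) (nat_lit 0) (XT.nd (nat_lit 78) (nat_lit 988) (nat_lit 0) (XT.lf (nat_lit 0) (nat_lit 2224200227) (nat_lit 988) (nat_lit 710309990) (nat_lit 76) (nat_lit 4132148779) (nat_lit 228) (nat_lit 5) (nat_lit 241) (nat_lit 5) (nat_lit 229) (nat_lit 5) (nat_lit 283) (nat_lit 252) (nat_lit 245)) (XT.lf (nat_lit 0) (nat_lit 3789496228) (nat_lit 988) (nat_lit 1360847628) (nat_lit 1064) (nat_lit 1976857703) (nat_lit 215) (nat_lit 5) (nat_lit 228) (nat_lit 5) (nat_lit 229) (nat_lit 5) (nat_lit 284) (nat_lit 252) (nat_lit 244))) (XT.nd (nat_lit 78) (nat_lit 0) (nat_lit 0) (XT.lf (nat_lit 0) (nat_lit 889895076) (nat_lit 1140) (nat_lit 6013731954) (nat_lit 76) (nat_lit 287776077) (nat_lit 200) (nat_lit 5) (nat_lit 215) (nat_lit 5) (nat_lit 201) (nat_lit 5) (nat_lit 285) (nat_lit 252) (nat_lit 243)) (XT.lf (nat_lit 0) (nat_lit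 3765009975) (nat_lit 1140) (nat_lit 1477438908) (nat_lit 76) (nat_lit 2015777404) (nat_lit 200) (nat_lit 5) (nat_lit 215) (nat_lit 5) (nat_lit 201) (nat_lit 5) (nat_lit 286) (nat_lit 252) (nat_lit 242))))))) (XT.nd (nat_lit 1014) (nat_lit 3116) (nat_lit 0) (XT.nd (nat_lit 468) (nat_lit 2660) (nat_lit 0) (XT.nd (nat_lit 234) (nat_lit 1216) (nat_lit 0) (XT.nd (nat_lit 78) (nat_lit 684) (nat_lit 0) (XT.lf (nat_lit 0) (nat_lit 3174889008) (nat_lit 1140) (nat_lit 3499076921) (nat_lit 1216) (nat_lit 654801908) (nat_lit 185) (nat_lit 5) (nat_lit 200) (nat_lit 5) (nat_lit 201) (nat_lit 5) (nat_lit 287) (nat_lit 252) (nat_lit 241)) (XT.nd (nat_lit 78) (nat_lit 0) (nat_lit 0) (XT.lf (nat_lit 0) (nat_lit 500940137) (nat_lit 608) (nat_lit 1661199418) (nat_lit 684) (nat_lit 5240635617) (nat_lit 176) (nat_lit 5) (nat_lit 184) (nat_lit 5) (nat_lit 185) (nat_lit 5) (nat_lit 288) (nat_lit 252) (nat_lit 240)) (XT.lf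 (nat_lit 0) (nat_lit 5014372928) (nat_lit 684) (nat_lit 2191010419) (nat_lit 76) (nat_lit 274635859) (nat_lit 176) (nat_lit 5) (nat_lit 185) (nat_lit 5) (nat_lit 177) (nat_lit 5) (nat_lit 289) (nat_lit 252) (nat_lit 239)))) (XT.nd (nat_lit 78) (nat_lit 532) (nat_lit 0) (XT.lf (nat_lit 0) (nat_lit 347718581) (nat_lit 684) (nat_lit 4950753979) (nat_lit 76) (nat_lit 2262233076) (nat_lit 167) (nat_lit 5) (nat_lit 176) (nat_lit 5) (nat_lit 168) (nat_lit 5) (nat_lit 290) (nat_lit 252) (nat_lit 238)) (XT.nd (nat_lit 78) (nat_lit 532) (nat_lit 0) (XT.lf (nat_lit 0) (nat_lit 3140592968) (nat_lit 684) (nat_lit 151008851) (nat_lit 76) (nat_lit 4353256838) (nat_lit 167) (nat_lit 5) (nat_lit 176) (nat_lit 5) (nat_lit 168) (nat_lit 5) (nat_lit 291) (nat_lit 252) (nat_lit 237)) (XT.lf (nat_lit 0) (nat_lit 4805843178) (nat_lit 532) (nat_lit 1182191252) (nat_lit 608) (nat_lit 1744493308) (nat_lit 160) (nat_lit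 5) (nat_lit 167) (nat_lit 5) (nat_lit 168) (nat_lit 5) (nat_lit 292) (nat_lit 252) (nat_lit 236))))) (XT.nd (nat_lit 234) (nat_lit 1596) (nat_lit 0) (XT.nd (nat_lit 78) (nat_lit 456) (nat_lit 0) (XT.lf (nat_lit 0) (nat_lit 1032731851) (nat_lit 608) (nat_lit 5794529714) (nat_lit 76) (nat_lit 996674354) (nat_lit 152) (nat_lit 5) (nat_lit 160) (nat_lit 5) (nat_lit 153) (nat_lit 5) (nat_lit 293) (nat_lit 252) (nat_lit 235)) (XT.nd (nat_lit 78) (nat_lit 456) (nat_lit 0) (XT.lf (nat_lit 0) (nat_lit 3826267774) (nat_lit 608) (nat_lit 835206515) (nat_lit 76) (nat_lit 3257157336) (nat_lit 152) (nat_lit 5) (nat_lit 160) (nat_lit 5) (nat_lit 153) (nat_lit 5) (nat_lit 294) (nat_lit 252) (nat_lit 234)) (XT.lf (nat_lit 0) (nat_lit 4275837292) (nat_lit 456) (nat_lit 2397520410) (nat_lit 532) (nat_lit 1343820142) (nat_lit 146) (nat_lit 5) (nat_lit 152) (nat_lit 5) (nat_lit 153) (nat_lit 5) (nat_lit 295) (nat_lit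 252) (nat_lit 233)))) (XT.nd (nat_lit 156) (nat_lit 988) (nat_lit 0) (XT.nd (nat_lit 78) (nat_lit 0) (nat_lit 0) (XT.lf (nat_lit 0) (nat_lit 1370048463) (nat_lit 532) (nat_lit 38965762) (nat_lit 608) (nat_lit 6710807938) (nat_lit 138) (nat_lit 5) (nat_lit 145) (nat_lit 5) (nat_lit 146) (nat_lit 5) (nat_lit 296) (nat_lit 252) (nat_lit 232)) (XT.lf (nat_lit 0) (nat_lit 4208908833) (nat_lit 608) (nat_lit 1632087905) (nat_lit 76) (nat_lit 2384498799) (nat_lit 138) (nat_lit 5) (nat_lit 146) (nat_lit 5) (nat_lit 139) (nat_lit 5) (nat_lit 297) (nat_lit 252) (nat_lit 231))) (XT.nd (nat_lit 78) (nat_lit 532) (nat_lit 0) (XT.lf (nat_lit 0) (nat_lit 3629477735) (nat_lit 456) (nat_lit 3430978590) (nat_lit 532) (nat_lit 1274943802) (nat_lit 132) (nat_lit 5) (nat_lit 138) (nat_lit 5) (nat_lit 139) (nat_lit 5) (nat_lit 298) (nat_lit 252) (nat_lit 230)) (XT.lf (nat_lit 0) (nat_lit 549176984) (nat_lit 456) (nat_lit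 924313695) (nat_lit 532) (nat_lit 6976106948) (nat_lit 125) (nat_lit 5) (nat_lit 131) (nat_lit 5) (nat_lit 132) (nat_lit 5) (nat_lit 299) (nat_lit 252) (nat_lit 229)))))) (XT.nd (nat_lit 546) (nat_lit 1444) (nat_lit 0) (XT.nd (nat_lit 234) (nat_lit 1216) (nat_lit 0) (XT.nd (nat_lit 78) (nat_lit 456) (nat_lit 0) (XT.lf (nat_lit 0) (nat_lit 4276575680) (nat_lit 532) (nat_lit 2618288679) (nat_lit 76) (nat_lit 1672126321) (nat_lit 125) (nat_lit 5) (nat_lit 132) (nat_lit 5) (nat_lit 126) (nat_lit 5) (nat_lit 300) (nat_lit 252) (nat_lit 228)) (XT.nd (nat_lit 78) (nat_lit 76) (nat_lit 0) (XT.lf (nat_lit 0) (nat_lit 2788083229) (nat_lit 380) (nat_lit 4347445786) (nat_lit 456) (nat_lit 1553303818) (nat_lit 120) (nat_lit 5) (nat_lit 125) (nat_lit 5) (nat_lit 126) (nat_lit 5) (nat_lit 301) (nat_lit 252) (nat_lit 227)) (XT.lf (nat_lit 0) (nat_lit 1204154405) (nat_lit 456) (nat_lit 495692752) (nat_lit 76)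 (nat_lit 7115305896) (nat_lit 119) (nat_lit 5) (nat_lit 125) (nat_lit 5) (nat_lit 120) (nat_lit 5) (nat_lit 302) (nat_lit 252) (nat_lit 226)))) (XT.nd (nat_lit 156) (nat_lit 456) (nat_lit 0) (XT.nd (nat_lit 78) (nat_lit 380) (nat_lit 0) (XT.lf (nat_lit 0) (nat_lit 4010374310) (nat_lit 456) (nat_lit 3878121128) (nat_lit 76) (nat_lit 1056462075) (nat_lit 114) (nat_lit 5) (nat_lit 120) (nat_lit 5) (nat_lit 115) (nat_lit 5) (nat_lit 303) (nat_lit 252) (nat_lit 225)) (XT.lf (nat_lit 0) (nat_lit 1664810799) (nat_lit 380) (nat_lit 5212859320) (nat_lit 456) (nat_lit 2201750907) (nat_lit 109) (nat_lit 5) (nat_lit 114) (nat_lit 5) (nat_lit 115) (nat_lit 5) (nat_lit 304) (nat_lit 252) (nat_lit 224))) (XT.nd (nat_lit 78) (nat_lit 380) (nat_lit 0) (XT.lf (nat_lit 0) (nat_lit 580018969) (nat_lit 456) (nat_lit 1848691456) (nat_lit 76) (nat_lit 6789731240) (nat_lit 108) (nat_lit 5) (nat_lit 114) (nat_lit 5) (nat_lit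 109) (nat_lit 5) (nat_lit 305) (nat_lit 252) (nat_lit 223)) (XT.lf (nat_lit 0) (nat_lit 3383864088) (nat_lit 456) (nat_lit 5505470816) (nat_lit 76) (nat_lit 472223299) (nat_lit 103) (nat_lit 5) (nat_lit 109) (nat_lit 5) (nat_lit 104) (nat_lit 5) (nat_lit 306) (nat_lit 252) (nat_lit 222))))) (XT.nd (nat_lit 234) (nat_lit 684) (nat_lit 0) (XT.nd (nat_lit 78) (nat_lit 456) (nat_lit 0) (XT.lf (nat_lit 0) (nat_lit 162681225) (nat_lit 304) (nat_lit 6095546663) (nat_lit 380) (nat_lit 3251211863) (nat_lit 99) (nat_lit 5) (nat_lit 103) (nat_lit 5) (nat_lit 104) (nat_lit 5) (nat_lit 307) (nat_lit 252) (nat_lit 221)) (XT.nd (nat_lit 78) (nat_lit 456) (nat_lit 0) (XT.lf (nat_lit 0) (nat_lit 6036737368) (nat_lit 304) (nat_lit 3180570530) (nat_lit 380) (nat_lit 444557050) (nat_lit 99) (nat_lit 5) (nat_lit 103) (nat_lit 5) (nat_lit 104) (nat_lit 5) (nat_lit 308) (nat_lit 252) (nat_lit 220)) (XT.lf (nat_lit 0)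 (nat_lit 2211870170) (nat_lit 380) (nat_lit 151899459) (nat_lit 456) (nat_lit 7455489779) (nat_lit 93) (nat_lit 5) (nat_lit 98) (nat_lit 5) (nat_lit 99) (nat_lit 5) (nat_lit 309) (nat_lit 252) (nat_lit 219)))) (XT.nd (nat_lit 156) (nat_lit 380) (nat_lit 0) (XT.nd (nat_lit 78) (nat_lit 304) (nat_lit 0) (XT.lf (nat_lit 0) (nat_lit 5257570490) (nat_lit 456) (nat_lit 1791980937) (nat_lit 76) (nat_lit 2931443962) (nat_lit 93) (nat_lit 5) (nat_lit 99) (nat_lit 5) (nat_lit 94) (nat_lit 5) (nat_lit 310) (nat_lit 252) (nat_lit 218)) (XT.lf (nat_lit 0) (nat_lit 4203951780) (nat_lit 304) (nat_lit 4022423964) (nat_lit 380) (nat_lit 1921616866) (nat_lit 89) (nat_lit 5) (nat_lit 93) (nat_lit 5) (nat_lit 94) (nat_lit 5) (nat_lit 311) (nat_lit 252) (nat_lit 217))) (XT.nd (nat_lit 78) (nat_lit 0) (nat_lit 0) (XT.lf (nat_lit 0) (nat_lit 12991469) (nat_lit 304) (nat_lit 897393323) (nat_lit 380) (nat_lit 9410439955)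 (nat_lit 84) (nat_lit 5) (nat_lit 88) (nat_lit 5) (nat_lit 89) (nat_lit 5) (nat_lit 312) (nat_lit 252) (nat_lit 216)) (XT.lf (nat_lit 0) (nat_lit 3818848992) (nat_lit 380) (nat_lit 4343935120) (nat_lit 76) (nat_lit 2334633422) (nat_lit 84) (nat_lit 5) (nat_lit 89) (nat_lit 5) (nat_lit 85) (nat_lit 5) (nat_lit 313) (nat_lit 252) (nat_lit 215))))))))
noncomputable def xc84 : XT := (XT.nd (nat_lit 2028) (nat_lit 1596) (nat_lit 0) (XT.nd (nat_lit 1014) (nat_lit 1368) (nat_lit 0) (XT.nd (nat_lit 468) (nat_lit 1140) (nat_lit 0) (XT.nd (nat_lit 234) (nat_lit 228) (nat_lit 0) (XT.nd (nat_lit 78) (nat_lit 380) (nat_lit 0) (XT.lf (nat_lit 0) (nat_lit 1750818992) (nat_lit 304) (nat_lit 5038194254) (nat_lit 380) (nat_lit 3891110230) (nat_lit 80) (nat_lit 5) (nat_lit 84) (nat_lit 5) (nat_lit 85) (nat_lit 5) (nat_lit 314) (nat_lit 252) (nat_lit 214)) (XT.nd (nat_lit 78) (nat_lit 380) (nat_lit 0) (XT.lf (nat_lit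 0) (nat_lit 8044840474) (nat_lit 304) (nat_lit 1796833469) (nat_lit 380) (nat_lit 1026882242) (nat_lit 80) (nat_lit 5) (nat_lit 84) (nat_lit 5) (nat_lit 85) (nat_lit 5) (nat_lit 315) (nat_lit 252) (nat_lit 213)) (XT.lf (nat_lit 0) (nat_lit 1884416722) (nat_lit 380) (nat_lit 7635559209) (nat_lit 76) (nat_lit 1542195706) (nat_lit 75) (nat_lit 5) (nat_lit 80) (nat_lit 5) (nat_lit 76) (nat_lit 5) (nat_lit 316) (nat_lit 252) (nat_lit 212)))) (XT.nd (nat_lit 78) (nat_lit 228) (nat_lit 0) (XT.lf (nat_lit 0) (nat_lit 4860017963) (nat_lit 380) (nat_lit 1438776173) (nat_lit 76) (nat_lit 4962611643) (nat_lit 75) (nat_lit 5) (nat_lit 80) (nat_lit 5) (nat_lit 76) (nat_lit 5) (nat_lit 317) (nat_lit 252) (nat_lit 211)) (XT.nd (nat_lit 78) (nat_lit 0) (nat_lit 0) (XT.lf (nat_lit 0) (nat_lit 4970881061) (nat_lit 228) (nat_lit 2954231933) (nat_lit 304) (nat_lit 3541539233) (nat_lit 72) (nat_lit 5) (nat_lit 75)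 (nat_lit 5) (nat_lit 76) (nat_lit 5) (nat_lit 318) (nat_lit 252) (nat_lit 210)) (XT.lf (nat_lit 0) (nat_lit 11054495029) (nat_lit 304) (nat_lit 150731333) (nat_lit 76) (nat_lit 473700514) (nat_lit 72) (nat_lit 5) (nat_lit 76) (nat_lit 5) (nat_lit 73) (nat_lit 5) (nat_lit 319) (nat_lit 252) (nat_lit 209))))) (XT.nd (nat_lit 234) (nat_lit 532) (nat_lit 0) (XT.nd (nat_lit 78) (nat_lit 228) (nat_lit 0) (XT.lf (nat_lit 0) (nat_lit 2379352829) (nat_lit 380) (nat_lit 5507565677) (nat_lit 76) (nat_lit 4008635048) (nat_lit 67) (nat_lit 5) (nat_lit 72) (nat_lit 5) (nat_lit 68) (nat_lit 5) (nat_lit 320) (nat_lit 252) (nat_lit 208)) (XT.nd (nat_lit 78) (nat_lit 0) (nat_lit 0) (XT.lf (nat_lit 0) (nat_lit 950895306) (nat_lit 228) (nat_lit 4474993564) (nat_lit 304) (nat_lit 6693686404) (nat_lit 64) (nat_lit 5) (nat_lit 67) (nat_lit 5) (nat_lit 68) (nat_lit 5) (nat_lit 321) (nat_lit 252) (nat_lit 207)) (XT.lf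 (nat_lit 0) (nat_lit 7647896542) (nat_lit 228) (nat_lit 926720790) (nat_lit 304) (nat_lit 3775412699) (nat_lit 64) (nat_lit 5) (nat_lit 67) (nat_lit 5) (nat_lit 68) (nat_lit 5) (nat_lit 322) (nat_lit 252) (nat_lit 206)))) (XT.nd (nat_lit 156) (nat_lit 228) (nat_lit 0) (XT.nd (nat_lit 78) (nat_lit 76) (nat_lit 0) (XT.lf (nat_lit 0) (nat_lit 1902049374) (nat_lit 228) (nat_lit 9916533892) (nat_lit 304) (nat_lit 768827120) (nat_lit 61) (nat_lit 5) (nat_lit 64) (nat_lit 5) (nat_lit 65) (nat_lit 5) (nat_lit 323) (nat_lit 252) (nat_lit 205)) (XT.lf (nat_lit 0) (nat_lit 2296099222) (nat_lit 304) (nat_lit 4129257525) (nat_lit 76) (nat_lit 6405510171) (nat_lit 60) (nat_lit 5) (nat_lit 64) (nat_lit 5) (nat_lit 61) (nat_lit 5) (nat_lit 324) (nat_lit 252) (nat_lit 204))) (XT.nd (nat_lit 78) (nat_lit 0) (nat_lit 0) (XT.lf (nat_lit 0) (nat_lit 2601147110) (nat_lit 228) (nat_lit 2819088177) (nat_lit 304) (nat_lit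 7661714290) (nat_lit 57) (nat_lit 5) (nat_lit 60) (nat_lit 5) (nat_lit 61) (nat_lit 5) (nat_lit 325) (nat_lit 252) (nat_lit 203)) (XT.lf (nat_lit 0) (nat_lit 8646908249) (nat_lit 304) (nat_lit 3796167660) (nat_lit 76) (nat_lit 897255715) (nat_lit 57) (nat_lit 5) (nat_lit 61) (nat_lit 5) (nat_lit 58) (nat_lit 5) (nat_lit 326) (nat_lit 252) (nat_lit 202)))))) (XT.nd (nat_lit 468) (nat_lit 684) (nat_lit 0) (XT.nd (nat_lit 234) (nat_lit 228) (nat_lit 0) (XT.nd (nat_lit 78) (nat_lit 228) (nat_lit 0) (XT.lf (nat_lit 0) (nat_lit 3056718908) (nat_lit 228) (nat_lit 8930273556) (nat_lit 304) (nat_lit 1619004718) (nat_lit 54) (nat_lit 5) (nat_lit 57) (nat_lit 5) (nat_lit 58) (nat_lit 5) (nat_lit 327) (nat_lit 252) (nat_lit 201)) (XT.nd (nat_lit 78) (nat_lit 152) (nat_lit 0) (XT.lf (nat_lit 0) (nat_lit 1515625518) (nat_lit 304) (nat_lit 3764960156) (nat_lit 76) (nat_lit 8598683987) (nat_lit 53) (nat_lit 5)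 (nat_lit 57) (nat_lit 5) (nat_lit 54) (nat_lit 5) (nat_lit 328) (nat_lit 252) (nat_lit 200)) (XT.lf (nat_lit 0) (nat_lit 3207079440) (nat_lit 152) (nat_lit 1496149632) (nat_lit 228) (nat_lit 9457313912) (nat_lit 51) (nat_lit 5) (nat_lit 53) (nat_lit 5) (nat_lit 54) (nat_lit 5) (nat_lit 329) (nat_lit 252) (nat_lit 199)))) (XT.nd (nat_lit 78) (nat_lit 228) (nat_lit 0) (XT.lf (nat_lit 0) (nat_lit 8008922092) (nat_lit 228) (nat_lit 4069838957) (nat_lit 76) (nat_lit 2370846609) (nat_lit 51) (nat_lit 5) (nat_lit 54) (nat_lit 5) (nat_lit 52) (nat_lit 5) (nat_lit 330) (nat_lit 252) (nat_lit 198)) (XT.nd (nat_lit 78) (nat_lit 0) (nat_lit 0) (XT.lf (nat_lit 0) (nat_lit 3003191812) (nat_lit 228) (nat_lit 8416390981) (nat_lit 304) (nat_lit 3327613782) (nat_lit 48) (nat_lit 5) (nat_lit 51) (nat_lit 5) (nat_lit 52) (nat_lit 5) (nat_lit 331) (nat_lit 252) (nat_lit 197)) (XT.lf (nat_lit 0) (nat_lit 10311545917)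 (nat_lit 228) (nat_lit 4624753654) (nat_lit 304) (nat_lit 117326945) (nat_lit 48) (nat_lit 5) (nat_lit 51) (nat_lit 5) (nat_lit 52) (nat_lit 5) (nat_lit 332) (nat_lit 252) (nat_lit 196))))) (XT.nd (nat_lit 234) (nat_lit 228) (nat_lit 0) (XT.nd (nat_lit 78) (nat_lit 228) (nat_lit 0) (XT.lf (nat_lit 0) (nat_lit 2427317149) (nat_lit 152) (nat_lit 686393780) (nat_lit 228) (nat_lit 12255042397) (nat_lit 45) (nat_lit 5) (nat_lit 47) (nat_lit 5) (nat_lit 48) (nat_lit 5) (nat_lit 333) (nat_lit 252) (nat_lit 195)) (XT.nd (nat_lit 78) (nat_lit 228) (nat_lit 0) (XT.lf (nat_lit 0) (nat_lit 6483707380) (nat_lit 228) (nat_lit 5876526301) (nat_lit 76) (nat_lit 3331757127) (nat_lit 45) (nat_lit 5) (nat_lit 48) (nat_lit 5) (nat_lit 46) (nat_lit 5) (nat_lit 334) (nat_lit 252) (nat_lit 194)) (XT.lf (nat_lit 0) (nat_lit 1362250935) (nat_lit 228) (nat_lit 8577133010) (nat_lit 304) (nat_lit 6086026671) (nat_lit 42)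 (nat_lit 5) (nat_lit 45) (nat_lit 5) (nat_lit 46) (nat_lit 5) (nat_lit 335) (nat_lit 252) (nat_lit 193)))) (XT.nd (nat_lit 156) (nat_lit 152) (nat_lit 0) (XT.nd (nat_lit 78) (nat_lit 76) (nat_lit 0) (XT.lf (nat_lit 0) (nat_lit 8881355455) (nat_lit 228) (nat_lit 4641883867) (nat_lit 304) (nat_lit 2844880389) (nat_lit 42) (nat_lit 5) (nat_lit 45) (nat_lit 5) (nat_lit 46) (nat_lit 5) (nat_lit 336) (nat_lit 252) (nat_lit 192)) (XT.lf (nat_lit 0) (nat_lit 449696258) (nat_lit 304) (nat_lit 156151772) (nat_lit 76) (nat_lit 16116165645) (nat_lit 41) (nat_lit 5) (nat_lit 45) (nat_lit 5) (nat_lit 42) (nat_lit 5) (nat_lit 337) (nat_lit 252) (nat_lit 191))) (XT.nd (nat_lit 78) (nat_lit 0) (nat_lit 0) (XT.lf (nat_lit 0) (nat_lit 3859352603) (nat_lit 228) (nat_lit 9662427929) (nat_lit 76) (nat_lit 3561716347) (nat_lit 39) (nat_lit 5) (nat_lit 42) (nat_lit 5) (nat_lit 40) (nat_lit 5) (nat_lit 338) (nat_lit 252)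 (nat_lit 190)) (XT.lf (nat_lit 0) (nat_lit 7345950771) (nat_lit 228) (nat_lit 2287933793) (nat_lit 76) (nat_lit 7822719953) (nat_lit 39) (nat_lit 5) (nat_lit 42) (nat_lit 5) (nat_lit 40) (nat_lit 5) (nat_lit 339) (nat_lit 252) (nat_lit 189))))))) (XT.nd (nat_lit 1014) (nat_lit 684) (nat_lit 0) (XT.nd (nat_lit 468) (nat_lit 380) (nat_lit 0) (XT.nd (nat_lit 234) (nat_lit 228) (nat_lit 0) (XT.nd (nat_lit 78) (nat_lit 152) (nat_lit 0) (XT.lf (nat_lit 0) (nat_lit 5359019756) (nat_lit 152) (nat_lit 5597661884) (nat_lit 228) (nat_lit 6883656633) (nat_lit 37) (nat_lit 5) (nat_lit 39) (nat_lit 5) (nat_lit 40) (nat_lit 5) (nat_lit 340) (nat_lit 252) (nat_lit 188)) (XT.nd (nat_lit 78) (nat_lit 152) (nat_lit 0) (XT.lf (nat_lit 0) (nat_lit 13229456156) (nat_lit 152) (nat_lit 1437826150) (nat_lit 228) (nat_lit 3568573683) (nat_lit 37) (nat_lit 5) (nat_lit 39) (nat_lit 5) (nat_lit 40) (nat_lit 5) (nat_lit 341)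 (nat_lit 252) (nat_lit 187)) (XT.lf (nat_lit 0) (nat_lit 2665386504) (nat_lit 152) (nat_lit 15845965854) (nat_lit 228) (nat_lit 131240182) (nat_lit 35) (nat_lit 5) (nat_lit 37) (nat_lit 5) (nat_lit 38) (nat_lit 4) (nat_lit 342) (nat_lit 252) (nat_lit 186)))) (XT.nd (nat_lit 78) (nat_lit 152) (nat_lit 0) (XT.lf (nat_lit 0) (nat_lit 3377227986) (nat_lit 228) (nat_lit 8489714442) (nat_lit 76) (nat_lit 7192586219) (nat_lit 34) (nat_lit 5) (nat_lit 37) (nat_lit 5) (nat_lit 35) (nat_lit 5) (nat_lit 343) (nat_lit 252) (nat_lit 185)) (XT.nd (nat_lit 78) (nat_lit 152) (nat_lit 0) (XT.lf (nat_lit 0) (nat_lit 6958457476) (nat_lit 228) (nat_lit 829523458) (nat_lit 76) (nat_lit 11701864900) (nat_lit 34) (nat_lit 5) (nat_lit 37) (nat_lit 5) (nat_lit 35) (nat_lit 5) (nat_lit 344) (nat_lit 252) (nat_lit 184)) (XT.lf (nat_lit 0) (nat_lit 7150860900) (nat_lit 152) (nat_lit 3536016035) (nat_lit 228) (nat_lit 9245018865)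 (nat_lit 32) (nat_lit 5) (nat_lit 34) (nat_lit 5) (nat_lit 35) (nat_lit 5) (nat_lit 345) (nat_lit 252) (nat_lit 183))))) (XT.nd (nat_lit 234) (nat_lit 152) (nat_lit 0) (XT.nd (nat_lit 78) (nat_lit 228) (nat_lit 0) (XT.lf (nat_lit 0) (nat_lit 14514914981) (nat_lit 228) (nat_lit 5056836372) (nat_lit 76) (nat_lit 815838325) (nat_lit 32) (nat_lit 5) (nat_lit 35) (nat_lit 5) (nat_lit 33) (nat_lit 4) (nat_lit 346) (nat_lit 252) (nat_lit 182)) (XT.nd (nat_lit 78) (nat_lit 76) (nat_lit 0) (XT.lf (nat_lit 0) (nat_lit 2872212286) (nat_lit 152) (nat_lit 15620238485) (nat_lit 228) (nat_lit 2363478851) (nat_lit 30) (nat_lit 5) (nat_lit 32) (nat_lit 5) (nat_lit 33) (nat_lit 4) (nat_lit 347) (nat_lit 252) (nat_lit 181)) (XT.lf (nat_lit 0) (nat_lit 1250259152) (nat_lit 228) (nat_lit 10254538573) (nat_lit 76) (nat_lit 9832465037) (nat_lit 29) (nat_lit 5) (nat_lit 32) (nat_lit 5) (nat_lit 30) (nat_lit 5) (nat_lit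 348) (nat_lit 252) (nat_lit 180)))) (XT.nd (nat_lit 156) (nat_lit 0) (nat_lit 0) (XT.nd (nat_lit 78) (nat_lit 152) (nat_lit 0) (XT.lf (nat_lit 0) (nat_lit 4897826044) (nat_lit 228) (nat_lit 2363499239) (nat_lit 76) (nat_lit 14571834659) (nat_lit 29) (nat_lit 5) (nat_lit 32) (nat_lit 5) (nat_lit 30) (nat_lit 5) (nat_lit 349) (nat_lit 252) (nat_lit 179)) (XT.lf (nat_lit 0) (nat_lit 5832834565) (nat_lit 152) (nat_lit 2851763212) (nat_lit 228) (nat_lit 13658456205) (nat_lit 27) (nat_lit 5) (nat_lit 29) (nat_lit 5) (nat_lit 30) (nat_lit 5) (nat_lit 350) (nat_lit 252) (nat_lit 178))) (XT.nd (nat_lit 78) (nat_lit 0) (nat_lit 0) (XT.lf (nat_lit 0) (nat_lit 12599184599) (nat_lit 228) (nat_lit 8605926423) (nat_lit 76) (nat_lit 1662720354) (nat_lit 27) (nat_lit 5) (nat_lit 30) (nat_lit 5) (nat_lit 28) (nat_lit 4) (nat_lit 351) (nat_lit 252) (nat_lit 177)) (XT.lf (nat_lit 0) (nat_lit 16634068371) (nat_lit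 228) (nat_lit 536839861) (nat_lit 76) (nat_lit 6237370597) (nat_lit 27) (nat_lit 5) (nat_lit 30) (nat_lit 5) (nat_lit 28) (nat_lit 4) (nat_lit 352) (nat_lit 252) (nat_lit 176)))))) (XT.nd (nat_lit 546) (nat_lit 304) (nat_lit 0) (XT.nd (nat_lit 234) (nat_lit 76) (nat_lit 0) (XT.nd (nat_lit 78) (nat_lit 228) (nat_lit 0) (XT.lf (nat_lit 0) (nat_lit 7885375904) (nat_lit 76) (nat_lit 12955784979) (nat_lit 152) (nat_lit 3122256109) (nat_lit 26) (nat_lit 5) (nat_lit 27) (nat_lit 5) (nat_lit 28) (nat_lit 4) (nat_lit 353) (nat_lit 252) (nat_lit 175)) (XT.nd (nat_lit 78) (nat_lit 152) (nat_lit 0) (XT.lf (nat_lit 0) (nat_lit 607678157) (nat_lit 152) (nat_lit 8012878785) (nat_lit 76) (nat_lit 15915052599) (nat_lit 25) (nat_lit 5) (nat_lit 27) (nat_lit 5) (nat_lit 26) (nat_lit 5) (nat_lit 354) (nat_lit 252) (nat_lit 174)) (XT.lf (nat_lit 0) (nat_lit 226089847) (nat_lit 152) (nat_lit 4138976347) (nat_lit 228)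 (nat_lit 20759636091) (nat_lit 23) (nat_lit 5) (nat_lit 25) (nat_lit 5) (nat_lit 26) (nat_lit 5) (nat_lit 355) (nat_lit 252) (nat_lit 173)))) (XT.nd (nat_lit 156) (nat_lit 76) (nat_lit 0) (XT.nd (nat_lit 78) (nat_lit 0) (nat_lit 0) (XT.lf (nat_lit 0) (nat_lit 8297742513) (nat_lit 228) (nat_lit 16899730009) (nat_lit 76) (nat_lit 532129088) (nat_lit 23) (nat_lit 5) (nat_lit 26) (nat_lit 5) (nat_lit 24) (nat_lit 4) (nat_lit 356) (nat_lit 252) (nat_lit 172)) (XT.lf (nat_lit 0) (nat_lit 12366335814) (nat_lit 228) (nat_lit 8742430470) (nat_lit 76) (nat_lit 5243354013) (nat_lit 23) (nat_lit 5) (nat_lit 26) (nat_lit 5) (nat_lit 24) (nat_lit 4) (nat_lit 357) (nat_lit 252) (nat_lit 171))) (XT.nd (nat_lit 78) (nat_lit 76) (nat_lit 0) (XT.lf (nat_lit 0) (nat_lit 16534614805) (nat_lit 228) (nat_lit 379799711) (nat_lit 76) (nat_lit 10079581369) (nat_lit 23) (nat_lit 5) (nat_lit 26) (nat_lit 5) (nat_lit 24)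 (nat_lit 4) (nat_lit 358) (nat_lit 252) (nat_lit 170)) (XT.lf (nat_lit 0) (nat_lit 8358575331) (nat_lit 76) (nat_lit 12527994080) (nat_lit 152) (nat_lit 6766809393) (nat_lit 22) (nat_lit 5) (nat_lit 23) (nat_lit 5) (nat_lit 24) (nat_lit 4) (nat_lit 359) (nat_lit 252) (nat_lit 169))))) (XT.nd (nat_lit 234) (nat_lit 76) (nat_lit 0) (XT.nd (nat_lit 78) (nat_lit 228) (nat_lit 0) (XT.lf (nat_lit 0) (nat_lit 17329021504) (nat_lit 76) (nat_lit 8022444538) (nat_lit 152) (nat_lit 2981615260) (nat_lit 22) (nat_lit 5) (nat_lit 23) (nat_lit 5) (nat_lit 24) (nat_lit 4) (nat_lit 360) (nat_lit 252) (nat_lit 168)) (XT.nd (nat_lit 78) (nat_lit 152) (nat_lit 0) (XT.lf (nat_lit 0) (nat_lit 878195719) (nat_lit 152) (nat_lit 2510600461) (nat_lit 76) (nat_lit 25644754527) (nat_lit 21) (nat_lit 5) (nat_lit 23) (nat_lit 5) (nat_lit 22) (nat_lit 5) (nat_lit 361) (nat_lit 252) (nat_lit 167)) (XT.lf (nat_lit 0) (nat_lit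 4847997381) (nat_lit 228) (nat_lit 23472128210) (nat_lit 76) (nat_lit 1432408038) (nat_lit 19) (nat_lit 5) (nat_lit 22) (nat_lit 5) (nat_lit 20) (nat_lit 4) (nat_lit 362) (nat_lit 252) (nat_lit 166)))) (XT.nd (nat_lit 156) (nat_lit 76) (nat_lit 0) (XT.nd (nat_lit 78) (nat_lit 0) (nat_lit 0) (XT.lf (nat_lit 0) (nat_lit 8975720826) (nat_lit 228) (nat_lit 15175740119) (nat_lit 76) (nat_lit 6340468787) (nat_lit 19) (nat_lit 5) (nat_lit 22) (nat_lit 5) (nat_lit 20) (nat_lit 4) (nat_lit 363) (nat_lit 252) (nat_lit 165)) (XT.lf (nat_lit 0) (nat_lit 13207540188) (nat_lit 228) (nat_lit 6665623027) (nat_lit 76) (nat_lit 11380944850) (nat_lit 19) (nat_lit 5) (nat_lit 22) (nat_lit 5) (nat_lit 20) (nat_lit 4) (nat_lit 364) (nat_lit 252) (nat_lit 164))) (XT.nd (nat_lit 78) (nat_lit 0) (nat_lit 0) (XT.lf (nat_lit 0) (nat_lit 2106769756) (nat_lit 76) (nat_lit 15460634979) (nat_lit 152) (nat_lit 14471722330) (nat_lit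 18) (nat_lit 5) (nat_lit 19) (nat_lit 5) (nat_lit 20) (nat_lit 4) (nat_lit 365) (nat_lit 252) (nat_lit 163)) (XT.lf (nat_lit 0) (nat_lit 11245169264) (nat_lit 76) (nat_lit 10861277865) (nat_lit 152) (nat_lit 10739805849) (nat_lit 18) (nat_lit 5) (nat_lit 19) (nat_lit 5) (nat_lit 20) (nat_lit 4) (nat_lit 366) (nat_lit 252) (nat_lit 162))))))))
noncomputable def xc85 : XT := (XT.nd (nat_lit 2028) (nat_lit 228) (nat_lit 0) (XT.nd (nat_lit 1014) (nat_lit 228) (nat_lit 0) (XT.nd (nat_lit 468) (nat_lit 228) (nat_lit 0) (XT.nd (nat_lit 234) (nat_lit 0) (nat_lit 0) (XT.nd (nat_lit 78) (nat_lit 228) (nat_lit 0) (XT.lf (nat_lit 0) (nat_lit 20624901538) (nat_lit 76) (nat_lit 6138382739) (nat_lit 152) (nat_lit 6914867260) (nat_lit 18) (nat_lit 5) (nat_lit 19) (nat_lit 5) (nat_lit 20) (nat_lit 4) (nat_lit 367) (nat_lit 252) (nat_lit 161)) (XT.nd (nat_lit 78) (nat_lit 228) (nat_lit 0) (XT.lf (nat_lit 0) (nat_lit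 30254162460) (nat_lit 76) (nat_lit 1287822800) (nat_lit 152) (nat_lit 2993564382) (nat_lit 18) (nat_lit 5) (nat_lit 19) (nat_lit 5) (nat_lit 20) (nat_lit 4) (nat_lit 368) (nat_lit 252) (nat_lit 160)) (XT.lf (nat_lit 0) (nat_lit 1089747664) (nat_lit 228) (nat_lit 30647508462) (nat_lit 76) (nat_lit 3679175956) (nat_lit 15) (nat_lit 5) (nat_lit 18) (nat_lit 5) (nat_lit 16) (nat_lit 4) (nat_lit 369) (nat_lit 252) (nat_lit 159)))) (XT.nd (nat_lit 78) (nat_lit 0) (nat_lit 0) (XT.lf (nat_lit 0) (nat_lit 5274383883) (nat_lit 228) (nat_lit 22218131463) (nat_lit 76) (nat_lit 8829173425) (nat_lit 15) (nat_lit 5) (nat_lit 18) (nat_lit 5) (nat_lit 16) (nat_lit 4) (nat_lit 370) (nat_lit 252) (nat_lit 158)) (XT.nd (nat_lit 78) (nat_lit 0) (nat_lit 0) (XT.lf (nat_lit 0) (nat_lit 9567646664) (nat_lit 228) (nat_lit 13566336685) (nat_lit 76) (nat_lit 14120633721) (nat_lit 15) (nat_lit 5) (nat_lit 18) (nat_lit 5)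 (nat_lit 16) (nat_lit 4) (nat_lit 371) (nat_lit 252) (nat_lit 157)) (XT.lf (nat_lit 0) (nat_lit 13973287400) (nat_lit 228) (nat_lit 4684564308) (nat_lit 76) (nat_lit 19558180450) (nat_lit 15) (nat_lit 5) (nat_lit 18) (nat_lit 5) (nat_lit 16) (nat_lit 4) (nat_lit 372) (nat_lit 252) (nat_lit 156))))) (XT.nd (nat_lit 234) (nat_lit 152) (nat_lit 0) (XT.nd (nat_lit 78) (nat_lit 0) (nat_lit 0) (XT.lf (nat_lit 0) (nat_lit 4523210570) (nat_lit 76) (nat_lit 14015424978) (nat_lit 152) (nat_lit 20666834163) (nat_lit 14) (nat_lit 5) (nat_lit 15) (nat_lit 5) (nat_lit 16) (nat_lit 4) (nat_lit 373) (nat_lit 252) (nat_lit 155)) (XT.nd (nat_lit 78) (nat_lit 0) (nat_lit 0) (XT.lf (nat_lit 0) (nat_lit 14074814389) (nat_lit 76) (nat_lit 9197683990) (nat_lit 152) (nat_lit 16951151361) (nat_lit 14) (nat_lit 5) (nat_lit 15) (nat_lit 5) (nat_lit 16) (nat_lit 4) (nat_lit 374) (nat_lit 252) (nat_lit 154)) (XT.lf (nat_lit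 0) (nat_lit 23885361194) (nat_lit 76) (nat_lit 4247723984) (nat_lit 152) (nat_lit 13139754554) (nat_lit 14) (nat_lit 5) (nat_lit 15) (nat_lit 5) (nat_lit 16) (nat_lit 4) (nat_lit 375) (nat_lit 252) (nat_lit 153)))) (XT.nd (nat_lit 156) (nat_lit 76) (nat_lit 0) (XT.nd (nat_lit 78) (nat_lit 76) (nat_lit 0) (XT.lf (nat_lit 0) (nat_lit 33132705929) (nat_lit 152) (nat_lit 8398596017) (nat_lit 0) (nat_lit 822412623) (nat_lit 14) (nat_lit 5) (nat_lit 16) (nat_lit 4) (nat_lit 14) (nat_lit 4) (nat_lit 376) (nat_lit 252) (nat_lit 152)) (XT.lf (nat_lit 0) (nat_lit 807302887) (nat_lit 76) (nat_lit 37510303711) (nat_lit 76) (nat_lit 5148355785) (nat_lit 13) (nat_lit 4) (nat_lit 14) (nat_lit 5) (nat_lit 14) (nat_lit 4) (nat_lit 377) (nat_lit 252) (nat_lit 151))) (XT.nd (nat_lit 78) (nat_lit 76) (nat_lit 0) (XT.lf (nat_lit 0) (nat_lit 10435453238) (nat_lit 76) (nat_lit 33293057034) (nat_lit 76) (nat_lit 880958992)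 (nat_lit 13) (nat_lit 4) (nat_lit 14) (nat_lit 5) (nat_lit 14) (nat_lit 4) (nat_lit 378) (nat_lit 252) (nat_lit 150)) (XT.lf (nat_lit 0) (nat_lit 3431801600) (nat_lit 152) (nat_lit 25494230226) (nat_lit 76) (nat_lit 16860663387) (nat_lit 12) (nat_lit 5) (nat_lit 14) (nat_lit 5) (nat_lit 13) (nat_lit 4) (nat_lit 379) (nat_lit 252) (nat_lit 149)))))) (XT.nd (nat_lit 468) (nat_lit 152) (nat_lit 0) (XT.nd (nat_lit 234) (nat_lit 0) (nat_lit 0) (XT.nd (nat_lit 78) (nat_lit 76) (nat_lit 0) (XT.lf (nat_lit 0) (nat_lit 7842570317) (nat_lit 152) (nat_lit 16587641024) (nat_lit 76) (nat_lit 22569179838) (nat_lit 12) (nat_lit 5) (nat_lit 14) (nat_lit 5) (nat_lit 13) (nat_lit 4) (nat_lit 380) (nat_lit 252) (nat_lit 148)) (XT.nd (nat_lit 78) (nat_lit 76) (nat_lit 0) (XT.lf (nat_lit 0) (nat_lit 12372391913) (nat_lit 152) (nat_lit 7437997645) (nat_lit 76) (nat_lit 28438481291) (nat_lit 12) (nat_lit 5) (nat_lit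 14) (nat_lit 5) (nat_lit 13) (nat_lit 4) (nat_lit 381) (nat_lit 252) (nat_lit 147)) (XT.lf (nat_lit 0) (nat_lit 2001756217) (nat_lit 76) (nat_lit 15042710371) (nat_lit 152) (nat_lit 32491182150) (nat_lit 11) (nat_lit 5) (nat_lit 12) (nat_lit 5) (nat_lit 13) (nat_lit 4) (nat_lit 382) (nat_lit 252) (nat_lit 146)))) (XT.nd (nat_lit 78) (nat_lit 0) (nat_lit 0) (XT.lf (nat_lit 0) (nat_lit 11853963871) (nat_lit 76) (nat_lit 10065117291) (nat_lit 152) (nat_lit 28940081920) (nat_lit 11) (nat_lit 5) (nat_lit 12) (nat_lit 5) (nat_lit 13) (nat_lit 4) (nat_lit 383) (nat_lit 252) (nat_lit 145)) (XT.nd (nat_lit 78) (nat_lit 0) (nat_lit 0) (XT.lf (nat_lit 0) (nat_lit 21979203304) (nat_lit 76) (nat_lit 4948370156) (nat_lit 152) (nat_lit 25295184537) (nat_lit 11) (nat_lit 5) (nat_lit 12) (nat_lit 5) (nat_lit 13) (nat_lit 4) (nat_lit 384) (nat_lit 252) (nat_lit 144)) (XT.lf (nat_lit 0) (nat_lit 32077318990) (nat_lit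 152) (nat_lit 21244302315) (nat_lit 0) (nat_lit 305913694) (nat_lit 11) (nat_lit 5) (nat_lit 13) (nat_lit 4) (nat_lit 11) (nat_lit 4) (nat_lit 385) (nat_lit 252) (nat_lit 143))))) (XT.nd (nat_lit 234) (nat_lit 76) (nat_lit 0) (XT.nd (nat_lit 78) (nat_lit 76) (nat_lit 0) (XT.lf (nat_lit 0) (nat_lit 37418807310) (nat_lit 152) (nat_lit 12045568433) (nat_lit 0) (nat_lit 5608966125) (nat_lit 11) (nat_lit 5) (nat_lit 13) (nat_lit 4) (nat_lit 11) (nat_lit 4) (nat_lit 386) (nat_lit 252) (nat_lit 142)) (XT.nd (nat_lit 78) (nat_lit 76) (nat_lit 0) (XT.lf (nat_lit 0) (nat_lit 42909138979) (nat_lit 152) (nat_lit 2591748558) (nat_lit 0) (nat_lit 11061981398) (nat_lit 11) (nat_lit 5) (nat_lit 13) (nat_lit 4) (nat_lit 11) (nat_lit 4) (nat_lit 387) (nat_lit 252) (nat_lit 141)) (XT.lf (nat_lit 0) (nat_lit 7267227715) (nat_lit 76) (nat_lit 41355740696) (nat_lit 76) (nat_lit 9472353605) (nat_lit 10) (nat_lit 4)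 (nat_lit 11) (nat_lit 5) (nat_lit 11) (nat_lit 4) (nat_lit 388) (nat_lit 252) (nat_lit 140)))) (XT.nd (nat_lit 156) (nat_lit 76) (nat_lit 0) (XT.nd (nat_lit 78) (nat_lit 0) (nat_lit 0) (XT.lf (nat_lit 0) (nat_lit 17455032304) (nat_lit 76) (nat_lit 37068412265) (nat_lit 76) (nat_lit 5149850891) (nat_lit 10) (nat_lit 4) (nat_lit 11) (nat_lit 5) (nat_lit 11) (nat_lit 4) (nat_lit 389) (nat_lit 252) (nat_lit 139)) (XT.lf (nat_lit 0) (nat_lit 27928986295) (nat_lit 76) (nat_lit 32661327613) (nat_lit 76) (nat_lit 708616450) (nat_lit 10) (nat_lit 4) (nat_lit 11) (nat_lit 5) (nat_lit 11) (nat_lit 4) (nat_lit 390) (nat_lit 252) (nat_lit 138))) (XT.nd (nat_lit 78) (nat_lit 0) (nat_lit 0) (XT.lf (nat_lit 0) (nat_lit 3780000976) (nat_lit 152) (nat_lit 24312464315) (nat_lit 76) (nat_lit 34880070111) (nat_lit 9) (nat_lit 5) (nat_lit 11) (nat_lit 5) (nat_lit 10) (nat_lit 4) (nat_lit 391) (nat_lit 252) (nat_lit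 137)) (XT.lf (nat_lit 0) (nat_lit 8378920562) (nat_lit 152) (nat_lit 15008847007) (nat_lit 76) (nat_lit 41308677274) (nat_lit 9) (nat_lit 5) (nat_lit 11) (nat_lit 5) (nat_lit 10) (nat_lit 4) (nat_lit 392) (nat_lit 252) (nat_lit 136))))))) (XT.nd (nat_lit 1014) (nat_lit 76) (nat_lit 0) (XT.nd (nat_lit 468) (nat_lit 76) (nat_lit 0) (XT.nd (nat_lit 234) (nat_lit 0) (nat_lit 0) (XT.nd (nat_lit 78) (nat_lit 76) (nat_lit 0) (XT.lf (nat_lit 0) (nat_lit 13105988439) (nat_lit 152) (nat_lit 5444151111) (nat_lit 76) (nat_lit 47922229810) (nat_lit 9) (nat_lit 5) (nat_lit 11) (nat_lit 5) (nat_lit 10) (nat_lit 4) (nat_lit 393) (nat_lit 252) (nat_lit 135)) (XT.nd (nat_lit 78) (nat_lit 0) (nat_lit 0) (XT.lf (nat_lit 0) (nat_lit 4477350101) (nat_lit 76) (nat_lit 13531023981) (nat_lit 152) (nat_lit 50292195477) (nat_lit 8) (nat_lit 5) (nat_lit 9) (nat_lit 5) (nat_lit 10) (nat_lit 4) (nat_lit 394) (nat_lit 252)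 (nat_lit 134)) (XT.lf (nat_lit 0) (nat_lit 14790762940) (nat_lit 76) (nat_lit 8312621363) (nat_lit 152) (nat_lit 47078867903) (nat_lit 8) (nat_lit 5) (nat_lit 9) (nat_lit 5) (nat_lit 10) (nat_lit 4) (nat_lit 395) (nat_lit 252) (nat_lit 133)))) (XT.nd (nat_lit 78) (nat_lit 0) (nat_lit 0) (XT.lf (nat_lit 0) (nat_lit 25396749842) (nat_lit 76) (nat_lit 2945347176) (nat_lit 152) (nat_lit 43778565687) (nat_lit 8) (nat_lit 5) (nat_lit 9) (nat_lit 5) (nat_lit 10) (nat_lit 4) (nat_lit 396) (nat_lit 252) (nat_lit 132)) (XT.nd (nat_lit 78) (nat_lit 0) (nat_lit 0) (XT.lf (nat_lit 0) (nat_lit 33753846916) (nat_lit 152) (nat_lit 37837673813) (nat_lit 0) (nat_lit 2525231372) (nat_lit 8) (nat_lit 5) (nat_lit 10) (nat_lit 4) (nat_lit 8) (nat_lit 4) (nat_lit 397) (nat_lit 252) (nat_lit 131)) (XT.lf (nat_lit 0) (nat_lit 39348418882) (nat_lit 152) (nat_lit 28730063612) (nat_lit 0) (nat_lit 8093630369) (nat_lit 8)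 (nat_lit 5) (nat_lit 10) (nat_lit 4) (nat_lit 8) (nat_lit 4) (nat_lit 398) (nat_lit 252) (nat_lit 130))))) (XT.nd (nat_lit 234) (nat_lit 0) (nat_lit 0) (XT.nd (nat_lit 78) (nat_lit 76) (nat_lit 0) (XT.lf (nat_lit 0) (nat_lit 45102388900) (nat_lit 152) (nat_lit 19364811677) (nat_lit 0) (nat_lit 13822189737) (nat_lit 8) (nat_lit 5) (nat_lit 10) (nat_lit 4) (nat_lit 8) (nat_lit 4) (nat_lit 399) (nat_lit 252) (nat_lit 129)) (XT.nd (nat_lit 78) (nat_lit 76) (nat_lit 0) (XT.lf (nat_lit 0) (nat_lit 51020784710) (nat_lit 152) (nat_lit 9733734777) (nat_lit 0) (nat_lit 19715915013) (nat_lit 8) (nat_lit 5) (nat_lit 10) (nat_lit 4) (nat_lit 8) (nat_lit 4) (nat_lit 400) (nat_lit 252) (nat_lit 128)) (XT.lf (nat_lit 0) (nat_lit 174997420) (nat_lit 76) (nat_lit 56935462487) (nat_lit 76) (nat_lit 25606640816) (nat_lit 7) (nat_lit 4) (nat_lit 8) (nat_lit 5) (nat_lit 8) (nat_lit 4) (nat_lit 401) (nat_lit 252) (nat_lit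 127)))) (XT.nd (nat_lit 156) (nat_lit 0) (nat_lit 0) (XT.nd (nat_lit 78) (nat_lit 0) (nat_lit 0) (XT.lf (nat_lit 0) (nat_lit 10565975804) (nat_lit 76) (nat_lit 52907278372) (nat_lit 76) (nat_lit 21555202356) (nat_lit 7) (nat_lit 4) (nat_lit 8) (nat_lit 5) (nat_lit 8) (nat_lit 4) (nat_lit 402) (nat_lit 252) (nat_lit 126)) (XT.lf (nat_lit 0) (nat_lit 21254559460) (nat_lit 76) (nat_lit 48764739004) (nat_lit 76) (nat_lit 17390085955) (nat_lit 7) (nat_lit 4) (nat_lit 8) (nat_lit 5) (nat_lit 8) (nat_lit 4) (nat_lit 403) (nat_lit 252) (nat_lit 125))) (XT.nd (nat_lit 78) (nat_lit 0) (nat_lit 0) (XT.lf (nat_lit 0) (nat_lit 32250087929) (nat_lit 76) (nat_lit 44504224689) (nat_lit 76) (nat_lit 13107652190) (nat_lit 7) (nat_lit 4) (nat_lit 8) (nat_lit 5) (nat_lit 8) (nat_lit 4) (nat_lit 404) (nat_lit 252) (nat_lit 124)) (XT.lf (nat_lit 0) (nat_lit 43562168953) (nat_lit 76) (nat_lit 40122012649) (nat_lit 76)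 (nat_lit 8704159130) (nat_lit 7) (nat_lit 4) (nat_lit 8) (nat_lit 5) (nat_lit 8) (nat_lit 4) (nat_lit 405) (nat_lit 252) (nat_lit 123)))))) (XT.nd (nat_lit 30654) (nat_lit 0) (nat_lit 15884) (XT.nd (nat_lit 30342) (nat_lit 0) (nat_lit 19532) (XT.nd (nat_lit 78) (nat_lit 76) (nat_lit 0) (XT.lf (nat_lit 0) (nat_lit 55200686876) (nat_lit 76) (nat_lit 35614273764) (nat_lit 76) (nat_lit 4175759062) (nat_lit 7) (nat_lit 4) (nat_lit 8) (nat_lit 5) (nat_lit 8) (nat_lit 4) (nat_lit 406) (nat_lit 252) (nat_lit 122)) (XT.nd (nat_lit 78) (nat_lit 0) (nat_lit 0) (XT.lf (nat_lit 0) (nat_lit 472108974) (nat_lit 152) (nat_lit 30500192886) (nat_lit 76) (nat_lit 66698934926) (nat_lit 6) (nat_lit 5) (nat_lit 8) (nat_lit 5) (nat_lit 7) (nat_lit 4) (nat_lit 407) (nat_lit 252) (nat_lit 121)) (XT.lf (nat_lit 0) (nat_lit 5168832219) (nat_lit 152) (nat_lit 20985319845) (nat_lit 76) (nat_lit 74276978562) (nat_lit 6) (nat_lit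 5) (nat_lit 8) (nat_lit 5) (nat_lit 7) (nat_lit 4) (nat_lit 408) (nat_lit 252) (nat_lit 120)))) (XT.nd (nat_lit 156) (nat_lit 1368) (nat_lit 0) (XT.nd (nat_lit 78) (nat_lit 76) (nat_lit 0) (XT.lf (nat_lit 0) (nat_lit 1253659449) (nat_lit 532) (nat_lit 1038989558) (nat_lit 532) (nat_lit 1038989558) (nat_lit 282) (nat_lit 4) (nat_lit 289) (nat_lit 5) (nat_lit 289) (nat_lit 4) (nat_lit 274) (nat_lit 253) (nat_lit 253)) (XT.lf (nat_lit 0) (nat_lit 946126615) (nat_lit 608) (nat_lit 220278243) (nat_lit 76) (nat_lit 5530758410) (nat_lit 281) (nat_lit 5) (nat_lit 289) (nat_lit 5) (nat_lit 282) (nat_lit 4) (nat_lit 275) (nat_lit 253) (nat_lit 252))) (XT.nd (nat_lit 78) (nat_lit 760) (nat_lit 0) (XT.lf (nat_lit 0) (nat_lit 3809588567) (nat_lit 608) (nat_lit 145614563) (nat_lit 684) (nat_lit 2778378984) (nat_lit 273) (nat_lit 5) (nat_lit 281) (nat_lit 5) (nat_lit 282) (nat_lit 4) (nat_lit 276) (nat_lit 253)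 (nat_lit 251)) (XT.lf (nat_lit 0) (nat_lit 200543431) (nat_lit 760) (nat_lit 5648714083) (nat_lit 76) (nat_lit 924277246) (nat_lit 263) (nat_lit 5) (nat_lit 273) (nat_lit 5) (nat_lit 264) (nat_lit 4) (nat_lit 277) (nat_lit 253) (nat_lit 250))))) (XT.nd (nat_lit 234) (nat_lit 2812) (nat_lit 0) (XT.nd (nat_lit 78) (nat_lit 836) (nat_lit 0) (XT.lf (nat_lit 0) (nat_lit 3146989961) (nat_lit 760) (nat_lit 1569603117) (nat_lit 76) (nat_lit 2099443268) (nat_lit 263) (nat_lit 5) (nat_lit 273) (nat_lit 5) (nat_lit 264) (nat_lit 4) (nat_lit 278) (nat_lit 253) (nat_lit 249)) (XT.nd (nat_lit 78) (nat_lit 76) (nat_lit 0) (XT.lf (nat_lit 0) (nat_lit 2603462269) (nat_lit 760) (nat_lit 3508964986) (nat_lit 836) (nat_lit 749657705) (nat_lit 253) (nat_lit 5) (nat_lit 263) (nat_lit 5) (nat_lit 264) (nat_lit 4) (nat_lit 279) (nat_lit 253) (nat_lit 248)) (XT.lf (nat_lit 0) (nat_lit 2135742819) (nat_lit 836) (nat_lit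 77485738) (nat_lit 76) (nat_lit 4698140159) (nat_lit 252) (nat_lit 5) (nat_lit 263) (nat_lit 5) (nat_lit 253) (nat_lit 5) (nat_lit 280) (nat_lit 253) (nat_lit 247)))) (XT.nd (nat_lit 156) (nat_lit 988) (nat_lit 0) (XT.nd (nat_lit 78) (nat_lit 988) (nat_lit 0) (XT.lf (nat_lit 0) (nat_lit 4225985869) (nat_lit 836) (nat_lit 816470642) (nat_lit 912) (nat_lit 1921131034) (nat_lit 241) (nat_lit 5) (nat_lit 252) (nat_lit 5) (nat_lit 253) (nat_lit 5) (nat_lit 281) (nat_lit 253) (nat_lit 246)) (XT.lf (nat_lit 0) (nat_lit 931526268) (nat_lit 988) (nat_lit 5441209847) (nat_lit 76) (nat_lit 646534418) (nat_lit 228) (nat_lit 5) (nat_lit 241) (nat_lit 5) (nat_lit 229) (nat_lit 5) (nat_lit 282) (nat_lit 253) (nat_lit 245))) (XT.nd (nat_lit 78) (nat_lit 988) (nat_lit 0) (XT.lf (nat_lit 0) (nat_lit 3779159974) (nat_lit 988) (nat_lit 1105306923) (nat_lit 76) (nat_lit 2193305234) (nat_lit 228) (nat_lit 5) (nat_lit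 241) (nat_lit 5) (nat_lit 229) (nat_lit 5) (nat_lit 283) (nat_lit 253) (nat_lit 244)) (XT.lf (nat_lit 0) (nat_lit 3346910907) (nat_lit 988) (nat_lit 3312054758) (nat_lit 1064) (nat_lit 480815229) (nat_lit 215) (nat_lit 5) (nat_lit 228) (nat_lit 5) (nat_lit 229) (nat_lit 5) (nat_lit 284) (nat_lit 253) (nat_lit 243))))))))
noncomputable def xc86 : XT := (XT.nd (nat_lit 2028) (nat_lit 3876) (nat_lit 0) (XT.nd (nat_lit 1014) (nat_lit 3420) (nat_lit 0) (XT.nd (nat_lit 468) (nat_lit 2204) (nat_lit 0) (XT.nd (nat_lit 234) (nat_lit 1292) (nat_lit 0) (XT.nd (nat_lit 78) (nat_lit 1216) (nat_lit 0) (XT.lf (nat_lit 0) (nat_lit 661429289) (nat_lit 1064) (nat_lit 1645794211) (nat_lit 1140) (nat_lit 4897884838) (nat_lit 200) (nat_lit 5) (nat_lit 214) (nat_lit 5) (nat_lit 215) (nat_lit 5) (nat_lit 285) (nat_lit 253) (nat_lit 242)) (XT.nd (nat_lit 78) (nat_lit 1216) (nat_lit 0) (XT.lf (nat_lit 0) (nat_lit 5125665129)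 (nat_lit 1140) (nat_lit 2031963376) (nat_lit 76) (nat_lit 116072818) (nat_lit 200) (nat_lit 5) (nat_lit 215) (nat_lit 5) (nat_lit 201) (nat_lit 5) (nat_lit 286) (nat_lit 253) (nat_lit 241)) (XT.lf (nat_lit 0) (nat_lit 630905811) (nat_lit 1216) (nat_lit 4782533607) (nat_lit 76) (nat_lit 1932049997) (nat_lit 184) (nat_lit 5) (nat_lit 200) (nat_lit 5) (nat_lit 185) (nat_lit 5) (nat_lit 287) (nat_lit 253) (nat_lit 240)))) (XT.nd (nat_lit 78) (nat_lit 1292) (nat_lit 0) (XT.lf (nat_lit 0) (nat_lit 3390924007) (nat_lit 1216) (nat_lit 183467194) (nat_lit 76) (nat_lit 3846304789) (nat_lit 184) (nat_lit 5) (nat_lit 200) (nat_lit 5) (nat_lit 185) (nat_lit 5) (nat_lit 288) (nat_lit 253) (nat_lit 239)) (XT.nd (nat_lit 78) (nat_lit 684) (nat_lit 0) (XT.lf (nat_lit 0) (nat_lit 4564429381) (nat_lit 608) (nat_lit 1635674239) (nat_lit 684) (nat_lit 1299189864) (nat_lit 176) (nat_lit 5) (nat_lit 184) (nat_lit 5)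 (nat_lit 185) (nat_lit 5) (nat_lit 289) (nat_lit 253) (nat_lit 238)) (XT.lf (nat_lit 0) (nat_lit 1430060049) (nat_lit 684) (nat_lit 5765250681) (nat_lit 76) (nat_lit 386231693) (nat_lit 167) (nat_lit 5) (nat_lit 176) (nat_lit 5) (nat_lit 168) (nat_lit 5) (nat_lit 290) (nat_lit 253) (nat_lit 237))))) (XT.nd (nat_lit 234) (nat_lit 1064) (nat_lit 0) (XT.nd (nat_lit 78) (nat_lit 1140) (nat_lit 0) (XT.lf (nat_lit 0) (nat_lit 4185783766) (nat_lit 684) (nat_lit 1005241889) (nat_lit 76) (nat_lit 2475840908) (nat_lit 167) (nat_lit 5) (nat_lit 176) (nat_lit 5) (nat_lit 168) (nat_lit 5) (nat_lit 291) (nat_lit 253) (nat_lit 236)) (XT.nd (nat_lit 78) (nat_lit 608) (nat_lit 0) (XT.lf (nat_lit 0) (nat_lit 3895262463) (nat_lit 532) (nat_lit 3093141092) (nat_lit 608) (nat_lit 767531686) (nat_lit 160) (nat_lit 5) (nat_lit 167) (nat_lit 5) (nat_lit 168) (nat_lit 5) (nat_lit 292) (nat_lit 253) (nat_lit 235)) (XT.lf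 (nat_lit 0) (nat_lit 1037575930) (nat_lit 532) (nat_lit 897863425) (nat_lit 608) (nat_lit 5913329831) (nat_lit 152) (nat_lit 5) (nat_lit 159) (nat_lit 5) (nat_lit 160) (nat_lit 5) (nat_lit 293) (nat_lit 253) (nat_lit 234)))) (XT.nd (nat_lit 156) (nat_lit 608) (nat_lit 0) (XT.nd (nat_lit 78) (nat_lit 456) (nat_lit 0) (XT.lf (nat_lit 0) (nat_lit 4685194694) (nat_lit 608) (nat_lit 1882892483) (nat_lit 76) (nat_lit 1376741418) (nat_lit 152) (nat_lit 5) (nat_lit 160) (nat_lit 5) (nat_lit 153) (nat_lit 5) (nat_lit 294) (nat_lit 253) (nat_lit 233)) (XT.lf (nat_lit 0) (nat_lit 3168035838) (nat_lit 456) (nat_lit 4319473928) (nat_lit 532) (nat_lit 557257115) (nat_lit 146) (nat_lit 5) (nat_lit 152) (nat_lit 5) (nat_lit 153) (nat_lit 5) (nat_lit 295) (nat_lit 253) (nat_lit 232))) (XT.nd (nat_lit 78) (nat_lit 0) (nat_lit 0) (XT.lf (nat_lit 0) (nat_lit 164735974) (nat_lit 532) (nat_lit 1970029786) (nat_lit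 608) (nat_lit 6013828517) (nat_lit 138) (nat_lit 5) (nat_lit 145) (nat_lit 5) (nat_lit 146) (nat_lit 5) (nat_lit 296) (nat_lit 253) (nat_lit 231)) (XT.lf (nat_lit 0) (nat_lit 4882788187) (nat_lit 608) (nat_lit 2887062703) (nat_lit 76) (nat_lit 486017604) (nat_lit 138) (nat_lit 5) (nat_lit 146) (nat_lit 5) (nat_lit 139) (nat_lit 5) (nat_lit 297) (nat_lit 253) (nat_lit 230)))))) (XT.nd (nat_lit 468) (nat_lit 1596) (nat_lit 0) (XT.nd (nat_lit 234) (nat_lit 836) (nat_lit 0) (XT.nd (nat_lit 78) (nat_lit 532) (nat_lit 0) (XT.lf (nat_lit 0) (nat_lit 2310460504) (nat_lit 456) (nat_lit 5378856545) (nat_lit 532) (nat_lit 677849971) (nat_lit 132) (nat_lit 5) (nat_lit 138) (nat_lit 5) (nat_lit 139) (nat_lit 5) (nat_lit 298) (nat_lit 253) (nat_lit 229)) (XT.nd (nat_lit 78) (nat_lit 456) (nat_lit 0) (XT.lf (nat_lit 0) (nat_lit 2021536174) (nat_lit 532) (nat_lit 856671416) (nat_lit 76) (nat_lit 5604147534) (nat_lit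 131) (nat_lit 5) (nat_lit 138) (nat_lit 5) (nat_lit 132) (nat_lit 5) (nat_lit 299) (nat_lit 253) (nat_lit 228)) (XT.lf (nat_lit 0) (nat_lit 4504459643) (nat_lit 456) (nat_lit 263819519) (nat_lit 532) (nat_lit 3833198971) (nat_lit 125) (nat_lit 5) (nat_lit 131) (nat_lit 5) (nat_lit 132) (nat_lit 5) (nat_lit 300) (nat_lit 253) (nat_lit 227)))) (XT.nd (nat_lit 78) (nat_lit 456) (nat_lit 0) (XT.lf (nat_lit 0) (nat_lit 1243742404) (nat_lit 380) (nat_lit 6335415661) (nat_lit 456) (nat_lit 1145642994) (nat_lit 120) (nat_lit 5) (nat_lit 125) (nat_lit 5) (nat_lit 126) (nat_lit 5) (nat_lit 301) (nat_lit 253) (nat_lit 226)) (XT.nd (nat_lit 78) (nat_lit 380) (nat_lit 0) (XT.lf (nat_lit 0) (nat_lit 1573363870) (nat_lit 456) (nat_lit 2118202450) (nat_lit 76) (nat_lit 5160388620) (nat_lit 119) (nat_lit 5) (nat_lit 125) (nat_lit 5) (nat_lit 120) (nat_lit 5) (nat_lit 302) (nat_lit 253) (nat_lit 225)) (XT.lf (nat_lit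 0) (nat_lit 3384797113) (nat_lit 380) (nat_lit 938549669) (nat_lit 456) (nat_lit 4660134998) (nat_lit 114) (nat_lit 5) (nat_lit 119) (nat_lit 5) (nat_lit 120) (nat_lit 5) (nat_lit 303) (nat_lit 253) (nat_lit 224))))) (XT.nd (nat_lit 234) (nat_lit 760) (nat_lit 0) (XT.nd (nat_lit 78) (nat_lit 836) (nat_lit 0) (XT.lf (nat_lit 0) (nat_lit 7136443876) (nat_lit 456) (nat_lit 116853036) (nat_lit 76) (nat_lit 1866308585) (nat_lit 114) (nat_lit 5) (nat_lit 120) (nat_lit 5) (nat_lit 115) (nat_lit 5) (nat_lit 304) (nat_lit 253) (nat_lit 223)) (XT.nd (nat_lit 78) (nat_lit 380) (nat_lit 0) (XT.lf (nat_lit 0) (nat_lit 764187115) (nat_lit 456) (nat_lit 3712865790) (nat_lit 76) (nat_lit 4782447141) (nat_lit 108) (nat_lit 5) (nat_lit 114) (nat_lit 5) (nat_lit 109) (nat_lit 5) (nat_lit 305) (nat_lit 253) (nat_lit 222)) (XT.lf (nat_lit 0) (nat_lit 1922076009) (nat_lit 380) (nat_lit 1594535754) (nat_lit 456) (nat_lit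 5887578772) (nat_lit 103) (nat_lit 5) (nat_lit 108) (nat_lit 5) (nat_lit 109) (nat_lit 5) (nat_lit 306) (nat_lit 253) (nat_lit 221)))) (XT.nd (nat_lit 156) (nat_lit 456) (nat_lit 0) (XT.nd (nat_lit 78) (nat_lit 304) (nat_lit 0) (XT.lf (nat_lit 0) (nat_lit 6346316130) (nat_lit 456) (nat_lit 1838998846) (nat_lit 76) (nat_lit 1368127315) (nat_lit 103) (nat_lit 5) (nat_lit 109) (nat_lit 5) (nat_lit 104) (nat_lit 5) (nat_lit 307) (nat_lit 253) (nat_lit 220)) (XT.lf (nat_lit 0) (nat_lit 3961632698) (nat_lit 304) (nat_lit 5298420843) (nat_lit 380) (nat_lit 447203763) (nat_lit 99) (nat_lit 5) (nat_lit 103) (nat_lit 5) (nat_lit 104) (nat_lit 5) (nat_lit 308) (nat_lit 253) (nat_lit 219))) (XT.nd (nat_lit 78) (nat_lit 0) (nat_lit 0) (XT.lf (nat_lit 0) (nat_lit 12160605) (nat_lit 380) (nat_lit 2301060667) (nat_lit 456) (nat_lit 7552897695) (nat_lit 93) (nat_lit 5) (nat_lit 98) (nat_lit 5) (nat_lit 99) (nat_lit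 5) (nat_lit 309) (nat_lit 253) (nat_lit 218)) (XT.lf (nat_lit 0) (nat_lit 5159897789) (nat_lit 456) (nat_lit 4054574811) (nat_lit 76) (nat_lit 814823109) (nat_lit 93) (nat_lit 5) (nat_lit 99) (nat_lit 5) (nat_lit 94) (nat_lit 5) (nat_lit 310) (nat_lit 253) (nat_lit 217))))))) (XT.nd (nat_lit 1014) (nat_lit 1672) (nat_lit 0) (XT.nd (nat_lit 468) (nat_lit 836) (nat_lit 0) (XT.nd (nat_lit 234) (nat_lit 684) (nat_lit 0) (XT.nd (nat_lit 78) (nat_lit 380) (nat_lit 0) (XT.lf (nat_lit 0) (nat_lit 1860003694) (nat_lit 304) (nat_lit 6220473428) (nat_lit 380) (nat_lit 2117288831) (nat_lit 89) (nat_lit 5) (nat_lit 93) (nat_lit 5) (nat_lit 94) (nat_lit 5) (nat_lit 311) (nat_lit 253) (nat_lit 216)) (XT.nd (nat_lit 78) (nat_lit 304) (nat_lit 0) (XT.lf (nat_lit 0) (nat_lit 692845805) (nat_lit 380) (nat_lit 2414902162) (nat_lit 76) (nat_lit 7263701845) (nat_lit 88) (nat_lit 5) (nat_lit 93) (nat_lit 5) (nat_lit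 89) (nat_lit 5) (nat_lit 312) (nat_lit 253) (nat_lit 215)) (XT.lf (nat_lit 0) (nat_lit 3530897187) (nat_lit 380) (nat_lit 6885872098) (nat_lit 76) (nat_lit 133409716) (nat_lit 84) (nat_lit 5) (nat_lit 89) (nat_lit 5) (nat_lit 85) (nat_lit 5) (nat_lit 313) (nat_lit 253) (nat_lit 214)))) (XT.nd (nat_lit 78) (nat_lit 684) (nat_lit 0) (XT.lf (nat_lit 0) (nat_lit 6459711484) (nat_lit 380) (nat_lit 860358906) (nat_lit 76) (nat_lit 3414078369) (nat_lit 84) (nat_lit 5) (nat_lit 89) (nat_lit 5) (nat_lit 85) (nat_lit 5) (nat_lit 314) (nat_lit 253) (nat_lit 213)) (XT.nd (nat_lit 78) (nat_lit 380) (nat_lit 0) (XT.lf (nat_lit 0) (nat_lit 5381807494) (nat_lit 304) (nat_lit 4097990089) (nat_lit 380) (nat_lit 1443783760) (nat_lit 80) (nat_lit 5) (nat_lit 84) (nat_lit 5) (nat_lit 85) (nat_lit 5) (nat_lit 315) (nat_lit 253) (nat_lit 212)) (XT.lf (nat_lit 0) (nat_lit 639225658) (nat_lit 304) (nat_lit 770671261)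 (nat_lit 380) (nat_lit 9709414048) (nat_lit 75) (nat_lit 5) (nat_lit 79) (nat_lit 5) (nat_lit 80) (nat_lit 5) (nat_lit 316) (nat_lit 253) (nat_lit 211))))) (XT.nd (nat_lit 234) (nat_lit 608) (nat_lit 0) (XT.nd (nat_lit 78) (nat_lit 228) (nat_lit 0) (XT.lf (nat_lit 0) (nat_lit 4354662708) (nat_lit 380) (nat_lit 4310391196) (nat_lit 76) (nat_lit 2654436985) (nat_lit 75) (nat_lit 5) (nat_lit 80) (nat_lit 5) (nat_lit 76) (nat_lit 5) (nat_lit 317) (nat_lit 253) (nat_lit 210)) (XT.nd (nat_lit 78) (nat_lit 0) (nat_lit 0) (XT.lf (nat_lit 0) (nat_lit 2007956389) (nat_lit 228) (nat_lit 5360574966) (nat_lit 304) (nat_lit 4157762887) (nat_lit 72) (nat_lit 5) (nat_lit 75) (nat_lit 5) (nat_lit 76) (nat_lit 5) (nat_lit 318) (nat_lit 253) (nat_lit 209)) (XT.lf (nat_lit 0) (nat_lit 8536890357) (nat_lit 228) (nat_lit 1933977651) (nat_lit 304) (nat_lit 1268531773) (nat_lit 72) (nat_lit 5) (nat_lit 75) (nat_lit 5)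 (nat_lit 76) (nat_lit 5) (nat_lit 319) (nat_lit 253) (nat_lit 208)))) (XT.nd (nat_lit 156) (nat_lit 228) (nat_lit 0) (XT.nd (nat_lit 78) (nat_lit 0) (nat_lit 0) (XT.lf (nat_lit 0) (nat_lit 1676606810) (nat_lit 380) (nat_lit 8690257880) (nat_lit 76) (nat_lit 1591502363) (nat_lit 67) (nat_lit 5) (nat_lit 72) (nat_lit 5) (nat_lit 68) (nat_lit 5) (nat_lit 320) (nat_lit 253) (nat_lit 207)) (XT.lf (nat_lit 0) (nat_lit 4692246339) (nat_lit 380) (nat_lit 2283250879) (nat_lit 76) (nat_lit 5207836321) (nat_lit 67) (nat_lit 5) (nat_lit 72) (nat_lit 5) (nat_lit 68) (nat_lit 5) (nat_lit 321) (nat_lit 253) (nat_lit 206))) (XT.nd (nat_lit 78) (nat_lit 0) (nat_lit 0) (XT.lf (nat_lit 0) (nat_lit 4335733132) (nat_lit 228) (nat_lit 3461421460) (nat_lit 304) (nat_lit 4617965664) (nat_lit 64) (nat_lit 5) (nat_lit 67) (nat_lit 5) (nat_lit 68) (nat_lit 5) (nat_lit 322) (nat_lit 253) (nat_lit 205)) (XT.lf (nat_lit 0)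 (nat_lit 10977556732) (nat_lit 304) (nat_lit 1520119443) (nat_lit 76) (nat_lit 156748193) (nat_lit 64) (nat_lit 5) (nat_lit 68) (nat_lit 5) (nat_lit 65) (nat_lit 5) (nat_lit 323) (nat_lit 253) (nat_lit 204)))))) (XT.nd (nat_lit 546) (nat_lit 684) (nat_lit 0) (XT.nd (nat_lit 234) (nat_lit 456) (nat_lit 0) (XT.nd (nat_lit 78) (nat_lit 228) (nat_lit 0) (XT.lf (nat_lit 0) (nat_lit 1369895030) (nat_lit 304) (nat_lit 7672544164) (nat_lit 76) (nat_lit 3856795928) (nat_lit 60) (nat_lit 5) (nat_lit 64) (nat_lit 5) (nat_lit 61) (nat_lit 5) (nat_lit 324) (nat_lit 253) (nat_lit 203)) (XT.nd (nat_lit 78) (nat_lit 228) (nat_lit 0) (XT.lf (nat_lit 0) (nat_lit 4448801909) (nat_lit 304) (nat_lit 1024236679) (nat_lit 76) (nat_lit 7678651484) (nat_lit 60) (nat_lit 5) (nat_lit 64) (nat_lit 5) (nat_lit 61) (nat_lit 5) (nat_lit 325) (nat_lit 253) (nat_lit 202)) (XT.lf (nat_lit 0) (nat_lit 5876424227) (nat_lit 228)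 (nat_lit 1760277902) (nat_lit 304) (nat_lit 5774548138) (nat_lit 57) (nat_lit 5) (nat_lit 60) (nat_lit 5) (nat_lit 61) (nat_lit 5) (nat_lit 326) (nat_lit 253) (nat_lit 201)))) (XT.nd (nat_lit 156) (nat_lit 152) (nat_lit 0) (XT.nd (nat_lit 78) (nat_lit 304) (nat_lit 0) (XT.lf (nat_lit 0) (nat_lit 10911024895) (nat_lit 304) (nat_lit 755286083) (nat_lit 76) (nat_lit 2012592222) (nat_lit 57) (nat_lit 5) (nat_lit 61) (nat_lit 5) (nat_lit 58) (nat_lit 5) (nat_lit 327) (nat_lit 253) (nat_lit 200)) (XT.lf (nat_lit 0) (nat_lit 362306499) (nat_lit 304) (nat_lit 7684727197) (nat_lit 76) (nat_lit 5906292913) (nat_lit 53) (nat_lit 5) (nat_lit 57) (nat_lit 5) (nat_lit 54) (nat_lit 5) (nat_lit 328) (nat_lit 253) (nat_lit 199))) (XT.nd (nat_lit 78) (nat_lit 152) (nat_lit 0) (XT.lf (nat_lit 0) (nat_lit 3500260272) (nat_lit 304) (nat_lit 805093742) (nat_lit 76) (nat_lit 9930748709) (nat_lit 53) (nat_lit 5) (nat_lit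 57) (nat_lit 5) (nat_lit 54) (nat_lit 5) (nat_lit 329) (nat_lit 253) (nat_lit 198)) (XT.lf (nat_lit 0) (nat_lit 6345981403) (nat_lit 152) (nat_lit 410278160) (nat_lit 228) (nat_lit 7770411556) (nat_lit 51) (nat_lit 5) (nat_lit 53) (nat_lit 5) (nat_lit 54) (nat_lit 5) (nat_lit 330) (nat_lit 253) (nat_lit 197))))) (XT.nd (nat_lit 234) (nat_lit 380) (nat_lit 0) (XT.nd (nat_lit 78) (nat_lit 304) (nat_lit 0) (XT.lf (nat_lit 0) (nat_lit 10115988917) (nat_lit 228) (nat_lit 1191440713) (nat_lit 76) (nat_lit 3518370881) (nat_lit 51) (nat_lit 5) (nat_lit 54) (nat_lit 5) (nat_lit 52) (nat_lit 5) (nat_lit 331) (nat_lit 253) (nat_lit 196)) (XT.nd (nat_lit 78) (nat_lit 76) (nat_lit 0) (XT.lf (nat_lit 0) (nat_lit 6064364378) (nat_lit 228) (nat_lit 7538792078) (nat_lit 304) (nat_lit 1529972642) (nat_lit 48) (nat_lit 5) (nat_lit 51) (nat_lit 5) (nat_lit 52) (nat_lit 5) (nat_lit 332) (nat_lit 253) (nat_lit 195))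 (XT.lf (nat_lit 0) (nat_lit 1687766827) (nat_lit 304) (nat_lit 1961510929) (nat_lit 76) (nat_lit 11800622925) (nat_lit 47) (nat_lit 5) (nat_lit 51) (nat_lit 5) (nat_lit 48) (nat_lit 5) (nat_lit 333) (nat_lit 253) (nat_lit 194)))) (XT.nd (nat_lit 156) (nat_lit 228) (nat_lit 0) (XT.nd (nat_lit 78) (nat_lit 0) (nat_lit 0) (XT.lf (nat_lit 0) (nat_lit 4992466966) (nat_lit 228) (nat_lit 10385950716) (nat_lit 76) (nat_lit 396690508) (nat_lit 45) (nat_lit 5) (nat_lit 48) (nat_lit 5) (nat_lit 46) (nat_lit 5) (nat_lit 334) (nat_lit 253) (nat_lit 193)) (XT.lf (nat_lit 0) (nat_lit 8418161016) (nat_lit 228) (nat_lit 3201431246) (nat_lit 76) (nat_lit 4489846023) (nat_lit 45) (nat_lit 5) (nat_lit 48) (nat_lit 5) (nat_lit 46) (nat_lit 5) (nat_lit 335) (nat_lit 253) (nat_lit 192))) (XT.nd (nat_lit 78) (nat_lit 0) (nat_lit 0) (XT.lf (nat_lit 0) (nat_lit 4226554495) (nat_lit 228) (nat_lit 7727416042) (nat_lit 304)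 (nat_lit 4499628715) (nat_lit 42) (nat_lit 5) (nat_lit 45) (nat_lit 5) (nat_lit 46) (nat_lit 5) (nat_lit 336) (nat_lit 253) (nat_lit 191)) (XT.lf (nat_lit 0) (nat_lit 11888996150) (nat_lit 228) (nat_lit 3706353046) (nat_lit 304) (nat_lit 1212771697) (nat_lit 42) (nat_lit 5) (nat_lit 45) (nat_lit 5) (nat_lit 46) (nat_lit 5) (nat_lit 337) (nat_lit 253) (nat_lit 190))))))))
noncomputable def xc87 : XT := (XT.nd (nat_lit 2106) (nat_lit 684) (nat_lit 0) (XT.nd (nat_lit 1014) (nat_lit 760) (nat_lit 0) (XT.nd (nat_lit 468) (nat_lit 380) (nat_lit 0) (XT.nd (nat_lit 234) (nat_lit 228) (nat_lit 0) (XT.nd (nat_lit 78) (nat_lit 152) (nat_lit 0) (XT.lf (nat_lit 0) (nat_lit 2127362081) (nat_lit 228) (nat_lit 14592846104) (nat_lit 76) (nat_lit 452550898) (nat_lit 39) (nat_lit 5) (nat_lit 42) (nat_lit 5) (nat_lit 40) (nat_lit 5) (nat_lit 338) (nat_lit 253) (nat_lit 189)) (XT.nd (nat_lit 78) (nat_lit 152) (nat_lit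 0) (XT.lf (nat_lit 0) (nat_lit 5598206841) (nat_lit 228) (nat_lit 7244632356) (nat_lit 76) (nat_lit 4703509453) (nat_lit 39) (nat_lit 5) (nat_lit 42) (nat_lit 5) (nat_lit 40) (nat_lit 5) (nat_lit 339) (nat_lit 253) (nat_lit 188)) (XT.lf (nat_lit 0) (nat_lit 277650435) (nat_lit 152) (nat_lit 8867147474) (nat_lit 228) (nat_lit 8787217747) (nat_lit 37) (nat_lit 5) (nat_lit 39) (nat_lit 5) (nat_lit 40) (nat_lit 5) (nat_lit 340) (nat_lit 253) (nat_lit 187)))) (XT.nd (nat_lit 78) (nat_lit 228) (nat_lit 0) (XT.lf (nat_lit 0) (nat_lit 8122822040) (nat_lit 152) (nat_lit 4717484575) (nat_lit 228) (nat_lit 5487688306) (nat_lit 37) (nat_lit 5) (nat_lit 39) (nat_lit 5) (nat_lit 40) (nat_lit 5) (nat_lit 341) (nat_lit 253) (nat_lit 186)) (XT.nd (nat_lit 78) (nat_lit 228) (nat_lit 0) (XT.lf (nat_lit 0) (nat_lit 16153555075) (nat_lit 152) (nat_lit 463381162) (nat_lit 228) (nat_lit 2119826985) (nat_lit 37) (nat_lit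 5) (nat_lit 39) (nat_lit 5) (nat_lit 40) (nat_lit 5) (nat_lit 342) (nat_lit 253) (nat_lit 185)) (XT.lf (nat_lit 0) (nat_lit 1382708192) (nat_lit 228) (nat_lit 13885768777) (nat_lit 76) (nat_lit 3887145993) (nat_lit 34) (nat_lit 5) (nat_lit 37) (nat_lit 5) (nat_lit 35) (nat_lit 5) (nat_lit 343) (nat_lit 253) (nat_lit 184))))) (XT.nd (nat_lit 234) (nat_lit 228) (nat_lit 0) (XT.nd (nat_lit 78) (nat_lit 152) (nat_lit 0) (XT.lf (nat_lit 0) (nat_lit 4949659177) (nat_lit 228) (nat_lit 6249790309) (nat_lit 76) (nat_lit 8386926829) (nat_lit 34) (nat_lit 5) (nat_lit 37) (nat_lit 5) (nat_lit 35) (nat_lit 5) (nat_lit 344) (nat_lit 253) (nat_lit 183)) (XT.nd (nat_lit 78) (nat_lit 0) (nat_lit 0) (XT.lf (nat_lit 0) (nat_lit 1598744971) (nat_lit 152) (nat_lit 7012100705) (nat_lit 228) (nat_lit 11419605179) (nat_lit 32) (nat_lit 5) (nat_lit 34) (nat_lit 5) (nat_lit 35) (nat_lit 5) (nat_lit 345) (nat_lit 253) (nat_lit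 182)) (XT.lf (nat_lit 0) (nat_lit 9763598911) (nat_lit 152) (nat_lit 2653603784) (nat_lit 228) (nat_lit 8069599831) (nat_lit 32) (nat_lit 5) (nat_lit 34) (nat_lit 5) (nat_lit 35) (nat_lit 5) (nat_lit 346) (nat_lit 253) (nat_lit 181)))) (XT.nd (nat_lit 156) (nat_lit 76) (nat_lit 0) (XT.nd (nat_lit 78) (nat_lit 152) (nat_lit 0) (XT.lf (nat_lit 0) (nat_lit 16328247333) (nat_lit 228) (nat_lit 2847609099) (nat_lit 76) (nat_lit 1781287920) (nat_lit 32) (nat_lit 5) (nat_lit 35) (nat_lit 5) (nat_lit 33) (nat_lit 4) (nat_lit 347) (nat_lit 253) (nat_lit 180)) (XT.lf (nat_lit 0) (nat_lit 5296164623) (nat_lit 152) (nat_lit 15111284232) (nat_lit 228) (nat_lit 1032636900) (nat_lit 30) (nat_lit 5) (nat_lit 32) (nat_lit 5) (nat_lit 33) (nat_lit 4) (nat_lit 348) (nat_lit 253) (nat_lit 179))) (XT.nd (nat_lit 78) (nat_lit 0) (nat_lit 0) (XT.lf (nat_lit 0) (nat_lit 2622129255) (nat_lit 228) (nat_lit 8265249215) (nat_lit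 76) (nat_lit 11049297333) (nat_lit 29) (nat_lit 5) (nat_lit 32) (nat_lit 5) (nat_lit 30) (nat_lit 5) (nat_lit 349) (nat_lit 253) (nat_lit 178)) (XT.lf (nat_lit 0) (nat_lit 6340258231) (nat_lit 228) (nat_lit 204379443) (nat_lit 76) (nat_lit 15903997800) (nat_lit 29) (nat_lit 5) (nat_lit 32) (nat_lit 5) (nat_lit 30) (nat_lit 5) (nat_lit 350) (nat_lit 253) (nat_lit 177)))))) (XT.nd (nat_lit 546) (nat_lit 304) (nat_lit 0) (XT.nd (nat_lit 234) (nat_lit 228) (nat_lit 0) (XT.nd (nat_lit 78) (nat_lit 76) (nat_lit 0) (XT.lf (nat_lit 0) (nat_lit 8215981386) (nat_lit 152) (nat_lit 2008144997) (nat_lit 228) (nat_lit 12750214212) (nat_lit 27) (nat_lit 5) (nat_lit 29) (nat_lit 5) (nat_lit 30) (nat_lit 5) (nat_lit 351) (nat_lit 253) (nat_lit 176)) (XT.nd (nat_lit 78) (nat_lit 76) (nat_lit 0) (XT.lf (nat_lit 0) (nat_lit 14227570268) (nat_lit 228) (nat_lit 6691060499) (nat_lit 76) (nat_lit 2597106465) (nat_lit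 27) (nat_lit 5) (nat_lit 30) (nat_lit 5) (nat_lit 28) (nat_lit 4) (nat_lit 352) (nat_lit 253) (nat_lit 175)) (XT.lf (nat_lit 0) (nat_lit 1587789618) (nat_lit 76) (nat_lit 16774554027) (nat_lit 152) (nat_lit 5710707135) (nat_lit 26) (nat_lit 5) (nat_lit 27) (nat_lit 5) (nat_lit 28) (nat_lit 4) (nat_lit 353) (nat_lit 253) (nat_lit 174)))) (XT.nd (nat_lit 156) (nat_lit 152) (nat_lit 0) (XT.nd (nat_lit 78) (nat_lit 76) (nat_lit 0) (XT.lf (nat_lit 0) (nat_lit 10211004527) (nat_lit 76) (nat_lit 12454104049) (nat_lit 152) (nat_lit 1980668163) (nat_lit 26) (nat_lit 5) (nat_lit 27) (nat_lit 5) (nat_lit 28) (nat_lit 4) (nat_lit 354) (nat_lit 253) (nat_lit 173)) (XT.lf (nat_lit 0) (nat_lit 1801783591) (nat_lit 152) (nat_lit 6201094201) (nat_lit 76) (nat_lit 17232975780) (nat_lit 25) (nat_lit 5) (nat_lit 27) (nat_lit 5) (nat_lit 26) (nat_lit 5) (nat_lit 355) (nat_lit 253) (nat_lit 172))) (XT.nd (nat_lit 78)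 (nat_lit 0) (nat_lit 0) (XT.lf (nat_lit 0) (nat_lit 2264924167) (nat_lit 152) (nat_lit 3392253637) (nat_lit 228) (nat_lit 20185898720) (nat_lit 23) (nat_lit 5) (nat_lit 25) (nat_lit 5) (nat_lit 26) (nat_lit 5) (nat_lit 356) (nat_lit 253) (nat_lit 171)) (XT.lf (nat_lit 0) (nat_lit 9682141945) (nat_lit 228) (nat_lit 15407647242) (nat_lit 76) (nat_lit 1377119912) (nat_lit 23) (nat_lit 5) (nat_lit 26) (nat_lit 5) (nat_lit 24) (nat_lit 4) (nat_lit 357) (nat_lit 253) (nat_lit 170))))) (XT.nd (nat_lit 234) (nat_lit 228) (nat_lit 0) (XT.nd (nat_lit 78) (nat_lit 76) (nat_lit 0) (XT.lf (nat_lit 0) (nat_lit 13839721185) (nat_lit 228) (nat_lit 7063854193) (nat_lit 76) (nat_lit 6205535169) (nat_lit 23) (nat_lit 5) (nat_lit 26) (nat_lit 5) (nat_lit 24) (nat_lit 4) (nat_lit 358) (nat_lit 253) (nat_lit 169)) (XT.nd (nat_lit 78) (nat_lit 0) (nat_lit 0) (XT.lf (nat_lit 0) (nat_lit 1522842033) (nat_lit 76) (nat_lit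 16592736401) (nat_lit 152) (nat_lit 9655202679) (nat_lit 22) (nat_lit 5) (nat_lit 23) (nat_lit 5) (nat_lit 24) (nat_lit 4) (nat_lit 359) (nat_lit 253) (nat_lit 168)) (XT.lf (nat_lit 0) (nat_lit 10475178472) (nat_lit 76) (nat_lit 12095036970) (nat_lit 152) (nat_lit 5880580546) (nat_lit 22) (nat_lit 5) (nat_lit 23) (nat_lit 5) (nat_lit 24) (nat_lit 4) (nat_lit 360) (nat_lit 253) (nat_lit 167)))) (XT.nd (nat_lit 156) (nat_lit 152) (nat_lit 0) (XT.nd (nat_lit 78) (nat_lit 76) (nat_lit 0) (XT.lf (nat_lit 0) (nat_lit 19660393005) (nat_lit 76) (nat_lit 7477878134) (nat_lit 152) (nat_lit 2013555826) (nat_lit 22) (nat_lit 5) (nat_lit 23) (nat_lit 5) (nat_lit 24) (nat_lit 4) (nat_lit 361) (nat_lit 253) (nat_lit 166)) (XT.lf (nat_lit 0) (nat_lit 1911213537) (nat_lit 152) (nat_lit 806712436) (nat_lit 76) (nat_lit 27155998499) (nat_lit 21) (nat_lit 5) (nat_lit 23) (nat_lit 5) (nat_lit 22) (nat_lit 5) (nat_lit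 362) (nat_lit 253) (nat_lit 165))) (XT.nd (nat_lit 78) (nat_lit 0) (nat_lit 0) (XT.lf (nat_lit 0) (nat_lit 5995101301) (nat_lit 228) (nat_lit 22391658071) (nat_lit 76) (nat_lit 2227880349) (nat_lit 19) (nat_lit 5) (nat_lit 22) (nat_lit 5) (nat_lit 20) (nat_lit 4) (nat_lit 363) (nat_lit 253) (nat_lit 164)) (XT.lf (nat_lit 0) (nat_lit 10217481769) (nat_lit 228) (nat_lit 13898357968) (nat_lit 76) (nat_lit 7261265442) (nat_lit 19) (nat_lit 5) (nat_lit 22) (nat_lit 5) (nat_lit 20) (nat_lit 4) (nat_lit 364) (nat_lit 253) (nat_lit 163))))))) (XT.nd (nat_lit 1014) (nat_lit 304) (nat_lit 0) (XT.nd (nat_lit 468) (nat_lit 76) (nat_lit 0) (XT.nd (nat_lit 234) (nat_lit 228) (nat_lit 0) (XT.nd (nat_lit 78) (nat_lit 76) (nat_lit 0) (XT.lf (nat_lit 0) (nat_lit 14547930781) (nat_lit 228) (nat_lit 5183403024) (nat_lit 76) (nat_lit 12431676682) (nat_lit 19) (nat_lit 5) (nat_lit 22) (nat_lit 5) (nat_lit 20) (nat_lit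 4) (nat_lit 365) (nat_lit 253) (nat_lit 162)) (XT.nd (nat_lit 78) (nat_lit 0) (nat_lit 0) (XT.lf (nat_lit 0) (nat_lit 3835669496) (nat_lit 76) (nat_lit 15191433529) (nat_lit 152) (nat_lit 13944833209) (nat_lit 18) (nat_lit 5) (nat_lit 19) (nat_lit 5) (nat_lit 20) (nat_lit 4) (nat_lit 366) (nat_lit 253) (nat_lit 161)) (XT.lf (nat_lit 0) (nat_lit 13199705553) (nat_lit 76) (nat_lit 10475445813) (nat_lit 152) (nat_lit 10128950713) (nat_lit 18) (nat_lit 5) (nat_lit 19) (nat_lit 5) (nat_lit 20) (nat_lit 4) (nat_lit 367) (nat_lit 253) (nat_lit 160)))) (XT.nd (nat_lit 78) (nat_lit 228) (nat_lit 0) (XT.lf (nat_lit 0) (nat_lit 22813727430) (nat_lit 76) (nat_lit 5631592097) (nat_lit 152) (nat_lit 6216440160) (nat_lit 18) (nat_lit 5) (nat_lit 19) (nat_lit 5) (nat_lit 20) (nat_lit 4) (nat_lit 368) (nat_lit 253) (nat_lit 159)) (XT.nd (nat_lit 78) (nat_lit 228) (nat_lit 0) (XT.lf (nat_lit 0) (nat_lit 32686135728)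 (nat_lit 76) (nat_lit 655639887) (nat_lit 152) (nat_lit 2203882850) (nat_lit 18) (nat_lit 5) (nat_lit 19) (nat_lit 5) (nat_lit 20) (nat_lit 4) (nat_lit 369) (nat_lit 253) (nat_lit 158)) (XT.lf (nat_lit 0) (nat_lit 1980813249) (nat_lit 228) (nat_lit 30020796966) (nat_lit 76) (nat_lit 4451232084) (nat_lit 15) (nat_lit 5) (nat_lit 18) (nat_lit 5) (nat_lit 16) (nat_lit 4) (nat_lit 370) (nat_lit 253) (nat_lit 157))))) (XT.nd (nat_lit 234) (nat_lit 76) (nat_lit 0) (XT.nd (nat_lit 78) (nat_lit 0) (nat_lit 0) (XT.lf (nat_lit 0) (nat_lit 6265987395) (nat_lit 228) (nat_lit 21383571766) (nat_lit 76) (nat_lit 9736457220) (nat_lit 15) (nat_lit 5) (nat_lit 18) (nat_lit 5) (nat_lit 16) (nat_lit 4) (nat_lit 371) (nat_lit 253) (nat_lit 156)) (XT.nd (nat_lit 78) (nat_lit 0) (nat_lit 0) (XT.lf (nat_lit 0) (nat_lit 10663775089) (nat_lit 228) (nat_lit 12515944611) (nat_lit 76) (nat_lit 15167950395) (nat_lit 15) (nat_lit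 5) (nat_lit 18) (nat_lit 5) (nat_lit 16) (nat_lit 4) (nat_lit 372) (nat_lit 253) (nat_lit 155)) (XT.lf (nat_lit 0) (nat_lit 15178019056) (nat_lit 228) (nat_lit 3410167086) (nat_lit 76) (nat_lit 20750457574) (nat_lit 15) (nat_lit 5) (nat_lit 18) (nat_lit 5) (nat_lit 16) (nat_lit 4) (nat_lit 373) (nat_lit 253) (nat_lit 154)))) (XT.nd (nat_lit 156) (nat_lit 0) (nat_lit 0) (XT.nd (nat_lit 78) (nat_lit 0) (nat_lit 0) (XT.lf (nat_lit 0) (nat_lit 6059969134) (nat_lit 76) (nat_lit 13810946778) (nat_lit 152) (nat_lit 20487139673) (nat_lit 14) (nat_lit 5) (nat_lit 15) (nat_lit 5) (nat_lit 16) (nat_lit 4) (nat_lit 374) (nat_lit 253) (nat_lit 153)) (XT.lf (nat_lit 0) (nat_lit 15857313430) (nat_lit 76) (nat_lit 8866875724) (nat_lit 152) (nat_lit 16683278606) (nat_lit 14) (nat_lit 5) (nat_lit 15) (nat_lit 5) (nat_lit 16) (nat_lit 4) (nat_lit 375) (nat_lit 253) (nat_lit 152))) (XT.nd (nat_lit 78) (nat_lit 0)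 (nat_lit 0) (XT.lf (nat_lit 0) (nat_lit 25922557573) (nat_lit 76) (nat_lit 3786088922) (nat_lit 152) (nat_lit 12780153699) (nat_lit 14) (nat_lit 5) (nat_lit 15) (nat_lit 5) (nat_lit 16) (nat_lit 4) (nat_lit 376) (nat_lit 253) (nat_lit 151)) (XT.lf (nat_lit 0) (nat_lit 34842445584) (nat_lit 152) (nat_lit 7352303603) (nat_lit 0) (nat_lit 1407834485) (nat_lit 14) (nat_lit 5) (nat_lit 16) (nat_lit 4) (nat_lit 14) (nat_lit 4) (nat_lit 377) (nat_lit 253) (nat_lit 150)))))) (XT.nd (nat_lit 546) (nat_lit 76) (nat_lit 0) (XT.nd (nat_lit 234) (nat_lit 76) (nat_lit 0) (XT.nd (nat_lit 78) (nat_lit 76) (nat_lit 0) (XT.lf (nat_lit 0) (nat_lit 2117044324) (nat_lit 76) (nat_lit 38057358841) (nat_lit 76) (nat_lit 4574058309) (nat_lit 13) (nat_lit 4) (nat_lit 14) (nat_lit 5) (nat_lit 14) (nat_lit 4) (nat_lit 378) (nat_lit 253) (nat_lit 149)) (XT.nd (nat_lit 78) (nat_lit 76) (nat_lit 0) (XT.lf (nat_lit 0) (nat_lit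 11996596788) (nat_lit 76) (nat_lit 33730437113) (nat_lit 76) (nat_lit 199865286) (nat_lit 13) (nat_lit 4) (nat_lit 14) (nat_lit 5) (nat_lit 14) (nat_lit 4) (nat_lit 379) (nat_lit 253) (nat_lit 148)) (XT.lf (nat_lit 0) (nat_lit 4208266486) (nat_lit 152) (nat_lit 25033685319) (nat_lit 76) (nat_lit 17897899420) (nat_lit 12) (nat_lit 5) (nat_lit 14) (nat_lit 5) (nat_lit 13) (nat_lit 4) (nat_lit 380) (nat_lit 253) (nat_lit 147)))) (XT.nd (nat_lit 156) (nat_lit 76) (nat_lit 0) (XT.nd (nat_lit 78) (nat_lit 0) (nat_lit 0) (XT.lf (nat_lit 0) (nat_lit 8731741445) (nat_lit 152) (nat_lit 15895588881) (nat_lit 76) (nat_lit 23762193225) (nat_lit 12) (nat_lit 5) (nat_lit 14) (nat_lit 5) (nat_lit 13) (nat_lit 4) (nat_lit 381) (nat_lit 253) (nat_lit 146)) (XT.lf (nat_lit 0) (nat_lit 13378412232) (nat_lit 152) (nat_lit 6506107115) (nat_lit 76) (nat_lit 29792546402) (nat_lit 12) (nat_lit 5) (nat_lit 14) (nat_lit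 5) (nat_lit 13) (nat_lit 4) (nat_lit 382) (nat_lit 253) (nat_lit 145))) (XT.nd (nat_lit 78) (nat_lit 0) (nat_lit 0) (XT.lf (nat_lit 0) (nat_lit 3205515535) (nat_lit 76) (nat_lit 14977636885) (nat_lit 152) (nat_lit 32819526031) (nat_lit 11) (nat_lit 5) (nat_lit 12) (nat_lit 5) (nat_lit 13) (nat_lit 4) (nat_lit 383) (nat_lit 253) (nat_lit 144)) (XT.lf (nat_lit 0) (nat_lit 13319977575) (nat_lit 76) (nat_lit 9865755472) (nat_lit 152) (nat_lit 29180719734) (nat_lit 11) (nat_lit 5) (nat_lit 12) (nat_lit 5) (nat_lit 13) (nat_lit 4) (nat_lit 384) (nat_lit 253) (nat_lit 143))))) (XT.nd (nat_lit 234) (nat_lit 76) (nat_lit 0) (XT.nd (nat_lit 78) (nat_lit 0) (nat_lit 0) (XT.lf (nat_lit 0) (nat_lit 23716632596) (nat_lit 76) (nat_lit 4610107341) (nat_lit 152) (nat_lit 25444754011) (nat_lit 11) (nat_lit 5) (nat_lit 12) (nat_lit 5) (nat_lit 13) (nat_lit 4) (nat_lit 385) (nat_lit 253) (nat_lit 142)) (XT.nd (nat_lit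 78) (nat_lit 0) (nat_lit 0) (XT.lf (nat_lit 0) (nat_lit 33618296681) (nat_lit 152) (nat_lit 20822096054) (nat_lit 0) (nat_lit 778407976) (nat_lit 11) (nat_lit 5) (nat_lit 13) (nat_lit 4) (nat_lit 11) (nat_lit 4) (nat_lit 386) (nat_lit 253) (nat_lit 141)) (XT.lf (nat_lit 0) (nat_lit 39103175530) (nat_lit 152) (nat_lit 11378260409) (nat_lit 0) (nat_lit 6227057315) (nat_lit 11) (nat_lit 5) (nat_lit 13) (nat_lit 4) (nat_lit 11) (nat_lit 4) (nat_lit 387) (nat_lit 253) (nat_lit 140)))) (XT.nd (nat_lit 156) (nat_lit 0) (nat_lit 0) (XT.nd (nat_lit 78) (nat_lit 76) (nat_lit 0) (XT.lf (nat_lit 0) (nat_lit 44741853925) (nat_lit 152) (nat_lit 1670787348) (nat_lit 0) (nat_lit 11830561428) (nat_lit 11) (nat_lit 5) (nat_lit 13) (nat_lit 4) (nat_lit 11) (nat_lit 4) (nat_lit 388) (nat_lit 253) (nat_lit 139)) (XT.lf (nat_lit 0) (nat_lit 8474166904) (nat_lit 76) (nat_lit 42146550840) (nat_lit 76) (nat_lit 9201108553)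 (nat_lit 10) (nat_lit 4) (nat_lit 11) (nat_lit 5) (nat_lit 11) (nat_lit 4) (nat_lit 389) (nat_lit 253) (nat_lit 138))) (XT.nd (nat_lit 78) (nat_lit 0) (nat_lit 0) (XT.lf (nat_lit 0) (nat_lit 18938802067) (nat_lit 76) (nat_lit 37743705335) (nat_lit 76) (nat_lit 4765107914) (nat_lit 10) (nat_lit 4) (nat_lit 11) (nat_lit 5) (nat_lit 11) (nat_lit 4) (nat_lit 390) (nat_lit 253) (nat_lit 137)) (XT.lf (nat_lit 0) (nat_lit 29699010052) (nat_lit 76) (nat_lit 33217129288) (nat_lit 76) (nat_lit 206342415) (nat_lit 10) (nat_lit 4) (nat_lit 11) (nat_lit 5) (nat_lit 11) (nat_lit 4) (nat_lit 391) (nat_lit 253) (nat_lit 136))))))))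
noncomputable def xc88 : XT := (XT.nd (nat_lit 31980) (nat_lit 0) (nat_lit 7372) (XT.nd (nat_lit 1014) (nat_lit 76) (nat_lit 0) (XT.nd (nat_lit 468) (nat_lit 76) (nat_lit 0) (XT.nd (nat_lit 234) (nat_lit 76) (nat_lit 0) (XT.nd (nat_lit 78) (nat_lit 0) (nat_lit 0) (XT.lf (nat_lit 0) (nat_lit 4391766561) (nat_lit 152) (nat_lit 24126752646) (nat_lit 76) (nat_lit 36328078190) (nat_lit 9) (nat_lit 5) (nat_lit 11) (nat_lit 5) (nat_lit 10) (nat_lit 4) (nat_lit 392) (nat_lit 253) (nat_lit 135)) (XT.nd (nat_lit 78) (nat_lit 0) (nat_lit 0) (XT.lf (nat_lit 0) (nat_lit 9114138233) (nat_lit 152) (nat_lit 14570679797) (nat_lit 76) (nat_lit 42937846306) (nat_lit 9) (nat_lit 5) (nat_lit 11) (nat_lit 5) (nat_lit 10) (nat_lit 4) (nat_lit 393) (nat_lit 253) (nat_lit 134)) (XT.lf (nat_lit 0) (nat_lit 13968925427) (nat_lit 152) (nat_lit 4744919702) (nat_lit 76) (nat_lit 49738448854) (nat_lit 9) (nat_lit 5) (nat_lit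 11) (nat_lit 5) (nat_lit 10) (nat_lit 4) (nat_lit 394) (nat_lit 253) (nat_lit 133)))) (XT.nd (nat_lit 78) (nat_lit 0) (nat_lit 0) (XT.lf (nat_lit 0) (nat_lit 5465770116) (nat_lit 76) (nat_lit 13547140398) (nat_lit 152) (nat_lit 51322598316) (nat_lit 8) (nat_lit 5) (nat_lit 9) (nat_lit 5) (nat_lit 10) (nat_lit 4) (nat_lit 395) (nat_lit 253) (nat_lit 132)) (XT.nd (nat_lit 78) (nat_lit 0) (nat_lit 0) (XT.lf (nat_lit 0) (nat_lit 16063708655) (nat_lit 76) (nat_lit 8183539516) (nat_lit 152) (nat_lit 48026803817) (nat_lit 8) (nat_lit 5) (nat_lit 9) (nat_lit 5) (nat_lit 10) (nat_lit 4) (nat_lit 396) (nat_lit 253) (nat_lit 131)) (XT.lf (nat_lit 0) (nat_lit 26963723043) (nat_lit 76) (nat_lit 2666270225) (nat_lit 152) (nat_lit 44641019626) (nat_lit 8) (nat_lit 5) (nat_lit 9) (nat_lit 5) (nat_lit 10) (nat_lit 4) (nat_lit 397) (nat_lit 253) (nat_lit 130))))) (XT.nd (nat_lit 234) (nat_lit 76) (nat_lit 0) (XT.nd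 (nat_lit 78) (nat_lit 0) (nat_lit 0) (XT.lf (nat_lit 0) (nat_lit 35194778218) (nat_lit 152) (nat_lit 38181727945) (nat_lit 0) (nat_lit 2950762430) (nat_lit 8) (nat_lit 5) (nat_lit 10) (nat_lit 4) (nat_lit 8) (nat_lit 4) (nat_lit 398) (nat_lit 253) (nat_lit 129)) (XT.nd (nat_lit 78) (nat_lit 0) (nat_lit 0) (XT.lf (nat_lit 0) (nat_lit 40944712123) (nat_lit 152) (nat_lit 28823930489) (nat_lit 0) (nat_lit 8676025802) (nat_lit 8) (nat_lit 5) (nat_lit 10) (nat_lit 4) (nat_lit 8) (nat_lit 4) (nat_lit 399) (nat_lit 253) (nat_lit 128)) (XT.lf (nat_lit 0) (nat_lit 46859189377) (nat_lit 152) (nat_lit 19200090948) (nat_lit 0) (nat_lit 14566551081) (nat_lit 8) (nat_lit 5) (nat_lit 10) (nat_lit 4) (nat_lit 8) (nat_lit 4) (nat_lit 400) (nat_lit 253) (nat_lit 127)))) (XT.nd (nat_lit 156) (nat_lit 0) (nat_lit 0) (XT.nd (nat_lit 78) (nat_lit 76) (nat_lit 0) (XT.lf (nat_lit 0) (nat_lit 52943377970) (nat_lit 152)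 (nat_lit 9301800142) (nat_lit 0) (nat_lit 20627485329) (nat_lit 8) (nat_lit 5) (nat_lit 10) (nat_lit 4) (nat_lit 8) (nat_lit 4) (nat_lit 401) (nat_lit 253) (nat_lit 126)) (XT.lf (nat_lit 0) (nat_lit 897096505) (nat_lit 76) (nat_lit 58314121117) (nat_lit 76) (nat_lit 25975651443) (nat_lit 7) (nat_lit 4) (nat_lit 8) (nat_lit 5) (nat_lit 8) (nat_lit 4) (nat_lit 402) (nat_lit 253) (nat_lit 125))) (XT.nd (nat_lit 78) (nat_lit 0) (nat_lit 0) (XT.lf (nat_lit 0) (nat_lit 11578925138) (nat_lit 76) (nat_lit 54174685805) (nat_lit 76) (nat_lit 21814296681) (nat_lit 7) (nat_lit 4) (nat_lit 8) (nat_lit 5) (nat_lit 8) (nat_lit 4) (nat_lit 403) (nat_lit 253) (nat_lit 124)) (XT.lf (nat_lit 0) (nat_lit 22567895332) (nat_lit 76) (nat_lit 49917185138) (nat_lit 76) (nat_lit 17535514994) (nat_lit 7) (nat_lit 4) (nat_lit 8) (nat_lit 5) (nat_lit 8) (nat_lit 4) (nat_lit 404) (nat_lit 253) (nat_lit 123)))))) (XT.nd (nat_lit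 30420) (nat_lit 0) (nat_lit 18696) (XT.nd (nat_lit 234) (nat_lit 76) (nat_lit 0) (XT.nd (nat_lit 78) (nat_lit 0) (nat_lit 0) (XT.lf (nat_lit 0) (nat_lit 33873609099) (nat_lit 76) (nat_lit 45537898968) (nat_lit 76) (nat_lit 13135567640) (nat_lit 7) (nat_lit 4) (nat_lit 8) (nat_lit 5) (nat_lit 8) (nat_lit 4) (nat_lit 405) (nat_lit 253) (nat_lit 122)) (XT.nd (nat_lit 78) (nat_lit 0) (nat_lit 0) (XT.lf (nat_lit 0) (nat_lit 45505945218) (nat_lit 76) (nat_lit 41033000734) (nat_lit 76) (nat_lit 8610610005) (nat_lit 7) (nat_lit 4) (nat_lit 8) (nat_lit 5) (nat_lit 8) (nat_lit 4) (nat_lit 406) (nat_lit 253) (nat_lit 121)) (XT.lf (nat_lit 0) (nat_lit 57475067867) (nat_lit 76) (nat_lit 36398554119) (nat_lit 76) (nat_lit 3956688243) (nat_lit 7) (nat_lit 4) (nat_lit 8) (nat_lit 5) (nat_lit 8) (nat_lit 4) (nat_lit 407) (nat_lit 253) (nat_lit 120)))) (XT.nd (nat_lit 30030) (nat_lit 0) (nat_lit 21508) (XT.lf (nat_lit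 0) (nat_lit 814062735) (nat_lit 152) (nat_lit 30808226432) (nat_lit 76) (nat_lit 68969152328) (nat_lit 6) (nat_lit 5) (nat_lit 8) (nat_lit 5) (nat_lit 7) (nat_lit 4) (nat_lit 408) (nat_lit 253) (nat_lit 119)) (XT.nd (nat_lit 78) (nat_lit 0) (nat_lit 0) (XT.lf (nat_lit 0) (nat_lit 353515621) (nat_lit 532) (nat_lit 2595125912) (nat_lit 0) (nat_lit 353515621) (nat_lit 289) (nat_lit 5) (nat_lit 296) (nat_lit 4) (nat_lit 289) (nat_lit 4) (nat_lit 272) (nat_lit 254) (nat_lit 254)) (XT.lf (nat_lit 0) (nat_lit 3717316903) (nat_lit 532) (nat_lit 1403406316) (nat_lit 0) (nat_lit 1512174173) (nat_lit 289) (nat_lit 5) (nat_lit 296) (nat_lit 4) (nat_lit 289) (nat_lit 4) (nat_lit 273) (nat_lit 254) (nat_lit 253))))) (XT.nd (nat_lit 234) (nat_lit 1596) (nat_lit 0) (XT.nd (nat_lit 78) (nat_lit 608) (nat_lit 0) (XT.lf (nat_lit 0) (nat_lit 73635211) (nat_lit 608) (nat_lit 4196578523) (nat_lit 76) (nat_lit 2394666581)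 (nat_lit 281) (nat_lit 5) (nat_lit 289) (nat_lit 5) (nat_lit 282) (nat_lit 4) (nat_lit 274) (nat_lit 254) (nat_lit 252)) (XT.nd (nat_lit 78) (nat_lit 608) (nat_lit 0) (XT.lf (nat_lit 0) (nat_lit 3007631908) (nat_lit 608) (nat_lit 319123745) (nat_lit 76) (nat_lit 3373003649) (nat_lit 281) (nat_lit 5) (nat_lit 289) (nat_lit 5) (nat_lit 282) (nat_lit 4) (nat_lit 275) (nat_lit 254) (nat_lit 251)) (XT.lf (nat_lit 0) (nat_lit 3670900445) (nat_lit 608) (nat_lit 2296358146) (nat_lit 684) (nat_lit 770505273) (nat_lit 273) (nat_lit 5) (nat_lit 281) (nat_lit 5) (nat_lit 282) (nat_lit 4) (nat_lit 276) (nat_lit 254) (nat_lit 250)))) (XT.nd (nat_lit 156) (nat_lit 836) (nat_lit 0) (XT.nd (nat_lit 78) (nat_lit 0) (nat_lit 0) (XT.lf (nat_lit 0) (nat_lit 930186584) (nat_lit 684) (nat_lit 1180395475) (nat_lit 760) (nat_lit 4668411403) (nat_lit 263) (nat_lit 5) (nat_lit 272) (nat_lit 5) (nat_lit 273) (nat_lit 5)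 (nat_lit 277) (nat_lit 254) (nat_lit 249)) (XT.lf (nat_lit 0) (nat_lit 4999165304) (nat_lit 760) (nat_lit 1797374763) (nat_lit 76) (nat_lit 26784427) (nat_lit 263) (nat_lit 5) (nat_lit 273) (nat_lit 5) (nat_lit 264) (nat_lit 4) (nat_lit 278) (nat_lit 254) (nat_lit 248))) (XT.nd (nat_lit 78) (nat_lit 0) (nat_lit 0) (XT.lf (nat_lit 0) (nat_lit 1025529368) (nat_lit 836) (nat_lit 4548436539) (nat_lit 76) (nat_lit 1296629386) (nat_lit 252) (nat_lit 5) (nat_lit 263) (nat_lit 5) (nat_lit 253) (nat_lit 5) (nat_lit 279) (nat_lit 254) (nat_lit 247)) (XT.lf (nat_lit 0) (nat_lit 3851570222) (nat_lit 836) (nat_lit 412999008) (nat_lit 76) (nat_lit 2656521177) (nat_lit 252) (nat_lit 5) (nat_lit 263) (nat_lit 5) (nat_lit 253) (nat_lit 5) (nat_lit 280) (nat_lit 254) (nat_lit 246))))))) (XT.nd (nat_lit 1014) (nat_lit 4256) (nat_lit 0) (XT.nd (nat_lit 468) (nat_lit 3116) (nat_lit 0) (XT.nd (nat_lit 234) (nat_lit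 2128) (nat_lit 0) (XT.nd (nat_lit 78) (nat_lit 988) (nat_lit 0) (XT.lf (nat_lit 0) (nat_lit 3845679357) (nat_lit 836) (nat_lit 2865520518) (nat_lit 912) (nat_lit 263604997) (nat_lit 241) (nat_lit 5) (nat_lit 252) (nat_lit 5) (nat_lit 253) (nat_lit 5) (nat_lit 281) (nat_lit 254) (nat_lit 245)) (XT.nd (nat_lit 78) (nat_lit 0) (nat_lit 0) (XT.lf (nat_lit 0) (nat_lit 1130327937) (nat_lit 912) (nat_lit 1372655633) (nat_lit 988) (nat_lit 4528716373) (nat_lit 228) (nat_lit 5) (nat_lit 240) (nat_lit 5) (nat_lit 241) (nat_lit 5) (nat_lit 282) (nat_lit 254) (nat_lit 244)) (XT.lf (nat_lit 0) (nat_lit 5295338933) (nat_lit 988) (nat_lit 1591226232) (nat_lit 76) (nat_lit 205370788) (nat_lit 228) (nat_lit 5) (nat_lit 241) (nat_lit 5) (nat_lit 229) (nat_lit 5) (nat_lit 283) (nat_lit 254) (nat_lit 243)))) (XT.nd (nat_lit 78) (nat_lit 1064) (nat_lit 0) (XT.lf (nat_lit 0) (nat_lit 954752364) (nat_lit 1064) (nat_lit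 4352007877) (nat_lit 76) (nat_lit 1848357286) (nat_lit 214) (nat_lit 5) (nat_lit 228) (nat_lit 5) (nat_lit 215) (nat_lit 5) (nat_lit 284) (nat_lit 254) (nat_lit 242)) (XT.nd (nat_lit 78) (nat_lit 0) (nat_lit 0) (XT.lf (nat_lit 0) (nat_lit 47364701) (nat_lit 1064) (nat_lit 3639646850) (nat_lit 1140) (nat_lit 3534756285) (nat_lit 200) (nat_lit 5) (nat_lit 214) (nat_lit 5) (nat_lit 215) (nat_lit 5) (nat_lit 285) (nat_lit 254) (nat_lit 241)) (XT.lf (nat_lit 0) (nat_lit 4590898978) (nat_lit 1064) (nat_lit 1873736573) (nat_lit 1140) (nat_lit 827017380) (nat_lit 200) (nat_lit 5) (nat_lit 214) (nat_lit 5) (nat_lit 215) (nat_lit 5) (nat_lit 286) (nat_lit 254) (nat_lit 240))))) (XT.nd (nat_lit 234) (nat_lit 1292) (nat_lit 0) (XT.nd (nat_lit 78) (nat_lit 608) (nat_lit 0) (XT.lf (nat_lit 0) (nat_lit 1847811188) (nat_lit 1140) (nat_lit 14511524) (nat_lit 1216) (nat_lit 5502715779) (nat_lit 184) (nat_lit 5)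 (nat_lit 199) (nat_lit 5) (nat_lit 200) (nat_lit 5) (nat_lit 287) (nat_lit 254) (nat_lit 239)) (XT.nd (nat_lit 78) (nat_lit 608) (nat_lit 0) (XT.lf (nat_lit 0) (nat_lit 4584016580) (nat_lit 1216) (nat_lit 956548632) (nat_lit 76) (nat_lit 1900891431) (nat_lit 184) (nat_lit 5) (nat_lit 200) (nat_lit 5) (nat_lit 185) (nat_lit 5) (nat_lit 288) (nat_lit 254) (nat_lit 238)) (XT.lf (nat_lit 0) (nat_lit 3737812590) (nat_lit 608) (nat_lit 3610365001) (nat_lit 684) (nat_lit 173287148) (nat_lit 176) (nat_lit 5) (nat_lit 184) (nat_lit 5) (nat_lit 185) (nat_lit 5) (nat_lit 289) (nat_lit 254) (nat_lit 237)))) (XT.nd (nat_lit 156) (nat_lit 608) (nat_lit 0) (XT.nd (nat_lit 78) (nat_lit 0) (nat_lit 0) (XT.lf (nat_lit 0) (nat_lit 904893569) (nat_lit 608) (nat_lit 1579747833) (nat_lit 684) (nat_lit 5120284716) (nat_lit 167) (nat_lit 5) (nat_lit 175) (nat_lit 5) (nat_lit 176) (nat_lit 5) (nat_lit 290) (nat_lit 254)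 (nat_lit 236)) (XT.lf (nat_lit 0) (nat_lit 5189111004) (nat_lit 684) (nat_lit 1963417221) (nat_lit 76) (nat_lit 539314604) (nat_lit 167) (nat_lit 5) (nat_lit 176) (nat_lit 5) (nat_lit 168) (nat_lit 5) (nat_lit 291) (nat_lit 254) (nat_lit 235))) (XT.nd (nat_lit 78) (nat_lit 0) (nat_lit 0) (XT.lf (nat_lit 0) (nat_lit 161430619) (nat_lit 608) (nat_lit 4904074065) (nat_lit 76) (nat_lit 2716756068) (nat_lit 159) (nat_lit 5) (nat_lit 167) (nat_lit 5) (nat_lit 160) (nat_lit 5) (nat_lit 292) (nat_lit 254) (nat_lit 234)) (XT.lf (nat_lit 0) (nat_lit 2804704970) (nat_lit 608) (nat_lit 71280072) (nat_lit 76) (nat_lit 5000280182) (nat_lit 159) (nat_lit 5) (nat_lit 167) (nat_lit 5) (nat_lit 160) (nat_lit 5) (nat_lit 293) (nat_lit 254) (nat_lit 233)))))) (XT.nd (nat_lit 546) (nat_lit 1672) (nat_lit 0) (XT.nd (nat_lit 234) (nat_lit 1520) (nat_lit 0) (XT.nd (nat_lit 78) (nat_lit 532) (nat_lit 0) (XT.lf (nat_lit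 0) (nat_lit 4928104876) (nat_lit 532) (nat_lit 578065502) (nat_lit 608) (nat_lit 2467651774) (nat_lit 152) (nat_lit 5) (nat_lit 159) (nat_lit 5) (nat_lit 160) (nat_lit 5) (nat_lit 294) (nat_lit 254) (nat_lit 232)) (XT.nd (nat_lit 78) (nat_lit 0) (nat_lit 0) (XT.lf (nat_lit 0) (nat_lit 179198231) (nat_lit 532) (nat_lit 6127461709) (nat_lit 76) (nat_lit 1768607223) (nat_lit 145) (nat_lit 5) (nat_lit 152) (nat_lit 5) (nat_lit 146) (nat_lit 5) (nat_lit 295) (nat_lit 254) (nat_lit 231)) (XT.lf (nat_lit 0) (nat_lit 2825873555) (nat_lit 532) (nat_lit 1132275770) (nat_lit 76) (nat_lit 4221863414) (nat_lit 145) (nat_lit 5) (nat_lit 152) (nat_lit 5) (nat_lit 146) (nat_lit 5) (nat_lit 296) (nat_lit 254) (nat_lit 230)))) (XT.nd (nat_lit 156) (nat_lit 532) (nat_lit 0) (XT.nd (nat_lit 78) (nat_lit 456) (nat_lit 0) (XT.lf (nat_lit 0) (nat_lit 4016827275) (nat_lit 532) (nat_lit 1508912191) (nat_lit 608) (nat_lit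 2763035562) (nat_lit 138) (nat_lit 5) (nat_lit 145) (nat_lit 5) (nat_lit 146) (nat_lit 5) (nat_lit 297) (nat_lit 254) (nat_lit 229)) (XT.lf (nat_lit 0) (nat_lit 874878653) (nat_lit 456) (nat_lit 7397687894) (nat_lit 532) (nat_lit 129340175) (nat_lit 132) (nat_lit 5) (nat_lit 138) (nat_lit 5) (nat_lit 139) (nat_lit 5) (nat_lit 298) (nat_lit 254) (nat_lit 228))) (XT.nd (nat_lit 78) (nat_lit 456) (nat_lit 0) (XT.lf (nat_lit 0) (nat_lit 2528160179) (nat_lit 532) (nat_lit 2369749295) (nat_lit 76) (nat_lit 3620002342) (nat_lit 131) (nat_lit 5) (nat_lit 138) (nat_lit 5) (nat_lit 132) (nat_lit 5) (nat_lit 299) (nat_lit 254) (nat_lit 227)) (XT.lf (nat_lit 0) (nat_lit 2924152321) (nat_lit 456) (nat_lit 2305285801) (nat_lit 532) (nat_lit 3408999194) (nat_lit 125) (nat_lit 5) (nat_lit 131) (nat_lit 5) (nat_lit 132) (nat_lit 5) (nat_lit 300) (nat_lit 254) (nat_lit 226))))) (XT.nd (nat_lit 234) (nat_lit 836)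 (nat_lit 0) (XT.nd (nat_lit 78) (nat_lit 836) (nat_lit 0) (XT.lf (nat_lit 0) (nat_lit 7978938282) (nat_lit 532) (nat_lit 415074398) (nat_lit 76) (nat_lit 369626343) (nat_lit 125) (nat_lit 5) (nat_lit 132) (nat_lit 5) (nat_lit 126) (nat_lit 5) (nat_lit 301) (nat_lit 254) (nat_lit 225)) (XT.nd (nat_lit 78) (nat_lit 380) (nat_lit 0) (XT.lf (nat_lit 0) (nat_lit 1893545010) (nat_lit 456) (nat_lit 3864836351) (nat_lit 76) (nat_lit 3133354260) (nat_lit 119) (nat_lit 5) (nat_lit 125) (nat_lit 5) (nat_lit 120) (nat_lit 5) (nat_lit 302) (nat_lit 254) (nat_lit 224)) (XT.lf (nat_lit 0) (nat_lit 1566599202) (nat_lit 380) (nat_lit 3030705281) (nat_lit 456) (nat_lit 4427378922) (nat_lit 114) (nat_lit 5) (nat_lit 119) (nat_lit 5) (nat_lit 120) (nat_lit 5) (nat_lit 303) (nat_lit 254) (nat_lit 223)))) (XT.nd (nat_lit 156) (nat_lit 380) (nat_lit 0) (XT.nd (nat_lit 78) (nat_lit 456) (nat_lit 0) (XT.lf (nat_lit 0)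 (nat_lit 7167669958) (nat_lit 380) (nat_lit 196182459) (nat_lit 456) (nat_lit 1798384425) (nat_lit 114) (nat_lit 5) (nat_lit 119) (nat_lit 5) (nat_lit 120) (nat_lit 5) (nat_lit 304) (nat_lit 254) (nat_lit 222)) (XT.lf (nat_lit 0) (nat_lit 896727500) (nat_lit 456) (nat_lit 5707614533) (nat_lit 76) (nat_lit 2699226344) (nat_lit 108) (nat_lit 5) (nat_lit 114) (nat_lit 5) (nat_lit 109) (nat_lit 5) (nat_lit 305) (nat_lit 254) (nat_lit 221))) (XT.nd (nat_lit 78) (nat_lit 380) (nat_lit 0) (XT.lf (nat_lit 0) (nat_lit 3603341909) (nat_lit 456) (nat_lit 145881294) (nat_lit 76) (nat_lit 5700440394) (nat_lit 108) (nat_lit 5) (nat_lit 114) (nat_lit 5) (nat_lit 109) (nat_lit 5) (nat_lit 306) (nat_lit 254) (nat_lit 220)) (XT.lf (nat_lit 0) (nat_lit 5622046303) (nat_lit 380) (nat_lit 769278993) (nat_lit 456) (nat_lit 3208871222) (nat_lit 103) (nat_lit 5) (nat_lit 108) (nat_lit 5) (nat_lit 109) (nat_lit 5) (nat_lit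 307) (nat_lit 254) (nat_lit 219))))))))
noncomputable def xc89 : XT := (XT.nd (nat_lit 2028) (nat_lit 1900) (nat_lit 0) (XT.nd (nat_lit 1014) (nat_lit 1824) (nat_lit 0) (XT.nd (nat_lit 468) (nat_lit 988) (nat_lit 0) (XT.nd (nat_lit 234) (nat_lit 684) (nat_lit 0) (XT.nd (nat_lit 78) (nat_lit 456) (nat_lit 0) (XT.lf (nat_lit 0) (nat_lit 1751697627) (nat_lit 304) (nat_lit 7498553058) (nat_lit 380) (nat_lit 505433885) (nat_lit 99) (nat_lit 5) (nat_lit 103) (nat_lit 5) (nat_lit 104) (nat_lit 5) (nat_lit 308) (nat_lit 254) (nat_lit 218)) (XT.nd (nat_lit 78) (nat_lit 380) (nat_lit 0) (XT.lf (nat_lit 0) (nat_lit 2229983023) (nat_lit 380) (nat_lit 2281135330) (nat_lit 76) (nat_lit 5404256036) (nat_lit 98) (nat_lit 5) (nat_lit 103) (nat_lit 5) (nat_lit 99) (nat_lit 5) (nat_lit 309) (nat_lit 254) (nat_lit 217)) (XT.lf (nat_lit 0) (nat_lit 3609343615) (nat_lit 380) (nat_lit 1411358380) (nat_lit 456) (nat_lit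 5059554106) (nat_lit 93) (nat_lit 5) (nat_lit 98) (nat_lit 5) (nat_lit 99) (nat_lit 5) (nat_lit 310) (nat_lit 254) (nat_lit 216)))) (XT.nd (nat_lit 78) (nat_lit 684) (nat_lit 0) (XT.lf (nat_lit 0) (nat_lit 7884888921) (nat_lit 456) (nat_lit 613640513) (nat_lit 76) (nat_lit 1751914163) (nat_lit 93) (nat_lit 5) (nat_lit 99) (nat_lit 5) (nat_lit 94) (nat_lit 5) (nat_lit 311) (nat_lit 254) (nat_lit 215)) (XT.nd (nat_lit 78) (nat_lit 304) (nat_lit 0) (XT.lf (nat_lit 0) (nat_lit 418532944) (nat_lit 380) (nat_lit 4985928002) (nat_lit 76) (nat_lit 5020688869) (nat_lit 88) (nat_lit 5) (nat_lit 93) (nat_lit 5) (nat_lit 89) (nat_lit 5) (nat_lit 312) (nat_lit 254) (nat_lit 214)) (XT.lf (nat_lit 0) (nat_lit 1009043633) (nat_lit 304) (nat_lit 2196602655) (nat_lit 380) (nat_lit 7399784174) (nat_lit 84) (nat_lit 5) (nat_lit 88) (nat_lit 5) (nat_lit 89) (nat_lit 5) (nat_lit 313) (nat_lit 254) (nat_lit 213)))))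 (XT.nd (nat_lit 234) (nat_lit 608) (nat_lit 0) (XT.nd (nat_lit 78) (nat_lit 380) (nat_lit 0) (XT.lf (nat_lit 0) (nat_lit 6089539659) (nat_lit 380) (nat_lit 3583813049) (nat_lit 76) (nat_lit 1117417778) (nat_lit 84) (nat_lit 5) (nat_lit 89) (nat_lit 5) (nat_lit 85) (nat_lit 5) (nat_lit 314) (nat_lit 254) (nat_lit 212)) (XT.nd (nat_lit 78) (nat_lit 76) (nat_lit 0) (XT.lf (nat_lit 0) (nat_lit 2570430640) (nat_lit 304) (nat_lit 6489057979) (nat_lit 380) (nat_lit 1922240545) (nat_lit 80) (nat_lit 5) (nat_lit 84) (nat_lit 5) (nat_lit 85) (nat_lit 5) (nat_lit 315) (nat_lit 254) (nat_lit 211)) (XT.lf (nat_lit 0) (nat_lit 911631724) (nat_lit 380) (nat_lit 2271390337) (nat_lit 76) (nat_lit 7995469765) (nat_lit 79) (nat_lit 5) (nat_lit 84) (nat_lit 5) (nat_lit 80) (nat_lit 5) (nat_lit 316) (nat_lit 254) (nat_lit 210)))) (XT.nd (nat_lit 156) (nat_lit 304) (nat_lit 0) (XT.nd (nat_lit 78) (nat_lit 0) (nat_lit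 0) (XT.lf (nat_lit 0) (nat_lit 3787974568) (nat_lit 380) (nat_lit 7336144073) (nat_lit 76) (nat_lit 256625909) (nat_lit 75) (nat_lit 5) (nat_lit 80) (nat_lit 5) (nat_lit 76) (nat_lit 5) (nat_lit 317) (nat_lit 254) (nat_lit 209)) (XT.lf (nat_lit 0) (nat_lit 6760459045) (nat_lit 380) (nat_lit 1089495760) (nat_lit 76) (nat_lit 3738854152) (nat_lit 75) (nat_lit 5) (nat_lit 80) (nat_lit 5) (nat_lit 76) (nat_lit 5) (nat_lit 318) (nat_lit 254) (nat_lit 208))) (XT.nd (nat_lit 78) (nat_lit 76) (nat_lit 0) (XT.lf (nat_lit 0) (nat_lit 5385557085) (nat_lit 228) (nat_lit 4444808487) (nat_lit 304) (nat_lit 1972540786) (nat_lit 72) (nat_lit 5) (nat_lit 75) (nat_lit 5) (nat_lit 76) (nat_lit 5) (nat_lit 319) (nat_lit 254) (nat_lit 207)) (XT.lf (nat_lit 0) (nat_lit 917820589) (nat_lit 304) (nat_lit 19681282) (nat_lit 76) (nat_lit 11086648100) (nat_lit 71) (nat_lit 5) (nat_lit 75) (nat_lit 5) (nat_lit 72) (nat_lit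 5) (nat_lit 320) (nat_lit 254) (nat_lit 206)))))) (XT.nd (nat_lit 468) (nat_lit 760) (nat_lit 0) (XT.nd (nat_lit 234) (nat_lit 532) (nat_lit 0) (XT.nd (nat_lit 78) (nat_lit 228) (nat_lit 0) (XT.lf (nat_lit 0) (nat_lit 3903131156) (nat_lit 380) (nat_lit 5660148366) (nat_lit 76) (nat_lit 2686764155) (nat_lit 67) (nat_lit 5) (nat_lit 72) (nat_lit 5) (nat_lit 68) (nat_lit 5) (nat_lit 321) (nat_lit 254) (nat_lit 205)) (XT.nd (nat_lit 78) (nat_lit 0) (nat_lit 0) (XT.lf (nat_lit 0) (nat_lit 860001525) (nat_lit 228) (nat_lit 6094119978) (nat_lit 304) (nat_lit 5529343270) (nat_lit 64) (nat_lit 5) (nat_lit 67) (nat_lit 5) (nat_lit 68) (nat_lit 5) (nat_lit 322) (nat_lit 254) (nat_lit 204)) (XT.lf (nat_lit 0) (nat_lit 7629450112) (nat_lit 228) (nat_lit 2483331866) (nat_lit 304) (nat_lit 2610655513) (nat_lit 64) (nat_lit 5) (nat_lit 67) (nat_lit 5) (nat_lit 68) (nat_lit 5) (nat_lit 323) (nat_lit 254) (nat_lit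 203)))) (XT.nd (nat_lit 78) (nat_lit 228) (nat_lit 0) (XT.lf (nat_lit 0) (nat_lit 374847214) (nat_lit 304) (nat_lit 11385748388) (nat_lit 76) (nat_lit 1210321789) (nat_lit 60) (nat_lit 5) (nat_lit 64) (nat_lit 5) (nat_lit 61) (nat_lit 5) (nat_lit 324) (nat_lit 254) (nat_lit 202)) (XT.nd (nat_lit 78) (nat_lit 228) (nat_lit 0) (XT.lf (nat_lit 0) (nat_lit 3434117813) (nat_lit 304) (nat_lit 4767867506) (nat_lit 76) (nat_lit 5021991076) (nat_lit 60) (nat_lit 5) (nat_lit 64) (nat_lit 5) (nat_lit 61) (nat_lit 5) (nat_lit 325) (nat_lit 254) (nat_lit 201)) (XT.lf (nat_lit 0) (nat_lit 2028159502) (nat_lit 228) (nat_lit 4537802307) (nat_lit 304) (nat_lit 6919270999) (nat_lit 57) (nat_lit 5) (nat_lit 60) (nat_lit 5) (nat_lit 61) (nat_lit 5) (nat_lit 326) (nat_lit 254) (nat_lit 200))))) (XT.nd (nat_lit 234) (nat_lit 456) (nat_lit 0) (XT.nd (nat_lit 78) (nat_lit 304) (nat_lit 0) (XT.lf (nat_lit 0) (nat_lit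 9066424847) (nat_lit 228) (nat_lit 735338177) (nat_lit 304) (nat_lit 3952292470) (nat_lit 57) (nat_lit 5) (nat_lit 60) (nat_lit 5) (nat_lit 61) (nat_lit 5) (nat_lit 327) (nat_lit 254) (nat_lit 199)) (XT.nd (nat_lit 78) (nat_lit 76) (nat_lit 0) (XT.lf (nat_lit 0) (nat_lit 2239424673) (nat_lit 228) (nat_lit 10910088567) (nat_lit 304) (nat_lit 881011177) (nat_lit 54) (nat_lit 5) (nat_lit 57) (nat_lit 5) (nat_lit 58) (nat_lit 5) (nat_lit 328) (nat_lit 254) (nat_lit 198)) (XT.lf (nat_lit 0) (nat_lit 2255861119) (nat_lit 304) (nat_lit 4931953267) (nat_lit 76) (nat_lit 7126301313) (nat_lit 53) (nat_lit 5) (nat_lit 57) (nat_lit 5) (nat_lit 54) (nat_lit 5) (nat_lit 329) (nat_lit 254) (nat_lit 197)))) (XT.nd (nat_lit 156) (nat_lit 304) (nat_lit 0) (XT.nd (nat_lit 78) (nat_lit 0) (nat_lit 0) (XT.lf (nat_lit 0) (nat_lit 2108317365) (nat_lit 152) (nat_lit 3345067078) (nat_lit 228) (nat_lit 9153066467) (nat_lit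 51) (nat_lit 5) (nat_lit 53) (nat_lit 5) (nat_lit 54) (nat_lit 5) (nat_lit 330) (nat_lit 254) (nat_lit 196)) (XT.lf (nat_lit 0) (nat_lit 8767311561) (nat_lit 228) (nat_lit 5508947847) (nat_lit 76) (nat_lit 630707128) (nat_lit 51) (nat_lit 5) (nat_lit 54) (nat_lit 5) (nat_lit 52) (nat_lit 5) (nat_lit 331) (nat_lit 254) (nat_lit 195))) (XT.nd (nat_lit 78) (nat_lit 76) (nat_lit 0) (XT.lf (nat_lit 0) (nat_lit 1632933291) (nat_lit 228) (nat_lit 10561869299) (nat_lit 304) (nat_lit 3021294643) (nat_lit 48) (nat_lit 5) (nat_lit 51) (nat_lit 5) (nat_lit 52) (nat_lit 5) (nat_lit 332) (nat_lit 254) (nat_lit 194)) (XT.lf (nat_lit 0) (nat_lit 208525157) (nat_lit 304) (nat_lit 6489106180) (nat_lit 76) (nat_lit 8836189304) (nat_lit 47) (nat_lit 5) (nat_lit 51) (nat_lit 5) (nat_lit 48) (nat_lit 5) (nat_lit 333) (nat_lit 254) (nat_lit 193))))))) (XT.nd (nat_lit 1014) (nat_lit 760) (nat_lit 0) (XT.nd (nat_lit 468)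 (nat_lit 532) (nat_lit 0) (XT.nd (nat_lit 234) (nat_lit 456) (nat_lit 0) (XT.nd (nat_lit 78) (nat_lit 0) (nat_lit 0) (XT.lf (nat_lit 0) (nat_lit 748198387) (nat_lit 152) (nat_lit 2699962559) (nat_lit 228) (nat_lit 12412829946) (nat_lit 45) (nat_lit 5) (nat_lit 47) (nat_lit 5) (nat_lit 48) (nat_lit 5) (nat_lit 334) (nat_lit 254) (nat_lit 192)) (XT.nd (nat_lit 78) (nat_lit 0) (nat_lit 0) (XT.lf (nat_lit 0) (nat_lit 6831505454) (nat_lit 228) (nat_lit 7929188612) (nat_lit 76) (nat_lit 1435907905) (nat_lit 45) (nat_lit 5) (nat_lit 48) (nat_lit 5) (nat_lit 46) (nat_lit 5) (nat_lit 335) (nat_lit 254) (nat_lit 191)) (XT.lf (nat_lit 0) (nat_lit 10310768448) (nat_lit 228) (nat_lit 609764838) (nat_lit 76) (nat_lit 5621936240) (nat_lit 45) (nat_lit 5) (nat_lit 48) (nat_lit 5) (nat_lit 46) (nat_lit 5) (nat_lit 336) (nat_lit 254) (nat_lit 190)))) (XT.nd (nat_lit 78) (nat_lit 228) (nat_lit 0) (XT.lf (nat_lit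 0) (nat_lit 7014710384) (nat_lit 228) (nat_lit 6915755671) (nat_lit 304) (nat_lit 2967185438) (nat_lit 42) (nat_lit 5) (nat_lit 45) (nat_lit 5) (nat_lit 46) (nat_lit 5) (nat_lit 337) (nat_lit 254) (nat_lit 189)) (XT.nd (nat_lit 78) (nat_lit 152) (nat_lit 0) (XT.lf (nat_lit 0) (nat_lit 362496906) (nat_lit 304) (nat_lit 2438296074) (nat_lit 76) (nat_lit 14463352555) (nat_lit 41) (nat_lit 5) (nat_lit 45) (nat_lit 5) (nat_lit 42) (nat_lit 5) (nat_lit 338) (nat_lit 254) (nat_lit 188)) (XT.lf (nat_lit 0) (nat_lit 3766982614) (nat_lit 228) (nat_lit 12401827205) (nat_lit 76) (nat_lit 1470925110) (nat_lit 39) (nat_lit 5) (nat_lit 42) (nat_lit 5) (nat_lit 40) (nat_lit 5) (nat_lit 339) (nat_lit 254) (nat_lit 187))))) (XT.nd (nat_lit 234) (nat_lit 380) (nat_lit 0) (XT.nd (nat_lit 78) (nat_lit 152) (nat_lit 0) (XT.lf (nat_lit 0) (nat_lit 7296055639) (nat_lit 228) (nat_lit 4909734160) (nat_lit 76) (nat_lit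 5820146469) (nat_lit 39) (nat_lit 5) (nat_lit 42) (nat_lit 5) (nat_lit 40) (nat_lit 5) (nat_lit 340) (nat_lit 254) (nat_lit 186)) (XT.nd (nat_lit 78) (nat_lit 0) (nat_lit 0) (XT.lf (nat_lit 0) (nat_lit 2813195182) (nat_lit 152) (nat_lit 8115582126) (nat_lit 228) (nat_lit 7495030371) (nat_lit 37) (nat_lit 5) (nat_lit 39) (nat_lit 5) (nat_lit 40) (nat_lit 5) (nat_lit 341) (nat_lit 254) (nat_lit 185)) (XT.lf (nat_lit 0) (nat_lit 10820113725) (nat_lit 152) (nat_lit 3871067585) (nat_lit 228) (nat_lit 4141829724) (nat_lit 37) (nat_lit 5) (nat_lit 39) (nat_lit 5) (nat_lit 40) (nat_lit 5) (nat_lit 342) (nat_lit 254) (nat_lit 184)))) (XT.nd (nat_lit 156) (nat_lit 152) (nat_lit 0) (XT.nd (nat_lit 78) (nat_lit 228) (nat_lit 0) (XT.lf (nat_lit 0) (nat_lit 18543052697) (nat_lit 228) (nat_lit 239675624) (nat_lit 76) (nat_lit 472480642) (nat_lit 37) (nat_lit 5) (nat_lit 40) (nat_lit 5) (nat_lit 38) (nat_lit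 4) (nat_lit 343) (nat_lit 254) (nat_lit 183)) (XT.lf (nat_lit 0) (nat_lit 2852455799) (nat_lit 228) (nat_lit 11880384981) (nat_lit 76) (nat_lit 4953821561) (nat_lit 34) (nat_lit 5) (nat_lit 37) (nat_lit 5) (nat_lit 35) (nat_lit 5) (nat_lit 344) (nat_lit 254) (nat_lit 182))) (XT.nd (nat_lit 78) (nat_lit 152) (nat_lit 0) (XT.lf (nat_lit 0) (nat_lit 6484815322) (nat_lit 228) (nat_lit 4085869591) (nat_lit 76) (nat_lit 9560924137) (nat_lit 34) (nat_lit 5) (nat_lit 37) (nat_lit 5) (nat_lit 35) (nat_lit 5) (nat_lit 345) (nat_lit 254) (nat_lit 181)) (XT.lf (nat_lit 0) (nat_lit 3975068664) (nat_lit 152) (nat_lit 6262762044) (nat_lit 228) (nat_lit 10351737412) (nat_lit 32) (nat_lit 5) (nat_lit 34) (nat_lit 5) (nat_lit 35) (nat_lit 5) (nat_lit 346) (nat_lit 254) (nat_lit 180)))))) (XT.nd (nat_lit 546) (nat_lit 380) (nat_lit 0) (XT.nd (nat_lit 234) (nat_lit 152) (nat_lit 0) (XT.nd (nat_lit 78) (nat_lit 228)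 (nat_lit 0) (XT.lf (nat_lit 0) (nat_lit 12317051874) (nat_lit 152) (nat_lit 1801462692) (nat_lit 228) (nat_lit 6942313145) (nat_lit 32) (nat_lit 5) (nat_lit 34) (nat_lit 5) (nat_lit 35) (nat_lit 5) (nat_lit 347) (nat_lit 254) (nat_lit 179)) (XT.nd (nat_lit 78) (nat_lit 228) (nat_lit 0) (XT.lf (nat_lit 0) (nat_lit 18116883425) (nat_lit 228) (nat_lit 707632184) (nat_lit 76) (nat_lit 2721685220) (nat_lit 32) (nat_lit 5) (nat_lit 35) (nat_lit 5) (nat_lit 33) (nat_lit 4) (nat_lit 348) (nat_lit 254) (nat_lit 178)) (XT.lf (nat_lit 0) (nat_lit 252636377) (nat_lit 228) (nat_lit 14387989867) (nat_lit 76) (nat_lit 7403449543) (nat_lit 29) (nat_lit 5) (nat_lit 32) (nat_lit 5) (nat_lit 30) (nat_lit 5) (nat_lit 349) (nat_lit 254) (nat_lit 177)))) (XT.nd (nat_lit 156) (nat_lit 0) (nat_lit 0) (XT.nd (nat_lit 78) (nat_lit 152) (nat_lit 0) (XT.lf (nat_lit 0) (nat_lit 3958557604) (nat_lit 228) (nat_lit 6348134097)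 (nat_lit 76) (nat_lit 12249716157) (nat_lit 29) (nat_lit 5) (nat_lit 32) (nat_lit 5) (nat_lit 30) (nat_lit 5) (nat_lit 350) (nat_lit 254) (nat_lit 176)) (XT.lf (nat_lit 0) (nat_lit 1929145987) (nat_lit 152) (nat_lit 5840994677) (nat_lit 228) (nat_lit 15314146854) (nat_lit 27) (nat_lit 5) (nat_lit 29) (nat_lit 5) (nat_lit 30) (nat_lit 5) (nat_lit 351) (nat_lit 254) (nat_lit 175))) (XT.nd (nat_lit 78) (nat_lit 0) (nat_lit 0) (XT.lf (nat_lit 0) (nat_lit 10543865093) (nat_lit 152) (nat_lit 1192556459) (nat_lit 228) (nat_lit 11890383304) (nat_lit 27) (nat_lit 5) (nat_lit 29) (nat_lit 5) (nat_lit 30) (nat_lit 5) (nat_lit 352) (nat_lit 254) (nat_lit 174)) (XT.lf (nat_lit 0) (nat_lit 15833028850) (nat_lit 228) (nat_lit 4843490196) (nat_lit 76) (nat_lit 3508749983) (nat_lit 27) (nat_lit 5) (nat_lit 30) (nat_lit 5) (nat_lit 28) (nat_lit 4) (nat_lit 353) (nat_lit 254) (nat_lit 173))))) (XT.nd (nat_lit 234)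 (nat_lit 228) (nat_lit 0) (XT.nd (nat_lit 78) (nat_lit 76) (nat_lit 0) (XT.lf (nat_lit 0) (nat_lit 3663644031) (nat_lit 76) (nat_lit 16413368823) (nat_lit 152) (nat_lit 4682751040) (nat_lit 26) (nat_lit 5) (nat_lit 27) (nat_lit 5) (nat_lit 28) (nat_lit 4) (nat_lit 354) (nat_lit 254) (nat_lit 172)) (XT.nd (nat_lit 78) (nat_lit 76) (nat_lit 0) (XT.lf (nat_lit 0) (nat_lit 12486480998) (nat_lit 76) (nat_lit 11988482681) (nat_lit 152) (nat_lit 875741306) (nat_lit 26) (nat_lit 5) (nat_lit 27) (nat_lit 5) (nat_lit 28) (nat_lit 4) (nat_lit 355) (nat_lit 254) (nat_lit 171)) (XT.lf (nat_lit 0) (nat_lit 2964212148) (nat_lit 152) (nat_lit 4452759088) (nat_lit 76) (nat_lit 18542190147) (nat_lit 25) (nat_lit 5) (nat_lit 27) (nat_lit 5) (nat_lit 26) (nat_lit 5) (nat_lit 356) (nat_lit 254) (nat_lit 170)))) (XT.nd (nat_lit 156) (nat_lit 76) (nat_lit 0) (XT.nd (nat_lit 78) (nat_lit 0) (nat_lit 0) (XT.lf (nat_lit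 0) (nat_lit 4248275440) (nat_lit 152) (nat_lit 2673122010) (nat_lit 228) (nat_lit 19663634741) (nat_lit 23) (nat_lit 5) (nat_lit 25) (nat_lit 5) (nat_lit 26) (nat_lit 5) (nat_lit 357) (nat_lit 254) (nat_lit 169)) (XT.lf (nat_lit 0) (nat_lit 11042892899) (nat_lit 228) (nat_lit 13985557056) (nat_lit 76) (nat_lit 2199870923) (nat_lit 23) (nat_lit 5) (nat_lit 26) (nat_lit 5) (nat_lit 24) (nat_lit 4) (nat_lit 358) (nat_lit 254) (nat_lit 168))) (XT.nd (nat_lit 78) (nat_lit 76) (nat_lit 0) (XT.lf (nat_lit 0) (nat_lit 15294026118) (nat_lit 228) (nat_lit 5446333310) (nat_lit 76) (nat_lit 7150378325) (nat_lit 23) (nat_lit 5) (nat_lit 26) (nat_lit 5) (nat_lit 24) (nat_lit 4) (nat_lit 359) (nat_lit 254) (nat_lit 167)) (XT.lf (nat_lit 0) (nat_lit 3380028150) (nat_lit 76) (nat_lit 16305278752) (nat_lit 152) (nat_lit 8887350867) (nat_lit 22) (nat_lit 5) (nat_lit 23) (nat_lit 5) (nat_lit 24) (nat_lit 4) (nat_lit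 360) (nat_lit 254) (nat_lit 166))))))))
noncomputable def xc90 : XT := (XT.nd (nat_lit 2028) (nat_lit 304) (nat_lit 0) (XT.nd (nat_lit 1014) (nat_lit 304) (nat_lit 0) (XT.nd (nat_lit 468) (nat_lit 304) (nat_lit 0) (XT.nd (nat_lit 234) (nat_lit 0) (nat_lit 0) (XT.nd (nat_lit 78) (nat_lit 228) (nat_lit 0) (XT.lf (nat_lit 0) (nat_lit 12548172521) (nat_lit 76) (nat_lit 11695519399) (nat_lit 152) (nat_lit 5030291270) (nat_lit 22) (nat_lit 5) (nat_lit 23) (nat_lit 5) (nat_lit 24) (nat_lit 4) (nat_lit 361) (nat_lit 254) (nat_lit 165)) (XT.nd (nat_lit 78) (nat_lit 228) (nat_lit 0) (XT.lf (nat_lit 0) (nat_lit 21957718091) (nat_lit 76) (nat_lit 6962050711) (nat_lit 152) (nat_lit 1077159887) (nat_lit 22) (nat_lit 5) (nat_lit 23) (nat_lit 5) (nat_lit 24) (nat_lit 4) (nat_lit 362) (nat_lit 254) (nat_lit 164)) (XT.lf (nat_lit 0) (nat_lit 862998737) (nat_lit 152) (nat_lit 2062731735) (nat_lit 228) (nat_lit 27815288553)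 (nat_lit 19) (nat_lit 5) (nat_lit 21) (nat_lit 5) (nat_lit 22) (nat_lit 5) (nat_lit 363) (nat_lit 254) (nat_lit 163)))) (XT.nd (nat_lit 78) (nat_lit 0) (nat_lit 0) (XT.lf (nat_lit 0) (nat_lit 7119118727) (nat_lit 228) (nat_lit 21381219120) (nat_lit 76) (nat_lit 3004020246) (nat_lit 19) (nat_lit 5) (nat_lit 22) (nat_lit 5) (nat_lit 20) (nat_lit 4) (nat_lit 364) (nat_lit 254) (nat_lit 162)) (XT.nd (nat_lit 78) (nat_lit 0) (nat_lit 0) (XT.lf (nat_lit 0) (nat_lit 11440670675) (nat_lit 228) (nat_lit 12682115800) (nat_lit 76) (nat_lit 8167747567) (nat_lit 19) (nat_lit 5) (nat_lit 22) (nat_lit 5) (nat_lit 20) (nat_lit 4) (nat_lit 365) (nat_lit 254) (nat_lit 161)) (XT.lf (nat_lit 0) (nat_lit 15874334193) (nat_lit 228) (nat_lit 3753280934) (nat_lit 76) (nat_lit 13473213548) (nat_lit 19) (nat_lit 5) (nat_lit 22) (nat_lit 5) (nat_lit 20) (nat_lit 4) (nat_lit 366) (nat_lit 254) (nat_lit 160))))) (XT.nd (nat_lit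 234) (nat_lit 228) (nat_lit 0) (XT.nd (nat_lit 78) (nat_lit 0) (nat_lit 0) (XT.lf (nat_lit 0) (nat_lit 5520818427) (nat_lit 76) (nat_lit 14956234411) (nat_lit 152) (nat_lit 13457305088) (nat_lit 18) (nat_lit 5) (nat_lit 19) (nat_lit 5) (nat_lit 20) (nat_lit 4) (nat_lit 367) (nat_lit 254) (nat_lit 159)) (XT.nd (nat_lit 78) (nat_lit 0) (nat_lit 0) (XT.lf (nat_lit 0) (nat_lit 15120045114) (nat_lit 76) (nat_lit 10118891591) (nat_lit 152) (nat_lit 9553330771) (nat_lit 18) (nat_lit 5) (nat_lit 19) (nat_lit 5) (nat_lit 20) (nat_lit 4) (nat_lit 368) (nat_lit 254) (nat_lit 158)) (XT.lf (nat_lit 0) (nat_lit 24978089150) (nat_lit 76) (nat_lit 5149260640) (nat_lit 152) (nat_lit 5549061070) (nat_lit 18) (nat_lit 5) (nat_lit 19) (nat_lit 5) (nat_lit 20) (nat_lit 4) (nat_lit 369) (nat_lit 254) (nat_lit 157)))) (XT.nd (nat_lit 156) (nat_lit 0) (nat_lit 0) (XT.nd (nat_lit 78) (nat_lit 228) (nat_lit 0) (XT.lf (nat_lit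 0) (nat_lit 35103564360) (nat_lit 76) (nat_lit 42999162) (nat_lit 152) (nat_lit 1440997107) (nat_lit 18) (nat_lit 5) (nat_lit 19) (nat_lit 5) (nat_lit 20) (nat_lit 4) (nat_lit 370) (nat_lit 254) (nat_lit 156)) (XT.lf (nat_lit 0) (nat_lit 2849336672) (nat_lit 228) (nat_lit 29464038699) (nat_lit 76) (nat_lit 5208466709) (nat_lit 15) (nat_lit 5) (nat_lit 18) (nat_lit 5) (nat_lit 16) (nat_lit 4) (nat_lit 371) (nat_lit 254) (nat_lit 155))) (XT.nd (nat_lit 78) (nat_lit 0) (nat_lit 0) (XT.lf (nat_lit 0) (nat_lit 7239500051) (nat_lit 228) (nat_lit 20610144768) (nat_lit 76) (nat_lit 10634082647) (nat_lit 15) (nat_lit 5) (nat_lit 18) (nat_lit 5) (nat_lit 16) (nat_lit 4) (nat_lit 372) (nat_lit 254) (nat_lit 154)) (XT.lf (nat_lit 0) (nat_lit 11746341772) (nat_lit 228) (nat_lit 11517700472) (nat_lit 76) (nat_lit 16210883771) (nat_lit 15) (nat_lit 5) (nat_lit 18) (nat_lit 5) (nat_lit 16) (nat_lit 4) (nat_lit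 373) (nat_lit 254) (nat_lit 153)))))) (XT.nd (nat_lit 468) (nat_lit 152) (nat_lit 0) (XT.nd (nat_lit 234) (nat_lit 76) (nat_lit 0) (XT.nd (nat_lit 78) (nat_lit 76) (nat_lit 0) (XT.lf (nat_lit 0) (nat_lit 16373799852) (nat_lit 228) (nat_lit 2178760957) (nat_lit 76) (nat_lit 21943743015) (nat_lit 15) (nat_lit 5) (nat_lit 18) (nat_lit 5) (nat_lit 16) (nat_lit 4) (nat_lit 374) (nat_lit 254) (nat_lit 152)) (XT.nd (nat_lit 78) (nat_lit 0) (nat_lit 0) (XT.lf (nat_lit 0) (nat_lit 7562403751) (nat_lit 76) (nat_lit 13636208399) (nat_lit 152) (nat_lit 20347960371) (nat_lit 14) (nat_lit 5) (nat_lit 15) (nat_lit 5) (nat_lit 16) (nat_lit 4) (nat_lit 375) (nat_lit 254) (nat_lit 151)) (XT.lf (nat_lit 0) (nat_lit 17615203263) (nat_lit 76) (nat_lit 8560972499) (nat_lit 152) (nat_lit 16451938622) (nat_lit 14) (nat_lit 5) (nat_lit 15) (nat_lit 5) (nat_lit 16) (nat_lit 4) (nat_lit 376) (nat_lit 254) (nat_lit 150))))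 (XT.nd (nat_lit 78) (nat_lit 76) (nat_lit 0) (XT.lf (nat_lit 0) (nat_lit 27945059960) (nat_lit 76) (nat_lit 3344419650) (nat_lit 152) (nat_lit 12453035648) (nat_lit 14) (nat_lit 5) (nat_lit 15) (nat_lit 5) (nat_lit 16) (nat_lit 4) (nat_lit 377) (nat_lit 254) (nat_lit 149)) (XT.nd (nat_lit 78) (nat_lit 76) (nat_lit 0) (XT.lf (nat_lit 0) (nat_lit 36562389964) (nat_lit 152) (nat_lit 6349147294) (nat_lit 0) (nat_lit 1978629688) (nat_lit 14) (nat_lit 5) (nat_lit 16) (nat_lit 4) (nat_lit 14) (nat_lit 4) (nat_lit 378) (nat_lit 254) (nat_lit 148)) (XT.lf (nat_lit 0) (nat_lit 3392283763) (nat_lit 76) (nat_lit 38654019770) (nat_lit 76) (nat_lit 4024365033) (nat_lit 13) (nat_lit 4) (nat_lit 14) (nat_lit 5) (nat_lit 14) (nat_lit 4) (nat_lit 379) (nat_lit 254) (nat_lit 147))))) (XT.nd (nat_lit 234) (nat_lit 76) (nat_lit 0) (XT.nd (nat_lit 78) (nat_lit 0) (nat_lit 0) (XT.lf (nat_lit 0) (nat_lit 452049867) (nat_lit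 152) (nat_lit 33756551233) (nat_lit 76) (nat_lit 13076315064) (nat_lit 12) (nat_lit 5) (nat_lit 14) (nat_lit 5) (nat_lit 13) (nat_lit 4) (nat_lit 380) (nat_lit 254) (nat_lit 146)) (XT.nd (nat_lit 78) (nat_lit 0) (nat_lit 0) (XT.lf (nat_lit 0) (nat_lit 4969363042) (nat_lit 152) (nat_lit 24629665419) (nat_lit 76) (nat_lit 18935747075) (nat_lit 12) (nat_lit 5) (nat_lit 14) (nat_lit 5) (nat_lit 13) (nat_lit 4) (nat_lit 381) (nat_lit 254) (nat_lit 145)) (XT.lf (nat_lit 0) (nat_lit 9610051515) (nat_lit 152) (nat_lit 15251067752) (nat_lit 76) (nat_lit 24961380062) (nat_lit 12) (nat_lit 5) (nat_lit 14) (nat_lit 5) (nat_lit 13) (nat_lit 4) (nat_lit 382) (nat_lit 254) (nat_lit 144)))) (XT.nd (nat_lit 156) (nat_lit 0) (nat_lit 0) (XT.nd (nat_lit 78) (nat_lit 76) (nat_lit 0) (XT.lf (nat_lit 0) (nat_lit 14378170255) (nat_lit 152) (nat_lit 5612563342) (nat_lit 76) (nat_lit 31158479144) (nat_lit 12) (nat_lit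 5) (nat_lit 14) (nat_lit 5) (nat_lit 13) (nat_lit 4) (nat_lit 383) (nat_lit 254) (nat_lit 143)) (XT.lf (nat_lit 0) (nat_lit 4379734193) (nat_lit 76) (nat_lit 14940252072) (nat_lit 152) (nat_lit 33194825750) (nat_lit 11) (nat_lit 5) (nat_lit 12) (nat_lit 5) (nat_lit 13) (nat_lit 4) (nat_lit 384) (nat_lit 254) (nat_lit 142))) (XT.nd (nat_lit 78) (nat_lit 0) (nat_lit 0) (XT.lf (nat_lit 0) (nat_lit 14766230487) (nat_lit 76) (nat_lit 9689190350) (nat_lit 152) (nat_lit 29464601460) (nat_lit 11) (nat_lit 5) (nat_lit 12) (nat_lit 5) (nat_lit 13) (nat_lit 4) (nat_lit 385) (nat_lit 254) (nat_lit 141)) (XT.lf (nat_lit 0) (nat_lit 25444300102) (nat_lit 76) (nat_lit 4289636012) (nat_lit 152) (nat_lit 25633786082) (nat_lit 11) (nat_lit 5) (nat_lit 12) (nat_lit 5) (nat_lit 13) (nat_lit 4) (nat_lit 386) (nat_lit 254) (nat_lit 140))))))) (XT.nd (nat_lit 1014) (nat_lit 76) (nat_lit 0) (XT.nd (nat_lit 468) (nat_lit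 76) (nat_lit 0) (XT.nd (nat_lit 234) (nat_lit 152) (nat_lit 0) (XT.nd (nat_lit 78) (nat_lit 0) (nat_lit 0) (XT.lf (nat_lit 0) (nat_lit 35172286359) (nat_lit 152) (nat_lit 20448045269) (nat_lit 0) (nat_lit 1238480803) (nat_lit 11) (nat_lit 5) (nat_lit 13) (nat_lit 4) (nat_lit 11) (nat_lit 4) (nat_lit 387) (nat_lit 254) (nat_lit 139)) (XT.nd (nat_lit 78) (nat_lit 0) (nat_lit 0) (XT.lf (nat_lit 0) (nat_lit 40805824949) (nat_lit 152) (nat_lit 10749983301) (nat_lit 0) (nat_lit 6837869605) (nat_lit 11) (nat_lit 5) (nat_lit 13) (nat_lit 4) (nat_lit 11) (nat_lit 4) (nat_lit 388) (nat_lit 254) (nat_lit 138)) (XT.lf (nat_lit 0) (nat_lit 46598239789) (nat_lit 152) (nat_lit 779527551) (nat_lit 0) (nat_lit 12597129310) (nat_lit 11) (nat_lit 5) (nat_lit 13) (nat_lit 4) (nat_lit 11) (nat_lit 4) (nat_lit 389) (nat_lit 254) (nat_lit 137)))) (XT.nd (nat_lit 78) (nat_lit 76) (nat_lit 0) (XT.lf (nat_lit 0) (nat_lit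 9660546079) (nat_lit 76) (nat_lit 42986909211) (nat_lit 76) (nat_lit 8953609282) (nat_lit 10) (nat_lit 4) (nat_lit 11) (nat_lit 5) (nat_lit 11) (nat_lit 4) (nat_lit 390) (nat_lit 254) (nat_lit 136)) (XT.nd (nat_lit 78) (nat_lit 76) (nat_lit 0) (XT.lf (nat_lit 0) (nat_lit 20411970175) (nat_lit 76) (nat_lit 38464328967) (nat_lit 76) (nat_lit 4399777143) (nat_lit 10) (nat_lit 4) (nat_lit 11) (nat_lit 5) (nat_lit 11) (nat_lit 4) (nat_lit 391) (nat_lit 254) (nat_lit 135)) (XT.lf (nat_lit 0) (nat_lit 275464644) (nat_lit 152) (nat_lit 33535700240) (nat_lit 76) (nat_lit 31190378761) (nat_lit 9) (nat_lit 5) (nat_lit 11) (nat_lit 5) (nat_lit 10) (nat_lit 4) (nat_lit 392) (nat_lit 254) (nat_lit 134))))) (XT.nd (nat_lit 234) (nat_lit 76) (nat_lit 0) (XT.nd (nat_lit 78) (nat_lit 0) (nat_lit 0) (XT.lf (nat_lit 0) (nat_lit 4993276893) (nat_lit 152) (nat_lit 23987999283) (nat_lit 76) (nat_lit 37796472685) (nat_lit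 9) (nat_lit 5) (nat_lit 11) (nat_lit 5) (nat_lit 10) (nat_lit 4) (nat_lit 393) (nat_lit 254) (nat_lit 133)) (XT.nd (nat_lit 78) (nat_lit 0) (nat_lit 0) (XT.lf (nat_lit 0) (nat_lit 9843637462) (nat_lit 152) (nat_lit 14170367237) (nat_lit 76) (nat_lit 44593508054) (nat_lit 9) (nat_lit 5) (nat_lit 11) (nat_lit 5) (nat_lit 10) (nat_lit 4) (nat_lit 394) (nat_lit 254) (nat_lit 132)) (XT.lf (nat_lit 0) (nat_lit 14830784531) (nat_lit 152) (nat_lit 4074225590) (nat_lit 76) (nat_lit 51587424027) (nat_lit 9) (nat_lit 5) (nat_lit 11) (nat_lit 5) (nat_lit 10) (nat_lit 4) (nat_lit 395) (nat_lit 254) (nat_lit 131)))) (XT.nd (nat_lit 156) (nat_lit 0) (nat_lit 0) (XT.nd (nat_lit 78) (nat_lit 0) (nat_lit 0) (XT.lf (nat_lit 0) (nat_lit 6434813925) (nat_lit 76) (nat_lit 13586117244) (nat_lit 152) (nat_lit 52411373234) (nat_lit 8) (nat_lit 5) (nat_lit 9) (nat_lit 5) (nat_lit 10) (nat_lit 4) (nat_lit 396) (nat_lit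 254) (nat_lit 130)) (XT.lf (nat_lit 0) (nat_lit 17327241959) (nat_lit 76) (nat_lit 8072310394) (nat_lit 152) (nat_lit 49029837999) (nat_lit 8) (nat_lit 5) (nat_lit 9) (nat_lit 5) (nat_lit 10) (nat_lit 4) (nat_lit 397) (nat_lit 254) (nat_lit 129))) (XT.nd (nat_lit 78) (nat_lit 0) (nat_lit 0) (XT.lf (nat_lit 0) (nat_lit 28531491088) (nat_lit 76) (nat_lit 2399913373) (nat_lit 152) (nat_lit 45555230862) (nat_lit 8) (nat_lit 5) (nat_lit 9) (nat_lit 5) (nat_lit 10) (nat_lit 4) (nat_lit 398) (nat_lit 254) (nat_lit 128)) (XT.lf (nat_lit 0) (nat_lit 36654350375) (nat_lit 152) (nat_lit 38581514703) (nat_lit 0) (nat_lit 3368980955) (nat_lit 8) (nat_lit 5) (nat_lit 10) (nat_lit 4) (nat_lit 8) (nat_lit 4) (nat_lit 399) (nat_lit 254) (nat_lit 127)))))) (XT.nd (nat_lit 546) (nat_lit 0) (nat_lit 0) (XT.nd (nat_lit 234) (nat_lit 76) (nat_lit 0) (XT.nd (nat_lit 78) (nat_lit 0) (nat_lit 0) (XT.lf (nat_lit 0) (nat_lit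 42565023206) (nat_lit 152) (nat_lit 28964701725) (nat_lit 0) (nat_lit 9256399441) (nat_lit 8) (nat_lit 5) (nat_lit 10) (nat_lit 4) (nat_lit 8) (nat_lit 4) (nat_lit 400) (nat_lit 254) (nat_lit 126)) (XT.nd (nat_lit 78) (nat_lit 0) (nat_lit 0) (XT.lf (nat_lit 0) (nat_lit 48645518184) (nat_lit 152) (nat_lit 19073232823) (nat_lit 0) (nat_lit 15314317386) (nat_lit 8) (nat_lit 5) (nat_lit 10) (nat_lit 4) (nat_lit 8) (nat_lit 4) (nat_lit 401) (nat_lit 254) (nat_lit 125)) (XT.lf (nat_lit 0) (nat_lit 54901148362) (nat_lit 152) (nat_lit 8898464968) (nat_lit 0) (nat_lit 21548028114) (nat_lit 8) (nat_lit 5) (nat_lit 10) (nat_lit 4) (nat_lit 8) (nat_lit 4) (nat_lit 402) (nat_lit 254) (nat_lit 124)))) (XT.nd (nat_lit 156) (nat_lit 0) (nat_lit 0) (XT.nd (nat_lit 78) (nat_lit 0) (nat_lit 0) (XT.lf (nat_lit 0) (nat_lit 1599708488) (nat_lit 76) (nat_lit 59753048714) (nat_lit 76) (nat_lit 26378647447) (nat_lit 7)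 (nat_lit 4) (nat_lit 8) (nat_lit 5) (nat_lit 8) (nat_lit 4) (nat_lit 403) (nat_lit 254) (nat_lit 123)) (XT.lf (nat_lit 0) (nat_lit 12582311425) (nat_lit 76) (nat_lit 55498473917) (nat_lit 76) (nat_lit 22103411466) (nat_lit 7) (nat_lit 4) (nat_lit 8) (nat_lit 5) (nat_lit 8) (nat_lit 4) (nat_lit 404) (nat_lit 254) (nat_lit 122))) (XT.nd (nat_lit 78) (nat_lit 0) (nat_lit 0) (XT.lf (nat_lit 0) (nat_lit 23881843388) (nat_lit 76) (nat_lit 51122028398) (nat_lit 76) (nat_lit 17706906545) (nat_lit 7) (nat_lit 4) (nat_lit 8) (nat_lit 5) (nat_lit 8) (nat_lit 4) (nat_lit 405) (nat_lit 254) (nat_lit 121)) (XT.lf (nat_lit 0) (nat_lit 35508177757) (nat_lit 76) (nat_lit 46619888079) (nat_lit 76) (nat_lit 13185291079) (nat_lit 7) (nat_lit 4) (nat_lit 8) (nat_lit 5) (nat_lit 8) (nat_lit 4) (nat_lit 406) (nat_lit 254) (nat_lit 120))))) (XT.nd (nat_lit 30030) (nat_lit 0) (nat_lit 20824) (XT.nd (nat_lit 78) (nat_lit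 0) (nat_lit 0) (XT.lf (nat_lit 0) (nat_lit 47471473463) (nat_lit 76) (nat_lit 41988119050) (nat_lit 76) (nat_lit 8534614140) (nat_lit 7) (nat_lit 4) (nat_lit 8) (nat_lit 5) (nat_lit 8) (nat_lit 4) (nat_lit 407) (nat_lit 254) (nat_lit 119)) (XT.nd (nat_lit 29874) (nat_lit 0) (nat_lit 21964) (XT.lf (nat_lit 0) (nat_lit 59782183872) (nat_lit 76) (nat_lit 37222674134) (nat_lit 76) (nat_lit 3750812030) (nat_lit 7) (nat_lit 4) (nat_lit 8) (nat_lit 5) (nat_lit 8) (nat_lit 4) (nat_lit 408) (nat_lit 254) (nat_lit 118)) (XT.lf (nat_lit 0) (nat_lit 273194561) (nat_lit 380) (nat_lit 1501958535) (nat_lit 380) (nat_lit 1501958535) (nat_lit 296) (nat_lit 4) (nat_lit 301) (nat_lit 5) (nat_lit 301) (nat_lit 4) (nat_lit 270) (nat_lit 255) (nat_lit 255)))) (XT.nd (nat_lit 156) (nat_lit 608) (nat_lit 0) (XT.nd (nat_lit 78) (nat_lit 532) (nat_lit 0) (XT.lf (nat_lit 0) (nat_lit 4238497715) (nat_lit 380) (nat_lit 2339704068)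 (nat_lit 380) (nat_lit 268146) (nat_lit 296) (nat_lit 4) (nat_lit 301) (nat_lit 5) (nat_lit 301) (nat_lit 4) (nat_lit 271) (nat_lit 255) (nat_lit 254)) (XT.lf (nat_lit 0) (nat_lit 1361423455) (nat_lit 456) (nat_lit 1580525505) (nat_lit 532) (nat_lit 3663571779) (nat_lit 289) (nat_lit 5) (nat_lit 295) (nat_lit 5) (nat_lit 296) (nat_lit 4) (nat_lit 272) (nat_lit 255) (nat_lit 253))) (XT.nd (nat_lit 78) (nat_lit 608) (nat_lit 0) (XT.lf (nat_lit 0) (nat_lit 5149212497) (nat_lit 456) (nat_lit 744919602) (nat_lit 532) (nat_lit 741826498) (nat_lit 289) (nat_lit 5) (nat_lit 295) (nat_lit 5) (nat_lit 296) (nat_lit 4) (nat_lit 273) (nat_lit 255) (nat_lit 252)) (XT.lf (nat_lit 0) (nat_lit 2147425486) (nat_lit 608) (nat_lit 4336639795) (nat_lit 76) (nat_lit 185081043) (nat_lit 281) (nat_lit 5) (nat_lit 289) (nat_lit 5) (nat_lit 282) (nat_lit 4) (nat_lit 274) (nat_lit 255) (nat_lit 251))))))))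
noncomputable def xc91 : XT := (XT.nd (nat_lit 2106) (nat_lit 5168) (nat_lit 0) (XT.nd (nat_lit 1014) (nat_lit 4484) (nat_lit 0) (XT.nd (nat_lit 468) (nat_lit 5168) (nat_lit 0) (XT.nd (nat_lit 234) (nat_lit 836) (nat_lit 0) (XT.nd (nat_lit 78) (nat_lit 1368) (nat_lit 0) (XT.lf (nat_lit 0) (nat_lit 5033305505) (nat_lit 608) (nat_lit 496321332) (nat_lit 76) (nat_lit 1175944194) (nat_lit 281) (nat_lit 5) (nat_lit 289) (nat_lit 5) (nat_lit 282) (nat_lit 4) (nat_lit 275) (nat_lit 255) (nat_lit 250)) (XT.nd (nat_lit 78) (nat_lit 684) (nat_lit 0) (XT.lf (nat_lit 0) (nat_lit 1175590683) (nat_lit 684) (nat_lit 3303260370) (nat_lit 76) (nat_lit 2265942201) (nat_lit 272) (nat_lit 5) (nat_lit 281) (nat_lit 5) (nat_lit 273) (nat_lit 5) (nat_lit 276) (nat_lit 255) (nat_lit 249)) (XT.lf (nat_lit 0) (nat_lit 644085091) (nat_lit 684) (nat_lit 3348562720) (nat_lit 760) (nat_lit 2794716237) (nat_lit 263) (nat_lit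 5) (nat_lit 272) (nat_lit 5) (nat_lit 273) (nat_lit 5) (nat_lit 277) (nat_lit 255) (nat_lit 248)))) (XT.nd (nat_lit 78) (nat_lit 760) (nat_lit 0) (XT.lf (nat_lit 0) (nat_lit 2519887) (nat_lit 760) (nat_lit 2129412346) (nat_lit 76) (nat_lit 4701218223) (nat_lit 262) (nat_lit 5) (nat_lit 272) (nat_lit 5) (nat_lit 263) (nat_lit 5) (nat_lit 278) (nat_lit 255) (nat_lit 247)) (XT.nd (nat_lit 78) (nat_lit 0) (nat_lit 0) (XT.lf (nat_lit 0) (nat_lit 1941463697) (nat_lit 760) (nat_lit 814465891) (nat_lit 836) (nat_lit 4125871714) (nat_lit 252) (nat_lit 5) (nat_lit 262) (nat_lit 5) (nat_lit 263) (nat_lit 5) (nat_lit 279) (nat_lit 255) (nat_lit 246)) (XT.lf (nat_lit 0) (nat_lit 5530712999) (nat_lit 836) (nat_lit 834443022) (nat_lit 76) (nat_lit 568761235) (nat_lit 252) (nat_lit 5) (nat_lit 263) (nat_lit 5) (nat_lit 253) (nat_lit 5) (nat_lit 280) (nat_lit 255) (nat_lit 245))))) (XT.nd (nat_lit 234) (nat_lit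 3344) (nat_lit 0) (XT.nd (nat_lit 78) (nat_lit 912) (nat_lit 0) (XT.lf (nat_lit 0) (nat_lit 1328147054) (nat_lit 912) (nat_lit 3623290911) (nat_lit 76) (nat_lit 2037283347) (nat_lit 240) (nat_lit 5) (nat_lit 252) (nat_lit 5) (nat_lit 241) (nat_lit 5) (nat_lit 281) (nat_lit 255) (nat_lit 244)) (XT.nd (nat_lit 78) (nat_lit 0) (nat_lit 0) (XT.lf (nat_lit 0) (nat_lit 586175071) (nat_lit 912) (nat_lit 3456419703) (nat_lit 988) (nat_lit 3004431561) (nat_lit 228) (nat_lit 5) (nat_lit 240) (nat_lit 5) (nat_lit 241) (nat_lit 5) (nat_lit 282) (nat_lit 255) (nat_lit 243)) (XT.lf (nat_lit 0) (nat_lit 4922156672) (nat_lit 912) (nat_lit 1869879673) (nat_lit 988) (nat_lit 316587260) (nat_lit 228) (nat_lit 5) (nat_lit 240) (nat_lit 5) (nat_lit 241) (nat_lit 5) (nat_lit 283) (nat_lit 255) (nat_lit 242)))) (XT.nd (nat_lit 156) (nat_lit 2280) (nat_lit 0) (XT.nd (nat_lit 78) (nat_lit 0) (nat_lit 0) (XT.lf (nat_lit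 0) (nat_lit 2161100679) (nat_lit 988) (nat_lit 182170012) (nat_lit 1064) (nat_lit 4830055628) (nat_lit 214) (nat_lit 5) (nat_lit 227) (nat_lit 5) (nat_lit 228) (nat_lit 5) (nat_lit 284) (nat_lit 255) (nat_lit 241)) (XT.lf (nat_lit 0) (nat_lit 5034008556) (nat_lit 1064) (nat_lit 649232204) (nat_lit 76) (nat_lit 1558049087) (nat_lit 214) (nat_lit 5) (nat_lit 228) (nat_lit 5) (nat_lit 215) (nat_lit 5) (nat_lit 285) (nat_lit 255) (nat_lit 240))) (XT.nd (nat_lit 78) (nat_lit 1140) (nat_lit 0) (XT.lf (nat_lit 0) (nat_lit 445294142) (nat_lit 1140) (nat_lit 3472413026) (nat_lit 76) (nat_lit 3394749085) (nat_lit 199) (nat_lit 5) (nat_lit 214) (nat_lit 5) (nat_lit 200) (nat_lit 5) (nat_lit 286) (nat_lit 255) (nat_lit 239)) (XT.lf (nat_lit 0) (nat_lit 1015375464) (nat_lit 1140) (nat_lit 2057284143) (nat_lit 1216) (nat_lit 4314380655) (nat_lit 184) (nat_lit 5) (nat_lit 199) (nat_lit 5) (nat_lit 200) (nat_lit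 5) (nat_lit 287) (nat_lit 255) (nat_lit 238)))))) (XT.nd (nat_lit 546) (nat_lit 2052) (nat_lit 0) (XT.nd (nat_lit 234) (nat_lit 1748) (nat_lit 0) (XT.nd (nat_lit 78) (nat_lit 684) (nat_lit 0) (XT.lf (nat_lit 0) (nat_lit 5635443185) (nat_lit 1140) (nat_lit 103193209) (nat_lit 1216) (nat_lit 1726553576) (nat_lit 184) (nat_lit 5) (nat_lit 199) (nat_lit 5) (nat_lit 200) (nat_lit 5) (nat_lit 288) (nat_lit 255) (nat_lit 237)) (XT.nd (nat_lit 78) (nat_lit 0) (nat_lit 0) (XT.lf (nat_lit 0) (nat_lit 892509691) (nat_lit 684) (nat_lit 4744173801) (nat_lit 76) (nat_lit 1909687124) (nat_lit 175) (nat_lit 5) (nat_lit 184) (nat_lit 5) (nat_lit 176) (nat_lit 5) (nat_lit 289) (nat_lit 255) (nat_lit 236)) (XT.lf (nat_lit 0) (nat_lit 3502663295) (nat_lit 684) (nat_lit 111676486) (nat_lit 76) (nat_lit 4016828995) (nat_lit 175) (nat_lit 5) (nat_lit 184) (nat_lit 5) (nat_lit 176) (nat_lit 5) (nat_lit 290) (nat_lit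 255) (nat_lit 235)))) (XT.nd (nat_lit 156) (nat_lit 532) (nat_lit 0) (XT.nd (nat_lit 78) (nat_lit 608) (nat_lit 0) (XT.lf (nat_lit 0) (nat_lit 4678714110) (nat_lit 608) (nat_lit 1487031522) (nat_lit 684) (nat_lit 1553634823) (nat_lit 167) (nat_lit 5) (nat_lit 175) (nat_lit 5) (nat_lit 176) (nat_lit 5) (nat_lit 291) (nat_lit 255) (nat_lit 234)) (XT.lf (nat_lit 0) (nat_lit 1032301663) (nat_lit 608) (nat_lit 6063171389) (nat_lit 76) (nat_lit 715893082) (nat_lit 159) (nat_lit 5) (nat_lit 167) (nat_lit 5) (nat_lit 160) (nat_lit 5) (nat_lit 292) (nat_lit 255) (nat_lit 233))) (XT.nd (nat_lit 78) (nat_lit 532) (nat_lit 0) (XT.lf (nat_lit 0) (nat_lit 3641842452) (nat_lit 608) (nat_lit 1267105445) (nat_lit 76) (nat_lit 2997483537) (nat_lit 159) (nat_lit 5) (nat_lit 167) (nat_lit 5) (nat_lit 160) (nat_lit 5) (nat_lit 293) (nat_lit 255) (nat_lit 232)) (XT.lf (nat_lit 0) (nat_lit 3672112264) (nat_lit 532)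 (nat_lit 2626371195) (nat_lit 608) (nat_lit 1706897035) (nat_lit 152) (nat_lit 5) (nat_lit 159) (nat_lit 5) (nat_lit 160) (nat_lit 5) (nat_lit 294) (nat_lit 255) (nat_lit 231))))) (XT.nd (nat_lit 234) (nat_lit 988) (nat_lit 0) (XT.nd (nat_lit 78) (nat_lit 532) (nat_lit 0) (XT.lf (nat_lit 0) (nat_lit 608314125) (nat_lit 456) (nat_lit 253906976) (nat_lit 532) (nat_lit 7246316301) (nat_lit 145) (nat_lit 5) (nat_lit 151) (nat_lit 5) (nat_lit 152) (nat_lit 5) (nat_lit 295) (nat_lit 255) (nat_lit 230)) (XT.nd (nat_lit 78) (nat_lit 532) (nat_lit 0) (XT.lf (nat_lit 0) (nat_lit 3474523759) (nat_lit 532) (nat_lit 2539208077) (nat_lit 76) (nat_lit 2200625699) (nat_lit 145) (nat_lit 5) (nat_lit 152) (nat_lit 5) (nat_lit 146) (nat_lit 5) (nat_lit 296) (nat_lit 255) (nat_lit 229)) (XT.lf (nat_lit 0) (nat_lit 2545641745) (nat_lit 532) (nat_lit 3583604090) (nat_lit 608) (nat_lit 2195270419) (nat_lit 138) (nat_lit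 5) (nat_lit 145) (nat_lit 5) (nat_lit 146) (nat_lit 5) (nat_lit 297) (nat_lit 255) (nat_lit 228)))) (XT.nd (nat_lit 156) (nat_lit 456) (nat_lit 0) (XT.nd (nat_lit 78) (nat_lit 456) (nat_lit 0) (XT.lf (nat_lit 0) (nat_lit 380738375) (nat_lit 608) (nat_lit 679240651) (nat_lit 76) (nat_lit 7379056126) (nat_lit 137) (nat_lit 5) (nat_lit 145) (nat_lit 5) (nat_lit 138) (nat_lit 5) (nat_lit 298) (nat_lit 255) (nat_lit 227)) (XT.lf (nat_lit 0) (nat_lit 2988526351) (nat_lit 532) (nat_lit 4002095179) (nat_lit 76) (nat_lit 1565835611) (nat_lit 131) (nat_lit 5) (nat_lit 138) (nat_lit 5) (nat_lit 132) (nat_lit 5) (nat_lit 299) (nat_lit 255) (nat_lit 226))) (XT.nd (nat_lit 78) (nat_lit 0) (nat_lit 0) (XT.lf (nat_lit 0) (nat_lit 1223284382) (nat_lit 456) (nat_lit 4420777737) (nat_lit 532) (nat_lit 3034330206) (nat_lit 125) (nat_lit 5) (nat_lit 131) (nat_lit 5) (nat_lit 132) (nat_lit 5) (nat_lit 300) (nat_lit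 255) (nat_lit 225)) (XT.lf (nat_lit 0) (nat_lit 6616443584) (nat_lit 456) (nat_lit 1744622300) (nat_lit 532) (nat_lit 443539367) (nat_lit 125) (nat_lit 5) (nat_lit 131) (nat_lit 5) (nat_lit 132) (nat_lit 5) (nat_lit 301) (nat_lit 255) (nat_lit 224))))))) (XT.nd (nat_lit 1014) (nat_lit 2052) (nat_lit 0) (XT.nd (nat_lit 468) (nat_lit 1444) (nat_lit 0) (XT.nd (nat_lit 234) (nat_lit 836) (nat_lit 0) (XT.nd (nat_lit 78) (nat_lit 380) (nat_lit 0) (XT.lf (nat_lit 0) (nat_lit 2164977593) (nat_lit 456) (nat_lit 5737120640) (nat_lit 76) (nat_lit 1032431618) (nat_lit 119) (nat_lit 5) (nat_lit 125) (nat_lit 5) (nat_lit 120) (nat_lit 5) (nat_lit 302) (nat_lit 255) (nat_lit 223)) (XT.nd (nat_lit 78) (nat_lit 380) (nat_lit 0) (XT.lf (nat_lit 0) (nat_lit 4825769406) (nat_lit 456) (nat_lit 371288496) (nat_lit 76) (nat_lit 3871742010) (nat_lit 119) (nat_lit 5) (nat_lit 125) (nat_lit 5) (nat_lit 120) (nat_lit 5)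 (nat_lit 303) (nat_lit 255) (nat_lit 222)) (XT.lf (nat_lit 0) (nat_lit 5187702937) (nat_lit 380) (nat_lit 2373545177) (nat_lit 456) (nat_lit 1646069588) (nat_lit 114) (nat_lit 5) (nat_lit 119) (nat_lit 5) (nat_lit 120) (nat_lit 5) (nat_lit 304) (nat_lit 255) (nat_lit 221)))) (XT.nd (nat_lit 78) (nat_lit 380) (nat_lit 0) (XT.lf (nat_lit 0) (nat_lit 977755935) (nat_lit 456) (nat_lit 7834680667) (nat_lit 76) (nat_lit 538248559) (nat_lit 108) (nat_lit 5) (nat_lit 114) (nat_lit 5) (nat_lit 109) (nat_lit 5) (nat_lit 305) (nat_lit 255) (nat_lit 220)) (XT.nd (nat_lit 78) (nat_lit 380) (nat_lit 0) (XT.lf (nat_lit 0) (nat_lit 3657832412) (nat_lit 456) (nat_lit 2307609503) (nat_lit 76) (nat_lit 3532164142) (nat_lit 108) (nat_lit 5) (nat_lit 114) (nat_lit 5) (nat_lit 109) (nat_lit 5) (nat_lit 306) (nat_lit 255) (nat_lit 219)) (XT.lf (nat_lit 0) (nat_lit 3382973215) (nat_lit 380) (nat_lit 3015554263) (nat_lit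 456) (nat_lit 3251058829) (nat_lit 103) (nat_lit 5) (nat_lit 108) (nat_lit 5) (nat_lit 109) (nat_lit 5) (nat_lit 307) (nat_lit 255) (nat_lit 218))))) (XT.nd (nat_lit 234) (nat_lit 684) (nat_lit 0) (XT.nd (nat_lit 78) (nat_lit 760) (nat_lit 0) (XT.lf (nat_lit 0) (nat_lit 9193610260) (nat_lit 456) (nat_lit 583388285) (nat_lit 76) (nat_lit 30018934) (nat_lit 103) (nat_lit 5) (nat_lit 109) (nat_lit 5) (nat_lit 104) (nat_lit 5) (nat_lit 308) (nat_lit 255) (nat_lit 217)) (XT.nd (nat_lit 78) (nat_lit 380) (nat_lit 0) (XT.lf (nat_lit 0) (nat_lit 2093071087) (nat_lit 380) (nat_lit 4712470941) (nat_lit 76) (nat_lit 3162154017) (nat_lit 98) (nat_lit 5) (nat_lit 103) (nat_lit 5) (nat_lit 99) (nat_lit 5) (nat_lit 309) (nat_lit 255) (nat_lit 216)) (XT.lf (nat_lit 0) (nat_lit 1095726069) (nat_lit 380) (nat_lit 3739368135) (nat_lit 456) (nat_lit 5298969909) (nat_lit 93) (nat_lit 5) (nat_lit 98) (nat_lit 5) (nat_lit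 99) (nat_lit 5) (nat_lit 310) (nat_lit 255) (nat_lit 215)))) (XT.nd (nat_lit 156) (nat_lit 304) (nat_lit 0) (XT.nd (nat_lit 78) (nat_lit 380) (nat_lit 0) (XT.lf (nat_lit 0) (nat_lit 7107970038) (nat_lit 380) (nat_lit 550000284) (nat_lit 456) (nat_lit 2647545347) (nat_lit 93) (nat_lit 5) (nat_lit 98) (nat_lit 5) (nat_lit 99) (nat_lit 5) (nat_lit 311) (nat_lit 255) (nat_lit 214)) (XT.lf (nat_lit 0) (nat_lit 87081635) (nat_lit 380) (nat_lit 7702586090) (nat_lit 76) (nat_lit 2692307699) (nat_lit 88) (nat_lit 5) (nat_lit 93) (nat_lit 5) (nat_lit 89) (nat_lit 5) (nat_lit 312) (nat_lit 255) (nat_lit 213))) (XT.nd (nat_lit 78) (nat_lit 304) (nat_lit 0) (XT.lf (nat_lit 0) (nat_lit 2841104043) (nat_lit 380) (nat_lit 1760066245) (nat_lit 76) (nat_lit 6062101149) (nat_lit 88) (nat_lit 5) (nat_lit 93) (nat_lit 5) (nat_lit 89) (nat_lit 5) (nat_lit 313) (nat_lit 255) (nat_lit 212)) (XT.lf (nat_lit 0) (nat_lit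 4381661994) (nat_lit 304) (nat_lit 1292102864) (nat_lit 380) (nat_lit 5176405559) (nat_lit 84) (nat_lit 5) (nat_lit 88) (nat_lit 5) (nat_lit 89) (nat_lit 5) (nat_lit 314) (nat_lit 255) (nat_lit 211)))))) (XT.nd (nat_lit 546) (nat_lit 760) (nat_lit 0) (XT.nd (nat_lit 234) (nat_lit 608) (nat_lit 0) (XT.nd (nat_lit 78) (nat_lit 684) (nat_lit 0) (XT.lf (nat_lit 0) (nat_lit 8584145498) (nat_lit 380) (nat_lit 384102244) (nat_lit 76) (nat_lit 2074689742) (nat_lit 84) (nat_lit 5) (nat_lit 89) (nat_lit 5) (nat_lit 85) (nat_lit 5) (nat_lit 315) (nat_lit 255) (nat_lit 210)) (XT.nd (nat_lit 78) (nat_lit 304) (nat_lit 0) (XT.lf (nat_lit 0) (nat_lit 359417052) (nat_lit 380) (nat_lit 5321943416) (nat_lit 76) (nat_lit 5559298519) (nat_lit 79) (nat_lit 5) (nat_lit 84) (nat_lit 5) (nat_lit 80) (nat_lit 5) (nat_lit 316) (nat_lit 255) (nat_lit 209)) (XT.lf (nat_lit 0) (nat_lit 903993540) (nat_lit 304) (nat_lit 2277356178)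 (nat_lit 380) (nat_lit 8263213827) (nat_lit 75) (nat_lit 5) (nat_lit 79) (nat_lit 5) (nat_lit 80) (nat_lit 5) (nat_lit 317) (nat_lit 255) (nat_lit 208)))) (XT.nd (nat_lit 156) (nat_lit 380) (nat_lit 0) (XT.nd (nat_lit 78) (nat_lit 228) (nat_lit 0) (XT.lf (nat_lit 0) (nat_lit 6110503568) (nat_lit 380) (nat_lit 4303600073) (nat_lit 76) (nat_lit 1239843190) (nat_lit 75) (nat_lit 5) (nat_lit 80) (nat_lit 5) (nat_lit 76) (nat_lit 5) (nat_lit 318) (nat_lit 255) (nat_lit 207)) (XT.lf (nat_lit 0) (nat_lit 2076225581) (nat_lit 228) (nat_lit 7051558353) (nat_lit 304) (nat_lit 2741857489) (nat_lit 72) (nat_lit 5) (nat_lit 75) (nat_lit 5) (nat_lit 76) (nat_lit 5) (nat_lit 319) (nat_lit 255) (nat_lit 206))) (XT.nd (nat_lit 78) (nat_lit 304) (nat_lit 0) (XT.lf (nat_lit 0) (nat_lit 142795206) (nat_lit 304) (nat_lit 3419132166) (nat_lit 76) (nat_lit 8529818493) (nat_lit 71) (nat_lit 5) (nat_lit 75) (nat_lit 5)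 (nat_lit 72) (nat_lit 5) (nat_lit 320) (nat_lit 255) (nat_lit 205)) (XT.lf (nat_lit 0) (nat_lit 3048713214) (nat_lit 380) (nat_lit 9201303233) (nat_lit 76) (nat_lit 70021745) (nat_lit 67) (nat_lit 5) (nat_lit 72) (nat_lit 5) (nat_lit 68) (nat_lit 5) (nat_lit 321) (nat_lit 255) (nat_lit 204))))) (XT.nd (nat_lit 234) (nat_lit 532) (nat_lit 0) (XT.nd (nat_lit 78) (nat_lit 228) (nat_lit 0) (XT.lf (nat_lit 0) (nat_lit 6071526949) (nat_lit 380) (nat_lit 2728041939) (nat_lit 76) (nat_lit 3754752055) (nat_lit 67) (nat_lit 5) (nat_lit 72) (nat_lit 5) (nat_lit 68) (nat_lit 5) (nat_lit 322) (nat_lit 255) (nat_lit 203)) (XT.nd (nat_lit 78) (nat_lit 0) (nat_lit 0) (XT.lf (nat_lit 0) (nat_lit 3957301558) (nat_lit 228) (nat_lit 5226523930) (nat_lit 304) (nat_lit 3611874908) (nat_lit 64) (nat_lit 5) (nat_lit 67) (nat_lit 5) (nat_lit 68) (nat_lit 5) (nat_lit 323) (nat_lit 255) (nat_lit 202)) (XT.lf (nat_lit 0)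 (nat_lit 10840372438) (nat_lit 228) (nat_lit 1538006921) (nat_lit 304) (nat_lit 666306576) (nat_lit 64) (nat_lit 5) (nat_lit 67) (nat_lit 5) (nat_lit 68) (nat_lit 5) (nat_lit 324) (nat_lit 255) (nat_lit 201)))) (XT.nd (nat_lit 156) (nat_lit 228) (nat_lit 0) (XT.nd (nat_lit 78) (nat_lit 0) (nat_lit 0) (XT.lf (nat_lit 0) (nat_lit 2350292564) (nat_lit 304) (nat_lit 8683774254) (nat_lit 76) (nat_lit 2265555006) (nat_lit 60) (nat_lit 5) (nat_lit 64) (nat_lit 5) (nat_lit 61) (nat_lit 5) (nat_lit 325) (nat_lit 255) (nat_lit 200)) (XT.lf (nat_lit 0) (nat_lit 5444131574) (nat_lit 304) (nat_lit 1956003934) (nat_lit 76) (nat_lit 6161896986) (nat_lit 60) (nat_lit 5) (nat_lit 64) (nat_lit 5) (nat_lit 61) (nat_lit 5) (nat_lit 326) (nat_lit 255) (nat_lit 199))) (XT.nd (nat_lit 78) (nat_lit 0) (nat_lit 0) (XT.lf (nat_lit 0) (nat_lit 5014934281) (nat_lit 228) (nat_lit 3627579034) (nat_lit 304) (nat_lit 5189478146)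 (nat_lit 57) (nat_lit 5) (nat_lit 60) (nat_lit 5) (nat_lit 61) (nat_lit 5) (nat_lit 327) (nat_lit 255) (nat_lit 198)) (XT.lf (nat_lit 0) (nat_lit 11923128425) (nat_lit 304) (nat_lit 1933920644) (nat_lit 76) (nat_lit 253438665) (nat_lit 57) (nat_lit 5) (nat_lit 61) (nat_lit 5) (nat_lit 58) (nat_lit 5) (nat_lit 328) (nat_lit 255) (nat_lit 197))))))))
noncomputable def xc92 : XT := (XT.nd (nat_lit 2028) (nat_lit 1140) (nat_lit 0) (XT.nd (nat_lit 1014) (nat_lit 912) (nat_lit 0) (XT.nd (nat_lit 468) (nat_lit 608) (nat_lit 0) (XT.nd (nat_lit 234) (nat_lit 304) (nat_lit 0) (XT.nd (nat_lit 78) (nat_lit 152) (nat_lit 0) (XT.lf (nat_lit 0) (nat_lit 938115866) (nat_lit 304) (nat_lit 9239686799) (nat_lit 76) (nat_lit 4217772269) (nat_lit 53) (nat_lit 5) (nat_lit 57) (nat_lit 5) (nat_lit 54) (nat_lit 5) (nat_lit 329) (nat_lit 255) (nat_lit 196)) (XT.nd (nat_lit 78) (nat_lit 152) (nat_lit 0) (XT.lf (nat_lit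 0) (nat_lit 4098148532) (nat_lit 304) (nat_lit 2267850647) (nat_lit 76) (nat_lit 8323047854) (nat_lit 53) (nat_lit 5) (nat_lit 57) (nat_lit 5) (nat_lit 54) (nat_lit 5) (nat_lit 330) (nat_lit 255) (nat_lit 195)) (XT.lf (nat_lit 0) (nat_lit 4956058877) (nat_lit 152) (nat_lit 2410617204) (nat_lit 228) (nat_lit 7624260382) (nat_lit 51) (nat_lit 5) (nat_lit 53) (nat_lit 5) (nat_lit 54) (nat_lit 5) (nat_lit 331) (nat_lit 255) (nat_lit 194)))) (XT.nd (nat_lit 78) (nat_lit 304) (nat_lit 0) (XT.lf (nat_lit 0) (nat_lit 10738716591) (nat_lit 228) (nat_lit 2928339762) (nat_lit 76) (nat_lit 1634685793) (nat_lit 51) (nat_lit 5) (nat_lit 54) (nat_lit 5) (nat_lit 52) (nat_lit 5) (nat_lit 332) (nat_lit 255) (nat_lit 193)) (XT.nd (nat_lit 78) (nat_lit 76) (nat_lit 0) (XT.lf (nat_lit 0) (nat_lit 4400877453) (nat_lit 228) (nat_lit 9844532362) (nat_lit 304) (nat_lit 1375480047) (nat_lit 48) (nat_lit 5) (nat_lit 51)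 (nat_lit 5) (nat_lit 52) (nat_lit 5) (nat_lit 333) (nat_lit 255) (nat_lit 192)) (XT.lf (nat_lit 0) (nat_lit 1867760499) (nat_lit 304) (nat_lit 4010037035) (nat_lit 76) (nat_lit 10071366808) (nat_lit 47) (nat_lit 5) (nat_lit 51) (nat_lit 5) (nat_lit 48) (nat_lit 5) (nat_lit 334) (nat_lit 255) (nat_lit 191))))) (XT.nd (nat_lit 234) (nat_lit 228) (nat_lit 0) (XT.nd (nat_lit 78) (nat_lit 228) (nat_lit 0) (XT.lf (nat_lit 0) (nat_lit 3418173509) (nat_lit 152) (nat_lit 1763716487) (nat_lit 228) (nat_lit 11104972067) (nat_lit 45) (nat_lit 5) (nat_lit 47) (nat_lit 5) (nat_lit 48) (nat_lit 5) (nat_lit 335) (nat_lit 255) (nat_lit 190)) (XT.nd (nat_lit 78) (nat_lit 228) (nat_lit 0) (XT.lf (nat_lit 0) (nat_lit 8628744406) (nat_lit 228) (nat_lit 5557637721) (nat_lit 76) (nat_lit 2447329643) (nat_lit 45) (nat_lit 5) (nat_lit 48) (nat_lit 5) (nat_lit 46) (nat_lit 5) (nat_lit 336) (nat_lit 255) (nat_lit 189))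 (XT.lf (nat_lit 0) (nat_lit 1943286569) (nat_lit 228) (nat_lit 10241401289) (nat_lit 304) (nat_lit 4806128109) (nat_lit 42) (nat_lit 5) (nat_lit 45) (nat_lit 5) (nat_lit 46) (nat_lit 5) (nat_lit 337) (nat_lit 255) (nat_lit 188)))) (XT.nd (nat_lit 156) (nat_lit 152) (nat_lit 0) (XT.nd (nat_lit 78) (nat_lit 76) (nat_lit 0) (XT.lf (nat_lit 0) (nat_lit 9733738040) (nat_lit 228) (nat_lit 6139645673) (nat_lit 304) (nat_lit 1484486288) (nat_lit 42) (nat_lit 5) (nat_lit 45) (nat_lit 5) (nat_lit 46) (nat_lit 5) (nat_lit 338) (nat_lit 255) (nat_lit 187)) (XT.lf (nat_lit 0) (nat_lit 1869531908) (nat_lit 304) (nat_lit 45241949) (nat_lit 76) (nat_lit 15821505477) (nat_lit 41) (nat_lit 5) (nat_lit 45) (nat_lit 5) (nat_lit 42) (nat_lit 5) (nat_lit 339) (nat_lit 255) (nat_lit 186))) (XT.nd (nat_lit 78) (nat_lit 0) (nat_lit 0) (XT.lf (nat_lit 0) (nat_lit 5365334415) (nat_lit 228) (nat_lit 10295981859) (nat_lit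 76) (nat_lit 2462171050) (nat_lit 39) (nat_lit 5) (nat_lit 42) (nat_lit 5) (nat_lit 40) (nat_lit 5) (nat_lit 340) (nat_lit 255) (nat_lit 185)) (XT.lf (nat_lit 0) (nat_lit 8957017233) (nat_lit 228) (nat_lit 2651297871) (nat_lit 76) (nat_lit 6914283084) (nat_lit 39) (nat_lit 5) (nat_lit 42) (nat_lit 5) (nat_lit 40) (nat_lit 5) (nat_lit 341) (nat_lit 255) (nat_lit 184)))))) (XT.nd (nat_lit 468) (nat_lit 380) (nat_lit 0) (XT.nd (nat_lit 234) (nat_lit 152) (nat_lit 0) (XT.nd (nat_lit 78) (nat_lit 228) (nat_lit 0) (XT.lf (nat_lit 0) (nat_lit 5279733779) (nat_lit 152) (nat_lit 7399883059) (nat_lit 228) (nat_lit 6253386882) (nat_lit 37) (nat_lit 5) (nat_lit 39) (nat_lit 5) (nat_lit 40) (nat_lit 5) (nat_lit 342) (nat_lit 255) (nat_lit 183)) (XT.nd (nat_lit 78) (nat_lit 228) (nat_lit 0) (XT.lf (nat_lit 0) (nat_lit 13457477080) (nat_lit 152) (nat_lit 3055969971) (nat_lit 228) (nat_lit 2842303645) (nat_lit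 37) (nat_lit 5) (nat_lit 39) (nat_lit 5) (nat_lit 40) (nat_lit 5) (nat_lit 343) (nat_lit 255) (nat_lit 182)) (XT.lf (nat_lit 0) (nat_lit 665014833) (nat_lit 228) (nat_lit 17726227408) (nat_lit 76) (nat_lit 1399549295) (nat_lit 34) (nat_lit 5) (nat_lit 37) (nat_lit 5) (nat_lit 35) (nat_lit 5) (nat_lit 344) (nat_lit 255) (nat_lit 181)))) (XT.nd (nat_lit 78) (nat_lit 152) (nat_lit 0) (XT.lf (nat_lit 0) (nat_lit 4284307502) (nat_lit 228) (nat_lit 9953869902) (nat_lit 76) (nat_lit 5997959997) (nat_lit 34) (nat_lit 5) (nat_lit 37) (nat_lit 5) (nat_lit 35) (nat_lit 5) (nat_lit 345) (nat_lit 255) (nat_lit 180)) (XT.nd (nat_lit 78) (nat_lit 152) (nat_lit 0) (XT.lf (nat_lit 0) (nat_lit 7986425830) (nat_lit 228) (nat_lit 1992012059) (nat_lit 76) (nat_lit 10717192432) (nat_lit 34) (nat_lit 5) (nat_lit 37) (nat_lit 5) (nat_lit 35) (nat_lit 5) (nat_lit 346) (nat_lit 255) (nat_lit 179)) (XT.lf (nat_lit 0) (nat_lit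 6289024603) (nat_lit 152) (nat_lit 5546034026) (nat_lit 228) (nat_lit 9332799552) (nat_lit 32) (nat_lit 5) (nat_lit 34) (nat_lit 5) (nat_lit 35) (nat_lit 5) (nat_lit 347) (nat_lit 255) (nat_lit 178))))) (XT.nd (nat_lit 234) (nat_lit 152) (nat_lit 0) (XT.nd (nat_lit 78) (nat_lit 228) (nat_lit 0) (XT.lf (nat_lit 0) (nat_lit 14817343894) (nat_lit 152) (nat_lit 977243583) (nat_lit 228) (nat_lit 5859815566) (nat_lit 32) (nat_lit 5) (nat_lit 34) (nat_lit 5) (nat_lit 35) (nat_lit 5) (nat_lit 348) (nat_lit 255) (nat_lit 177)) (XT.nd (nat_lit 78) (nat_lit 76) (nat_lit 0) (XT.lf (nat_lit 0) (nat_lit 1396038414) (nat_lit 152) (nat_lit 18502003979) (nat_lit 228) (nat_lit 2256760545) (nat_lit 30) (nat_lit 5) (nat_lit 32) (nat_lit 5) (nat_lit 33) (nat_lit 4) (nat_lit 349) (nat_lit 255) (nat_lit 176)) (XT.lf (nat_lit 0) (nat_lit 1481346023) (nat_lit 228) (nat_lit 12717617335) (nat_lit 76) (nat_lit 8469184004)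 (nat_lit 29) (nat_lit 5) (nat_lit 32) (nat_lit 5) (nat_lit 30) (nat_lit 5) (nat_lit 350) (nat_lit 255) (nat_lit 175)))) (XT.nd (nat_lit 156) (nat_lit 0) (nat_lit 0) (XT.nd (nat_lit 78) (nat_lit 152) (nat_lit 0) (XT.lf (nat_lit 0) (nat_lit 5262877977) (nat_lit 228) (nat_lit 4497789549) (nat_lit 76) (nat_lit 13436266841) (nat_lit 29) (nat_lit 5) (nat_lit 32) (nat_lit 5) (nat_lit 30) (nat_lit 5) (nat_lit 351) (nat_lit 255) (nat_lit 174)) (XT.lf (nat_lit 0) (nat_lit 4007801206) (nat_lit 152) (nat_lit 5165901325) (nat_lit 228) (nat_lit 14567418507) (nat_lit 27) (nat_lit 5) (nat_lit 29) (nat_lit 5) (nat_lit 30) (nat_lit 5) (nat_lit 352) (nat_lit 255) (nat_lit 173))) (XT.nd (nat_lit 78) (nat_lit 0) (nat_lit 0) (XT.lf (nat_lit 0) (nat_lit 12822104191) (nat_lit 152) (nat_lit 402776655) (nat_lit 228) (nat_lit 11076072714) (nat_lit 27) (nat_lit 5) (nat_lit 29) (nat_lit 5) (nat_lit 30) (nat_lit 5) (nat_lit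 353) (nat_lit 255) (nat_lit 172)) (XT.lf (nat_lit 0) (nat_lit 17418992921) (nat_lit 228) (nat_lit 3058073705) (nat_lit 76) (nat_lit 4399883276) (nat_lit 27) (nat_lit 5) (nat_lit 30) (nat_lit 5) (nat_lit 28) (nat_lit 4) (nat_lit 354) (nat_lit 255) (nat_lit 171))))))) (XT.nd (nat_lit 1014) (nat_lit 532) (nat_lit 0) (XT.nd (nat_lit 468) (nat_lit 304) (nat_lit 0) (XT.nd (nat_lit 234) (nat_lit 152) (nat_lit 0) (XT.nd (nat_lit 78) (nat_lit 76) (nat_lit 0) (XT.lf (nat_lit 0) (nat_lit 5685345910) (nat_lit 76) (nat_lit 16090969412) (nat_lit 152) (nat_lit 3692799685) (nat_lit 26) (nat_lit 5) (nat_lit 27) (nat_lit 5) (nat_lit 28) (nat_lit 4) (nat_lit 355) (nat_lit 255) (nat_lit 170)) (XT.nd (nat_lit 78) (nat_lit 0) (nat_lit 0) (XT.lf (nat_lit 0) (nat_lit 191680268) (nat_lit 152) (nat_lit 11363452875) (nat_lit 76) (nat_lit 14523568844) (nat_lit 25) (nat_lit 5) (nat_lit 27) (nat_lit 5) (nat_lit 26) (nat_lit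 5) (nat_lit 356) (nat_lit 255) (nat_lit 169)) (XT.lf (nat_lit 0) (nat_lit 4097888299) (nat_lit 152) (nat_lit 2763014554) (nat_lit 76) (nat_lit 19845203984) (nat_lit 25) (nat_lit 5) (nat_lit 27) (nat_lit 5) (nat_lit 26) (nat_lit 5) (nat_lit 357) (nat_lit 255) (nat_lit 168)))) (XT.nd (nat_lit 78) (nat_lit 0) (nat_lit 0) (XT.lf (nat_lit 0) (nat_lit 6181175251) (nat_lit 152) (nat_lit 1979539408) (nat_lit 228) (nat_lit 19190445527) (nat_lit 23) (nat_lit 5) (nat_lit 25) (nat_lit 5) (nat_lit 26) (nat_lit 5) (nat_lit 358) (nat_lit 255) (nat_lit 167)) (XT.nd (nat_lit 78) (nat_lit 0) (nat_lit 0) (XT.lf (nat_lit 0) (nat_lit 12383027547) (nat_lit 228) (nat_lit 12628971818) (nat_lit 76) (nat_lit 3002446759) (nat_lit 23) (nat_lit 5) (nat_lit 26) (nat_lit 5) (nat_lit 24) (nat_lit 4) (nat_lit 359) (nat_lit 255) (nat_lit 166)) (XT.lf (nat_lit 0) (nat_lit 16732310844) (nat_lit 228) (nat_lit 3885303941) (nat_lit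 76) (nat_lit 8080015605) (nat_lit 23) (nat_lit 5) (nat_lit 26) (nat_lit 5) (nat_lit 24) (nat_lit 4) (nat_lit 360) (nat_lit 255) (nat_lit 165))))) (XT.nd (nat_lit 234) (nat_lit 228) (nat_lit 0) (XT.nd (nat_lit 78) (nat_lit 0) (nat_lit 0) (XT.lf (nat_lit 0) (nat_lit 5188942291) (nat_lit 76) (nat_lit 16054273348) (nat_lit 152) (nat_lit 8157168780) (nat_lit 22) (nat_lit 5) (nat_lit 23) (nat_lit 5) (nat_lit 24) (nat_lit 4) (nat_lit 361) (nat_lit 255) (nat_lit 164)) (XT.nd (nat_lit 78) (nat_lit 0) (nat_lit 0) (XT.lf (nat_lit 0) (nat_lit 14582397596) (nat_lit 76) (nat_lit 11327779382) (nat_lit 152) (nat_lit 4213430481) (nat_lit 22) (nat_lit 5) (nat_lit 23) (nat_lit 5) (nat_lit 24) (nat_lit 4) (nat_lit 362) (nat_lit 255) (nat_lit 163)) (XT.lf (nat_lit 0) (nat_lit 24225944682) (nat_lit 76) (nat_lit 6473236894) (nat_lit 152) (nat_lit 169892618) (nat_lit 22) (nat_lit 5) (nat_lit 23) (nat_lit 5) (nat_lit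 24) (nat_lit 4) (nat_lit 363) (nat_lit 255) (nat_lit 162)))) (XT.nd (nat_lit 156) (nat_lit 0) (nat_lit 0) (XT.nd (nat_lit 78) (nat_lit 0) (nat_lit 0) (XT.lf (nat_lit 0) (nat_lit 2501151271) (nat_lit 152) (nat_lit 1422264156) (nat_lit 228) (nat_lit 27712152420) (nat_lit 19) (nat_lit 5) (nat_lit 21) (nat_lit 5) (nat_lit 22) (nat_lit 5) (nat_lit 364) (nat_lit 255) (nat_lit 161)) (XT.lf (nat_lit 0) (nat_lit 8222657777) (nat_lit 228) (nat_lit 20437031512) (nat_lit 76) (nat_lit 3762727419) (nat_lit 19) (nat_lit 5) (nat_lit 22) (nat_lit 5) (nat_lit 20) (nat_lit 4) (nat_lit 365) (nat_lit 255) (nat_lit 160))) (XT.nd (nat_lit 78) (nat_lit 0) (nat_lit 0) (XT.lf (nat_lit 0) (nat_lit 12647934959) (nat_lit 228) (nat_lit 11523138322) (nat_lit 76) (nat_lit 9061893164) (nat_lit 19) (nat_lit 5) (nat_lit 22) (nat_lit 5) (nat_lit 20) (nat_lit 4) (nat_lit 366) (nat_lit 255) (nat_lit 159)) (XT.lf (nat_lit 0) (nat_lit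 17189442047) (nat_lit 228) (nat_lit 2371276495) (nat_lit 76) (nat_lit 14507616915) (nat_lit 19) (nat_lit 5) (nat_lit 22) (nat_lit 5) (nat_lit 20) (nat_lit 4) (nat_lit 367) (nat_lit 255) (nat_lit 158)))))) (XT.nd (nat_lit 546) (nat_lit 228) (nat_lit 0) (XT.nd (nat_lit 234) (nat_lit 228) (nat_lit 0) (XT.nd (nat_lit 78) (nat_lit 0) (nat_lit 0) (XT.lf (nat_lit 0) (nat_lit 7166392877) (nat_lit 76) (nat_lit 14753642224) (nat_lit 152) (nat_lit 13007151946) (nat_lit 18) (nat_lit 5) (nat_lit 19) (nat_lit 5) (nat_lit 20) (nat_lit 4) (nat_lit 368) (nat_lit 255) (nat_lit 157)) (XT.nd (nat_lit 78) (nat_lit 0) (nat_lit 0) (XT.lf (nat_lit 0) (nat_lit 17010491028) (nat_lit 76) (nat_lit 9790148417) (nat_lit 152) (nat_lit 9010928466) (nat_lit 18) (nat_lit 5) (nat_lit 19) (nat_lit 5) (nat_lit 20) (nat_lit 4) (nat_lit 369) (nat_lit 255) (nat_lit 156)) (XT.lf (nat_lit 0) (nat_lit 27122426544) (nat_lit 76) (nat_lit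 4689845331) (nat_lit 152) (nat_lit 4910676370) (nat_lit 18) (nat_lit 5) (nat_lit 19) (nat_lit 5) (nat_lit 20) (nat_lit 4) (nat_lit 370) (nat_lit 255) (nat_lit 155)))) (XT.nd (nat_lit 156) (nat_lit 0) (nat_lit 0) (XT.nd (nat_lit 78) (nat_lit 228) (nat_lit 0) (XT.lf (nat_lit 0) (nat_lit 36964614992) (nat_lit 152) (nat_lit 156392808) (nat_lit 0) (nat_lit 540957493) (nat_lit 18) (nat_lit 5) (nat_lit 20) (nat_lit 4) (nat_lit 18) (nat_lit 4) (nat_lit 371) (nat_lit 255) (nat_lit 154)) (XT.lf (nat_lit 0) (nat_lit 3697470203) (nat_lit 228) (nat_lit 28974237383) (nat_lit 76) (nat_lit 5952615575) (nat_lit 15) (nat_lit 5) (nat_lit 18) (nat_lit 5) (nat_lit 16) (nat_lit 4) (nat_lit 372) (nat_lit 255) (nat_lit 153))) (XT.nd (nat_lit 78) (nat_lit 0) (nat_lit 0) (XT.lf (nat_lit 0) (nat_lit 8197125277) (nat_lit 228) (nat_lit 19894737969) (nat_lit 76) (nat_lit 11523876839) (nat_lit 15) (nat_lit 5) (nat_lit 18) (nat_lit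 5) (nat_lit 16) (nat_lit 4) (nat_lit 373) (nat_lit 255) (nat_lit 152)) (XT.lf (nat_lit 0) (nat_lit 12817606030) (nat_lit 228) (nat_lit 10568366299) (nat_lit 76) (nat_lit 17251357579) (nat_lit 15) (nat_lit 5) (nat_lit 18) (nat_lit 5) (nat_lit 16) (nat_lit 4) (nat_lit 374) (nat_lit 255) (nat_lit 151))))) (XT.nd (nat_lit 234) (nat_lit 152) (nat_lit 0) (XT.nd (nat_lit 78) (nat_lit 76) (nat_lit 0) (XT.lf (nat_lit 0) (nat_lit 17562949774) (nat_lit 228) (nat_lit 986973119) (nat_lit 76) (nat_lit 23140062387) (nat_lit 15) (nat_lit 5) (nat_lit 18) (nat_lit 5) (nat_lit 16) (nat_lit 4) (nat_lit 375) (nat_lit 255) (nat_lit 150)) (XT.nd (nat_lit 78) (nat_lit 0) (nat_lit 0) (XT.lf (nat_lit 0) (nat_lit 9034101524) (nat_lit 76) (nat_lit 13490042712) (nat_lit 152) (nat_lit 20247876520) (nat_lit 14) (nat_lit 5) (nat_lit 15) (nat_lit 5) (nat_lit 16) (nat_lit 4) (nat_lit 376) (nat_lit 255) (nat_lit 149)) (XT.lf (nat_lit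 0) (nat_lit 19352227963) (nat_lit 76) (nat_lit 8278722121) (nat_lit 152) (nat_lit 16255668954) (nat_lit 14) (nat_lit 5) (nat_lit 15) (nat_lit 5) (nat_lit 16) (nat_lit 4) (nat_lit 377) (nat_lit 255) (nat_lit 148)))) (XT.nd (nat_lit 156) (nat_lit 152) (nat_lit 0) (XT.nd (nat_lit 78) (nat_lit 0) (nat_lit 0) (XT.lf (nat_lit 0) (nat_lit 29956779334) (nat_lit 76) (nat_lit 2921374034) (nat_lit 152) (nat_lit 12156890963) (nat_lit 14) (nat_lit 5) (nat_lit 15) (nat_lit 5) (nat_lit 16) (nat_lit 4) (nat_lit 378) (nat_lit 255) (nat_lit 147)) (XT.lf (nat_lit 0) (nat_lit 38295203799) (nat_lit 152) (nat_lit 5386143140) (nat_lit 0) (nat_lit 2536207231) (nat_lit 14) (nat_lit 5) (nat_lit 16) (nat_lit 4) (nat_lit 14) (nat_lit 4) (nat_lit 379) (nat_lit 255) (nat_lit 146))) (XT.nd (nat_lit 78) (nat_lit 76) (nat_lit 0) (XT.lf (nat_lit 0) (nat_lit 4636222235) (nat_lit 76) (nat_lit 39299869190) (nat_lit 76) (nat_lit 3497612692)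 (nat_lit 13) (nat_lit 4) (nat_lit 14) (nat_lit 5) (nat_lit 14) (nat_lit 4) (nat_lit 380) (nat_lit 255) (nat_lit 145)) (XT.lf (nat_lit 0) (nat_lit 1081969189) (nat_lit 152) (nat_lit 33647858975) (nat_lit 76) (nat_lit 13954925556) (nat_lit 12) (nat_lit 5) (nat_lit 14) (nat_lit 5) (nat_lit 13) (nat_lit 4) (nat_lit 381) (nat_lit 255) (nat_lit 144))))))))
noncomputable def xc93 : XT := (XT.nd (nat_lit 2028) (nat_lit 0) (nat_lit 0) (XT.nd (nat_lit 1014) (nat_lit 152) (nat_lit 0) (XT.nd (nat_lit 468) (nat_lit 152) (nat_lit 0) (XT.nd (nat_lit 234) (nat_lit 76) (nat_lit 0) (XT.nd (nat_lit 78) (nat_lit 0) (nat_lit 0) (XT.lf (nat_lit 0) (nat_lit 5716849590) (nat_lit 152) (nat_lit 24279828395) (nat_lit 76) (nat_lit 19975975837) (nat_lit 12) (nat_lit 5) (nat_lit 14) (nat_lit 5) (nat_lit 13) (nat_lit 4) (nat_lit 382) (nat_lit 255) (nat_lit 143)) (XT.nd (nat_lit 78) (nat_lit 0) (nat_lit 0) (XT.lf (nat_lit 0)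 (nat_lit 10479329426) (nat_lit 152) (nat_lit 14651583293) (nat_lit 76) (nat_lit 26168625688) (nat_lit 12) (nat_lit 5) (nat_lit 14) (nat_lit 5) (nat_lit 13) (nat_lit 4) (nat_lit 383) (nat_lit 255) (nat_lit 142)) (XT.lf (nat_lit 0) (nat_lit 15373570087) (nat_lit 152) (nat_lit 4754710639) (nat_lit 76) (nat_lit 32538286162) (nat_lit 12) (nat_lit 5) (nat_lit 14) (nat_lit 5) (nat_lit 13) (nat_lit 4) (nat_lit 384) (nat_lit 255) (nat_lit 141)))) (XT.nd (nat_lit 78) (nat_lit 0) (nat_lit 0) (XT.lf (nat_lit 0) (nat_lit 5527294748) (nat_lit 76) (nat_lit 14929685085) (nat_lit 152) (nat_lit 33616359973) (nat_lit 11) (nat_lit 5) (nat_lit 12) (nat_lit 5) (nat_lit 13) (nat_lit 4) (nat_lit 385) (nat_lit 255) (nat_lit 140)) (XT.nd (nat_lit 78) (nat_lit 0) (nat_lit 0) (XT.lf (nat_lit 0) (nat_lit 16195788789) (nat_lit 76) (nat_lit 9534453877) (nat_lit 152) (nat_lit 29790956446) (nat_lit 11) (nat_lit 5) (nat_lit 12)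 (nat_lit 5) (nat_lit 13) (nat_lit 4) (nat_lit 386) (nat_lit 255) (nat_lit 139)) (XT.lf (nat_lit 0) (nat_lit 27165465403) (nat_lit 76) (nat_lit 3985886079) (nat_lit 152) (nat_lit 25861456890) (nat_lit 11) (nat_lit 5) (nat_lit 12) (nat_lit 5) (nat_lit 13) (nat_lit 4) (nat_lit 387) (nat_lit 255) (nat_lit 138))))) (XT.nd (nat_lit 234) (nat_lit 76) (nat_lit 0) (XT.nd (nat_lit 78) (nat_lit 76) (nat_lit 0) (XT.lf (nat_lit 0) (nat_lit 36741585195) (nat_lit 152) (nat_lit 20120103210) (nat_lit 0) (nat_lit 1687286267) (nat_lit 11) (nat_lit 5) (nat_lit 13) (nat_lit 4) (nat_lit 11) (nat_lit 4) (nat_lit 388) (nat_lit 255) (nat_lit 137)) (XT.nd (nat_lit 78) (nat_lit 76) (nat_lit 0) (XT.lf (nat_lit 0) (nat_lit 42529155275) (nat_lit 152) (nat_lit 10158518317) (nat_lit 0) (nat_lit 7442666897) (nat_lit 11) (nat_lit 5) (nat_lit 13) (nat_lit 4) (nat_lit 11) (nat_lit 4) (nat_lit 389) (nat_lit 255) (nat_lit 136)) (XT.lf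 (nat_lit 0) (nat_lit 86111117) (nat_lit 76) (nat_lit 48395520683) (nat_lit 76) (nat_lit 13277780410) (nat_lit 10) (nat_lit 4) (nat_lit 11) (nat_lit 5) (nat_lit 11) (nat_lit 4) (nat_lit 390) (nat_lit 255) (nat_lit 135)))) (XT.nd (nat_lit 156) (nat_lit 76) (nat_lit 0) (XT.nd (nat_lit 78) (nat_lit 0) (nat_lit 0) (XT.lf (nat_lit 0) (nat_lit 10829007167) (nat_lit 76) (nat_lit 43876819859) (nat_lit 76) (nat_lit 8728737941) (nat_lit 10) (nat_lit 4) (nat_lit 11) (nat_lit 5) (nat_lit 11) (nat_lit 4) (nat_lit 391) (nat_lit 255) (nat_lit 134)) (XT.lf (nat_lit 0) (nat_lit 21877382393) (nat_lit 76) (nat_lit 39230203856) (nat_lit 76) (nat_lit 4052664030) (nat_lit 10) (nat_lit 4) (nat_lit 11) (nat_lit 5) (nat_lit 11) (nat_lit 4) (nat_lit 392) (nat_lit 255) (nat_lit 133))) (XT.nd (nat_lit 78) (nat_lit 0) (nat_lit 0) (XT.lf (nat_lit 0) (nat_lit 739803666) (nat_lit 152) (nat_lit 33704338293) (nat_lit 76) (nat_lit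 32493616483) (nat_lit 9) (nat_lit 5) (nat_lit 11) (nat_lit 5) (nat_lit 10) (nat_lit 4) (nat_lit 393) (nat_lit 255) (nat_lit 132)) (XT.lf (nat_lit 0) (nat_lit 5585866542) (nat_lit 152) (nat_lit 23894597558) (nat_lit 76) (nat_lit 39287188573) (nat_lit 9) (nat_lit 5) (nat_lit 11) (nat_lit 5) (nat_lit 10) (nat_lit 4) (nat_lit 394) (nat_lit 255) (nat_lit 131)))))) (XT.nd (nat_lit 468) (nat_lit 76) (nat_lit 0) (XT.nd (nat_lit 234) (nat_lit 0) (nat_lit 0) (XT.nd (nat_lit 78) (nat_lit 76) (nat_lit 0) (XT.lf (nat_lit 0) (nat_lit 10568841093) (nat_lit 152) (nat_lit 13806117378) (nat_lit 76) (nat_lit 46277742138) (nat_lit 9) (nat_lit 5) (nat_lit 11) (nat_lit 5) (nat_lit 10) (nat_lit 4) (nat_lit 395) (nat_lit 255) (nat_lit 130)) (XT.nd (nat_lit 78) (nat_lit 76) (nat_lit 0) (XT.lf (nat_lit 0) (nat_lit 15693081375) (nat_lit 152) (nat_lit 3430082575) (nat_lit 76) (nat_lit 53471385429) (nat_lit 9) (nat_lit 5)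 (nat_lit 11) (nat_lit 5) (nat_lit 10) (nat_lit 4) (nat_lit 396) (nat_lit 255) (nat_lit 129)) (XT.lf (nat_lit 0) (nat_lit 7386714697) (nat_lit 76) (nat_lit 13647355802) (nat_lit 152) (nat_lit 53558695078) (nat_lit 8) (nat_lit 5) (nat_lit 9) (nat_lit 5) (nat_lit 10) (nat_lit 4) (nat_lit 397) (nat_lit 255) (nat_lit 128)))) (XT.nd (nat_lit 78) (nat_lit 0) (nat_lit 0) (XT.lf (nat_lit 0) (nat_lit 18583812959) (nat_lit 76) (nat_lit 7978222464) (nat_lit 152) (nat_lit 50088092990) (nat_lit 8) (nat_lit 5) (nat_lit 9) (nat_lit 5) (nat_lit 10) (nat_lit 4) (nat_lit 398) (nat_lit 255) (nat_lit 127)) (XT.nd (nat_lit 78) (nat_lit 0) (nat_lit 0) (XT.lf (nat_lit 0) (nat_lit 30102730715) (nat_lit 76) (nat_lit 2145447433) (nat_lit 152) (nat_lit 46521266285) (nat_lit 8) (nat_lit 5) (nat_lit 9) (nat_lit 5) (nat_lit 10) (nat_lit 4) (nat_lit 399) (nat_lit 255) (nat_lit 126)) (XT.lf (nat_lit 0) (nat_lit 38134534011) (nat_lit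 152) (nat_lit 39036099291) (nat_lit 0) (nat_lit 3780820156) (nat_lit 8) (nat_lit 5) (nat_lit 10) (nat_lit 4) (nat_lit 8) (nat_lit 4) (nat_lit 400) (nat_lit 255) (nat_lit 125))))) (XT.nd (nat_lit 234) (nat_lit 76) (nat_lit 0) (XT.nd (nat_lit 78) (nat_lit 0) (nat_lit 0) (XT.lf (nat_lit 0) (nat_lit 44211442955) (nat_lit 152) (nat_lit 29151253598) (nat_lit 0) (nat_lit 9835809650) (nat_lit 8) (nat_lit 5) (nat_lit 10) (nat_lit 4) (nat_lit 8) (nat_lit 4) (nat_lit 401) (nat_lit 255) (nat_lit 124)) (XT.nd (nat_lit 78) (nat_lit 0) (nat_lit 0) (XT.lf (nat_lit 0) (nat_lit 50463591548) (nat_lit 152) (nat_lit 18982916043) (nat_lit 0) (nat_lit 16066677223) (nat_lit 8) (nat_lit 5) (nat_lit 10) (nat_lit 4) (nat_lit 8) (nat_lit 4) (nat_lit 402) (nat_lit 255) (nat_lit 123)) (XT.lf (nat_lit 0) (nat_lit 56896442831) (nat_lit 152) (nat_lit 8522201669) (nat_lit 0) (nat_lit 22478867323) (nat_lit 8) (nat_lit 5) (nat_lit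 10) (nat_lit 4) (nat_lit 8) (nat_lit 4) (nat_lit 403) (nat_lit 255) (nat_lit 122)))) (XT.nd (nat_lit 156) (nat_lit 0) (nat_lit 0) (XT.nd (nat_lit 78) (nat_lit 0) (nat_lit 0) (XT.lf (nat_lit 0) (nat_lit 2284610939) (nat_lit 76) (nat_lit 61252967882) (nat_lit 76) (nat_lit 26815332972) (nat_lit 7) (nat_lit 4) (nat_lit 8) (nat_lit 5) (nat_lit 8) (nat_lit 4) (nat_lit 404) (nat_lit 255) (nat_lit 121)) (XT.lf (nat_lit 0) (nat_lit 13578141152) (nat_lit 76) (nat_lit 56879280277) (nat_lit 76) (nat_lit 22422170219) (nat_lit 7) (nat_lit 4) (nat_lit 8) (nat_lit 5) (nat_lit 8) (nat_lit 4) (nat_lit 405) (nat_lit 255) (nat_lit 120))) (XT.nd (nat_lit 78) (nat_lit 0) (nat_lit 0) (XT.lf (nat_lit 0) (nat_lit 25198648578) (nat_lit 76) (nat_lit 52379817544) (nat_lit 76) (nat_lit 17903799576) (nat_lit 7) (nat_lit 4) (nat_lit 8) (nat_lit 5) (nat_lit 8) (nat_lit 4) (nat_lit 406) (nat_lit 255) (nat_lit 119)) (XT.lf (nat_lit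 0) (nat_lit 37156287059) (nat_lit 76) (nat_lit 47750648113) (nat_lit 76) (nat_lit 13256272951) (nat_lit 7) (nat_lit 4) (nat_lit 8) (nat_lit 5) (nat_lit 8) (nat_lit 4) (nat_lit 407) (nat_lit 255) (nat_lit 118))))))) (XT.nd (nat_lit 30654) (nat_lit 0) (nat_lit 11552) (XT.nd (nat_lit 30108) (nat_lit 0) (nat_lit 18620) (XT.nd (nat_lit 29874) (nat_lit 0) (nat_lit 21432) (XT.nd (nat_lit 29718) (nat_lit 0) (nat_lit 22344) (XT.lf (nat_lit 0) (nat_lit 49461505015) (nat_lit 76) (nat_lit 42987727079) (nat_lit 76) (nat_lit 8475529399) (nat_lit 7) (nat_lit 4) (nat_lit 8) (nat_lit 5) (nat_lit 8) (nat_lit 4) (nat_lit 408) (nat_lit 255) (nat_lit 117)) (XT.nd (nat_lit 78) (nat_lit 380) (nat_lit 0) (XT.lf (nat_lit 0) (nat_lit 3232514700) (nat_lit 228) (nat_lit 12273472) (nat_lit 228) (nat_lit 12273472) (nat_lit 306) (nat_lit 4) (nat_lit 309) (nat_lit 5) (nat_lit 309) (nat_lit 4) (nat_lit 268) (nat_lit 256) (nat_lit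 256)) (XT.lf (nat_lit 0) (nat_lit 2947101077) (nat_lit 380) (nat_lit 3048533802) (nat_lit 0) (nat_lit 537482077) (nat_lit 301) (nat_lit 5) (nat_lit 306) (nat_lit 4) (nat_lit 301) (nat_lit 4) (nat_lit 269) (nat_lit 256) (nat_lit 255)))) (XT.nd (nat_lit 78) (nat_lit 532) (nat_lit 0) (XT.lf (nat_lit 0) (nat_lit 510352681) (nat_lit 380) (nat_lit 5397307751) (nat_lit 380) (nat_lit 648252828) (nat_lit 296) (nat_lit 4) (nat_lit 301) (nat_lit 5) (nat_lit 301) (nat_lit 4) (nat_lit 270) (nat_lit 256) (nat_lit 254)) (XT.nd (nat_lit 78) (nat_lit 456) (nat_lit 0) (XT.lf (nat_lit 0) (nat_lit 2258072758) (nat_lit 456) (nat_lit 2436464236) (nat_lit 76) (nat_lit 1886599574) (nat_lit 295) (nat_lit 5) (nat_lit 301) (nat_lit 5) (nat_lit 296) (nat_lit 4) (nat_lit 271) (nat_lit 256) (nat_lit 253)) (XT.lf (nat_lit 0) (nat_lit 1227238510) (nat_lit 456) (nat_lit 3921891133) (nat_lit 532) (nat_lit 1460704007) (nat_lit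 289) (nat_lit 5) (nat_lit 295) (nat_lit 5) (nat_lit 296) (nat_lit 4) (nat_lit 272) (nat_lit 256) (nat_lit 252))))) (XT.nd (nat_lit 234) (nat_lit 2128) (nat_lit 0) (XT.nd (nat_lit 78) (nat_lit 608) (nat_lit 0) (XT.lf (nat_lit 0) (nat_lit 1383195558) (nat_lit 532) (nat_lit 1675103613) (nat_lit 76) (nat_lit 3583136358) (nat_lit 288) (nat_lit 5) (nat_lit 295) (nat_lit 5) (nat_lit 289) (nat_lit 5) (nat_lit 273) (nat_lit 256) (nat_lit 251)) (XT.nd (nat_lit 78) (nat_lit 76) (nat_lit 0) (XT.lf (nat_lit 0) (nat_lit 2099532375) (nat_lit 532) (nat_lit 2106468907) (nat_lit 608) (nat_lit 2470069385) (nat_lit 281) (nat_lit 5) (nat_lit 288) (nat_lit 5) (nat_lit 289) (nat_lit 5) (nat_lit 274) (nat_lit 256) (nat_lit 250)) (XT.lf (nat_lit 0) (nat_lit 314776750) (nat_lit 608) (nat_lit 765526978) (nat_lit 76) (nat_lit 5633894772) (nat_lit 280) (nat_lit 5) (nat_lit 288) (nat_lit 5) (nat_lit 281) (nat_lit 5) (nat_lit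 275) (nat_lit 256) (nat_lit 249)))) (XT.nd (nat_lit 156) (nat_lit 836) (nat_lit 0) (XT.nd (nat_lit 78) (nat_lit 684) (nat_lit 0) (XT.lf (nat_lit 0) (nat_lit 3070706404) (nat_lit 684) (nat_lit 3628909656) (nat_lit 76) (nat_lit 55194804) (nat_lit 272) (nat_lit 5) (nat_lit 281) (nat_lit 5) (nat_lit 273) (nat_lit 5) (nat_lit 276) (nat_lit 256) (nat_lit 248)) (XT.lf (nat_lit 0) (nat_lit 275599593) (nat_lit 684) (nat_lit 5563724072) (nat_lit 760) (nat_lit 959602011) (nat_lit 263) (nat_lit 5) (nat_lit 272) (nat_lit 5) (nat_lit 273) (nat_lit 5) (nat_lit 277) (nat_lit 256) (nat_lit 247))) (XT.nd (nat_lit 78) (nat_lit 760) (nat_lit 0) (XT.lf (nat_lit 0) (nat_lit 1757373678) (nat_lit 760) (nat_lit 2563366244) (nat_lit 76) (nat_lit 2524862086) (nat_lit 262) (nat_lit 5) (nat_lit 272) (nat_lit 5) (nat_lit 263) (nat_lit 5) (nat_lit 278) (nat_lit 256) (nat_lit 246)) (XT.lf (nat_lit 0) (nat_lit 1462962290) (nat_lit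 760) (nat_lit 3000065377) (nat_lit 836) (nat_lit 2432740974) (nat_lit 252) (nat_lit 5) (nat_lit 262) (nat_lit 5) (nat_lit 263) (nat_lit 5) (nat_lit 279) (nat_lit 256) (nat_lit 245)))))) (XT.nd (nat_lit 546) (nat_lit 3040) (nat_lit 0) (XT.nd (nat_lit 234) (nat_lit 3116) (nat_lit 0) (XT.nd (nat_lit 78) (nat_lit 836) (nat_lit 0) (XT.lf (nat_lit 0) (nat_lit 235906156) (nat_lit 836) (nat_lit 1359861230) (nat_lit 76) (nat_lit 5353562828) (nat_lit 251) (nat_lit 5) (nat_lit 262) (nat_lit 5) (nat_lit 252) (nat_lit 5) (nat_lit 280) (nat_lit 256) (nat_lit 244)) (XT.nd (nat_lit 78) (nat_lit 0) (nat_lit 0) (XT.lf (nat_lit 0) (nat_lit 2795184739) (nat_lit 836) (nat_lit 83182878) (nat_lit 912) (nat_lit 4127283310) (nat_lit 240) (nat_lit 5) (nat_lit 251) (nat_lit 5) (nat_lit 252) (nat_lit 5) (nat_lit 281) (nat_lit 256) (nat_lit 243)) (XT.lf (nat_lit 0) (nat_lit 5545831319) (nat_lit 912) (nat_lit 47401274) (nat_lit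 76) (nat_lit 1472206725) (nat_lit 240) (nat_lit 5) (nat_lit 252) (nat_lit 5) (nat_lit 241) (nat_lit 5) (nat_lit 282) (nat_lit 256) (nat_lit 242)))) (XT.nd (nat_lit 156) (nat_lit 1140) (nat_lit 0) (XT.nd (nat_lit 78) (nat_lit 988) (nat_lit 0) (XT.lf (nat_lit 0) (nat_lit 1104797947) (nat_lit 988) (nat_lit 2886919579) (nat_lit 76) (nat_lit 3136271032) (nat_lit 227) (nat_lit 5) (nat_lit 240) (nat_lit 5) (nat_lit 228) (nat_lit 5) (nat_lit 283) (nat_lit 256) (nat_lit 241)) (XT.lf (nat_lit 0) (nat_lit 1407678754) (nat_lit 988) (nat_lit 2304554572) (nat_lit 1064) (nat_lit 3481821572) (nat_lit 214) (nat_lit 5) (nat_lit 227) (nat_lit 5) (nat_lit 228) (nat_lit 5) (nat_lit 284) (nat_lit 256) (nat_lit 240))) (XT.nd (nat_lit 78) (nat_lit 1140) (nat_lit 0) (XT.lf (nat_lit 0) (nat_lit 5819490220) (nat_lit 988) (nat_lit 530004237) (nat_lit 1064) (nat_lit 914193885) (nat_lit 214) (nat_lit 5) (nat_lit 227) (nat_lit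 5) (nat_lit 228) (nat_lit 5) (nat_lit 285) (nat_lit 256) (nat_lit 239)) (XT.lf (nat_lit 0) (nat_lit 1662348423) (nat_lit 1140) (nat_lit 4349673723) (nat_lit 76) (nat_lit 1324045559) (nat_lit 199) (nat_lit 5) (nat_lit 214) (nat_lit 5) (nat_lit 200) (nat_lit 5) (nat_lit 286) (nat_lit 256) (nat_lit 238))))) (XT.nd (nat_lit 234) (nat_lit 1216) (nat_lit 0) (XT.nd (nat_lit 78) (nat_lit 684) (nat_lit 0) (XT.lf (nat_lit 0) (nat_lit 84431181) (nat_lit 1140) (nat_lit 4159601223) (nat_lit 1216) (nat_lit 3168049799) (nat_lit 184) (nat_lit 5) (nat_lit 199) (nat_lit 5) (nat_lit 200) (nat_lit 5) (nat_lit 287) (nat_lit 256) (nat_lit 237)) (XT.nd (nat_lit 78) (nat_lit 684) (nat_lit 0) (XT.lf (nat_lit 0) (nat_lit 4669329603) (nat_lit 1140) (nat_lit 2204678725) (nat_lit 1216) (nat_lit 617361904) (nat_lit 184) (nat_lit 5) (nat_lit 199) (nat_lit 5) (nat_lit 200) (nat_lit 5) (nat_lit 288) (nat_lit 256) (nat_lit 236))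 (XT.lf (nat_lit 0) (nat_lit 1762965887) (nat_lit 608) (nat_lit 152839784) (nat_lit 684) (nat_lit 5658407829) (nat_lit 175) (nat_lit 5) (nat_lit 183) (nat_lit 5) (nat_lit 184) (nat_lit 5) (nat_lit 289) (nat_lit 256) (nat_lit 235)))) (XT.nd (nat_lit 156) (nat_lit 608) (nat_lit 0) (XT.nd (nat_lit 78) (nat_lit 608) (nat_lit 0) (XT.lf (nat_lit 0) (nat_lit 4489834650) (nat_lit 684) (nat_lit 1212936381) (nat_lit 76) (nat_lit 1957377717) (nat_lit 175) (nat_lit 5) (nat_lit 184) (nat_lit 5) (nat_lit 176) (nat_lit 5) (nat_lit 290) (nat_lit 256) (nat_lit 234)) (XT.lf (nat_lit 0) (nat_lit 3520231274) (nat_lit 608) (nat_lit 3587903612) (nat_lit 684) (nat_lit 641620799) (nat_lit 167) (nat_lit 5) (nat_lit 175) (nat_lit 5) (nat_lit 176) (nat_lit 5) (nat_lit 291) (nat_lit 256) (nat_lit 233))) (XT.nd (nat_lit 78) (nat_lit 0) (nat_lit 0) (XT.lf (nat_lit 0) (nat_lit 498277130) (nat_lit 532) (nat_lit 1375767293) (nat_lit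 608) (nat_lit 5969056994) (nat_lit 159) (nat_lit 5) (nat_lit 166) (nat_lit 5) (nat_lit 167) (nat_lit 5) (nat_lit 292) (nat_lit 256) (nat_lit 232)) (XT.lf (nat_lit 0) (nat_lit 4437609464) (nat_lit 608) (nat_lit 2571191927) (nat_lit 76) (nat_lit 930791998) (nat_lit 159) (nat_lit 5) (nat_lit 167) (nat_lit 5) (nat_lit 160) (nat_lit 5) (nat_lit 293) (nat_lit 256) (nat_lit 231))))))))
noncomputable def xc94 : XT := (XT.nd (nat_lit 2028) (nat_lit 3116) (nat_lit 0) (XT.nd (nat_lit 1014) (nat_lit 2508) (nat_lit 0) (XT.nd (nat_lit 468) (nat_lit 1748) (nat_lit 0) (XT.nd (nat_lit 234) (nat_lit 1064) (nat_lit 0) (XT.nd (nat_lit 78) (nat_lit 532) (nat_lit 0) (XT.lf (nat_lit 0) (nat_lit 2306763196) (nat_lit 532) (nat_lit 4742565588) (nat_lit 608) (nat_lit 990607335) (nat_lit 152) (nat_lit 5) (nat_lit 159) (nat_lit 5) (nat_lit 160) (nat_lit 5) (nat_lit 294) (nat_lit 256) (nat_lit 230)) (XT.nd (nat_lit 78) (nat_lit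 456) (nat_lit 0) (XT.lf (nat_lit 0) (nat_lit 1527132687) (nat_lit 608) (nat_lit 845298030) (nat_lit 76) (nat_lit 5771621146) (nat_lit 151) (nat_lit 5) (nat_lit 159) (nat_lit 5) (nat_lit 152) (nat_lit 5) (nat_lit 295) (nat_lit 256) (nat_lit 229)) (XT.lf (nat_lit 0) (nat_lit 4079699611) (nat_lit 532) (nat_lit 4060504896) (nat_lit 76) (nat_lit 111501675) (nat_lit 145) (nat_lit 5) (nat_lit 152) (nat_lit 5) (nat_lit 146) (nat_lit 5) (nat_lit 296) (nat_lit 256) (nat_lit 228)))) (XT.nd (nat_lit 78) (nat_lit 532) (nat_lit 0) (XT.lf (nat_lit 0) (nat_lit 958871522) (nat_lit 532) (nat_lit 5730198226) (nat_lit 608) (nat_lit 1674196598) (nat_lit 138) (nat_lit 5) (nat_lit 145) (nat_lit 5) (nat_lit 146) (nat_lit 5) (nat_lit 297) (nat_lit 256) (nat_lit 227)) (XT.nd (nat_lit 78) (nat_lit 456) (nat_lit 0) (XT.lf (nat_lit 0) (nat_lit 861761924) (nat_lit 608) (nat_lit 2344574571) (nat_lit 76) (nat_lit 5272233490)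 (nat_lit 137) (nat_lit 5) (nat_lit 145) (nat_lit 5) (nat_lit 138) (nat_lit 5) (nat_lit 298) (nat_lit 256) (nat_lit 226)) (XT.lf (nat_lit 0) (nat_lit 2837232999) (nat_lit 456) (nat_lit 571295595) (nat_lit 532) (nat_lit 5189331437) (nat_lit 131) (nat_lit 5) (nat_lit 137) (nat_lit 5) (nat_lit 138) (nat_lit 5) (nat_lit 299) (nat_lit 256) (nat_lit 225))))) (XT.nd (nat_lit 234) (nat_lit 836) (nat_lit 0) (XT.nd (nat_lit 78) (nat_lit 912) (nat_lit 0) (XT.lf (nat_lit 0) (nat_lit 6018277459) (nat_lit 532) (nat_lit 587929420) (nat_lit 76) (nat_lit 2114998270) (nat_lit 131) (nat_lit 5) (nat_lit 138) (nat_lit 5) (nat_lit 132) (nat_lit 5) (nat_lit 300) (nat_lit 256) (nat_lit 224)) (XT.nd (nat_lit 78) (nat_lit 456) (nat_lit 0) (XT.lf (nat_lit 0) (nat_lit 4759562227) (nat_lit 456) (nat_lit 3941923326) (nat_lit 532) (nat_lit 146981662) (nat_lit 125) (nat_lit 5) (nat_lit 131) (nat_lit 5) (nat_lit 132) (nat_lit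 5) (nat_lit 301) (nat_lit 256) (nat_lit 223)) (XT.lf (nat_lit 0) (nat_lit 1232129406) (nat_lit 380) (nat_lit 1166987184) (nat_lit 456) (nat_lit 6580921905) (nat_lit 119) (nat_lit 5) (nat_lit 124) (nat_lit 5) (nat_lit 125) (nat_lit 5) (nat_lit 302) (nat_lit 256) (nat_lit 222)))) (XT.nd (nat_lit 156) (nat_lit 456) (nat_lit 0) (XT.nd (nat_lit 78) (nat_lit 380) (nat_lit 0) (XT.lf (nat_lit 0) (nat_lit 5021594927) (nat_lit 456) (nat_lit 2404872177) (nat_lit 76) (nat_lit 1689023132) (nat_lit 119) (nat_lit 5) (nat_lit 125) (nat_lit 5) (nat_lit 120) (nat_lit 5) (nat_lit 303) (nat_lit 256) (nat_lit 221)) (XT.lf (nat_lit 0) (nat_lit 3079967389) (nat_lit 380) (nat_lit 4630538916) (nat_lit 456) (nat_lit 1544930077) (nat_lit 114) (nat_lit 5) (nat_lit 119) (nat_lit 5) (nat_lit 120) (nat_lit 5) (nat_lit 304) (nat_lit 256) (nat_lit 220))) (XT.nd (nat_lit 78) (nat_lit 380) (nat_lit 0) (XT.lf (nat_lit 0) (nat_lit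 1030879480) (nat_lit 456) (nat_lit 698323853) (nat_lit 76) (nat_lit 7670982151) (nat_lit 113) (nat_lit 5) (nat_lit 119) (nat_lit 5) (nat_lit 114) (nat_lit 5) (nat_lit 305) (nat_lit 256) (nat_lit 219)) (XT.lf (nat_lit 0) (nat_lit 3661654717) (nat_lit 456) (nat_lit 4602504131) (nat_lit 76) (nat_lit 1284455247) (nat_lit 108) (nat_lit 5) (nat_lit 114) (nat_lit 5) (nat_lit 109) (nat_lit 5) (nat_lit 306) (nat_lit 256) (nat_lit 218)))))) (XT.nd (nat_lit 468) (nat_lit 1368) (nat_lit 0) (XT.nd (nat_lit 234) (nat_lit 380) (nat_lit 0) (XT.nd (nat_lit 78) (nat_lit 380) (nat_lit 0) (XT.lf (nat_lit 0) (nat_lit 1009083112) (nat_lit 380) (nat_lit 5345432841) (nat_lit 456) (nat_lit 3347541249) (nat_lit 103) (nat_lit 5) (nat_lit 108) (nat_lit 5) (nat_lit 109) (nat_lit 5) (nat_lit 307) (nat_lit 256) (nat_lit 217)) (XT.nd (nat_lit 78) (nat_lit 380) (nat_lit 0) (XT.lf (nat_lit 0) (nat_lit 6817690211) (nat_lit 380)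 (nat_lit 2307017266) (nat_lit 456) (nat_lit 735554664) (nat_lit 103) (nat_lit 5) (nat_lit 108) (nat_lit 5) (nat_lit 109) (nat_lit 5) (nat_lit 308) (nat_lit 256) (nat_lit 216)) (XT.lf (nat_lit 0) (nat_lit 1902248938) (nat_lit 380) (nat_lit 7284207993) (nat_lit 76) (nat_lit 836676229) (nat_lit 98) (nat_lit 5) (nat_lit 103) (nat_lit 5) (nat_lit 99) (nat_lit 5) (nat_lit 309) (nat_lit 256) (nat_lit 215)))) (XT.nd (nat_lit 78) (nat_lit 380) (nat_lit 0) (XT.lf (nat_lit 0) (nat_lit 4609920406) (nat_lit 380) (nat_lit 1529656819) (nat_lit 76) (nat_lit 4050979290) (nat_lit 98) (nat_lit 5) (nat_lit 103) (nat_lit 5) (nat_lit 99) (nat_lit 5) (nat_lit 310) (nat_lit 256) (nat_lit 214)) (XT.nd (nat_lit 78) (nat_lit 0) (nat_lit 0) (XT.lf (nat_lit 0) (nat_lit 4420196020) (nat_lit 380) (nat_lit 2974171657) (nat_lit 456) (nat_lit 2968817276) (nat_lit 93) (nat_lit 5) (nat_lit 98) (nat_lit 5) (nat_lit 99) (nat_lit 5)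 (nat_lit 311) (nat_lit 256) (nat_lit 213)) (XT.lf (nat_lit 0) (nat_lit 10234355669) (nat_lit 456) (nat_lit 27768821) (nat_lit 76) (nat_lit 279754872) (nat_lit 93) (nat_lit 5) (nat_lit 99) (nat_lit 5) (nat_lit 94) (nat_lit 5) (nat_lit 312) (nat_lit 256) (nat_lit 212))))) (XT.nd (nat_lit 234) (nat_lit 684) (nat_lit 0) (XT.nd (nat_lit 78) (nat_lit 304) (nat_lit 0) (XT.lf (nat_lit 0) (nat_lit 2429514581) (nat_lit 380) (nat_lit 4656537851) (nat_lit 76) (nat_lit 3637923157) (nat_lit 88) (nat_lit 5) (nat_lit 93) (nat_lit 5) (nat_lit 89) (nat_lit 5) (nat_lit 313) (nat_lit 256) (nat_lit 211)) (XT.nd (nat_lit 78) (nat_lit 0) (nat_lit 0) (XT.lf (nat_lit 0) (nat_lit 1396049272) (nat_lit 304) (nat_lit 3815377957) (nat_lit 380) (nat_lit 5700991123) (nat_lit 84) (nat_lit 5) (nat_lit 88) (nat_lit 5) (nat_lit 89) (nat_lit 5) (nat_lit 314) (nat_lit 256) (nat_lit 210)) (XT.lf (nat_lit 0) (nat_lit 7663594512) (nat_lit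 304) (nat_lit 416172886) (nat_lit 380) (nat_lit 3026699951) (nat_lit 84) (nat_lit 5) (nat_lit 88) (nat_lit 5) (nat_lit 89) (nat_lit 5) (nat_lit 315) (nat_lit 256) (nat_lit 209)))) (XT.nd (nat_lit 156) (nat_lit 304) (nat_lit 0) (XT.nd (nat_lit 78) (nat_lit 76) (nat_lit 0) (XT.lf (nat_lit 0) (nat_lit 2775919824) (nat_lit 304) (nat_lit 8271639881) (nat_lit 380) (nat_lit 258416884) (nat_lit 80) (nat_lit 5) (nat_lit 84) (nat_lit 5) (nat_lit 85) (nat_lit 5) (nat_lit 316) (nat_lit 256) (nat_lit 208)) (XT.lf (nat_lit 0) (nat_lit 2538820248) (nat_lit 380) (nat_lit 2349674128) (nat_lit 76) (nat_lit 6622372397) (nat_lit 79) (nat_lit 5) (nat_lit 84) (nat_lit 5) (nat_lit 80) (nat_lit 5) (nat_lit 317) (nat_lit 256) (nat_lit 207))) (XT.nd (nat_lit 78) (nat_lit 0) (nat_lit 0) (XT.lf (nat_lit 0) (nat_lit 4032335764) (nat_lit 304) (nat_lit 1379722267) (nat_lit 380) (nat_lit 6309887916) (nat_lit 75) (nat_lit 5)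 (nat_lit 79) (nat_lit 5) (nat_lit 80) (nat_lit 5) (nat_lit 318) (nat_lit 256) (nat_lit 206)) (XT.lf (nat_lit 0) (nat_lit 8375909129) (nat_lit 380) (nat_lit 1366793924) (nat_lit 76) (nat_lit 2196558236) (nat_lit 75) (nat_lit 5) (nat_lit 80) (nat_lit 5) (nat_lit 76) (nat_lit 5) (nat_lit 319) (nat_lit 256) (nat_lit 205))))))) (XT.nd (nat_lit 1014) (nat_lit 1292) (nat_lit 0) (XT.nd (nat_lit 468) (nat_lit 684) (nat_lit 0) (XT.nd (nat_lit 234) (nat_lit 532) (nat_lit 0) (XT.nd (nat_lit 78) (nat_lit 380) (nat_lit 0) (XT.lf (nat_lit 0) (nat_lit 5174368517) (nat_lit 228) (nat_lit 6277878484) (nat_lit 304) (nat_lit 710177173) (nat_lit 72) (nat_lit 5) (nat_lit 75) (nat_lit 5) (nat_lit 76) (nat_lit 5) (nat_lit 320) (nat_lit 256) (nat_lit 204)) (XT.nd (nat_lit 78) (nat_lit 304) (nat_lit 0) (XT.lf (nat_lit 0) (nat_lit 2159395115) (nat_lit 304) (nat_lit 532538933) (nat_lit 76) (nat_lit 9700509723) (nat_lit 71)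 (nat_lit 5) (nat_lit 75) (nat_lit 5) (nat_lit 72) (nat_lit 5) (nat_lit 321) (nat_lit 256) (nat_lit 203)) (XT.lf (nat_lit 0) (nat_lit 5131729813) (nat_lit 380) (nat_lit 6465778371) (nat_lit 76) (nat_lit 1030748587) (nat_lit 67) (nat_lit 5) (nat_lit 72) (nat_lit 5) (nat_lit 68) (nat_lit 5) (nat_lit 322) (nat_lit 256) (nat_lit 202)))) (XT.nd (nat_lit 78) (nat_lit 304) (nat_lit 0) (XT.lf (nat_lit 0) (nat_lit 116233439) (nat_lit 228) (nat_lit 8072105365) (nat_lit 304) (nat_lit 4682983522) (nat_lit 64) (nat_lit 5) (nat_lit 67) (nat_lit 5) (nat_lit 68) (nat_lit 5) (nat_lit 323) (nat_lit 256) (nat_lit 201)) (XT.nd (nat_lit 78) (nat_lit 304) (nat_lit 0) (XT.lf (nat_lit 0) (nat_lit 6971203928) (nat_lit 228) (nat_lit 4393198385) (nat_lit 304) (nat_lit 1756475230) (nat_lit 64) (nat_lit 5) (nat_lit 67) (nat_lit 5) (nat_lit 68) (nat_lit 5) (nat_lit 324) (nat_lit 256) (nat_lit 200)) (XT.lf (nat_lit 0) (nat_lit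 597325072) (nat_lit 228) (nat_lit 604868424) (nat_lit 304) (nat_lit 12176324530) (nat_lit 60) (nat_lit 5) (nat_lit 63) (nat_lit 5) (nat_lit 64) (nat_lit 5) (nat_lit 325) (nat_lit 256) (nat_lit 199))))) (XT.nd (nat_lit 234) (nat_lit 456) (nat_lit 0) (XT.nd (nat_lit 78) (nat_lit 228) (nat_lit 0) (XT.lf (nat_lit 0) (nat_lit 4272248163) (nat_lit 304) (nat_lit 6075452921) (nat_lit 76) (nat_lit 3293954838) (nat_lit 60) (nat_lit 5) (nat_lit 64) (nat_lit 5) (nat_lit 61) (nat_lit 5) (nat_lit 326) (nat_lit 256) (nat_lit 198)) (XT.nd (nat_lit 78) (nat_lit 0) (nat_lit 0) (XT.lf (nat_lit 0) (nat_lit 785928516) (nat_lit 228) (nat_lit 6626603017) (nat_lit 304) (nat_lit 6500839605) (nat_lit 57) (nat_lit 5) (nat_lit 60) (nat_lit 5) (nat_lit 61) (nat_lit 5) (nat_lit 327) (nat_lit 256) (nat_lit 197)) (XT.lf (nat_lit 0) (nat_lit 7923351952) (nat_lit 228) (nat_lit 2750114254) (nat_lit 304) (nat_lit 3519004528) (nat_lit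 57) (nat_lit 5) (nat_lit 60) (nat_lit 5) (nat_lit 61) (nat_lit 5) (nat_lit 328) (nat_lit 256) (nat_lit 196)))) (XT.nd (nat_lit 156) (nat_lit 152) (nat_lit 0) (XT.nd (nat_lit 78) (nat_lit 76) (nat_lit 0) (XT.lf (nat_lit 0) (nat_lit 743907437) (nat_lit 228) (nat_lit 13273345671) (nat_lit 304) (nat_lit 463164930) (nat_lit 54) (nat_lit 5) (nat_lit 57) (nat_lit 5) (nat_lit 58) (nat_lit 5) (nat_lit 329) (nat_lit 256) (nat_lit 195)) (XT.lf (nat_lit 0) (nat_lit 2689183206) (nat_lit 304) (nat_lit 6786720880) (nat_lit 76) (nat_lit 5298633108) (nat_lit 53) (nat_lit 5) (nat_lit 57) (nat_lit 5) (nat_lit 54) (nat_lit 5) (nat_lit 330) (nat_lit 256) (nat_lit 194))) (XT.nd (nat_lit 78) (nat_lit 0) (nat_lit 0) (XT.lf (nat_lit 0) (nat_lit 321015400) (nat_lit 152) (nat_lit 5575905000) (nat_lit 228) (nat_lit 9181341405) (nat_lit 51) (nat_lit 5) (nat_lit 53) (nat_lit 5) (nat_lit 54) (nat_lit 5) (nat_lit 331) (nat_lit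 256) (nat_lit 193)) (XT.lf (nat_lit 0) (nat_lit 7729391402) (nat_lit 152) (nat_lit 1507535695) (nat_lit 228) (nat_lit 6153112541) (nat_lit 51) (nat_lit 5) (nat_lit 53) (nat_lit 5) (nat_lit 54) (nat_lit 5) (nat_lit 332) (nat_lit 256) (nat_lit 192)))))) (XT.nd (nat_lit 546) (nat_lit 608) (nat_lit 0) (XT.nd (nat_lit 234) (nat_lit 380) (nat_lit 0) (XT.nd (nat_lit 78) (nat_lit 304) (nat_lit 0) (XT.lf (nat_lit 0) (nat_lit 12671195444) (nat_lit 228) (nat_lit 427937979) (nat_lit 76) (nat_lit 2612237490) (nat_lit 51) (nat_lit 5) (nat_lit 54) (nat_lit 5) (nat_lit 52) (nat_lit 5) (nat_lit 333) (nat_lit 256) (nat_lit 191)) (XT.nd (nat_lit 78) (nat_lit 0) (nat_lit 0) (XT.lf (nat_lit 0) (nat_lit 215735889) (nat_lit 304) (nat_lit 8947127827) (nat_lit 76) (nat_lit 6877866334) (nat_lit 47) (nat_lit 5) (nat_lit 51) (nat_lit 5) (nat_lit 48) (nat_lit 5) (nat_lit 334) (nat_lit 256) (nat_lit 190)) (XT.lf (nat_lit 0)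 (nat_lit 3481885111) (nat_lit 304) (nat_lit 1610079564) (nat_lit 76) (nat_lit 11287912398) (nat_lit 47) (nat_lit 5) (nat_lit 51) (nat_lit 5) (nat_lit 48) (nat_lit 5) (nat_lit 335) (nat_lit 256) (nat_lit 189)))) (XT.nd (nat_lit 156) (nat_lit 228) (nat_lit 0) (XT.nd (nat_lit 78) (nat_lit 0) (nat_lit 0) (XT.lf (nat_lit 0) (nat_lit 6016268879) (nat_lit 152) (nat_lit 857777054) (nat_lit 228) (nat_lit 9854331262) (nat_lit 45) (nat_lit 5) (nat_lit 47) (nat_lit 5) (nat_lit 48) (nat_lit 5) (nat_lit 336) (nat_lit 256) (nat_lit 188)) (XT.lf (nat_lit 0) (nat_lit 10388496349) (nat_lit 228) (nat_lit 3264732063) (nat_lit 76) (nat_lit 3433507098) (nat_lit 45) (nat_lit 5) (nat_lit 48) (nat_lit 5) (nat_lit 46) (nat_lit 5) (nat_lit 337) (nat_lit 256) (nat_lit 187))) (XT.nd (nat_lit 78) (nat_lit 0) (nat_lit 0) (XT.lf (nat_lit 0) (nat_lit 4437105890) (nat_lit 228) (nat_lit 9593708699) (nat_lit 304) (nat_lit 3424375338)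 (nat_lit 42) (nat_lit 5) (nat_lit 45) (nat_lit 5) (nat_lit 46) (nat_lit 5) (nat_lit 338) (nat_lit 256) (nat_lit 186)) (XT.lf (nat_lit 0) (nat_lit 12390333408) (nat_lit 228) (nat_lit 5396714045) (nat_lit 304) (nat_lit 47529018) (nat_lit 42) (nat_lit 5) (nat_lit 45) (nat_lit 5) (nat_lit 46) (nat_lit 5) (nat_lit 339) (nat_lit 256) (nat_lit 185))))) (XT.nd (nat_lit 234) (nat_lit 380) (nat_lit 0) (XT.nd (nat_lit 78) (nat_lit 0) (nat_lit 0) (XT.lf (nat_lit 0) (nat_lit 2323370993) (nat_lit 152) (nat_lit 1034854920) (nat_lit 228) (nat_lit 14866309790) (nat_lit 39) (nat_lit 5) (nat_lit 41) (nat_lit 5) (nat_lit 42) (nat_lit 5) (nat_lit 340) (nat_lit 256) (nat_lit 184)) (XT.nd (nat_lit 78) (nat_lit 0) (nat_lit 0) (XT.lf (nat_lit 0) (nat_lit 6926372045) (nat_lit 228) (nat_lit 8269202758) (nat_lit 76) (nat_lit 3428785910) (nat_lit 39) (nat_lit 5) (nat_lit 42) (nat_lit 5) (nat_lit 40) (nat_lit 5) (nat_lit 341)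 (nat_lit 256) (nat_lit 183)) (XT.lf (nat_lit 0) (nat_lit 10585026388) (nat_lit 228) (nat_lit 463207141) (nat_lit 76) (nat_lit 7988458885) (nat_lit 39) (nat_lit 5) (nat_lit 42) (nat_lit 5) (nat_lit 40) (nat_lit 5) (nat_lit 342) (nat_lit 256) (nat_lit 182)))) (XT.nd (nat_lit 156) (nat_lit 228) (nat_lit 0) (XT.nd (nat_lit 78) (nat_lit 0) (nat_lit 0) (XT.lf (nat_lit 0) (nat_lit 7683523796) (nat_lit 152) (nat_lit 6717773102) (nat_lit 228) (nat_lit 5058676867) (nat_lit 37) (nat_lit 5) (nat_lit 39) (nat_lit 5) (nat_lit 40) (nat_lit 5) (nat_lit 343) (nat_lit 256) (nat_lit 181)) (XT.lf (nat_lit 0) (nat_lit 16041199454) (nat_lit 152) (nat_lit 2269875819) (nat_lit 228) (nat_lit 1585522636) (nat_lit 37) (nat_lit 5) (nat_lit 39) (nat_lit 5) (nat_lit 40) (nat_lit 5) (nat_lit 344) (nat_lit 256) (nat_lit 180))) (XT.nd (nat_lit 78) (nat_lit 0) (nat_lit 0) (XT.lf (nat_lit 0) (nat_lit 1992031326) (nat_lit 228) (nat_lit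 16041580611) (nat_lit 76) (nat_lit 2310976346) (nat_lit 34) (nat_lit 5) (nat_lit 37) (nat_lit 5) (nat_lit 35) (nat_lit 5) (nat_lit 345) (nat_lit 256) (nat_lit 179)) (XT.lf (nat_lit 0) (nat_lit 5681832890) (nat_lit 228) (nat_lit 8100608698) (nat_lit 76) (nat_lit 7022015857) (nat_lit 34) (nat_lit 5) (nat_lit 37) (nat_lit 5) (nat_lit 35) (nat_lit 5) (nat_lit 346) (nat_lit 256) (nat_lit 178))))))))
noncomputable def xc95 : XT := (XT.nd (nat_lit 2106) (nat_lit 532) (nat_lit 0) (XT.nd (nat_lit 1014) (nat_lit 608) (nat_lit 0) (XT.nd (nat_lit 468) (nat_lit 456) (nat_lit 0) (XT.nd (nat_lit 234) (nat_lit 228) (nat_lit 0) (XT.nd (nat_lit 78) (nat_lit 0) (nat_lit 0) (XT.lf (nat_lit 0) (nat_lit 38173748) (nat_lit 152) (nat_lit 9420246915) (nat_lit 228) (nat_lit 11820432532) (nat_lit 32) (nat_lit 5) (nat_lit 34) (nat_lit 5) (nat_lit 35) (nat_lit 5) (nat_lit 347) (nat_lit 256) (nat_lit 177)) (XT.nd (nat_lit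 78) (nat_lit 0) (nat_lit 0) (XT.lf (nat_lit 0) (nat_lit 8546414238) (nat_lit 152) (nat_lit 4859732533) (nat_lit 228) (nat_lit 8359611720) (nat_lit 32) (nat_lit 5) (nat_lit 34) (nat_lit 5) (nat_lit 35) (nat_lit 5) (nat_lit 348) (nat_lit 256) (nat_lit 176)) (XT.lf (nat_lit 0) (nat_lit 17270329160) (nat_lit 152) (nat_lit 178713789) (nat_lit 228) (nat_lit 4818938365) (nat_lit 32) (nat_lit 5) (nat_lit 34) (nat_lit 5) (nat_lit 35) (nat_lit 5) (nat_lit 349) (nat_lit 256) (nat_lit 175)))) (XT.nd (nat_lit 78) (nat_lit 76) (nat_lit 0) (XT.lf (nat_lit 0) (nat_lit 3454514279) (nat_lit 152) (nat_lit 18213811041) (nat_lit 228) (nat_lit 1115304675) (nat_lit 30) (nat_lit 5) (nat_lit 32) (nat_lit 5) (nat_lit 33) (nat_lit 4) (nat_lit 350) (nat_lit 256) (nat_lit 174)) (XT.nd (nat_lit 78) (nat_lit 0) (nat_lit 0) (XT.lf (nat_lit 0) (nat_lit 2676819069) (nat_lit 228) (nat_lit 11117797728) (nat_lit 76) (nat_lit 9518462630)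 (nat_lit 29) (nat_lit 5) (nat_lit 32) (nat_lit 5) (nat_lit 30) (nat_lit 5) (nat_lit 351) (nat_lit 256) (nat_lit 173)) (XT.lf (nat_lit 0) (nat_lit 6538271758) (nat_lit 228) (nat_lit 2709084278) (nat_lit 76) (nat_lit 14611396696) (nat_lit 29) (nat_lit 5) (nat_lit 32) (nat_lit 5) (nat_lit 30) (nat_lit 5) (nat_lit 352) (nat_lit 256) (nat_lit 172))))) (XT.nd (nat_lit 234) (nat_lit 304) (nat_lit 0) (XT.nd (nat_lit 78) (nat_lit 0) (nat_lit 0) (XT.lf (nat_lit 0) (nat_lit 6032814995) (nat_lit 152) (nat_lit 4519367202) (nat_lit 228) (nat_lit 13867526412) (nat_lit 27) (nat_lit 5) (nat_lit 29) (nat_lit 5) (nat_lit 30) (nat_lit 5) (nat_lit 353) (nat_lit 256) (nat_lit 171)) (XT.nd (nat_lit 78) (nat_lit 0) (nat_lit 0) (XT.lf (nat_lit 0) (nat_lit 14696254146) (nat_lit 228) (nat_lit 9944740363) (nat_lit 76) (nat_lit 356216809) (nat_lit 27) (nat_lit 5) (nat_lit 30) (nat_lit 5) (nat_lit 28) (nat_lit 4) (nat_lit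 354) (nat_lit 256) (nat_lit 170)) (XT.lf (nat_lit 0) (nat_lit 18988761507) (nat_lit 228) (nat_lit 1329926014) (nat_lit 76) (nat_lit 5272638369) (nat_lit 27) (nat_lit 5) (nat_lit 30) (nat_lit 5) (nat_lit 28) (nat_lit 4) (nat_lit 355) (nat_lit 256) (nat_lit 169)))) (XT.nd (nat_lit 156) (nat_lit 152) (nat_lit 0) (XT.nd (nat_lit 78) (nat_lit 76) (nat_lit 0) (XT.lf (nat_lit 0) (nat_lit 7657954131) (nat_lit 76) (nat_lit 15805670900) (nat_lit 152) (nat_lit 2738041320) (nat_lit 26) (nat_lit 5) (nat_lit 27) (nat_lit 5) (nat_lit 28) (nat_lit 4) (nat_lit 356) (nat_lit 256) (nat_lit 168)) (XT.lf (nat_lit 0) (nat_lit 1211750858) (nat_lit 152) (nat_lit 9934135775) (nat_lit 76) (nat_lit 15684274096) (nat_lit 25) (nat_lit 5) (nat_lit 27) (nat_lit 5) (nat_lit 26) (nat_lit 5) (nat_lit 357) (nat_lit 256) (nat_lit 167))) (XT.nd (nat_lit 78) (nat_lit 152) (nat_lit 0) (XT.lf (nat_lit 0) (nat_lit 5205601824) (nat_lit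 152) (nat_lit 1127244131) (nat_lit 76) (nat_lit 21144441839) (nat_lit 25) (nat_lit 5) (nat_lit 27) (nat_lit 5) (nat_lit 26) (nat_lit 5) (nat_lit 358) (nat_lit 256) (nat_lit 166)) (XT.lf (nat_lit 0) (nat_lit 8068421753) (nat_lit 152) (nat_lit 1309567251) (nat_lit 228) (nat_lit 18764086825) (nat_lit 23) (nat_lit 5) (nat_lit 25) (nat_lit 5) (nat_lit 26) (nat_lit 5) (nat_lit 359) (nat_lit 256) (nat_lit 165)))))) (XT.nd (nat_lit 546) (nat_lit 304) (nat_lit 0) (XT.nd (nat_lit 234) (nat_lit 228) (nat_lit 0) (XT.nd (nat_lit 78) (nat_lit 76) (nat_lit 0) (XT.lf (nat_lit 0) (nat_lit 13705454241) (nat_lit 228) (nat_lit 11333647411) (nat_lit 76) (nat_lit 3786817183) (nat_lit 23) (nat_lit 5) (nat_lit 26) (nat_lit 5) (nat_lit 24) (nat_lit 4) (nat_lit 360) (nat_lit 256) (nat_lit 164)) (XT.nd (nat_lit 78) (nat_lit 76) (nat_lit 0) (XT.lf (nat_lit 0) (nat_lit 18157518876) (nat_lit 228) (nat_lit 2376432417) (nat_lit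 76) (nat_lit 8996490851) (nat_lit 23) (nat_lit 5) (nat_lit 26) (nat_lit 5) (nat_lit 24) (nat_lit 4) (nat_lit 361) (nat_lit 256) (nat_lit 163)) (XT.lf (nat_lit 0) (nat_lit 6954105607) (nat_lit 76) (nat_lit 15838226210) (nat_lit 152) (nat_lit 7462301777) (nat_lit 22) (nat_lit 5) (nat_lit 23) (nat_lit 5) (nat_lit 24) (nat_lit 4) (nat_lit 362) (nat_lit 256) (nat_lit 162)))) (XT.nd (nat_lit 156) (nat_lit 152) (nat_lit 0) (XT.nd (nat_lit 78) (nat_lit 76) (nat_lit 0) (XT.lf (nat_lit 0) (nat_lit 16582486075) (nat_lit 76) (nat_lit 10990258066) (nat_lit 152) (nat_lit 3427617798) (nat_lit 22) (nat_lit 5) (nat_lit 23) (nat_lit 5) (nat_lit 24) (nat_lit 4) (nat_lit 363) (nat_lit 256) (nat_lit 161)) (XT.lf (nat_lit 0) (nat_lit 696789340) (nat_lit 152) (nat_lit 5305982534) (nat_lit 76) (nat_lit 25766000924) (nat_lit 21) (nat_lit 5) (nat_lit 23) (nat_lit 5) (nat_lit 22) (nat_lit 5) (nat_lit 364) (nat_lit 256)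 (nat_lit 160))) (XT.nd (nat_lit 78) (nat_lit 0) (nat_lit 0) (XT.lf (nat_lit 0) (nat_lit 4095897913) (nat_lit 152) (nat_lit 802900286) (nat_lit 228) (nat_lit 27659743981) (nat_lit 19) (nat_lit 5) (nat_lit 21) (nat_lit 5) (nat_lit 22) (nat_lit 5) (nat_lit 365) (nat_lit 256) (nat_lit 159)) (XT.lf (nat_lit 0) (nat_lit 9308215339) (nat_lit 228) (nat_lit 19555539591) (nat_lit 76) (nat_lit 4505816202) (nat_lit 19) (nat_lit 5) (nat_lit 22) (nat_lit 5) (nat_lit 20) (nat_lit 4) (nat_lit 366) (nat_lit 256) (nat_lit 158))))) (XT.nd (nat_lit 234) (nat_lit 228) (nat_lit 0) (XT.nd (nat_lit 78) (nat_lit 76) (nat_lit 0) (XT.lf (nat_lit 0) (nat_lit 13841817502) (nat_lit 228) (nat_lit 10417761727) (nat_lit 76) (nat_lit 9945601378) (nat_lit 19) (nat_lit 5) (nat_lit 22) (nat_lit 5) (nat_lit 20) (nat_lit 4) (nat_lit 367) (nat_lit 256) (nat_lit 157)) (XT.nd (nat_lit 78) (nat_lit 76) (nat_lit 0) (XT.lf (nat_lit 0) (nat_lit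 18495848118) (nat_lit 228) (nat_lit 1033608242) (nat_lit 76) (nat_lit 15536875926) (nat_lit 19) (nat_lit 5) (nat_lit 22) (nat_lit 5) (nat_lit 20) (nat_lit 4) (nat_lit 368) (nat_lit 256) (nat_lit 156)) (XT.lf (nat_lit 0) (nat_lit 8776379383) (nat_lit 76) (nat_lit 14582358362) (nat_lit 152) (nat_lit 12592509972) (nat_lit 18) (nat_lit 5) (nat_lit 19) (nat_lit 5) (nat_lit 20) (nat_lit 4) (nat_lit 369) (nat_lit 256) (nat_lit 155)))) (XT.nd (nat_lit 156) (nat_lit 228) (nat_lit 0) (XT.nd (nat_lit 78) (nat_lit 0) (nat_lit 0) (XT.lf (nat_lit 0) (nat_lit 18875169564) (nat_lit 76) (nat_lit 9487840123) (nat_lit 152) (nat_lit 8499842211) (nat_lit 18) (nat_lit 5) (nat_lit 19) (nat_lit 5) (nat_lit 20) (nat_lit 4) (nat_lit 370) (nat_lit 256) (nat_lit 154)) (XT.lf (nat_lit 0) (nat_lit 29251015655) (nat_lit 76) (nat_lit 4251887540) (nat_lit 152) (nat_lit 4299342186) (nat_lit 18) (nat_lit 5) (nat_lit 19) (nat_lit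 5) (nat_lit 20) (nat_lit 4) (nat_lit 371) (nat_lit 256) (nat_lit 153))) (XT.nd (nat_lit 78) (nat_lit 0) (nat_lit 0) (XT.lf (nat_lit 0) (nat_lit 34590566) (nat_lit 228) (nat_lit 37615530887) (nat_lit 76) (nat_lit 1119458575) (nat_lit 15) (nat_lit 5) (nat_lit 18) (nat_lit 5) (nat_lit 16) (nat_lit 4) (nat_lit 372) (nat_lit 256) (nat_lit 152)) (XT.lf (nat_lit 0) (nat_lit 4527268313) (nat_lit 228) (nat_lit 28548599318) (nat_lit 76) (nat_lit 6685341336) (nat_lit 15) (nat_lit 5) (nat_lit 18) (nat_lit 5) (nat_lit 16) (nat_lit 4) (nat_lit 373) (nat_lit 256) (nat_lit 151))))))) (XT.nd (nat_lit 1014) (nat_lit 228) (nat_lit 0) (XT.nd (nat_lit 468) (nat_lit 228) (nat_lit 0) (XT.nd (nat_lit 234) (nat_lit 0) (nat_lit 0) (XT.nd (nat_lit 78) (nat_lit 76) (nat_lit 0) (XT.lf (nat_lit 0) (nat_lit 9140974962) (nat_lit 228) (nat_lit 19234429441) (nat_lit 76) (nat_lit 12407600226) (nat_lit 15) (nat_lit 5) (nat_lit 18)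 (nat_lit 5) (nat_lit 16) (nat_lit 4) (nat_lit 374) (nat_lit 256) (nat_lit 150)) (XT.nd (nat_lit 78) (nat_lit 76) (nat_lit 0) (XT.lf (nat_lit 0) (nat_lit 13879741906) (nat_lit 228) (nat_lit 9664882660) (nat_lit 76) (nat_lit 18291235279) (nat_lit 15) (nat_lit 5) (nat_lit 18) (nat_lit 5) (nat_lit 16) (nat_lit 4) (nat_lit 375) (nat_lit 256) (nat_lit 149)) (XT.lf (nat_lit 0) (nat_lit 171754308) (nat_lit 76) (nat_lit 18577606515) (nat_lit 152) (nat_lit 24171284232) (nat_lit 14) (nat_lit 5) (nat_lit 15) (nat_lit 5) (nat_lit 16) (nat_lit 4) (nat_lit 376) (nat_lit 256) (nat_lit 148)))) (XT.nd (nat_lit 78) (nat_lit 0) (nat_lit 0) (XT.lf (nat_lit 0) (nat_lit 10478492145) (nat_lit 76) (nat_lit 13371365787) (nat_lit 152) (nat_lit 20185577061) (nat_lit 14) (nat_lit 5) (nat_lit 15) (nat_lit 5) (nat_lit 16) (nat_lit 4) (nat_lit 377) (nat_lit 256) (nat_lit 147)) (XT.nd (nat_lit 78) (nat_lit 0) (nat_lit 0) (XT.lf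 (nat_lit 0) (nat_lit 21071986622) (nat_lit 76) (nat_lit 8018949604) (nat_lit 152) (nat_lit 16093110134) (nat_lit 14) (nat_lit 5) (nat_lit 15) (nat_lit 5) (nat_lit 16) (nat_lit 4) (nat_lit 378) (nat_lit 256) (nat_lit 146)) (XT.lf (nat_lit 0) (nat_lit 31961494190) (nat_lit 76) (nat_lit 2515681099) (nat_lit 152) (nat_lit 11890307510) (nat_lit 14) (nat_lit 5) (nat_lit 15) (nat_lit 5) (nat_lit 16) (nat_lit 4) (nat_lit 379) (nat_lit 256) (nat_lit 145))))) (XT.nd (nat_lit 234) (nat_lit 76) (nat_lit 0) (XT.nd (nat_lit 78) (nat_lit 152) (nat_lit 0) (XT.lf (nat_lit 0) (nat_lit 40043496369) (nat_lit 152) (nat_lit 4460463251) (nat_lit 0) (nat_lit 3081912312) (nat_lit 14) (nat_lit 5) (nat_lit 16) (nat_lit 4) (nat_lit 14) (nat_lit 4) (nat_lit 380) (nat_lit 256) (nat_lit 144)) (XT.nd (nat_lit 78) (nat_lit 76) (nat_lit 0) (XT.lf (nat_lit 0) (nat_lit 5851913632) (nat_lit 76) (nat_lit 39994586660) (nat_lit 76)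 (nat_lit 2992225970) (nat_lit 13) (nat_lit 4) (nat_lit 14) (nat_lit 5) (nat_lit 14) (nat_lit 4) (nat_lit 381) (nat_lit 256) (nat_lit 143)) (XT.lf (nat_lit 0) (nat_lit 1695404631) (nat_lit 152) (nat_lit 33600278253) (nat_lit 76) (nat_lit 14831977546) (nat_lit 12) (nat_lit 5) (nat_lit 14) (nat_lit 5) (nat_lit 13) (nat_lit 4) (nat_lit 382) (nat_lit 256) (nat_lit 142)))) (XT.nd (nat_lit 156) (nat_lit 76) (nat_lit 0) (XT.nd (nat_lit 78) (nat_lit 0) (nat_lit 0) (XT.lf (nat_lit 0) (nat_lit 6452409802) (nat_lit 152) (nat_lit 23981993644) (nat_lit 76) (nat_lit 21020307756) (nat_lit 12) (nat_lit 5) (nat_lit 14) (nat_lit 5) (nat_lit 13) (nat_lit 4) (nat_lit 383) (nat_lit 256) (nat_lit 141)) (XT.lf (nat_lit 0) (nat_lit 11341335254) (nat_lit 152) (nat_lit 14094791371) (nat_lit 76) (nat_lit 27385774404) (nat_lit 12) (nat_lit 5) (nat_lit 14) (nat_lit 5) (nat_lit 13) (nat_lit 4) (nat_lit 384) (nat_lit 256) (nat_lit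 140))) (XT.nd (nat_lit 78) (nat_lit 76) (nat_lit 0) (XT.lf (nat_lit 0) (nat_lit 16366452865) (nat_lit 152) (nat_lit 3930032133) (nat_lit 76) (nat_lit 33933939549) (nat_lit 12) (nat_lit 5) (nat_lit 14) (nat_lit 5) (nat_lit 13) (nat_lit 4) (nat_lit 385) (nat_lit 256) (nat_lit 139)) (XT.lf (nat_lit 0) (nat_lit 6650949888) (nat_lit 76) (nat_lit 14945136624) (nat_lit 152) (nat_lit 34083507998) (nat_lit 11) (nat_lit 5) (nat_lit 12) (nat_lit 5) (nat_lit 13) (nat_lit 4) (nat_lit 386) (nat_lit 256) (nat_lit 138)))))) (XT.nd (nat_lit 546) (nat_lit 152) (nat_lit 0) (XT.nd (nat_lit 234) (nat_lit 76) (nat_lit 0) (XT.nd (nat_lit 78) (nat_lit 0) (nat_lit 0) (XT.lf (nat_lit 0) (nat_lit 17611600606) (nat_lit 76) (nat_lit 9400643791) (nat_lit 152) (nat_lit 30159109631) (nat_lit 11) (nat_lit 5) (nat_lit 12) (nat_lit 5) (nat_lit 13) (nat_lit 4) (nat_lit 387) (nat_lit 256) (nat_lit 137)) (XT.nd (nat_lit 78) (nat_lit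 0) (nat_lit 0) (XT.lf (nat_lit 0) (nat_lit 28883281942) (nat_lit 76) (nat_lit 3697847416) (nat_lit 152) (nat_lit 26127033112) (nat_lit 11) (nat_lit 5) (nat_lit 12) (nat_lit 5) (nat_lit 13) (nat_lit 4) (nat_lit 388) (nat_lit 256) (nat_lit 136)) (XT.lf (nat_lit 0) (nat_lit 38328449817) (nat_lit 152) (nat_lit 19836362148) (nat_lit 0) (nat_lit 2125925441) (nat_lit 11) (nat_lit 5) (nat_lit 13) (nat_lit 4) (nat_lit 11) (nat_lit 4) (nat_lit 389) (nat_lit 256) (nat_lit 135)))) (XT.nd (nat_lit 156) (nat_lit 0) (nat_lit 0) (XT.nd (nat_lit 78) (nat_lit 76) (nat_lit 0) (XT.lf (nat_lit 0) (nat_lit 44275531940) (nat_lit 152) (nat_lit 9601774684) (nat_lit 0) (nat_lit 8042665919) (nat_lit 11) (nat_lit 5) (nat_lit 13) (nat_lit 4) (nat_lit 11) (nat_lit 4) (nat_lit 390) (nat_lit 256) (nat_lit 134)) (XT.lf (nat_lit 0) (nat_lit 941747563) (nat_lit 76) (nat_lit 49459331324) (nat_lit 76) (nat_lit 13197007396) (nat_lit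 10) (nat_lit 4) (nat_lit 11) (nat_lit 5) (nat_lit 11) (nat_lit 4) (nat_lit 391) (nat_lit 256) (nat_lit 133))) (XT.nd (nat_lit 78) (nat_lit 0) (nat_lit 0) (XT.lf (nat_lit 0) (nat_lit 11982084287) (nat_lit 76) (nat_lit 44816372047) (nat_lit 76) (nat_lit 8525448208) (nat_lit 10) (nat_lit 4) (nat_lit 11) (nat_lit 5) (nat_lit 11) (nat_lit 4) (nat_lit 392) (nat_lit 256) (nat_lit 132)) (XT.lf (nat_lit 0) (nat_lit 23337788238) (nat_lit 76) (nat_lit 40041330936) (nat_lit 76) (nat_lit 3722640193) (nat_lit 10) (nat_lit 4) (nat_lit 11) (nat_lit 5) (nat_lit 11) (nat_lit 4) (nat_lit 393) (nat_lit 256) (nat_lit 131))))) (XT.nd (nat_lit 234) (nat_lit 76) (nat_lit 0) (XT.nd (nat_lit 78) (nat_lit 0) (nat_lit 0) (XT.lf (nat_lit 0) (nat_lit 1191892282) (nat_lit 152) (nat_lit 33926107566) (nat_lit 76) (nat_lit 33814853820) (nat_lit 9) (nat_lit 5) (nat_lit 11) (nat_lit 5) (nat_lit 10) (nat_lit 4) (nat_lit 394) (nat_lit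 256) (nat_lit 130)) (XT.nd (nat_lit 78) (nat_lit 0) (nat_lit 0) (XT.lf (nat_lit 0) (nat_lit 6170815846) (nat_lit 152) (nat_lit 23845065702) (nat_lit 76) (nat_lit 40802142912) (nat_lit 9) (nat_lit 5) (nat_lit 11) (nat_lit 5) (nat_lit 10) (nat_lit 4) (nat_lit 395) (nat_lit 256) (nat_lit 129)) (XT.lf (nat_lit 0) (nat_lit 11291123129) (nat_lit 152) (nat_lit 13476252566) (nat_lit 76) (nat_lit 47992616812) (nat_lit 9) (nat_lit 5) (nat_lit 11) (nat_lit 5) (nat_lit 10) (nat_lit 4) (nat_lit 396) (nat_lit 256) (nat_lit 128)))) (XT.nd (nat_lit 156) (nat_lit 0) (nat_lit 0) (XT.nd (nat_lit 78) (nat_lit 76) (nat_lit 0) (XT.lf (nat_lit 0) (nat_lit 16557288189) (nat_lit 152) (nat_lit 2810608030) (nat_lit 76) (nat_lit 55392558458) (nat_lit 9) (nat_lit 5) (nat_lit 11) (nat_lit 5) (nat_lit 10) (nat_lit 4) (nat_lit 397) (nat_lit 256) (nat_lit 127)) (XT.lf (nat_lit 0) (nat_lit 8323611032) (nat_lit 76) (nat_lit 13730313135)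 (nat_lit 152) (nat_lit 54764834427) (nat_lit 8) (nat_lit 5) (nat_lit 9) (nat_lit 5) (nat_lit 10) (nat_lit 4) (nat_lit 398) (nat_lit 256) (nat_lit 126))) (XT.nd (nat_lit 78) (nat_lit 0) (nat_lit 0) (XT.lf (nat_lit 0) (nat_lit 19835788411) (nat_lit 76) (nat_lit 7900614438) (nat_lit 152) (nat_lit 51201782864) (nat_lit 8) (nat_lit 5) (nat_lit 9) (nat_lit 5) (nat_lit 10) (nat_lit 4) (nat_lit 399) (nat_lit 256) (nat_lit 125)) (XT.lf (nat_lit 0) (nat_lit 31680046678) (nat_lit 76) (nat_lit 1902087846) (nat_lit 152) (nat_lit 47539280084) (nat_lit 8) (nat_lit 5) (nat_lit 9) (nat_lit 5) (nat_lit 10) (nat_lit 4) (nat_lit 400) (nat_lit 256) (nat_lit 124))))))))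
noncomputable def xc96 : XT := (XT.nd (nat_lit 31512) (nat_lit 0) (nat_lit 6916) (XT.nd (nat_lit 30498) (nat_lit 0) (nat_lit 16720) (XT.nd (nat_lit 468) (nat_lit 0) (nat_lit 0) (XT.nd (nat_lit 234) (nat_lit 76) (nat_lit 0) (XT.nd (nat_lit 78) (nat_lit 0) (nat_lit 0) (XT.lf (nat_lit 0) (nat_lit 39637277850) (nat_lit 152) (nat_lit 39544668505) (nat_lit 0) (nat_lit 4187175077) (nat_lit 8) (nat_lit 5) (nat_lit 10) (nat_lit 4) (nat_lit 8) (nat_lit 4) (nat_lit 401) (nat_lit 256) (nat_lit 123)) (XT.nd (nat_lit 78) (nat_lit 0) (nat_lit 0) (XT.lf (nat_lit 0) (nat_lit 45886046262) (nat_lit 152) (nat_lit 29382573958) (nat_lit 0) (nat_lit 10415282305) (nat_lit 8) (nat_lit 5) (nat_lit 10) (nat_lit 4) (nat_lit 8) (nat_lit 4) (nat_lit 402) (nat_lit 256) (nat_lit 122)) (XT.lf (nat_lit 0) (nat_lit 52315615817) (nat_lit 152) (nat_lit 18927920759) (nat_lit 0) (nat_lit 16824792458) (nat_lit 8) (nat_lit 5) (nat_lit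 10) (nat_lit 4) (nat_lit 8) (nat_lit 4) (nat_lit 403) (nat_lit 256) (nat_lit 121)))) (XT.nd (nat_lit 78) (nat_lit 76) (nat_lit 0) (XT.lf (nat_lit 0) (nat_lit 58931604585) (nat_lit 152) (nat_lit 8171573773) (nat_lit 0) (nat_lit 23421306078) (nat_lit 8) (nat_lit 5) (nat_lit 10) (nat_lit 4) (nat_lit 8) (nat_lit 4) (nat_lit 404) (nat_lit 256) (nat_lit 120)) (XT.nd (nat_lit 78) (nat_lit 0) (nat_lit 0) (XT.lf (nat_lit 0) (nat_lit 2953499156) (nat_lit 76) (nat_lit 62814685212) (nat_lit 76) (nat_lit 27285478795) (nat_lit 7) (nat_lit 4) (nat_lit 8) (nat_lit 5) (nat_lit 8) (nat_lit 4) (nat_lit 405) (nat_lit 256) (nat_lit 119)) (XT.lf (nat_lit 0) (nat_lit 14568349356) (nat_lit 76) (nat_lit 58317822077) (nat_lit 76) (nat_lit 22770258466) (nat_lit 7) (nat_lit 4) (nat_lit 8) (nat_lit 5) (nat_lit 8) (nat_lit 4) (nat_lit 406) (nat_lit 256) (nat_lit 118))))) (XT.nd (nat_lit 29718) (nat_lit 0) (nat_lit 21888) (XT.nd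 (nat_lit 78) (nat_lit 0) (nat_lit 0) (XT.lf (nat_lit 0) (nat_lit 26520495384) (nat_lit 76) (nat_lit 53691176528) (nat_lit 76) (nat_lit 18125790398) (nat_lit 7) (nat_lit 4) (nat_lit 8) (nat_lit 5) (nat_lit 8) (nat_lit 4) (nat_lit 407) (nat_lit 256) (nat_lit 117)) (XT.nd (nat_lit 29562) (nat_lit 0) (nat_lit 22952) (XT.lf (nat_lit 0) (nat_lit 38820380863) (nat_lit 76) (nat_lit 48930705865) (nat_lit 76) (nat_lit 13348016319) (nat_lit 7) (nat_lit 4) (nat_lit 8) (nat_lit 5) (nat_lit 8) (nat_lit 4) (nat_lit 408) (nat_lit 256) (nat_lit 116)) (XT.lf (nat_lit 0) (nat_lit 1514964117) (nat_lit 228) (nat_lit 211142771) (nat_lit 0) (nat_lit 1514964117) (nat_lit 309) (nat_lit 5) (nat_lit 312) (nat_lit 4) (nat_lit 309) (nat_lit 4) (nat_lit 266) (nat_lit 257) (nat_lit 257)))) (XT.nd (nat_lit 156) (nat_lit 760) (nat_lit 0) (XT.nd (nat_lit 78) (nat_lit 76) (nat_lit 0) (XT.lf (nat_lit 0) (nat_lit 2982763919) (nat_lit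 228) (nat_lit 3035346323) (nat_lit 228) (nat_lit 478981525) (nat_lit 306) (nat_lit 4) (nat_lit 309) (nat_lit 5) (nat_lit 309) (nat_lit 4) (nat_lit 267) (nat_lit 257) (nat_lit 256)) (XT.lf (nat_lit 0) (nat_lit 2429084001) (nat_lit 304) (nat_lit 107231844) (nat_lit 76) (nat_lit 3978802911) (nat_lit 305) (nat_lit 5) (nat_lit 309) (nat_lit 5) (nat_lit 306) (nat_lit 4) (nat_lit 268) (nat_lit 257) (nat_lit 255))) (XT.nd (nat_lit 78) (nat_lit 456) (nat_lit 0) (XT.lf (nat_lit 0) (nat_lit 3397005807) (nat_lit 304) (nat_lit 1945308072) (nat_lit 380) (nat_lit 1193651698) (nat_lit 301) (nat_lit 5) (nat_lit 305) (nat_lit 5) (nat_lit 306) (nat_lit 4) (nat_lit 269) (nat_lit 257) (nat_lit 254)) (XT.lf (nat_lit 0) (nat_lit 373002453) (nat_lit 380) (nat_lit 1278407971) (nat_lit 456) (nat_lit 4908723555) (nat_lit 295) (nat_lit 5) (nat_lit 300) (nat_lit 5) (nat_lit 301) (nat_lit 5) (nat_lit 270) (nat_lit 257) (nat_lit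 253)))))) (XT.nd (nat_lit 468) (nat_lit 3420) (nat_lit 0) (XT.nd (nat_lit 234) (nat_lit 1216) (nat_lit 0) (XT.nd (nat_lit 78) (nat_lit 532) (nat_lit 0) (XT.lf (nat_lit 0) (nat_lit 3975019352) (nat_lit 380) (nat_lit 512842708) (nat_lit 456) (nat_lit 2099136709) (nat_lit 295) (nat_lit 5) (nat_lit 300) (nat_lit 5) (nat_lit 301) (nat_lit 5) (nat_lit 271) (nat_lit 257) (nat_lit 252)) (XT.nd (nat_lit 78) (nat_lit 0) (nat_lit 0) (XT.lf (nat_lit 0) (nat_lit 692326793) (nat_lit 532) (nat_lit 5605722249) (nat_lit 76) (nat_lit 319212092) (nat_lit 288) (nat_lit 5) (nat_lit 295) (nat_lit 5) (nat_lit 289) (nat_lit 5) (nat_lit 272) (nat_lit 257) (nat_lit 251)) (XT.lf (nat_lit 0) (nat_lit 3459824184) (nat_lit 532) (nat_lit 1947043975) (nat_lit 76) (nat_lit 1243112798) (nat_lit 288) (nat_lit 5) (nat_lit 295) (nat_lit 5) (nat_lit 289) (nat_lit 5) (nat_lit 273) (nat_lit 257) (nat_lit 250)))) (XT.nd (nat_lit 78)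 (nat_lit 684) (nat_lit 0) (XT.lf (nat_lit 0) (nat_lit 1787748697) (nat_lit 532) (nat_lit 4445380680) (nat_lit 608) (nat_lit 453070977) (nat_lit 281) (nat_lit 5) (nat_lit 288) (nat_lit 5) (nat_lit 289) (nat_lit 5) (nat_lit 274) (nat_lit 257) (nat_lit 249)) (XT.nd (nat_lit 78) (nat_lit 608) (nat_lit 0) (XT.lf (nat_lit 0) (nat_lit 2246401241) (nat_lit 608) (nat_lit 1141266622) (nat_lit 76) (nat_lit 3337552664) (nat_lit 280) (nat_lit 5) (nat_lit 288) (nat_lit 5) (nat_lit 281) (nat_lit 5) (nat_lit 275) (nat_lit 257) (nat_lit 248)) (XT.lf (nat_lit 0) (nat_lit 2709140936) (nat_lit 608) (nat_lit 2243962551) (nat_lit 684) (nat_lit 1814297048) (nat_lit 272) (nat_lit 5) (nat_lit 280) (nat_lit 5) (nat_lit 281) (nat_lit 5) (nat_lit 276) (nat_lit 257) (nat_lit 247))))) (XT.nd (nat_lit 234) (nat_lit 1900) (nat_lit 0) (XT.nd (nat_lit 78) (nat_lit 1444) (nat_lit 0) (XT.lf (nat_lit 0) (nat_lit 833900693) (nat_lit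 684) (nat_lit 190266824) (nat_lit 76) (nat_lit 5788927255) (nat_lit 271) (nat_lit 5) (nat_lit 280) (nat_lit 5) (nat_lit 272) (nat_lit 5) (nat_lit 277) (nat_lit 257) (nat_lit 246)) (XT.nd (nat_lit 78) (nat_lit 760) (nat_lit 0) (XT.lf (nat_lit 0) (nat_lit 3477266273) (nat_lit 760) (nat_lit 3081815512) (nat_lit 76) (nat_lit 302142250) (nat_lit 262) (nat_lit 5) (nat_lit 272) (nat_lit 5) (nat_lit 263) (nat_lit 5) (nat_lit 278) (nat_lit 257) (nat_lit 245)) (XT.lf (nat_lit 0) (nat_lit 899329839) (nat_lit 760) (nat_lit 5236273351) (nat_lit 836) (nat_lit 777287684) (nat_lit 252) (nat_lit 5) (nat_lit 262) (nat_lit 5) (nat_lit 263) (nat_lit 5) (nat_lit 279) (nat_lit 257) (nat_lit 244)))) (XT.nd (nat_lit 156) (nat_lit 988) (nat_lit 0) (XT.nd (nat_lit 78) (nat_lit 836) (nat_lit 0) (XT.lf (nat_lit 0) (nat_lit 1817568681) (nat_lit 836) (nat_lit 1991280417) (nat_lit 76) (nat_lit 3158446623) (nat_lit 251) (nat_lit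 5) (nat_lit 262) (nat_lit 5) (nat_lit 252) (nat_lit 5) (nat_lit 280) (nat_lit 257) (nat_lit 243)) (XT.lf (nat_lit 0) (nat_lit 2116788499) (nat_lit 836) (nat_lit 2296441931) (nat_lit 912) (nat_lit 2611863842) (nat_lit 240) (nat_lit 5) (nat_lit 251) (nat_lit 5) (nat_lit 252) (nat_lit 5) (nat_lit 281) (nat_lit 257) (nat_lit 242))) (XT.nd (nat_lit 78) (nat_lit 988) (nat_lit 0) (XT.lf (nat_lit 0) (nat_lit 6321099882) (nat_lit 836) (nat_lit 705734318) (nat_lit 912) (nat_lit 59735956) (nat_lit 240) (nat_lit 5) (nat_lit 251) (nat_lit 5) (nat_lit 252) (nat_lit 5) (nat_lit 282) (nat_lit 257) (nat_lit 241)) (XT.lf (nat_lit 0) (nat_lit 2483286623) (nat_lit 988) (nat_lit 3683025201) (nat_lit 76) (nat_lit 984041038) (nat_lit 227) (nat_lit 5) (nat_lit 240) (nat_lit 5) (nat_lit 228) (nat_lit 5) (nat_lit 283) (nat_lit 257) (nat_lit 240))))))) (XT.nd (nat_lit 1014) (nat_lit 3572) (nat_lit 0) (XT.nd (nat_lit 468)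 (nat_lit 2280) (nat_lit 0) (XT.nd (nat_lit 234) (nat_lit 1824) (nat_lit 0) (XT.nd (nat_lit 78) (nat_lit 1140) (nat_lit 0) (XT.lf (nat_lit 0) (nat_lit 560850331) (nat_lit 988) (nat_lit 4483864971) (nat_lit 1064) (nat_lit 2173149713) (nat_lit 214) (nat_lit 5) (nat_lit 227) (nat_lit 5) (nat_lit 228) (nat_lit 5) (nat_lit 284) (nat_lit 257) (nat_lit 239)) (XT.nd (nat_lit 78) (nat_lit 1064) (nat_lit 0) (XT.lf (nat_lit 0) (nat_lit 349261539) (nat_lit 1064) (nat_lit 2353300021) (nat_lit 76) (nat_lit 4586010546) (nat_lit 213) (nat_lit 5) (nat_lit 227) (nat_lit 5) (nat_lit 214) (nat_lit 5) (nat_lit 285) (nat_lit 257) (nat_lit 238)) (XT.lf (nat_lit 0) (nat_lit 2029275271) (nat_lit 1064) (nat_lit 819953620) (nat_lit 1140) (nat_lit 4513281062) (nat_lit 199) (nat_lit 5) (nat_lit 213) (nat_lit 5) (nat_lit 214) (nat_lit 5) (nat_lit 286) (nat_lit 257) (nat_lit 237)))) (XT.nd (nat_lit 78) (nat_lit 1824) (nat_lit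 0) (XT.lf (nat_lit 0) (nat_lit 5386556578) (nat_lit 1140) (nat_lit 927378457) (nat_lit 76) (nat_lit 1125978399) (nat_lit 199) (nat_lit 5) (nat_lit 214) (nat_lit 5) (nat_lit 200) (nat_lit 5) (nat_lit 287) (nat_lit 257) (nat_lit 236)) (XT.nd (nat_lit 78) (nat_lit 608) (nat_lit 0) (XT.lf (nat_lit 0) (nat_lit 443090503) (nat_lit 1216) (nat_lit 3920005050) (nat_lit 76) (nat_lit 3157353516) (nat_lit 183) (nat_lit 5) (nat_lit 199) (nat_lit 5) (nat_lit 184) (nat_lit 5) (nat_lit 288) (nat_lit 257) (nat_lit 235)) (XT.lf (nat_lit 0) (nat_lit 602535935) (nat_lit 608) (nat_lit 2316196301) (nat_lit 684) (nat_lit 4685799782) (nat_lit 175) (nat_lit 5) (nat_lit 183) (nat_lit 5) (nat_lit 184) (nat_lit 5) (nat_lit 289) (nat_lit 257) (nat_lit 234))))) (XT.nd (nat_lit 234) (nat_lit 1596) (nat_lit 0) (XT.nd (nat_lit 78) (nat_lit 684) (nat_lit 0) (XT.lf (nat_lit 0) (nat_lit 5272993414) (nat_lit 608) (nat_lit 166930880)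 (nat_lit 684) (nat_lit 2252179874) (nat_lit 175) (nat_lit 5) (nat_lit 183) (nat_lit 5) (nat_lit 184) (nat_lit 5) (nat_lit 290) (nat_lit 257) (nat_lit 233)) (XT.nd (nat_lit 78) (nat_lit 0) (nat_lit 0) (XT.lf (nat_lit 0) (nat_lit 224199129) (nat_lit 684) (nat_lit 5527940858) (nat_lit 76) (nat_lit 2030947753) (nat_lit 166) (nat_lit 5) (nat_lit 175) (nat_lit 5) (nat_lit 167) (nat_lit 5) (nat_lit 291) (nat_lit 257) (nat_lit 232)) (XT.lf (nat_lit 0) (nat_lit 2690154700) (nat_lit 684) (nat_lit 850001382) (nat_lit 76) (nat_lit 4337255441) (nat_lit 166) (nat_lit 5) (nat_lit 175) (nat_lit 5) (nat_lit 167) (nat_lit 5) (nat_lit 292) (nat_lit 257) (nat_lit 231)))) (XT.nd (nat_lit 156) (nat_lit 532) (nat_lit 0) (XT.nd (nat_lit 78) (nat_lit 532) (nat_lit 0) (XT.lf (nat_lit 0) (nat_lit 3978967249) (nat_lit 532) (nat_lit 1225514484) (nat_lit 608) (nat_lit 2770944922) (nat_lit 159) (nat_lit 5) (nat_lit 166) (nat_lit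 5) (nat_lit 167) (nat_lit 5) (nat_lit 293) (nat_lit 257) (nat_lit 230)) (XT.lf (nat_lit 0) (nat_lit 830864648) (nat_lit 532) (nat_lit 6928497783) (nat_lit 608) (nat_lit 318156791) (nat_lit 152) (nat_lit 5) (nat_lit 159) (nat_lit 5) (nat_lit 160) (nat_lit 5) (nat_lit 294) (nat_lit 257) (nat_lit 229))) (XT.nd (nat_lit 78) (nat_lit 456) (nat_lit 0) (XT.lf (nat_lit 0) (nat_lit 2155827091) (nat_lit 608) (nat_lit 2399177325) (nat_lit 76) (nat_lit 3627397769) (nat_lit 151) (nat_lit 5) (nat_lit 159) (nat_lit 5) (nat_lit 152) (nat_lit 5) (nat_lit 295) (nat_lit 257) (nat_lit 228)) (XT.lf (nat_lit 0) (nat_lit 2573921739) (nat_lit 456) (nat_lit 2088080069) (nat_lit 532) (nat_lit 3629487350) (nat_lit 145) (nat_lit 5) (nat_lit 151) (nat_lit 5) (nat_lit 152) (nat_lit 5) (nat_lit 296) (nat_lit 257) (nat_lit 227)))))) (XT.nd (nat_lit 546) (nat_lit 1596) (nat_lit 0) (XT.nd (nat_lit 234) (nat_lit 912) (nat_lit 0)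 (XT.nd (nat_lit 78) (nat_lit 1064) (nat_lit 0) (XT.lf (nat_lit 0) (nat_lit 7212860518) (nat_lit 532) (nat_lit 730334795) (nat_lit 76) (nat_lit 461649047) (nat_lit 145) (nat_lit 5) (nat_lit 152) (nat_lit 5) (nat_lit 146) (nat_lit 5) (nat_lit 297) (nat_lit 257) (nat_lit 226)) (XT.nd (nat_lit 78) (nat_lit 456) (nat_lit 0) (XT.lf (nat_lit 0) (nat_lit 1298322046) (nat_lit 608) (nat_lit 4128464230) (nat_lit 76) (nat_lit 3094347369) (nat_lit 137) (nat_lit 5) (nat_lit 145) (nat_lit 5) (nat_lit 138) (nat_lit 5) (nat_lit 298) (nat_lit 257) (nat_lit 225)) (XT.lf (nat_lit 0) (nat_lit 984380728) (nat_lit 456) (nat_lit 2814730357) (nat_lit 532) (nat_lit 4842728263) (nat_lit 131) (nat_lit 5) (nat_lit 137) (nat_lit 5) (nat_lit 138) (nat_lit 5) (nat_lit 299) (nat_lit 257) (nat_lit 224)))) (XT.nd (nat_lit 156) (nat_lit 380) (nat_lit 0) (XT.nd (nat_lit 78) (nat_lit 532) (nat_lit 0) (XT.lf (nat_lit 0) (nat_lit 6269295638)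 (nat_lit 456) (nat_lit 91170281) (nat_lit 532) (nat_lit 2406205639) (nat_lit 131) (nat_lit 5) (nat_lit 137) (nat_lit 5) (nat_lit 138) (nat_lit 5) (nat_lit 300) (nat_lit 257) (nat_lit 223)) (XT.lf (nat_lit 0) (nat_lit 99518387) (nat_lit 532) (nat_lit 6116317089) (nat_lit 76) (nat_lit 2679507210) (nat_lit 124) (nat_lit 5) (nat_lit 131) (nat_lit 5) (nat_lit 125) (nat_lit 5) (nat_lit 301) (nat_lit 257) (nat_lit 222))) (XT.nd (nat_lit 78) (nat_lit 380) (nat_lit 0) (XT.lf (nat_lit 0) (nat_lit 2604187787) (nat_lit 532) (nat_lit 853319629) (nat_lit 76) (nat_lit 5570553262) (nat_lit 124) (nat_lit 5) (nat_lit 131) (nat_lit 5) (nat_lit 125) (nat_lit 5) (nat_lit 302) (nat_lit 257) (nat_lit 221)) (XT.lf (nat_lit 0) (nat_lit 4592980756) (nat_lit 380) (nat_lit 582511749) (nat_lit 456) (nat_lit 3989586459) (nat_lit 119) (nat_lit 5) (nat_lit 124) (nat_lit 5) (nat_lit 125) (nat_lit 5) (nat_lit 303) (nat_lit 257)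 (nat_lit 220))))) (XT.nd (nat_lit 234) (nat_lit 760) (nat_lit 0) (XT.nd (nat_lit 78) (nat_lit 456) (nat_lit 0) (XT.lf (nat_lit 0) (nat_lit 842621602) (nat_lit 380) (nat_lit 6969135808) (nat_lit 456) (nat_lit 1494877518) (nat_lit 114) (nat_lit 5) (nat_lit 119) (nat_lit 5) (nat_lit 120) (nat_lit 5) (nat_lit 304) (nat_lit 257) (nat_lit 219)) (XT.nd (nat_lit 78) (nat_lit 380) (nat_lit 0) (XT.lf (nat_lit 0) (nat_lit 1054576291) (nat_lit 456) (nat_lit 3019629312) (nat_lit 76) (nat_lit 5377954042) (nat_lit 113) (nat_lit 5) (nat_lit 119) (nat_lit 5) (nat_lit 114) (nat_lit 5) (nat_lit 305) (nat_lit 257) (nat_lit 218)) (XT.lf (nat_lit 0) (nat_lit 2559612935) (nat_lit 380) (nat_lit 1065440898) (nat_lit 456) (nat_lit 5977371196) (nat_lit 108) (nat_lit 5) (nat_lit 113) (nat_lit 5) (nat_lit 114) (nat_lit 5) (nat_lit 306) (nat_lit 257) (nat_lit 217)))) (XT.nd (nat_lit 156) (nat_lit 380) (nat_lit 0) (XT.nd (nat_lit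 78) (nat_lit 380) (nat_lit 0) (XT.lf (nat_lit 0) (nat_lit 6273687509) (nat_lit 456) (nat_lit 1472394735) (nat_lit 76) (nat_lit 2011139750) (nat_lit 108) (nat_lit 5) (nat_lit 114) (nat_lit 5) (nat_lit 109) (nat_lit 5) (nat_lit 307) (nat_lit 257) (nat_lit 216)) (XT.lf (nat_lit 0) (nat_lit 4275499101) (nat_lit 380) (nat_lit 4730064152) (nat_lit 456) (nat_lit 911039399) (nat_lit 103) (nat_lit 5) (nat_lit 108) (nat_lit 5) (nat_lit 109) (nat_lit 5) (nat_lit 308) (nat_lit 257) (nat_lit 215))) (XT.nd (nat_lit 78) (nat_lit 0) (nat_lit 0) (XT.lf (nat_lit 0) (nat_lit 67244112) (nat_lit 304) (nat_lit 1605539149) (nat_lit 380) (nat_lit 8408487910) (nat_lit 98) (nat_lit 5) (nat_lit 102) (nat_lit 5) (nat_lit 103) (nat_lit 5) (nat_lit 309) (nat_lit 257) (nat_lit 214)) (XT.lf (nat_lit 0) (nat_lit 4341896198) (nat_lit 380) (nat_lit 4275367000) (nat_lit 76) (nat_lit 1632612101) (nat_lit 98) (nat_lit 5) (nat_lit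 103) (nat_lit 5) (nat_lit 99) (nat_lit 5) (nat_lit 310) (nat_lit 257) (nat_lit 213))))))))
noncomputable def xc97 : XT := (XT.nd (nat_lit 2028) (nat_lit 1748) (nat_lit 0) (XT.nd (nat_lit 1014) (nat_lit 1672) (nat_lit 0) (XT.nd (nat_lit 468) (nat_lit 1292) (nat_lit 0) (XT.nd (nat_lit 234) (nat_lit 304) (nat_lit 0) (XT.nd (nat_lit 78) (nat_lit 380) (nat_lit 0) (XT.lf (nat_lit 0) (nat_lit 1588823388) (nat_lit 380) (nat_lit 5487851636) (nat_lit 456) (nat_lit 3347342085) (nat_lit 93) (nat_lit 5) (nat_lit 98) (nat_lit 5) (nat_lit 99) (nat_lit 5) (nat_lit 311) (nat_lit 257) (nat_lit 212)) (XT.nd (nat_lit 78) (nat_lit 380) (nat_lit 0) (XT.lf (nat_lit 0) (nat_lit 7655448870) (nat_lit 380) (nat_lit 2236384344) (nat_lit 456) (nat_lit 711645835) (nat_lit 93) (nat_lit 5) (nat_lit 98) (nat_lit 5) (nat_lit 99) (nat_lit 5) (nat_lit 312) (nat_lit 257) (nat_lit 211)) (XT.lf (nat_lit 0) (nat_lit 1960818714) (nat_lit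 380) (nat_lit 7702592155) (nat_lit 76) (nat_lit 1124476074) (nat_lit 88) (nat_lit 5) (nat_lit 93) (nat_lit 5) (nat_lit 89) (nat_lit 5) (nat_lit 313) (nat_lit 257) (nat_lit 210)))) (XT.nd (nat_lit 78) (nat_lit 304) (nat_lit 0) (XT.lf (nat_lit 0) (nat_lit 4707905246) (nat_lit 380) (nat_lit 1707228592) (nat_lit 76) (nat_lit 4562261368) (nat_lit 88) (nat_lit 5) (nat_lit 93) (nat_lit 5) (nat_lit 89) (nat_lit 5) (nat_lit 314) (nat_lit 257) (nat_lit 209)) (XT.nd (nat_lit 78) (nat_lit 0) (nat_lit 0) (XT.lf (nat_lit 0) (nat_lit 4496651777) (nat_lit 304) (nat_lit 3041787778) (nat_lit 380) (nat_lit 3634158938) (nat_lit 84) (nat_lit 5) (nat_lit 88) (nat_lit 5) (nat_lit 89) (nat_lit 5) (nat_lit 315) (nat_lit 257) (nat_lit 208)) (XT.lf (nat_lit 0) (nat_lit 10433773881) (nat_lit 380) (nat_lit 515458944) (nat_lit 76) (nat_lit 425068176) (nat_lit 84) (nat_lit 5) (nat_lit 89) (nat_lit 5) (nat_lit 85) (nat_lit 5)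 (nat_lit 316) (nat_lit 257) (nat_lit 207))))) (XT.nd (nat_lit 234) (nat_lit 608) (nat_lit 0) (XT.nd (nat_lit 78) (nat_lit 304) (nat_lit 0) (XT.lf (nat_lit 0) (nat_lit 1844481507) (nat_lit 380) (nat_lit 5742693487) (nat_lit 76) (nat_lit 3992997471) (nat_lit 79) (nat_lit 5) (nat_lit 84) (nat_lit 5) (nat_lit 80) (nat_lit 5) (nat_lit 317) (nat_lit 257) (nat_lit 206)) (XT.nd (nat_lit 78) (nat_lit 0) (nat_lit 0) (XT.lf (nat_lit 0) (nat_lit 542565182) (nat_lit 304) (nat_lit 4121768125) (nat_lit 380) (nat_lit 7128537782) (nat_lit 75) (nat_lit 5) (nat_lit 79) (nat_lit 5) (nat_lit 80) (nat_lit 5) (nat_lit 318) (nat_lit 257) (nat_lit 205)) (XT.lf (nat_lit 0) (nat_lit 7076505401) (nat_lit 304) (nat_lit 510609084) (nat_lit 380) (nat_lit 4424321395) (nat_lit 75) (nat_lit 5) (nat_lit 79) (nat_lit 5) (nat_lit 80) (nat_lit 5) (nat_lit 319) (nat_lit 257) (nat_lit 204)))) (XT.nd (nat_lit 156) (nat_lit 304) (nat_lit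 0) (XT.nd (nat_lit 78) (nat_lit 76) (nat_lit 0) (XT.lf (nat_lit 0) (nat_lit 1511617496) (nat_lit 228) (nat_lit 9092669443) (nat_lit 304) (nat_lit 1632103634) (nat_lit 72) (nat_lit 5) (nat_lit 75) (nat_lit 5) (nat_lit 76) (nat_lit 5) (nat_lit 320) (nat_lit 257) (nat_lit 203)) (XT.lf (nat_lit 0) (nat_lit 1236496274) (nat_lit 304) (nat_lit 4288561795) (nat_lit 76) (nat_lit 6942202716) (nat_lit 71) (nat_lit 5) (nat_lit 75) (nat_lit 5) (nat_lit 72) (nat_lit 5) (nat_lit 321) (nat_lit 257) (nat_lit 202))) (XT.nd (nat_lit 78) (nat_lit 0) (nat_lit 0) (XT.lf (nat_lit 0) (nat_lit 2314220447) (nat_lit 304) (nat_lit 1829003103) (nat_lit 380) (nat_lit 8561833873) (nat_lit 67) (nat_lit 5) (nat_lit 71) (nat_lit 5) (nat_lit 72) (nat_lit 5) (nat_lit 322) (nat_lit 257) (nat_lit 201)) (XT.lf (nat_lit 0) (nat_lit 7162913494) (nat_lit 380) (nat_lit 3821063854) (nat_lit 76) (nat_lit 1965268169) (nat_lit 67) (nat_lit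 5) (nat_lit 72) (nat_lit 5) (nat_lit 68) (nat_lit 5) (nat_lit 323) (nat_lit 257) (nat_lit 200)))))) (XT.nd (nat_lit 468) (nat_lit 912) (nat_lit 0) (XT.nd (nat_lit 234) (nat_lit 228) (nat_lit 0) (XT.nd (nat_lit 78) (nat_lit 304) (nat_lit 0) (XT.lf (nat_lit 0) (nat_lit 2930578038) (nat_lit 228) (nat_lit 7352985746) (nat_lit 304) (nat_lit 2916913877) (nat_lit 64) (nat_lit 5) (nat_lit 67) (nat_lit 5) (nat_lit 68) (nat_lit 5) (nat_lit 324) (nat_lit 257) (nat_lit 199)) (XT.nd (nat_lit 78) (nat_lit 228) (nat_lit 0) (XT.lf (nat_lit 0) (nat_lit 41041997) (nat_lit 304) (nat_lit 3550253643) (nat_lit 76) (nat_lit 9867871561) (nat_lit 63) (nat_lit 5) (nat_lit 67) (nat_lit 5) (nat_lit 64) (nat_lit 5) (nat_lit 325) (nat_lit 257) (nat_lit 198)) (XT.lf (nat_lit 0) (nat_lit 3029791692) (nat_lit 304) (nat_lit 10373363674) (nat_lit 76) (nat_lit 321602179) (nat_lit 60) (nat_lit 5) (nat_lit 64) (nat_lit 5) (nat_lit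 61) (nat_lit 5) (nat_lit 326) (nat_lit 257) (nat_lit 197)))) (XT.nd (nat_lit 78) (nat_lit 228) (nat_lit 0) (XT.lf (nat_lit 0) (nat_lit 6145581808) (nat_lit 304) (nat_lit 3553564788) (nat_lit 76) (nat_lit 4298073872) (nat_lit 60) (nat_lit 5) (nat_lit 64) (nat_lit 5) (nat_lit 61) (nat_lit 5) (nat_lit 327) (nat_lit 257) (nat_lit 196)) (XT.nd (nat_lit 78) (nat_lit 0) (nat_lit 0) (XT.lf (nat_lit 0) (nat_lit 3487146801) (nat_lit 228) (nat_lit 5867835913) (nat_lit 304) (nat_lit 4922895898) (nat_lit 57) (nat_lit 5) (nat_lit 60) (nat_lit 5) (nat_lit 61) (nat_lit 5) (nat_lit 328) (nat_lit 257) (nat_lit 195)) (XT.lf (nat_lit 0) (nat_lit 10760703413) (nat_lit 228) (nat_lit 1902942736) (nat_lit 304) (nat_lit 1903245640) (nat_lit 57) (nat_lit 5) (nat_lit 60) (nat_lit 5) (nat_lit 61) (nat_lit 5) (nat_lit 329) (nat_lit 257) (nat_lit 194))))) (XT.nd (nat_lit 234) (nat_lit 456) (nat_lit 0) (XT.nd (nat_lit 78) (nat_lit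 152) (nat_lit 0) (XT.lf (nat_lit 0) (nat_lit 1204990893) (nat_lit 304) (nat_lit 11493382727) (nat_lit 76) (nat_lit 2165230466) (nat_lit 53) (nat_lit 5) (nat_lit 57) (nat_lit 5) (nat_lit 54) (nat_lit 5) (nat_lit 330) (nat_lit 257) (nat_lit 193)) (XT.nd (nat_lit 78) (nat_lit 152) (nat_lit 0) (XT.lf (nat_lit 0) (nat_lit 4393879688) (nat_lit 304) (nat_lit 4416888137) (nat_lit 76) (nat_lit 6357137460) (nat_lit 53) (nat_lit 5) (nat_lit 57) (nat_lit 5) (nat_lit 54) (nat_lit 5) (nat_lit 331) (nat_lit 257) (nat_lit 192)) (XT.lf (nat_lit 0) (nat_lit 2878850483) (nat_lit 152) (nat_lit 4796191834) (nat_lit 228) (nat_lit 7806416937) (nat_lit 51) (nat_lit 5) (nat_lit 53) (nat_lit 5) (nat_lit 54) (nat_lit 5) (nat_lit 332) (nat_lit 257) (nat_lit 191)))) (XT.nd (nat_lit 156) (nat_lit 228) (nat_lit 0) (XT.nd (nat_lit 78) (nat_lit 228) (nat_lit 0) (XT.lf (nat_lit 0) (nat_lit 10435258213) (nat_lit 152) (nat_lit 633353693)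 (nat_lit 228) (nat_lit 4735410082) (nat_lit 51) (nat_lit 5) (nat_lit 53) (nat_lit 5) (nat_lit 54) (nat_lit 5) (nat_lit 333) (nat_lit 257) (nat_lit 190)) (XT.lf (nat_lit 0) (nat_lit 2038681626) (nat_lit 228) (nat_lit 12550125288) (nat_lit 304) (nat_lit 1546730830) (nat_lit 48) (nat_lit 5) (nat_lit 51) (nat_lit 5) (nat_lit 52) (nat_lit 5) (nat_lit 334) (nat_lit 257) (nat_lit 189))) (XT.nd (nat_lit 78) (nat_lit 152) (nat_lit 0) (XT.lf (nat_lit 0) (nat_lit 1734918448) (nat_lit 304) (nat_lit 6768688669) (nat_lit 76) (nat_lit 7971973767) (nat_lit 47) (nat_lit 5) (nat_lit 51) (nat_lit 5) (nat_lit 48) (nat_lit 5) (nat_lit 335) (nat_lit 257) (nat_lit 188)) (XT.lf (nat_lit 0) (nat_lit 731477233) (nat_lit 152) (nat_lit 4330546791) (nat_lit 228) (nat_lit 11764017965) (nat_lit 45) (nat_lit 5) (nat_lit 47) (nat_lit 5) (nat_lit 48) (nat_lit 5) (nat_lit 336) (nat_lit 257) (nat_lit 187))))))) (XT.nd (nat_lit 1014)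 (nat_lit 760) (nat_lit 0) (XT.nd (nat_lit 468) (nat_lit 532) (nat_lit 0) (XT.nd (nat_lit 234) (nat_lit 228) (nat_lit 0) (XT.nd (nat_lit 78) (nat_lit 228) (nat_lit 0) (XT.lf (nat_lit 0) (nat_lit 8528948848) (nat_lit 228) (nat_lit 8636983782) (nat_lit 76) (nat_lit 19902496) (nat_lit 45) (nat_lit 5) (nat_lit 48) (nat_lit 5) (nat_lit 46) (nat_lit 5) (nat_lit 337) (nat_lit 257) (nat_lit 186)) (XT.nd (nat_lit 78) (nat_lit 228) (nat_lit 0) (XT.lf (nat_lit 0) (nat_lit 12114883646) (nat_lit 228) (nat_lit 1044232334) (nat_lit 76) (nat_lit 4396873858) (nat_lit 45) (nat_lit 5) (nat_lit 48) (nat_lit 5) (nat_lit 46) (nat_lit 5) (nat_lit 338) (nat_lit 257) (nat_lit 185)) (XT.lf (nat_lit 0) (nat_lit 6865930937) (nat_lit 228) (nat_lit 8981402486) (nat_lit 304) (nat_lit 2088764987) (nat_lit 42) (nat_lit 5) (nat_lit 45) (nat_lit 5) (nat_lit 46) (nat_lit 5) (nat_lit 339) (nat_lit 257) (nat_lit 184)))) (XT.nd (nat_lit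 78) (nat_lit 152) (nat_lit 0) (XT.lf (nat_lit 0) (nat_lit 1321198829) (nat_lit 304) (nat_lit 3350174658) (nat_lit 76) (nat_lit 13656349539) (nat_lit 41) (nat_lit 5) (nat_lit 45) (nat_lit 5) (nat_lit 42) (nat_lit 5) (nat_lit 340) (nat_lit 257) (nat_lit 183)) (XT.nd (nat_lit 78) (nat_lit 0) (nat_lit 0) (XT.lf (nat_lit 0) (nat_lit 4627870519) (nat_lit 152) (nat_lit 181903287) (nat_lit 228) (nat_lit 13920169175) (nat_lit 39) (nat_lit 5) (nat_lit 41) (nat_lit 5) (nat_lit 42) (nat_lit 5) (nat_lit 341) (nat_lit 257) (nat_lit 182)) (XT.lf (nat_lit 0) (nat_lit 8453870622) (nat_lit 228) (nat_lit 6315696641) (nat_lit 76) (nat_lit 4373151729) (nat_lit 39) (nat_lit 5) (nat_lit 42) (nat_lit 5) (nat_lit 40) (nat_lit 5) (nat_lit 342) (nat_lit 257) (nat_lit 181))))) (XT.nd (nat_lit 234) (nat_lit 380) (nat_lit 0) (XT.nd (nat_lit 78) (nat_lit 0) (nat_lit 0) (XT.lf (nat_lit 0) (nat_lit 1693399412) (nat_lit 152) (nat_lit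 10506725093) (nat_lit 228) (nat_lit 7367983698) (nat_lit 37) (nat_lit 5) (nat_lit 39) (nat_lit 5) (nat_lit 40) (nat_lit 5) (nat_lit 343) (nat_lit 257) (nat_lit 180)) (XT.nd (nat_lit 78) (nat_lit 0) (nat_lit 0) (XT.lf (nat_lit 0) (nat_lit 10030532481) (nat_lit 152) (nat_lit 6067099256) (nat_lit 228) (nat_lit 3907475893) (nat_lit 37) (nat_lit 5) (nat_lit 39) (nat_lit 5) (nat_lit 40) (nat_lit 5) (nat_lit 344) (nat_lit 257) (nat_lit 179)) (XT.lf (nat_lit 0) (nat_lit 18577292692) (nat_lit 152) (nat_lit 1510586619) (nat_lit 228) (nat_lit 368077364) (nat_lit 37) (nat_lit 5) (nat_lit 39) (nat_lit 5) (nat_lit 40) (nat_lit 5) (nat_lit 345) (nat_lit 257) (nat_lit 178)))) (XT.nd (nat_lit 156) (nat_lit 152) (nat_lit 0) (XT.nd (nat_lit 78) (nat_lit 0) (nat_lit 0) (XT.lf (nat_lit 0) (nat_lit 3283827375) (nat_lit 228) (nat_lit 14433626766) (nat_lit 76) (nat_lit 3199836762) (nat_lit 34) (nat_lit 5) (nat_lit 37)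 (nat_lit 5) (nat_lit 35) (nat_lit 5) (nat_lit 346) (nat_lit 257) (nat_lit 177)) (XT.lf (nat_lit 0) (nat_lit 7048438469) (nat_lit 228) (nat_lit 6315276218) (nat_lit 76) (nat_lit 8028337620) (nat_lit 34) (nat_lit 5) (nat_lit 37) (nat_lit 5) (nat_lit 35) (nat_lit 5) (nat_lit 347) (nat_lit 257) (nat_lit 176))) (XT.nd (nat_lit 78) (nat_lit 0) (nat_lit 0) (XT.lf (nat_lit 0) (nat_lit 2047783910) (nat_lit 152) (nat_lit 8875007222) (nat_lit 228) (nat_lit 10958373840) (nat_lit 32) (nat_lit 5) (nat_lit 34) (nat_lit 5) (nat_lit 35) (nat_lit 5) (nat_lit 348) (nat_lit 257) (nat_lit 175)) (XT.lf (nat_lit 0) (nat_lit 10752772635) (nat_lit 152) (nat_lit 4201789459) (nat_lit 228) (nat_lit 7429165442) (nat_lit 32) (nat_lit 5) (nat_lit 34) (nat_lit 5) (nat_lit 35) (nat_lit 5) (nat_lit 349) (nat_lit 257) (nat_lit 174)))))) (XT.nd (nat_lit 546) (nat_lit 304) (nat_lit 0) (XT.nd (nat_lit 234) (nat_lit 228) (nat_lit 0)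 (XT.nd (nat_lit 78) (nat_lit 228) (nat_lit 0) (XT.lf (nat_lit 0) (nat_lit 19091091313) (nat_lit 228) (nat_lit 3226158211) (nat_lit 76) (nat_lit 584615100) (nat_lit 32) (nat_lit 5) (nat_lit 35) (nat_lit 5) (nat_lit 33) (nat_lit 4) (nat_lit 350) (nat_lit 257) (nat_lit 173)) (XT.nd (nat_lit 78) (nat_lit 76) (nat_lit 0) (XT.lf (nat_lit 0) (nat_lit 5458983633) (nat_lit 152) (nat_lit 17965378490) (nat_lit 228) (nat_lit 9015784) (nat_lit 30) (nat_lit 5) (nat_lit 32) (nat_lit 5) (nat_lit 33) (nat_lit 4) (nat_lit 351) (nat_lit 257) (nat_lit 172)) (XT.lf (nat_lit 0) (nat_lit 3842082323) (nat_lit 228) (nat_lit 9583721021) (nat_lit 76) (nat_lit 10553571703) (nat_lit 29) (nat_lit 5) (nat_lit 32) (nat_lit 5) (nat_lit 30) (nat_lit 5) (nat_lit 352) (nat_lit 257) (nat_lit 171)))) (XT.nd (nat_lit 156) (nat_lit 76) (nat_lit 0) (XT.nd (nat_lit 78) (nat_lit 152) (nat_lit 0) (XT.lf (nat_lit 0) (nat_lit 7787777855)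 (nat_lit 228) (nat_lit 977142593) (nat_lit 76) (nat_lit 15777462087) (nat_lit 29) (nat_lit 5) (nat_lit 32) (nat_lit 5) (nat_lit 30) (nat_lit 5) (nat_lit 353) (nat_lit 257) (nat_lit 170)) (XT.lf (nat_lit 0) (nat_lit 8009237047) (nat_lit 152) (nat_lit 3899447075) (nat_lit 228) (nat_lit 13211901107) (nat_lit 27) (nat_lit 5) (nat_lit 29) (nat_lit 5) (nat_lit 30) (nat_lit 5) (nat_lit 354) (nat_lit 257) (nat_lit 169))) (XT.nd (nat_lit 78) (nat_lit 76) (nat_lit 0) (XT.lf (nat_lit 0) (nat_lit 16153839633) (nat_lit 228) (nat_lit 8476199174) (nat_lit 76) (nat_lit 1086086415) (nat_lit 27) (nat_lit 5) (nat_lit 30) (nat_lit 5) (nat_lit 28) (nat_lit 4) (nat_lit 355) (nat_lit 257) (nat_lit 168)) (XT.lf (nat_lit 0) (nat_lit 352475039) (nat_lit 76) (nat_lit 20196422822) (nat_lit 152) (nat_lit 5779966707) (nat_lit 26) (nat_lit 5) (nat_lit 27) (nat_lit 5) (nat_lit 28) (nat_lit 4) (nat_lit 356) (nat_lit 257) (nat_lit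 167))))) (XT.nd (nat_lit 234) (nat_lit 76) (nat_lit 0) (XT.nd (nat_lit 78) (nat_lit 228) (nat_lit 0) (XT.lf (nat_lit 0) (nat_lit 9586295681) (nat_lit 76) (nat_lit 15555901357) (nat_lit 152) (nat_lit 1815806693) (nat_lit 26) (nat_lit 5) (nat_lit 27) (nat_lit 5) (nat_lit 28) (nat_lit 4) (nat_lit 357) (nat_lit 257) (nat_lit 166)) (XT.nd (nat_lit 78) (nat_lit 152) (nat_lit 0) (XT.lf (nat_lit 0) (nat_lit 2204197437) (nat_lit 152) (nat_lit 8563557072) (nat_lit 76) (nat_lit 16838182644) (nat_lit 25) (nat_lit 5) (nat_lit 27) (nat_lit 5) (nat_lit 26) (nat_lit 5) (nat_lit 358) (nat_lit 257) (nat_lit 165)) (XT.lf (nat_lit 0) (nat_lit 468075071) (nat_lit 152) (nat_lit 5826440885) (nat_lit 228) (nat_lit 21978675491) (nat_lit 23) (nat_lit 5) (nat_lit 25) (nat_lit 5) (nat_lit 26) (nat_lit 5) (nat_lit 359) (nat_lit 257) (nat_lit 164)))) (XT.nd (nat_lit 156) (nat_lit 76) (nat_lit 0) (XT.nd (nat_lit 78) (nat_lit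 0) (nat_lit 0) (XT.lf (nat_lit 0) (nat_lit 9914594722) (nat_lit 152) (nat_lit 661364082) (nat_lit 228) (nat_lit 18382460398) (nat_lit 23) (nat_lit 5) (nat_lit 25) (nat_lit 5) (nat_lit 26) (nat_lit 5) (nat_lit 360) (nat_lit 257) (nat_lit 163)) (XT.lf (nat_lit 0) (nat_lit 15012966126) (nat_lit 228) (nat_lit 10095568831) (nat_lit 76) (nat_lit 4554863229) (nat_lit 23) (nat_lit 5) (nat_lit 26) (nat_lit 5) (nat_lit 24) (nat_lit 4) (nat_lit 361) (nat_lit 257) (nat_lit 162))) (XT.nd (nat_lit 78) (nat_lit 76) (nat_lit 0) (XT.lf (nat_lit 0) (nat_lit 19572485469) (nat_lit 228) (nat_lit 915601116) (nat_lit 76) (nat_lit 9901765704) (nat_lit 23) (nat_lit 5) (nat_lit 26) (nat_lit 5) (nat_lit 24) (nat_lit 4) (nat_lit 362) (nat_lit 257) (nat_lit 161)) (XT.lf (nat_lit 0) (nat_lit 8679832223) (nat_lit 76) (nat_lit 15655747076) (nat_lit 152) (nat_lit 6800524619) (nat_lit 22) (nat_lit 5) (nat_lit 23) (nat_lit 5) (nat_lit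 24) (nat_lit 4) (nat_lit 363) (nat_lit 257) (nat_lit 160))))))))
noncomputable def xc98 : XT := (XT.nd (nat_lit 2028) (nat_lit 304) (nat_lit 0) (XT.nd (nat_lit 1014) (nat_lit 304) (nat_lit 0) (XT.nd (nat_lit 468) (nat_lit 228) (nat_lit 0) (XT.nd (nat_lit 234) (nat_lit 76) (nat_lit 0) (XT.nd (nat_lit 78) (nat_lit 228) (nat_lit 0) (XT.lf (nat_lit 0) (nat_lit 18552876627) (nat_lit 76) (nat_lit 10681494041) (nat_lit 152) (nat_lit 2670595641) (nat_lit 22) (nat_lit 5) (nat_lit 23) (nat_lit 5) (nat_lit 24) (nat_lit 4) (nat_lit 364) (nat_lit 257) (nat_lit 159)) (XT.nd (nat_lit 78) (nat_lit 152) (nat_lit 0) (XT.lf (nat_lit 0) (nat_lit 1536209434) (nat_lit 152) (nat_lit 4018504683) (nat_lit 76) (nat_lit 27142214630) (nat_lit 21) (nat_lit 5) (nat_lit 23) (nat_lit 5) (nat_lit 22) (nat_lit 5) (nat_lit 365) (nat_lit 257) (nat_lit 158)) (XT.lf (nat_lit 0) (nat_lit 5651249262) (nat_lit 152) (nat_lit 202958833)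 (nat_lit 228) (nat_lit 27656495474) (nat_lit 19) (nat_lit 5) (nat_lit 21) (nat_lit 5) (nat_lit 22) (nat_lit 5) (nat_lit 366) (nat_lit 257) (nat_lit 157)))) (XT.nd (nat_lit 78) (nat_lit 76) (nat_lit 0) (XT.lf (nat_lit 0) (nat_lit 10378184609) (nat_lit 228) (nat_lit 18733399231) (nat_lit 76) (nat_lit 5235021192) (nat_lit 19) (nat_lit 5) (nat_lit 22) (nat_lit 5) (nat_lit 20) (nat_lit 4) (nat_lit 367) (nat_lit 257) (nat_lit 156)) (XT.nd (nat_lit 78) (nat_lit 76) (nat_lit 0) (XT.lf (nat_lit 0) (nat_lit 15024764075) (nat_lit 228) (nat_lit 9362521232) (nat_lit 76) (nat_lit 10820698064) (nat_lit 19) (nat_lit 5) (nat_lit 22) (nat_lit 5) (nat_lit 20) (nat_lit 4) (nat_lit 368) (nat_lit 257) (nat_lit 155)) (XT.lf (nat_lit 0) (nat_lit 268559359) (nat_lit 76) (nat_lit 19530077845) (nat_lit 152) (nat_lit 16296935124) (nat_lit 18) (nat_lit 5) (nat_lit 19) (nat_lit 5) (nat_lit 20) (nat_lit 4) (nat_lit 369) (nat_lit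 257) (nat_lit 154))))) (XT.nd (nat_lit 234) (nat_lit 228) (nat_lit 0) (XT.nd (nat_lit 78) (nat_lit 0) (nat_lit 0) (XT.lf (nat_lit 0) (nat_lit 10354587079) (nat_lit 76) (nat_lit 14441175962) (nat_lit 152) (nat_lit 12211630796) (nat_lit 18) (nat_lit 5) (nat_lit 19) (nat_lit 5) (nat_lit 20) (nat_lit 4) (nat_lit 370) (nat_lit 257) (nat_lit 153)) (XT.nd (nat_lit 78) (nat_lit 0) (nat_lit 0) (XT.lf (nat_lit 0) (nat_lit 20718042433) (nat_lit 76) (nat_lit 9210676151) (nat_lit 152) (nat_lit 8018279735) (nat_lit 18) (nat_lit 5) (nat_lit 19) (nat_lit 5) (nat_lit 20) (nat_lit 4) (nat_lit 371) (nat_lit 257) (nat_lit 152)) (XT.lf (nat_lit 0) (nat_lit 31367980865) (nat_lit 76) (nat_lit 3834008073) (nat_lit 152) (nat_lit 3713217847) (nat_lit 18) (nat_lit 5) (nat_lit 19) (nat_lit 5) (nat_lit 20) (nat_lit 4) (nat_lit 372) (nat_lit 257) (nat_lit 151)))) (XT.nd (nat_lit 156) (nat_lit 0) (nat_lit 0) (XT.nd (nat_lit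 78) (nat_lit 0) (nat_lit 0) (XT.lf (nat_lit 0) (nat_lit 733564209) (nat_lit 228) (nat_lit 37486846146) (nat_lit 76) (nat_lit 1691049415) (nat_lit 15) (nat_lit 5) (nat_lit 18) (nat_lit 5) (nat_lit 16) (nat_lit 4) (nat_lit 373) (nat_lit 257) (nat_lit 150)) (XT.lf (nat_lit 0) (nat_lit 5340694058) (nat_lit 228) (nat_lit 28184522670) (nat_lit 76) (nat_lit 7408238549) (nat_lit 15) (nat_lit 5) (nat_lit 18) (nat_lit 5) (nat_lit 16) (nat_lit 4) (nat_lit 374) (nat_lit 257) (nat_lit 149))) (XT.nd (nat_lit 78) (nat_lit 0) (nat_lit 0) (XT.lf (nat_lit 0) (nat_lit 10073075760) (nat_lit 228) (nat_lit 18626477249) (nat_lit 76) (nat_lit 13286951508) (nat_lit 15) (nat_lit 5) (nat_lit 18) (nat_lit 5) (nat_lit 16) (nat_lit 4) (nat_lit 375) (nat_lit 257) (nat_lit 148)) (XT.lf (nat_lit 0) (nat_lit 14934844405) (nat_lit 228) (nat_lit 8804358193) (nat_lit 76) (nat_lit 19332325031) (nat_lit 15) (nat_lit 5) (nat_lit 18)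 (nat_lit 5) (nat_lit 16) (nat_lit 4) (nat_lit 376) (nat_lit 257) (nat_lit 147)))))) (XT.nd (nat_lit 468) (nat_lit 152) (nat_lit 0) (XT.nd (nat_lit 234) (nat_lit 76) (nat_lit 0) (XT.nd (nat_lit 78) (nat_lit 0) (nat_lit 0) (XT.lf (nat_lit 0) (nat_lit 1316098757) (nat_lit 76) (nat_lit 18626800530) (nat_lit 152) (nat_lit 24246193871) (nat_lit 14) (nat_lit 5) (nat_lit 15) (nat_lit 5) (nat_lit 16) (nat_lit 4) (nat_lit 377) (nat_lit 257) (nat_lit 146)) (XT.nd (nat_lit 78) (nat_lit 0) (nat_lit 0) (XT.lf (nat_lit 0) (nat_lit 11898858385) (nat_lit 76) (nat_lit 13279172604) (nat_lit 152) (nat_lit 20159854191) (nat_lit 14) (nat_lit 5) (nat_lit 15) (nat_lit 5) (nat_lit 16) (nat_lit 4) (nat_lit 378) (nat_lit 257) (nat_lit 145)) (XT.lf (nat_lit 0) (nat_lit 22777943770) (nat_lit 76) (nat_lit 7780552892) (nat_lit 152) (nat_lit 15963000349) (nat_lit 14) (nat_lit 5) (nat_lit 15) (nat_lit 5) (nat_lit 16) (nat_lit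 4) (nat_lit 379) (nat_lit 257) (nat_lit 144)))) (XT.nd (nat_lit 78) (nat_lit 76) (nat_lit 0) (XT.lf (nat_lit 0) (nat_lit 33962860909) (nat_lit 76) (nat_lit 2126136774) (nat_lit 152) (nat_lit 11651965192) (nat_lit 14) (nat_lit 5) (nat_lit 15) (nat_lit 5) (nat_lit 16) (nat_lit 4) (nat_lit 380) (nat_lit 257) (nat_lit 143)) (XT.nd (nat_lit 78) (nat_lit 76) (nat_lit 0) (XT.lf (nat_lit 0) (nat_lit 41809827611) (nat_lit 152) (nat_lit 3569426377) (nat_lit 0) (nat_lit 3617030502) (nat_lit 14) (nat_lit 5) (nat_lit 16) (nat_lit 4) (nat_lit 14) (nat_lit 4) (nat_lit 381) (nat_lit 257) (nat_lit 142)) (XT.lf (nat_lit 0) (nat_lit 7042274256) (nat_lit 76) (nat_lit 40737945228) (nat_lit 76) (nat_lit 2506712230) (nat_lit 13) (nat_lit 4) (nat_lit 14) (nat_lit 5) (nat_lit 14) (nat_lit 4) (nat_lit 382) (nat_lit 257) (nat_lit 141))))) (XT.nd (nat_lit 234) (nat_lit 76) (nat_lit 0) (XT.nd (nat_lit 78) (nat_lit 0) (nat_lit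 0) (XT.lf (nat_lit 0) (nat_lit 2293892715) (nat_lit 152) (nat_lit 33611947180) (nat_lit 76) (nat_lit 15709026818) (nat_lit 12) (nat_lit 5) (nat_lit 14) (nat_lit 5) (nat_lit 13) (nat_lit 4) (nat_lit 383) (nat_lit 257) (nat_lit 140)) (XT.nd (nat_lit 78) (nat_lit 0) (nat_lit 0) (XT.lf (nat_lit 0) (nat_lit 7177657771) (nat_lit 152) (nat_lit 23734133627) (nat_lit 76) (nat_lit 22070421790) (nat_lit 12) (nat_lit 5) (nat_lit 14) (nat_lit 5) (nat_lit 13) (nat_lit 4) (nat_lit 384) (nat_lit 257) (nat_lit 139)) (XT.lf (nat_lit 0) (nat_lit 12197765288) (nat_lit 152) (nat_lit 13578489651) (nat_lit 76) (nat_lit 28614633851) (nat_lit 12) (nat_lit 5) (nat_lit 14) (nat_lit 5) (nat_lit 13) (nat_lit 4) (nat_lit 385) (nat_lit 257) (nat_lit 138)))) (XT.nd (nat_lit 156) (nat_lit 0) (nat_lit 0) (XT.nd (nat_lit 78) (nat_lit 76) (nat_lit 0) (XT.lf (nat_lit 0) (nat_lit 17358601768) (nat_lit 152) (nat_lit 3136141386) (nat_lit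 76) (nat_lit 35347381245) (nat_lit 12) (nat_lit 5) (nat_lit 14) (nat_lit 5) (nat_lit 13) (nat_lit 4) (nat_lit 386) (nat_lit 257) (nat_lit 137)) (XT.lf (nat_lit 0) (nat_lit 7753330961) (nat_lit 76) (nat_lit 14985875477) (nat_lit 152) (nat_lit 34595745753) (nat_lit 11) (nat_lit 5) (nat_lit 12) (nat_lit 5) (nat_lit 13) (nat_lit 4) (nat_lit 387) (nat_lit 257) (nat_lit 136))) (XT.nd (nat_lit 78) (nat_lit 0) (nat_lit 0) (XT.lf (nat_lit 0) (nat_lit 19016504523) (nat_lit 76) (nat_lit 9286920148) (nat_lit 152) (nat_lit 30568477594) (nat_lit 11) (nat_lit 5) (nat_lit 12) (nat_lit 5) (nat_lit 13) (nat_lit 4) (nat_lit 388) (nat_lit 257) (nat_lit 135)) (XT.lf (nat_lit 0) (nat_lit 30600805545) (nat_lit 76) (nat_lit 3424566376) (nat_lit 152) (nat_lit 26429868061) (nat_lit 11) (nat_lit 5) (nat_lit 12) (nat_lit 5) (nat_lit 13) (nat_lit 4) (nat_lit 389) (nat_lit 257) (nat_lit 134))))))) (XT.nd (nat_lit 1014) (nat_lit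 76) (nat_lit 0) (XT.nd (nat_lit 468) (nat_lit 76) (nat_lit 0) (XT.nd (nat_lit 234) (nat_lit 76) (nat_lit 0) (XT.nd (nat_lit 78) (nat_lit 76) (nat_lit 0) (XT.lf (nat_lit 0) (nat_lit 39935101376) (nat_lit 152) (nat_lit 19595046039) (nat_lit 0) (nat_lit 2555449821) (nat_lit 11) (nat_lit 5) (nat_lit 13) (nat_lit 4) (nat_lit 11) (nat_lit 4) (nat_lit 390) (nat_lit 257) (nat_lit 133)) (XT.nd (nat_lit 78) (nat_lit 76) (nat_lit 0) (XT.lf (nat_lit 0) (nat_lit 46047291164) (nat_lit 152) (nat_lit 9077782320) (nat_lit 0) (nat_lit 8639039699) (nat_lit 11) (nat_lit 5) (nat_lit 13) (nat_lit 4) (nat_lit 11) (nat_lit 4) (nat_lit 391) (nat_lit 257) (nat_lit 132)) (XT.lf (nat_lit 0) (nat_lit 1774084364) (nat_lit 76) (nat_lit 50577332228) (nat_lit 76) (nat_lit 13141313860) (nat_lit 10) (nat_lit 4) (nat_lit 11) (nat_lit 5) (nat_lit 11) (nat_lit 4) (nat_lit 392) (nat_lit 257) (nat_lit 131)))) (XT.nd (nat_lit 78) (nat_lit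 76) (nat_lit 0) (XT.lf (nat_lit 0) (nat_lit 13122211256) (nat_lit 76) (nat_lit 45805737931) (nat_lit 76) (nat_lit 8342761404) (nat_lit 10) (nat_lit 4) (nat_lit 11) (nat_lit 5) (nat_lit 11) (nat_lit 4) (nat_lit 393) (nat_lit 257) (nat_lit 130)) (XT.nd (nat_lit 78) (nat_lit 76) (nat_lit 0) (XT.lf (nat_lit 0) (nat_lit 24795848527) (nat_lit 76) (nat_lit 40897789040) (nat_lit 76) (nat_lit 3408639544) (nat_lit 10) (nat_lit 4) (nat_lit 11) (nat_lit 5) (nat_lit 11) (nat_lit 4) (nat_lit 394) (nat_lit 257) (nat_lit 129)) (XT.lf (nat_lit 0) (nat_lit 1632865854) (nat_lit 152) (nat_lit 34199842460) (nat_lit 76) (nat_lit 35155841844) (nat_lit 9) (nat_lit 5) (nat_lit 11) (nat_lit 5) (nat_lit 10) (nat_lit 4) (nat_lit 395) (nat_lit 257) (nat_lit 128))))) (XT.nd (nat_lit 234) (nat_lit 76) (nat_lit 0) (XT.nd (nat_lit 78) (nat_lit 0) (nat_lit 0) (XT.lf (nat_lit 0) (nat_lit 6749354693) (nat_lit 152) (nat_lit 23838040651)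 (nat_lit 76) (nat_lit 42343238664) (nat_lit 9) (nat_lit 5) (nat_lit 11) (nat_lit 5) (nat_lit 10) (nat_lit 4) (nat_lit 396) (nat_lit 257) (nat_lit 127)) (XT.nd (nat_lit 78) (nat_lit 0) (nat_lit 0) (XT.lf (nat_lit 0) (nat_lit 12011812524) (nat_lit 152) (nat_lit 13179203229) (nat_lit 76) (nat_lit 49740192855) (nat_lit 9) (nat_lit 5) (nat_lit 11) (nat_lit 5) (nat_lit 10) (nat_lit 4) (nat_lit 397) (nat_lit 257) (nat_lit 126)) (XT.lf (nat_lit 0) (nat_lit 17424837612) (nat_lit 152) (nat_lit 2214016645) (nat_lit 76) (nat_lit 57353167774) (nat_lit 9) (nat_lit 5) (nat_lit 11) (nat_lit 5) (nat_lit 10) (nat_lit 4) (nat_lit 398) (nat_lit 257) (nat_lit 125)))) (XT.nd (nat_lit 156) (nat_lit 0) (nat_lit 0) (XT.nd (nat_lit 78) (nat_lit 0) (nat_lit 0) (XT.lf (nat_lit 0) (nat_lit 9247553405) (nat_lit 76) (nat_lit 13834499519) (nat_lit 152) (nat_lit 56030155270) (nat_lit 8) (nat_lit 5) (nat_lit 9) (nat_lit 5) (nat_lit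 10) (nat_lit 4) (nat_lit 399) (nat_lit 257) (nat_lit 124)) (XT.lf (nat_lit 0) (nat_lit 21085458220) (nat_lit 76) (nat_lit 7838872667) (nat_lit 152) (nat_lit 52371210923) (nat_lit 8) (nat_lit 5) (nat_lit 9) (nat_lit 5) (nat_lit 10) (nat_lit 4) (nat_lit 400) (nat_lit 257) (nat_lit 123))) (XT.nd (nat_lit 78) (nat_lit 0) (nat_lit 0) (XT.lf (nat_lit 0) (nat_lit 33265978327) (nat_lit 76) (nat_lit 1669092031) (nat_lit 152) (nat_lit 48609511470) (nat_lit 8) (nat_lit 5) (nat_lit 9) (nat_lit 5) (nat_lit 10) (nat_lit 4) (nat_lit 401) (nat_lit 257) (nat_lit 122)) (XT.lf (nat_lit 0) (nat_lit 41164512708) (nat_lit 152) (nat_lit 40106525795) (nat_lit 0) (nat_lit 4588905247) (nat_lit 8) (nat_lit 5) (nat_lit 10) (nat_lit 4) (nat_lit 8) (nat_lit 4) (nat_lit 402) (nat_lit 257) (nat_lit 121)))))) (XT.nd (nat_lit 29874) (nat_lit 0) (nat_lit 21812) (XT.nd (nat_lit 234) (nat_lit 76) (nat_lit 0) (XT.nd (nat_lit 78) (nat_lit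 0) (nat_lit 0) (XT.lf (nat_lit 0) (nat_lit 47590896119) (nat_lit 152) (nat_lit 29657757231) (nat_lit 0) (nat_lit 10995813509) (nat_lit 8) (nat_lit 5) (nat_lit 10) (nat_lit 4) (nat_lit 8) (nat_lit 4) (nat_lit 403) (nat_lit 257) (nat_lit 120)) (XT.nd (nat_lit 78) (nat_lit 0) (nat_lit 0) (XT.lf (nat_lit 0) (nat_lit 54203791542) (nat_lit 152) (nat_lit 18907123482) (nat_lit 0) (nat_lit 17589801023) (nat_lit 8) (nat_lit 5) (nat_lit 10) (nat_lit 4) (nat_lit 8) (nat_lit 4) (nat_lit 404) (nat_lit 257) (nat_lit 119)) (XT.lf (nat_lit 0) (nat_lit 61008977238) (nat_lit 152) (nat_lit 7845230792) (nat_lit 0) (nat_lit 24376629525) (nat_lit 8) (nat_lit 5) (nat_lit 10) (nat_lit 4) (nat_lit 8) (nat_lit 4) (nat_lit 405) (nat_lit 257) (nat_lit 118)))) (XT.nd (nat_lit 156) (nat_lit 0) (nat_lit 0) (XT.nd (nat_lit 78) (nat_lit 0) (nat_lit 0) (XT.lf (nat_lit 0) (nat_lit 3607991479) (nat_lit 76) (nat_lit 64439090226) (nat_lit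 76) (nat_lit 27788919994) (nat_lit 7) (nat_lit 4) (nat_lit 8) (nat_lit 5) (nat_lit 8) (nat_lit 4) (nat_lit 406) (nat_lit 257) (nat_lit 117)) (XT.lf (nat_lit 0) (nat_lit 15554805029) (nat_lit 76) (nat_lit 59814895048) (nat_lit 76) (nat_lit 23147421399) (nat_lit 7) (nat_lit 4) (nat_lit 8) (nat_lit 5) (nat_lit 8) (nat_lit 4) (nat_lit 407) (nat_lit 257) (nat_lit 116))) (XT.nd (nat_lit 29406) (nat_lit 0) (nat_lit 23180) (XT.lf (nat_lit 0) (nat_lit 27849513345) (nat_lit 76) (nat_lit 55056803385) (nat_lit 76) (nat_lit 18372530304) (nat_lit 7) (nat_lit 4) (nat_lit 8) (nat_lit 5) (nat_lit 8) (nat_lit 4) (nat_lit 408) (nat_lit 257) (nat_lit 115)) (XT.lf (nat_lit 0) (nat_lit 2969252491) (nat_lit 76) (nat_lit 130408711) (nat_lit 76) (nat_lit 130408711) (nat_lit 312) (nat_lit 4) (nat_lit 313) (nat_lit 5) (nat_lit 313) (nat_lit 4) (nat_lit 264) (nat_lit 258) (nat_lit 258))))) (XT.nd (nat_lit 234) (nat_lit 836)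 (nat_lit 0) (XT.nd (nat_lit 78) (nat_lit 304) (nat_lit 0) (XT.lf (nat_lit 0) (nat_lit 2683368603) (nat_lit 228) (nat_lit 3736563119) (nat_lit 0) (nat_lit 50312862) (nat_lit 309) (nat_lit 5) (nat_lit 312) (nat_lit 4) (nat_lit 309) (nat_lit 4) (nat_lit 265) (nat_lit 258) (nat_lit 257)) (XT.nd (nat_lit 78) (nat_lit 304) (nat_lit 0) (XT.lf (nat_lit 0) (nat_lit 5609046056) (nat_lit 228) (nat_lit 455221951) (nat_lit 0) (nat_lit 419625517) (nat_lit 309) (nat_lit 5) (nat_lit 312) (nat_lit 4) (nat_lit 309) (nat_lit 4) (nat_lit 266) (nat_lit 258) (nat_lit 256)) (XT.lf (nat_lit 0) (nat_lit 2003782670) (nat_lit 304) (nat_lit 3603649288) (nat_lit 76) (nat_lit 892541565) (nat_lit 305) (nat_lit 5) (nat_lit 309) (nat_lit 5) (nat_lit 306) (nat_lit 4) (nat_lit 267) (nat_lit 258) (nat_lit 255)))) (XT.nd (nat_lit 156) (nat_lit 456) (nat_lit 0) (XT.nd (nat_lit 78) (nat_lit 380) (nat_lit 0) (XT.lf (nat_lit 0) (nat_lit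 4850725848) (nat_lit 304) (nat_lit 233973636) (nat_lit 76) (nat_lit 1434838228) (nat_lit 305) (nat_lit 5) (nat_lit 309) (nat_lit 5) (nat_lit 306) (nat_lit 4) (nat_lit 268) (nat_lit 258) (nat_lit 254)) (XT.lf (nat_lit 0) (nat_lit 1147243040) (nat_lit 380) (nat_lit 3318057952) (nat_lit 76) (nat_lit 2076419296) (nat_lit 300) (nat_lit 5) (nat_lit 305) (nat_lit 5) (nat_lit 301) (nat_lit 5) (nat_lit 269) (nat_lit 258) (nat_lit 253))) (XT.nd (nat_lit 78) (nat_lit 76) (nat_lit 0) (XT.lf (nat_lit 0) (nat_lit 145338754) (nat_lit 380) (nat_lit 3771779694) (nat_lit 456) (nat_lit 2650094547) (nat_lit 295) (nat_lit 5) (nat_lit 300) (nat_lit 5) (nat_lit 301) (nat_lit 5) (nat_lit 270) (nat_lit 258) (nat_lit 252)) (XT.lf (nat_lit 0) (nat_lit 107223970) (nat_lit 456) (nat_lit 2881667642) (nat_lit 76) (nat_lit 3606720149) (nat_lit 294) (nat_lit 5) (nat_lit 300) (nat_lit 5) (nat_lit 295) (nat_lit 5) (nat_lit 271)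 (nat_lit 258) (nat_lit 251))))))))
noncomputable def xc99 : XT := (XT.nd (nat_lit 2028) (nat_lit 5928) (nat_lit 0) (XT.nd (nat_lit 1014) (nat_lit 6232) (nat_lit 0) (XT.nd (nat_lit 468) (nat_lit 3344) (nat_lit 0) (XT.nd (nat_lit 234) (nat_lit 684) (nat_lit 0) (XT.nd (nat_lit 78) (nat_lit 608) (nat_lit 0) (XT.lf (nat_lit 0) (nat_lit 686042182) (nat_lit 456) (nat_lit 2117669854) (nat_lit 532) (nat_lit 3823279377) (nat_lit 288) (nat_lit 5) (nat_lit 294) (nat_lit 5) (nat_lit 295) (nat_lit 5) (nat_lit 272) (nat_lit 258) (nat_lit 250)) (XT.nd (nat_lit 78) (nat_lit 608) (nat_lit 0) (XT.lf (nat_lit 0) (nat_lit 4354648701) (nat_lit 456) (nat_lit 1160859808) (nat_lit 532) (nat_lit 1145972999) (nat_lit 288) (nat_lit 5) (nat_lit 294) (nat_lit 5) (nat_lit 295) (nat_lit 5) (nat_lit 273) (nat_lit 258) (nat_lit 249)) (XT.lf (nat_lit 0) (nat_lit 1382443234) (nat_lit 532) (nat_lit 118019523) (nat_lit 608) (nat_lit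 5198660903) (nat_lit 280) (nat_lit 5) (nat_lit 287) (nat_lit 5) (nat_lit 288) (nat_lit 5) (nat_lit 274) (nat_lit 258) (nat_lit 248)))) (XT.nd (nat_lit 78) (nat_lit 684) (nat_lit 0) (XT.lf (nat_lit 0) (nat_lit 4145284685) (nat_lit 608) (nat_lit 1596150729) (nat_lit 76) (nat_lit 998042863) (nat_lit 280) (nat_lit 5) (nat_lit 288) (nat_lit 5) (nat_lit 281) (nat_lit 5) (nat_lit 275) (nat_lit 258) (nat_lit 247)) (XT.nd (nat_lit 78) (nat_lit 0) (nat_lit 0) (XT.lf (nat_lit 0) (nat_lit 20241622) (nat_lit 684) (nat_lit 4571292536) (nat_lit 76) (nat_lit 2191650894) (nat_lit 271) (nat_lit 5) (nat_lit 280) (nat_lit 5) (nat_lit 272) (nat_lit 5) (nat_lit 276) (nat_lit 258) (nat_lit 246)) (XT.lf (nat_lit 0) (nat_lit 2590112734) (nat_lit 684) (nat_lit 753819814) (nat_lit 76) (nat_lit 3485794346) (nat_lit 271) (nat_lit 5) (nat_lit 280) (nat_lit 5) (nat_lit 272) (nat_lit 5) (nat_lit 277) (nat_lit 258) (nat_lit 245)))))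 (XT.nd (nat_lit 234) (nat_lit 1824) (nat_lit 0) (XT.nd (nat_lit 78) (nat_lit 836) (nat_lit 0) (XT.lf (nat_lit 0) (nat_lit 3174935160) (nat_lit 684) (nat_lit 2008068109) (nat_lit 760) (nat_lit 1696447835) (nat_lit 262) (nat_lit 5) (nat_lit 271) (nat_lit 5) (nat_lit 272) (nat_lit 5) (nat_lit 278) (nat_lit 258) (nat_lit 244)) (XT.nd (nat_lit 78) (nat_lit 0) (nat_lit 0) (XT.lf (nat_lit 0) (nat_lit 235842955) (nat_lit 760) (nat_lit 595385745) (nat_lit 836) (nat_lit 6101539772) (nat_lit 251) (nat_lit 5) (nat_lit 261) (nat_lit 5) (nat_lit 262) (nat_lit 5) (nat_lit 279) (nat_lit 258) (nat_lit 243)) (XT.lf (nat_lit 0) (nat_lit 3364915620) (nat_lit 836) (nat_lit 2710132550) (nat_lit 76) (nat_lit 913354894) (nat_lit 251) (nat_lit 5) (nat_lit 262) (nat_lit 5) (nat_lit 252) (nat_lit 5) (nat_lit 280) (nat_lit 258) (nat_lit 242)))) (XT.nd (nat_lit 156) (nat_lit 912) (nat_lit 0) (XT.nd (nat_lit 78) (nat_lit 76)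 (nat_lit 0) (XT.lf (nat_lit 0) (nat_lit 1350221475) (nat_lit 836) (nat_lit 4563881793) (nat_lit 912) (nat_lit 1133564267) (nat_lit 240) (nat_lit 5) (nat_lit 251) (nat_lit 5) (nat_lit 252) (nat_lit 5) (nat_lit 281) (nat_lit 258) (nat_lit 241)) (XT.lf (nat_lit 0) (nat_lit 1352156905) (nat_lit 912) (nat_lit 1601520221) (nat_lit 76) (nat_lit 4156286553) (nat_lit 239) (nat_lit 5) (nat_lit 251) (nat_lit 5) (nat_lit 240) (nat_lit 5) (nat_lit 282) (nat_lit 258) (nat_lit 240))) (XT.nd (nat_lit 78) (nat_lit 0) (nat_lit 0) (XT.lf (nat_lit 0) (nat_lit 2591042573) (nat_lit 912) (nat_lit 1247207376) (nat_lit 988) (nat_lit 3337217737) (nat_lit 227) (nat_lit 5) (nat_lit 239) (nat_lit 5) (nat_lit 240) (nat_lit 5) (nat_lit 283) (nat_lit 258) (nat_lit 239)) (XT.lf (nat_lit 0) (nat_lit 6345534912) (nat_lit 988) (nat_lit 372706939) (nat_lit 76) (nat_lit 526426002) (nat_lit 227) (nat_lit 5) (nat_lit 240) (nat_lit 5)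 (nat_lit 228) (nat_lit 5) (nat_lit 284) (nat_lit 258) (nat_lit 238)))))) (XT.nd (nat_lit 468) (nat_lit 2280) (nat_lit 0) (XT.nd (nat_lit 234) (nat_lit 1824) (nat_lit 0) (XT.nd (nat_lit 78) (nat_lit 1064) (nat_lit 0) (XT.lf (nat_lit 0) (nat_lit 1558301519) (nat_lit 1064) (nat_lit 3367059348) (nat_lit 76) (nat_lit 2390910206) (nat_lit 213) (nat_lit 5) (nat_lit 227) (nat_lit 5) (nat_lit 214) (nat_lit 5) (nat_lit 285) (nat_lit 258) (nat_lit 237)) (XT.nd (nat_lit 78) (nat_lit 0) (nat_lit 0) (XT.lf (nat_lit 0) (nat_lit 962008612) (nat_lit 1064) (nat_lit 3050636020) (nat_lit 1140) (nat_lit 3378991310) (nat_lit 199) (nat_lit 5) (nat_lit 213) (nat_lit 5) (nat_lit 214) (nat_lit 5) (nat_lit 286) (nat_lit 258) (nat_lit 236)) (XT.lf (nat_lit 0) (nat_lit 5424277780) (nat_lit 1064) (nat_lit 1080009495) (nat_lit 1140) (nat_lit 966179298) (nat_lit 199) (nat_lit 5) (nat_lit 213) (nat_lit 5) (nat_lit 214) (nat_lit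 5) (nat_lit 287) (nat_lit 258) (nat_lit 235)))) (XT.nd (nat_lit 78) (nat_lit 608) (nat_lit 0) (XT.lf (nat_lit 0) (nat_lit 1453270144) (nat_lit 1216) (nat_lit 5125811310) (nat_lit 76) (nat_lit 973334077) (nat_lit 183) (nat_lit 5) (nat_lit 199) (nat_lit 5) (nat_lit 184) (nat_lit 5) (nat_lit 288) (nat_lit 258) (nat_lit 234)) (XT.nd (nat_lit 78) (nat_lit 608) (nat_lit 0) (XT.lf (nat_lit 0) (nat_lit 3889795540) (nat_lit 1216) (nat_lit 647927877) (nat_lit 76) (nat_lit 3100000349) (nat_lit 183) (nat_lit 5) (nat_lit 199) (nat_lit 5) (nat_lit 184) (nat_lit 5) (nat_lit 289) (nat_lit 258) (nat_lit 233)) (XT.lf (nat_lit 0) (nat_lit 3977057207) (nat_lit 608) (nat_lit 2394911222) (nat_lit 684) (nat_lit 1354548348) (nat_lit 175) (nat_lit 5) (nat_lit 183) (nat_lit 5) (nat_lit 184) (nat_lit 5) (nat_lit 290) (nat_lit 258) (nat_lit 232))))) (XT.nd (nat_lit 234) (nat_lit 1064) (nat_lit 0) (XT.nd (nat_lit 78) (nat_lit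 532) (nat_lit 0) (XT.lf (nat_lit 0) (nat_lit 877072376) (nat_lit 608) (nat_lit 161809612) (nat_lit 684) (nat_lit 6780369883) (nat_lit 166) (nat_lit 5) (nat_lit 174) (nat_lit 5) (nat_lit 175) (nat_lit 5) (nat_lit 291) (nat_lit 258) (nat_lit 231)) (XT.nd (nat_lit 78) (nat_lit 532) (nat_lit 0) (XT.lf (nat_lit 0) (nat_lit 3471826249) (nat_lit 684) (nat_lit 2295666385) (nat_lit 76) (nat_lit 2147119378) (nat_lit 166) (nat_lit 5) (nat_lit 175) (nat_lit 5) (nat_lit 167) (nat_lit 5) (nat_lit 292) (nat_lit 258) (nat_lit 230)) (XT.lf (nat_lit 0) (nat_lit 2471872249) (nat_lit 532) (nat_lit 3469254207) (nat_lit 608) (nat_lit 2072896170) (nat_lit 159) (nat_lit 5) (nat_lit 166) (nat_lit 5) (nat_lit 167) (nat_lit 5) (nat_lit 293) (nat_lit 258) (nat_lit 229)))) (XT.nd (nat_lit 156) (nat_lit 456) (nat_lit 0) (XT.nd (nat_lit 78) (nat_lit 532) (nat_lit 0) (XT.lf (nat_lit 0) (nat_lit 322821565) (nat_lit 608) (nat_lit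 755667027) (nat_lit 76) (nat_lit 7039048883) (nat_lit 158) (nat_lit 5) (nat_lit 166) (nat_lit 5) (nat_lit 159) (nat_lit 5) (nat_lit 294) (nat_lit 258) (nat_lit 228)) (XT.lf (nat_lit 0) (nat_lit 2743006171) (nat_lit 608) (nat_lit 4066551918) (nat_lit 76) (nat_lit 1414239214) (nat_lit 151) (nat_lit 5) (nat_lit 159) (nat_lit 5) (nat_lit 152) (nat_lit 5) (nat_lit 295) (nat_lit 258) (nat_lit 227))) (XT.nd (nat_lit 78) (nat_lit 0) (nat_lit 0) (XT.lf (nat_lit 0) (nat_lit 840740835) (nat_lit 456) (nat_lit 4362903978) (nat_lit 532) (nat_lit 3130645240) (nat_lit 145) (nat_lit 5) (nat_lit 151) (nat_lit 5) (nat_lit 152) (nat_lit 5) (nat_lit 296) (nat_lit 258) (nat_lit 226)) (XT.lf (nat_lit 0) (nat_lit 5914318288) (nat_lit 456) (nat_lit 1807320172) (nat_lit 532) (nat_lit 727031288) (nat_lit 145) (nat_lit 5) (nat_lit 151) (nat_lit 5) (nat_lit 152) (nat_lit 5) (nat_lit 297) (nat_lit 258) (nat_lit 225)))))))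 (XT.nd (nat_lit 1014) (nat_lit 2356) (nat_lit 0) (XT.nd (nat_lit 468) (nat_lit 1596) (nat_lit 0) (XT.nd (nat_lit 234) (nat_lit 912) (nat_lit 0) (XT.nd (nat_lit 78) (nat_lit 456) (nat_lit 0) (XT.lf (nat_lit 0) (nat_lit 1690800202) (nat_lit 608) (nat_lit 6032468364) (nat_lit 76) (nat_lit 843494757) (nat_lit 137) (nat_lit 5) (nat_lit 145) (nat_lit 5) (nat_lit 138) (nat_lit 5) (nat_lit 298) (nat_lit 258) (nat_lit 224)) (XT.nd (nat_lit 78) (nat_lit 456) (nat_lit 0) (XT.lf (nat_lit 0) (nat_lit 4154780285) (nat_lit 608) (nat_lit 970683473) (nat_lit 76) (nat_lit 3563144808) (nat_lit 137) (nat_lit 5) (nat_lit 145) (nat_lit 5) (nat_lit 138) (nat_lit 5) (nat_lit 299) (nat_lit 258) (nat_lit 223)) (XT.lf (nat_lit 0) (nat_lit 4263373944) (nat_lit 456) (nat_lit 2416391508) (nat_lit 532) (nat_lit 2134800653) (nat_lit 131) (nat_lit 5) (nat_lit 137) (nat_lit 5) (nat_lit 138) (nat_lit 5) (nat_lit 300) (nat_lit 258)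 (nat_lit 222)))) (XT.nd (nat_lit 78) (nat_lit 380) (nat_lit 0) (XT.lf (nat_lit 0) (nat_lit 296224291) (nat_lit 532) (nat_lit 8272145790) (nat_lit 76) (nat_lit 376903254) (nat_lit 124) (nat_lit 5) (nat_lit 131) (nat_lit 5) (nat_lit 125) (nat_lit 5) (nat_lit 301) (nat_lit 258) (nat_lit 221)) (XT.nd (nat_lit 78) (nat_lit 380) (nat_lit 0) (XT.lf (nat_lit 0) (nat_lit 2774955117) (nat_lit 532) (nat_lit 3040780150) (nat_lit 76) (nat_lit 3263065552) (nat_lit 124) (nat_lit 5) (nat_lit 131) (nat_lit 5) (nat_lit 125) (nat_lit 5) (nat_lit 302) (nat_lit 258) (nat_lit 220)) (XT.lf (nat_lit 0) (nat_lit 2330663777) (nat_lit 380) (nat_lit 2968666203) (nat_lit 456) (nat_lit 3917927445) (nat_lit 119) (nat_lit 5) (nat_lit 124) (nat_lit 5) (nat_lit 125) (nat_lit 5) (nat_lit 303) (nat_lit 258) (nat_lit 219))))) (XT.nd (nat_lit 234) (nat_lit 760) (nat_lit 0) (XT.nd (nat_lit 78) (nat_lit 836) (nat_lit 0) (XT.lf (nat_lit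 0) (nat_lit 7863852909) (nat_lit 380) (nat_lit 16063027) (nat_lit 456) (nat_lit 1480597360) (nat_lit 119) (nat_lit 5) (nat_lit 124) (nat_lit 5) (nat_lit 125) (nat_lit 5) (nat_lit 304) (nat_lit 258) (nat_lit 218)) (XT.nd (nat_lit 78) (nat_lit 380) (nat_lit 0) (XT.lf (nat_lit 0) (nat_lit 1028965117) (nat_lit 456) (nat_lit 5474193722) (nat_lit 76) (nat_lit 3004091278) (nat_lit 113) (nat_lit 5) (nat_lit 119) (nat_lit 5) (nat_lit 114) (nat_lit 5) (nat_lit 305) (nat_lit 258) (nat_lit 217)) (XT.lf (nat_lit 0) (nat_lit 25165337) (nat_lit 380) (nat_lit 3525992481) (nat_lit 456) (nat_lit 6107833260) (nat_lit 108) (nat_lit 5) (nat_lit 113) (nat_lit 5) (nat_lit 114) (nat_lit 5) (nat_lit 306) (nat_lit 258) (nat_lit 216)))) (XT.nd (nat_lit 156) (nat_lit 380) (nat_lit 0) (XT.nd (nat_lit 78) (nat_lit 380) (nat_lit 0) (XT.lf (nat_lit 0) (nat_lit 5740559546) (nat_lit 380) (nat_lit 415999857) (nat_lit 456) (nat_lit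 3658551846) (nat_lit 108) (nat_lit 5) (nat_lit 113) (nat_lit 5) (nat_lit 114) (nat_lit 5) (nat_lit 307) (nat_lit 258) (nat_lit 215)) (XT.lf (nat_lit 0) (nat_lit 1595137662) (nat_lit 380) (nat_lit 7240641513) (nat_lit 456) (nat_lit 1140317890) (nat_lit 103) (nat_lit 5) (nat_lit 108) (nat_lit 5) (nat_lit 109) (nat_lit 5) (nat_lit 308) (nat_lit 258) (nat_lit 214))) (XT.nd (nat_lit 78) (nat_lit 304) (nat_lit 0) (XT.lf (nat_lit 0) (nat_lit 1424575607) (nat_lit 456) (nat_lit 2701803545) (nat_lit 76) (nat_lit 6015178665) (nat_lit 102) (nat_lit 5) (nat_lit 108) (nat_lit 5) (nat_lit 103) (nat_lit 5) (nat_lit 309) (nat_lit 258) (nat_lit 213)) (XT.lf (nat_lit 0) (nat_lit 3138386974) (nat_lit 304) (nat_lit 890426951) (nat_lit 380) (nat_lit 6283317576) (nat_lit 98) (nat_lit 5) (nat_lit 102) (nat_lit 5) (nat_lit 103) (nat_lit 5) (nat_lit 310) (nat_lit 258) (nat_lit 212)))))) (XT.nd (nat_lit 546) (nat_lit 912)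 (nat_lit 0) (XT.nd (nat_lit 234) (nat_lit 988) (nat_lit 0) (XT.nd (nat_lit 78) (nat_lit 456) (nat_lit 0) (XT.lf (nat_lit 0) (nat_lit 6717963050) (nat_lit 380) (nat_lit 1361524859) (nat_lit 76) (nat_lit 2408176932) (nat_lit 98) (nat_lit 5) (nat_lit 103) (nat_lit 5) (nat_lit 99) (nat_lit 5) (nat_lit 311) (nat_lit 258) (nat_lit 211)) (XT.nd (nat_lit 78) (nat_lit 76) (nat_lit 0) (XT.lf (nat_lit 0) (nat_lit 4648766700) (nat_lit 380) (nat_lit 4849562464) (nat_lit 456) (nat_lit 1169863357) (nat_lit 93) (nat_lit 5) (nat_lit 98) (nat_lit 5) (nat_lit 99) (nat_lit 5) (nat_lit 312) (nat_lit 258) (nat_lit 210)) (XT.lf (nat_lit 0) (nat_lit 1449705230) (nat_lit 456) (nat_lit 59592900) (nat_lit 76) (nat_lit 9345310266) (nat_lit 92) (nat_lit 5) (nat_lit 98) (nat_lit 5) (nat_lit 93) (nat_lit 5) (nat_lit 313) (nat_lit 258) (nat_lit 209)))) (XT.nd (nat_lit 156) (nat_lit 380) (nat_lit 0) (XT.nd (nat_lit 78) (nat_lit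 304) (nat_lit 0) (XT.lf (nat_lit 0) (nat_lit 4160910487) (nat_lit 380) (nat_lit 4934635556) (nat_lit 76) (nat_lit 1949667168) (nat_lit 88) (nat_lit 5) (nat_lit 93) (nat_lit 5) (nat_lit 89) (nat_lit 5) (nat_lit 314) (nat_lit 258) (nat_lit 208)) (XT.lf (nat_lit 0) (nat_lit 1176190102) (nat_lit 304) (nat_lit 5763158765) (nat_lit 380) (nat_lit 4302650037) (nat_lit 84) (nat_lit 5) (nat_lit 88) (nat_lit 5) (nat_lit 89) (nat_lit 5) (nat_lit 315) (nat_lit 258) (nat_lit 207))) (XT.nd (nat_lit 78) (nat_lit 380) (nat_lit 0) (XT.lf (nat_lit 0) (nat_lit 7514689258) (nat_lit 304) (nat_lit 2295967683) (nat_lit 380) (nat_lit 1633784217) (nat_lit 84) (nat_lit 5) (nat_lit 88) (nat_lit 5) (nat_lit 89) (nat_lit 5) (nat_lit 316) (nat_lit 258) (nat_lit 206)) (XT.lf (nat_lit 0) (nat_lit 1089037053) (nat_lit 380) (nat_lit 9295669481) (nat_lit 76) (nat_lit 1268095339) (nat_lit 79) (nat_lit 5) (nat_lit 84) (nat_lit 5)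 (nat_lit 80) (nat_lit 5) (nat_lit 317) (nat_lit 258) (nat_lit 205))))) (XT.nd (nat_lit 234) (nat_lit 608) (nat_lit 0) (XT.nd (nat_lit 78) (nat_lit 304) (nat_lit 0) (XT.lf (nat_lit 0) (nat_lit 3884411083) (nat_lit 380) (nat_lit 3048816880) (nat_lit 76) (nat_lit 4933024218) (nat_lit 79) (nat_lit 5) (nat_lit 84) (nat_lit 5) (nat_lit 80) (nat_lit 5) (nat_lit 318) (nat_lit 258) (nat_lit 204)) (XT.nd (nat_lit 78) (nat_lit 0) (nat_lit 0) (XT.lf (nat_lit 0) (nat_lit 3396899967) (nat_lit 304) (nat_lit 3361435877) (nat_lit 380) (nat_lit 5327963664) (nat_lit 75) (nat_lit 5) (nat_lit 79) (nat_lit 5) (nat_lit 80) (nat_lit 5) (nat_lit 319) (nat_lit 258) (nat_lit 203)) (XT.lf (nat_lit 0) (nat_lit 9715080098) (nat_lit 380) (nat_lit 2272177095) (nat_lit 76) (nat_lit 325826209) (nat_lit 75) (nat_lit 5) (nat_lit 80) (nat_lit 5) (nat_lit 76) (nat_lit 5) (nat_lit 320) (nat_lit 258) (nat_lit 202)))) (XT.nd (nat_lit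 156) (nat_lit 304) (nat_lit 0) (XT.nd (nat_lit 78) (nat_lit 0) (nat_lit 0) (XT.lf (nat_lit 0) (nat_lit 248537802) (nat_lit 304) (nat_lit 8212780056) (nat_lit 76) (nat_lit 4084156926) (nat_lit 71) (nat_lit 5) (nat_lit 75) (nat_lit 5) (nat_lit 72) (nat_lit 5) (nat_lit 321) (nat_lit 258) (nat_lit 201)) (XT.lf (nat_lit 0) (nat_lit 3115145414) (nat_lit 304) (nat_lit 1681707220) (nat_lit 76) (nat_lit 7987637344) (nat_lit 71) (nat_lit 5) (nat_lit 75) (nat_lit 5) (nat_lit 72) (nat_lit 5) (nat_lit 322) (nat_lit 258) (nat_lit 200))) (XT.nd (nat_lit 78) (nat_lit 0) (nat_lit 0) (XT.lf (nat_lit 0) (nat_lit 5092339750) (nat_lit 304) (nat_lit 989134867) (nat_lit 380) (nat_lit 6948818808) (nat_lit 67) (nat_lit 5) (nat_lit 71) (nat_lit 5) (nat_lit 72) (nat_lit 5) (nat_lit 323) (nat_lit 258) (nat_lit 199)) (XT.lf (nat_lit 0) (nat_lit 9147271901) (nat_lit 380) (nat_lit 1259960197) (nat_lit 76) (nat_lit 2875953168)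 (nat_lit 67) (nat_lit 5) (nat_lit 72) (nat_lit 5) (nat_lit 68) (nat_lit 5) (nat_lit 324) (nat_lit 258) (nat_lit 198))))))))
noncomputable def xc100 : XT := (XT.nd (nat_lit 2028) (nat_lit 1292) (nat_lit 0) (XT.nd (nat_lit 1014) (nat_lit 988) (nat_lit 0) (XT.nd (nat_lit 468) (nat_lit 912) (nat_lit 0) (XT.nd (nat_lit 234) (nat_lit 228) (nat_lit 0) (XT.nd (nat_lit 78) (nat_lit 304) (nat_lit 0) (XT.lf (nat_lit 0) (nat_lit 5667998249) (nat_lit 228) (nat_lit 6667474102) (nat_lit 304) (nat_lit 1207306438) (nat_lit 64) (nat_lit 5) (nat_lit 67) (nat_lit 5) (nat_lit 68) (nat_lit 5) (nat_lit 325) (nat_lit 258) (nat_lit 197)) (XT.nd (nat_lit 78) (nat_lit 228) (nat_lit 0) (XT.lf (nat_lit 0) (nat_lit 1752998181) (nat_lit 304) (nat_lit 1049051442) (nat_lit 76) (nat_lit 11008240700) (nat_lit 63) (nat_lit 5) (nat_lit 67) (nat_lit 5) (nat_lit 64) (nat_lit 5) (nat_lit 326) (nat_lit 258) (nat_lit 196)) (XT.lf (nat_lit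 0) (nat_lit 4815021559) (nat_lit 304) (nat_lit 8059174564) (nat_lit 76) (nat_lit 1210182661) (nat_lit 60) (nat_lit 5) (nat_lit 64) (nat_lit 5) (nat_lit 61) (nat_lit 5) (nat_lit 327) (nat_lit 258) (nat_lit 195)))) (XT.nd (nat_lit 78) (nat_lit 228) (nat_lit 0) (XT.lf (nat_lit 0) (nat_lit 7974935784) (nat_lit 304) (nat_lit 1111249382) (nat_lit 76) (nat_lit 5280348531) (nat_lit 60) (nat_lit 5) (nat_lit 64) (nat_lit 5) (nat_lit 61) (nat_lit 5) (nat_lit 328) (nat_lit 258) (nat_lit 194)) (XT.nd (nat_lit 78) (nat_lit 0) (nat_lit 0) (XT.lf (nat_lit 0) (nat_lit 6115694120) (nat_lit 228) (nat_lit 5141273955) (nat_lit 304) (nat_lit 3399389547) (nat_lit 57) (nat_lit 5) (nat_lit 60) (nat_lit 5) (nat_lit 61) (nat_lit 5) (nat_lit 329) (nat_lit 258) (nat_lit 193)) (XT.lf (nat_lit 0) (nat_lit 13533944821) (nat_lit 228) (nat_lit 1083723217) (nat_lit 304) (nat_lit 337825312) (nat_lit 57) (nat_lit 5) (nat_lit 60)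 (nat_lit 5) (nat_lit 61) (nat_lit 5) (nat_lit 330) (nat_lit 258) (nat_lit 192))))) (XT.nd (nat_lit 234) (nat_lit 456) (nat_lit 0) (XT.nd (nat_lit 78) (nat_lit 152) (nat_lit 0) (XT.lf (nat_lit 0) (nat_lit 2817860024) (nat_lit 304) (nat_lit 9339704238) (nat_lit 76) (nat_lit 3103532389) (nat_lit 53) (nat_lit 5) (nat_lit 57) (nat_lit 5) (nat_lit 54) (nat_lit 5) (nat_lit 331) (nat_lit 258) (nat_lit 191)) (XT.nd (nat_lit 78) (nat_lit 152) (nat_lit 0) (XT.lf (nat_lit 0) (nat_lit 6056491616) (nat_lit 304) (nat_lit 2123686072) (nat_lit 76) (nat_lit 7395759359) (nat_lit 53) (nat_lit 5) (nat_lit 57) (nat_lit 5) (nat_lit 54) (nat_lit 5) (nat_lit 332) (nat_lit 258) (nat_lit 190)) (XT.lf (nat_lit 0) (nat_lit 5367143248) (nat_lit 152) (nat_lit 4047448392) (nat_lit 228) (nat_lit 6484982420) (nat_lit 51) (nat_lit 5) (nat_lit 53) (nat_lit 5) (nat_lit 54) (nat_lit 5) (nat_lit 333) (nat_lit 258) (nat_lit 189))))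 (XT.nd (nat_lit 156) (nat_lit 228) (nat_lit 0) (XT.nd (nat_lit 78) (nat_lit 228) (nat_lit 0) (XT.lf (nat_lit 0) (nat_lit 12868067932) (nat_lit 228) (nat_lit 3154938652) (nat_lit 76) (nat_lit 210094688) (nat_lit 51) (nat_lit 5) (nat_lit 54) (nat_lit 5) (nat_lit 52) (nat_lit 5) (nat_lit 334) (nat_lit 258) (nat_lit 188)) (XT.lf (nat_lit 0) (nat_lit 4445237545) (nat_lit 228) (nat_lit 12034525065) (nat_lit 304) (nat_lit 95252767) (nat_lit 48) (nat_lit 5) (nat_lit 51) (nat_lit 5) (nat_lit 52) (nat_lit 5) (nat_lit 335) (nat_lit 258) (nat_lit 187))) (XT.nd (nat_lit 78) (nat_lit 152) (nat_lit 0) (XT.lf (nat_lit 0) (nat_lit 3212840714) (nat_lit 304) (nat_lit 4665355708) (nat_lit 76) (nat_lit 9047942710) (nat_lit 47) (nat_lit 5) (nat_lit 51) (nat_lit 5) (nat_lit 48) (nat_lit 5) (nat_lit 336) (nat_lit 258) (nat_lit 186)) (XT.lf (nat_lit 0) (nat_lit 3037203469) (nat_lit 152) (nat_lit 3582978766) (nat_lit 228)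 (nat_lit 10667546325) (nat_lit 45) (nat_lit 5) (nat_lit 47) (nat_lit 5) (nat_lit 48) (nat_lit 5) (nat_lit 337) (nat_lit 258) (nat_lit 185)))))) (XT.nd (nat_lit 468) (nat_lit 532) (nat_lit 0) (XT.nd (nat_lit 234) (nat_lit 228) (nat_lit 0) (XT.nd (nat_lit 78) (nat_lit 228) (nat_lit 0) (XT.lf (nat_lit 0) (nat_lit 10158343923) (nat_lit 228) (nat_lit 6645179033) (nat_lit 76) (nat_lit 855802044) (nat_lit 45) (nat_lit 5) (nat_lit 48) (nat_lit 5) (nat_lit 46) (nat_lit 5) (nat_lit 338) (nat_lit 258) (nat_lit 184)) (XT.nd (nat_lit 78) (nat_lit 0) (nat_lit 0) (XT.lf (nat_lit 0) (nat_lit 1131881432) (nat_lit 228) (nat_lit 12690850040) (nat_lit 304) (nat_lit 4218752253) (nat_lit 42) (nat_lit 5) (nat_lit 45) (nat_lit 5) (nat_lit 46) (nat_lit 5) (nat_lit 339) (nat_lit 258) (nat_lit 183)) (XT.lf (nat_lit 0) (nat_lit 9235837483) (nat_lit 228) (nat_lit 8402397511) (nat_lit 304) (nat_lit 795653019) (nat_lit 42)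 (nat_lit 5) (nat_lit 45) (nat_lit 5) (nat_lit 46) (nat_lit 5) (nat_lit 340) (nat_lit 258) (nat_lit 182)))) (XT.nd (nat_lit 78) (nat_lit 152) (nat_lit 0) (XT.lf (nat_lit 0) (nat_lit 2651435635) (nat_lit 304) (nat_lit 1323311520) (nat_lit 76) (nat_lit 14863308217) (nat_lit 41) (nat_lit 5) (nat_lit 45) (nat_lit 5) (nat_lit 42) (nat_lit 5) (nat_lit 341) (nat_lit 258) (nat_lit 181)) (XT.nd (nat_lit 78) (nat_lit 0) (nat_lit 0) (XT.lf (nat_lit 0) (nat_lit 6233535334) (nat_lit 228) (nat_lit 12385875167) (nat_lit 76) (nat_lit 633288157) (nat_lit 39) (nat_lit 5) (nat_lit 42) (nat_lit 5) (nat_lit 40) (nat_lit 5) (nat_lit 342) (nat_lit 258) (nat_lit 180)) (XT.lf (nat_lit 0) (nat_lit 9951437551) (nat_lit 228) (nat_lit 4429965164) (nat_lit 76) (nat_lit 5297542852) (nat_lit 39) (nat_lit 5) (nat_lit 42) (nat_lit 5) (nat_lit 40) (nat_lit 5) (nat_lit 343) (nat_lit 258) (nat_lit 179))))) (XT.nd (nat_lit 234) (nat_lit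 152) (nat_lit 0) (XT.nd (nat_lit 78) (nat_lit 228) (nat_lit 0) (XT.lf (nat_lit 0) (nat_lit 3799058649) (nat_lit 152) (nat_lit 9994541371) (nat_lit 228) (nat_lit 6324012258) (nat_lit 37) (nat_lit 5) (nat_lit 39) (nat_lit 5) (nat_lit 40) (nat_lit 5) (nat_lit 344) (nat_lit 258) (nat_lit 178)) (XT.nd (nat_lit 78) (nat_lit 228) (nat_lit 0) (XT.lf (nat_lit 0) (nat_lit 12326455499) (nat_lit 152) (nat_lit 5445825364) (nat_lit 228) (nat_lit 2796534198) (nat_lit 37) (nat_lit 5) (nat_lit 39) (nat_lit 5) (nat_lit 40) (nat_lit 5) (nat_lit 345) (nat_lit 258) (nat_lit 177)) (XT.lf (nat_lit 0) (nat_lit 30028684) (nat_lit 152) (nat_lit 767664517) (nat_lit 228) (nat_lit 20236314713) (nat_lit 34) (nat_lit 5) (nat_lit 36) (nat_lit 5) (nat_lit 37) (nat_lit 5) (nat_lit 346) (nat_lit 258) (nat_lit 176)))) (XT.nd (nat_lit 156) (nat_lit 152) (nat_lit 0) (XT.nd (nat_lit 78) (nat_lit 0) (nat_lit 0) (XT.lf (nat_lit 0) (nat_lit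 4543653451) (nat_lit 228) (nat_lit 12897363006) (nat_lit 76) (nat_lit 4068318552) (nat_lit 34) (nat_lit 5) (nat_lit 37) (nat_lit 5) (nat_lit 35) (nat_lit 5) (nat_lit 347) (nat_lit 258) (nat_lit 175)) (XT.lf (nat_lit 0) (nat_lit 8387378277) (nat_lit 228) (nat_lit 4592819394) (nat_lit 76) (nat_lit 9019174823) (nat_lit 34) (nat_lit 5) (nat_lit 37) (nat_lit 5) (nat_lit 35) (nat_lit 5) (nat_lit 348) (nat_lit 258) (nat_lit 174))) (XT.nd (nat_lit 78) (nat_lit 0) (nat_lit 0) (XT.lf (nat_lit 0) (nat_lit 4002388272) (nat_lit 152) (nat_lit 8360932147) (nat_lit 228) (nat_lit 10140295318) (nat_lit 32) (nat_lit 5) (nat_lit 34) (nat_lit 5) (nat_lit 35) (nat_lit 5) (nat_lit 349) (nat_lit 258) (nat_lit 173)) (XT.lf (nat_lit 0) (nat_lit 12913385761) (nat_lit 152) (nat_lit 3570245773) (nat_lit 228) (nat_lit 6538613476) (nat_lit 32) (nat_lit 5) (nat_lit 34) (nat_lit 5) (nat_lit 35) (nat_lit 5) (nat_lit 350) (nat_lit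 258) (nat_lit 172))))))) (XT.nd (nat_lit 1014) (nat_lit 532) (nat_lit 0) (XT.nd (nat_lit 468) (nat_lit 380) (nat_lit 0) (XT.nd (nat_lit 234) (nat_lit 152) (nat_lit 0) (XT.nd (nat_lit 78) (nat_lit 228) (nat_lit 0) (XT.lf (nat_lit 0) (nat_lit 20719858097) (nat_lit 228) (nat_lit 1513484890) (nat_lit 76) (nat_lit 1323332113) (nat_lit 32) (nat_lit 5) (nat_lit 35) (nat_lit 5) (nat_lit 33) (nat_lit 4) (nat_lit 351) (nat_lit 258) (nat_lit 171)) (XT.nd (nat_lit 78) (nat_lit 0) (nat_lit 0) (XT.lf (nat_lit 0) (nat_lit 1044252893) (nat_lit 228) (nat_lit 16700322625) (nat_lit 76) (nat_lit 6359673625) (nat_lit 29) (nat_lit 5) (nat_lit 32) (nat_lit 5) (nat_lit 30) (nat_lit 5) (nat_lit 352) (nat_lit 258) (nat_lit 170)) (XT.lf (nat_lit 0) (nat_lit 4980022407) (nat_lit 228) (nat_lit 8110830504) (nat_lit 76) (nat_lit 11576706514) (nat_lit 29) (nat_lit 5) (nat_lit 32) (nat_lit 5) (nat_lit 30) (nat_lit 5) (nat_lit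 353) (nat_lit 258) (nat_lit 169)))) (XT.nd (nat_lit 78) (nat_lit 0) (nat_lit 0) (XT.lf (nat_lit 0) (nat_lit 716655966) (nat_lit 152) (nat_lit 8304535048) (nat_lit 228) (nat_lit 16226968103) (nat_lit 27) (nat_lit 5) (nat_lit 29) (nat_lit 5) (nat_lit 30) (nat_lit 5) (nat_lit 354) (nat_lit 258) (nat_lit 168)) (XT.nd (nat_lit 78) (nat_lit 0) (nat_lit 0) (XT.lf (nat_lit 0) (nat_lit 9941886298) (nat_lit 152) (nat_lit 3304298200) (nat_lit 228) (nat_lit 12598124199) (nat_lit 27) (nat_lit 5) (nat_lit 29) (nat_lit 5) (nat_lit 30) (nat_lit 5) (nat_lit 355) (nat_lit 258) (nat_lit 167)) (XT.lf (nat_lit 0) (nat_lit 17596790069) (nat_lit 228) (nat_lit 7065028085) (nat_lit 76) (nat_lit 1796568057) (nat_lit 27) (nat_lit 5) (nat_lit 30) (nat_lit 5) (nat_lit 28) (nat_lit 4) (nat_lit 356) (nat_lit 258) (nat_lit 166))))) (XT.nd (nat_lit 234) (nat_lit 228) (nat_lit 0) (XT.nd (nat_lit 78) (nat_lit 76) (nat_lit 0) (XT.lf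 (nat_lit 0) (nat_lit 2012178345) (nat_lit 76) (nat_lit 20099461459) (nat_lit 152) (nat_lit 4978243508) (nat_lit 26) (nat_lit 5) (nat_lit 27) (nat_lit 5) (nat_lit 28) (nat_lit 4) (nat_lit 357) (nat_lit 258) (nat_lit 165)) (XT.nd (nat_lit 78) (nat_lit 76) (nat_lit 0) (XT.lf (nat_lit 0) (nat_lit 11474980721) (nat_lit 76) (nat_lit 15340195827) (nat_lit 152) (nat_lit 923560311) (nat_lit 26) (nat_lit 5) (nat_lit 27) (nat_lit 5) (nat_lit 28) (nat_lit 4) (nat_lit 358) (nat_lit 258) (nat_lit 164)) (XT.lf (nat_lit 0) (nat_lit 3171533704) (nat_lit 152) (nat_lit 7247645633) (nat_lit 76) (nat_lit 17987479623) (nat_lit 25) (nat_lit 5) (nat_lit 27) (nat_lit 5) (nat_lit 26) (nat_lit 5) (nat_lit 359) (nat_lit 258) (nat_lit 163)))) (XT.nd (nat_lit 156) (nat_lit 76) (nat_lit 0) (XT.nd (nat_lit 78) (nat_lit 0) (nat_lit 0) (XT.lf (nat_lit 0) (nat_lit 2039515689) (nat_lit 152) (nat_lit 5333767911) (nat_lit 228) (nat_lit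 21720997861) (nat_lit 23) (nat_lit 5) (nat_lit 25) (nat_lit 5) (nat_lit 26) (nat_lit 5) (nat_lit 360) (nat_lit 258) (nat_lit 162)) (XT.lf (nat_lit 0) (nat_lit 11724069812) (nat_lit 152) (nat_lit 33179567) (nat_lit 228) (nat_lit 18043606156) (nat_lit 23) (nat_lit 5) (nat_lit 25) (nat_lit 5) (nat_lit 26) (nat_lit 5) (nat_lit 361) (nat_lit 258) (nat_lit 161))) (XT.nd (nat_lit 78) (nat_lit 76) (nat_lit 0) (XT.lf (nat_lit 0) (nat_lit 16308249311) (nat_lit 228) (nat_lit 8910936601) (nat_lit 76) (nat_lit 5308383036) (nat_lit 23) (nat_lit 5) (nat_lit 26) (nat_lit 5) (nat_lit 24) (nat_lit 4) (nat_lit 362) (nat_lit 258) (nat_lit 160)) (XT.lf (nat_lit 0) (nat_lit 511077893) (nat_lit 76) (nat_lit 20473780565) (nat_lit 152) (nat_lit 10291560283) (nat_lit 22) (nat_lit 5) (nat_lit 23) (nat_lit 5) (nat_lit 24) (nat_lit 4) (nat_lit 363) (nat_lit 258) (nat_lit 159)))))) (XT.nd (nat_lit 546) (nat_lit 228) (nat_lit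 0) (XT.nd (nat_lit 234) (nat_lit 228) (nat_lit 0) (XT.nd (nat_lit 78) (nat_lit 76) (nat_lit 0) (XT.lf (nat_lit 0) (nat_lit 10370242694) (nat_lit 76) (nat_lit 15505543986) (nat_lit 152) (nat_lit 6169733862) (nat_lit 22) (nat_lit 5) (nat_lit 23) (nat_lit 5) (nat_lit 24) (nat_lit 4) (nat_lit 364) (nat_lit 258) (nat_lit 158)) (XT.nd (nat_lit 78) (nat_lit 76) (nat_lit 0) (XT.lf (nat_lit 0) (nat_lit 20497827492) (nat_lit 76) (nat_lit 10400117986) (nat_lit 152) (nat_lit 1940221767) (nat_lit 22) (nat_lit 5) (nat_lit 23) (nat_lit 5) (nat_lit 24) (nat_lit 4) (nat_lit 365) (nat_lit 258) (nat_lit 157)) (XT.lf (nat_lit 0) (nat_lit 2353825941) (nat_lit 152) (nat_lit 2775446545) (nat_lit 76) (nat_lit 28525086667) (nat_lit 21) (nat_lit 5) (nat_lit 23) (nat_lit 5) (nat_lit 22) (nat_lit 5) (nat_lit 366) (nat_lit 258) (nat_lit 156)))) (XT.nd (nat_lit 156) (nat_lit 76) (nat_lit 0) (XT.nd (nat_lit 78) (nat_lit 0)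 (nat_lit 0) (XT.lf (nat_lit 0) (nat_lit 6795516894) (nat_lit 228) (nat_lit 27325455096) (nat_lit 76) (nat_lit 371760316) (nat_lit 19) (nat_lit 5) (nat_lit 22) (nat_lit 5) (nat_lit 20) (nat_lit 4) (nat_lit 367) (nat_lit 258) (nat_lit 155)) (XT.lf (nat_lit 0) (nat_lit 11434862233) (nat_lit 228) (nat_lit 17967465919) (nat_lit 76) (nat_lit 5952002550) (nat_lit 19) (nat_lit 5) (nat_lit 22) (nat_lit 5) (nat_lit 20) (nat_lit 4) (nat_lit 368) (nat_lit 258) (nat_lit 154))) (XT.nd (nat_lit 78) (nat_lit 76) (nat_lit 0) (XT.lf (nat_lit 0) (nat_lit 16199130381) (nat_lit 228) (nat_lit 8354139307) (nat_lit 76) (nat_lit 11688941066) (nat_lit 19) (nat_lit 5) (nat_lit 22) (nat_lit 5) (nat_lit 20) (nat_lit 4) (nat_lit 369) (nat_lit 258) (nat_lit 153)) (XT.lf (nat_lit 0) (nat_lit 1553233922) (nat_lit 76) (nat_lit 19554181004) (nat_lit 152) (nat_lit 16049285435) (nat_lit 18) (nat_lit 5) (nat_lit 19) (nat_lit 5) (nat_lit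 20) (nat_lit 4) (nat_lit 370) (nat_lit 258) (nat_lit 152))))) (XT.nd (nat_lit 234) (nat_lit 228) (nat_lit 0) (XT.nd (nat_lit 78) (nat_lit 0) (nat_lit 0) (XT.lf (nat_lit 0) (nat_lit 11904659432) (nat_lit 76) (nat_lit 14328975148) (nat_lit 152) (nat_lit 11862875116) (nat_lit 18) (nat_lit 5) (nat_lit 19) (nat_lit 5) (nat_lit 20) (nat_lit 4) (nat_lit 371) (nat_lit 258) (nat_lit 151)) (XT.nd (nat_lit 78) (nat_lit 0) (nat_lit 0) (XT.lf (nat_lit 0) (nat_lit 22542918404) (nat_lit 76) (nat_lit 8957446831) (nat_lit 152) (nat_lit 7564551812) (nat_lit 18) (nat_lit 5) (nat_lit 19) (nat_lit 5) (nat_lit 20) (nat_lit 4) (nat_lit 372) (nat_lit 258) (nat_lit 150)) (XT.lf (nat_lit 0) (nat_lit 33477306406) (nat_lit 76) (nat_lit 3434902485) (nat_lit 152) (nat_lit 3150559708) (nat_lit 18) (nat_lit 5) (nat_lit 19) (nat_lit 5) (nat_lit 20) (nat_lit 4) (nat_lit 373) (nat_lit 258) (nat_lit 149)))) (XT.nd (nat_lit 156)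 (nat_lit 0) (nat_lit 0) (XT.nd (nat_lit 78) (nat_lit 0) (nat_lit 0) (XT.lf (nat_lit 0) (nat_lit 1413442685) (nat_lit 228) (nat_lit 37426466455) (nat_lit 76) (nat_lit 2248904171) (nat_lit 15) (nat_lit 5) (nat_lit 18) (nat_lit 5) (nat_lit 16) (nat_lit 4) (nat_lit 374) (nat_lit 258) (nat_lit 148)) (XT.lf (nat_lit 0) (nat_lit 6139625122) (nat_lit 228) (nat_lit 27879587402) (nat_lit 76) (nat_lit 8122838399) (nat_lit 15) (nat_lit 5) (nat_lit 18) (nat_lit 5) (nat_lit 16) (nat_lit 4) (nat_lit 375) (nat_lit 258) (nat_lit 147))) (XT.nd (nat_lit 78) (nat_lit 0) (nat_lit 0) (XT.lf (nat_lit 0) (nat_lit 10995375063) (nat_lit 228) (nat_lit 18068309481) (nat_lit 76) (nat_lit 14163572377) (nat_lit 15) (nat_lit 5) (nat_lit 18) (nat_lit 5) (nat_lit 16) (nat_lit 4) (nat_lit 376) (nat_lit 258) (nat_lit 146)) (XT.lf (nat_lit 0) (nat_lit 15984935398) (nat_lit 228) (nat_lit 7984059730) (nat_lit 76) (nat_lit 20376384416)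 (nat_lit 15) (nat_lit 5) (nat_lit 18) (nat_lit 5) (nat_lit 16) (nat_lit 4) (nat_lit 377) (nat_lit 258) (nat_lit 145))))))))
noncomputable def xc101 : XT := (XT.nd (nat_lit 2028) (nat_lit 76) (nat_lit 0) (XT.nd (nat_lit 1014) (nat_lit 228) (nat_lit 0) (XT.nd (nat_lit 468) (nat_lit 152) (nat_lit 0) (XT.nd (nat_lit 234) (nat_lit 76) (nat_lit 0) (XT.nd (nat_lit 78) (nat_lit 0) (nat_lit 0) (XT.lf (nat_lit 0) (nat_lit 2429379270) (nat_lit 76) (nat_lit 18706639345) (nat_lit 152) (nat_lit 24360676598) (nat_lit 14) (nat_lit 5) (nat_lit 15) (nat_lit 5) (nat_lit 16) (nat_lit 4) (nat_lit 378) (nat_lit 258) (nat_lit 144)) (XT.nd (nat_lit 78) (nat_lit 0) (nat_lit 0) (XT.lf (nat_lit 0) (nat_lit 13298346030) (nat_lit 76) (nat_lit 13212533025) (nat_lit 152) (nat_lit 20169598273) (nat_lit 14) (nat_lit 5) (nat_lit 15) (nat_lit 5) (nat_lit 16) (nat_lit 4) (nat_lit 379) (nat_lit 258) (nat_lit 143)) (XT.lf (nat_lit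 0) (nat_lit 24473439261) (nat_lit 76) (nat_lit 7562498841) (nat_lit 152) (nat_lit 15864170414) (nat_lit 14) (nat_lit 5) (nat_lit 15) (nat_lit 5) (nat_lit 16) (nat_lit 4) (nat_lit 380) (nat_lit 258) (nat_lit 142)))) (XT.nd (nat_lit 78) (nat_lit 76) (nat_lit 0) (XT.lf (nat_lit 0) (nat_lit 35964423607) (nat_lit 76) (nat_lit 1751599869) (nat_lit 152) (nat_lit 11440630997) (nat_lit 14) (nat_lit 5) (nat_lit 15) (nat_lit 5) (nat_lit 16) (nat_lit 4) (nat_lit 381) (nat_lit 258) (nat_lit 141)) (XT.nd (nat_lit 78) (nat_lit 76) (nat_lit 0) (XT.lf (nat_lit 0) (nat_lit 43596713966) (nat_lit 152) (nat_lit 2710489024) (nat_lit 0) (nat_lit 4142791695) (nat_lit 14) (nat_lit 5) (nat_lit 16) (nat_lit 4) (nat_lit 14) (nat_lit 4) (nat_lit 382) (nat_lit 258) (nat_lit 140)) (XT.lf (nat_lit 0) (nat_lit 8210091842) (nat_lit 76) (nat_lit 41529808316) (nat_lit 76) (nat_lit 2039656533) (nat_lit 13) (nat_lit 4) (nat_lit 14)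 (nat_lit 5) (nat_lit 14) (nat_lit 4) (nat_lit 383) (nat_lit 258) (nat_lit 139))))) (XT.nd (nat_lit 234) (nat_lit 76) (nat_lit 0) (XT.nd (nat_lit 78) (nat_lit 0) (nat_lit 0) (XT.lf (nat_lit 0) (nat_lit 2878899473) (nat_lit 152) (nat_lit 33681160133) (nat_lit 76) (nat_lit 16587583838) (nat_lit 12) (nat_lit 5) (nat_lit 14) (nat_lit 5) (nat_lit 13) (nat_lit 4) (nat_lit 384) (nat_lit 258) (nat_lit 138)) (XT.nd (nat_lit 78) (nat_lit 0) (nat_lit 0) (XT.lf (nat_lit 0) (nat_lit 7894142821) (nat_lit 152) (nat_lit 23534365926) (nat_lit 76) (nat_lit 23127957954) (nat_lit 12) (nat_lit 5) (nat_lit 14) (nat_lit 5) (nat_lit 13) (nat_lit 4) (nat_lit 385) (nat_lit 258) (nat_lit 137)) (XT.lf (nat_lit 0) (nat_lit 13050256806) (nat_lit 152) (nat_lit 13100609670) (nat_lit 76) (nat_lit 29856979187) (nat_lit 12) (nat_lit 5) (nat_lit 14) (nat_lit 5) (nat_lit 13) (nat_lit 4) (nat_lit 386) (nat_lit 258) (nat_lit 136))))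 (XT.nd (nat_lit 156) (nat_lit 0) (nat_lit 0) (XT.nd (nat_lit 78) (nat_lit 76) (nat_lit 0) (XT.lf (nat_lit 0) (nat_lit 18351746772) (nat_lit 152) (nat_lit 2370774491) (nat_lit 76) (nat_lit 36780527265) (nat_lit 12) (nat_lit 5) (nat_lit 14) (nat_lit 5) (nat_lit 13) (nat_lit 4) (nat_lit 387) (nat_lit 258) (nat_lit 135)) (XT.lf (nat_lit 0) (nat_lit 8836956035) (nat_lit 76) (nat_lit 15051235279) (nat_lit 152) (nat_lit 35152642082) (nat_lit 11) (nat_lit 5) (nat_lit 12) (nat_lit 5) (nat_lit 13) (nat_lit 4) (nat_lit 388) (nat_lit 258) (nat_lit 134))) (XT.nd (nat_lit 78) (nat_lit 0) (nat_lit 0) (XT.lf (nat_lit 0) (nat_lit 20413237664) (nat_lit 76) (nat_lit 9192502061) (nat_lit 152) (nat_lit 31018564890) (nat_lit 11) (nat_lit 5) (nat_lit 12) (nat_lit 5) (nat_lit 13) (nat_lit 4) (nat_lit 389) (nat_lit 258) (nat_lit 133)) (XT.lf (nat_lit 0) (nat_lit 32321002531) (nat_lit 76) (nat_lit 3165142501) (nat_lit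 152) (nat_lit 26769398052) (nat_lit 11) (nat_lit 5) (nat_lit 12) (nat_lit 5) (nat_lit 13) (nat_lit 4) (nat_lit 390) (nat_lit 258) (nat_lit 132)))))) (XT.nd (nat_lit 468) (nat_lit 76) (nat_lit 0) (XT.nd (nat_lit 234) (nat_lit 76) (nat_lit 0) (XT.nd (nat_lit 78) (nat_lit 76) (nat_lit 0) (XT.lf (nat_lit 0) (nat_lit 41563730403) (nat_lit 152) (nat_lit 19394503629) (nat_lit 0) (nat_lit 2976864581) (nat_lit 11) (nat_lit 5) (nat_lit 13) (nat_lit 4) (nat_lit 11) (nat_lit 4) (nat_lit 391) (nat_lit 258) (nat_lit 131)) (XT.nd (nat_lit 78) (nat_lit 76) (nat_lit 0) (XT.lf (nat_lit 0) (nat_lit 47846744837) (nat_lit 152) (nat_lit 8584684924) (nat_lit 0) (nat_lit 9232920856) (nat_lit 11) (nat_lit 5) (nat_lit 13) (nat_lit 4) (nat_lit 11) (nat_lit 4) (nat_lit 392) (nat_lit 258) (nat_lit 130)) (XT.lf (nat_lit 0) (nat_lit 2585233536) (nat_lit 76) (nat_lit 51749870371) (nat_lit 76) (nat_lit 13109873421) (nat_lit 10)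 (nat_lit 4) (nat_lit 11) (nat_lit 5) (nat_lit 11) (nat_lit 4) (nat_lit 393) (nat_lit 258) (nat_lit 129)))) (XT.nd (nat_lit 78) (nat_lit 76) (nat_lit 0) (XT.lf (nat_lit 0) (nat_lit 14251728702) (nat_lit 76) (nat_lit 46845170434) (nat_lit 76) (nat_lit 8179762834) (nat_lit 10) (nat_lit 4) (nat_lit 11) (nat_lit 5) (nat_lit 11) (nat_lit 4) (nat_lit 394) (nat_lit 258) (nat_lit 128)) (XT.nd (nat_lit 78) (nat_lit 76) (nat_lit 0) (XT.lf (nat_lit 0) (nat_lit 26254142534) (nat_lit 76) (nat_lit 41799732775) (nat_lit 76) (nat_lit 3109654641) (nat_lit 10) (nat_lit 4) (nat_lit 11) (nat_lit 5) (nat_lit 11) (nat_lit 4) (nat_lit 395) (nat_lit 258) (nat_lit 127)) (XT.lf (nat_lit 0) (nat_lit 2063807531) (nat_lit 152) (nat_lit 34524500819) (nat_lit 76) (nat_lit 36518314638) (nat_lit 9) (nat_lit 5) (nat_lit 11) (nat_lit 5) (nat_lit 10) (nat_lit 4) (nat_lit 396) (nat_lit 258) (nat_lit 126))))) (XT.nd (nat_lit 234) (nat_lit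 76) (nat_lit 0) (XT.nd (nat_lit 78) (nat_lit 0) (nat_lit 0) (XT.lf (nat_lit 0) (nat_lit 7322666112) (nat_lit 152) (nat_lit 23872272245) (nat_lit 76) (nat_lit 43912368387) (nat_lit 9) (nat_lit 5) (nat_lit 11) (nat_lit 5) (nat_lit 10) (nat_lit 4) (nat_lit 397) (nat_lit 258) (nat_lit 125)) (XT.nd (nat_lit 78) (nat_lit 0) (nat_lit 0) (XT.lf (nat_lit 0) (nat_lit 12732196782) (nat_lit 152) (nat_lit 12913502019) (nat_lit 76) (nat_lit 51522527342) (nat_lit 9) (nat_lit 5) (nat_lit 11) (nat_lit 5) (nat_lit 10) (nat_lit 4) (nat_lit 398) (nat_lit 258) (nat_lit 124)) (XT.lf (nat_lit 0) (nat_lit 18297126315) (nat_lit 152) (nat_lit 1638614516) (nat_lit 76) (nat_lit 59355441158) (nat_lit 9) (nat_lit 5) (nat_lit 11) (nat_lit 5) (nat_lit 10) (nat_lit 4) (nat_lit 399) (nat_lit 258) (nat_lit 123)))) (XT.nd (nat_lit 156) (nat_lit 0) (nat_lit 0) (XT.nd (nat_lit 78) (nat_lit 0) (nat_lit 0) (XT.lf (nat_lit 0) (nat_lit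 10160510256) (nat_lit 76) (nat_lit 13959476055) (nat_lit 152) (nat_lit 57355112912) (nat_lit 8) (nat_lit 5) (nat_lit 9) (nat_lit 5) (nat_lit 10) (nat_lit 4) (nat_lit 400) (nat_lit 258) (nat_lit 122)) (XT.lf (nat_lit 0) (nat_lit 22335041626) (nat_lit 76) (nat_lit 7792428701) (nat_lit 152) (nat_lit 53596767623) (nat_lit 8) (nat_lit 5) (nat_lit 9) (nat_lit 5) (nat_lit 10) (nat_lit 4) (nat_lit 401) (nat_lit 258) (nat_lit 121))) (XT.nd (nat_lit 78) (nat_lit 0) (nat_lit 0) (XT.lf (nat_lit 0) (nat_lit 34863005890) (nat_lit 76) (nat_lit 1445756883) (nat_lit 152) (nat_lit 49732282612) (nat_lit 8) (nat_lit 5) (nat_lit 9) (nat_lit 5) (nat_lit 10) (nat_lit 4) (nat_lit 402) (nat_lit 258) (nat_lit 120)) (XT.lf (nat_lit 0) (nat_lit 42718155341) (nat_lit 152) (nat_lit 40721086670) (nat_lit 0) (nat_lit 4986837196) (nat_lit 8) (nat_lit 5) (nat_lit 10) (nat_lit 4) (nat_lit 8) (nat_lit 4) (nat_lit 403) (nat_lit 258)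 (nat_lit 119))))))) (XT.nd (nat_lit 30186) (nat_lit 0) (nat_lit 16720) (XT.nd (nat_lit 29640) (nat_lit 0) (nat_lit 22268) (XT.nd (nat_lit 234) (nat_lit 76) (nat_lit 0) (XT.nd (nat_lit 78) (nat_lit 0) (nat_lit 0) (XT.lf (nat_lit 0) (nat_lit 49328047518) (nat_lit 152) (nat_lit 29975999754) (nat_lit 0) (nat_lit 11578372179) (nat_lit 8) (nat_lit 5) (nat_lit 10) (nat_lit 4) (nat_lit 8) (nat_lit 4) (nat_lit 404) (nat_lit 258) (nat_lit 118)) (XT.nd (nat_lit 78) (nat_lit 0) (nat_lit 0) (XT.lf (nat_lit 0) (nat_lit 56130317440) (nat_lit 152) (nat_lit 18919492339) (nat_lit 0) (nat_lit 18362819582) (nat_lit 8) (nat_lit 5) (nat_lit 10) (nat_lit 4) (nat_lit 8) (nat_lit 4) (nat_lit 405) (nat_lit 258) (nat_lit 117)) (XT.lf (nat_lit 0) (nat_lit 63130908838) (nat_lit 152) (nat_lit 7541903398) (nat_lit 0) (nat_lit 25346107564) (nat_lit 8) (nat_lit 5) (nat_lit 10) (nat_lit 4) (nat_lit 8) (nat_lit 4) (nat_lit 406)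 (nat_lit 258) (nat_lit 116)))) (XT.nd (nat_lit 78) (nat_lit 0) (nat_lit 0) (XT.lf (nat_lit 0) (nat_lit 4249634323) (nat_lit 76) (nat_lit 66127154494) (nat_lit 76) (nat_lit 28325553787) (nat_lit 7) (nat_lit 4) (nat_lit 8) (nat_lit 5) (nat_lit 8) (nat_lit 4) (nat_lit 407) (nat_lit 258) (nat_lit 115)) (XT.nd (nat_lit 29250) (nat_lit 0) (nat_lit 23256) (XT.lf (nat_lit 0) (nat_lit 16539316267) (nat_lit 76) (nat_lit 61371372541) (nat_lit 76) (nat_lit 23553461705) (nat_lit 7) (nat_lit 4) (nat_lit 8) (nat_lit 5) (nat_lit 8) (nat_lit 4) (nat_lit 408) (nat_lit 258) (nat_lit 114)) (XT.lf (nat_lit 0) (nat_lit 1511545700) (nat_lit 76) (nat_lit 200096368) (nat_lit 0) (nat_lit 1511545700) (nat_lit 313) (nat_lit 5) (nat_lit 314) (nat_lit 0) (nat_lit 313) (nat_lit 4) (nat_lit 262) (nat_lit 259) (nat_lit 259))))) (XT.nd (nat_lit 234) (nat_lit 684) (nat_lit 0) (XT.nd (nat_lit 78) (nat_lit 228) (nat_lit 0) (XT.lf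 (nat_lit 0) (nat_lit 2733509164) (nat_lit 76) (nat_lit 3256104729) (nat_lit 76) (nat_lit 462695892) (nat_lit 312) (nat_lit 4) (nat_lit 313) (nat_lit 5) (nat_lit 313) (nat_lit 4) (nat_lit 263) (nat_lit 259) (nat_lit 258)) (XT.nd (nat_lit 78) (nat_lit 152) (nat_lit 0) (XT.lf (nat_lit 0) (nat_lit 2427692101) (nat_lit 152) (nat_lit 577241284) (nat_lit 76) (nat_lit 3456277856) (nat_lit 311) (nat_lit 5) (nat_lit 313) (nat_lit 5) (nat_lit 312) (nat_lit 4) (nat_lit 264) (nat_lit 259) (nat_lit 257)) (XT.lf (nat_lit 0) (nat_lit 2643964244) (nat_lit 152) (nat_lit 2667600403) (nat_lit 228) (nat_lit 1161466230) (nat_lit 309) (nat_lit 5) (nat_lit 311) (nat_lit 5) (nat_lit 312) (nat_lit 4) (nat_lit 265) (nat_lit 259) (nat_lit 256)))) (XT.nd (nat_lit 156) (nat_lit 380) (nat_lit 0) (XT.nd (nat_lit 78) (nat_lit 228) (nat_lit 0) (XT.lf (nat_lit 0) (nat_lit 1659514870) (nat_lit 228) (nat_lit 592135029) (nat_lit 76)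 (nat_lit 4236357442) (nat_lit 308) (nat_lit 5) (nat_lit 311) (nat_lit 5) (nat_lit 309) (nat_lit 5) (nat_lit 266) (nat_lit 259) (nat_lit 255)) (XT.lf (nat_lit 0) (nat_lit 2721952519) (nat_lit 228) (nat_lit 1741081904) (nat_lit 304) (nat_lit 2042663864) (nat_lit 305) (nat_lit 5) (nat_lit 308) (nat_lit 5) (nat_lit 309) (nat_lit 5) (nat_lit 267) (nat_lit 259) (nat_lit 254))) (XT.nd (nat_lit 78) (nat_lit 304) (nat_lit 0) (XT.lf (nat_lit 0) (nat_lit 712953323) (nat_lit 304) (nat_lit 447407090) (nat_lit 76) (nat_lit 5366484294) (nat_lit 304) (nat_lit 5) (nat_lit 308) (nat_lit 5) (nat_lit 305) (nat_lit 5) (nat_lit 268) (nat_lit 259) (nat_lit 253)) (XT.lf (nat_lit 0) (nat_lit 2965241383) (nat_lit 304) (nat_lit 472773781) (nat_lit 380) (nat_lit 3112395425) (nat_lit 300) (nat_lit 5) (nat_lit 304) (nat_lit 5) (nat_lit 305) (nat_lit 5) (nat_lit 269) (nat_lit 259) (nat_lit 252)))))) (XT.nd (nat_lit 546) (nat_lit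 3344) (nat_lit 0) (XT.nd (nat_lit 234) (nat_lit 1292) (nat_lit 0) (XT.nd (nat_lit 78) (nat_lit 912) (nat_lit 0) (XT.lf (nat_lit 0) (nat_lit 6153690813) (nat_lit 380) (nat_lit 151761922) (nat_lit 76) (nat_lit 272185001) (nat_lit 300) (nat_lit 5) (nat_lit 305) (nat_lit 5) (nat_lit 301) (nat_lit 5) (nat_lit 270) (nat_lit 259) (nat_lit 251)) (XT.nd (nat_lit 78) (nat_lit 456) (nat_lit 0) (XT.lf (nat_lit 0) (nat_lit 2240704513) (nat_lit 456) (nat_lit 3246081612) (nat_lit 76) (nat_lit 1120187433) (nat_lit 294) (nat_lit 5) (nat_lit 300) (nat_lit 5) (nat_lit 295) (nat_lit 5) (nat_lit 271) (nat_lit 259) (nat_lit 250)) (XT.lf (nat_lit 0) (nat_lit 282254496) (nat_lit 456) (nat_lit 4604722329) (nat_lit 532) (nat_lit 1752982102) (nat_lit 288) (nat_lit 5) (nat_lit 294) (nat_lit 5) (nat_lit 295) (nat_lit 5) (nat_lit 272) (nat_lit 259) (nat_lit 249)))) (XT.nd (nat_lit 156) (nat_lit 684) (nat_lit 0) (XT.nd (nat_lit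 78) (nat_lit 532) (nat_lit 0) (XT.lf (nat_lit 0) (nat_lit 860460012) (nat_lit 532) (nat_lit 2764664375) (nat_lit 76) (nat_lit 3050526447) (nat_lit 287) (nat_lit 5) (nat_lit 294) (nat_lit 5) (nat_lit 288) (nat_lit 5) (nat_lit 273) (nat_lit 259) (nat_lit 248)) (XT.lf (nat_lit 0) (nat_lit 872389293) (nat_lit 532) (nat_lit 2562748875) (nat_lit 608) (nat_lit 3279397032) (nat_lit 280) (nat_lit 5) (nat_lit 287) (nat_lit 5) (nat_lit 288) (nat_lit 5) (nat_lit 274) (nat_lit 259) (nat_lit 247))) (XT.nd (nat_lit 78) (nat_lit 684) (nat_lit 0) (XT.lf (nat_lit 0) (nat_lit 4612404702) (nat_lit 532) (nat_lit 1414276487) (nat_lit 608) (nat_lit 729895172) (nat_lit 280) (nat_lit 5) (nat_lit 287) (nat_lit 5) (nat_lit 288) (nat_lit 5) (nat_lit 275) (nat_lit 259) (nat_lit 246)) (XT.lf (nat_lit 0) (nat_lit 1615144688) (nat_lit 608) (nat_lit 172732588) (nat_lit 684) (nat_lit 5013759860) (nat_lit 271) (nat_lit 5) (nat_lit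 279) (nat_lit 5) (nat_lit 280) (nat_lit 5) (nat_lit 276) (nat_lit 259) (nat_lit 245))))) (XT.nd (nat_lit 234) (nat_lit 2584) (nat_lit 0) (XT.nd (nat_lit 78) (nat_lit 760) (nat_lit 0) (XT.lf (nat_lit 0) (nat_lit 4314415007) (nat_lit 684) (nat_lit 1399475743) (nat_lit 76) (nat_lit 1135668925) (nat_lit 271) (nat_lit 5) (nat_lit 280) (nat_lit 5) (nat_lit 272) (nat_lit 5) (nat_lit 277) (nat_lit 259) (nat_lit 244)) (XT.nd (nat_lit 78) (nat_lit 76) (nat_lit 0) (XT.lf (nat_lit 0) (nat_lit 2484627851) (nat_lit 684) (nat_lit 4375582840) (nat_lit 760) (nat_lit 40564383) (nat_lit 262) (nat_lit 5) (nat_lit 271) (nat_lit 5) (nat_lit 272) (nat_lit 5) (nat_lit 278) (nat_lit 259) (nat_lit 243)) (XT.lf (nat_lit 0) (nat_lit 2412488837) (nat_lit 760) (nat_lit 528053936) (nat_lit 76) (nat_lit 4014415327) (nat_lit 261) (nat_lit 5) (nat_lit 271) (nat_lit 5) (nat_lit 262) (nat_lit 5) (nat_lit 279) (nat_lit 259) (nat_lit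 242)))) (XT.nd (nat_lit 156) (nat_lit 912) (nat_lit 0) (XT.nd (nat_lit 78) (nat_lit 912) (nat_lit 0) (XT.lf (nat_lit 0) (nat_lit 3481652542) (nat_lit 760) (nat_lit 1411211916) (nat_lit 836) (nat_lit 2119399270) (nat_lit 251) (nat_lit 5) (nat_lit 261) (nat_lit 5) (nat_lit 262) (nat_lit 5) (nat_lit 280) (nat_lit 259) (nat_lit 241)) (XT.lf (nat_lit 0) (nat_lit 302879241) (nat_lit 912) (nat_lit 6581545996) (nat_lit 76) (nat_lit 188876123) (nat_lit 239) (nat_lit 5) (nat_lit 251) (nat_lit 5) (nat_lit 240) (nat_lit 5) (nat_lit 281) (nat_lit 259) (nat_lit 240))) (XT.nd (nat_lit 78) (nat_lit 912) (nat_lit 0) (XT.lf (nat_lit 0) (nat_lit 2728882989) (nat_lit 912) (nat_lit 2528821095) (nat_lit 76) (nat_lit 1878760061) (nat_lit 239) (nat_lit 5) (nat_lit 251) (nat_lit 5) (nat_lit 240) (nat_lit 5) (nat_lit 282) (nat_lit 259) (nat_lit 239)) (XT.lf (nat_lit 0) (nat_lit 1613298878) (nat_lit 912) (nat_lit 3555776055)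 (nat_lit 988) (nat_lit 2034333952) (nat_lit 227) (nat_lit 5) (nat_lit 239) (nat_lit 5) (nat_lit 240) (nat_lit 5) (nat_lit 283) (nat_lit 259) (nat_lit 238))))))))
noncomputable def xc102 : XT := (XT.nd (nat_lit 2028) (nat_lit 4180) (nat_lit 0) (XT.nd (nat_lit 1014) (nat_lit 3724) (nat_lit 0) (XT.nd (nat_lit 468) (nat_lit 2432) (nat_lit 0) (XT.nd (nat_lit 234) (nat_lit 2280) (nat_lit 0) (XT.nd (nat_lit 78) (nat_lit 988) (nat_lit 0) (XT.lf (nat_lit 0) (nat_lit 354507811) (nat_lit 988) (nat_lit 1408896374) (nat_lit 76) (nat_lit 5510389410) (nat_lit 226) (nat_lit 5) (nat_lit 239) (nat_lit 5) (nat_lit 227) (nat_lit 5) (nat_lit 284) (nat_lit 259) (nat_lit 237)) (XT.nd (nat_lit 78) (nat_lit 0) (nat_lit 0) (XT.lf (nat_lit 0) (nat_lit 2731821711) (nat_lit 1064) (nat_lit 4477574119) (nat_lit 76) (nat_lit 137677248) (nat_lit 213) (nat_lit 5) (nat_lit 227) (nat_lit 5) (nat_lit 214) (nat_lit 5) (nat_lit 285)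 (nat_lit 259) (nat_lit 236)) (XT.lf (nat_lit 0) (nat_lit 5142582440) (nat_lit 1064) (nat_lit 199007650) (nat_lit 76) (nat_lit 2082211926) (nat_lit 213) (nat_lit 5) (nat_lit 227) (nat_lit 5) (nat_lit 214) (nat_lit 5) (nat_lit 286) (nat_lit 259) (nat_lit 235)))) (XT.nd (nat_lit 78) (nat_lit 1140) (nat_lit 0) (XT.lf (nat_lit 0) (nat_lit 93030372) (nat_lit 1140) (nat_lit 3276784591) (nat_lit 76) (nat_lit 4133912910) (nat_lit 198) (nat_lit 5) (nat_lit 213) (nat_lit 5) (nat_lit 199) (nat_lit 5) (nat_lit 287) (nat_lit 259) (nat_lit 234)) (XT.nd (nat_lit 78) (nat_lit 0) (nat_lit 0) (XT.lf (nat_lit 0) (nat_lit 1140040098) (nat_lit 1140) (nat_lit 1298549003) (nat_lit 1216) (nat_lit 5148512012) (nat_lit 183) (nat_lit 5) (nat_lit 198) (nat_lit 5) (nat_lit 199) (nat_lit 5) (nat_lit 288) (nat_lit 259) (nat_lit 233)) (XT.lf (nat_lit 0) (nat_lit 4830278269) (nat_lit 1216) (nat_lit 1988636791) (nat_lit 76) (nat_lit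 854889660) (nat_lit 183) (nat_lit 5) (nat_lit 199) (nat_lit 5) (nat_lit 184) (nat_lit 5) (nat_lit 289) (nat_lit 259) (nat_lit 232))))) (XT.nd (nat_lit 234) (nat_lit 1140) (nat_lit 0) (XT.nd (nat_lit 78) (nat_lit 684) (nat_lit 0) (XT.lf (nat_lit 0) (nat_lit 2578037054) (nat_lit 608) (nat_lit 4689554430) (nat_lit 684) (nat_lit 496400860) (nat_lit 175) (nat_lit 5) (nat_lit 183) (nat_lit 5) (nat_lit 184) (nat_lit 5) (nat_lit 290) (nat_lit 259) (nat_lit 231)) (XT.nd (nat_lit 78) (nat_lit 608) (nat_lit 0) (XT.lf (nat_lit 0) (nat_lit 1840709910) (nat_lit 684) (nat_lit 616160335) (nat_lit 76) (nat_lit 5400842961) (nat_lit 174) (nat_lit 5) (nat_lit 183) (nat_lit 5) (nat_lit 175) (nat_lit 5) (nat_lit 291) (nat_lit 259) (nat_lit 230)) (XT.lf (nat_lit 0) (nat_lit 4104066281) (nat_lit 608) (nat_lit 111962308) (nat_lit 684) (nat_lit 3738818204) (nat_lit 166) (nat_lit 5) (nat_lit 174) (nat_lit 5) (nat_lit 175)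 (nat_lit 5) (nat_lit 292) (nat_lit 259) (nat_lit 229)))) (XT.nd (nat_lit 156) (nat_lit 532) (nat_lit 0) (XT.nd (nat_lit 78) (nat_lit 76) (nat_lit 0) (XT.lf (nat_lit 0) (nat_lit 855198759) (nat_lit 532) (nat_lit 5783863133) (nat_lit 608) (nat_lit 1416626900) (nat_lit 159) (nat_lit 5) (nat_lit 166) (nat_lit 5) (nat_lit 167) (nat_lit 5) (nat_lit 293) (nat_lit 259) (nat_lit 228)) (XT.lf (nat_lit 0) (nat_lit 936872906) (nat_lit 608) (nat_lit 2451725083) (nat_lit 76) (nat_lit 4771339636) (nat_lit 158) (nat_lit 5) (nat_lit 166) (nat_lit 5) (nat_lit 159) (nat_lit 5) (nat_lit 294) (nat_lit 259) (nat_lit 227))) (XT.nd (nat_lit 78) (nat_lit 0) (nat_lit 0) (XT.lf (nat_lit 0) (nat_lit 2410611491) (nat_lit 532) (nat_lit 887098839) (nat_lit 608) (nat_lit 4970307235) (nat_lit 151) (nat_lit 5) (nat_lit 158) (nat_lit 5) (nat_lit 159) (nat_lit 5) (nat_lit 295) (nat_lit 259) (nat_lit 226)) (XT.lf (nat_lit 0) (nat_lit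 5713705282) (nat_lit 608) (nat_lit 989045952) (nat_lit 76) (nat_lit 1677136933) (nat_lit 151) (nat_lit 5) (nat_lit 159) (nat_lit 5) (nat_lit 152) (nat_lit 5) (nat_lit 296) (nat_lit 259) (nat_lit 225)))))) (XT.nd (nat_lit 468) (nat_lit 1672) (nat_lit 0) (XT.nd (nat_lit 234) (nat_lit 988) (nat_lit 0) (XT.nd (nat_lit 78) (nat_lit 608) (nat_lit 0) (XT.lf (nat_lit 0) (nat_lit 4034097912) (nat_lit 456) (nat_lit 4160390808) (nat_lit 532) (nat_lit 300932867) (nat_lit 145) (nat_lit 5) (nat_lit 151) (nat_lit 5) (nat_lit 152) (nat_lit 5) (nat_lit 297) (nat_lit 259) (nat_lit 224)) (XT.nd (nat_lit 78) (nat_lit 0) (nat_lit 0) (XT.lf (nat_lit 0) (nat_lit 542279989) (nat_lit 532) (nat_lit 1511791610) (nat_lit 608) (nat_lit 6560991324) (nat_lit 137) (nat_lit 5) (nat_lit 144) (nat_lit 5) (nat_lit 145) (nat_lit 5) (nat_lit 298) (nat_lit 259) (nat_lit 223)) (XT.lf (nat_lit 0) (nat_lit 4476969428) (nat_lit 608) (nat_lit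 3027389324) (nat_lit 76) (nat_lit 1233816122) (nat_lit 137) (nat_lit 5) (nat_lit 145) (nat_lit 5) (nat_lit 138) (nat_lit 5) (nat_lit 299) (nat_lit 259) (nat_lit 222)))) (XT.nd (nat_lit 78) (nat_lit 532) (nat_lit 0) (XT.lf (nat_lit 0) (nat_lit 2135115238) (nat_lit 456) (nat_lit 4820604547) (nat_lit 532) (nat_lit 1909832919) (nat_lit 131) (nat_lit 5) (nat_lit 137) (nat_lit 5) (nat_lit 138) (nat_lit 5) (nat_lit 300) (nat_lit 259) (nat_lit 221)) (XT.nd (nat_lit 78) (nat_lit 456) (nat_lit 0) (XT.lf (nat_lit 0) (nat_lit 481005929) (nat_lit 532) (nat_lit 1547952939) (nat_lit 76) (nat_lit 6968341411) (nat_lit 130) (nat_lit 5) (nat_lit 137) (nat_lit 5) (nat_lit 131) (nat_lit 5) (nat_lit 301) (nat_lit 259) (nat_lit 220)) (XT.lf (nat_lit 0) (nat_lit 2899723814) (nat_lit 532) (nat_lit 5356206813) (nat_lit 76) (nat_lit 876727949) (nat_lit 124) (nat_lit 5) (nat_lit 131) (nat_lit 5) (nat_lit 125) (nat_lit 5)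 (nat_lit 302) (nat_lit 259) (nat_lit 219))))) (XT.nd (nat_lit 234) (nat_lit 836) (nat_lit 0) (XT.nd (nat_lit 78) (nat_lit 836) (nat_lit 0) (XT.lf (nat_lit 0) (nat_lit 5377245319) (nat_lit 532) (nat_lit 60058554) (nat_lit 76) (nat_lit 3835246448) (nat_lit 124) (nat_lit 5) (nat_lit 131) (nat_lit 5) (nat_lit 125) (nat_lit 5) (nat_lit 303) (nat_lit 259) (nat_lit 218)) (XT.nd (nat_lit 78) (nat_lit 456) (nat_lit 0) (XT.lf (nat_lit 0) (nat_lit 5442411583) (nat_lit 380) (nat_lit 2490809613) (nat_lit 456) (nat_lit 1483351975) (nat_lit 119) (nat_lit 5) (nat_lit 124) (nat_lit 5) (nat_lit 125) (nat_lit 5) (nat_lit 304) (nat_lit 259) (nat_lit 217)) (XT.lf (nat_lit 0) (nat_lit 954023581) (nat_lit 456) (nat_lit 8064161848) (nat_lit 76) (nat_lit 547319609) (nat_lit 113) (nat_lit 5) (nat_lit 119) (nat_lit 5) (nat_lit 114) (nat_lit 5) (nat_lit 305) (nat_lit 259) (nat_lit 216)))) (XT.nd (nat_lit 156) (nat_lit 456)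 (nat_lit 0) (XT.nd (nat_lit 78) (nat_lit 380) (nat_lit 0) (XT.lf (nat_lit 0) (nat_lit 3452748958) (nat_lit 456) (nat_lit 2594834618) (nat_lit 76) (nat_lit 3670392686) (nat_lit 113) (nat_lit 5) (nat_lit 119) (nat_lit 5) (nat_lit 114) (nat_lit 5) (nat_lit 306) (nat_lit 259) (nat_lit 215)) (XT.lf (nat_lit 0) (nat_lit 3039666145) (nat_lit 380) (nat_lit 2970214713) (nat_lit 456) (nat_lit 3865689146) (nat_lit 108) (nat_lit 5) (nat_lit 113) (nat_lit 5) (nat_lit 114) (nat_lit 5) (nat_lit 307) (nat_lit 259) (nat_lit 214))) (XT.nd (nat_lit 78) (nat_lit 456) (nat_lit 0) (XT.lf (nat_lit 0) (nat_lit 8626989415) (nat_lit 456) (nat_lit 1201817640) (nat_lit 76) (nat_lit 209636838) (nat_lit 108) (nat_lit 5) (nat_lit 114) (nat_lit 5) (nat_lit 109) (nat_lit 5) (nat_lit 308) (nat_lit 259) (nat_lit 213)) (XT.lf (nat_lit 0) (nat_lit 1124736686) (nat_lit 456) (nat_lit 5611862065) (nat_lit 76) (nat_lit 3468427198) (nat_lit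 102) (nat_lit 5) (nat_lit 108) (nat_lit 5) (nat_lit 103) (nat_lit 5) (nat_lit 309) (nat_lit 259) (nat_lit 212))))))) (XT.nd (nat_lit 1014) (nat_lit 1824) (nat_lit 0) (XT.nd (nat_lit 468) (nat_lit 1292) (nat_lit 0) (XT.nd (nat_lit 234) (nat_lit 380) (nat_lit 0) (XT.nd (nat_lit 78) (nat_lit 380) (nat_lit 0) (XT.lf (nat_lit 0) (nat_lit 141491556) (nat_lit 304) (nat_lit 3537224970) (nat_lit 380) (nat_lit 6698413499) (nat_lit 98) (nat_lit 5) (nat_lit 102) (nat_lit 5) (nat_lit 103) (nat_lit 5) (nat_lit 310) (nat_lit 259) (nat_lit 211)) (XT.nd (nat_lit 78) (nat_lit 380) (nat_lit 0) (XT.lf (nat_lit 0) (nat_lit 6125483761) (nat_lit 304) (nat_lit 197676688) (nat_lit 380) (nat_lit 4230866051) (nat_lit 98) (nat_lit 5) (nat_lit 102) (nat_lit 5) (nat_lit 103) (nat_lit 5) (nat_lit 311) (nat_lit 259) (nat_lit 210)) (XT.lf (nat_lit 0) (nat_lit 1494261810) (nat_lit 380) (nat_lit 7556495175) (nat_lit 456) (nat_lit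 1685401621) (nat_lit 93) (nat_lit 5) (nat_lit 98) (nat_lit 5) (nat_lit 99) (nat_lit 5) (nat_lit 312) (nat_lit 259) (nat_lit 209)))) (XT.nd (nat_lit 78) (nat_lit 304) (nat_lit 0) (XT.lf (nat_lit 0) (nat_lit 923793704) (nat_lit 456) (nat_lit 3305093571) (nat_lit 76) (nat_lit 6694468987) (nat_lit 92) (nat_lit 5) (nat_lit 98) (nat_lit 5) (nat_lit 93) (nat_lit 5) (nat_lit 313) (nat_lit 259) (nat_lit 208)) (XT.nd (nat_lit 78) (nat_lit 0) (nat_lit 0) (XT.lf (nat_lit 0) (nat_lit 2792461973) (nat_lit 304) (nat_lit 771499468) (nat_lit 380) (nat_lit 7552150290) (nat_lit 88) (nat_lit 5) (nat_lit 92) (nat_lit 5) (nat_lit 93) (nat_lit 5) (nat_lit 314) (nat_lit 259) (nat_lit 207)) (XT.lf (nat_lit 0) (nat_lit 6304087516) (nat_lit 380) (nat_lit 2255797101) (nat_lit 76) (nat_lit 2754181136) (nat_lit 88) (nat_lit 5) (nat_lit 93) (nat_lit 5) (nat_lit 89) (nat_lit 5) (nat_lit 315) (nat_lit 259) (nat_lit 206))))) (XT.nd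 (nat_lit 234) (nat_lit 608) (nat_lit 0) (XT.nd (nat_lit 78) (nat_lit 380) (nat_lit 0) (XT.lf (nat_lit 0) (nat_lit 4010638842) (nat_lit 304) (nat_lit 5123360588) (nat_lit 380) (nat_lit 2383768869) (nat_lit 84) (nat_lit 5) (nat_lit 88) (nat_lit 5) (nat_lit 89) (nat_lit 5) (nat_lit 316) (nat_lit 259) (nat_lit 205)) (XT.nd (nat_lit 78) (nat_lit 304) (nat_lit 0) (XT.lf (nat_lit 0) (nat_lit 299551914) (nat_lit 380) (nat_lit 1273247640) (nat_lit 76) (nat_lit 10155187151) (nat_lit 83) (nat_lit 5) (nat_lit 88) (nat_lit 5) (nat_lit 84) (nat_lit 5) (nat_lit 317) (nat_lit 259) (nat_lit 204)) (XT.lf (nat_lit 0) (nat_lit 3048499554) (nat_lit 380) (nat_lit 6791862467) (nat_lit 76) (nat_lit 2102484628) (nat_lit 79) (nat_lit 5) (nat_lit 84) (nat_lit 5) (nat_lit 80) (nat_lit 5) (nat_lit 318) (nat_lit 259) (nat_lit 203)))) (XT.nd (nat_lit 156) (nat_lit 304) (nat_lit 0) (XT.nd (nat_lit 78) (nat_lit 304) (nat_lit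 0) (XT.lf (nat_lit 0) (nat_lit 5871614667) (nat_lit 380) (nat_lit 438653135) (nat_lit 76) (nat_lit 5854166818) (nat_lit 79) (nat_lit 5) (nat_lit 84) (nat_lit 5) (nat_lit 80) (nat_lit 5) (nat_lit 319) (nat_lit 259) (nat_lit 202)) (XT.lf (nat_lit 0) (nat_lit 6173948666) (nat_lit 304) (nat_lit 2629038033) (nat_lit 380) (nat_lit 3589008860) (nat_lit 75) (nat_lit 5) (nat_lit 79) (nat_lit 5) (nat_lit 80) (nat_lit 5) (nat_lit 320) (nat_lit 259) (nat_lit 201))) (XT.nd (nat_lit 78) (nat_lit 76) (nat_lit 0) (XT.lf (nat_lit 0) (nat_lit 310399074) (nat_lit 228) (nat_lit 11495146688) (nat_lit 304) (nat_lit 821371481) (nat_lit 72) (nat_lit 5) (nat_lit 75) (nat_lit 5) (nat_lit 76) (nat_lit 5) (nat_lit 321) (nat_lit 259) (nat_lit 200)) (XT.lf (nat_lit 0) (nat_lit 2043910685) (nat_lit 304) (nat_lit 5803327119) (nat_lit 76) (nat_lit 5019466630) (nat_lit 71) (nat_lit 5) (nat_lit 75) (nat_lit 5) (nat_lit 72) (nat_lit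 5) (nat_lit 322) (nat_lit 259) (nat_lit 199)))))) (XT.nd (nat_lit 546) (nat_lit 760) (nat_lit 0) (XT.nd (nat_lit 234) (nat_lit 532) (nat_lit 0) (XT.nd (nat_lit 78) (nat_lit 228) (nat_lit 0) (XT.lf (nat_lit 0) (nat_lit 863166941) (nat_lit 304) (nat_lit 4089571628) (nat_lit 380) (nat_lit 8161508459) (nat_lit 67) (nat_lit 5) (nat_lit 71) (nat_lit 5) (nat_lit 72) (nat_lit 5) (nat_lit 323) (nat_lit 259) (nat_lit 198)) (XT.nd (nat_lit 78) (nat_lit 228) (nat_lit 0) (XT.lf (nat_lit 0) (nat_lit 7798312591) (nat_lit 304) (nat_lit 175432224) (nat_lit 380) (nat_lit 5394751482) (nat_lit 67) (nat_lit 5) (nat_lit 71) (nat_lit 5) (nat_lit 72) (nat_lit 5) (nat_lit 324) (nat_lit 259) (nat_lit 197)) (XT.lf (nat_lit 0) (nat_lit 1248745931) (nat_lit 228) (nat_lit 9852843965) (nat_lit 304) (nat_lit 2528323883) (nat_lit 64) (nat_lit 5) (nat_lit 67) (nat_lit 5) (nat_lit 68) (nat_lit 5) (nat_lit 325) (nat_lit 259) (nat_lit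 196)))) (XT.nd (nat_lit 156) (nat_lit 228) (nat_lit 0) (XT.nd (nat_lit 78) (nat_lit 228) (nat_lit 0) (XT.lf (nat_lit 0) (nat_lit 441638016) (nat_lit 304) (nat_lit 5567313331) (nat_lit 76) (nat_lit 7889351068) (nat_lit 63) (nat_lit 5) (nat_lit 67) (nat_lit 5) (nat_lit 64) (nat_lit 5) (nat_lit 326) (nat_lit 259) (nat_lit 195)) (XT.lf (nat_lit 0) (nat_lit 1404908436) (nat_lit 228) (nat_lit 2026706844) (nat_lit 304) (nat_lit 10742949149) (nat_lit 60) (nat_lit 5) (nat_lit 63) (nat_lit 5) (nat_lit 64) (nat_lit 5) (nat_lit 327) (nat_lit 259) (nat_lit 194))) (XT.nd (nat_lit 78) (nat_lit 228) (nat_lit 0) (XT.lf (nat_lit 0) (nat_lit 6556546499) (nat_lit 304) (nat_lit 5826267907) (nat_lit 76) (nat_lit 2074966241) (nat_lit 60) (nat_lit 5) (nat_lit 64) (nat_lit 5) (nat_lit 61) (nat_lit 5) (nat_lit 328) (nat_lit 259) (nat_lit 193)) (XT.lf (nat_lit 0) (nat_lit 1283053919) (nat_lit 228) (nat_lit 8494021003) (nat_lit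 304) (nat_lit 4972386237) (nat_lit 57) (nat_lit 5) (nat_lit 60) (nat_lit 5) (nat_lit 61) (nat_lit 5) (nat_lit 329) (nat_lit 259) (nat_lit 192))))) (XT.nd (nat_lit 234) (nat_lit 456) (nat_lit 0) (XT.nd (nat_lit 78) (nat_lit 304) (nat_lit 0) (XT.lf (nat_lit 0) (nat_lit 8678213784) (nat_lit 228) (nat_lit 4444727901) (nat_lit 304) (nat_lit 1926111334) (nat_lit 57) (nat_lit 5) (nat_lit 60) (nat_lit 5) (nat_lit 61) (nat_lit 5) (nat_lit 330) (nat_lit 259) (nat_lit 191)) (XT.nd (nat_lit 78) (nat_lit 0) (nat_lit 0) (XT.lf (nat_lit 0) (nat_lit 897341555) (nat_lit 228) (nat_lit 269648982) (nat_lit 304) (nat_lit 14190941607) (nat_lit 53) (nat_lit 5) (nat_lit 56) (nat_lit 5) (nat_lit 57) (nat_lit 5) (nat_lit 331) (nat_lit 259) (nat_lit 190)) (XT.lf (nat_lit 0) (nat_lit 4388605085) (nat_lit 304) (nat_lit 7264838366) (nat_lit 76) (nat_lit 4019849793) (nat_lit 53) (nat_lit 5) (nat_lit 57) (nat_lit 5) (nat_lit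 54) (nat_lit 5) (nat_lit 332) (nat_lit 259) (nat_lit 189)))) (XT.nd (nat_lit 156) (nat_lit 304) (nat_lit 0) (XT.nd (nat_lit 78) (nat_lit 0) (nat_lit 0) (XT.lf (nat_lit 0) (nat_lit 101038067) (nat_lit 152) (nat_lit 7581041148) (nat_lit 228) (nat_lit 8316799712) (nat_lit 51) (nat_lit 5) (nat_lit 53) (nat_lit 5) (nat_lit 54) (nat_lit 5) (nat_lit 333) (nat_lit 259) (nat_lit 188)) (XT.lf (nat_lit 0) (nat_lit 7792204347) (nat_lit 152) (nat_lit 3327483214) (nat_lit 228) (nat_lit 5213204223) (nat_lit 51) (nat_lit 5) (nat_lit 53) (nat_lit 5) (nat_lit 54) (nat_lit 5) (nat_lit 334) (nat_lit 259) (nat_lit 187))) (XT.nd (nat_lit 78) (nat_lit 304) (nat_lit 0) (XT.lf (nat_lit 0) (nat_lit 14643183866) (nat_lit 228) (nat_lit 1016937922) (nat_lit 76) (nat_lit 1017339380) (nat_lit 51) (nat_lit 5) (nat_lit 54) (nat_lit 5) (nat_lit 52) (nat_lit 5) (nat_lit 335) (nat_lit 259) (nat_lit 186)) (XT.lf (nat_lit 0) (nat_lit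 1288148516) (nat_lit 304) (nat_lit 10253510963) (nat_lit 76) (nat_lit 5488198556) (nat_lit 47) (nat_lit 5) (nat_lit 51) (nat_lit 5) (nat_lit 48) (nat_lit 5) (nat_lit 336) (nat_lit 259) (nat_lit 185))))))))
noncomputable def xc103 : XT := (XT.nd (nat_lit 2106) (nat_lit 912) (nat_lit 0) (XT.nd (nat_lit 1014) (nat_lit 836) (nat_lit 0) (XT.nd (nat_lit 468) (nat_lit 380) (nat_lit 0) (XT.nd (nat_lit 234) (nat_lit 456) (nat_lit 0) (XT.nd (nat_lit 78) (nat_lit 152) (nat_lit 0) (XT.lf (nat_lit 0) (nat_lit 4653249606) (nat_lit 304) (nat_lit 2631319187) (nat_lit 76) (nat_lit 10108154419) (nat_lit 47) (nat_lit 5) (nat_lit 51) (nat_lit 5) (nat_lit 48) (nat_lit 5) (nat_lit 337) (nat_lit 259) (nat_lit 184)) (XT.nd (nat_lit 78) (nat_lit 0) (nat_lit 0) (XT.lf (nat_lit 0) (nat_lit 5281003067) (nat_lit 152) (nat_lit 2863354896) (nat_lit 228) (nat_lit 9621381576) (nat_lit 45) (nat_lit 5) (nat_lit 47) (nat_lit 5)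 (nat_lit 48) (nat_lit 5) (nat_lit 338) (nat_lit 259) (nat_lit 183)) (XT.lf (nat_lit 0) (nat_lit 11757774803) (nat_lit 228) (nat_lit 4722831828) (nat_lit 76) (nat_lit 1668828800) (nat_lit 45) (nat_lit 5) (nat_lit 48) (nat_lit 5) (nat_lit 46) (nat_lit 5) (nat_lit 339) (nat_lit 259) (nat_lit 182)))) (XT.nd (nat_lit 78) (nat_lit 228) (nat_lit 0) (XT.lf (nat_lit 0) (nat_lit 3266739445) (nat_lit 228) (nat_lit 12247840541) (nat_lit 304) (nat_lit 3029028493) (nat_lit 42) (nat_lit 5) (nat_lit 45) (nat_lit 5) (nat_lit 46) (nat_lit 5) (nat_lit 340) (nat_lit 259) (nat_lit 181)) (XT.nd (nat_lit 78) (nat_lit 152) (nat_lit 0) (XT.lf (nat_lit 0) (nat_lit 449479752) (nat_lit 304) (nat_lit 7400708101) (nat_lit 76) (nat_lit 11098604253) (nat_lit 41) (nat_lit 5) (nat_lit 45) (nat_lit 5) (nat_lit 42) (nat_lit 5) (nat_lit 341) (nat_lit 259) (nat_lit 180)) (XT.lf (nat_lit 0) (nat_lit 655019657) (nat_lit 152) (nat_lit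 3298770569) (nat_lit 228) (nat_lit 15411985992) (nat_lit 39) (nat_lit 5) (nat_lit 41) (nat_lit 5) (nat_lit 42) (nat_lit 5) (nat_lit 342) (nat_lit 259) (nat_lit 179))))) (XT.nd (nat_lit 234) (nat_lit 228) (nat_lit 0) (XT.nd (nat_lit 78) (nat_lit 152) (nat_lit 0) (XT.lf (nat_lit 0) (nat_lit 7628260628) (nat_lit 228) (nat_lit 10742691834) (nat_lit 76) (nat_lit 1422380560) (nat_lit 39) (nat_lit 5) (nat_lit 42) (nat_lit 5) (nat_lit 40) (nat_lit 5) (nat_lit 343) (nat_lit 259) (nat_lit 178)) (XT.nd (nat_lit 78) (nat_lit 152) (nat_lit 0) (XT.lf (nat_lit 0) (nat_lit 11422523624) (nat_lit 228) (nat_lit 2606786849) (nat_lit 76) (nat_lit 6204132981) (nat_lit 39) (nat_lit 5) (nat_lit 42) (nat_lit 5) (nat_lit 40) (nat_lit 5) (nat_lit 344) (nat_lit 259) (nat_lit 177)) (XT.lf (nat_lit 0) (nat_lit 5849930451) (nat_lit 152) (nat_lit 9514487447) (nat_lit 228) (nat_lit 5321338478) (nat_lit 37) (nat_lit 5) (nat_lit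 39) (nat_lit 5) (nat_lit 40) (nat_lit 5) (nat_lit 345) (nat_lit 259) (nat_lit 176)))) (XT.nd (nat_lit 156) (nat_lit 0) (nat_lit 0) (XT.nd (nat_lit 78) (nat_lit 228) (nat_lit 0) (XT.lf (nat_lit 0) (nat_lit 14576734641) (nat_lit 152) (nat_lit 4852025209) (nat_lit 228) (nat_lit 1722766003) (nat_lit 37) (nat_lit 5) (nat_lit 39) (nat_lit 5) (nat_lit 40) (nat_lit 5) (nat_lit 346) (nat_lit 259) (nat_lit 175)) (XT.lf (nat_lit 0) (nat_lit 1915976673) (nat_lit 152) (nat_lit 25781164) (nat_lit 228) (nat_lit 19689049518) (nat_lit 34) (nat_lit 5) (nat_lit 36) (nat_lit 5) (nat_lit 37) (nat_lit 5) (nat_lit 347) (nat_lit 259) (nat_lit 174))) (XT.nd (nat_lit 78) (nat_lit 0) (nat_lit 0) (XT.lf (nat_lit 0) (nat_lit 5774610292) (nat_lit 228) (nat_lit 11428055633) (nat_lit 76) (nat_lit 4918510900) (nat_lit 34) (nat_lit 5) (nat_lit 37) (nat_lit 5) (nat_lit 35) (nat_lit 5) (nat_lit 348) (nat_lit 259) (nat_lit 173))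 (XT.lf (nat_lit 0) (nat_lit 9701763934) (nat_lit 228) (nat_lit 2928440615) (nat_lit 76) (nat_lit 9996684816) (nat_lit 34) (nat_lit 5) (nat_lit 37) (nat_lit 5) (nat_lit 35) (nat_lit 5) (nat_lit 349) (nat_lit 259) (nat_lit 172)))))) (XT.nd (nat_lit 546) (nat_lit 304) (nat_lit 0) (XT.nd (nat_lit 234) (nat_lit 228) (nat_lit 0) (XT.nd (nat_lit 78) (nat_lit 152) (nat_lit 0) (XT.lf (nat_lit 0) (nat_lit 5906955013) (nat_lit 152) (nat_lit 7876228685) (nat_lit 228) (nat_lit 9363507159) (nat_lit 32) (nat_lit 5) (nat_lit 34) (nat_lit 5) (nat_lit 35) (nat_lit 5) (nat_lit 350) (nat_lit 259) (nat_lit 171)) (XT.nd (nat_lit 78) (nat_lit 152) (nat_lit 0) (XT.lf (nat_lit 0) (nat_lit 15033306842) (nat_lit 152) (nat_lit 2963244965) (nat_lit 228) (nat_lit 5685260212) (nat_lit 32) (nat_lit 5) (nat_lit 34) (nat_lit 5) (nat_lit 35) (nat_lit 5) (nat_lit 351) (nat_lit 259) (nat_lit 170)) (XT.lf (nat_lit 0) (nat_lit 149617920)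 (nat_lit 152) (nat_lit 22188687509) (nat_lit 228) (nat_lit 1894632335) (nat_lit 30) (nat_lit 5) (nat_lit 32) (nat_lit 5) (nat_lit 33) (nat_lit 4) (nat_lit 352) (nat_lit 259) (nat_lit 169)))) (XT.nd (nat_lit 156) (nat_lit 152) (nat_lit 0) (XT.nd (nat_lit 78) (nat_lit 0) (nat_lit 0) (XT.lf (nat_lit 0) (nat_lit 2068471368) (nat_lit 228) (nat_lit 15492204005) (nat_lit 76) (nat_lit 7236413018) (nat_lit 29) (nat_lit 5) (nat_lit 32) (nat_lit 5) (nat_lit 30) (nat_lit 5) (nat_lit 353) (nat_lit 259) (nat_lit 168)) (XT.lf (nat_lit 0) (nat_lit 6093394816) (nat_lit 228) (nat_lit 6694807556) (nat_lit 76) (nat_lit 12589977791) (nat_lit 29) (nat_lit 5) (nat_lit 32) (nat_lit 5) (nat_lit 30) (nat_lit 5) (nat_lit 354) (nat_lit 259) (nat_lit 167))) (XT.nd (nat_lit 78) (nat_lit 0) (nat_lit 0) (XT.lf (nat_lit 0) (nat_lit 2381235392) (nat_lit 152) (nat_lit 7862280529) (nat_lit 228) (nat_lit 15733064582) (nat_lit 27)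 (nat_lit 5) (nat_lit 29) (nat_lit 5) (nat_lit 30) (nat_lit 5) (nat_lit 355) (nat_lit 259) (nat_lit 166)) (XT.lf (nat_lit 0) (nat_lit 11835365942) (nat_lit 152) (nat_lit 2732174166) (nat_lit 228) (nat_lit 12023919804) (nat_lit 27) (nat_lit 5) (nat_lit 29) (nat_lit 5) (nat_lit 30) (nat_lit 5) (nat_lit 356) (nat_lit 259) (nat_lit 165))))) (XT.nd (nat_lit 234) (nat_lit 228) (nat_lit 0) (XT.nd (nat_lit 78) (nat_lit 76) (nat_lit 0) (XT.lf (nat_lit 0) (nat_lit 19028016654) (nat_lit 228) (nat_lit 5707125911) (nat_lit 76) (nat_lit 2489449969) (nat_lit 27) (nat_lit 5) (nat_lit 30) (nat_lit 5) (nat_lit 28) (nat_lit 4) (nat_lit 357) (nat_lit 259) (nat_lit 164)) (XT.nd (nat_lit 78) (nat_lit 0) (nat_lit 0) (XT.lf (nat_lit 0) (nat_lit 3627005995) (nat_lit 76) (nat_lit 20039937952) (nat_lit 152) (nat_lit 4208444617) (nat_lit 26) (nat_lit 5) (nat_lit 27) (nat_lit 5) (nat_lit 28) (nat_lit 4) (nat_lit 358) (nat_lit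 259) (nat_lit 163)) (XT.lf (nat_lit 0) (nat_lit 13328416842) (nat_lit 76) (nat_lit 15157190683) (nat_lit 152) (nat_lit 58892172) (nat_lit 26) (nat_lit 5) (nat_lit 27) (nat_lit 5) (nat_lit 28) (nat_lit 4) (nat_lit 359) (nat_lit 259) (nat_lit 162)))) (XT.nd (nat_lit 156) (nat_lit 0) (nat_lit 0) (XT.nd (nat_lit 78) (nat_lit 152) (nat_lit 0) (XT.lf (nat_lit 0) (nat_lit 4116156899) (nat_lit 152) (nat_lit 5982543046) (nat_lit 76) (nat_lit 19134278579) (nat_lit 25) (nat_lit 5) (nat_lit 27) (nat_lit 5) (nat_lit 26) (nat_lit 5) (nat_lit 360) (nat_lit 259) (nat_lit 161)) (XT.lf (nat_lit 0) (nat_lit 3568698487) (nat_lit 152) (nat_lit 4864630038) (nat_lit 228) (nat_lit 21508231628) (nat_lit 23) (nat_lit 5) (nat_lit 25) (nat_lit 5) (nat_lit 26) (nat_lit 5) (nat_lit 361) (nat_lit 259) (nat_lit 160))) (XT.nd (nat_lit 78) (nat_lit 0) (nat_lit 0) (XT.lf (nat_lit 0) (nat_lit 12929923982) (nat_lit 228) (nat_lit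 17174586712) (nat_lit 76) (nat_lit 565398631) (nat_lit 23) (nat_lit 5) (nat_lit 26) (nat_lit 5) (nat_lit 24) (nat_lit 4) (nat_lit 362) (nat_lit 259) (nat_lit 159)) (XT.lf (nat_lit 0) (nat_lit 17593890608) (nat_lit 228) (nat_lit 7776153949) (nat_lit 76) (nat_lit 6049097352) (nat_lit 23) (nat_lit 5) (nat_lit 26) (nat_lit 5) (nat_lit 24) (nat_lit 4) (nat_lit 363) (nat_lit 259) (nat_lit 158))))))) (XT.nd (nat_lit 1014) (nat_lit 304) (nat_lit 0) (XT.nd (nat_lit 468) (nat_lit 304) (nat_lit 0) (XT.nd (nat_lit 234) (nat_lit 228) (nat_lit 0) (XT.nd (nat_lit 78) (nat_lit 0) (nat_lit 0) (XT.lf (nat_lit 0) (nat_lit 1914774797) (nat_lit 76) (nat_lit 20486173106) (nat_lit 152) (nat_lit 9789815348) (nat_lit 22) (nat_lit 5) (nat_lit 23) (nat_lit 5) (nat_lit 24) (nat_lit 4) (nat_lit 364) (nat_lit 259) (nat_lit 157)) (XT.nd (nat_lit 78) (nat_lit 0) (nat_lit 0) (XT.lf (nat_lit 0) (nat_lit 12029276738) (nat_lit 76)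 (nat_lit 15386418193) (nat_lit 152) (nat_lit 5567940690) (nat_lit 22) (nat_lit 5) (nat_lit 23) (nat_lit 5) (nat_lit 24) (nat_lit 4) (nat_lit 365) (nat_lit 259) (nat_lit 156)) (XT.lf (nat_lit 0) (nat_lit 22421429078) (nat_lit 76) (nat_lit 10144847630) (nat_lit 152) (nat_lit 1234462218) (nat_lit 22) (nat_lit 5) (nat_lit 23) (nat_lit 5) (nat_lit 24) (nat_lit 4) (nat_lit 366) (nat_lit 259) (nat_lit 155)))) (XT.nd (nat_lit 78) (nat_lit 152) (nat_lit 0) (XT.lf (nat_lit 0) (nat_lit 3151681951) (nat_lit 152) (nat_lit 1573373644) (nat_lit 76) (nat_lit 29916804577) (nat_lit 21) (nat_lit 5) (nat_lit 23) (nat_lit 5) (nat_lit 22) (nat_lit 5) (nat_lit 367) (nat_lit 259) (nat_lit 154)) (XT.nd (nat_lit 78) (nat_lit 0) (nat_lit 0) (XT.lf (nat_lit 0) (nat_lit 7723005785) (nat_lit 228) (nat_lit 26855961187) (nat_lit 76) (nat_lit 926535187) (nat_lit 19) (nat_lit 5) (nat_lit 22) (nat_lit 5) (nat_lit 20) (nat_lit 4)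 (nat_lit 368) (nat_lit 259) (nat_lit 153)) (XT.lf (nat_lit 0) (nat_lit 12480455075) (nat_lit 228) (nat_lit 17254783525) (nat_lit 76) (nat_lit 6658351035) (nat_lit 19) (nat_lit 5) (nat_lit 22) (nat_lit 5) (nat_lit 20) (nat_lit 4) (nat_lit 369) (nat_lit 259) (nat_lit 152))))) (XT.nd (nat_lit 234) (nat_lit 228) (nat_lit 0) (XT.nd (nat_lit 78) (nat_lit 76) (nat_lit 0) (XT.lf (nat_lit 0) (nat_lit 17367188734) (nat_lit 228) (nat_lit 7389514582) (nat_lit 76) (nat_lit 12552025229) (nat_lit 19) (nat_lit 5) (nat_lit 22) (nat_lit 5) (nat_lit 20) (nat_lit 4) (nat_lit 370) (nat_lit 259) (nat_lit 151)) (XT.nd (nat_lit 78) (nat_lit 0) (nat_lit 0) (XT.lf (nat_lit 0) (nat_lit 2803165638) (nat_lit 76) (nat_lit 19611256830) (nat_lit 152) (nat_lit 15836487684) (nat_lit 18) (nat_lit 5) (nat_lit 19) (nat_lit 5) (nat_lit 20) (nat_lit 4) (nat_lit 371) (nat_lit 259) (nat_lit 150)) (XT.lf (nat_lit 0) (nat_lit 13430085330)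 (nat_lit 76) (nat_lit 14244718572) (nat_lit 152) (nat_lit 11544706695) (nat_lit 18) (nat_lit 5) (nat_lit 19) (nat_lit 5) (nat_lit 20) (nat_lit 4) (nat_lit 372) (nat_lit 259) (nat_lit 149)))) (XT.nd (nat_lit 156) (nat_lit 228) (nat_lit 0) (XT.nd (nat_lit 78) (nat_lit 0) (nat_lit 0) (XT.lf (nat_lit 0) (nat_lit 24353464321) (nat_lit 76) (nat_lit 8727018944) (nat_lit 152) (nat_lit 7137066352) (nat_lit 18) (nat_lit 5) (nat_lit 19) (nat_lit 5) (nat_lit 20) (nat_lit 4) (nat_lit 373) (nat_lit 259) (nat_lit 148)) (XT.lf (nat_lit 0) (nat_lit 35582847311) (nat_lit 76) (nat_lit 3053336655) (nat_lit 152) (nat_lit 2609715321) (nat_lit 18) (nat_lit 5) (nat_lit 19) (nat_lit 5) (nat_lit 20) (nat_lit 4) (nat_lit 374) (nat_lit 259) (nat_lit 147))) (XT.nd (nat_lit 78) (nat_lit 0) (nat_lit 0) (XT.lf (nat_lit 0) (nat_lit 2075952996) (nat_lit 228) (nat_lit 37432298364) (nat_lit 76) (nat_lit 2794383621) (nat_lit 15)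 (nat_lit 5) (nat_lit 18) (nat_lit 5) (nat_lit 16) (nat_lit 4) (nat_lit 375) (nat_lit 259) (nat_lit 146)) (XT.lf (nat_lit 0) (nat_lit 6925859536) (nat_lit 228) (nat_lit 27631545816) (nat_lit 76) (nat_lit 8830613186) (nat_lit 15) (nat_lit 5) (nat_lit 18) (nat_lit 5) (nat_lit 16) (nat_lit 4) (nat_lit 376) (nat_lit 259) (nat_lit 145)))))) (XT.nd (nat_lit 546) (nat_lit 228) (nat_lit 0) (XT.nd (nat_lit 234) (nat_lit 0) (nat_lit 0) (XT.nd (nat_lit 78) (nat_lit 76) (nat_lit 0) (XT.lf (nat_lit 0) (nat_lit 11909746666) (nat_lit 228) (nat_lit 17557514874) (nat_lit 76) (nat_lit 15039052009) (nat_lit 15) (nat_lit 5) (nat_lit 18) (nat_lit 5) (nat_lit 16) (nat_lit 4) (nat_lit 377) (nat_lit 259) (nat_lit 144)) (XT.nd (nat_lit 78) (nat_lit 76) (nat_lit 0) (XT.lf (nat_lit 0) (nat_lit 17031969237) (nat_lit 228) (nat_lit 7201402987) (nat_lit 76) (nat_lit 21425124940) (nat_lit 15) (nat_lit 5) (nat_lit 18) (nat_lit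 5) (nat_lit 16) (nat_lit 4) (nat_lit 378) (nat_lit 259) (nat_lit 143)) (XT.lf (nat_lit 0) (nat_lit 3514417825) (nat_lit 76) (nat_lit 18816367887) (nat_lit 152) (nat_lit 24513776951) (nat_lit 14) (nat_lit 5) (nat_lit 15) (nat_lit 5) (nat_lit 16) (nat_lit 4) (nat_lit 379) (nat_lit 259) (nat_lit 142)))) (XT.nd (nat_lit 156) (nat_lit 0) (nat_lit 0) (XT.nd (nat_lit 78) (nat_lit 0) (nat_lit 0) (XT.lf (nat_lit 0) (nat_lit 14679973282) (nat_lit 76) (nat_lit 13170588008) (nat_lit 152) (nat_lit 20213793071) (nat_lit 14) (nat_lit 5) (nat_lit 15) (nat_lit 5) (nat_lit 16) (nat_lit 4) (nat_lit 380) (nat_lit 259) (nat_lit 141)) (XT.lf (nat_lit 0) (nat_lit 26161697654) (nat_lit 76) (nat_lit 7363819429) (nat_lit 152) (nat_lit 15795539070) (nat_lit 14) (nat_lit 5) (nat_lit 15) (nat_lit 5) (nat_lit 16) (nat_lit 4) (nat_lit 381) (nat_lit 259) (nat_lit 140))) (XT.nd (nat_lit 78) (nat_lit 0) (nat_lit 0) (XT.lf (nat_lit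 0) (nat_lit 37969623514) (nat_lit 76) (nat_lit 1390988276) (nat_lit 152) (nat_lit 11255154338) (nat_lit 14) (nat_lit 5) (nat_lit 15) (nat_lit 5) (nat_lit 16) (nat_lit 4) (nat_lit 382) (nat_lit 259) (nat_lit 139)) (XT.lf (nat_lit 0) (nat_lit 45406633980) (nat_lit 152) (nat_lit 1881237059) (nat_lit 0) (nat_lit 4660373851) (nat_lit 14) (nat_lit 5) (nat_lit 16) (nat_lit 4) (nat_lit 14) (nat_lit 4) (nat_lit 383) (nat_lit 259) (nat_lit 138))))) (XT.nd (nat_lit 234) (nat_lit 76) (nat_lit 0) (XT.nd (nat_lit 78) (nat_lit 76) (nat_lit 0) (XT.lf (nat_lit 0) (nat_lit 9358034110) (nat_lit 76) (nat_lit 42370126857) (nat_lit 76) (nat_lit 1589716939) (nat_lit 13) (nat_lit 4) (nat_lit 14) (nat_lit 5) (nat_lit 14) (nat_lit 4) (nat_lit 384) (nat_lit 259) (nat_lit 137)) (XT.nd (nat_lit 78) (nat_lit 0) (nat_lit 0) (XT.lf (nat_lit 0) (nat_lit 3451825017) (nat_lit 152) (nat_lit 33806360267) (nat_lit 76) (nat_lit 17469117673)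 (nat_lit 12) (nat_lit 5) (nat_lit 14) (nat_lit 5) (nat_lit 13) (nat_lit 4) (nat_lit 385) (nat_lit 259) (nat_lit 136)) (XT.lf (nat_lit 0) (nat_lit 8603354057) (nat_lit 152) (nat_lit 23380945767) (nat_lit 76) (nat_lit 24194521275) (nat_lit 12) (nat_lit 5) (nat_lit 14) (nat_lit 5) (nat_lit 13) (nat_lit 4) (nat_lit 386) (nat_lit 259) (nat_lit 135)))) (XT.nd (nat_lit 156) (nat_lit 76) (nat_lit 0) (XT.nd (nat_lit 78) (nat_lit 0) (nat_lit 0) (XT.lf (nat_lit 0) (nat_lit 13900392619) (nat_lit 152) (nat_lit 12659209381) (nat_lit 76) (nat_lit 31114557090) (nat_lit 12) (nat_lit 5) (nat_lit 14) (nat_lit 5) (nat_lit 13) (nat_lit 4) (nat_lit 387) (nat_lit 259) (nat_lit 134)) (XT.lf (nat_lit 0) (nat_lit 19347569183) (nat_lit 152) (nat_lit 1631782601) (nat_lit 76) (nat_lit 38235271750) (nat_lit 12) (nat_lit 5) (nat_lit 14) (nat_lit 5) (nat_lit 13) (nat_lit 4) (nat_lit 388) (nat_lit 259) (nat_lit 133))) (XT.nd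 (nat_lit 78) (nat_lit 0) (nat_lit 0) (XT.lf (nat_lit 0) (nat_lit 9904237536) (nat_lit 76) (nat_lit 15140611471) (nat_lit 152) (nat_lit 35753855294) (nat_lit 11) (nat_lit 5) (nat_lit 12) (nat_lit 5) (nat_lit 13) (nat_lit 4) (nat_lit 389) (nat_lit 259) (nat_lit 132)) (XT.lf (nat_lit 0) (nat_lit 21804443357) (nat_lit 76) (nat_lit 9116664632) (nat_lit 152) (nat_lit 31508960622) (nat_lit 11) (nat_lit 5) (nat_lit 12) (nat_lit 5) (nat_lit 13) (nat_lit 4) (nat_lit 390) (nat_lit 259) (nat_lit 131))))))))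
noncomputable def xc104 : XT := (XT.nd (nat_lit 31044) (nat_lit 0) (nat_lit 11476) (XT.nd (nat_lit 1014) (nat_lit 76) (nat_lit 0) (XT.nd (nat_lit 468) (nat_lit 152) (nat_lit 0) (XT.nd (nat_lit 234) (nat_lit 76) (nat_lit 0) (XT.nd (nat_lit 78) (nat_lit 0) (nat_lit 0) (XT.lf (nat_lit 0) (nat_lit 34046757426) (nat_lit 76) (nat_lit 2918725426) (nat_lit 152) (nat_lit 27145139009) (nat_lit 11) (nat_lit 5) (nat_lit 12) (nat_lit 5) (nat_lit 13) (nat_lit 4) (nat_lit 391) (nat_lit 259) (nat_lit 130)) (XT.nd (nat_lit 78) (nat_lit 0) (nat_lit 0) (XT.lf (nat_lit 0) (nat_lit 43216501479) (nat_lit 152) (nat_lit 19233201975) (nat_lit 0) (nat_lit 3391131651) (nat_lit 11) (nat_lit 5) (nat_lit 13) (nat_lit 4) (nat_lit 11) (nat_lit 4) (nat_lit 392) (nat_lit 259) (nat_lit 129)) (XT.lf (nat_lit 0) (nat_lit 49676185205) (nat_lit 152) (nat_lit 8120733469) (nat_lit 0) (nat_lit 9825404727) (nat_lit 11) (nat_lit 5) (nat_lit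 13) (nat_lit 4) (nat_lit 11) (nat_lit 4) (nat_lit 393) (nat_lit 259) (nat_lit 128)))) (XT.nd (nat_lit 78) (nat_lit 0) (nat_lit 0) (XT.lf (nat_lit 0) (nat_lit 3377209094) (nat_lit 76) (nat_lit 52977376546) (nat_lit 76) (nat_lit 13101925534) (nat_lit 10) (nat_lit 4) (nat_lit 11) (nat_lit 5) (nat_lit 11) (nat_lit 4) (nat_lit 394) (nat_lit 259) (nat_lit 127)) (XT.nd (nat_lit 78) (nat_lit 0) (nat_lit 0) (XT.lf (nat_lit 0) (nat_lit 15372890807) (nat_lit 76) (nat_lit 47935001337) (nat_lit 76) (nat_lit 8035598350) (nat_lit 10) (nat_lit 4) (nat_lit 11) (nat_lit 5) (nat_lit 11) (nat_lit 4) (nat_lit 395) (nat_lit 259) (nat_lit 126)) (XT.lf (nat_lit 0) (nat_lit 27715174814) (nat_lit 76) (nat_lit 42747390574) (nat_lit 76) (nat_lit 2824733243) (nat_lit 10) (nat_lit 4) (nat_lit 11) (nat_lit 5) (nat_lit 11) (nat_lit 4) (nat_lit 396) (nat_lit 259) (nat_lit 125))))) (XT.nd (nat_lit 234) (nat_lit 76) (nat_lit 0)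 (XT.nd (nat_lit 78) (nat_lit 0) (nat_lit 0) (XT.lf (nat_lit 0) (nat_lit 2485751639) (nat_lit 152) (nat_lit 34899158537) (nat_lit 76) (nat_lit 37903992779) (nat_lit 9) (nat_lit 5) (nat_lit 11) (nat_lit 5) (nat_lit 10) (nat_lit 4) (nat_lit 397) (nat_lit 259) (nat_lit 124)) (XT.nd (nat_lit 78) (nat_lit 0) (nat_lit 0) (XT.lf (nat_lit 0) (nat_lit 7891889670) (nat_lit 152) (nat_lit 23946617784) (nat_lit 76) (nat_lit 45511417789) (nat_lit 9) (nat_lit 5) (nat_lit 11) (nat_lit 5) (nat_lit 10) (nat_lit 4) (nat_lit 398) (nat_lit 259) (nat_lit 123)) (XT.lf (nat_lit 0) (nat_lit 13453525379) (nat_lit 152) (nat_lit 12677778314) (nat_lit 76) (nat_lit 53341677290) (nat_lit 9) (nat_lit 5) (nat_lit 11) (nat_lit 5) (nat_lit 10) (nat_lit 4) (nat_lit 399) (nat_lit 259) (nat_lit 122)))) (XT.nd (nat_lit 156) (nat_lit 0) (nat_lit 0) (XT.nd (nat_lit 78) (nat_lit 76) (nat_lit 0) (XT.lf (nat_lit 0) (nat_lit 19175518447)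 (nat_lit 152) (nat_lit 1082793568) (nat_lit 76) (nat_lit 61401613254) (nat_lit 9) (nat_lit 5) (nat_lit 11) (nat_lit 5) (nat_lit 10) (nat_lit 4) (nat_lit 400) (nat_lit 259) (nat_lit 121)) (XT.lf (nat_lit 0) (nat_lit 11064373777) (nat_lit 76) (nat_lit 14104852428) (nat_lit 152) (nat_lit 58740252097) (nat_lit 8) (nat_lit 5) (nat_lit 9) (nat_lit 5) (nat_lit 10) (nat_lit 4) (nat_lit 401) (nat_lit 259) (nat_lit 120))) (XT.nd (nat_lit 78) (nat_lit 0) (nat_lit 0) (XT.lf (nat_lit 0) (nat_lit 23586693082) (nat_lit 76) (nat_lit 7760756991) (nat_lit 152) (nat_lit 54878928708) (nat_lit 8) (nat_lit 5) (nat_lit 9) (nat_lit 5) (nat_lit 10) (nat_lit 4) (nat_lit 402) (nat_lit 259) (nat_lit 119)) (XT.lf (nat_lit 0) (nat_lit 36473556462) (nat_lit 76) (nat_lit 1231416414) (nat_lit 152) (nat_lit 50907996776) (nat_lit 8) (nat_lit 5) (nat_lit 9) (nat_lit 5) (nat_lit 10) (nat_lit 4) (nat_lit 403) (nat_lit 259) (nat_lit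 118)))))) (XT.nd (nat_lit 29484) (nat_lit 0) (nat_lit 22572) (XT.nd (nat_lit 234) (nat_lit 76) (nat_lit 0) (XT.nd (nat_lit 78) (nat_lit 0) (nat_lit 0) (XT.lf (nat_lit 0) (nat_lit 44300112152) (nat_lit 152) (nat_lit 41387874422) (nat_lit 0) (nat_lit 5381766840) (nat_lit 8) (nat_lit 5) (nat_lit 10) (nat_lit 4) (nat_lit 8) (nat_lit 4) (nat_lit 404) (nat_lit 259) (nat_lit 117)) (XT.nd (nat_lit 78) (nat_lit 0) (nat_lit 0) (XT.lf (nat_lit 0) (nat_lit 51099551226) (nat_lit 152) (nat_lit 30336595428) (nat_lit 0) (nat_lit 12163902498) (nat_lit 8) (nat_lit 5) (nat_lit 10) (nat_lit 4) (nat_lit 8) (nat_lit 4) (nat_lit 405) (nat_lit 259) (nat_lit 116)) (XT.lf (nat_lit 0) (nat_lit 58097394227) (nat_lit 152) (nat_lit 18964082625) (nat_lit 0) (nat_lit 19144946066) (nat_lit 8) (nat_lit 5) (nat_lit 10) (nat_lit 4) (nat_lit 8) (nat_lit 4) (nat_lit 406) (nat_lit 259) (nat_lit 115)))) (XT.nd (nat_lit 78) (nat_lit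 76) (nat_lit 0) (XT.lf (nat_lit 0) (nat_lit 65299755777) (nat_lit 152) (nat_lit 7260398865) (nat_lit 0) (nat_lit 26330997486) (nat_lit 8) (nat_lit 5) (nat_lit 10) (nat_lit 4) (nat_lit 8) (nat_lit 4) (nat_lit 407) (nat_lit 259) (nat_lit 114)) (XT.nd (nat_lit 29094) (nat_lit 0) (nat_lit 23332) (XT.lf (nat_lit 0) (nat_lit 4879906933) (nat_lit 76) (nat_lit 67879930918) (nat_lit 76) (nat_lit 28895337550) (nat_lit 7) (nat_lit 4) (nat_lit 8) (nat_lit 5) (nat_lit 8) (nat_lit 4) (nat_lit 408) (nat_lit 259) (nat_lit 113)) (XT.lf (nat_lit 0) (nat_lit 0) (nat_lit 0) (nat_lit 0) (nat_lit 0) (nat_lit 1073741823) (nat_lit 1) (nat_lit 0) (nat_lit 1) (nat_lit 0) (nat_lit 314) (nat_lit 0) (nat_lit 260) (nat_lit 260) (nat_lit 260))))) (XT.nd (nat_lit 234) (nat_lit 532) (nat_lit 0) (XT.nd (nat_lit 78) (nat_lit 152) (nat_lit 0) (XT.lf (nat_lit 0) (nat_lit 2935040195) (nat_lit 76) (nat_lit 3450586386) (nat_lit 0) (nat_lit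 57829094) (nat_lit 313) (nat_lit 5) (nat_lit 314) (nat_lit 0) (nat_lit 313) (nat_lit 4) (nat_lit 261) (nat_lit 260) (nat_lit 259)) (XT.nd (nat_lit 78) (nat_lit 152) (nat_lit 0) (XT.lf (nat_lit 0) (nat_lit 5844157750) (nat_lit 76) (nat_lit 430510060) (nat_lit 0) (nat_lit 173537813) (nat_lit 313) (nat_lit 5) (nat_lit 314) (nat_lit 0) (nat_lit 313) (nat_lit 4) (nat_lit 262) (nat_lit 260) (nat_lit 258)) (XT.lf (nat_lit 0) (nat_lit 2254776277) (nat_lit 152) (nat_lit 3805471507) (nat_lit 76) (nat_lit 395023273) (nat_lit 311) (nat_lit 5) (nat_lit 313) (nat_lit 5) (nat_lit 312) (nat_lit 4) (nat_lit 263) (nat_lit 260) (nat_lit 257)))) (XT.nd (nat_lit 156) (nat_lit 304) (nat_lit 0) (XT.nd (nat_lit 78) (nat_lit 228) (nat_lit 0) (XT.lf (nat_lit 0) (nat_lit 5082271980) (nat_lit 152) (nat_lit 698710972) (nat_lit 76) (nat_lit 684805407) (nat_lit 311) (nat_lit 5) (nat_lit 313) (nat_lit 5) (nat_lit 312) (nat_lit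 4) (nat_lit 264) (nat_lit 260) (nat_lit 256)) (XT.lf (nat_lit 0) (nat_lit 1405056073) (nat_lit 228) (nat_lit 4003102235) (nat_lit 76) (nat_lit 1070779158) (nat_lit 308) (nat_lit 5) (nat_lit 311) (nat_lit 5) (nat_lit 309) (nat_lit 5) (nat_lit 265) (nat_lit 260) (nat_lit 255))) (XT.nd (nat_lit 78) (nat_lit 304) (nat_lit 0) (XT.lf (nat_lit 0) (nat_lit 4151692128) (nat_lit 228) (nat_lit 807664141) (nat_lit 76) (nat_lit 1535895197) (nat_lit 308) (nat_lit 5) (nat_lit 311) (nat_lit 5) (nat_lit 309) (nat_lit 5) (nat_lit 266) (nat_lit 260) (nat_lit 254)) (XT.lf (nat_lit 0) (nat_lit 380425141) (nat_lit 304) (nat_lit 4046265375) (nat_lit 76) (nat_lit 2087835820) (nat_lit 304) (nat_lit 5) (nat_lit 308) (nat_lit 5) (nat_lit 305) (nat_lit 5) (nat_lit 267) (nat_lit 260) (nat_lit 253))))))) (XT.nd (nat_lit 1014) (nat_lit 7068) (nat_lit 0) (XT.nd (nat_lit 468) (nat_lit 2736) (nat_lit 0) (XT.nd (nat_lit 234) (nat_lit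 912) (nat_lit 0) (XT.nd (nat_lit 78) (nat_lit 380) (nat_lit 0) (XT.lf (nat_lit 0) (nat_lit 3046590454) (nat_lit 304) (nat_lit 759817455) (nat_lit 76) (nat_lit 2730275251) (nat_lit 304) (nat_lit 5) (nat_lit 308) (nat_lit 5) (nat_lit 305) (nat_lit 5) (nat_lit 268) (nat_lit 260) (nat_lit 252)) (XT.nd (nat_lit 78) (nat_lit 76) (nat_lit 0) (XT.lf (nat_lit 0) (nat_lit 2616654637) (nat_lit 304) (nat_lit 3103499116) (nat_lit 380) (nat_lit 841748694) (nat_lit 300) (nat_lit 5) (nat_lit 304) (nat_lit 5) (nat_lit 305) (nat_lit 5) (nat_lit 269) (nat_lit 260) (nat_lit 251)) (XT.lf (nat_lit 0) (nat_lit 1760375366) (nat_lit 380) (nat_lit 557032879) (nat_lit 76) (nat_lit 4272799682) (nat_lit 299) (nat_lit 5) (nat_lit 304) (nat_lit 5) (nat_lit 300) (nat_lit 5) (nat_lit 270) (nat_lit 260) (nat_lit 250)))) (XT.nd (nat_lit 78) (nat_lit 532) (nat_lit 0) (XT.lf (nat_lit 0) (nat_lit 2922121923) (nat_lit 380) (nat_lit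 1435810811) (nat_lit 456) (nat_lit 2263352641) (nat_lit 294) (nat_lit 5) (nat_lit 299) (nat_lit 5) (nat_lit 300) (nat_lit 5) (nat_lit 271) (nat_lit 260) (nat_lit 249)) (XT.nd (nat_lit 78) (nat_lit 456) (nat_lit 0) (XT.lf (nat_lit 0) (nat_lit 285651136) (nat_lit 456) (nat_lit 200612802) (nat_lit 76) (nat_lit 6169723080) (nat_lit 293) (nat_lit 5) (nat_lit 299) (nat_lit 5) (nat_lit 294) (nat_lit 5) (nat_lit 272) (nat_lit 260) (nat_lit 248)) (XT.lf (nat_lit 0) (nat_lit 2813733135) (nat_lit 532) (nat_lit 3311021944) (nat_lit 76) (nat_lit 568043740) (nat_lit 287) (nat_lit 5) (nat_lit 294) (nat_lit 5) (nat_lit 288) (nat_lit 5) (nat_lit 273) (nat_lit 260) (nat_lit 247))))) (XT.nd (nat_lit 234) (nat_lit 1520) (nat_lit 0) (XT.nd (nat_lit 78) (nat_lit 684) (nat_lit 0) (XT.lf (nat_lit 0) (nat_lit 284210955) (nat_lit 532) (nat_lit 5055349717) (nat_lit 608) (nat_lit 1393676209) (nat_lit 280) (nat_lit 5) (nat_lit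 287) (nat_lit 5) (nat_lit 288) (nat_lit 5) (nat_lit 274) (nat_lit 260) (nat_lit 246)) (XT.nd (nat_lit 78) (nat_lit 608) (nat_lit 0) (XT.lf (nat_lit 0) (nat_lit 1090541946) (nat_lit 608) (nat_lit 2793141504) (nat_lit 76) (nat_lit 2892626274) (nat_lit 279) (nat_lit 5) (nat_lit 287) (nat_lit 5) (nat_lit 280) (nat_lit 5) (nat_lit 275) (nat_lit 260) (nat_lit 245)) (XT.lf (nat_lit 0) (nat_lit 915427634) (nat_lit 608) (nat_lit 2630432932) (nat_lit 684) (nat_lit 3276826470) (nat_lit 271) (nat_lit 5) (nat_lit 279) (nat_lit 5) (nat_lit 280) (nat_lit 5) (nat_lit 276) (nat_lit 260) (nat_lit 244)))) (XT.nd (nat_lit 156) (nat_lit 760) (nat_lit 0) (XT.nd (nat_lit 78) (nat_lit 760) (nat_lit 0) (XT.lf (nat_lit 0) (nat_lit 4732052769) (nat_lit 608) (nat_lit 1288648694) (nat_lit 684) (nat_lit 851537361) (nat_lit 271) (nat_lit 5) (nat_lit 279) (nat_lit 5) (nat_lit 280) (nat_lit 5) (nat_lit 277) (nat_lit 260) (nat_lit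 243)) (XT.lf (nat_lit 0) (nat_lit 1551216194) (nat_lit 760) (nat_lit 5229576985) (nat_lit 76) (nat_lit 144054023) (nat_lit 261) (nat_lit 5) (nat_lit 271) (nat_lit 5) (nat_lit 262) (nat_lit 5) (nat_lit 278) (nat_lit 260) (nat_lit 242))) (XT.nd (nat_lit 78) (nat_lit 760) (nat_lit 0) (XT.lf (nat_lit 0) (nat_lit 3964600189) (nat_lit 760) (nat_lit 1372695086) (nat_lit 76) (nat_lit 1642961281) (nat_lit 261) (nat_lit 5) (nat_lit 271) (nat_lit 5) (nat_lit 262) (nat_lit 5) (nat_lit 279) (nat_lit 260) (nat_lit 241)) (XT.lf (nat_lit 0) (nat_lit 2589682088) (nat_lit 760) (nat_lit 3808974246) (nat_lit 836) (nat_lit 640365042) (nat_lit 251) (nat_lit 5) (nat_lit 261) (nat_lit 5) (nat_lit 262) (nat_lit 5) (nat_lit 280) (nat_lit 260) (nat_lit 240)))))) (XT.nd (nat_lit 546) (nat_lit 3040) (nat_lit 0) (XT.nd (nat_lit 234) (nat_lit 2204) (nat_lit 0) (XT.nd (nat_lit 78) (nat_lit 1748) (nat_lit 0) (XT.lf (nat_lit 0)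 (nat_lit 1709092400) (nat_lit 836) (nat_lit 479355556) (nat_lit 76) (nat_lit 4912568935) (nat_lit 250) (nat_lit 5) (nat_lit 261) (nat_lit 5) (nat_lit 251) (nat_lit 5) (nat_lit 281) (nat_lit 260) (nat_lit 239)) (XT.nd (nat_lit 78) (nat_lit 912) (nat_lit 0) (XT.lf (nat_lit 0) (nat_lit 3613915377) (nat_lit 836) (nat_lit 463349546) (nat_lit 912) (nat_lit 3088713393) (nat_lit 239) (nat_lit 5) (nat_lit 250) (nat_lit 5) (nat_lit 251) (nat_lit 5) (nat_lit 282) (nat_lit 260) (nat_lit 238)) (XT.lf (nat_lit 0) (nat_lit 543179123) (nat_lit 912) (nat_lit 5924097848) (nat_lit 988) (nat_lit 767213328) (nat_lit 227) (nat_lit 5) (nat_lit 239) (nat_lit 5) (nat_lit 240) (nat_lit 5) (nat_lit 283) (nat_lit 260) (nat_lit 237)))) (XT.nd (nat_lit 156) (nat_lit 1140) (nat_lit 0) (XT.nd (nat_lit 78) (nat_lit 988) (nat_lit 0) (XT.lf (nat_lit 0) (nat_lit 1561803067) (nat_lit 988) (nat_lit 2553186209) (nat_lit 76) (nat_lit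 3190631595) (nat_lit 226) (nat_lit 5) (nat_lit 239) (nat_lit 5) (nat_lit 227) (nat_lit 5) (nat_lit 284) (nat_lit 260) (nat_lit 236)) (XT.lf (nat_lit 0) (nat_lit 1673220476) (nat_lit 988) (nat_lit 2218957017) (nat_lit 1064) (nat_lit 3488187644) (nat_lit 213) (nat_lit 5) (nat_lit 226) (nat_lit 5) (nat_lit 227) (nat_lit 5) (nat_lit 285) (nat_lit 260) (nat_lit 235))) (XT.nd (nat_lit 78) (nat_lit 1140) (nat_lit 0) (XT.lf (nat_lit 0) (nat_lit 6018437980) (nat_lit 988) (nat_lit 232066109) (nat_lit 1064) (nat_lit 1208217958) (nat_lit 213) (nat_lit 5) (nat_lit 226) (nat_lit 5) (nat_lit 227) (nat_lit 5) (nat_lit 286) (nat_lit 260) (nat_lit 234)) (XT.lf (nat_lit 0) (nat_lit 1097540375) (nat_lit 1140) (nat_lit 4617225342) (nat_lit 76) (nat_lit 1825051155) (nat_lit 198) (nat_lit 5) (nat_lit 213) (nat_lit 5) (nat_lit 199) (nat_lit 5) (nat_lit 287) (nat_lit 260) (nat_lit 233))))) (XT.nd (nat_lit 234) (nat_lit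 1216) (nat_lit 0) (XT.nd (nat_lit 78) (nat_lit 1824) (nat_lit 0) (XT.lf (nat_lit 0) (nat_lit 3400069603) (nat_lit 1140) (nat_lit 252950134) (nat_lit 76) (nat_lit 3971511548) (nat_lit 198) (nat_lit 5) (nat_lit 213) (nat_lit 5) (nat_lit 199) (nat_lit 5) (nat_lit 288) (nat_lit 260) (nat_lit 232)) (XT.nd (nat_lit 78) (nat_lit 684) (nat_lit 0) (XT.lf (nat_lit 0) (nat_lit 4265770100) (nat_lit 1140) (nat_lit 1483702417) (nat_lit 1216) (nat_lit 1963079783) (nat_lit 183) (nat_lit 5) (nat_lit 198) (nat_lit 5) (nat_lit 199) (nat_lit 5) (nat_lit 289) (nat_lit 260) (nat_lit 231)) (XT.lf (nat_lit 0) (nat_lit 316709291) (nat_lit 684) (nat_lit 6732958099) (nat_lit 76) (nat_lit 754803074) (nat_lit 174) (nat_lit 5) (nat_lit 183) (nat_lit 5) (nat_lit 175) (nat_lit 5) (nat_lit 290) (nat_lit 260) (nat_lit 230)))) (XT.nd (nat_lit 156) (nat_lit 608) (nat_lit 0) (XT.nd (nat_lit 78) (nat_lit 608) (nat_lit 0) (XT.lf (nat_lit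 0) (nat_lit 2613897510) (nat_lit 684) (nat_lit 2198394184) (nat_lit 76) (nat_lit 3086708239) (nat_lit 174) (nat_lit 5) (nat_lit 183) (nat_lit 5) (nat_lit 175) (nat_lit 5) (nat_lit 291) (nat_lit 260) (nat_lit 229)) (XT.lf (nat_lit 0) (nat_lit 2460182166) (nat_lit 608) (nat_lit 2483876682) (nat_lit 684) (nat_lit 3053472770) (nat_lit 166) (nat_lit 5) (nat_lit 174) (nat_lit 5) (nat_lit 175) (nat_lit 5) (nat_lit 292) (nat_lit 260) (nat_lit 228))) (XT.nd (nat_lit 78) (nat_lit 608) (nat_lit 0) (XT.lf (nat_lit 0) (nat_lit 7244137778) (nat_lit 608) (nat_lit 63759681) (nat_lit 684) (nat_lit 792294112) (nat_lit 166) (nat_lit 5) (nat_lit 174) (nat_lit 5) (nat_lit 175) (nat_lit 5) (nat_lit 293) (nat_lit 260) (nat_lit 227)) (XT.lf (nat_lit 0) (nat_lit 1511378937) (nat_lit 608) (nat_lit 4260569908) (nat_lit 76) (nat_lit 2433480526) (nat_lit 158) (nat_lit 5) (nat_lit 166) (nat_lit 5) (nat_lit 159) (nat_lit 5)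 (nat_lit 294) (nat_lit 260) (nat_lit 226))))))))
noncomputable def xc105 : XT := (XT.nd (nat_lit 2028) (nat_lit 2888) (nat_lit 0) (XT.nd (nat_lit 1014) (nat_lit 2508) (nat_lit 0) (XT.nd (nat_lit 468) (nat_lit 2204) (nat_lit 0) (XT.nd (nat_lit 234) (nat_lit 532) (nat_lit 0) (XT.nd (nat_lit 78) (nat_lit 532) (nat_lit 0) (XT.lf (nat_lit 0) (nat_lit 535570992) (nat_lit 532) (nat_lit 3290897936) (nat_lit 608) (nat_lit 4488451346) (nat_lit 151) (nat_lit 5) (nat_lit 158) (nat_lit 5) (nat_lit 159) (nat_lit 5) (nat_lit 295) (nat_lit 260) (nat_lit 225)) (XT.nd (nat_lit 78) (nat_lit 532) (nat_lit 0) (XT.lf (nat_lit 0) (nat_lit 5503420894) (nat_lit 532) (nat_lit 695402737) (nat_lit 608) (nat_lit 2229313869) (nat_lit 151) (nat_lit 5) (nat_lit 158) (nat_lit 5) (nat_lit 159) (nat_lit 5) (nat_lit 296) (nat_lit 260) (nat_lit 224)) (XT.lf (nat_lit 0) (nat_lit 80421443) (nat_lit 532) (nat_lit 6509197675) (nat_lit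 76) (nat_lit 1955633732) (nat_lit 144) (nat_lit 5) (nat_lit 151) (nat_lit 5) (nat_lit 145) (nat_lit 5) (nat_lit 297) (nat_lit 260) (nat_lit 223)))) (XT.nd (nat_lit 78) (nat_lit 532) (nat_lit 0) (XT.lf (nat_lit 0) (nat_lit 2398115259) (nat_lit 532) (nat_lit 1548609261) (nat_lit 76) (nat_lit 4719060278) (nat_lit 144) (nat_lit 5) (nat_lit 151) (nat_lit 5) (nat_lit 145) (nat_lit 5) (nat_lit 298) (nat_lit 260) (nat_lit 222)) (XT.nd (nat_lit 78) (nat_lit 0) (nat_lit 0) (XT.lf (nat_lit 0) (nat_lit 3572284013) (nat_lit 532) (nat_lit 1195707430) (nat_lit 608) (nat_lit 4022529201) (nat_lit 137) (nat_lit 5) (nat_lit 144) (nat_lit 5) (nat_lit 145) (nat_lit 5) (nat_lit 299) (nat_lit 260) (nat_lit 221)) (XT.lf (nat_lit 0) (nat_lit 7189697986) (nat_lit 608) (nat_lit 115050394) (nat_lit 76) (nat_lit 1614893685) (nat_lit 137) (nat_lit 5) (nat_lit 145) (nat_lit 5) (nat_lit 138) (nat_lit 5) (nat_lit 300) (nat_lit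 260) (nat_lit 220))))) (XT.nd (nat_lit 234) (nat_lit 1216) (nat_lit 0) (XT.nd (nat_lit 78) (nat_lit 456) (nat_lit 0) (XT.lf (nat_lit 0) (nat_lit 631396894) (nat_lit 532) (nat_lit 3885637133) (nat_lit 76) (nat_lit 4535113789) (nat_lit 130) (nat_lit 5) (nat_lit 137) (nat_lit 5) (nat_lit 131) (nat_lit 5) (nat_lit 301) (nat_lit 260) (nat_lit 219)) (XT.nd (nat_lit 78) (nat_lit 0) (nat_lit 0) (XT.lf (nat_lit 0) (nat_lit 1371996820) (nat_lit 456) (nat_lit 1622199653) (nat_lit 532) (nat_lit 6195016727) (nat_lit 124) (nat_lit 5) (nat_lit 130) (nat_lit 5) (nat_lit 131) (nat_lit 5) (nat_lit 302) (nat_lit 260) (nat_lit 218)) (XT.lf (nat_lit 0) (nat_lit 5432386934) (nat_lit 532) (nat_lit 2534422143) (nat_lit 76) (nat_lit 1363504477) (nat_lit 124) (nat_lit 5) (nat_lit 131) (nat_lit 5) (nat_lit 125) (nat_lit 5) (nat_lit 303) (nat_lit 260) (nat_lit 217)))) (XT.nd (nat_lit 156) (nat_lit 760) (nat_lit 0) (XT.nd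 (nat_lit 78) (nat_lit 76) (nat_lit 0) (XT.lf (nat_lit 0) (nat_lit 2890139511) (nat_lit 380) (nat_lit 5050643214) (nat_lit 456) (nat_lit 1535008924) (nat_lit 119) (nat_lit 5) (nat_lit 124) (nat_lit 5) (nat_lit 125) (nat_lit 5) (nat_lit 304) (nat_lit 260) (nat_lit 216)) (XT.lf (nat_lit 0) (nat_lit 860630775) (nat_lit 456) (nat_lit 1161839196) (nat_lit 76) (nat_lit 7603577001) (nat_lit 118) (nat_lit 5) (nat_lit 124) (nat_lit 5) (nat_lit 119) (nat_lit 5) (nat_lit 305) (nat_lit 260) (nat_lit 215))) (XT.nd (nat_lit 78) (nat_lit 380) (nat_lit 0) (XT.lf (nat_lit 0) (nat_lit 3305862625) (nat_lit 456) (nat_lit 5351149892) (nat_lit 76) (nat_lit 1123135964) (nat_lit 113) (nat_lit 5) (nat_lit 119) (nat_lit 5) (nat_lit 114) (nat_lit 5) (nat_lit 306) (nat_lit 260) (nat_lit 214)) (XT.lf (nat_lit 0) (nat_lit 200095619) (nat_lit 380) (nat_lit 5613711033) (nat_lit 456) (nat_lit 4125435945) (nat_lit 108) (nat_lit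 5) (nat_lit 113) (nat_lit 5) (nat_lit 114) (nat_lit 5) (nat_lit 307) (nat_lit 260) (nat_lit 213)))))) (XT.nd (nat_lit 468) (nat_lit 1292) (nat_lit 0) (XT.nd (nat_lit 234) (nat_lit 760) (nat_lit 0) (XT.nd (nat_lit 78) (nat_lit 456) (nat_lit 0) (XT.lf (nat_lit 0) (nat_lit 5971600636) (nat_lit 380) (nat_lit 2435739722) (nat_lit 456) (nat_lit 1695507391) (nat_lit 108) (nat_lit 5) (nat_lit 113) (nat_lit 5) (nat_lit 114) (nat_lit 5) (nat_lit 308) (nat_lit 260) (nat_lit 212)) (XT.nd (nat_lit 78) (nat_lit 0) (nat_lit 0) (XT.lf (nat_lit 0) (nat_lit 772358111) (nat_lit 456) (nat_lit 8666786390) (nat_lit 76) (nat_lit 832605913) (nat_lit 102) (nat_lit 5) (nat_lit 108) (nat_lit 5) (nat_lit 103) (nat_lit 5) (nat_lit 309) (nat_lit 260) (nat_lit 211)) (XT.lf (nat_lit 0) (nat_lit 3304152133) (nat_lit 456) (nat_lit 2943724530) (nat_lit 76) (nat_lit 4196665380) (nat_lit 102) (nat_lit 5) (nat_lit 108) (nat_lit 5)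 (nat_lit 103) (nat_lit 5) (nat_lit 310) (nat_lit 260) (nat_lit 210)))) (XT.nd (nat_lit 78) (nat_lit 456) (nat_lit 0) (XT.lf (nat_lit 0) (nat_lit 2954420941) (nat_lit 304) (nat_lit 2944833882) (nat_lit 380) (nat_lit 4723685270) (nat_lit 98) (nat_lit 5) (nat_lit 102) (nat_lit 5) (nat_lit 103) (nat_lit 5) (nat_lit 311) (nat_lit 260) (nat_lit 209)) (XT.nd (nat_lit 78) (nat_lit 456) (nat_lit 0) (XT.lf (nat_lit 0) (nat_lit 8566132326) (nat_lit 380) (nat_lit 1775486500) (nat_lit 76) (nat_lit 465295663) (nat_lit 98) (nat_lit 5) (nat_lit 103) (nat_lit 5) (nat_lit 99) (nat_lit 5) (nat_lit 312) (nat_lit 260) (nat_lit 208)) (XT.lf (nat_lit 0) (nat_lit 341833435) (nat_lit 456) (nat_lit 6703114886) (nat_lit 76) (nat_lit 3950466027) (nat_lit 92) (nat_lit 5) (nat_lit 98) (nat_lit 5) (nat_lit 93) (nat_lit 5) (nat_lit 313) (nat_lit 260) (nat_lit 207))))) (XT.nd (nat_lit 234) (nat_lit 684) (nat_lit 0) (XT.nd (nat_lit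 78) (nat_lit 608) (nat_lit 0) (XT.lf (nat_lit 0) (nat_lit 2935898003) (nat_lit 456) (nat_lit 686429223) (nat_lit 76) (nat_lit 7567244646) (nat_lit 92) (nat_lit 5) (nat_lit 98) (nat_lit 5) (nat_lit 93) (nat_lit 5) (nat_lit 314) (nat_lit 260) (nat_lit 206)) (XT.nd (nat_lit 78) (nat_lit 304) (nat_lit 0) (XT.lf (nat_lit 0) (nat_lit 5567407722) (nat_lit 304) (nat_lit 55934459) (nat_lit 380) (nat_lit 5765782576) (nat_lit 88) (nat_lit 5) (nat_lit 92) (nat_lit 5) (nat_lit 93) (nat_lit 5) (nat_lit 315) (nat_lit 260) (nat_lit 205)) (XT.lf (nat_lit 0) (nat_lit 347921372) (nat_lit 304) (nat_lit 8051121385) (nat_lit 380) (nat_lit 3195428756) (nat_lit 84) (nat_lit 5) (nat_lit 88) (nat_lit 5) (nat_lit 89) (nat_lit 5) (nat_lit 316) (nat_lit 260) (nat_lit 204)))) (XT.nd (nat_lit 156) (nat_lit 304) (nat_lit 0) (XT.nd (nat_lit 78) (nat_lit 380) (nat_lit 0) (XT.lf (nat_lit 0) (nat_lit 6769437634) (nat_lit 304) (nat_lit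 4511020365) (nat_lit 380) (nat_lit 524882586) (nat_lit 84) (nat_lit 5) (nat_lit 88) (nat_lit 5) (nat_lit 89) (nat_lit 5) (nat_lit 317) (nat_lit 260) (nat_lit 203)) (XT.lf (nat_lit 0) (nat_lit 1314085044) (nat_lit 304) (nat_lit 844687453) (nat_lit 380) (nat_lit 9863861799) (nat_lit 79) (nat_lit 5) (nat_lit 83) (nat_lit 5) (nat_lit 84) (nat_lit 5) (nat_lit 318) (nat_lit 260) (nat_lit 202))) (XT.nd (nat_lit 78) (nat_lit 304) (nat_lit 0) (XT.lf (nat_lit 0) (nat_lit 4956140222) (nat_lit 380) (nat_lit 4372678291) (nat_lit 76) (nat_lit 2916192054) (nat_lit 79) (nat_lit 5) (nat_lit 84) (nat_lit 5) (nat_lit 80) (nat_lit 5) (nat_lit 319) (nat_lit 260) (nat_lit 201)) (XT.lf (nat_lit 0) (nat_lit 2136420262) (nat_lit 304) (nat_lit 5695166492) (nat_lit 380) (nat_lit 4642677932) (nat_lit 75) (nat_lit 5) (nat_lit 79) (nat_lit 5) (nat_lit 80) (nat_lit 5) (nat_lit 320) (nat_lit 260) (nat_lit 200))))))) (XT.nd (nat_lit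 1014) (nat_lit 1216) (nat_lit 0) (XT.nd (nat_lit 468) (nat_lit 836) (nat_lit 0) (XT.nd (nat_lit 234) (nat_lit 532) (nat_lit 0) (XT.nd (nat_lit 78) (nat_lit 304) (nat_lit 0) (XT.lf (nat_lit 0) (nat_lit 8880744748) (nat_lit 304) (nat_lit 1922499692) (nat_lit 380) (nat_lit 1906883938) (nat_lit 75) (nat_lit 5) (nat_lit 79) (nat_lit 5) (nat_lit 80) (nat_lit 5) (nat_lit 321) (nat_lit 260) (nat_lit 199)) (XT.nd (nat_lit 78) (nat_lit 0) (nat_lit 0) (XT.lf (nat_lit 0) (nat_lit 906337631) (nat_lit 304) (nat_lit 10099399441) (nat_lit 76) (nat_lit 1946702929) (nat_lit 71) (nat_lit 5) (nat_lit 75) (nat_lit 5) (nat_lit 72) (nat_lit 5) (nat_lit 322) (nat_lit 260) (nat_lit 198)) (XT.lf (nat_lit 0) (nat_lit 3790511019) (nat_lit 304) (nat_lit 3474046464) (nat_lit 76) (nat_lit 5936178442) (nat_lit 71) (nat_lit 5) (nat_lit 75) (nat_lit 5) (nat_lit 72) (nat_lit 5) (nat_lit 323) (nat_lit 260) (nat_lit 197)))) (XT.nd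 (nat_lit 78) (nat_lit 228) (nat_lit 0) (XT.lf (nat_lit 0) (nat_lit 3367899472) (nat_lit 304) (nat_lit 3393446457) (nat_lit 380) (nat_lit 6695157703) (nat_lit 67) (nat_lit 5) (nat_lit 71) (nat_lit 5) (nat_lit 72) (nat_lit 5) (nat_lit 324) (nat_lit 260) (nat_lit 196)) (XT.nd (nat_lit 78) (nat_lit 228) (nat_lit 0) (XT.lf (nat_lit 0) (nat_lit 9830536836) (nat_lit 380) (nat_lit 3286875174) (nat_lit 76) (nat_lit 602281640) (nat_lit 67) (nat_lit 5) (nat_lit 72) (nat_lit 5) (nat_lit 68) (nat_lit 5) (nat_lit 325) (nat_lit 260) (nat_lit 195)) (XT.lf (nat_lit 0) (nat_lit 3710878762) (nat_lit 228) (nat_lit 9319218314) (nat_lit 304) (nat_lit 959558929) (nat_lit 64) (nat_lit 5) (nat_lit 67) (nat_lit 5) (nat_lit 68) (nat_lit 5) (nat_lit 326) (nat_lit 260) (nat_lit 194))))) (XT.nd (nat_lit 234) (nat_lit 532) (nat_lit 0) (XT.nd (nat_lit 78) (nat_lit 228) (nat_lit 0) (XT.lf (nat_lit 0) (nat_lit 2020442803) (nat_lit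 304) (nat_lit 3347908849) (nat_lit 76) (nat_lit 8898715896) (nat_lit 63) (nat_lit 5) (nat_lit 67) (nat_lit 5) (nat_lit 64) (nat_lit 5) (nat_lit 327) (nat_lit 260) (nat_lit 193)) (XT.nd (nat_lit 78) (nat_lit 0) (nat_lit 0) (XT.lf (nat_lit 0) (nat_lit 3810083259) (nat_lit 228) (nat_lit 1267152284) (nat_lit 304) (nat_lit 9475103848) (nat_lit 60) (nat_lit 5) (nat_lit 63) (nat_lit 5) (nat_lit 64) (nat_lit 5) (nat_lit 328) (nat_lit 260) (nat_lit 192)) (XT.lf (nat_lit 0) (nat_lit 8258638589) (nat_lit 304) (nat_lit 3668430916) (nat_lit 76) (nat_lit 2918135296) (nat_lit 60) (nat_lit 5) (nat_lit 64) (nat_lit 5) (nat_lit 61) (nat_lit 5) (nat_lit 329) (nat_lit 260) (nat_lit 191)))) (XT.nd (nat_lit 156) (nat_lit 304) (nat_lit 0) (XT.nd (nat_lit 78) (nat_lit 0) (nat_lit 0) (XT.lf (nat_lit 0) (nat_lit 3631301692) (nat_lit 228) (nat_lit 7922837485) (nat_lit 304) (nat_lit 3592179280) (nat_lit 57) (nat_lit 5) (nat_lit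 60) (nat_lit 5) (nat_lit 61) (nat_lit 5) (nat_lit 330) (nat_lit 260) (nat_lit 190)) (XT.lf (nat_lit 0) (nat_lit 11181041902) (nat_lit 228) (nat_lit 3776123963) (nat_lit 304) (nat_lit 499061136) (nat_lit 57) (nat_lit 5) (nat_lit 60) (nat_lit 5) (nat_lit 61) (nat_lit 5) (nat_lit 331) (nat_lit 260) (nat_lit 189))) (XT.nd (nat_lit 78) (nat_lit 0) (nat_lit 0) (XT.lf (nat_lit 0) (nat_lit 2642252073) (nat_lit 304) (nat_lit 12605275410) (nat_lit 76) (nat_lit 526915625) (nat_lit 53) (nat_lit 5) (nat_lit 57) (nat_lit 5) (nat_lit 54) (nat_lit 5) (nat_lit 332) (nat_lit 260) (nat_lit 188)) (XT.lf (nat_lit 0) (nat_lit 5921158006) (nat_lit 304) (nat_lit 5262916424) (nat_lit 76) (nat_lit 4916401015) (nat_lit 53) (nat_lit 5) (nat_lit 57) (nat_lit 5) (nat_lit 54) (nat_lit 5) (nat_lit 333) (nat_lit 260) (nat_lit 187)))))) (XT.nd (nat_lit 546) (nat_lit 608) (nat_lit 0) (XT.nd (nat_lit 234) (nat_lit 228) (nat_lit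 0) (XT.nd (nat_lit 78) (nat_lit 228) (nat_lit 0) (XT.lf (nat_lit 0) (nat_lit 2302172900) (nat_lit 152) (nat_lit 6991590218) (nat_lit 228) (nat_lit 7142684607) (nat_lit 51) (nat_lit 5) (nat_lit 53) (nat_lit 5) (nat_lit 54) (nat_lit 5) (nat_lit 334) (nat_lit 260) (nat_lit 186)) (XT.nd (nat_lit 78) (nat_lit 228) (nat_lit 0) (XT.lf (nat_lit 0) (nat_lit 10160051730) (nat_lit 152) (nat_lit 2634218231) (nat_lit 228) (nat_lit 3987445887) (nat_lit 51) (nat_lit 5) (nat_lit 53) (nat_lit 5) (nat_lit 54) (nat_lit 5) (nat_lit 335) (nat_lit 260) (nat_lit 185)) (XT.lf (nat_lit 0) (nat_lit 1078076812) (nat_lit 228) (nat_lit 15324101076) (nat_lit 304) (nat_lit 735110395) (nat_lit 48) (nat_lit 5) (nat_lit 51) (nat_lit 5) (nat_lit 52) (nat_lit 5) (nat_lit 336) (nat_lit 260) (nat_lit 184)))) (XT.nd (nat_lit 156) (nat_lit 152) (nat_lit 0) (XT.nd (nat_lit 78) (nat_lit 0) (nat_lit 0) (XT.lf (nat_lit 0) (nat_lit 2631670322)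 (nat_lit 304) (nat_lit 8450439407) (nat_lit 76) (nat_lit 6418643958) (nat_lit 47) (nat_lit 5) (nat_lit 51) (nat_lit 5) (nat_lit 48) (nat_lit 5) (nat_lit 337) (nat_lit 260) (nat_lit 183)) (XT.lf (nat_lit 0) (nat_lit 6059718308) (nat_lit 304) (nat_lit 661057903) (nat_lit 76) (nat_lit 11154893658) (nat_lit 47) (nat_lit 5) (nat_lit 51) (nat_lit 5) (nat_lit 48) (nat_lit 5) (nat_lit 338) (nat_lit 260) (nat_lit 182))) (XT.nd (nat_lit 78) (nat_lit 0) (nat_lit 0) (XT.lf (nat_lit 0) (nat_lit 7468543814) (nat_lit 152) (nat_lit 2169621993) (nat_lit 228) (nat_lit 8622256845) (nat_lit 45) (nat_lit 5) (nat_lit 47) (nat_lit 5) (nat_lit 48) (nat_lit 5) (nat_lit 339) (nat_lit 260) (nat_lit 181)) (XT.lf (nat_lit 0) (nat_lit 13330868649) (nat_lit 228) (nat_lit 2864608614) (nat_lit 76) (nat_lit 2461049092) (nat_lit 45) (nat_lit 5) (nat_lit 48) (nat_lit 5) (nat_lit 46) (nat_lit 5) (nat_lit 340) (nat_lit 260) (nat_lit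 180))))) (XT.nd (nat_lit 234) (nat_lit 152) (nat_lit 0) (XT.nd (nat_lit 78) (nat_lit 228) (nat_lit 0) (XT.lf (nat_lit 0) (nat_lit 5345042854) (nat_lit 228) (nat_lit 11838826517) (nat_lit 304) (nat_lit 1879173239) (nat_lit 42) (nat_lit 5) (nat_lit 45) (nat_lit 5) (nat_lit 46) (nat_lit 5) (nat_lit 341) (nat_lit 260) (nat_lit 179)) (XT.nd (nat_lit 78) (nat_lit 152) (nat_lit 0) (XT.lf (nat_lit 0) (nat_lit 1644046740) (nat_lit 304) (nat_lit 5675885916) (nat_lit 76) (nat_lit 12161175716) (nat_lit 41) (nat_lit 5) (nat_lit 45) (nat_lit 5) (nat_lit 42) (nat_lit 5) (nat_lit 342) (nat_lit 260) (nat_lit 178)) (XT.lf (nat_lit 0) (nat_lit 2602426974) (nat_lit 152) (nat_lit 2635189866) (nat_lit 228) (nat_lit 14673482083) (nat_lit 39) (nat_lit 5) (nat_lit 41) (nat_lit 5) (nat_lit 42) (nat_lit 5) (nat_lit 343) (nat_lit 260) (nat_lit 177)))) (XT.nd (nat_lit 156) (nat_lit 152) (nat_lit 0) (XT.nd (nat_lit 78) (nat_lit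 0) (nat_lit 0) (XT.lf (nat_lit 0) (nat_lit 8995499656) (nat_lit 228) (nat_lit 9165868444) (nat_lit 76) (nat_lit 2190939203) (nat_lit 39) (nat_lit 5) (nat_lit 42) (nat_lit 5) (nat_lit 40) (nat_lit 5) (nat_lit 344) (nat_lit 260) (nat_lit 176)) (XT.lf (nat_lit 0) (nat_lit 12870433516) (nat_lit 228) (nat_lit 841200022) (nat_lit 76) (nat_lit 7095001850) (nat_lit 39) (nat_lit 5) (nat_lit 42) (nat_lit 5) (nat_lit 40) (nat_lit 5) (nat_lit 345) (nat_lit 260) (nat_lit 175))) (XT.nd (nat_lit 78) (nat_lit 0) (nat_lit 0) (XT.lf (nat_lit 0) (nat_lit 7851142420) (nat_lit 152) (nat_lit 9064800792) (nat_lit 228) (nat_lit 4357032786) (nat_lit 37) (nat_lit 5) (nat_lit 39) (nat_lit 5) (nat_lit 40) (nat_lit 5) (nat_lit 346) (nat_lit 260) (nat_lit 174)) (XT.lf (nat_lit 0) (nat_lit 16786574599) (nat_lit 152) (nat_lit 4283875986) (nat_lit 228) (nat_lit 683239424) (nat_lit 37) (nat_lit 5) (nat_lit 39) (nat_lit 5) (nat_lit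 40) (nat_lit 5) (nat_lit 347) (nat_lit 260) (nat_lit 173))))))))
noncomputable def xc106 : XT := (XT.nd (nat_lit 2028) (nat_lit 684) (nat_lit 0) (XT.nd (nat_lit 1014) (nat_lit 532) (nat_lit 0) (XT.nd (nat_lit 468) (nat_lit 380) (nat_lit 0) (XT.nd (nat_lit 234) (nat_lit 304) (nat_lit 0) (XT.nd (nat_lit 78) (nat_lit 0) (nat_lit 0) (XT.lf (nat_lit 0) (nat_lit 3062519622) (nat_lit 228) (nat_lit 18503856982) (nat_lit 76) (nat_lit 680898324) (nat_lit 34) (nat_lit 5) (nat_lit 37) (nat_lit 5) (nat_lit 35) (nat_lit 5) (nat_lit 348) (nat_lit 260) (nat_lit 172)) (XT.nd (nat_lit 78) (nat_lit 0) (nat_lit 0) (XT.lf (nat_lit 0) (nat_lit 6979658608) (nat_lit 228) (nat_lit 10021224136) (nat_lit 76) (nat_lit 5752410643) (nat_lit 34) (nat_lit 5) (nat_lit 37) (nat_lit 5) (nat_lit 35) (nat_lit 5) (nat_lit 349) (nat_lit 260) (nat_lit 171)) (XT.lf (nat_lit 0) (nat_lit 10994574141) (nat_lit 228) (nat_lit 1317582021)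 (nat_lit 76) (nat_lit 10962939163) (nat_lit 34) (nat_lit 5) (nat_lit 37) (nat_lit 5) (nat_lit 35) (nat_lit 5) (nat_lit 350) (nat_lit 260) (nat_lit 170)))) (XT.nd (nat_lit 78) (nat_lit 152) (nat_lit 0) (XT.lf (nat_lit 0) (nat_lit 7766221438) (nat_lit 152) (nat_lit 7419206631) (nat_lit 228) (nat_lit 8625469006) (nat_lit 32) (nat_lit 5) (nat_lit 34) (nat_lit 5) (nat_lit 35) (nat_lit 5) (nat_lit 351) (nat_lit 260) (nat_lit 169)) (XT.nd (nat_lit 78) (nat_lit 152) (nat_lit 0) (XT.lf (nat_lit 0) (nat_lit 17117371848) (nat_lit 152) (nat_lit 2379026863) (nat_lit 228) (nat_lit 4866552612) (nat_lit 32) (nat_lit 5) (nat_lit 34) (nat_lit 5) (nat_lit 35) (nat_lit 5) (nat_lit 352) (nat_lit 260) (nat_lit 168)) (XT.lf (nat_lit 0) (nat_lit 1793782500) (nat_lit 152) (nat_lit 22168706231) (nat_lit 228) (nat_lit 968314641) (nat_lit 30) (nat_lit 5) (nat_lit 32) (nat_lit 5) (nat_lit 33) (nat_lit 4) (nat_lit 353) (nat_lit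 260) (nat_lit 167))))) (XT.nd (nat_lit 234) (nat_lit 152) (nat_lit 0) (XT.nd (nat_lit 78) (nat_lit 152) (nat_lit 0) (XT.lf (nat_lit 0) (nat_lit 3066420399) (nat_lit 228) (nat_lit 14345952782) (nat_lit 76) (nat_lit 8100078303) (nat_lit 29) (nat_lit 5) (nat_lit 32) (nat_lit 5) (nat_lit 30) (nat_lit 5) (nat_lit 354) (nat_lit 260) (nat_lit 166)) (XT.nd (nat_lit 78) (nat_lit 152) (nat_lit 0) (XT.lf (nat_lit 0) (nat_lit 7184832475) (nat_lit 228) (nat_lit 5331557275) (nat_lit 76) (nat_lit 13595417800) (nat_lit 29) (nat_lit 5) (nat_lit 32) (nat_lit 5) (nat_lit 30) (nat_lit 5) (nat_lit 355) (nat_lit 260) (nat_lit 165)) (XT.lf (nat_lit 0) (nat_lit 4001432701) (nat_lit 152) (nat_lit 7446447023) (nat_lit 228) (nat_lit 15280640868) (nat_lit 27) (nat_lit 5) (nat_lit 29) (nat_lit 5) (nat_lit 30) (nat_lit 5) (nat_lit 356) (nat_lit 260) (nat_lit 164)))) (XT.nd (nat_lit 156) (nat_lit 152) (nat_lit 0) (XT.nd (nat_lit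 78) (nat_lit 0) (nat_lit 0) (XT.lf (nat_lit 0) (nat_lit 13694077646) (nat_lit 152) (nat_lit 2181419078) (nat_lit 228) (nat_lit 11487146475) (nat_lit 27) (nat_lit 5) (nat_lit 29) (nat_lit 5) (nat_lit 30) (nat_lit 5) (nat_lit 357) (nat_lit 260) (nat_lit 163)) (XT.lf (nat_lit 0) (nat_lit 20450325607) (nat_lit 228) (nat_lit 4398602658) (nat_lit 76) (nat_lit 3166437993) (nat_lit 27) (nat_lit 5) (nat_lit 30) (nat_lit 5) (nat_lit 28) (nat_lit 4) (nat_lit 358) (nat_lit 260) (nat_lit 162))) (XT.nd (nat_lit 78) (nat_lit 76) (nat_lit 0) (XT.lf (nat_lit 0) (nat_lit 5201045980) (nat_lit 76) (nat_lit 20016659373) (nat_lit 152) (nat_lit 3468314510) (nat_lit 26) (nat_lit 5) (nat_lit 27) (nat_lit 5) (nat_lit 28) (nat_lit 4) (nat_lit 359) (nat_lit 260) (nat_lit 161)) (XT.lf (nat_lit 0) (nat_lit 765259865) (nat_lit 152) (nat_lit 14232630838) (nat_lit 76) (nat_lit 14377835066) (nat_lit 25) (nat_lit 5) (nat_lit 27)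 (nat_lit 5) (nat_lit 26) (nat_lit 5) (nat_lit 360) (nat_lit 260) (nat_lit 160)))))) (XT.nd (nat_lit 468) (nat_lit 304) (nat_lit 0) (XT.nd (nat_lit 234) (nat_lit 76) (nat_lit 0) (XT.nd (nat_lit 78) (nat_lit 152) (nat_lit 0) (XT.lf (nat_lit 0) (nat_lit 5040355323) (nat_lit 152) (nat_lit 4764590781) (nat_lit 76) (nat_lit 20280627200) (nat_lit 25) (nat_lit 5) (nat_lit 27) (nat_lit 5) (nat_lit 26) (nat_lit 5) (nat_lit 361) (nat_lit 260) (nat_lit 159)) (XT.nd (nat_lit 78) (nat_lit 0) (nat_lit 0) (XT.lf (nat_lit 0) (nat_lit 5059487718) (nat_lit 152) (nat_lit 4417533865) (nat_lit 228) (nat_lit 21338702285) (nat_lit 23) (nat_lit 5) (nat_lit 25) (nat_lit 5) (nat_lit 26) (nat_lit 5) (nat_lit 362) (nat_lit 260) (nat_lit 158)) (XT.lf (nat_lit 0) (nat_lit 14091019582) (nat_lit 228) (nat_lit 16328551740) (nat_lit 76) (nat_lit 1146887603) (nat_lit 23) (nat_lit 5) (nat_lit 26) (nat_lit 5) (nat_lit 24) (nat_lit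 4) (nat_lit 363) (nat_lit 260) (nat_lit 157)))) (XT.nd (nat_lit 78) (nat_lit 76) (nat_lit 0) (XT.lf (nat_lit 0) (nat_lit 18872384881) (nat_lit 228) (nat_lit 6687814710) (nat_lit 76) (nat_lit 6778654751) (nat_lit 23) (nat_lit 5) (nat_lit 26) (nat_lit 5) (nat_lit 24) (nat_lit 4) (nat_lit 364) (nat_lit 260) (nat_lit 156)) (XT.nd (nat_lit 78) (nat_lit 0) (nat_lit 0) (XT.lf (nat_lit 0) (nat_lit 3280884802) (nat_lit 76) (nat_lit 20533484404) (nat_lit 152) (nat_lit 9319543607) (nat_lit 22) (nat_lit 5) (nat_lit 23) (nat_lit 5) (nat_lit 24) (nat_lit 4) (nat_lit 365) (nat_lit 260) (nat_lit 155)) (XT.lf (nat_lit 0) (nat_lit 13660705294) (nat_lit 76) (nat_lit 15297259384) (nat_lit 152) (nat_lit 4993264152) (nat_lit 22) (nat_lit 5) (nat_lit 23) (nat_lit 5) (nat_lit 24) (nat_lit 4) (nat_lit 366) (nat_lit 260) (nat_lit 154))))) (XT.nd (nat_lit 234) (nat_lit 76) (nat_lit 0) (XT.nd (nat_lit 78) (nat_lit 228) (nat_lit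 0) (XT.lf (nat_lit 0) (nat_lit 24327615885) (nat_lit 76) (nat_lit 9914483006) (nat_lit 152) (nat_lit 551384668) (nat_lit 22) (nat_lit 5) (nat_lit 23) (nat_lit 5) (nat_lit 24) (nat_lit 4) (nat_lit 367) (nat_lit 260) (nat_lit 153)) (XT.nd (nat_lit 78) (nat_lit 152) (nat_lit 0) (XT.lf (nat_lit 0) (nat_lit 3931727021) (nat_lit 152) (nat_lit 409022117) (nat_lit 76) (nat_lit 31319507424) (nat_lit 21) (nat_lit 5) (nat_lit 23) (nat_lit 5) (nat_lit 22) (nat_lit 5) (nat_lit 368) (nat_lit 260) (nat_lit 152)) (XT.lf (nat_lit 0) (nat_lit 8636780400) (nat_lit 228) (nat_lit 26446391119) (nat_lit 76) (nat_lit 1466747173) (nat_lit 19) (nat_lit 5) (nat_lit 22) (nat_lit 5) (nat_lit 20) (nat_lit 4) (nat_lit 369) (nat_lit 260) (nat_lit 151)))) (XT.nd (nat_lit 156) (nat_lit 76) (nat_lit 0) (XT.nd (nat_lit 78) (nat_lit 0) (nat_lit 0) (XT.lf (nat_lit 0) (nat_lit 13517086632) (nat_lit 228) (nat_lit 16592573727) (nat_lit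 76) (nat_lit 7355592761) (nat_lit 19) (nat_lit 5) (nat_lit 22) (nat_lit 5) (nat_lit 20) (nat_lit 4) (nat_lit 370) (nat_lit 260) (nat_lit 150)) (XT.lf (nat_lit 0) (nat_lit 18531134401) (nat_lit 228) (nat_lit 6465711374) (nat_lit 76) (nat_lit 13411587145) (nat_lit 19) (nat_lit 5) (nat_lit 22) (nat_lit 5) (nat_lit 20) (nat_lit 4) (nat_lit 371) (nat_lit 260) (nat_lit 149))) (XT.nd (nat_lit 78) (nat_lit 0) (nat_lit 0) (XT.lf (nat_lit 0) (nat_lit 4021518972) (nat_lit 76) (nat_lit 19700443243) (nat_lit 152) (nat_lit 15657160300) (nat_lit 18) (nat_lit 5) (nat_lit 19) (nat_lit 5) (nat_lit 20) (nat_lit 4) (nat_lit 372) (nat_lit 260) (nat_lit 148)) (XT.lf (nat_lit 0) (nat_lit 14934209603) (nat_lit 76) (nat_lit 14187447225) (nat_lit 152) (nat_lit 11255686717) (nat_lit 18) (nat_lit 5) (nat_lit 19) (nat_lit 5) (nat_lit 20) (nat_lit 4) (nat_lit 373) (nat_lit 260) (nat_lit 147))))))) (XT.nd (nat_lit 1014) (nat_lit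 228) (nat_lit 0) (XT.nd (nat_lit 468) (nat_lit 228) (nat_lit 0) (XT.nd (nat_lit 234) (nat_lit 0) (nat_lit 0) (XT.nd (nat_lit 78) (nat_lit 228) (nat_lit 0) (XT.lf (nat_lit 0) (nat_lit 26153215545) (nat_lit 76) (nat_lit 8518331547) (nat_lit 152) (nat_lit 6734322830) (nat_lit 18) (nat_lit 5) (nat_lit 19) (nat_lit 5) (nat_lit 20) (nat_lit 4) (nat_lit 374) (nat_lit 260) (nat_lit 146)) (XT.nd (nat_lit 78) (nat_lit 228) (nat_lit 0) (XT.lf (nat_lit 0) (nat_lit 37688339812) (nat_lit 76) (nat_lit 2688142614) (nat_lit 152) (nat_lit 2089117932) (nat_lit 18) (nat_lit 5) (nat_lit 19) (nat_lit 5) (nat_lit 20) (nat_lit 4) (nat_lit 375) (nat_lit 260) (nat_lit 145)) (XT.lf (nat_lit 0) (nat_lit 2722741936) (nat_lit 228) (nat_lit 37502423423) (nat_lit 76) (nat_lit 3328787590) (nat_lit 15) (nat_lit 5) (nat_lit 18) (nat_lit 5) (nat_lit 16) (nat_lit 4) (nat_lit 376) (nat_lit 260) (nat_lit 144)))) (XT.nd (nat_lit 78)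 (nat_lit 0) (nat_lit 0) (XT.lf (nat_lit 0) (nat_lit 7701121099) (nat_lit 228) (nat_lit 27438313655) (nat_lit 76) (nat_lit 9532980573) (nat_lit 15) (nat_lit 5) (nat_lit 18) (nat_lit 5) (nat_lit 16) (nat_lit 4) (nat_lit 377) (nat_lit 260) (nat_lit 143)) (XT.nd (nat_lit 78) (nat_lit 0) (nat_lit 0) (XT.lf (nat_lit 0) (nat_lit 12817996131) (nat_lit 228) (nat_lit 17091833975) (nat_lit 76) (nat_lit 15914931328) (nat_lit 15) (nat_lit 5) (nat_lit 18) (nat_lit 5) (nat_lit 16) (nat_lit 4) (nat_lit 378) (nat_lit 260) (nat_lit 142)) (XT.lf (nat_lit 0) (nat_lit 18077838086) (nat_lit 228) (nat_lit 6453943770) (nat_lit 76) (nat_lit 22480216318) (nat_lit 15) (nat_lit 5) (nat_lit 18) (nat_lit 5) (nat_lit 16) (nat_lit 4) (nat_lit 379) (nat_lit 260) (nat_lit 141))))) (XT.nd (nat_lit 234) (nat_lit 152) (nat_lit 0) (XT.nd (nat_lit 78) (nat_lit 0) (nat_lit 0) (XT.lf (nat_lit 0) (nat_lit 4573905575) (nat_lit 76) (nat_lit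 18955304547) (nat_lit 152) (nat_lit 24704633803) (nat_lit 14) (nat_lit 5) (nat_lit 15) (nat_lit 5) (nat_lit 16) (nat_lit 4) (nat_lit 380) (nat_lit 260) (nat_lit 140)) (XT.nd (nat_lit 78) (nat_lit 0) (nat_lit 0) (XT.lf (nat_lit 0) (nat_lit 16046639680) (nat_lit 76) (nat_lit 13152546059) (nat_lit 152) (nat_lit 20291511274) (nat_lit 14) (nat_lit 5) (nat_lit 15) (nat_lit 5) (nat_lit 16) (nat_lit 4) (nat_lit 381) (nat_lit 260) (nat_lit 139)) (XT.lf (nat_lit 0) (nat_lit 27845837126) (nat_lit 76) (nat_lit 7183608197) (nat_lit 152) (nat_lit 15756108554) (nat_lit 14) (nat_lit 5) (nat_lit 15) (nat_lit 5) (nat_lit 16) (nat_lit 4) (nat_lit 382) (nat_lit 260) (nat_lit 138)))) (XT.nd (nat_lit 156) (nat_lit 152) (nat_lit 0) (XT.nd (nat_lit 78) (nat_lit 0) (nat_lit 0) (XT.lf (nat_lit 0) (nat_lit 39981807892) (nat_lit 76) (nat_lit 1043275386) (nat_lit 152) (nat_lit 11094462669) (nat_lit 14) (nat_lit 5) (nat_lit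 15) (nat_lit 5) (nat_lit 16) (nat_lit 4) (nat_lit 383) (nat_lit 260) (nat_lit 137)) (XT.lf (nat_lit 0) (nat_lit 47242033673) (nat_lit 152) (nat_lit 1079377784) (nat_lit 0) (nat_lit 5170906534) (nat_lit 14) (nat_lit 5) (nat_lit 16) (nat_lit 4) (nat_lit 14) (nat_lit 4) (nat_lit 384) (nat_lit 260) (nat_lit 136))) (XT.nd (nat_lit 78) (nat_lit 76) (nat_lit 0) (XT.lf (nat_lit 0) (nat_lit 10488656850) (nat_lit 76) (nat_lit 43258936660) (nat_lit 76) (nat_lit 1155620070) (nat_lit 13) (nat_lit 4) (nat_lit 14) (nat_lit 5) (nat_lit 14) (nat_lit 4) (nat_lit 385) (nat_lit 260) (nat_lit 135)) (XT.lf (nat_lit 0) (nat_lit 4014007876) (nat_lit 152) (nat_lit 33986132496) (nat_lit 76) (nat_lit 18355059731) (nat_lit 12) (nat_lit 5) (nat_lit 14) (nat_lit 5) (nat_lit 13) (nat_lit 4) (nat_lit 386) (nat_lit 260) (nat_lit 134)))))) (XT.nd (nat_lit 546) (nat_lit 152) (nat_lit 0) (XT.nd (nat_lit 234) (nat_lit 76) (nat_lit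 0) (XT.nd (nat_lit 78) (nat_lit 0) (nat_lit 0) (XT.lf (nat_lit 0) (nat_lit 9306724686) (nat_lit 152) (nat_lit 23272259015) (nat_lit 76) (nat_lit 25271685580) (nat_lit 12) (nat_lit 5) (nat_lit 14) (nat_lit 5) (nat_lit 13) (nat_lit 4) (nat_lit 387) (nat_lit 260) (nat_lit 133)) (XT.nd (nat_lit 78) (nat_lit 0) (nat_lit 0) (XT.lf (nat_lit 0) (nat_lit 14749705376) (nat_lit 152) (nat_lit 12252466123) (nat_lit 76) (nat_lit 32389089595) (nat_lit 12) (nat_lit 5) (nat_lit 14) (nat_lit 5) (nat_lit 13) (nat_lit 4) (nat_lit 388) (nat_lit 260) (nat_lit 132)) (XT.lf (nat_lit 0) (nat_lit 20347705946) (nat_lit 152) (nat_lit 917124875) (nat_lit 76) (nat_lit 39713490867) (nat_lit 12) (nat_lit 5) (nat_lit 14) (nat_lit 5) (nat_lit 13) (nat_lit 4) (nat_lit 389) (nat_lit 260) (nat_lit 131)))) (XT.nd (nat_lit 156) (nat_lit 0) (nat_lit 0) (XT.nd (nat_lit 78) (nat_lit 0) (nat_lit 0) (XT.lf (nat_lit 0) (nat_lit 10957489481)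 (nat_lit 76) (nat_lit 15253458465) (nat_lit 152) (nat_lit 36399129967) (nat_lit 11) (nat_lit 5) (nat_lit 12) (nat_lit 5) (nat_lit 13) (nat_lit 4) (nat_lit 390) (nat_lit 260) (nat_lit 130)) (XT.lf (nat_lit 0) (nat_lit 23192678423) (nat_lit 76) (nat_lit 9058736075) (nat_lit 152) (nat_lit 32039335280) (nat_lit 11) (nat_lit 5) (nat_lit 12) (nat_lit 5) (nat_lit 13) (nat_lit 4) (nat_lit 391) (nat_lit 260) (nat_lit 129))) (XT.nd (nat_lit 78) (nat_lit 0) (nat_lit 0) (XT.lf (nat_lit 0) (nat_lit 35780880310) (nat_lit 76) (nat_lit 2684511950) (nat_lit 152) (nat_lit 27556683314) (nat_lit 11) (nat_lit 5) (nat_lit 12) (nat_lit 5) (nat_lit 13) (nat_lit 4) (nat_lit 392) (nat_lit 260) (nat_lit 128)) (XT.lf (nat_lit 0) (nat_lit 44895557710) (nat_lit 152) (nat_lit 19109720362) (nat_lit 0) (nat_lit 3799172634) (nat_lit 11) (nat_lit 5) (nat_lit 13) (nat_lit 4) (nat_lit 11) (nat_lit 4) (nat_lit 393) (nat_lit 260) (nat_lit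 127))))) (XT.nd (nat_lit 234) (nat_lit 76) (nat_lit 0) (XT.nd (nat_lit 78) (nat_lit 76) (nat_lit 0) (XT.lf (nat_lit 0) (nat_lit 51537889390) (nat_lit 152) (nat_lit 7684280063) (nat_lit 0) (nat_lit 10417552338) (nat_lit 11) (nat_lit 5) (nat_lit 13) (nat_lit 4) (nat_lit 11) (nat_lit 4) (nat_lit 394) (nat_lit 260) (nat_lit 126)) (XT.nd (nat_lit 78) (nat_lit 0) (nat_lit 0) (XT.lf (nat_lit 0) (nat_lit 4151933370) (nat_lit 76) (nat_lit 54260363658) (nat_lit 76) (nat_lit 13116772262) (nat_lit 10) (nat_lit 4) (nat_lit 11) (nat_lit 5) (nat_lit 11) (nat_lit 4) (nat_lit 395) (nat_lit 260) (nat_lit 125)) (XT.lf (nat_lit 0) (nat_lit 16487871710) (nat_lit 76) (nat_lit 49075639548) (nat_lit 76) (nat_lit 7909471119) (nat_lit 10) (nat_lit 4) (nat_lit 11) (nat_lit 5) (nat_lit 11) (nat_lit 4) (nat_lit 396) (nat_lit 260) (nat_lit 124)))) (XT.nd (nat_lit 156) (nat_lit 0) (nat_lit 0) (XT.nd (nat_lit 78) (nat_lit 76)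 (nat_lit 0) (XT.lf (nat_lit 0) (nat_lit 29181381688) (nat_lit 76) (nat_lit 43741062943) (nat_lit 76) (nat_lit 2552975063) (nat_lit 10) (nat_lit 4) (nat_lit 11) (nat_lit 5) (nat_lit 11) (nat_lit 4) (nat_lit 397) (nat_lit 260) (nat_lit 123)) (XT.lf (nat_lit 0) (nat_lit 2899686881) (nat_lit 152) (nat_lit 35323004528) (nat_lit 76) (nat_lit 39314586689) (nat_lit 9) (nat_lit 5) (nat_lit 11) (nat_lit 5) (nat_lit 10) (nat_lit 4) (nat_lit 398) (nat_lit 260) (nat_lit 122))) (XT.nd (nat_lit 78) (nat_lit 0) (nat_lit 0) (XT.lf (nat_lit 0) (nat_lit 8458124703) (nat_lit 152) (nat_lit 24060036934) (nat_lit 76) (nat_lit 47142269184) (nat_lit 9) (nat_lit 5) (nat_lit 11) (nat_lit 5) (nat_lit 10) (nat_lit 4) (nat_lit 399) (nat_lit 260) (nat_lit 121)) (XT.lf (nat_lit 0) (nat_lit 14177013027) (nat_lit 152) (nat_lit 12470753039) (nat_lit 76) (nat_lit 55199703202) (nat_lit 9) (nat_lit 5) (nat_lit 11) (nat_lit 5) (nat_lit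 10) (nat_lit 4) (nat_lit 400) (nat_lit 260) (nat_lit 120))))))))
noncomputable def xc107 : XT := (XT.nd (nat_lit 31200) (nat_lit 0) (nat_lit 7980) (XT.nd (nat_lit 30108) (nat_lit 0) (nat_lit 19228) (XT.nd (nat_lit 468) (nat_lit 0) (nat_lit 0) (XT.nd (nat_lit 234) (nat_lit 0) (nat_lit 0) (XT.nd (nat_lit 78) (nat_lit 76) (nat_lit 0) (XT.lf (nat_lit 0) (nat_lit 20061348939) (nat_lit 152) (nat_lit 545026283) (nat_lit 76) (nat_lit 63493929218) (nat_lit 9) (nat_lit 5) (nat_lit 11) (nat_lit 5) (nat_lit 10) (nat_lit 4) (nat_lit 401) (nat_lit 260) (nat_lit 119)) (XT.nd (nat_lit 78) (nat_lit 0) (nat_lit 0) (XT.lf (nat_lit 0) (nat_lit 11960965385) (nat_lit 76) (nat_lit 14270284824) (nat_lit 152) (nat_lit 60186205346) (nat_lit 8) (nat_lit 5) (nat_lit 9) (nat_lit 5) (nat_lit 10) (nat_lit 4) (nat_lit 402) (nat_lit 260) (nat_lit 118)) (XT.lf (nat_lit 0) (nat_lit 24842507850) (nat_lit 76) (nat_lit 7743372733)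 (nat_lit 152) (nat_lit 56218253546) (nat_lit 8) (nat_lit 5) (nat_lit 9) (nat_lit 5) (nat_lit 10) (nat_lit 4) (nat_lit 403) (nat_lit 260) (nat_lit 117)))) (XT.nd (nat_lit 78) (nat_lit 0) (nat_lit 0) (XT.lf (nat_lit 0) (nat_lit 38100009734) (nat_lit 76) (nat_lit 1025439520) (nat_lit 152) (nat_lit 52137136657) (nat_lit 8) (nat_lit 5) (nat_lit 9) (nat_lit 5) (nat_lit 10) (nat_lit 4) (nat_lit 404) (nat_lit 260) (nat_lit 116)) (XT.nd (nat_lit 78) (nat_lit 0) (nat_lit 0) (XT.lf (nat_lit 0) (nat_lit 45912282781) (nat_lit 152) (nat_lit 42106516170) (nat_lit 0) (nat_lit 5774461742) (nat_lit 8) (nat_lit 5) (nat_lit 10) (nat_lit 4) (nat_lit 8) (nat_lit 4) (nat_lit 405) (nat_lit 260) (nat_lit 115)) (XT.lf (nat_lit 0) (nat_lit 52907457437) (nat_lit 152) (nat_lit 30738931656) (nat_lit 0) (nat_lit 12753326268) (nat_lit 8) (nat_lit 5) (nat_lit 10) (nat_lit 4) (nat_lit 8) (nat_lit 4) (nat_lit 406) (nat_lit 260)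 (nat_lit 114))))) (XT.nd (nat_lit 29328) (nat_lit 0) (nat_lit 22724) (XT.nd (nat_lit 78) (nat_lit 0) (nat_lit 0) (XT.lf (nat_lit 0) (nat_lit 60107228359) (nat_lit 152) (nat_lit 19040032642) (nat_lit 0) (nat_lit 19937262114) (nat_lit 8) (nat_lit 5) (nat_lit 10) (nat_lit 4) (nat_lit 8) (nat_lit 4) (nat_lit 407) (nat_lit 260) (nat_lit 113)) (XT.nd (nat_lit 29172) (nat_lit 0) (nat_lit 23180) (XT.lf (nat_lit 0) (nat_lit 67517886611) (nat_lit 152) (nat_lit 6999596790) (nat_lit 0) (nat_lit 27332546504) (nat_lit 8) (nat_lit 5) (nat_lit 10) (nat_lit 4) (nat_lit 8) (nat_lit 4) (nat_lit 408) (nat_lit 260) (nat_lit 112)) (XT.lf (nat_lit 0) (nat_lit 1453132645) (nat_lit 0) (nat_lit 1453132645) (nat_lit 76) (nat_lit 316901031) (nat_lit 313) (nat_lit 5) (nat_lit 313) (nat_lit 3) (nat_lit 314) (nat_lit 0) (nat_lit 261) (nat_lit 261) (nat_lit 258)))) (XT.nd (nat_lit 156) (nat_lit 228) (nat_lit 0) (XT.nd (nat_lit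 78) (nat_lit 0) (nat_lit 0) (XT.lf (nat_lit 0) (nat_lit 2169659237) (nat_lit 228) (nat_lit 569298839) (nat_lit 228) (nat_lit 3713305094) (nat_lit 310) (nat_lit 3) (nat_lit 313) (nat_lit 3) (nat_lit 313) (nat_lit 5) (nat_lit 262) (nat_lit 261) (nat_lit 257)) (XT.lf (nat_lit 76) (nat_lit 2476216418) (nat_lit 0) (nat_lit 2482779703) (nat_lit 228) (nat_lit 1502022668) (nat_lit 311) (nat_lit 5) (nat_lit 310) (nat_lit 3) (nat_lit 313) (nat_lit 5) (nat_lit 263) (nat_lit 261) (nat_lit 256))) (XT.nd (nat_lit 78) (nat_lit 0) (nat_lit 0) (XT.lf (nat_lit 0) (nat_lit 1233244926) (nat_lit 228) (nat_lit 916518097) (nat_lit 304) (nat_lit 4323201120) (nat_lit 307) (nat_lit 5) (nat_lit 310) (nat_lit 3) (nat_lit 311) (nat_lit 5) (nat_lit 264) (nat_lit 261) (nat_lit 255)) (XT.lf (nat_lit 76) (nat_lit 2215603202) (nat_lit 0) (nat_lit 1721260600) (nat_lit 304) (nat_lit 2550711215) (nat_lit 308) (nat_lit 5) (nat_lit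 307) (nat_lit 5) (nat_lit 311) (nat_lit 5) (nat_lit 265) (nat_lit 261) (nat_lit 254)))))) (XT.nd (nat_lit 546) (nat_lit 2432) (nat_lit 0) (XT.nd (nat_lit 234) (nat_lit 760) (nat_lit 0) (XT.nd (nat_lit 78) (nat_lit 0) (nat_lit 0) (XT.lf (nat_lit 0) (nat_lit 120491180) (nat_lit 304) (nat_lit 1102381316) (nat_lit 380) (nat_lit 5282748220) (nat_lit 303) (nat_lit 5) (nat_lit 307) (nat_lit 5) (nat_lit 308) (nat_lit 5) (nat_lit 266) (nat_lit 261) (nat_lit 253)) (XT.nd (nat_lit 78) (nat_lit 0) (nat_lit 76) (XT.lf (nat_lit 76) (nat_lit 2121831238) (nat_lit 0) (nat_lit 618594310) (nat_lit 380) (nat_lit 3785655471) (nat_lit 304) (nat_lit 5) (nat_lit 303) (nat_lit 5) (nat_lit 308) (nat_lit 5) (nat_lit 267) (nat_lit 261) (nat_lit 252)) (XT.lf (nat_lit 0) (nat_lit 5352496841) (nat_lit 304) (nat_lit 1141229753) (nat_lit 76) (nat_lit 56242518) (nat_lit 304) (nat_lit 5) (nat_lit 308) (nat_lit 5) (nat_lit 305)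 (nat_lit 5) (nat_lit 268) (nat_lit 261) (nat_lit 251)))) (XT.nd (nat_lit 156) (nat_lit 456) (nat_lit 0) (XT.nd (nat_lit 78) (nat_lit 0) (nat_lit 0) (XT.lf (nat_lit 0) (nat_lit 1371189873) (nat_lit 380) (nat_lit 4391694381) (nat_lit 76) (nat_lit 813529068) (nat_lit 299) (nat_lit 5) (nat_lit 304) (nat_lit 5) (nat_lit 300) (nat_lit 5) (nat_lit 269) (nat_lit 261) (nat_lit 250)) (XT.lf (nat_lit 0) (nat_lit 3910680838) (nat_lit 380) (nat_lit 1040828762) (nat_lit 76) (nat_lit 1654451932) (nat_lit 299) (nat_lit 5) (nat_lit 304) (nat_lit 5) (nat_lit 300) (nat_lit 5) (nat_lit 270) (nat_lit 261) (nat_lit 249))) (XT.nd (nat_lit 78) (nat_lit 76) (nat_lit 0) (XT.lf (nat_lit 0) (nat_lit 2399726487) (nat_lit 380) (nat_lit 4058628437) (nat_lit 456) (nat_lit 180276907) (nat_lit 294) (nat_lit 5) (nat_lit 299) (nat_lit 5) (nat_lit 300) (nat_lit 5) (nat_lit 271) (nat_lit 261) (nat_lit 248)) (XT.lf (nat_lit 0) (nat_lit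 2283727501) (nat_lit 456) (nat_lit 789479237) (nat_lit 76) (nat_lit 3600947377) (nat_lit 293) (nat_lit 5) (nat_lit 299) (nat_lit 5) (nat_lit 294) (nat_lit 5) (nat_lit 272) (nat_lit 261) (nat_lit 247))))) (XT.nd (nat_lit 234) (nat_lit 1368) (nat_lit 0) (XT.nd (nat_lit 78) (nat_lit 608) (nat_lit 0) (XT.lf (nat_lit 0) (nat_lit 2758111530) (nat_lit 456) (nat_lit 1999019441) (nat_lit 532) (nat_lit 1955563478) (nat_lit 287) (nat_lit 5) (nat_lit 293) (nat_lit 5) (nat_lit 294) (nat_lit 5) (nat_lit 273) (nat_lit 261) (nat_lit 246)) (XT.nd (nat_lit 78) (nat_lit 532) (nat_lit 0) (XT.lf (nat_lit 0) (nat_lit 463192062) (nat_lit 532) (nat_lit 387907052) (nat_lit 76) (nat_lit 5903652575) (nat_lit 286) (nat_lit 5) (nat_lit 293) (nat_lit 5) (nat_lit 287) (nat_lit 5) (nat_lit 274) (nat_lit 261) (nat_lit 245)) (XT.lf (nat_lit 0) (nat_lit 2866707789) (nat_lit 608) (nat_lit 3529863461) (nat_lit 76) (nat_lit 402537273)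 (nat_lit 279) (nat_lit 5) (nat_lit 287) (nat_lit 5) (nat_lit 280) (nat_lit 5) (nat_lit 275) (nat_lit 261) (nat_lit 244)))) (XT.nd (nat_lit 156) (nat_lit 684) (nat_lit 0) (XT.nd (nat_lit 78) (nat_lit 76) (nat_lit 0) (XT.lf (nat_lit 0) (nat_lit 134261327) (nat_lit 608) (nat_lit 5139979493) (nat_lit 684) (nat_lit 1572756927) (nat_lit 271) (nat_lit 5) (nat_lit 279) (nat_lit 5) (nat_lit 280) (nat_lit 5) (nat_lit 276) (nat_lit 261) (nat_lit 243)) (XT.lf (nat_lit 0) (nat_lit 796050330) (nat_lit 684) (nat_lit 2983639691) (nat_lit 76) (nat_lit 3117882885) (nat_lit 270) (nat_lit 5) (nat_lit 279) (nat_lit 5) (nat_lit 271) (nat_lit 5) (nat_lit 277) (nat_lit 261) (nat_lit 242))) (XT.nd (nat_lit 78) (nat_lit 0) (nat_lit 0) (XT.lf (nat_lit 0) (nat_lit 798646880) (nat_lit 684) (nat_lit 2334809959) (nat_lit 760) (nat_lit 3818012492) (nat_lit 261) (nat_lit 5) (nat_lit 270) (nat_lit 5) (nat_lit 271) (nat_lit 5)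 (nat_lit 278) (nat_lit 261) (nat_lit 241)) (XT.lf (nat_lit 0) (nat_lit 4697443498) (nat_lit 684) (nat_lit 796868392) (nat_lit 760) (nat_lit 1514212271) (nat_lit 261) (nat_lit 5) (nat_lit 270) (nat_lit 5) (nat_lit 271) (nat_lit 5) (nat_lit 279) (nat_lit 261) (nat_lit 240))))))) (XT.nd (nat_lit 1014) (nat_lit 4028) (nat_lit 0) (XT.nd (nat_lit 468) (nat_lit 3572) (nat_lit 0) (XT.nd (nat_lit 234) (nat_lit 1976) (nat_lit 0) (XT.nd (nat_lit 78) (nat_lit 836) (nat_lit 0) (XT.lf (nat_lit 0) (nat_lit 789962698) (nat_lit 836) (nat_lit 5465909902) (nat_lit 76) (nat_lit 812863084) (nat_lit 250) (nat_lit 5) (nat_lit 261) (nat_lit 5) (nat_lit 251) (nat_lit 5) (nat_lit 280) (nat_lit 261) (nat_lit 239)) (XT.nd (nat_lit 78) (nat_lit 836) (nat_lit 0) (XT.lf (nat_lit 0) (nat_lit 3090649877) (nat_lit 836) (nat_lit 1531634739) (nat_lit 76) (nat_lit 2509413850) (nat_lit 250) (nat_lit 5) (nat_lit 261) (nat_lit 5) (nat_lit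 251) (nat_lit 5) (nat_lit 281) (nat_lit 261) (nat_lit 238)) (XT.lf (nat_lit 0) (nat_lit 2511430521) (nat_lit 836) (nat_lit 2901576220) (nat_lit 912) (nat_lit 1785089464) (nat_lit 239) (nat_lit 5) (nat_lit 250) (nat_lit 5) (nat_lit 251) (nat_lit 5) (nat_lit 282) (nat_lit 261) (nat_lit 237)))) (XT.nd (nat_lit 78) (nat_lit 1900) (nat_lit 0) (XT.lf (nat_lit 0) (nat_lit 472882394) (nat_lit 912) (nat_lit 623368237) (nat_lit 76) (nat_lit 6171852991) (nat_lit 238) (nat_lit 5) (nat_lit 250) (nat_lit 5) (nat_lit 239) (nat_lit 5) (nat_lit 283) (nat_lit 261) (nat_lit 236)) (XT.nd (nat_lit 78) (nat_lit 988) (nat_lit 0) (XT.lf (nat_lit 0) (nat_lit 2736140928) (nat_lit 988) (nat_lit 3792721157) (nat_lit 76) (nat_lit 811731062) (nat_lit 226) (nat_lit 5) (nat_lit 239) (nat_lit 5) (nat_lit 227) (nat_lit 5) (nat_lit 284) (nat_lit 261) (nat_lit 235)) (XT.lf (nat_lit 0) (nat_lit 379302463) (nat_lit 988) (nat_lit 4641690520)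 (nat_lit 1064) (nat_lit 2395765049) (nat_lit 213) (nat_lit 5) (nat_lit 226) (nat_lit 5) (nat_lit 227) (nat_lit 5) (nat_lit 285) (nat_lit 261) (nat_lit 234))))) (XT.nd (nat_lit 234) (nat_lit 2432) (nat_lit 0) (XT.nd (nat_lit 78) (nat_lit 1140) (nat_lit 0) (XT.lf (nat_lit 0) (nat_lit 4695671530) (nat_lit 988) (nat_lit 2651249926) (nat_lit 1064) (nat_lit 149218778) (nat_lit 213) (nat_lit 5) (nat_lit 226) (nat_lit 5) (nat_lit 227) (nat_lit 5) (nat_lit 286) (nat_lit 261) (nat_lit 233)) (XT.nd (nat_lit 78) (nat_lit 0) (nat_lit 0) (XT.lf (nat_lit 0) (nat_lit 1514120933) (nat_lit 1064) (nat_lit 558328135) (nat_lit 1140) (nat_lit 5506433654) (nat_lit 198) (nat_lit 5) (nat_lit 212) (nat_lit 5) (nat_lit 213) (nat_lit 5) (nat_lit 287) (nat_lit 261) (nat_lit 232)) (XT.lf (nat_lit 0) (nat_lit 4338474664) (nat_lit 1140) (nat_lit 1724540165) (nat_lit 76) (nat_lit 1601726235) (nat_lit 198) (nat_lit 5) (nat_lit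 213) (nat_lit 5) (nat_lit 199) (nat_lit 5) (nat_lit 288) (nat_lit 261) (nat_lit 231)))) (XT.nd (nat_lit 156) (nat_lit 1216) (nat_lit 0) (XT.nd (nat_lit 78) (nat_lit 76) (nat_lit 0) (XT.lf (nat_lit 0) (nat_lit 2735760403) (nat_lit 1140) (nat_lit 3907180039) (nat_lit 1216) (nat_lit 1111217153) (nat_lit 183) (nat_lit 5) (nat_lit 198) (nat_lit 5) (nat_lit 199) (nat_lit 5) (nat_lit 289) (nat_lit 261) (nat_lit 230)) (XT.lf (nat_lit 0) (nat_lit 1104216134) (nat_lit 1216) (nat_lit 550651579) (nat_lit 76) (nat_lit 6192439050) (nat_lit 182) (nat_lit 5) (nat_lit 198) (nat_lit 5) (nat_lit 183) (nat_lit 5) (nat_lit 290) (nat_lit 261) (nat_lit 229))) (XT.nd (nat_lit 78) (nat_lit 608) (nat_lit 0) (XT.lf (nat_lit 0) (nat_lit 3350689435) (nat_lit 684) (nat_lit 3888126546) (nat_lit 76) (nat_lit 704585077) (nat_lit 174) (nat_lit 5) (nat_lit 183) (nat_lit 5) (nat_lit 175) (nat_lit 5) (nat_lit 291) (nat_lit 261) (nat_lit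 228)) (XT.lf (nat_lit 0) (nat_lit 707538573) (nat_lit 608) (nat_lit 4927964403) (nat_lit 684) (nat_lit 2407832313) (nat_lit 166) (nat_lit 5) (nat_lit 174) (nat_lit 5) (nat_lit 175) (nat_lit 5) (nat_lit 292) (nat_lit 261) (nat_lit 227)))))) (XT.nd (nat_lit 546) (nat_lit 1824) (nat_lit 0) (XT.nd (nat_lit 234) (nat_lit 1596) (nat_lit 0) (XT.nd (nat_lit 78) (nat_lit 608) (nat_lit 0) (XT.lf (nat_lit 0) (nat_lit 5463064824) (nat_lit 608) (nat_lit 2508333277) (nat_lit 684) (nat_lit 175476334) (nat_lit 166) (nat_lit 5) (nat_lit 174) (nat_lit 5) (nat_lit 175) (nat_lit 5) (nat_lit 293) (nat_lit 261) (nat_lit 226)) (XT.nd (nat_lit 78) (nat_lit 0) (nat_lit 0) (XT.lf (nat_lit 0) (nat_lit 2046841652) (nat_lit 608) (nat_lit 6183782046) (nat_lit 76) (nat_lit 23428761) (nat_lit 158) (nat_lit 5) (nat_lit 166) (nat_lit 5) (nat_lit 159) (nat_lit 5) (nat_lit 294) (nat_lit 261) (nat_lit 225)) (XT.lf (nat_lit 0) (nat_lit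 4329867488) (nat_lit 608) (nat_lit 1426836608) (nat_lit 76) (nat_lit 2607838608) (nat_lit 158) (nat_lit 5) (nat_lit 166) (nat_lit 5) (nat_lit 159) (nat_lit 5) (nat_lit 295) (nat_lit 261) (nat_lit 224)))) (XT.nd (nat_lit 156) (nat_lit 988) (nat_lit 0) (XT.nd (nat_lit 78) (nat_lit 76) (nat_lit 0) (XT.lf (nat_lit 0) (nat_lit 3484153712) (nat_lit 532) (nat_lit 3177674323) (nat_lit 608) (nat_lit 1817180048) (nat_lit 151) (nat_lit 5) (nat_lit 158) (nat_lit 5) (nat_lit 159) (nat_lit 5) (nat_lit 296) (nat_lit 261) (nat_lit 223)) (XT.lf (nat_lit 0) (nat_lit 419653655) (nat_lit 608) (nat_lit 86596252) (nat_lit 76) (nat_lit 8091734701) (nat_lit 150) (nat_lit 5) (nat_lit 158) (nat_lit 5) (nat_lit 151) (nat_lit 5) (nat_lit 297) (nat_lit 261) (nat_lit 222))) (XT.nd (nat_lit 78) (nat_lit 532) (nat_lit 0) (XT.lf (nat_lit 0) (nat_lit 2706161912) (nat_lit 532) (nat_lit 3749546818) (nat_lit 76) (nat_lit 2263776636)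 (nat_lit 144) (nat_lit 5) (nat_lit 151) (nat_lit 5) (nat_lit 145) (nat_lit 5) (nat_lit 298) (nat_lit 261) (nat_lit 221)) (XT.lf (nat_lit 0) (nat_lit 1299144406) (nat_lit 532) (nat_lit 3730322701) (nat_lit 608) (nat_lit 3816183513) (nat_lit 137) (nat_lit 5) (nat_lit 144) (nat_lit 5) (nat_lit 145) (nat_lit 5) (nat_lit 299) (nat_lit 261) (nat_lit 220))))) (XT.nd (nat_lit 234) (nat_lit 1292) (nat_lit 0) (XT.nd (nat_lit 78) (nat_lit 532) (nat_lit 0) (XT.lf (nat_lit 0) (nat_lit 6520187404) (nat_lit 532) (nat_lit 890888740) (nat_lit 608) (nat_lit 1564930158) (nat_lit 137) (nat_lit 5) (nat_lit 144) (nat_lit 5) (nat_lit 145) (nat_lit 5) (nat_lit 300) (nat_lit 261) (nat_lit 219)) (XT.nd (nat_lit 78) (nat_lit 0) (nat_lit 0) (XT.lf (nat_lit 0) (nat_lit 737326368) (nat_lit 532) (nat_lit 6351371099) (nat_lit 76) (nat_lit 2021472471) (nat_lit 130) (nat_lit 5) (nat_lit 137) (nat_lit 5) (nat_lit 131) (nat_lit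 5) (nat_lit 301) (nat_lit 261) (nat_lit 218)) (XT.lf (nat_lit 0) (nat_lit 3063515397) (nat_lit 532) (nat_lit 1148210374) (nat_lit 76) (nat_lit 5036636543) (nat_lit 130) (nat_lit 5) (nat_lit 137) (nat_lit 5) (nat_lit 131) (nat_lit 5) (nat_lit 302) (nat_lit 261) (nat_lit 217)))) (XT.nd (nat_lit 156) (nat_lit 456) (nat_lit 0) (XT.nd (nat_lit 78) (nat_lit 380) (nat_lit 0) (XT.lf (nat_lit 0) (nat_lit 4239172245) (nat_lit 456) (nat_lit 1214905412) (nat_lit 532) (nat_lit 3936841700) (nat_lit 124) (nat_lit 5) (nat_lit 130) (nat_lit 5) (nat_lit 131) (nat_lit 5) (nat_lit 303) (nat_lit 261) (nat_lit 216)) (XT.lf (nat_lit 0) (nat_lit 204806551) (nat_lit 380) (nat_lit 7697800578) (nat_lit 456) (nat_lit 1635613343) (nat_lit 119) (nat_lit 5) (nat_lit 124) (nat_lit 5) (nat_lit 125) (nat_lit 5) (nat_lit 304) (nat_lit 261) (nat_lit 215))) (XT.nd (nat_lit 78) (nat_lit 380) (nat_lit 0) (XT.lf (nat_lit 0) (nat_lit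 739763262) (nat_lit 456) (nat_lit 3936120112) (nat_lit 76) (nat_lit 5013313701) (nat_lit 118) (nat_lit 5) (nat_lit 124) (nat_lit 5) (nat_lit 119) (nat_lit 5) (nat_lit 305) (nat_lit 261) (nat_lit 214)) (XT.lf (nat_lit 0) (nat_lit 1583628785) (nat_lit 380) (nat_lit 1541315853) (nat_lit 456) (nat_lit 6720180199) (nat_lit 113) (nat_lit 5) (nat_lit 118) (nat_lit 5) (nat_lit 119) (nat_lit 5) (nat_lit 306) (nat_lit 261) (nat_lit 213))))))))
noncomputable def xc108 : XT := (XT.nd (nat_lit 2028) (nat_lit 2204) (nat_lit 0) (XT.nd (nat_lit 1014) (nat_lit 1748) (nat_lit 0) (XT.nd (nat_lit 468) (nat_lit 1444) (nat_lit 0) (XT.nd (nat_lit 234) (nat_lit 684) (nat_lit 0) (XT.nd (nat_lit 78) (nat_lit 456) (nat_lit 0) (XT.lf (nat_lit 0) (nat_lit 5594894604) (nat_lit 456) (nat_lit 2726373039) (nat_lit 76) (nat_lit 1684115147) (nat_lit 113) (nat_lit 5) (nat_lit 119) (nat_lit 5) (nat_lit 114) (nat_lit 5) (nat_lit 307)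 (nat_lit 261) (nat_lit 212)) (XT.nd (nat_lit 78) (nat_lit 76) (nat_lit 0) (XT.lf (nat_lit 0) (nat_lit 2964102863) (nat_lit 380) (nat_lit 5176703497) (nat_lit 456) (nat_lit 2029633558) (nat_lit 108) (nat_lit 5) (nat_lit 113) (nat_lit 5) (nat_lit 114) (nat_lit 5) (nat_lit 308) (nat_lit 261) (nat_lit 211)) (XT.lf (nat_lit 0) (nat_lit 400573124) (nat_lit 456) (nat_lit 1516408479) (nat_lit 76) (nat_lit 8423804679) (nat_lit 107) (nat_lit 5) (nat_lit 113) (nat_lit 5) (nat_lit 108) (nat_lit 5) (nat_lit 309) (nat_lit 261) (nat_lit 210)))) (XT.nd (nat_lit 78) (nat_lit 304) (nat_lit 0) (XT.lf (nat_lit 0) (nat_lit 2878706861) (nat_lit 456) (nat_lit 6172912897) (nat_lit 76) (nat_lit 1463589300) (nat_lit 102) (nat_lit 5) (nat_lit 108) (nat_lit 5) (nat_lit 103) (nat_lit 5) (nat_lit 310) (nat_lit 261) (nat_lit 209)) (XT.nd (nat_lit 78) (nat_lit 304) (nat_lit 0) (XT.lf (nat_lit 0) (nat_lit 5425779616) (nat_lit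 456) (nat_lit 358369194) (nat_lit 76) (nat_lit 4910919914) (nat_lit 102) (nat_lit 5) (nat_lit 108) (nat_lit 5) (nat_lit 103) (nat_lit 5) (nat_lit 311) (nat_lit 261) (nat_lit 208)) (XT.lf (nat_lit 0) (nat_lit 5690508219) (nat_lit 304) (nat_lit 2374768269) (nat_lit 380) (nat_lit 2814608164) (nat_lit 98) (nat_lit 5) (nat_lit 102) (nat_lit 5) (nat_lit 103) (nat_lit 5) (nat_lit 312) (nat_lit 261) (nat_lit 207))))) (XT.nd (nat_lit 234) (nat_lit 684) (nat_lit 0) (XT.nd (nat_lit 78) (nat_lit 380) (nat_lit 0) (XT.lf (nat_lit 0) (nat_lit 811223701) (nat_lit 380) (nat_lit 9956945976) (nat_lit 456) (nat_lit 302588680) (nat_lit 93) (nat_lit 5) (nat_lit 98) (nat_lit 5) (nat_lit 99) (nat_lit 5) (nat_lit 313) (nat_lit 261) (nat_lit 206)) (XT.nd (nat_lit 78) (nat_lit 304) (nat_lit 0) (XT.lf (nat_lit 0) (nat_lit 2278681145) (nat_lit 456) (nat_lit 4265550900) (nat_lit 76) (nat_lit 4721350484) (nat_lit 92) (nat_lit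 5) (nat_lit 98) (nat_lit 5) (nat_lit 93) (nat_lit 5) (nat_lit 314) (nat_lit 261) (nat_lit 205)) (XT.lf (nat_lit 0) (nat_lit 1891695016) (nat_lit 304) (nat_lit 3020942412) (nat_lit 380) (nat_lit 6554120493) (nat_lit 88) (nat_lit 5) (nat_lit 92) (nat_lit 5) (nat_lit 93) (nat_lit 5) (nat_lit 315) (nat_lit 261) (nat_lit 204)))) (XT.nd (nat_lit 156) (nat_lit 380) (nat_lit 0) (XT.nd (nat_lit 78) (nat_lit 304) (nat_lit 0) (XT.lf (nat_lit 0) (nat_lit 7638564547) (nat_lit 380) (nat_lit 3408821353) (nat_lit 76) (nat_lit 626229332) (nat_lit 88) (nat_lit 5) (nat_lit 93) (nat_lit 5) (nat_lit 89) (nat_lit 5) (nat_lit 316) (nat_lit 261) (nat_lit 203)) (XT.lf (nat_lit 0) (nat_lit 2919989719) (nat_lit 304) (nat_lit 7548925861) (nat_lit 380) (nat_lit 1417117494) (nat_lit 84) (nat_lit 5) (nat_lit 88) (nat_lit 5) (nat_lit 89) (nat_lit 5) (nat_lit 317) (nat_lit 261) (nat_lit 202))) (XT.nd (nat_lit 78) (nat_lit 304)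 (nat_lit 0) (XT.lf (nat_lit 0) (nat_lit 1254000397) (nat_lit 380) (nat_lit 2657620482) (nat_lit 76) (nat_lit 8192877523) (nat_lit 83) (nat_lit 5) (nat_lit 88) (nat_lit 5) (nat_lit 84) (nat_lit 5) (nat_lit 318) (nat_lit 261) (nat_lit 201)) (XT.lf (nat_lit 0) (nat_lit 3852923604) (nat_lit 304) (nat_lit 126754336) (nat_lit 380) (nat_lit 8349362854) (nat_lit 79) (nat_lit 5) (nat_lit 83) (nat_lit 5) (nat_lit 84) (nat_lit 5) (nat_lit 319) (nat_lit 261) (nat_lit 200)))))) (XT.nd (nat_lit 468) (nat_lit 836) (nat_lit 0) (XT.nd (nat_lit 234) (nat_lit 608) (nat_lit 0) (XT.nd (nat_lit 78) (nat_lit 304) (nat_lit 0) (XT.lf (nat_lit 0) (nat_lit 6816753622) (nat_lit 380) (nat_lit 2031486079) (nat_lit 76) (nat_lit 3711221304) (nat_lit 79) (nat_lit 5) (nat_lit 84) (nat_lit 5) (nat_lit 80) (nat_lit 5) (nat_lit 320) (nat_lit 261) (nat_lit 199)) (XT.nd (nat_lit 78) (nat_lit 0) (nat_lit 0) (XT.lf (nat_lit 0) (nat_lit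 4648646484) (nat_lit 304) (nat_lit 5103488009) (nat_lit 380) (nat_lit 3044293040) (nat_lit 75) (nat_lit 5) (nat_lit 79) (nat_lit 5) (nat_lit 80) (nat_lit 5) (nat_lit 321) (nat_lit 261) (nat_lit 198)) (XT.lf (nat_lit 0) (nat_lit 11523995843) (nat_lit 304) (nat_lit 1239850917) (nat_lit 380) (nat_lit 277036834) (nat_lit 75) (nat_lit 5) (nat_lit 79) (nat_lit 5) (nat_lit 80) (nat_lit 5) (nat_lit 322) (nat_lit 261) (nat_lit 197)))) (XT.nd (nat_lit 78) (nat_lit 304) (nat_lit 0) (XT.lf (nat_lit 0) (nat_lit 2569724860) (nat_lit 304) (nat_lit 7971914950) (nat_lit 76) (nat_lit 2748917428) (nat_lit 71) (nat_lit 5) (nat_lit 75) (nat_lit 5) (nat_lit 72) (nat_lit 5) (nat_lit 323) (nat_lit 261) (nat_lit 196)) (XT.nd (nat_lit 78) (nat_lit 304) (nat_lit 0) (XT.lf (nat_lit 0) (nat_lit 5492767224) (nat_lit 304) (nat_lit 1218591669) (nat_lit 76) (nat_lit 6836412738) (nat_lit 71) (nat_lit 5) (nat_lit 75) (nat_lit 5)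 (nat_lit 72) (nat_lit 5) (nat_lit 324) (nat_lit 261) (nat_lit 195)) (XT.lf (nat_lit 0) (nat_lit 5805478565) (nat_lit 304) (nat_lit 2723440708) (nat_lit 380) (nat_lit 5283046076) (nat_lit 67) (nat_lit 5) (nat_lit 71) (nat_lit 5) (nat_lit 72) (nat_lit 5) (nat_lit 325) (nat_lit 261) (nat_lit 194))))) (XT.nd (nat_lit 234) (nat_lit 532) (nat_lit 0) (XT.nd (nat_lit 78) (nat_lit 304) (nat_lit 0) (XT.lf (nat_lit 0) (nat_lit 11651814172) (nat_lit 380) (nat_lit 1077368420) (nat_lit 76) (nat_lit 1355057241) (nat_lit 67) (nat_lit 5) (nat_lit 72) (nat_lit 5) (nat_lit 68) (nat_lit 5) (nat_lit 326) (nat_lit 261) (nat_lit 193)) (XT.nd (nat_lit 78) (nat_lit 0) (nat_lit 0) (XT.lf (nat_lit 0) (nat_lit 550897424) (nat_lit 304) (nat_lit 8260723587) (nat_lit 76) (nat_lit 5551229166) (nat_lit 63) (nat_lit 5) (nat_lit 67) (nat_lit 5) (nat_lit 64) (nat_lit 5) (nat_lit 327) (nat_lit 261) (nat_lit 192)) (XT.lf (nat_lit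 0) (nat_lit 3556742434) (nat_lit 304) (nat_lit 1198912726) (nat_lit 76) (nat_lit 9894006429) (nat_lit 63) (nat_lit 5) (nat_lit 67) (nat_lit 5) (nat_lit 64) (nat_lit 5) (nat_lit 328) (nat_lit 261) (nat_lit 191)))) (XT.nd (nat_lit 156) (nat_lit 304) (nat_lit 0) (XT.nd (nat_lit 78) (nat_lit 0) (nat_lit 0) (XT.lf (nat_lit 0) (nat_lit 6151765877) (nat_lit 228) (nat_lit 531902864) (nat_lit 304) (nat_lit 8260503371) (nat_lit 60) (nat_lit 5) (nat_lit 63) (nat_lit 5) (nat_lit 64) (nat_lit 5) (nat_lit 329) (nat_lit 261) (nat_lit 190)) (XT.lf (nat_lit 0) (nat_lit 9925377570) (nat_lit 304) (nat_lit 1579761034) (nat_lit 76) (nat_lit 3741771416) (nat_lit 60) (nat_lit 5) (nat_lit 64) (nat_lit 5) (nat_lit 61) (nat_lit 5) (nat_lit 330) (nat_lit 261) (nat_lit 189))) (XT.nd (nat_lit 78) (nat_lit 76) (nat_lit 0) (XT.lf (nat_lit 0) (nat_lit 5917407447) (nat_lit 228) (nat_lit 7381934478) (nat_lit 304) (nat_lit 2258358700)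 (nat_lit 57) (nat_lit 5) (nat_lit 60) (nat_lit 5) (nat_lit 61) (nat_lit 5) (nat_lit 331) (nat_lit 261) (nat_lit 188)) (XT.lf (nat_lit 0) (nat_lit 868284483) (nat_lit 304) (nat_lit 2256444420) (nat_lit 76) (nat_lit 12753174786) (nat_lit 56) (nat_lit 5) (nat_lit 60) (nat_lit 5) (nat_lit 57) (nat_lit 5) (nat_lit 332) (nat_lit 261) (nat_lit 187))))))) (XT.nd (nat_lit 1014) (nat_lit 912) (nat_lit 0) (XT.nd (nat_lit 468) (nat_lit 608) (nat_lit 0) (XT.nd (nat_lit 234) (nat_lit 304) (nat_lit 0) (XT.nd (nat_lit 78) (nat_lit 152) (nat_lit 0) (XT.lf (nat_lit 0) (nat_lit 4081611644) (nat_lit 304) (nat_lit 10828222902) (nat_lit 76) (nat_lit 1296078170) (nat_lit 53) (nat_lit 5) (nat_lit 57) (nat_lit 5) (nat_lit 54) (nat_lit 5) (nat_lit 333) (nat_lit 261) (nat_lit 186)) (XT.nd (nat_lit 78) (nat_lit 152) (nat_lit 0) (XT.lf (nat_lit 0) (nat_lit 7419270424) (nat_lit 304) (nat_lit 3328366276) (nat_lit 76) (nat_lit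 5795305741) (nat_lit 53) (nat_lit 5) (nat_lit 57) (nat_lit 5) (nat_lit 54) (nat_lit 5) (nat_lit 334) (nat_lit 261) (nat_lit 185)) (XT.lf (nat_lit 0) (nat_lit 4443161633) (nat_lit 152) (nat_lit 6431348138) (nat_lit 228) (nat_lit 6015067608) (nat_lit 51) (nat_lit 5) (nat_lit 53) (nat_lit 5) (nat_lit 54) (nat_lit 5) (nat_lit 335) (nat_lit 261) (nat_lit 184)))) (XT.nd (nat_lit 78) (nat_lit 304) (nat_lit 0) (XT.lf (nat_lit 0) (nat_lit 12476429540) (nat_lit 152) (nat_lit 1965681878) (nat_lit 228) (nat_lit 2804256121) (nat_lit 51) (nat_lit 5) (nat_lit 53) (nat_lit 5) (nat_lit 54) (nat_lit 5) (nat_lit 336) (nat_lit 261) (nat_lit 183)) (XT.nd (nat_lit 78) (nat_lit 0) (nat_lit 0) (XT.lf (nat_lit 0) (nat_lit 524482497) (nat_lit 304) (nat_lit 14484508635) (nat_lit 76) (nat_lit 2603799109) (nat_lit 47) (nat_lit 5) (nat_lit 51) (nat_lit 5) (nat_lit 48) (nat_lit 5) (nat_lit 337) (nat_lit 261) (nat_lit 182))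 (XT.lf (nat_lit 0) (nat_lit 3940592484) (nat_lit 304) (nat_lit 6714437191) (nat_lit 76) (nat_lit 7333042701) (nat_lit 47) (nat_lit 5) (nat_lit 51) (nat_lit 5) (nat_lit 48) (nat_lit 5) (nat_lit 338) (nat_lit 261) (nat_lit 181))))) (XT.nd (nat_lit 234) (nat_lit 456) (nat_lit 0) (XT.nd (nat_lit 78) (nat_lit 0) (nat_lit 0) (XT.lf (nat_lit 0) (nat_lit 1275569665) (nat_lit 152) (nat_lit 6172349372) (nat_lit 228) (nat_lit 10927047333) (nat_lit 45) (nat_lit 5) (nat_lit 47) (nat_lit 5) (nat_lit 48) (nat_lit 5) (nat_lit 339) (nat_lit 261) (nat_lit 180)) (XT.nd (nat_lit 78) (nat_lit 0) (nat_lit 0) (XT.lf (nat_lit 0) (nat_lit 9605231532) (nat_lit 152) (nat_lit 1499831258) (nat_lit 228) (nat_lit 7667081418) (nat_lit 45) (nat_lit 5) (nat_lit 47) (nat_lit 5) (nat_lit 48) (nat_lit 5) (nat_lit 340) (nat_lit 261) (nat_lit 179)) (XT.lf (nat_lit 0) (nat_lit 14881101619) (nat_lit 228) (nat_lit 1065441614) (nat_lit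 76) (nat_lit 3234433236) (nat_lit 45) (nat_lit 5) (nat_lit 48) (nat_lit 5) (nat_lit 46) (nat_lit 5) (nat_lit 341) (nat_lit 261) (nat_lit 178)))) (XT.nd (nat_lit 156) (nat_lit 152) (nat_lit 0) (XT.nd (nat_lit 78) (nat_lit 76) (nat_lit 0) (XT.lf (nat_lit 0) (nat_lit 7372017974) (nat_lit 228) (nat_lit 11462113435) (nat_lit 304) (nat_lit 766045082) (nat_lit 42) (nat_lit 5) (nat_lit 45) (nat_lit 5) (nat_lit 46) (nat_lit 5) (nat_lit 342) (nat_lit 261) (nat_lit 177)) (XT.lf (nat_lit 0) (nat_lit 2806651765) (nat_lit 304) (nat_lit 4011075843) (nat_lit 76) (nat_lit 13213741533) (nat_lit 41) (nat_lit 5) (nat_lit 45) (nat_lit 5) (nat_lit 42) (nat_lit 5) (nat_lit 343) (nat_lit 261) (nat_lit 176))) (XT.nd (nat_lit 78) (nat_lit 0) (nat_lit 0) (XT.lf (nat_lit 0) (nat_lit 4497595389) (nat_lit 152) (nat_lit 1995474878) (nat_lit 228) (nat_lit 13981757534) (nat_lit 39) (nat_lit 5) (nat_lit 41) (nat_lit 5) (nat_lit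 42) (nat_lit 5) (nat_lit 344) (nat_lit 261) (nat_lit 175)) (XT.lf (nat_lit 0) (nat_lit 10338407543) (nat_lit 228) (nat_lit 7650756698) (nat_lit 76) (nat_lit 2940885708) (nat_lit 39) (nat_lit 5) (nat_lit 42) (nat_lit 5) (nat_lit 40) (nat_lit 5) (nat_lit 345) (nat_lit 261) (nat_lit 174)))))) (XT.nd (nat_lit 546) (nat_lit 380) (nat_lit 0) (XT.nd (nat_lit 234) (nat_lit 304) (nat_lit 0) (XT.nd (nat_lit 78) (nat_lit 76) (nat_lit 0) (XT.lf (nat_lit 0) (nat_lit 888858119) (nat_lit 152) (nat_lit 13418021871) (nat_lit 228) (nat_lit 7091827674) (nat_lit 37) (nat_lit 5) (nat_lit 39) (nat_lit 5) (nat_lit 40) (nat_lit 5) (nat_lit 346) (nat_lit 261) (nat_lit 173)) (XT.nd (nat_lit 78) (nat_lit 76) (nat_lit 0) (XT.lf (nat_lit 0) (nat_lit 9807587293) (nat_lit 152) (nat_lit 8643822506) (nat_lit 228) (nat_lit 3428317014) (nat_lit 37) (nat_lit 5) (nat_lit 39) (nat_lit 5) (nat_lit 40) (nat_lit 5) (nat_lit 347) (nat_lit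 261) (nat_lit 172)) (XT.lf (nat_lit 0) (nat_lit 318494395) (nat_lit 228) (nat_lit 3417941594) (nat_lit 76) (nat_lit 18639248263) (nat_lit 36) (nat_lit 5) (nat_lit 39) (nat_lit 5) (nat_lit 37) (nat_lit 5) (nat_lit 348) (nat_lit 261) (nat_lit 171)))) (XT.nd (nat_lit 156) (nat_lit 152) (nat_lit 0) (XT.nd (nat_lit 78) (nat_lit 0) (nat_lit 0) (XT.lf (nat_lit 0) (nat_lit 4156152500) (nat_lit 228) (nat_lit 17360260879) (nat_lit 76) (nat_lit 1367679076) (nat_lit 34) (nat_lit 5) (nat_lit 37) (nat_lit 5) (nat_lit 35) (nat_lit 5) (nat_lit 349) (nat_lit 261) (nat_lit 170)) (XT.lf (nat_lit 0) (nat_lit 8161628259) (nat_lit 228) (nat_lit 8672626090) (nat_lit 76) (nat_lit 6571928401) (nat_lit 34) (nat_lit 5) (nat_lit 37) (nat_lit 5) (nat_lit 35) (nat_lit 5) (nat_lit 350) (nat_lit 261) (nat_lit 169))) (XT.nd (nat_lit 78) (nat_lit 0) (nat_lit 0) (XT.lf (nat_lit 0) (nat_lit 248947179) (nat_lit 152) (nat_lit 12022109541)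 (nat_lit 228) (nat_lit 11673375559) (nat_lit 32) (nat_lit 5) (nat_lit 34) (nat_lit 5) (nat_lit 35) (nat_lit 5) (nat_lit 351) (nat_lit 261) (nat_lit 168)) (XT.lf (nat_lit 0) (nat_lit 9584708859) (nat_lit 152) (nat_lit 6988272684) (nat_lit 228) (nat_lit 7923781226) (nat_lit 32) (nat_lit 5) (nat_lit 34) (nat_lit 5) (nat_lit 35) (nat_lit 5) (nat_lit 352) (nat_lit 261) (nat_lit 167))))) (XT.nd (nat_lit 234) (nat_lit 152) (nat_lit 0) (XT.nd (nat_lit 78) (nat_lit 228) (nat_lit 0) (XT.lf (nat_lit 0) (nat_lit 19170214147) (nat_lit 152) (nat_lit 1815921799) (nat_lit 228) (nat_lit 4080071666) (nat_lit 32) (nat_lit 5) (nat_lit 34) (nat_lit 5) (nat_lit 35) (nat_lit 5) (nat_lit 353) (nat_lit 261) (nat_lit 166)) (XT.nd (nat_lit 78) (nat_lit 76) (nat_lit 0) (XT.lf (nat_lit 0) (nat_lit 3393147905) (nat_lit 152) (nat_lit 22187484166) (nat_lit 228) (nat_lit 70644631) (nat_lit 30) (nat_lit 5) (nat_lit 32) (nat_lit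 5) (nat_lit 33) (nat_lit 4) (nat_lit 354) (nat_lit 261) (nat_lit 165)) (XT.lf (nat_lit 0) (nat_lit 4040583705) (nat_lit 228) (nat_lit 13257793009) (nat_lit 76) (nat_lit 8952537618) (nat_lit 29) (nat_lit 5) (nat_lit 32) (nat_lit 5) (nat_lit 30) (nat_lit 5) (nat_lit 355) (nat_lit 261) (nat_lit 164)))) (XT.nd (nat_lit 156) (nat_lit 0) (nat_lit 0) (XT.nd (nat_lit 78) (nat_lit 152) (nat_lit 0) (XT.lf (nat_lit 0) (nat_lit 8256853852) (nat_lit 228) (nat_lit 4017194909) (nat_lit 76) (nat_lit 14594986126) (nat_lit 29) (nat_lit 5) (nat_lit 32) (nat_lit 5) (nat_lit 30) (nat_lit 5) (nat_lit 356) (nat_lit 261) (nat_lit 163)) (XT.lf (nat_lit 0) (nat_lit 5581330756) (nat_lit 152) (nat_lit 7055548867) (nat_lit 228) (nat_lit 14867709683) (nat_lit 27) (nat_lit 5) (nat_lit 29) (nat_lit 5) (nat_lit 30) (nat_lit 5) (nat_lit 357) (nat_lit 261) (nat_lit 162))) (XT.nd (nat_lit 78) (nat_lit 0) (nat_lit 0) (XT.lf (nat_lit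 0) (nat_lit 15522234999) (nat_lit 152) (nat_lit 1650462071) (nat_lit 228) (nat_lit 10985789596) (nat_lit 27) (nat_lit 5) (nat_lit 29) (nat_lit 5) (nat_lit 30) (nat_lit 5) (nat_lit 358) (nat_lit 261) (nat_lit 161)) (XT.lf (nat_lit 0) (nat_lit 21866426057) (nat_lit 228) (nat_lit 3135766666) (nat_lit 76) (nat_lit 3829160915) (nat_lit 27) (nat_lit 5) (nat_lit 30) (nat_lit 5) (nat_lit 28) (nat_lit 4) (nat_lit 359) (nat_lit 261) (nat_lit 160))))))))
noncomputable def xc109 : XT := (XT.nd (nat_lit 2028) (nat_lit 456) (nat_lit 0) (XT.nd (nat_lit 1014) (nat_lit 380) (nat_lit 0) (XT.nd (nat_lit 468) (nat_lit 304) (nat_lit 0) (XT.nd (nat_lit 234) (nat_lit 152) (nat_lit 0) (XT.nd (nat_lit 78) (nat_lit 76) (nat_lit 0) (XT.lf (nat_lit 0) (nat_lit 6738196980) (nat_lit 76) (nat_lit 20028529954) (nat_lit 152) (nat_lit 2755714455) (nat_lit 26) (nat_lit 5) (nat_lit 27) (nat_lit 5) (nat_lit 28) (nat_lit 4) (nat_lit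 360) (nat_lit 261) (nat_lit 159)) (XT.nd (nat_lit 78) (nat_lit 0) (nat_lit 0) (XT.lf (nat_lit 0) (nat_lit 1565609620) (nat_lit 152) (nat_lit 13302883009) (nat_lit 76) (nat_lit 15364820860) (nat_lit 25) (nat_lit 5) (nat_lit 27) (nat_lit 5) (nat_lit 26) (nat_lit 5) (nat_lit 361) (nat_lit 261) (nat_lit 158)) (XT.lf (nat_lit 0) (nat_lit 5946315458) (nat_lit 152) (nat_lit 3590318065) (nat_lit 76) (nat_lit 21428512756) (nat_lit 25) (nat_lit 5) (nat_lit 27) (nat_lit 5) (nat_lit 26) (nat_lit 5) (nat_lit 362) (nat_lit 261) (nat_lit 157)))) (XT.nd (nat_lit 78) (nat_lit 0) (nat_lit 0) (XT.lf (nat_lit 0) (nat_lit 6515568962) (nat_lit 152) (nat_lit 3991067445) (nat_lit 228) (nat_lit 21210858554) (nat_lit 23) (nat_lit 5) (nat_lit 25) (nat_lit 5) (nat_lit 26) (nat_lit 5) (nat_lit 363) (nat_lit 261) (nat_lit 156)) (XT.nd (nat_lit 78) (nat_lit 0) (nat_lit 0) (XT.lf (nat_lit 0) (nat_lit 15242563330) (nat_lit 228)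 (nat_lit 15535278333) (nat_lit 76) (nat_lit 1713415085) (nat_lit 23) (nat_lit 5) (nat_lit 26) (nat_lit 5) (nat_lit 24) (nat_lit 4) (nat_lit 364) (nat_lit 261) (nat_lit 155)) (XT.lf (nat_lit 0) (nat_lit 20146142020) (nat_lit 228) (nat_lit 5642691909) (nat_lit 76) (nat_lit 7498636582) (nat_lit 23) (nat_lit 5) (nat_lit 26) (nat_lit 5) (nat_lit 24) (nat_lit 4) (nat_lit 365) (nat_lit 261) (nat_lit 154))))) (XT.nd (nat_lit 234) (nat_lit 152) (nat_lit 0) (XT.nd (nat_lit 78) (nat_lit 76) (nat_lit 0) (XT.lf (nat_lit 0) (nat_lit 4612855281) (nat_lit 76) (nat_lit 20614778882) (nat_lit 152) (nat_lit 8879018498) (nat_lit 22) (nat_lit 5) (nat_lit 23) (nat_lit 5) (nat_lit 24) (nat_lit 4) (nat_lit 366) (nat_lit 261) (nat_lit 153)) (XT.nd (nat_lit 78) (nat_lit 76) (nat_lit 0) (XT.lf (nat_lit 0) (nat_lit 15268141924) (nat_lit 76) (nat_lit 15237041192) (nat_lit 152) (nat_lit 4443924779) (nat_lit 22) (nat_lit 5)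 (nat_lit 23) (nat_lit 5) (nat_lit 24) (nat_lit 4) (nat_lit 367) (nat_lit 261) (nat_lit 152)) (XT.lf (nat_lit 0) (nat_lit 108684825) (nat_lit 152) (nat_lit 9598119658) (nat_lit 76) (nat_lit 26110395500) (nat_lit 21) (nat_lit 5) (nat_lit 23) (nat_lit 5) (nat_lit 22) (nat_lit 5) (nat_lit 368) (nat_lit 261) (nat_lit 151)))) (XT.nd (nat_lit 156) (nat_lit 0) (nat_lit 0) (XT.nd (nat_lit 78) (nat_lit 0) (nat_lit 0) (XT.lf (nat_lit 0) (nat_lit 735055451) (nat_lit 152) (nat_lit 3967833598) (nat_lit 228) (nat_lit 32007301234) (nat_lit 19) (nat_lit 5) (nat_lit 21) (nat_lit 5) (nat_lit 22) (nat_lit 5) (nat_lit 369) (nat_lit 261) (nat_lit 150)) (XT.lf (nat_lit 0) (nat_lit 9538813816) (nat_lit 228) (nat_lit 26094294207) (nat_lit 76) (nat_lit 1993750748) (nat_lit 19) (nat_lit 5) (nat_lit 22) (nat_lit 5) (nat_lit 20) (nat_lit 4) (nat_lit 370) (nat_lit 261) (nat_lit 149))) (XT.nd (nat_lit 78) (nat_lit 0) (nat_lit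 0) (XT.lf (nat_lit 0) (nat_lit 14546803118) (nat_lit 228) (nat_lit 15978226040) (nat_lit 76) (nat_lit 8045193709) (nat_lit 19) (nat_lit 5) (nat_lit 22) (nat_lit 5) (nat_lit 20) (nat_lit 4) (nat_lit 371) (nat_lit 261) (nat_lit 148)) (XT.lf (nat_lit 0) (nat_lit 19693091625) (nat_lit 228) (nat_lit 5579949805) (nat_lit 76) (nat_lit 14269209677) (nat_lit 19) (nat_lit 5) (nat_lit 22) (nat_lit 5) (nat_lit 20) (nat_lit 4) (nat_lit 372) (nat_lit 261) (nat_lit 147)))))) (XT.nd (nat_lit 468) (nat_lit 76) (nat_lit 0) (XT.nd (nat_lit 234) (nat_lit 228) (nat_lit 0) (XT.nd (nat_lit 78) (nat_lit 0) (nat_lit 0) (XT.lf (nat_lit 0) (nat_lit 5211311835) (nat_lit 76) (nat_lit 19820958575) (nat_lit 152) (nat_lit 15510019596) (nat_lit 18) (nat_lit 5) (nat_lit 19) (nat_lit 5) (nat_lit 20) (nat_lit 4) (nat_lit 373) (nat_lit 261) (nat_lit 146)) (XT.nd (nat_lit 78) (nat_lit 0) (nat_lit 0) (XT.lf (nat_lit 0) (nat_lit 16420242973)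 (nat_lit 76) (nat_lit 14156276501) (nat_lit 152) (nat_lit 10994468470) (nat_lit 18) (nat_lit 5) (nat_lit 19) (nat_lit 5) (nat_lit 20) (nat_lit 4) (nat_lit 374) (nat_lit 261) (nat_lit 145)) (XT.lf (nat_lit 0) (nat_lit 27945585877) (nat_lit 76) (nat_lit 8330392036) (nat_lit 152) (nat_lit 6354907031) (nat_lit 18) (nat_lit 5) (nat_lit 19) (nat_lit 5) (nat_lit 20) (nat_lit 4) (nat_lit 375) (nat_lit 261) (nat_lit 144)))) (XT.nd (nat_lit 78) (nat_lit 228) (nat_lit 0) (XT.lf (nat_lit 0) (nat_lit 39797411235) (nat_lit 76) (nat_lit 2338214603) (nat_lit 152) (nat_lit 1587281292) (nat_lit 18) (nat_lit 5) (nat_lit 19) (nat_lit 5) (nat_lit 20) (nat_lit 4) (nat_lit 376) (nat_lit 261) (nat_lit 143)) (XT.nd (nat_lit 78) (nat_lit 0) (nat_lit 0) (XT.lf (nat_lit 0) (nat_lit 3355381260) (nat_lit 228) (nat_lit 37635089780) (nat_lit 76) (nat_lit 3853358976) (nat_lit 15) (nat_lit 5) (nat_lit 18) (nat_lit 5) (nat_lit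 16) (nat_lit 4) (nat_lit 377) (nat_lit 261) (nat_lit 142)) (XT.lf (nat_lit 0) (nat_lit 8467064504) (nat_lit 228) (nat_lit 27297961758) (nat_lit 76) (nat_lit 10231307619) (nat_lit 15) (nat_lit 5) (nat_lit 18) (nat_lit 5) (nat_lit 16) (nat_lit 4) (nat_lit 378) (nat_lit 261) (nat_lit 141))))) (XT.nd (nat_lit 234) (nat_lit 0) (nat_lit 0) (XT.nd (nat_lit 78) (nat_lit 76) (nat_lit 0) (XT.lf (nat_lit 0) (nat_lit 13721865890) (nat_lit 228) (nat_lit 16669150833) (nat_lit 76) (nat_lit 16792707064) (nat_lit 15) (nat_lit 5) (nat_lit 18) (nat_lit 5) (nat_lit 16) (nat_lit 4) (nat_lit 379) (nat_lit 261) (nat_lit 140)) (XT.nd (nat_lit 78) (nat_lit 76) (nat_lit 0) (XT.lf (nat_lit 0) (nat_lit 19124376992) (nat_lit 228) (nat_lit 5739369694) (nat_lit 76) (nat_lit 23543290570) (nat_lit 15) (nat_lit 5) (nat_lit 18) (nat_lit 5) (nat_lit 16) (nat_lit 4) (nat_lit 380) (nat_lit 261) (nat_lit 139)) (XT.lf (nat_lit 0) (nat_lit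 5610411285) (nat_lit 76) (nat_lit 19122837869) (nat_lit 152) (nat_lit 24932476128) (nat_lit 14) (nat_lit 5) (nat_lit 15) (nat_lit 5) (nat_lit 16) (nat_lit 4) (nat_lit 381) (nat_lit 261) (nat_lit 138)))) (XT.nd (nat_lit 156) (nat_lit 0) (nat_lit 0) (XT.nd (nat_lit 78) (nat_lit 0) (nat_lit 0) (XT.lf (nat_lit 0) (nat_lit 17401134542) (nat_lit 76) (nat_lit 13157679902) (nat_lit 152) (nat_lit 20401910313) (nat_lit 14) (nat_lit 5) (nat_lit 15) (nat_lit 5) (nat_lit 16) (nat_lit 4) (nat_lit 382) (nat_lit 261) (nat_lit 137)) (XT.lf (nat_lit 0) (nat_lit 29528877941) (nat_lit 76) (nat_lit 7021016891) (nat_lit 152) (nat_lit 15744960452) (nat_lit 14) (nat_lit 5) (nat_lit 15) (nat_lit 5) (nat_lit 16) (nat_lit 4) (nat_lit 383) (nat_lit 261) (nat_lit 136))) (XT.nd (nat_lit 78) (nat_lit 0) (nat_lit 0) (XT.lf (nat_lit 0) (nat_lit 42004238538) (nat_lit 76) (nat_lit 707486704) (nat_lit 152) (nat_lit 10957557366)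 (nat_lit 14) (nat_lit 5) (nat_lit 15) (nat_lit 5) (nat_lit 16) (nat_lit 4) (nat_lit 384) (nat_lit 261) (nat_lit 135)) (XT.lf (nat_lit 0) (nat_lit 49105331703) (nat_lit 152) (nat_lit 302732455) (nat_lit 0) (nat_lit 5675474269) (nat_lit 14) (nat_lit 5) (nat_lit 16) (nat_lit 4) (nat_lit 14) (nat_lit 4) (nat_lit 385) (nat_lit 261) (nat_lit 134))))))) (XT.nd (nat_lit 1014) (nat_lit 152) (nat_lit 0) (XT.nd (nat_lit 468) (nat_lit 76) (nat_lit 0) (XT.nd (nat_lit 234) (nat_lit 76) (nat_lit 0) (XT.nd (nat_lit 78) (nat_lit 76) (nat_lit 0) (XT.lf (nat_lit 0) (nat_lit 11604411584) (nat_lit 76) (nat_lit 44196355996) (nat_lit 76) (nat_lit 736156918) (nat_lit 13) (nat_lit 4) (nat_lit 14) (nat_lit 5) (nat_lit 14) (nat_lit 4) (nat_lit 386) (nat_lit 261) (nat_lit 133)) (XT.nd (nat_lit 78) (nat_lit 0) (nat_lit 0) (XT.lf (nat_lit 0) (nat_lit 4566729090) (nat_lit 152) (nat_lit 34219196931) (nat_lit 76) (nat_lit 19246807316)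 (nat_lit 12) (nat_lit 5) (nat_lit 14) (nat_lit 5) (nat_lit 13) (nat_lit 4) (nat_lit 387) (nat_lit 261) (nat_lit 132)) (XT.lf (nat_lit 0) (nat_lit 10005636115) (nat_lit 152) (nat_lit 23206815582) (nat_lit 76) (nat_lit 26360997112) (nat_lit 12) (nat_lit 5) (nat_lit 14) (nat_lit 5) (nat_lit 13) (nat_lit 4) (nat_lit 388) (nat_lit 261) (nat_lit 131)))) (XT.nd (nat_lit 78) (nat_lit 76) (nat_lit 0) (XT.lf (nat_lit 0) (nat_lit 15599681671) (nat_lit 152) (nat_lit 11878670007) (nat_lit 76) (nat_lit 33682277783) (nat_lit 12) (nat_lit 5) (nat_lit 14) (nat_lit 5) (nat_lit 13) (nat_lit 4) (nat_lit 389) (nat_lit 261) (nat_lit 130)) (XT.nd (nat_lit 78) (nat_lit 76) (nat_lit 0) (XT.lf (nat_lit 0) (nat_lit 21353753759) (nat_lit 152) (nat_lit 224861826) (nat_lit 76) (nat_lit 41217046563) (nat_lit 12) (nat_lit 5) (nat_lit 14) (nat_lit 5) (nat_lit 13) (nat_lit 4) (nat_lit 390) (nat_lit 261) (nat_lit 129)) (XT.lf (nat_lit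 0) (nat_lit 11998934326) (nat_lit 76) (nat_lit 15389286980) (nat_lit 152) (nat_lit 37088294002) (nat_lit 11) (nat_lit 5) (nat_lit 12) (nat_lit 5) (nat_lit 13) (nat_lit 4) (nat_lit 391) (nat_lit 261) (nat_lit 128))))) (XT.nd (nat_lit 234) (nat_lit 76) (nat_lit 0) (XT.nd (nat_lit 78) (nat_lit 0) (nat_lit 0) (XT.lf (nat_lit 0) (nat_lit 24580420097) (nat_lit 76) (nat_lit 9018095013) (nat_lit 152) (nat_lit 32609437800) (nat_lit 11) (nat_lit 5) (nat_lit 12) (nat_lit 5) (nat_lit 13) (nat_lit 4) (nat_lit 392) (nat_lit 261) (nat_lit 127)) (XT.nd (nat_lit 78) (nat_lit 0) (nat_lit 0) (XT.lf (nat_lit 0) (nat_lit 37526113827) (nat_lit 76) (nat_lit 2461743285) (nat_lit 152) (nat_lit 28003696884) (nat_lit 11) (nat_lit 5) (nat_lit 12) (nat_lit 5) (nat_lit 13) (nat_lit 4) (nat_lit 393) (nat_lit 261) (nat_lit 126)) (XT.lf (nat_lit 0) (nat_lit 46603025052) (nat_lit 152) (nat_lit 19022744584) (nat_lit 0) (nat_lit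 4201871570) (nat_lit 11) (nat_lit 5) (nat_lit 13) (nat_lit 4) (nat_lit 11) (nat_lit 4) (nat_lit 394) (nat_lit 261) (nat_lit 125)))) (XT.nd (nat_lit 156) (nat_lit 0) (nat_lit 0) (XT.nd (nat_lit 78) (nat_lit 76) (nat_lit 0) (XT.lf (nat_lit 0) (nat_lit 53434123751) (nat_lit 152) (nat_lit 7273772166) (nat_lit 0) (nat_lit 11010393235) (nat_lit 11) (nat_lit 5) (nat_lit 13) (nat_lit 4) (nat_lit 11) (nat_lit 4) (nat_lit 395) (nat_lit 261) (nat_lit 124)) (XT.lf (nat_lit 0) (nat_lit 4911243001) (nat_lit 76) (nat_lit 55599425219) (nat_lit 76) (nat_lit 13153775253) (nat_lit 10) (nat_lit 4) (nat_lit 11) (nat_lit 5) (nat_lit 11) (nat_lit 4) (nat_lit 396) (nat_lit 261) (nat_lit 123))) (XT.nd (nat_lit 78) (nat_lit 0) (nat_lit 0) (XT.lf (nat_lit 0) (nat_lit 17598771579) (nat_lit 76) (nat_lit 50267569561) (nat_lit 76) (nat_lit 7800638576) (nat_lit 10) (nat_lit 4) (nat_lit 11) (nat_lit 5) (nat_lit 11) (nat_lit 4)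 (nat_lit 397) (nat_lit 261) (nat_lit 122)) (XT.lf (nat_lit 0) (nat_lit 30655137429) (nat_lit 76) (nat_lit 44781120876) (nat_lit 76) (nat_lit 2293528707) (nat_lit 10) (nat_lit 4) (nat_lit 11) (nat_lit 5) (nat_lit 11) (nat_lit 4) (nat_lit 398) (nat_lit 261) (nat_lit 121)))))) (XT.nd (nat_lit 546) (nat_lit 0) (nat_lit 0) (XT.nd (nat_lit 234) (nat_lit 76) (nat_lit 0) (XT.nd (nat_lit 78) (nat_lit 0) (nat_lit 0) (XT.lf (nat_lit 0) (nat_lit 3306559374) (nat_lit 152) (nat_lit 35795336039) (nat_lit 76) (nat_lit 40751799883) (nat_lit 9) (nat_lit 5) (nat_lit 11) (nat_lit 5) (nat_lit 10) (nat_lit 4) (nat_lit 399) (nat_lit 261) (nat_lit 120)) (XT.nd (nat_lit 78) (nat_lit 0) (nat_lit 0) (XT.lf (nat_lit 0) (nat_lit 9022433382) (nat_lit 152) (nat_lit 24211586950) (nat_lit 76) (nat_lit 48806804826) (nat_lit 9) (nat_lit 5) (nat_lit 11) (nat_lit 5) (nat_lit 10) (nat_lit 4) (nat_lit 400) (nat_lit 261) (nat_lit 119))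 (XT.lf (nat_lit 0) (nat_lit 14903842775) (nat_lit 152) (nat_lit 12291233793) (nat_lit 76) (nat_lit 57098672518) (nat_lit 9) (nat_lit 5) (nat_lit 11) (nat_lit 5) (nat_lit 10) (nat_lit 4) (nat_lit 401) (nat_lit 261) (nat_lit 118)))) (XT.nd (nat_lit 156) (nat_lit 0) (nat_lit 0) (XT.nd (nat_lit 78) (nat_lit 76) (nat_lit 0) (XT.lf (nat_lit 0) (nat_lit 20955926648) (nat_lit 152) (nat_lit 23860725) (nat_lit 76) (nat_lit 65634648279) (nat_lit 9) (nat_lit 5) (nat_lit 11) (nat_lit 5) (nat_lit 10) (nat_lit 4) (nat_lit 402) (nat_lit 261) (nat_lit 117)) (XT.lf (nat_lit 0) (nat_lit 12852040925) (nat_lit 76) (nat_lit 14455473983) (nat_lit 152) (nat_lit 61693691484) (nat_lit 8) (nat_lit 5) (nat_lit 9) (nat_lit 5) (nat_lit 10) (nat_lit 4) (nat_lit 403) (nat_lit 261) (nat_lit 116))) (XT.nd (nat_lit 78) (nat_lit 0) (nat_lit 0) (XT.lf (nat_lit 0) (nat_lit 26104527336) (nat_lit 76) (nat_lit 7739829852) (nat_lit 152)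 (nat_lit 57615383655) (nat_lit 8) (nat_lit 5) (nat_lit 9) (nat_lit 5) (nat_lit 10) (nat_lit 4) (nat_lit 404) (nat_lit 261) (nat_lit 115)) (XT.lf (nat_lit 0) (nat_lit 39744703474) (nat_lit 76) (nat_lit 827227887) (nat_lit 152) (nat_lit 53420262895) (nat_lit 8) (nat_lit 5) (nat_lit 9) (nat_lit 5) (nat_lit 10) (nat_lit 4) (nat_lit 405) (nat_lit 261) (nat_lit 114))))) (XT.nd (nat_lit 29406) (nat_lit 0) (nat_lit 22724) (XT.nd (nat_lit 78) (nat_lit 0) (nat_lit 0) (XT.lf (nat_lit 0) (nat_lit 47556563570) (nat_lit 152) (nat_lit 42876739194) (nat_lit 0) (nat_lit 6165663260) (nat_lit 8) (nat_lit 5) (nat_lit 10) (nat_lit 4) (nat_lit 8) (nat_lit 4) (nat_lit 406) (nat_lit 261) (nat_lit 113)) (XT.nd (nat_lit 78) (nat_lit 0) (nat_lit 0) (XT.lf (nat_lit 0) (nat_lit 54753819320) (nat_lit 152) (nat_lit 31182485566) (nat_lit 0) (nat_lit 13347545149) (nat_lit 8) (nat_lit 5) (nat_lit 10) (nat_lit 4) (nat_lit 8) (nat_lit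 4) (nat_lit 407) (nat_lit 261) (nat_lit 112)) (XT.lf (nat_lit 0) (nat_lit 62162035657) (nat_lit 152) (nat_lit 19146559797) (nat_lit 0) (nat_lit 20740835407) (nat_lit 8) (nat_lit 5) (nat_lit 10) (nat_lit 4) (nat_lit 8) (nat_lit 4) (nat_lit 408) (nat_lit 261) (nat_lit 111)))) (XT.nd (nat_lit 156) (nat_lit 0) (nat_lit 0) (XT.nd (nat_lit 78) (nat_lit 228) (nat_lit 0) (XT.lf (nat_lit 0) (nat_lit 2453457085) (nat_lit 228) (nat_lit 388211320) (nat_lit 228) (nat_lit 388211320) (nat_lit 310) (nat_lit 3) (nat_lit 313) (nat_lit 3) (nat_lit 313) (nat_lit 5) (nat_lit 262) (nat_lit 262) (nat_lit 256)) (XT.lf (nat_lit 0) (nat_lit 1148545546) (nat_lit 228) (nat_lit 4244092422) (nat_lit 304) (nat_lit 1077305758) (nat_lit 307) (nat_lit 5) (nat_lit 310) (nat_lit 3) (nat_lit 311) (nat_lit 5) (nat_lit 263) (nat_lit 262) (nat_lit 255))) (XT.nd (nat_lit 78) (nat_lit 0) (nat_lit 0) (XT.lf (nat_lit 0) (nat_lit 3802870111)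 (nat_lit 228) (nat_lit 1218115666) (nat_lit 304) (nat_lit 1462141205) (nat_lit 307) (nat_lit 5) (nat_lit 310) (nat_lit 3) (nat_lit 311) (nat_lit 5) (nat_lit 264) (nat_lit 262) (nat_lit 254)) (XT.lf (nat_lit 76) (nat_lit 1880407320) (nat_lit 0) (nat_lit 4572730279) (nat_lit 304) (nat_lit 46319301) (nat_lit 308) (nat_lit 5) (nat_lit 307) (nat_lit 5) (nat_lit 311) (nat_lit 5) (nat_lit 265) (nat_lit 262) (nat_lit 253))))))))
noncomputable def xc110 : XT := (XT.nd (nat_lit 2028) (nat_lit 6916) (nat_lit 0) (XT.nd (nat_lit 1014) (nat_lit 7296) (nat_lit 0) (XT.nd (nat_lit 468) (nat_lit 1672) (nat_lit 0) (XT.nd (nat_lit 234) (nat_lit 456) (nat_lit 0) (XT.nd (nat_lit 78) (nat_lit 380) (nat_lit 0) (XT.lf (nat_lit 0) (nat_lit 2526489413) (nat_lit 304) (nat_lit 1501422317) (nat_lit 380) (nat_lit 2490466076) (nat_lit 303) (nat_lit 5) (nat_lit 307) (nat_lit 5) (nat_lit 308) (nat_lit 5) (nat_lit 266) (nat_lit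 262) (nat_lit 252)) (XT.nd (nat_lit 78) (nat_lit 380) (nat_lit 0) (XT.lf (nat_lit 76) (nat_lit 1687232476) (nat_lit 0) (nat_lit 3406932146) (nat_lit 380) (nat_lit 1446349709) (nat_lit 304) (nat_lit 5) (nat_lit 303) (nat_lit 5) (nat_lit 308) (nat_lit 5) (nat_lit 267) (nat_lit 262) (nat_lit 251)) (XT.lf (nat_lit 0) (nat_lit 1071488548) (nat_lit 380) (nat_lit 1628540383) (nat_lit 456) (nat_lit 3865588342) (nat_lit 298) (nat_lit 5) (nat_lit 303) (nat_lit 5) (nat_lit 304) (nat_lit 5) (nat_lit 268) (nat_lit 262) (nat_lit 250)))) (XT.nd (nat_lit 78) (nat_lit 456) (nat_lit 0) (XT.lf (nat_lit 76) (nat_lit 1656030780) (nat_lit 0) (nat_lit 1902049848) (nat_lit 456) (nat_lit 3035495868) (nat_lit 299) (nat_lit 5) (nat_lit 298) (nat_lit 5) (nat_lit 304) (nat_lit 5) (nat_lit 269) (nat_lit 262) (nat_lit 249)) (XT.nd (nat_lit 78) (nat_lit 456) (nat_lit 0) (XT.lf (nat_lit 76) (nat_lit 5018153484) (nat_lit 0) (nat_lit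 1026136596) (nat_lit 456) (nat_lit 580529422) (nat_lit 299) (nat_lit 5) (nat_lit 298) (nat_lit 5) (nat_lit 304) (nat_lit 5) (nat_lit 270) (nat_lit 262) (nat_lit 248)) (XT.lf (nat_lit 76) (nat_lit 1785497740) (nat_lit 0) (nat_lit 51909789) (nat_lit 532) (nat_lit 4821394784) (nat_lit 293) (nat_lit 5) (nat_lit 292) (nat_lit 5) (nat_lit 299) (nat_lit 5) (nat_lit 271) (nat_lit 262) (nat_lit 247))))) (XT.nd (nat_lit 234) (nat_lit 1216) (nat_lit 0) (XT.nd (nat_lit 78) (nat_lit 532) (nat_lit 0) (XT.lf (nat_lit 0) (nat_lit 4254335818) (nat_lit 456) (nat_lit 1453365558) (nat_lit 76) (nat_lit 987966157) (nat_lit 293) (nat_lit 5) (nat_lit 299) (nat_lit 5) (nat_lit 294) (nat_lit 5) (nat_lit 272) (nat_lit 262) (nat_lit 246)) (XT.nd (nat_lit 78) (nat_lit 76) (nat_lit 0) (XT.lf (nat_lit 0) (nat_lit 2053036410) (nat_lit 456) (nat_lit 4626120137) (nat_lit 532) (nat_lit 56594410) (nat_lit 287) (nat_lit 5) (nat_lit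 293) (nat_lit 5) (nat_lit 294) (nat_lit 5) (nat_lit 273) (nat_lit 262) (nat_lit 245)) (XT.lf (nat_lit 0) (nat_lit 2283770876) (nat_lit 532) (nat_lit 1162357384) (nat_lit 76) (nat_lit 3332453047) (nat_lit 286) (nat_lit 5) (nat_lit 293) (nat_lit 5) (nat_lit 287) (nat_lit 5) (nat_lit 274) (nat_lit 262) (nat_lit 244)))) (XT.nd (nat_lit 156) (nat_lit 608) (nat_lit 0) (XT.nd (nat_lit 78) (nat_lit 76) (nat_lit 0) (XT.lf (nat_lit 0) (nat_lit 2455656980) (nat_lit 532) (nat_lit 2179692789) (nat_lit 608) (nat_lit 2189224821) (nat_lit 279) (nat_lit 5) (nat_lit 286) (nat_lit 5) (nat_lit 287) (nat_lit 5) (nat_lit 275) (nat_lit 262) (nat_lit 243)) (XT.lf (nat_lit 0) (nat_lit 113203230) (nat_lit 608) (nat_lit 723979003) (nat_lit 76) (nat_lit 6036922990) (nat_lit 278) (nat_lit 5) (nat_lit 286) (nat_lit 5) (nat_lit 279) (nat_lit 5) (nat_lit 276) (nat_lit 262) (nat_lit 242))) (XT.nd (nat_lit 78) (nat_lit 0) (nat_lit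 0) (XT.lf (nat_lit 0) (nat_lit 2397419403) (nat_lit 684) (nat_lit 3919523685) (nat_lit 76) (nat_lit 608972470) (nat_lit 270) (nat_lit 5) (nat_lit 279) (nat_lit 5) (nat_lit 271) (nat_lit 5) (nat_lit 277) (nat_lit 262) (nat_lit 241)) (XT.lf (nat_lit 0) (nat_lit 4689590270) (nat_lit 684) (nat_lit 180893563) (nat_lit 76) (nat_lit 2110754826) (nat_lit 270) (nat_lit 5) (nat_lit 279) (nat_lit 5) (nat_lit 271) (nat_lit 5) (nat_lit 278) (nat_lit 262) (nat_lit 240)))))) (XT.nd (nat_lit 468) (nat_lit 3952) (nat_lit 0) (XT.nd (nat_lit 234) (nat_lit 1824) (nat_lit 0) (XT.nd (nat_lit 78) (nat_lit 836) (nat_lit 0) (XT.lf (nat_lit 0) (nat_lit 3686506160) (nat_lit 684) (nat_lit 3325433873) (nat_lit 760) (nat_lit 27576195) (nat_lit 261) (nat_lit 5) (nat_lit 270) (nat_lit 5) (nat_lit 271) (nat_lit 5) (nat_lit 279) (nat_lit 262) (nat_lit 239)) (XT.nd (nat_lit 78) (nat_lit 0) (nat_lit 0) (XT.lf (nat_lit 0) (nat_lit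 505471850) (nat_lit 760) (nat_lit 1687441331) (nat_lit 836) (nat_lit 4908089837) (nat_lit 250) (nat_lit 5) (nat_lit 260) (nat_lit 5) (nat_lit 261) (nat_lit 5) (nat_lit 280) (nat_lit 262) (nat_lit 238)) (XT.lf (nat_lit 0) (nat_lit 4442161742) (nat_lit 836) (nat_lit 2673727510) (nat_lit 76) (nat_lit 49681552) (nat_lit 250) (nat_lit 5) (nat_lit 261) (nat_lit 5) (nat_lit 251) (nat_lit 5) (nat_lit 281) (nat_lit 262) (nat_lit 237)))) (XT.nd (nat_lit 78) (nat_lit 988) (nat_lit 0) (XT.lf (nat_lit 0) (nat_lit 1318196939) (nat_lit 836) (nat_lit 5400659441) (nat_lit 912) (nat_lit 514542074) (nat_lit 239) (nat_lit 5) (nat_lit 250) (nat_lit 5) (nat_lit 251) (nat_lit 5) (nat_lit 282) (nat_lit 262) (nat_lit 236)) (XT.nd (nat_lit 78) (nat_lit 912) (nat_lit 0) (XT.lf (nat_lit 0) (nat_lit 1684786972) (nat_lit 912) (nat_lit 1892431046) (nat_lit 76) (nat_lit 3726893547) (nat_lit 238) (nat_lit 5) (nat_lit 250) (nat_lit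 5) (nat_lit 239) (nat_lit 5) (nat_lit 283) (nat_lit 262) (nat_lit 235)) (XT.lf (nat_lit 0) (nat_lit 2233713121) (nat_lit 912) (nat_lit 1660799008) (nat_lit 988) (nat_lit 3483749912) (nat_lit 226) (nat_lit 5) (nat_lit 238) (nat_lit 5) (nat_lit 239) (nat_lit 5) (nat_lit 284) (nat_lit 262) (nat_lit 234))))) (XT.nd (nat_lit 234) (nat_lit 2888) (nat_lit 0) (XT.nd (nat_lit 78) (nat_lit 1064) (nat_lit 0) (XT.lf (nat_lit 0) (nat_lit 6127632667) (nat_lit 988) (nat_lit 992247741) (nat_lit 76) (nat_lit 336151812) (nat_lit 226) (nat_lit 5) (nat_lit 239) (nat_lit 5) (nat_lit 227) (nat_lit 5) (nat_lit 285) (nat_lit 262) (nat_lit 233)) (XT.nd (nat_lit 78) (nat_lit 0) (nat_lit 0) (XT.lf (nat_lit 0) (nat_lit 858589429) (nat_lit 1064) (nat_lit 4268753774) (nat_lit 76) (nat_lit 2409105960) (nat_lit 212) (nat_lit 5) (nat_lit 226) (nat_lit 5) (nat_lit 213) (nat_lit 5) (nat_lit 286) (nat_lit 262) (nat_lit 232)) (XT.lf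 (nat_lit 0) (nat_lit 3031900821) (nat_lit 1064) (nat_lit 13000482) (nat_lit 76) (nat_lit 4575659477) (nat_lit 212) (nat_lit 5) (nat_lit 226) (nat_lit 5) (nat_lit 213) (nat_lit 5) (nat_lit 287) (nat_lit 262) (nat_lit 231)))) (XT.nd (nat_lit 156) (nat_lit 684) (nat_lit 0) (XT.nd (nat_lit 78) (nat_lit 1140) (nat_lit 0) (XT.lf (nat_lit 0) (nat_lit 4401412129) (nat_lit 1064) (nat_lit 850428195) (nat_lit 1140) (nat_lit 2456008780) (nat_lit 198) (nat_lit 5) (nat_lit 212) (nat_lit 5) (nat_lit 213) (nat_lit 5) (nat_lit 288) (nat_lit 262) (nat_lit 230)) (XT.lf (nat_lit 0) (nat_lit 1102434645) (nat_lit 1140) (nat_lit 6400646824) (nat_lit 1216) (nat_lit 295826923) (nat_lit 183) (nat_lit 5) (nat_lit 198) (nat_lit 5) (nat_lit 199) (nat_lit 5) (nat_lit 289) (nat_lit 262) (nat_lit 229))) (XT.nd (nat_lit 78) (nat_lit 608) (nat_lit 0) (XT.lf (nat_lit 0) (nat_lit 1874608222) (nat_lit 1216) (nat_lit 2264648264) (nat_lit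 76) (nat_lit 3753481920) (nat_lit 182) (nat_lit 5) (nat_lit 198) (nat_lit 5) (nat_lit 183) (nat_lit 5) (nat_lit 290) (nat_lit 262) (nat_lit 228)) (XT.lf (nat_lit 0) (nat_lit 2286474076) (nat_lit 608) (nat_lit 1782388817) (nat_lit 684) (nat_lit 3921578480) (nat_lit 174) (nat_lit 5) (nat_lit 182) (nat_lit 5) (nat_lit 183) (nat_lit 5) (nat_lit 291) (nat_lit 262) (nat_lit 227))))))) (XT.nd (nat_lit 1014) (nat_lit 3116) (nat_lit 0) (XT.nd (nat_lit 468) (nat_lit 1976) (nat_lit 0) (XT.nd (nat_lit 234) (nat_lit 608) (nat_lit 0) (XT.nd (nat_lit 78) (nat_lit 1216) (nat_lit 0) (XT.lf (nat_lit 0) (nat_lit 6302071523) (nat_lit 684) (nat_lit 1132849995) (nat_lit 76) (nat_lit 657043121) (nat_lit 174) (nat_lit 5) (nat_lit 183) (nat_lit 5) (nat_lit 175) (nat_lit 5) (nat_lit 292) (nat_lit 262) (nat_lit 226)) (XT.nd (nat_lit 78) (nat_lit 532) (nat_lit 0) (XT.lf (nat_lit 0) (nat_lit 395175350) (nat_lit 684) (nat_lit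 4628035833) (nat_lit 76) (nat_lit 3173363149) (nat_lit 165) (nat_lit 5) (nat_lit 174) (nat_lit 5) (nat_lit 166) (nat_lit 5) (nat_lit 293) (nat_lit 262) (nat_lit 225)) (XT.lf (nat_lit 0) (nat_lit 57956924) (nat_lit 532) (nat_lit 2509898690) (nat_lit 608) (nat_lit 5737269964) (nat_lit 158) (nat_lit 5) (nat_lit 165) (nat_lit 5) (nat_lit 166) (nat_lit 5) (nat_lit 294) (nat_lit 262) (nat_lit 224)))) (XT.nd (nat_lit 78) (nat_lit 608) (nat_lit 0) (XT.lf (nat_lit 0) (nat_lit 4800622808) (nat_lit 608) (nat_lit 3494003859) (nat_lit 76) (nat_lit 122533243) (nat_lit 158) (nat_lit 5) (nat_lit 166) (nat_lit 5) (nat_lit 159) (nat_lit 5) (nat_lit 295) (nat_lit 262) (nat_lit 223)) (XT.nd (nat_lit 78) (nat_lit 76) (nat_lit 0) (XT.lf (nat_lit 0) (nat_lit 1348212056) (nat_lit 532) (nat_lit 5738468486) (nat_lit 608) (nat_lit 1446357101) (nat_lit 151) (nat_lit 5) (nat_lit 158) (nat_lit 5) (nat_lit 159) (nat_lit 5)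 (nat_lit 296) (nat_lit 262) (nat_lit 222)) (XT.lf (nat_lit 0) (nat_lit 758070729) (nat_lit 608) (nat_lit 2307495075) (nat_lit 76) (nat_lit 5587129765) (nat_lit 150) (nat_lit 5) (nat_lit 158) (nat_lit 5) (nat_lit 151) (nat_lit 5) (nat_lit 297) (nat_lit 262) (nat_lit 221))))) (XT.nd (nat_lit 234) (nat_lit 988) (nat_lit 0) (XT.nd (nat_lit 78) (nat_lit 532) (nat_lit 0) (XT.lf (nat_lit 0) (nat_lit 2700604425) (nat_lit 456) (nat_lit 275310021) (nat_lit 532) (nat_lit 5800374094) (nat_lit 144) (nat_lit 5) (nat_lit 150) (nat_lit 5) (nat_lit 151) (nat_lit 5) (nat_lit 298) (nat_lit 262) (nat_lit 220)) (XT.nd (nat_lit 78) (nat_lit 532) (nat_lit 0) (XT.lf (nat_lit 0) (nat_lit 5260084847) (nat_lit 532) (nat_lit 1076731321) (nat_lit 76) (nat_lit 2566843005) (nat_lit 144) (nat_lit 5) (nat_lit 151) (nat_lit 5) (nat_lit 145) (nat_lit 5) (nat_lit 299) (nat_lit 262) (nat_lit 219)) (XT.lf (nat_lit 0) (nat_lit 4096113758)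 (nat_lit 532) (nat_lit 3511465476) (nat_lit 608) (nat_lit 1427489485) (nat_lit 137) (nat_lit 5) (nat_lit 144) (nat_lit 5) (nat_lit 145) (nat_lit 5) (nat_lit 300) (nat_lit 262) (nat_lit 218)))) (XT.nd (nat_lit 156) (nat_lit 456) (nat_lit 0) (XT.nd (nat_lit 78) (nat_lit 0) (nat_lit 0) (XT.lf (nat_lit 0) (nat_lit 218303840) (nat_lit 456) (nat_lit 586218156) (nat_lit 532) (nat_lit 8366726293) (nat_lit 130) (nat_lit 5) (nat_lit 136) (nat_lit 5) (nat_lit 137) (nat_lit 5) (nat_lit 301) (nat_lit 262) (nat_lit 217)) (XT.lf (nat_lit 0) (nat_lit 3102336058) (nat_lit 532) (nat_lit 3771042453) (nat_lit 76) (nat_lit 2436941247) (nat_lit 130) (nat_lit 5) (nat_lit 137) (nat_lit 5) (nat_lit 131) (nat_lit 5) (nat_lit 302) (nat_lit 262) (nat_lit 216))) (XT.nd (nat_lit 78) (nat_lit 0) (nat_lit 0) (XT.lf (nat_lit 0) (nat_lit 1537510515) (nat_lit 456) (nat_lit 3907340223) (nat_lit 532) (nat_lit 4009494520) (nat_lit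 124) (nat_lit 5) (nat_lit 130) (nat_lit 5) (nat_lit 131) (nat_lit 5) (nat_lit 303) (nat_lit 262) (nat_lit 215)) (XT.lf (nat_lit 0) (nat_lit 7030138081) (nat_lit 456) (nat_lit 821566325) (nat_lit 532) (nat_lit 1751218486) (nat_lit 124) (nat_lit 5) (nat_lit 130) (nat_lit 5) (nat_lit 131) (nat_lit 5) (nat_lit 304) (nat_lit 262) (nat_lit 214)))))) (XT.nd (nat_lit 546) (nat_lit 1444) (nat_lit 0) (XT.nd (nat_lit 234) (nat_lit 836) (nat_lit 0) (XT.nd (nat_lit 78) (nat_lit 380) (nat_lit 0) (XT.lf (nat_lit 0) (nat_lit 571464596) (nat_lit 456) (nat_lit 6847801292) (nat_lit 76) (nat_lit 2336340165) (nat_lit 118) (nat_lit 5) (nat_lit 124) (nat_lit 5) (nat_lit 119) (nat_lit 5) (nat_lit 305) (nat_lit 262) (nat_lit 213)) (XT.nd (nat_lit 78) (nat_lit 380) (nat_lit 0) (XT.lf (nat_lit 0) (nat_lit 2920472793) (nat_lit 456) (nat_lit 1384863078) (nat_lit 76) (nat_lit 5607307155) (nat_lit 118) (nat_lit 5) (nat_lit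 124) (nat_lit 5) (nat_lit 119) (nat_lit 5) (nat_lit 306) (nat_lit 262) (nat_lit 212)) (XT.lf (nat_lit 0) (nat_lit 4274308279) (nat_lit 380) (nat_lit 1065439687) (nat_lit 456) (nat_lit 4734696575) (nat_lit 113) (nat_lit 5) (nat_lit 118) (nat_lit 5) (nat_lit 119) (nat_lit 5) (nat_lit 307) (nat_lit 262) (nat_lit 211)))) (XT.nd (nat_lit 156) (nat_lit 380) (nat_lit 0) (XT.nd (nat_lit 78) (nat_lit 456) (nat_lit 0) (XT.lf (nat_lit 0) (nat_lit 7826890844) (nat_lit 456) (nat_lit 182741146) (nat_lit 76) (nat_lit 2231655383) (nat_lit 113) (nat_lit 5) (nat_lit 119) (nat_lit 5) (nat_lit 114) (nat_lit 5) (nat_lit 308) (nat_lit 262) (nat_lit 210)) (XT.lf (nat_lit 0) (nat_lit 1598940) (nat_lit 456) (nat_lit 4759724168) (nat_lit 76) (nat_lit 5651094505) (nat_lit 107) (nat_lit 5) (nat_lit 113) (nat_lit 5) (nat_lit 108) (nat_lit 5) (nat_lit 309) (nat_lit 262) (nat_lit 209))) (XT.nd (nat_lit 78) (nat_lit 0) (nat_lit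 0) (XT.lf (nat_lit 0) (nat_lit 1023813097) (nat_lit 380) (nat_lit 1390199204) (nat_lit 456) (nat_lit 8174820416) (nat_lit 102) (nat_lit 5) (nat_lit 107) (nat_lit 5) (nat_lit 108) (nat_lit 5) (nat_lit 310) (nat_lit 262) (nat_lit 208)) (XT.lf (nat_lit 0) (nat_lit 4928663134) (nat_lit 456) (nat_lit 3762307010) (nat_lit 76) (nat_lit 2078715011) (nat_lit 102) (nat_lit 5) (nat_lit 108) (nat_lit 5) (nat_lit 103) (nat_lit 5) (nat_lit 311) (nat_lit 262) (nat_lit 207))))) (XT.nd (nat_lit 234) (nat_lit 684) (nat_lit 0) (XT.nd (nat_lit 78) (nat_lit 456) (nat_lit 0) (XT.lf (nat_lit 0) (nat_lit 2193877833) (nat_lit 304) (nat_lit 5322167045) (nat_lit 380) (nat_lit 3440039187) (nat_lit 98) (nat_lit 5) (nat_lit 102) (nat_lit 5) (nat_lit 103) (nat_lit 5) (nat_lit 312) (nat_lit 262) (nat_lit 206)) (XT.nd (nat_lit 78) (nat_lit 456) (nat_lit 0) (XT.lf (nat_lit 0) (nat_lit 8356703388) (nat_lit 304) (nat_lit 1825396152)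 (nat_lit 380) (nat_lit 965982345) (nat_lit 98) (nat_lit 5) (nat_lit 102) (nat_lit 5) (nat_lit 103) (nat_lit 5) (nat_lit 313) (nat_lit 262) (nat_lit 205)) (XT.lf (nat_lit 0) (nat_lit 1564893747) (nat_lit 456) (nat_lit 8002521436) (nat_lit 76) (nat_lit 1777600219) (nat_lit 92) (nat_lit 5) (nat_lit 98) (nat_lit 5) (nat_lit 93) (nat_lit 5) (nat_lit 314) (nat_lit 262) (nat_lit 204)))) (XT.nd (nat_lit 156) (nat_lit 380) (nat_lit 0) (XT.nd (nat_lit 78) (nat_lit 304) (nat_lit 0) (XT.lf (nat_lit 0) (nat_lit 4163039982) (nat_lit 456) (nat_lit 1906329725) (nat_lit 76) (nat_lit 5477912740) (nat_lit 92) (nat_lit 5) (nat_lit 98) (nat_lit 5) (nat_lit 93) (nat_lit 5) (nat_lit 315) (nat_lit 262) (nat_lit 203)) (XT.lf (nat_lit 0) (nat_lit 4411249375) (nat_lit 304) (nat_lit 2435546396) (nat_lit 380) (nat_lit 4908625973) (nat_lit 88) (nat_lit 5) (nat_lit 92) (nat_lit 5) (nat_lit 93) (nat_lit 5) (nat_lit 316) (nat_lit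 262) (nat_lit 202))) (XT.nd (nat_lit 78) (nat_lit 380) (nat_lit 0) (XT.lf (nat_lit 0) (nat_lit 9608767676) (nat_lit 380) (nat_lit 1072596611) (nat_lit 76) (nat_lit 1288543027) (nat_lit 88) (nat_lit 5) (nat_lit 93) (nat_lit 5) (nat_lit 89) (nat_lit 5) (nat_lit 317) (nat_lit 262) (nat_lit 201)) (XT.lf (nat_lit 0) (nat_lit 300967990) (nat_lit 380) (nat_lit 6770350391) (nat_lit 76) (nat_lit 5118164858) (nat_lit 83) (nat_lit 5) (nat_lit 88) (nat_lit 5) (nat_lit 84) (nat_lit 5) (nat_lit 318) (nat_lit 262) (nat_lit 200))))))))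
noncomputable def xc111 : XT := (XT.nd (nat_lit 2106) (nat_lit 1520) (nat_lit 0) (XT.nd (nat_lit 1014) (nat_lit 1368) (nat_lit 0) (XT.nd (nat_lit 468) (nat_lit 1064) (nat_lit 0) (XT.nd (nat_lit 234) (nat_lit 304) (nat_lit 0) (XT.nd (nat_lit 78) (nat_lit 608) (nat_lit 0) (XT.lf (nat_lit 0) (nat_lit 2973286770) (nat_lit 380) (nat_lit 358083660) (nat_lit 76) (nat_lit 9084270930) (nat_lit 83) (nat_lit 5) (nat_lit 88) (nat_lit 5) (nat_lit 84) (nat_lit 5) (nat_lit 319) (nat_lit 262) (nat_lit 199)) (XT.nd (nat_lit 78) (nat_lit 304) (nat_lit 0) (XT.lf (nat_lit 0) (nat_lit 5759880463) (nat_lit 380) (nat_lit 6328784004) (nat_lit 76) (nat_lit 558926095) (nat_lit 79) (nat_lit 5) (nat_lit 84) (nat_lit 5) (nat_lit 80) (nat_lit 5) (nat_lit 320) (nat_lit 262) (nat_lit 198)) (XT.lf (nat_lit 0) (nat_lit 242754616) (nat_lit 304) (nat_lit 8394492574) (nat_lit 380) (nat_lit 4249064430) (nat_lit 75) (nat_lit 5) (nat_lit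 79) (nat_lit 5) (nat_lit 80) (nat_lit 5) (nat_lit 321) (nat_lit 262) (nat_lit 197)))) (XT.nd (nat_lit 78) (nat_lit 304) (nat_lit 0) (XT.lf (nat_lit 0) (nat_lit 7095706608) (nat_lit 304) (nat_lit 4537831712) (nat_lit 380) (nat_lit 1497705693) (nat_lit 75) (nat_lit 5) (nat_lit 79) (nat_lit 5) (nat_lit 80) (nat_lit 5) (nat_lit 322) (nat_lit 262) (nat_lit 196)) (XT.nd (nat_lit 78) (nat_lit 0) (nat_lit 0) (XT.lf (nat_lit 0) (nat_lit 727290537) (nat_lit 228) (nat_lit 559099971) (nat_lit 304) (nat_lit 12097486628) (nat_lit 71) (nat_lit 5) (nat_lit 74) (nat_lit 5) (nat_lit 75) (nat_lit 5) (nat_lit 323) (nat_lit 262) (nat_lit 195)) (XT.lf (nat_lit 0) (nat_lit 4189089300) (nat_lit 304) (nat_lit 5920124642) (nat_lit 76) (nat_lit 3532500429) (nat_lit 71) (nat_lit 5) (nat_lit 75) (nat_lit 5) (nat_lit 72) (nat_lit 5) (nat_lit 324) (nat_lit 262) (nat_lit 194))))) (XT.nd (nat_lit 234) (nat_lit 532) (nat_lit 0)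 (XT.nd (nat_lit 78) (nat_lit 228) (nat_lit 0) (XT.lf (nat_lit 0) (nat_lit 988358129) (nat_lit 304) (nat_lit 6176044944) (nat_lit 380) (nat_lit 6743342332) (nat_lit 67) (nat_lit 5) (nat_lit 71) (nat_lit 5) (nat_lit 72) (nat_lit 5) (nat_lit 325) (nat_lit 262) (nat_lit 193)) (XT.nd (nat_lit 78) (nat_lit 228) (nat_lit 0) (XT.lf (nat_lit 0) (nat_lit 8182057955) (nat_lit 304) (nat_lit 2077639789) (nat_lit 380) (nat_lit 3921161968) (nat_lit 67) (nat_lit 5) (nat_lit 71) (nat_lit 5) (nat_lit 72) (nat_lit 5) (nat_lit 326) (nat_lit 262) (nat_lit 192)) (XT.lf (nat_lit 0) (nat_lit 1087142472) (nat_lit 228) (nat_lit 12363418255) (nat_lit 304) (nat_lit 1011548720) (nat_lit 64) (nat_lit 5) (nat_lit 67) (nat_lit 5) (nat_lit 68) (nat_lit 5) (nat_lit 327) (nat_lit 262) (nat_lit 191)))) (XT.nd (nat_lit 156) (nat_lit 228) (nat_lit 0) (XT.nd (nat_lit 78) (nat_lit 228) (nat_lit 0) (XT.lf (nat_lit 0) (nat_lit 2000129539)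 (nat_lit 304) (nat_lit 6324629383) (nat_lit 76) (nat_lit 6424881629) (nat_lit 63) (nat_lit 5) (nat_lit 67) (nat_lit 5) (nat_lit 64) (nat_lit 5) (nat_lit 328) (nat_lit 262) (nat_lit 190)) (XT.lf (nat_lit 0) (nat_lit 903048327) (nat_lit 228) (nat_lit 4160052946) (nat_lit 304) (nat_lit 9982978935) (nat_lit 60) (nat_lit 5) (nat_lit 63) (nat_lit 5) (nat_lit 64) (nat_lit 5) (nat_lit 329) (nat_lit 262) (nat_lit 189))) (XT.nd (nat_lit 78) (nat_lit 228) (nat_lit 0) (XT.lf (nat_lit 0) (nat_lit 8256562753) (nat_lit 304) (nat_lit 6916229718) (nat_lit 76) (nat_lit 177483257) (nat_lit 60) (nat_lit 5) (nat_lit 64) (nat_lit 5) (nat_lit 61) (nat_lit 5) (nat_lit 330) (nat_lit 262) (nat_lit 188)) (XT.lf (nat_lit 0) (nat_lit 454216663) (nat_lit 228) (nat_lit 11110813019) (nat_lit 304) (nat_lit 4098011469) (nat_lit 57) (nat_lit 5) (nat_lit 60) (nat_lit 5) (nat_lit 61) (nat_lit 5) (nat_lit 331) (nat_lit 262) (nat_lit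 187)))))) (XT.nd (nat_lit 546) (nat_lit 608) (nat_lit 0) (XT.nd (nat_lit 234) (nat_lit 456) (nat_lit 0) (XT.nd (nat_lit 78) (nat_lit 304) (nat_lit 0) (XT.lf (nat_lit 0) (nat_lit 8147118098) (nat_lit 228) (nat_lit 6869498525) (nat_lit 304) (nat_lit 967276433) (nat_lit 57) (nat_lit 5) (nat_lit 60) (nat_lit 5) (nat_lit 61) (nat_lit 5) (nat_lit 332) (nat_lit 262) (nat_lit 186)) (XT.nd (nat_lit 78) (nat_lit 228) (nat_lit 0) (XT.lf (nat_lit 0) (nat_lit 2187844960) (nat_lit 304) (nat_lit 305045442) (nat_lit 76) (nat_lit 13821612102) (nat_lit 56) (nat_lit 5) (nat_lit 60) (nat_lit 5) (nat_lit 57) (nat_lit 5) (nat_lit 333) (nat_lit 262) (nat_lit 185)) (XT.lf (nat_lit 0) (nat_lit 5486077156) (nat_lit 304) (nat_lit 9121576734) (nat_lit 76) (nat_lit 2045069928) (nat_lit 53) (nat_lit 5) (nat_lit 57) (nat_lit 5) (nat_lit 54) (nat_lit 5) (nat_lit 334) (nat_lit 262) (nat_lit 184)))) (XT.nd (nat_lit 156) (nat_lit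 304) (nat_lit 0) (XT.nd (nat_lit 78) (nat_lit 152) (nat_lit 0) (XT.lf (nat_lit 0) (nat_lit 8886525393) (nat_lit 304) (nat_lit 1455894104) (nat_lit 76) (nat_lit 6658591528) (nat_lit 53) (nat_lit 5) (nat_lit 57) (nat_lit 5) (nat_lit 54) (nat_lit 5) (nat_lit 335) (nat_lit 262) (nat_lit 183)) (XT.lf (nat_lit 0) (nat_lit 6529443141) (nat_lit 152) (nat_lit 5898499359) (nat_lit 228) (nat_lit 4930652508) (nat_lit 51) (nat_lit 5) (nat_lit 53) (nat_lit 5) (nat_lit 54) (nat_lit 5) (nat_lit 336) (nat_lit 262) (nat_lit 182))) (XT.nd (nat_lit 78) (nat_lit 304) (nat_lit 0) (XT.lf (nat_lit 0) (nat_lit 14746825979) (nat_lit 152) (nat_lit 1320002603) (nat_lit 228) (nat_lit 1660357466) (nat_lit 51) (nat_lit 5) (nat_lit 53) (nat_lit 5) (nat_lit 54) (nat_lit 5) (nat_lit 337) (nat_lit 262) (nat_lit 181)) (XT.lf (nat_lit 0) (nat_lit 1734364596) (nat_lit 304) (nat_lit 12987475547) (nat_lit 76) (nat_lit 3382728057) (nat_lit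 47) (nat_lit 5) (nat_lit 51) (nat_lit 5) (nat_lit 48) (nat_lit 5) (nat_lit 338) (nat_lit 262) (nat_lit 180))))) (XT.nd (nat_lit 234) (nat_lit 456) (nat_lit 0) (XT.nd (nat_lit 78) (nat_lit 152) (nat_lit 0) (XT.lf (nat_lit 0) (nat_lit 5218176884) (nat_lit 304) (nat_lit 5040561232) (nat_lit 76) (nat_lit 8233436870) (nat_lit 47) (nat_lit 5) (nat_lit 51) (nat_lit 5) (nat_lit 48) (nat_lit 5) (nat_lit 339) (nat_lit 262) (nat_lit 179)) (XT.nd (nat_lit 78) (nat_lit 0) (nat_lit 0) (XT.lf (nat_lit 0) (nat_lit 3170760447) (nat_lit 152) (nat_lit 5644044713) (nat_lit 228) (nat_lit 10076370276) (nat_lit 45) (nat_lit 5) (nat_lit 47) (nat_lit 5) (nat_lit 48) (nat_lit 5) (nat_lit 340) (nat_lit 262) (nat_lit 178)) (XT.lf (nat_lit 0) (nat_lit 11696227014) (nat_lit 152) (nat_lit 852131884) (nat_lit 228) (nat_lit 6752930291) (nat_lit 45) (nat_lit 5) (nat_lit 47) (nat_lit 5) (nat_lit 48) (nat_lit 5) (nat_lit 341) (nat_lit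 262) (nat_lit 177)))) (XT.nd (nat_lit 156) (nat_lit 152) (nat_lit 0) (XT.nd (nat_lit 78) (nat_lit 76) (nat_lit 0) (XT.lf (nat_lit 0) (nat_lit 693010778) (nat_lit 228) (nat_lit 15725460121) (nat_lit 304) (nat_lit 3304512583) (nat_lit 42) (nat_lit 5) (nat_lit 45) (nat_lit 5) (nat_lit 46) (nat_lit 5) (nat_lit 342) (nat_lit 262) (nat_lit 176)) (XT.lf (nat_lit 0) (nat_lit 307228198) (nat_lit 304) (nat_lit 10805781143) (nat_lit 76) (nat_lit 9042319903) (nat_lit 41) (nat_lit 5) (nat_lit 45) (nat_lit 5) (nat_lit 42) (nat_lit 5) (nat_lit 343) (nat_lit 262) (nat_lit 175))) (XT.nd (nat_lit 78) (nat_lit 152) (nat_lit 0) (XT.lf (nat_lit 0) (nat_lit 3940227906) (nat_lit 304) (nat_lit 2401662949) (nat_lit 76) (nat_lit 14258405778) (nat_lit 41) (nat_lit 5) (nat_lit 45) (nat_lit 5) (nat_lit 42) (nat_lit 5) (nat_lit 344) (nat_lit 262) (nat_lit 174)) (XT.lf (nat_lit 0) (nat_lit 6345310134) (nat_lit 152) (nat_lit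 1377828817) (nat_lit 228) (nat_lit 13334258604) (nat_lit 39) (nat_lit 5) (nat_lit 41) (nat_lit 5) (nat_lit 42) (nat_lit 5) (nat_lit 345) (nat_lit 262) (nat_lit 173))))))) (XT.nd (nat_lit 1014) (nat_lit 608) (nat_lit 0) (XT.nd (nat_lit 468) (nat_lit 532) (nat_lit 0) (XT.nd (nat_lit 234) (nat_lit 228) (nat_lit 0) (XT.nd (nat_lit 78) (nat_lit 152) (nat_lit 0) (XT.lf (nat_lit 0) (nat_lit 11660005614) (nat_lit 228) (nat_lit 6192949963) (nat_lit 76) (nat_lit 3674053678) (nat_lit 39) (nat_lit 5) (nat_lit 42) (nat_lit 5) (nat_lit 40) (nat_lit 5) (nat_lit 346) (nat_lit 262) (nat_lit 172)) (XT.nd (nat_lit 78) (nat_lit 0) (nat_lit 0) (XT.lf (nat_lit 0) (nat_lit 2586310853) (nat_lit 152) (nat_lit 13147822421) (nat_lit 228) (nat_lit 6276012839) (nat_lit 37) (nat_lit 5) (nat_lit 39) (nat_lit 5) (nat_lit 40) (nat_lit 5) (nat_lit 347) (nat_lit 262) (nat_lit 171)) (XT.lf (nat_lit 0) (nat_lit 11723938203) (nat_lit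 152) (nat_lit 8249991447) (nat_lit 228) (nat_lit 2532555198) (nat_lit 37) (nat_lit 5) (nat_lit 39) (nat_lit 5) (nat_lit 40) (nat_lit 5) (nat_lit 348) (nat_lit 262) (nat_lit 170)))) (XT.nd (nat_lit 78) (nat_lit 152) (nat_lit 0) (XT.lf (nat_lit 0) (nat_lit 1278655851) (nat_lit 228) (nat_lit 1926151883) (nat_lit 76) (nat_lit 19813096806) (nat_lit 36) (nat_lit 5) (nat_lit 39) (nat_lit 5) (nat_lit 37) (nat_lit 5) (nat_lit 349) (nat_lit 262) (nat_lit 169)) (XT.nd (nat_lit 78) (nat_lit 0) (nat_lit 0) (XT.lf (nat_lit 0) (nat_lit 5225089398) (nat_lit 228) (nat_lit 16279869901) (nat_lit 76) (nat_lit 2036811816) (nat_lit 34) (nat_lit 5) (nat_lit 37) (nat_lit 5) (nat_lit 35) (nat_lit 5) (nat_lit 350) (nat_lit 262) (nat_lit 168)) (XT.lf (nat_lit 0) (nat_lit 9323226935) (nat_lit 228) (nat_lit 7378242926) (nat_lit 76) (nat_lit 7378894377) (nat_lit 34) (nat_lit 5) (nat_lit 37) (nat_lit 5) (nat_lit 35) (nat_lit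 5) (nat_lit 351) (nat_lit 262) (nat_lit 167))))) (XT.nd (nat_lit 234) (nat_lit 380) (nat_lit 0) (XT.nd (nat_lit 78) (nat_lit 0) (nat_lit 0) (XT.lf (nat_lit 0) (nat_lit 1795736738) (nat_lit 152) (nat_lit 11748296957) (nat_lit 228) (nat_lit 11091099301) (nat_lit 32) (nat_lit 5) (nat_lit 34) (nat_lit 5) (nat_lit 35) (nat_lit 5) (nat_lit 352) (nat_lit 262) (nat_lit 166)) (XT.nd (nat_lit 78) (nat_lit 0) (nat_lit 0) (XT.lf (nat_lit 0) (nat_lit 11366736672) (nat_lit 152) (nat_lit 6581924874) (nat_lit 228) (nat_lit 7256176678) (nat_lit 32) (nat_lit 5) (nat_lit 34) (nat_lit 5) (nat_lit 35) (nat_lit 5) (nat_lit 353) (nat_lit 262) (nat_lit 165)) (XT.lf (nat_lit 0) (nat_lit 21196278384) (nat_lit 152) (nat_lit 1272345093) (nat_lit 228) (nat_lit 3323524317) (nat_lit 32) (nat_lit 5) (nat_lit 34) (nat_lit 5) (nat_lit 35) (nat_lit 5) (nat_lit 354) (nat_lit 262) (nat_lit 164)))) (XT.nd (nat_lit 156) (nat_lit 152)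 (nat_lit 0) (XT.nd (nat_lit 78) (nat_lit 0) (nat_lit 0) (XT.lf (nat_lit 0) (nat_lit 785132318) (nat_lit 228) (nat_lit 21450864125) (nat_lit 76) (nat_lit 4158712653) (nat_lit 29) (nat_lit 5) (nat_lit 32) (nat_lit 5) (nat_lit 30) (nat_lit 5) (nat_lit 355) (nat_lit 262) (nat_lit 163)) (XT.lf (nat_lit 0) (nat_lit 4993331704) (nat_lit 228) (nat_lit 12224158756) (nat_lit 76) (nat_lit 9795585390) (nat_lit 29) (nat_lit 5) (nat_lit 32) (nat_lit 5) (nat_lit 30) (nat_lit 5) (nat_lit 356) (nat_lit 262) (nat_lit 162))) (XT.nd (nat_lit 78) (nat_lit 152) (nat_lit 0) (XT.lf (nat_lit 0) (nat_lit 9311870620) (nat_lit 228) (nat_lit 2748033044) (nat_lit 76) (nat_lit 15590575169) (nat_lit 29) (nat_lit 5) (nat_lit 32) (nat_lit 5) (nat_lit 30) (nat_lit 5) (nat_lit 357) (nat_lit 262) (nat_lit 161)) (XT.lf (nat_lit 0) (nat_lit 7124824099) (nat_lit 152) (nat_lit 6688186616) (nat_lit 228) (nat_lit 14492409641) (nat_lit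 27) (nat_lit 5) (nat_lit 29) (nat_lit 5) (nat_lit 30) (nat_lit 5) (nat_lit 358) (nat_lit 262) (nat_lit 160)))))) (XT.nd (nat_lit 546) (nat_lit 304) (nat_lit 0) (XT.nd (nat_lit 234) (nat_lit 228) (nat_lit 0) (XT.nd (nat_lit 78) (nat_lit 76) (nat_lit 0) (XT.lf (nat_lit 0) (nat_lit 17323876243) (nat_lit 152) (nat_lit 1137812130) (nat_lit 228) (nat_lit 10517954223) (nat_lit 27) (nat_lit 5) (nat_lit 29) (nat_lit 5) (nat_lit 30) (nat_lit 5) (nat_lit 359) (nat_lit 262) (nat_lit 159)) (XT.nd (nat_lit 78) (nat_lit 76) (nat_lit 0) (XT.lf (nat_lit 0) (nat_lit 23278937531) (nat_lit 228) (nat_lit 1915112479) (nat_lit 76) (nat_lit 4479175512) (nat_lit 27) (nat_lit 5) (nat_lit 30) (nat_lit 5) (nat_lit 28) (nat_lit 4) (nat_lit 360) (nat_lit 262) (nat_lit 158)) (XT.lf (nat_lit 0) (nat_lit 8242180593) (nat_lit 76) (nat_lit 20074546377) (nat_lit 152) (nat_lit 2068615419) (nat_lit 26) (nat_lit 5) (nat_lit 27) (nat_lit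 5) (nat_lit 28) (nat_lit 4) (nat_lit 361) (nat_lit 262) (nat_lit 157)))) (XT.nd (nat_lit 156) (nat_lit 152) (nat_lit 0) (XT.nd (nat_lit 78) (nat_lit 0) (nat_lit 0) (XT.lf (nat_lit 0) (nat_lit 2345344389) (nat_lit 152) (nat_lit 12423124412) (nat_lit 76) (nat_lit 16349519601) (nat_lit 25) (nat_lit 5) (nat_lit 27) (nat_lit 5) (nat_lit 26) (nat_lit 5) (nat_lit 362) (nat_lit 262) (nat_lit 156)) (XT.lf (nat_lit 0) (nat_lit 6836128689) (nat_lit 152) (nat_lit 2456430434) (nat_lit 76) (nat_lit 22579867280) (nat_lit 25) (nat_lit 5) (nat_lit 27) (nat_lit 5) (nat_lit 26) (nat_lit 5) (nat_lit 363) (nat_lit 262) (nat_lit 155))) (XT.nd (nat_lit 78) (nat_lit 0) (nat_lit 0) (XT.lf (nat_lit 0) (nat_lit 7940460683) (nat_lit 152) (nat_lit 3583895486) (nat_lit 228) (nat_lit 21123266128) (nat_lit 23) (nat_lit 5) (nat_lit 25) (nat_lit 5) (nat_lit 26) (nat_lit 5) (nat_lit 364) (nat_lit 262) (nat_lit 154)) (XT.lf (nat_lit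 0) (nat_lit 16386816533) (nat_lit 228) (nat_lit 14791863633) (nat_lit 76) (nat_lit 2266392478) (nat_lit 23) (nat_lit 5) (nat_lit 26) (nat_lit 5) (nat_lit 24) (nat_lit 4) (nat_lit 365) (nat_lit 262) (nat_lit 153))))) (XT.nd (nat_lit 234) (nat_lit 228) (nat_lit 0) (XT.nd (nat_lit 78) (nat_lit 76) (nat_lit 0) (XT.lf (nat_lit 0) (nat_lit 21417493565) (nat_lit 228) (nat_lit 4637726987) (nat_lit 76) (nat_lit 8210561641) (nat_lit 23) (nat_lit 5) (nat_lit 26) (nat_lit 5) (nat_lit 24) (nat_lit 4) (nat_lit 366) (nat_lit 262) (nat_lit 152)) (XT.nd (nat_lit 78) (nat_lit 0) (nat_lit 0) (XT.lf (nat_lit 0) (nat_lit 5913974407) (nat_lit 76) (nat_lit 20729206740) (nat_lit 152) (nat_lit 8466614978) (nat_lit 22) (nat_lit 5) (nat_lit 23) (nat_lit 5) (nat_lit 24) (nat_lit 4) (nat_lit 367) (nat_lit 262) (nat_lit 151)) (XT.lf (nat_lit 0) (nat_lit 16855053625) (nat_lit 76) (nat_lit 15204816982) (nat_lit 152) (nat_lit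 3918238566) (nat_lit 22) (nat_lit 5) (nat_lit 23) (nat_lit 5) (nat_lit 24) (nat_lit 4) (nat_lit 368) (nat_lit 262) (nat_lit 150)))) (XT.nd (nat_lit 156) (nat_lit 0) (nat_lit 0) (XT.nd (nat_lit 78) (nat_lit 152) (nat_lit 0) (XT.lf (nat_lit 0) (nat_lit 739270045) (nat_lit 152) (nat_lit 8777320866) (nat_lit 76) (nat_lit 27356035750) (nat_lit 21) (nat_lit 5) (nat_lit 23) (nat_lit 5) (nat_lit 22) (nat_lit 5) (nat_lit 369) (nat_lit 262) (nat_lit 149)) (XT.lf (nat_lit 0) (nat_lit 1854979473) (nat_lit 152) (nat_lit 3608602752) (nat_lit 228) (nat_lit 32329063843) (nat_lit 19) (nat_lit 5) (nat_lit 21) (nat_lit 5) (nat_lit 22) (nat_lit 5) (nat_lit 370) (nat_lit 262) (nat_lit 148))) (XT.nd (nat_lit 78) (nat_lit 0) (nat_lit 0) (XT.lf (nat_lit 0) (nat_lit 10431001423) (nat_lit 228) (nat_lit 25797390123) (nat_lit 76) (nat_lit 2508838188) (nat_lit 19) (nat_lit 5) (nat_lit 22) (nat_lit 5) (nat_lit 20) (nat_lit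 4) (nat_lit 371) (nat_lit 262) (nat_lit 147)) (XT.lf (nat_lit 0) (nat_lit 15571579243) (nat_lit 228) (nat_lit 15409288442) (nat_lit 76) (nat_lit 8728564003) (nat_lit 19) (nat_lit 5) (nat_lit 22) (nat_lit 5) (nat_lit 20) (nat_lit 4) (nat_lit 372) (nat_lit 262) (nat_lit 146))))))))
noncomputable def xc112 : XT := (XT.nd (nat_lit 2028) (nat_lit 152) (nat_lit 0) (XT.nd (nat_lit 1014) (nat_lit 304) (nat_lit 0) (XT.nd (nat_lit 468) (nat_lit 76) (nat_lit 0) (XT.nd (nat_lit 234) (nat_lit 228) (nat_lit 0) (XT.nd (nat_lit 78) (nat_lit 76) (nat_lit 0) (XT.lf (nat_lit 0) (nat_lit 20855119355) (nat_lit 228) (nat_lit 4729596474) (nat_lit 76) (nat_lit 15126426242) (nat_lit 19) (nat_lit 5) (nat_lit 22) (nat_lit 5) (nat_lit 20) (nat_lit 4) (nat_lit 373) (nat_lit 262) (nat_lit 145)) (XT.nd (nat_lit 78) (nat_lit 0) (nat_lit 0) (XT.lf (nat_lit 0) (nat_lit 6375425056) (nat_lit 76) (nat_lit 19972097875) (nat_lit 152)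 (nat_lit 15393874700) (nat_lit 18) (nat_lit 5) (nat_lit 19) (nat_lit 5) (nat_lit 20) (nat_lit 4) (nat_lit 374) (nat_lit 262) (nat_lit 144)) (XT.lf (nat_lit 0) (nat_lit 17891271491) (nat_lit 76) (nat_lit 14150392507) (nat_lit 152) (nat_lit 10759792346) (nat_lit 18) (nat_lit 5) (nat_lit 19) (nat_lit 5) (nat_lit 20) (nat_lit 4) (nat_lit 375) (nat_lit 262) (nat_lit 143)))) (XT.nd (nat_lit 78) (nat_lit 228) (nat_lit 0) (XT.lf (nat_lit 0) (nat_lit 29733876976) (nat_lit 76) (nat_lit 8162272449) (nat_lit 152) (nat_lit 5997486108) (nat_lit 18) (nat_lit 5) (nat_lit 19) (nat_lit 5) (nat_lit 20) (nat_lit 4) (nat_lit 376) (nat_lit 262) (nat_lit 142)) (XT.nd (nat_lit 78) (nat_lit 228) (nat_lit 0) (XT.lf (nat_lit 0) (nat_lit 41913589420) (nat_lit 76) (nat_lit 2002505364) (nat_lit 152) (nat_lit 1102794746) (nat_lit 18) (nat_lit 5) (nat_lit 19) (nat_lit 5) (nat_lit 20) (nat_lit 4) (nat_lit 377) (nat_lit 262) (nat_lit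 141)) (XT.lf (nat_lit 0) (nat_lit 3975372573) (nat_lit 228) (nat_lit 37828704313) (nat_lit 76) (nat_lit 4369287542) (nat_lit 15) (nat_lit 5) (nat_lit 18) (nat_lit 5) (nat_lit 16) (nat_lit 4) (nat_lit 378) (nat_lit 262) (nat_lit 140))))) (XT.nd (nat_lit 234) (nat_lit 76) (nat_lit 0) (XT.nd (nat_lit 78) (nat_lit 0) (nat_lit 0) (XT.lf (nat_lit 0) (nat_lit 9225280203) (nat_lit 228) (nat_lit 27208708222) (nat_lit 76) (nat_lit 10926914611) (nat_lit 15) (nat_lit 5) (nat_lit 18) (nat_lit 5) (nat_lit 16) (nat_lit 4) (nat_lit 379) (nat_lit 262) (nat_lit 139)) (XT.nd (nat_lit 78) (nat_lit 0) (nat_lit 0) (XT.lf (nat_lit 0) (nat_lit 14623040084) (nat_lit 228) (nat_lit 16287485174) (nat_lit 76) (nat_lit 17673835618) (nat_lit 15) (nat_lit 5) (nat_lit 18) (nat_lit 5) (nat_lit 16) (nat_lit 4) (nat_lit 380) (nat_lit 262) (nat_lit 138)) (XT.lf (nat_lit 0) (nat_lit 20173368706) (nat_lit 228) (nat_lit 5055492353)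 (nat_lit 76) (nat_lit 24615945931) (nat_lit 15) (nat_lit 5) (nat_lit 18) (nat_lit 5) (nat_lit 16) (nat_lit 4) (nat_lit 381) (nat_lit 262) (nat_lit 137)))) (XT.nd (nat_lit 156) (nat_lit 0) (nat_lit 0) (XT.nd (nat_lit 78) (nat_lit 0) (nat_lit 0) (XT.lf (nat_lit 0) (nat_lit 6626389325) (nat_lit 76) (nat_lit 19318423453) (nat_lit 152) (nat_lit 25196619053) (nat_lit 14) (nat_lit 5) (nat_lit 15) (nat_lit 5) (nat_lit 16) (nat_lit 4) (nat_lit 382) (nat_lit 262) (nat_lit 136)) (XT.lf (nat_lit 0) (nat_lit 18746144988) (nat_lit 76) (nat_lit 13185323356) (nat_lit 152) (nat_lit 20544228439) (nat_lit 14) (nat_lit 5) (nat_lit 15) (nat_lit 5) (nat_lit 16) (nat_lit 4) (nat_lit 383) (nat_lit 262) (nat_lit 135))) (XT.nd (nat_lit 78) (nat_lit 0) (nat_lit 0) (XT.lf (nat_lit 0) (nat_lit 31213750502) (nat_lit 76) (nat_lit 6875252307) (nat_lit 152) (nat_lit 15761251806) (nat_lit 14) (nat_lit 5) (nat_lit 15) (nat_lit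 5) (nat_lit 16) (nat_lit 4) (nat_lit 384) (nat_lit 262) (nat_lit 134)) (XT.lf (nat_lit 0) (nat_lit 44040099891) (nat_lit 76) (nat_lit 382696654) (nat_lit 152) (nat_lit 10843509854) (nat_lit 14) (nat_lit 5) (nat_lit 15) (nat_lit 5) (nat_lit 16) (nat_lit 4) (nat_lit 385) (nat_lit 262) (nat_lit 133)))))) (XT.nd (nat_lit 468) (nat_lit 76) (nat_lit 0) (XT.nd (nat_lit 234) (nat_lit 76) (nat_lit 0) (XT.nd (nat_lit 78) (nat_lit 76) (nat_lit 0) (XT.lf (nat_lit 0) (nat_lit 459742016) (nat_lit 76) (nat_lit 50543601629) (nat_lit 76) (nat_lit 5719797025) (nat_lit 13) (nat_lit 4) (nat_lit 14) (nat_lit 5) (nat_lit 14) (nat_lit 4) (nat_lit 386) (nat_lit 262) (nat_lit 132)) (XT.nd (nat_lit 78) (nat_lit 76) (nat_lit 0) (XT.lf (nat_lit 0) (nat_lit 12707652828) (nat_lit 76) (nat_lit 45182583406) (nat_lit 76) (nat_lit 330178892) (nat_lit 13) (nat_lit 4) (nat_lit 14) (nat_lit 5) (nat_lit 14) (nat_lit 4) (nat_lit 387)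 (nat_lit 262) (nat_lit 131)) (XT.lf (nat_lit 0) (nat_lit 5111216097) (nat_lit 152) (nat_lit 34504402739) (nat_lit 76) (nat_lit 20145727034) (nat_lit 12) (nat_lit 5) (nat_lit 14) (nat_lit 5) (nat_lit 13) (nat_lit 4) (nat_lit 388) (nat_lit 262) (nat_lit 130)))) (XT.nd (nat_lit 78) (nat_lit 76) (nat_lit 0) (XT.lf (nat_lit 0) (nat_lit 10701421833) (nat_lit 152) (nat_lit 23183243253) (nat_lit 76) (nat_lit 27463977995) (nat_lit 12) (nat_lit 5) (nat_lit 14) (nat_lit 5) (nat_lit 13) (nat_lit 4) (nat_lit 389) (nat_lit 262) (nat_lit 129)) (XT.nd (nat_lit 78) (nat_lit 76) (nat_lit 0) (XT.lf (nat_lit 0) (nat_lit 16451765941) (nat_lit 152) (nat_lit 11536217683) (nat_lit 76) (nat_lit 34995805310) (nat_lit 12) (nat_lit 5) (nat_lit 14) (nat_lit 5) (nat_lit 13) (nat_lit 4) (nat_lit 390) (nat_lit 262) (nat_lit 128)) (XT.lf (nat_lit 0) (nat_lit 455744193) (nat_lit 76) (nat_lit 21915909692) (nat_lit 152) (nat_lit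 42296426886) (nat_lit 11) (nat_lit 5) (nat_lit 12) (nat_lit 5) (nat_lit 13) (nat_lit 4) (nat_lit 391) (nat_lit 262) (nat_lit 127))))) (XT.nd (nat_lit 234) (nat_lit 76) (nat_lit 0) (XT.nd (nat_lit 78) (nat_lit 0) (nat_lit 0) (XT.lf (nat_lit 0) (nat_lit 13030709464) (nat_lit 76) (nat_lit 15547661566) (nat_lit 152) (nat_lit 37821255892) (nat_lit 11) (nat_lit 5) (nat_lit 12) (nat_lit 5) (nat_lit 13) (nat_lit 4) (nat_lit 392) (nat_lit 262) (nat_lit 126)) (XT.nd (nat_lit 78) (nat_lit 0) (nat_lit 0) (XT.lf (nat_lit 0) (nat_lit 25970072611) (nat_lit 76) (nat_lit 8994167937) (nat_lit 152) (nat_lit 33219092846) (nat_lit 11) (nat_lit 5) (nat_lit 12) (nat_lit 5) (nat_lit 13) (nat_lit 4) (nat_lit 393) (nat_lit 262) (nat_lit 125)) (XT.lf (nat_lit 0) (nat_lit 39285139873) (nat_lit 76) (nat_lit 2249702452) (nat_lit 152) (nat_lit 28485916443) (nat_lit 11) (nat_lit 5) (nat_lit 12) (nat_lit 5) (nat_lit 13) (nat_lit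 4) (nat_lit 394) (nat_lit 262) (nat_lit 124)))) (XT.nd (nat_lit 156) (nat_lit 76) (nat_lit 0) (XT.nd (nat_lit 78) (nat_lit 0) (nat_lit 0) (XT.lf (nat_lit 0) (nat_lit 48341016463) (nat_lit 152) (nat_lit 18971061583) (nat_lit 0) (nat_lit 4600077549) (nat_lit 11) (nat_lit 5) (nat_lit 13) (nat_lit 4) (nat_lit 11) (nat_lit 4) (nat_lit 395) (nat_lit 262) (nat_lit 123)) (XT.lf (nat_lit 0) (nat_lit 55367148104) (nat_lit 152) (nat_lit 6887747137) (nat_lit 0) (nat_lit 11604928170) (nat_lit 11) (nat_lit 5) (nat_lit 13) (nat_lit 4) (nat_lit 11) (nat_lit 4) (nat_lit 396) (nat_lit 262) (nat_lit 122))) (XT.nd (nat_lit 78) (nat_lit 0) (nat_lit 0) (XT.lf (nat_lit 0) (nat_lit 5656894581) (nat_lit 76) (nat_lit 56995234020) (nat_lit 76) (nat_lit 13212352903) (nat_lit 10) (nat_lit 4) (nat_lit 11) (nat_lit 5) (nat_lit 11) (nat_lit 4) (nat_lit 397) (nat_lit 262) (nat_lit 121)) (XT.lf (nat_lit 0) (nat_lit 18707622386)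 (nat_lit 76) (nat_lit 51511350089) (nat_lit 76) (nat_lit 7708409570) (nat_lit 10) (nat_lit 4) (nat_lit 11) (nat_lit 5) (nat_lit 11) (nat_lit 4) (nat_lit 398) (nat_lit 262) (nat_lit 120))))))) (XT.nd (nat_lit 30264) (nat_lit 0) (nat_lit 19152) (XT.nd (nat_lit 468) (nat_lit 0) (nat_lit 0) (XT.nd (nat_lit 234) (nat_lit 76) (nat_lit 0) (XT.nd (nat_lit 78) (nat_lit 76) (nat_lit 0) (XT.lf (nat_lit 0) (nat_lit 32138760153) (nat_lit 76) (nat_lit 45868004445) (nat_lit 76) (nat_lit 2045588779) (nat_lit 10) (nat_lit 4) (nat_lit 11) (nat_lit 5) (nat_lit 11) (nat_lit 4) (nat_lit 399) (nat_lit 262) (nat_lit 119)) (XT.nd (nat_lit 78) (nat_lit 0) (nat_lit 0) (XT.lf (nat_lit 0) (nat_lit 3707275513) (nat_lit 152) (nat_lit 36315554283) (nat_lit 76) (nat_lit 42217332100) (nat_lit 9) (nat_lit 5) (nat_lit 11) (nat_lit 5) (nat_lit 10) (nat_lit 4) (nat_lit 400) (nat_lit 262) (nat_lit 118)) (XT.lf (nat_lit 0) (nat_lit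 9585843624) (nat_lit 152) (nat_lit 24400418212) (nat_lit 76) (nat_lit 50506910155) (nat_lit 9) (nat_lit 5) (nat_lit 11) (nat_lit 5) (nat_lit 10) (nat_lit 4) (nat_lit 401) (nat_lit 262) (nat_lit 117)))) (XT.nd (nat_lit 78) (nat_lit 76) (nat_lit 0) (XT.lf (nat_lit 0) (nat_lit 15635168971) (nat_lit 152) (nat_lit 12138110276) (nat_lit 76) (nat_lit 59040662969) (nat_lit 9) (nat_lit 5) (nat_lit 11) (nat_lit 5) (nat_lit 10) (nat_lit 4) (nat_lit 402) (nat_lit 262) (nat_lit 116)) (XT.nd (nat_lit 78) (nat_lit 0) (nat_lit 0) (XT.lf (nat_lit 0) (nat_lit 491678581) (nat_lit 76) (nat_lit 21373585106) (nat_lit 152) (nat_lit 67339094952) (nat_lit 8) (nat_lit 5) (nat_lit 9) (nat_lit 5) (nat_lit 10) (nat_lit 4) (nat_lit 403) (nat_lit 262) (nat_lit 115)) (XT.lf (nat_lit 0) (nat_lit 13739295600) (nat_lit 76) (nat_lit 14660163384) (nat_lit 152) (nat_lit 63263514366) (nat_lit 8) (nat_lit 5) (nat_lit 9) (nat_lit 5)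 (nat_lit 10) (nat_lit 4) (nat_lit 404) (nat_lit 262) (nat_lit 114))))) (XT.nd (nat_lit 234) (nat_lit 0) (nat_lit 0) (XT.nd (nat_lit 78) (nat_lit 0) (nat_lit 0) (XT.lf (nat_lit 0) (nat_lit 27374744173) (nat_lit 76) (nat_lit 7749719098) (nat_lit 152) (nat_lit 59071041415) (nat_lit 8) (nat_lit 5) (nat_lit 9) (nat_lit 5) (nat_lit 10) (nat_lit 4) (nat_lit 405) (nat_lit 262) (nat_lit 113)) (XT.nd (nat_lit 78) (nat_lit 0) (nat_lit 0) (XT.lf (nat_lit 0) (nat_lit 41409938769) (nat_lit 76) (nat_lit 636213996) (nat_lit 152) (nat_lit 54758012772) (nat_lit 8) (nat_lit 5) (nat_lit 9) (nat_lit 5) (nat_lit 10) (nat_lit 4) (nat_lit 406) (nat_lit 262) (nat_lit 112)) (XT.lf (nat_lit 0) (nat_lit 49234850924) (nat_lit 152) (nat_lit 43698367545) (nat_lit 0) (nat_lit 6556088587) (nat_lit 8) (nat_lit 5) (nat_lit 10) (nat_lit 4) (nat_lit 8) (nat_lit 4) (nat_lit 407) (nat_lit 262) (nat_lit 111)))) (XT.nd (nat_lit 29406)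 (nat_lit 0) (nat_lit 22344) (XT.nd (nat_lit 29328) (nat_lit 0) (nat_lit 22724) (XT.lf (nat_lit 0) (nat_lit 56640696470) (nat_lit 152) (nat_lit 31666820497) (nat_lit 0) (nat_lit 13947442795) (nat_lit 8) (nat_lit 5) (nat_lit 10) (nat_lit 4) (nat_lit 8) (nat_lit 4) (nat_lit 408) (nat_lit 262) (nat_lit 110)) (XT.lf (nat_lit 0) (nat_lit 940426559) (nat_lit 0) (nat_lit 940426559) (nat_lit 228) (nat_lit 1359916933) (nat_lit 307) (nat_lit 5) (nat_lit 307) (nat_lit 3) (nat_lit 310) (nat_lit 3) (nat_lit 263) (nat_lit 263) (nat_lit 254))) (XT.nd (nat_lit 78) (nat_lit 380) (nat_lit 0) (XT.lf (nat_lit 0) (nat_lit 4898713525) (nat_lit 0) (nat_lit 1463173002) (nat_lit 228) (nat_lit 134579665) (nat_lit 307) (nat_lit 5) (nat_lit 307) (nat_lit 3) (nat_lit 310) (nat_lit 3) (nat_lit 264) (nat_lit 263) (nat_lit 253)) (XT.lf (nat_lit 76) (nat_lit 1447345217) (nat_lit 0) (nat_lit 944977240) (nat_lit 380) (nat_lit 4121612511)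 (nat_lit 303) (nat_lit 5) (nat_lit 302) (nat_lit 3) (nat_lit 307) (nat_lit 5) (nat_lit 265) (nat_lit 263) (nat_lit 252)))))) (XT.nd (nat_lit 546) (nat_lit 2432) (nat_lit 0) (XT.nd (nat_lit 234) (nat_lit 456) (nat_lit 0) (XT.nd (nat_lit 78) (nat_lit 304) (nat_lit 0) (XT.lf (nat_lit 76) (nat_lit 4563833421) (nat_lit 0) (nat_lit 346560012) (nat_lit 380) (nat_lit 1624172546) (nat_lit 303) (nat_lit 5) (nat_lit 302) (nat_lit 3) (nat_lit 307) (nat_lit 5) (nat_lit 266) (nat_lit 263) (nat_lit 251)) (XT.nd (nat_lit 78) (nat_lit 0) (nat_lit 0) (XT.lf (nat_lit 0) (nat_lit 847902181) (nat_lit 380) (nat_lit 5381597741) (nat_lit 456) (nat_lit 328703644) (nat_lit 298) (nat_lit 5) (nat_lit 303) (nat_lit 5) (nat_lit 304) (nat_lit 5) (nat_lit 267) (nat_lit 263) (nat_lit 250)) (XT.lf (nat_lit 0) (nat_lit 3291393839) (nat_lit 380) (nat_lit 2197807439) (nat_lit 456) (nat_lit 1095171073) (nat_lit 298) (nat_lit 5) (nat_lit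 303) (nat_lit 5) (nat_lit 304) (nat_lit 5) (nat_lit 268) (nat_lit 263) (nat_lit 249)))) (XT.nd (nat_lit 156) (nat_lit 0) (nat_lit 0) (XT.nd (nat_lit 78) (nat_lit 456) (nat_lit 0) (XT.lf (nat_lit 76) (nat_lit 1048651397) (nat_lit 0) (nat_lit 4678716302) (nat_lit 456) (nat_lit 886578774) (nat_lit 299) (nat_lit 5) (nat_lit 298) (nat_lit 5) (nat_lit 304) (nat_lit 5) (nat_lit 269) (nat_lit 263) (nat_lit 248)) (XT.lf (nat_lit 0) (nat_lit 1493532725) (nat_lit 456) (nat_lit 2276465881) (nat_lit 532) (nat_lit 2876156909) (nat_lit 292) (nat_lit 5) (nat_lit 298) (nat_lit 5) (nat_lit 299) (nat_lit 5) (nat_lit 270) (nat_lit 263) (nat_lit 247))) (XT.nd (nat_lit 78) (nat_lit 0) (nat_lit 0) (XT.lf (nat_lit 76) (nat_lit 1069966336) (nat_lit 0) (nat_lit 2780335778) (nat_lit 532) (nat_lit 2831252155) (nat_lit 293) (nat_lit 5) (nat_lit 292) (nat_lit 5) (nat_lit 299) (nat_lit 5) (nat_lit 271) (nat_lit 263) (nat_lit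 246)) (XT.lf (nat_lit 76) (nat_lit 4510815299) (nat_lit 0) (nat_lit 1704769969) (nat_lit 532) (nat_lit 504469184) (nat_lit 293) (nat_lit 5) (nat_lit 292) (nat_lit 5) (nat_lit 299) (nat_lit 5) (nat_lit 272) (nat_lit 263) (nat_lit 245))))) (XT.nd (nat_lit 234) (nat_lit 1444) (nat_lit 0) (XT.nd (nat_lit 78) (nat_lit 456) (nat_lit 0) (XT.lf (nat_lit 76) (nat_lit 1248415476) (nat_lit 0) (nat_lit 535099831) (nat_lit 608) (nat_lit 4977962897) (nat_lit 286) (nat_lit 5) (nat_lit 285) (nat_lit 5) (nat_lit 293) (nat_lit 5) (nat_lit 273) (nat_lit 263) (nat_lit 244)) (XT.nd (nat_lit 78) (nat_lit 532) (nat_lit 0) (XT.lf (nat_lit 0) (nat_lit 4077501917) (nat_lit 532) (nat_lit 2015353111) (nat_lit 76) (nat_lit 712873777) (nat_lit 286) (nat_lit 5) (nat_lit 293) (nat_lit 5) (nat_lit 287) (nat_lit 5) (nat_lit 274) (nat_lit 263) (nat_lit 243)) (XT.lf (nat_lit 0) (nat_lit 1558704861) (nat_lit 532) (nat_lit 4822792141)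 (nat_lit 608) (nat_lit 471728664) (nat_lit 279) (nat_lit 5) (nat_lit 286) (nat_lit 5) (nat_lit 287) (nat_lit 5) (nat_lit 275) (nat_lit 263) (nat_lit 242)))) (XT.nd (nat_lit 156) (nat_lit 760) (nat_lit 0) (XT.nd (nat_lit 78) (nat_lit 608) (nat_lit 0) (XT.lf (nat_lit 0) (nat_lit 1758656685) (nat_lit 608) (nat_lit 1693124580) (nat_lit 76) (nat_lit 3451707287) (nat_lit 278) (nat_lit 5) (nat_lit 286) (nat_lit 5) (nat_lit 279) (nat_lit 5) (nat_lit 276) (nat_lit 263) (nat_lit 241)) (XT.lf (nat_lit 0) (nat_lit 1997340096) (nat_lit 608) (nat_lit 1992397720) (nat_lit 684) (nat_lit 2967224727) (nat_lit 270) (nat_lit 5) (nat_lit 278) (nat_lit 5) (nat_lit 279) (nat_lit 5) (nat_lit 277) (nat_lit 263) (nat_lit 240))) (XT.nd (nat_lit 78) (nat_lit 760) (nat_lit 0) (XT.lf (nat_lit 0) (nat_lit 5780470288) (nat_lit 608) (nat_lit 450148733) (nat_lit 684) (nat_lit 783272894) (nat_lit 270) (nat_lit 5) (nat_lit 278)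 (nat_lit 5) (nat_lit 279) (nat_lit 5) (nat_lit 278) (nat_lit 263) (nat_lit 239)) (XT.lf (nat_lit 0) (nat_lit 1401076014) (nat_lit 760) (nat_lit 4497022300) (nat_lit 76) (nat_lit 1175232668) (nat_lit 260) (nat_lit 5) (nat_lit 270) (nat_lit 5) (nat_lit 261) (nat_lit 5) (nat_lit 279) (nat_lit 263) (nat_lit 238))))))))
noncomputable def xc113 : XT := (XT.nd (nat_lit 2028) (nat_lit 5016) (nat_lit 0) (XT.nd (nat_lit 1014) (nat_lit 3876) (nat_lit 0) (XT.nd (nat_lit 468) (nat_lit 3952) (nat_lit 0) (XT.nd (nat_lit 234) (nat_lit 912) (nat_lit 0) (XT.nd (nat_lit 78) (nat_lit 1672) (nat_lit 0) (XT.lf (nat_lit 0) (nat_lit 3581139849) (nat_lit 760) (nat_lit 675629128) (nat_lit 76) (nat_lit 2879299311) (nat_lit 260) (nat_lit 5) (nat_lit 270) (nat_lit 5) (nat_lit 261) (nat_lit 5) (nat_lit 280) (nat_lit 263) (nat_lit 237)) (XT.nd (nat_lit 78) (nat_lit 912) (nat_lit 0) (XT.lf (nat_lit 0) (nat_lit 3271101881) (nat_lit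 760) (nat_lit 2517910746) (nat_lit 836) (nat_lit 1412924765) (nat_lit 250) (nat_lit 5) (nat_lit 260) (nat_lit 5) (nat_lit 261) (nat_lit 5) (nat_lit 281) (nat_lit 263) (nat_lit 236)) (XT.lf (nat_lit 0) (nat_lit 19097176) (nat_lit 836) (nat_lit 697518150) (nat_lit 912) (nat_lit 6554890637) (nat_lit 238) (nat_lit 5) (nat_lit 249) (nat_lit 5) (nat_lit 250) (nat_lit 5) (nat_lit 282) (nat_lit 263) (nat_lit 235)))) (XT.nd (nat_lit 78) (nat_lit 912) (nat_lit 0) (XT.lf (nat_lit 0) (nat_lit 2866334896) (nat_lit 912) (nat_lit 3255368468) (nat_lit 76) (nat_lit 1221609343) (nat_lit 238) (nat_lit 5) (nat_lit 250) (nat_lit 5) (nat_lit 239) (nat_lit 5) (nat_lit 283) (nat_lit 263) (nat_lit 234)) (XT.nd (nat_lit 78) (nat_lit 0) (nat_lit 0) (XT.lf (nat_lit 0) (nat_lit 816431044) (nat_lit 912) (nat_lit 4214098491) (nat_lit 988) (nat_lit 2388352912) (nat_lit 226) (nat_lit 5) (nat_lit 238) (nat_lit 5) (nat_lit 239)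 (nat_lit 5) (nat_lit 284) (nat_lit 263) (nat_lit 233)) (XT.lf (nat_lit 0) (nat_lit 5023470150) (nat_lit 912) (nat_lit 2205652874) (nat_lit 988) (nat_lit 268617208) (nat_lit 226) (nat_lit 5) (nat_lit 238) (nat_lit 5) (nat_lit 239) (nat_lit 5) (nat_lit 285) (nat_lit 263) (nat_lit 232))))) (XT.nd (nat_lit 234) (nat_lit 1824) (nat_lit 0) (XT.nd (nat_lit 78) (nat_lit 1064) (nat_lit 0) (XT.lf (nat_lit 0) (nat_lit 1739880645) (nat_lit 988) (nat_lit 91929060) (nat_lit 1064) (nat_lit 5748067130) (nat_lit 212) (nat_lit 5) (nat_lit 225) (nat_lit 5) (nat_lit 226) (nat_lit 5) (nat_lit 286) (nat_lit 263) (nat_lit 231)) (XT.nd (nat_lit 78) (nat_lit 1064) (nat_lit 0) (XT.lf (nat_lit 0) (nat_lit 3974247126) (nat_lit 1064) (nat_lit 1610403892) (nat_lit 76) (nat_lit 2080311054) (nat_lit 212) (nat_lit 5) (nat_lit 226) (nat_lit 5) (nat_lit 213) (nat_lit 5) (nat_lit 287) (nat_lit 263) (nat_lit 230)) (XT.lf (nat_lit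 0) (nat_lit 2745437732) (nat_lit 1064) (nat_lit 3403713867) (nat_lit 1140) (nat_lit 1604495866) (nat_lit 198) (nat_lit 5) (nat_lit 212) (nat_lit 5) (nat_lit 213) (nat_lit 5) (nat_lit 288) (nat_lit 263) (nat_lit 229)))) (XT.nd (nat_lit 156) (nat_lit 608) (nat_lit 0) (XT.nd (nat_lit 78) (nat_lit 1140) (nat_lit 0) (XT.lf (nat_lit 0) (nat_lit 491556283) (nat_lit 1140) (nat_lit 638964989) (nat_lit 76) (nat_lit 6715667198) (nat_lit 197) (nat_lit 5) (nat_lit 212) (nat_lit 5) (nat_lit 198) (nat_lit 5) (nat_lit 289) (nat_lit 263) (nat_lit 228)) (XT.lf (nat_lit 0) (nat_lit 2610785384) (nat_lit 1216) (nat_lit 4085411123) (nat_lit 76) (nat_lit 1245141783) (nat_lit 182) (nat_lit 5) (nat_lit 198) (nat_lit 5) (nat_lit 183) (nat_lit 5) (nat_lit 290) (nat_lit 263) (nat_lit 227))) (XT.nd (nat_lit 78) (nat_lit 0) (nat_lit 0) (XT.lf (nat_lit 0) (nat_lit 402477588) (nat_lit 608) (nat_lit 4357035108) (nat_lit 684)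 (nat_lit 3280935268) (nat_lit 174) (nat_lit 5) (nat_lit 182) (nat_lit 5) (nat_lit 183) (nat_lit 5) (nat_lit 291) (nat_lit 263) (nat_lit 226)) (XT.lf (nat_lit 0) (nat_lit 5055542443) (nat_lit 608) (nat_lit 1903866661) (nat_lit 684) (nat_lit 1183601191) (nat_lit 174) (nat_lit 5) (nat_lit 182) (nat_lit 5) (nat_lit 183) (nat_lit 5) (nat_lit 292) (nat_lit 263) (nat_lit 225)))))) (XT.nd (nat_lit 468) (nat_lit 1596) (nat_lit 0) (XT.nd (nat_lit 234) (nat_lit 1064) (nat_lit 0) (XT.nd (nat_lit 78) (nat_lit 532) (nat_lit 0) (XT.lf (nat_lit 0) (nat_lit 925344563) (nat_lit 684) (nat_lit 6687877113) (nat_lit 76) (nat_lit 636189641) (nat_lit 165) (nat_lit 5) (nat_lit 174) (nat_lit 5) (nat_lit 166) (nat_lit 5) (nat_lit 293) (nat_lit 263) (nat_lit 224)) (XT.nd (nat_lit 78) (nat_lit 532) (nat_lit 0) (XT.lf (nat_lit 0) (nat_lit 3071605582) (nat_lit 684) (nat_lit 2029583232) (nat_lit 76) (nat_lit 3257602652) (nat_lit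 165) (nat_lit 5) (nat_lit 174) (nat_lit 5) (nat_lit 166) (nat_lit 5) (nat_lit 294) (nat_lit 263) (nat_lit 223)) (XT.lf (nat_lit 0) (nat_lit 2770153095) (nat_lit 532) (nat_lit 2487758754) (nat_lit 608) (nat_lit 3214343046) (nat_lit 158) (nat_lit 5) (nat_lit 165) (nat_lit 5) (nat_lit 166) (nat_lit 5) (nat_lit 295) (nat_lit 263) (nat_lit 222)))) (XT.nd (nat_lit 78) (nat_lit 1064) (nat_lit 0) (XT.lf (nat_lit 0) (nat_lit 7482464007) (nat_lit 608) (nat_lit 888585829) (nat_lit 76) (nat_lit 218962203) (nat_lit 158) (nat_lit 5) (nat_lit 166) (nat_lit 5) (nat_lit 159) (nat_lit 5) (nat_lit 296) (nat_lit 263) (nat_lit 221)) (XT.nd (nat_lit 78) (nat_lit 456) (nat_lit 0) (XT.lf (nat_lit 0) (nat_lit 1057033851) (nat_lit 608) (nat_lit 4648949942) (nat_lit 76) (nat_lit 3004617780) (nat_lit 150) (nat_lit 5) (nat_lit 158) (nat_lit 5) (nat_lit 151) (nat_lit 5) (nat_lit 297) (nat_lit 263) (nat_lit 220)) (XT.lf (nat_lit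 0) (nat_lit 286244417) (nat_lit 456) (nat_lit 2941699912) (nat_lit 532) (nat_lit 5607689549) (nat_lit 144) (nat_lit 5) (nat_lit 150) (nat_lit 5) (nat_lit 151) (nat_lit 5) (nat_lit 298) (nat_lit 263) (nat_lit 219))))) (XT.nd (nat_lit 234) (nat_lit 988) (nat_lit 0) (XT.nd (nat_lit 78) (nat_lit 608) (nat_lit 0) (XT.lf (nat_lit 0) (nat_lit 5412948511) (nat_lit 456) (nat_lit 50721674) (nat_lit 532) (nat_lit 3500818087) (nat_lit 144) (nat_lit 5) (nat_lit 150) (nat_lit 5) (nat_lit 151) (nat_lit 5) (nat_lit 299) (nat_lit 263) (nat_lit 218)) (XT.nd (nat_lit 78) (nat_lit 76) (nat_lit 0) (XT.lf (nat_lit 0) (nat_lit 1546559870) (nat_lit 532) (nat_lit 6216986797) (nat_lit 608) (nat_lit 1333809226) (nat_lit 137) (nat_lit 5) (nat_lit 144) (nat_lit 5) (nat_lit 145) (nat_lit 5) (nat_lit 300) (nat_lit 263) (nat_lit 217)) (XT.lf (nat_lit 0) (nat_lit 871821658) (nat_lit 608) (nat_lit 2424404561) (nat_lit 76) (nat_lit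 5938046647) (nat_lit 136) (nat_lit 5) (nat_lit 144) (nat_lit 5) (nat_lit 137) (nat_lit 5) (nat_lit 301) (nat_lit 263) (nat_lit 216)))) (XT.nd (nat_lit 156) (nat_lit 532) (nat_lit 0) (XT.nd (nat_lit 78) (nat_lit 0) (nat_lit 0) (XT.lf (nat_lit 0) (nat_lit 2847471921) (nat_lit 456) (nat_lit 252458771) (nat_lit 532) (nat_lit 6275531825) (nat_lit 130) (nat_lit 5) (nat_lit 136) (nat_lit 5) (nat_lit 137) (nat_lit 5) (nat_lit 302) (nat_lit 263) (nat_lit 215)) (XT.lf (nat_lit 0) (nat_lit 5403804575) (nat_lit 532) (nat_lit 1272363208) (nat_lit 76) (nat_lit 2844505703) (nat_lit 130) (nat_lit 5) (nat_lit 137) (nat_lit 5) (nat_lit 131) (nat_lit 5) (nat_lit 303) (nat_lit 263) (nat_lit 214))) (XT.nd (nat_lit 78) (nat_lit 76) (nat_lit 0) (XT.lf (nat_lit 0) (nat_lit 4169840364) (nat_lit 456) (nat_lit 3607292227) (nat_lit 532) (nat_lit 1893149778) (nat_lit 124) (nat_lit 5) (nat_lit 130) (nat_lit 5) (nat_lit 131)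 (nat_lit 5) (nat_lit 304) (nat_lit 263) (nat_lit 213)) (XT.lf (nat_lit 0) (nat_lit 360554249) (nat_lit 532) (nat_lit 76903415) (nat_lit 76) (nat_lit 9387725271) (nat_lit 123) (nat_lit 5) (nat_lit 130) (nat_lit 5) (nat_lit 124) (nat_lit 5) (nat_lit 305) (nat_lit 263) (nat_lit 212))))))) (XT.nd (nat_lit 1014) (nat_lit 2052) (nat_lit 0) (XT.nd (nat_lit 468) (nat_lit 1368) (nat_lit 0) (XT.nd (nat_lit 234) (nat_lit 836) (nat_lit 0) (XT.nd (nat_lit 78) (nat_lit 380) (nat_lit 0) (XT.lf (nat_lit 0) (nat_lit 2684255750) (nat_lit 456) (nat_lit 4461642479) (nat_lit 76) (nat_lit 2837104198) (nat_lit 118) (nat_lit 5) (nat_lit 124) (nat_lit 5) (nat_lit 119) (nat_lit 5) (nat_lit 306) (nat_lit 263) (nat_lit 211)) (XT.nd (nat_lit 78) (nat_lit 0) (nat_lit 0) (XT.lf (nat_lit 0) (nat_lit 1111387772) (nat_lit 380) (nat_lit 3941991491) (nat_lit 456) (nat_lit 5092951867) (nat_lit 113) (nat_lit 5) (nat_lit 118) (nat_lit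 5) (nat_lit 119) (nat_lit 5) (nat_lit 307) (nat_lit 263) (nat_lit 210)) (XT.lf (nat_lit 0) (nat_lit 6893979351) (nat_lit 380) (nat_lit 605258809) (nat_lit 456) (nat_lit 2815196300) (nat_lit 113) (nat_lit 5) (nat_lit 118) (nat_lit 5) (nat_lit 119) (nat_lit 5) (nat_lit 308) (nat_lit 263) (nat_lit 209)))) (XT.nd (nat_lit 78) (nat_lit 456) (nat_lit 0) (XT.lf (nat_lit 0) (nat_lit 2331995305) (nat_lit 380) (nat_lit 7697777612) (nat_lit 456) (nat_lit 457512289) (nat_lit 108) (nat_lit 5) (nat_lit 113) (nat_lit 5) (nat_lit 114) (nat_lit 5) (nat_lit 309) (nat_lit 263) (nat_lit 208)) (XT.nd (nat_lit 78) (nat_lit 380) (nat_lit 0) (XT.lf (nat_lit 0) (nat_lit 1935220177) (nat_lit 456) (nat_lit 2411510504) (nat_lit 76) (nat_lit 6317979939) (nat_lit 107) (nat_lit 5) (nat_lit 113) (nat_lit 5) (nat_lit 108) (nat_lit 5) (nat_lit 310) (nat_lit 263) (nat_lit 207)) (XT.lf (nat_lit 0) (nat_lit 3521111258) (nat_lit 380)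 (nat_lit 866287325) (nat_lit 456) (nat_lit 6460058174) (nat_lit 102) (nat_lit 5) (nat_lit 107) (nat_lit 5) (nat_lit 108) (nat_lit 5) (nat_lit 311) (nat_lit 263) (nat_lit 206))))) (XT.nd (nat_lit 234) (nat_lit 988) (nat_lit 0) (XT.nd (nat_lit 78) (nat_lit 380) (nat_lit 0) (XT.lf (nat_lit 0) (nat_lit 6927399705) (nat_lit 456) (nat_lit 1428392100) (nat_lit 76) (nat_lit 2679504241) (nat_lit 102) (nat_lit 5) (nat_lit 108) (nat_lit 5) (nat_lit 103) (nat_lit 5) (nat_lit 312) (nat_lit 263) (nat_lit 205)) (XT.nd (nat_lit 78) (nat_lit 76) (nat_lit 0) (XT.lf (nat_lit 0) (nat_lit 4682490209) (nat_lit 304) (nat_lit 4879293061) (nat_lit 380) (nat_lit 1666479136) (nat_lit 98) (nat_lit 5) (nat_lit 102) (nat_lit 5) (nat_lit 103) (nat_lit 5) (nat_lit 313) (nat_lit 263) (nat_lit 204)) (XT.lf (nat_lit 0) (nat_lit 810996050) (nat_lit 380) (nat_lit 475983200) (nat_lit 76) (nat_lit 10140448136) (nat_lit 97) (nat_lit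 5) (nat_lit 102) (nat_lit 5) (nat_lit 98) (nat_lit 5) (nat_lit 314) (nat_lit 263) (nat_lit 203)))) (XT.nd (nat_lit 156) (nat_lit 304) (nat_lit 0) (XT.nd (nat_lit 78) (nat_lit 304) (nat_lit 0) (XT.lf (nat_lit 0) (nat_lit 3374945806) (nat_lit 456) (nat_lit 5827851738) (nat_lit 76) (nat_lit 2427939625) (nat_lit 92) (nat_lit 5) (nat_lit 98) (nat_lit 5) (nat_lit 93) (nat_lit 5) (nat_lit 315) (nat_lit 263) (nat_lit 202)) (XT.lf (nat_lit 0) (nat_lit 388473859) (nat_lit 304) (nat_lit 5614944237) (nat_lit 380) (nat_lit 5837133229) (nat_lit 88) (nat_lit 5) (nat_lit 92) (nat_lit 5) (nat_lit 93) (nat_lit 5) (nat_lit 316) (nat_lit 263) (nat_lit 201))) (XT.nd (nat_lit 78) (nat_lit 304) (nat_lit 0) (XT.lf (nat_lit 0) (nat_lit 6865015368) (nat_lit 304) (nat_lit 1871395059) (nat_lit 380) (nat_lit 3319511734) (nat_lit 88) (nat_lit 5) (nat_lit 92) (nat_lit 5) (nat_lit 93) (nat_lit 5) (nat_lit 317) (nat_lit 263)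 (nat_lit 200)) (XT.lf (nat_lit 0) (nat_lit 1217493285) (nat_lit 304) (nat_lit 10332343731) (nat_lit 380) (nat_lit 727995065) (nat_lit 84) (nat_lit 5) (nat_lit 88) (nat_lit 5) (nat_lit 89) (nat_lit 5) (nat_lit 318) (nat_lit 263) (nat_lit 199)))))) (XT.nd (nat_lit 546) (nat_lit 1064) (nat_lit 0) (XT.nd (nat_lit 234) (nat_lit 608) (nat_lit 0) (XT.nd (nat_lit 78) (nat_lit 304) (nat_lit 0) (XT.lf (nat_lit 0) (nat_lit 1942682817) (nat_lit 380) (nat_lit 4663494460) (nat_lit 76) (nat_lit 5898512795) (nat_lit 83) (nat_lit 5) (nat_lit 88) (nat_lit 5) (nat_lit 84) (nat_lit 5) (nat_lit 319) (nat_lit 263) (nat_lit 198)) (XT.nd (nat_lit 78) (nat_lit 0) (nat_lit 0) (XT.lf (nat_lit 0) (nat_lit 1911153178) (nat_lit 304) (nat_lit 2754835200) (nat_lit 380) (nat_lit 8072563647) (nat_lit 79) (nat_lit 5) (nat_lit 83) (nat_lit 5) (nat_lit 84) (nat_lit 5) (nat_lit 320) (nat_lit 263) (nat_lit 197)) (XT.lf (nat_lit 0)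 (nat_lit 7499334599) (nat_lit 380) (nat_lit 4256076396) (nat_lit 76) (nat_lit 1223196400) (nat_lit 79) (nat_lit 5) (nat_lit 84) (nat_lit 5) (nat_lit 80) (nat_lit 5) (nat_lit 321) (nat_lit 263) (nat_lit 196)))) (XT.nd (nat_lit 156) (nat_lit 228) (nat_lit 0) (XT.nd (nat_lit 78) (nat_lit 76) (nat_lit 0) (XT.lf (nat_lit 0) (nat_lit 2490426313) (nat_lit 304) (nat_lit 7948501198) (nat_lit 380) (nat_lit 2786326521) (nat_lit 75) (nat_lit 5) (nat_lit 79) (nat_lit 5) (nat_lit 80) (nat_lit 5) (nat_lit 322) (nat_lit 263) (nat_lit 195)) (XT.lf (nat_lit 0) (nat_lit 1231673) (nat_lit 380) (nat_lit 3995221433) (nat_lit 76) (nat_lit 9482468703) (nat_lit 74) (nat_lit 5) (nat_lit 79) (nat_lit 5) (nat_lit 75) (nat_lit 5) (nat_lit 323) (nat_lit 263) (nat_lit 194))) (XT.nd (nat_lit 78) (nat_lit 0) (nat_lit 0) (XT.lf (nat_lit 0) (nat_lit 2816798710) (nat_lit 304) (nat_lit 10806527432) (nat_lit 76) (nat_lit 116059024)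 (nat_lit 71) (nat_lit 5) (nat_lit 75) (nat_lit 5) (nat_lit 72) (nat_lit 5) (nat_lit 324) (nat_lit 263) (nat_lit 193)) (XT.lf (nat_lit 0) (nat_lit 5768501911) (nat_lit 304) (nat_lit 3938290399) (nat_lit 76) (nat_lit 4299344023) (nat_lit 71) (nat_lit 5) (nat_lit 75) (nat_lit 5) (nat_lit 72) (nat_lit 5) (nat_lit 325) (nat_lit 263) (nat_lit 192))))) (XT.nd (nat_lit 234) (nat_lit 456) (nat_lit 0) (XT.nd (nat_lit 78) (nat_lit 304) (nat_lit 0) (XT.lf (nat_lit 0) (nat_lit 3156275895) (nat_lit 304) (nat_lit 5655011593) (nat_lit 380) (nat_lit 5469549893) (nat_lit 67) (nat_lit 5) (nat_lit 71) (nat_lit 5) (nat_lit 72) (nat_lit 5) (nat_lit 326) (nat_lit 263) (nat_lit 191)) (XT.nd (nat_lit 78) (nat_lit 304) (nat_lit 0) (XT.lf (nat_lit 0) (nat_lit 10503507094) (nat_lit 304) (nat_lit 1454226556) (nat_lit 380) (nat_lit 2605697109) (nat_lit 67) (nat_lit 5) (nat_lit 71) (nat_lit 5) (nat_lit 72) (nat_lit 5) (nat_lit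 327) (nat_lit 263) (nat_lit 190)) (XT.lf (nat_lit 0) (nat_lit 369411859) (nat_lit 304) (nat_lit 11645893941) (nat_lit 76) (nat_lit 2838156583) (nat_lit 63) (nat_lit 5) (nat_lit 67) (nat_lit 5) (nat_lit 64) (nat_lit 5) (nat_lit 328) (nat_lit 263) (nat_lit 189)))) (XT.nd (nat_lit 156) (nat_lit 228) (nat_lit 0) (XT.nd (nat_lit 78) (nat_lit 228) (nat_lit 0) (XT.lf (nat_lit 0) (nat_lit 3410595477) (nat_lit 304) (nat_lit 4455818060) (nat_lit 76) (nat_lit 7284152339) (nat_lit 63) (nat_lit 5) (nat_lit 67) (nat_lit 5) (nat_lit 64) (nat_lit 5) (nat_lit 329) (nat_lit 263) (nat_lit 188)) (XT.lf (nat_lit 0) (nat_lit 2968508117) (nat_lit 228) (nat_lit 3577208445) (nat_lit 304) (nat_lit 8910804940) (nat_lit 60) (nat_lit 5) (nat_lit 63) (nat_lit 5) (nat_lit 64) (nat_lit 5) (nat_lit 330) (nat_lit 263) (nat_lit 187))) (XT.nd (nat_lit 78) (nat_lit 228) (nat_lit 0) (XT.lf (nat_lit 0) (nat_lit 9802827186) (nat_lit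 304) (nat_lit 5111573770) (nat_lit 76) (nat_lit 856436265) (nat_lit 60) (nat_lit 5) (nat_lit 64) (nat_lit 5) (nat_lit 61) (nat_lit 5) (nat_lit 331) (nat_lit 263) (nat_lit 186)) (XT.lf (nat_lit 0) (nat_lit 2460259113) (nat_lit 228) (nat_lit 10731618975) (nat_lit 304) (nat_lit 2901696447) (nat_lit 57) (nat_lit 5) (nat_lit 60) (nat_lit 5) (nat_lit 61) (nat_lit 5) (nat_lit 332) (nat_lit 263) (nat_lit 185))))))))
noncomputable def xc114 : XT := (XT.nd (nat_lit 2028) (nat_lit 1140) (nat_lit 0) (XT.nd (nat_lit 1014) (nat_lit 912) (nat_lit 0) (XT.nd (nat_lit 468) (nat_lit 760) (nat_lit 0) (XT.nd (nat_lit 234) (nat_lit 152) (nat_lit 0) (XT.nd (nat_lit 78) (nat_lit 228) (nat_lit 0) (XT.lf (nat_lit 0) (nat_lit 278983409) (nat_lit 304) (nat_lit 6102017416) (nat_lit 76) (nat_lit 10044115464) (nat_lit 56) (nat_lit 5) (nat_lit 60) (nat_lit 5) (nat_lit 57) (nat_lit 5) (nat_lit 333) (nat_lit 263) (nat_lit 184))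 (XT.nd (nat_lit 78) (nat_lit 0) (nat_lit 0) (XT.lf (nat_lit 0) (nat_lit 1620615390) (nat_lit 228) (nat_lit 1867702330) (nat_lit 304) (nat_lit 13277695354) (nat_lit 53) (nat_lit 5) (nat_lit 56) (nat_lit 5) (nat_lit 57) (nat_lit 5) (nat_lit 334) (nat_lit 263) (nat_lit 183)) (XT.lf (nat_lit 0) (nat_lit 6859083604) (nat_lit 304) (nat_lit 7480347181) (nat_lit 76) (nat_lit 2775768253) (nat_lit 53) (nat_lit 5) (nat_lit 57) (nat_lit 5) (nat_lit 54) (nat_lit 5) (nat_lit 335) (nat_lit 263) (nat_lit 182)))) (XT.nd (nat_lit 78) (nat_lit 0) (nat_lit 0) (XT.lf (nat_lit 0) (nat_lit 366688222) (nat_lit 152) (nat_lit 9963185078) (nat_lit 228) (nat_lit 7145036589) (nat_lit 51) (nat_lit 5) (nat_lit 53) (nat_lit 5) (nat_lit 54) (nat_lit 5) (nat_lit 336) (nat_lit 263) (nat_lit 181)) (XT.nd (nat_lit 78) (nat_lit 0) (nat_lit 0) (XT.lf (nat_lit 0) (nat_lit 8566203670) (nat_lit 152) (nat_lit 5391328387) (nat_lit 228)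 (nat_lit 3886313502) (nat_lit 51) (nat_lit 5) (nat_lit 53) (nat_lit 5) (nat_lit 54) (nat_lit 5) (nat_lit 337) (nat_lit 263) (nat_lit 180)) (XT.lf (nat_lit 0) (nat_lit 16976490210) (nat_lit 152) (nat_lit 695402727) (nat_lit 228) (nat_lit 552635587) (nat_lit 51) (nat_lit 5) (nat_lit 53) (nat_lit 5) (nat_lit 54) (nat_lit 5) (nat_lit 338) (nat_lit 263) (nat_lit 179))))) (XT.nd (nat_lit 234) (nat_lit 304) (nat_lit 0) (XT.nd (nat_lit 78) (nat_lit 152) (nat_lit 0) (XT.lf (nat_lit 0) (nat_lit 2911994199) (nat_lit 304) (nat_lit 11556411391) (nat_lit 76) (nat_lit 4144795227) (nat_lit 47) (nat_lit 5) (nat_lit 51) (nat_lit 5) (nat_lit 48) (nat_lit 5) (nat_lit 339) (nat_lit 263) (nat_lit 178)) (XT.nd (nat_lit 78) (nat_lit 152) (nat_lit 0) (XT.lf (nat_lit 0) (nat_lit 6467536428) (nat_lit 304) (nat_lit 3424119406) (nat_lit 76) (nat_lit 9121784954) (nat_lit 47) (nat_lit 5) (nat_lit 51) (nat_lit 5) (nat_lit 48)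 (nat_lit 5) (nat_lit 340) (nat_lit 263) (nat_lit 177)) (XT.lf (nat_lit 0) (nat_lit 5016211936) (nat_lit 152) (nat_lit 5140847305) (nat_lit 228) (nat_lit 9267822967) (nat_lit 45) (nat_lit 5) (nat_lit 47) (nat_lit 5) (nat_lit 48) (nat_lit 5) (nat_lit 341) (nat_lit 263) (nat_lit 176)))) (XT.nd (nat_lit 156) (nat_lit 76) (nat_lit 0) (XT.nd (nat_lit 78) (nat_lit 228) (nat_lit 0) (XT.lf (nat_lit 0) (nat_lit 13746462053) (nat_lit 152) (nat_lit 224765017) (nat_lit 228) (nat_lit 5877034299) (nat_lit 45) (nat_lit 5) (nat_lit 47) (nat_lit 5) (nat_lit 48) (nat_lit 5) (nat_lit 342) (nat_lit 263) (nat_lit 175)) (XT.lf (nat_lit 0) (nat_lit 2422026334) (nat_lit 228) (nat_lit 15527451989) (nat_lit 304) (nat_lit 2333386721) (nat_lit 42) (nat_lit 5) (nat_lit 45) (nat_lit 5) (nat_lit 46) (nat_lit 5) (nat_lit 343) (nat_lit 263) (nat_lit 174))) (XT.nd (nat_lit 78) (nat_lit 0) (nat_lit 0) (XT.lf (nat_lit 0) (nat_lit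 1335257265) (nat_lit 304) (nat_lit 9450590335) (nat_lit 76) (nat_lit 9942960373) (nat_lit 41) (nat_lit 5) (nat_lit 45) (nat_lit 5) (nat_lit 42) (nat_lit 5) (nat_lit 344) (nat_lit 263) (nat_lit 173)) (XT.lf (nat_lit 0) (nat_lit 5047572822) (nat_lit 304) (nat_lit 843262116) (nat_lit 76) (nat_lit 15297197634) (nat_lit 41) (nat_lit 5) (nat_lit 45) (nat_lit 5) (nat_lit 42) (nat_lit 5) (nat_lit 345) (nat_lit 263) (nat_lit 172)))))) (XT.nd (nat_lit 468) (nat_lit 380) (nat_lit 0) (XT.nd (nat_lit 234) (nat_lit 228) (nat_lit 0) (XT.nd (nat_lit 78) (nat_lit 152) (nat_lit 0) (XT.lf (nat_lit 0) (nat_lit 8150135348) (nat_lit 152) (nat_lit 780545238) (nat_lit 228) (nat_lit 12728582097) (nat_lit 39) (nat_lit 5) (nat_lit 41) (nat_lit 5) (nat_lit 42) (nat_lit 5) (nat_lit 346) (nat_lit 263) (nat_lit 171)) (XT.nd (nat_lit 78) (nat_lit 152) (nat_lit 0) (XT.lf (nat_lit 0) (nat_lit 12963190499) (nat_lit 228) (nat_lit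 4788268638) (nat_lit 76) (nat_lit 4392194413) (nat_lit 39) (nat_lit 5) (nat_lit 42) (nat_lit 5) (nat_lit 40) (nat_lit 5) (nat_lit 347) (nat_lit 263) (nat_lit 170)) (XT.lf (nat_lit 0) (nat_lit 4238777161) (nat_lit 152) (nat_lit 12908135021) (nat_lit 228) (nat_lit 5494767664) (nat_lit 37) (nat_lit 5) (nat_lit 39) (nat_lit 5) (nat_lit 40) (nat_lit 5) (nat_lit 348) (nat_lit 263) (nat_lit 169)))) (XT.nd (nat_lit 78) (nat_lit 228) (nat_lit 0) (XT.lf (nat_lit 0) (nat_lit 13604663128) (nat_lit 152) (nat_lit 7881838693) (nat_lit 228) (nat_lit 1667244903) (nat_lit 37) (nat_lit 5) (nat_lit 39) (nat_lit 5) (nat_lit 40) (nat_lit 5) (nat_lit 349) (nat_lit 263) (nat_lit 168)) (XT.nd (nat_lit 78) (nat_lit 152) (nat_lit 0) (XT.lf (nat_lit 0) (nat_lit 2213053442) (nat_lit 228) (nat_lit 481129427) (nat_lit 76) (nat_lit 20986876170) (nat_lit 36) (nat_lit 5) (nat_lit 39) (nat_lit 5) (nat_lit 37) (nat_lit 5) (nat_lit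 350) (nat_lit 263) (nat_lit 167)) (XT.lf (nat_lit 0) (nat_lit 6271890457) (nat_lit 228) (nat_lit 15258982554) (nat_lit 76) (nat_lit 2689962893) (nat_lit 34) (nat_lit 5) (nat_lit 37) (nat_lit 5) (nat_lit 35) (nat_lit 5) (nat_lit 351) (nat_lit 263) (nat_lit 166))))) (XT.nd (nat_lit 234) (nat_lit 228) (nat_lit 0) (XT.nd (nat_lit 78) (nat_lit 152) (nat_lit 0) (XT.lf (nat_lit 0) (nat_lit 10467048380) (nat_lit 228) (nat_lit 6134266483) (nat_lit 76) (nat_lit 8175063852) (nat_lit 34) (nat_lit 5) (nat_lit 37) (nat_lit 5) (nat_lit 35) (nat_lit 5) (nat_lit 352) (nat_lit 263) (nat_lit 165)) (XT.nd (nat_lit 78) (nat_lit 0) (nat_lit 0) (XT.lf (nat_lit 0) (nat_lit 3300566652) (nat_lit 152) (nat_lit 11502691506) (nat_lit 228) (nat_lit 10544882780) (nat_lit 32) (nat_lit 5) (nat_lit 34) (nat_lit 5) (nat_lit 35) (nat_lit 5) (nat_lit 353) (nat_lit 263) (nat_lit 164)) (XT.lf (nat_lit 0) (nat_lit 13116435677) (nat_lit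 152) (nat_lit 6198747320) (nat_lit 228) (nat_lit 6620512949) (nat_lit 32) (nat_lit 5) (nat_lit 34) (nat_lit 5) (nat_lit 35) (nat_lit 5) (nat_lit 354) (nat_lit 263) (nat_lit 163)))) (XT.nd (nat_lit 156) (nat_lit 0) (nat_lit 0) (XT.nd (nat_lit 78) (nat_lit 228) (nat_lit 0) (XT.lf (nat_lit 0) (nat_lit 23199833634) (nat_lit 152) (nat_lit 746791853) (nat_lit 228) (nat_lit 2594735843) (nat_lit 32) (nat_lit 5) (nat_lit 34) (nat_lit 5) (nat_lit 35) (nat_lit 5) (nat_lit 355) (nat_lit 263) (nat_lit 162)) (XT.lf (nat_lit 0) (nat_lit 1615997441) (nat_lit 228) (nat_lit 20704712337) (nat_lit 76) (nat_lit 4841213491) (nat_lit 29) (nat_lit 5) (nat_lit 32) (nat_lit 5) (nat_lit 30) (nat_lit 5) (nat_lit 356) (nat_lit 263) (nat_lit 161))) (XT.nd (nat_lit 78) (nat_lit 0) (nat_lit 0) (XT.lf (nat_lit 0) (nat_lit 5926928891) (nat_lit 228) (nat_lit 11241681856) (nat_lit 76) (nat_lit 10630947572) (nat_lit 29) (nat_lit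 5) (nat_lit 32) (nat_lit 5) (nat_lit 30) (nat_lit 5) (nat_lit 357) (nat_lit 263) (nat_lit 160)) (XT.lf (nat_lit 0) (nat_lit 10352194929) (nat_lit 228) (nat_lit 1520569509) (nat_lit 76) (nat_lit 16584015356) (nat_lit 29) (nat_lit 5) (nat_lit 32) (nat_lit 5) (nat_lit 30) (nat_lit 5) (nat_lit 358) (nat_lit 263) (nat_lit 159))))))) (XT.nd (nat_lit 1014) (nat_lit 380) (nat_lit 0) (XT.nd (nat_lit 468) (nat_lit 456) (nat_lit 0) (XT.nd (nat_lit 234) (nat_lit 152) (nat_lit 0) (XT.nd (nat_lit 78) (nat_lit 0) (nat_lit 0) (XT.lf (nat_lit 0) (nat_lit 8635631147) (nat_lit 152) (nat_lit 6343042114) (nat_lit 228) (nat_lit 14152998376) (nat_lit 27) (nat_lit 5) (nat_lit 29) (nat_lit 5) (nat_lit 30) (nat_lit 5) (nat_lit 359) (nat_lit 263) (nat_lit 158)) (XT.nd (nat_lit 78) (nat_lit 0) (nat_lit 0) (XT.lf (nat_lit 0) (nat_lit 19102876341) (nat_lit 152) (nat_lit 642053193) (nat_lit 228) (nat_lit 10081858331) (nat_lit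 27) (nat_lit 5) (nat_lit 29) (nat_lit 5) (nat_lit 30) (nat_lit 5) (nat_lit 360) (nat_lit 263) (nat_lit 157)) (XT.lf (nat_lit 0) (nat_lit 24690397083) (nat_lit 228) (nat_lit 733309386) (nat_lit 76) (nat_lit 5117971335) (nat_lit 27) (nat_lit 5) (nat_lit 30) (nat_lit 5) (nat_lit 28) (nat_lit 4) (nat_lit 361) (nat_lit 263) (nat_lit 156)))) (XT.nd (nat_lit 78) (nat_lit 76) (nat_lit 0) (XT.lf (nat_lit 0) (nat_lit 9716552905) (nat_lit 76) (nat_lit 20153793349) (nat_lit 152) (nat_lit 1405091386) (nat_lit 26) (nat_lit 5) (nat_lit 27) (nat_lit 5) (nat_lit 28) (nat_lit 4) (nat_lit 362) (nat_lit 263) (nat_lit 155)) (XT.nd (nat_lit 78) (nat_lit 0) (nat_lit 0) (XT.lf (nat_lit 0) (nat_lit 3106407408) (nat_lit 152) (nat_lit 11590383996) (nat_lit 76) (nat_lit 17333693676) (nat_lit 25) (nat_lit 5) (nat_lit 27) (nat_lit 5) (nat_lit 26) (nat_lit 5) (nat_lit 363) (nat_lit 263) (nat_lit 154)) (XT.lf (nat_lit 0) (nat_lit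 7711797683) (nat_lit 152) (nat_lit 1359798931) (nat_lit 76) (nat_lit 23736572509) (nat_lit 25) (nat_lit 5) (nat_lit 27) (nat_lit 5) (nat_lit 26) (nat_lit 5) (nat_lit 364) (nat_lit 263) (nat_lit 153))))) (XT.nd (nat_lit 234) (nat_lit 304) (nat_lit 0) (XT.nd (nat_lit 78) (nat_lit 0) (nat_lit 0) (XT.lf (nat_lit 0) (nat_lit 9337525150) (nat_lit 152) (nat_lit 3194754812) (nat_lit 228) (nat_lit 21074601795) (nat_lit 23) (nat_lit 5) (nat_lit 25) (nat_lit 5) (nat_lit 26) (nat_lit 5) (nat_lit 365) (nat_lit 263) (nat_lit 152)) (XT.nd (nat_lit 78) (nat_lit 0) (nat_lit 0) (XT.lf (nat_lit 0) (nat_lit 17525962082) (nat_lit 228) (nat_lit 14095575193) (nat_lit 76) (nat_lit 2807166738) (nat_lit 23) (nat_lit 5) (nat_lit 26) (nat_lit 5) (nat_lit 24) (nat_lit 4) (nat_lit 366) (nat_lit 263) (nat_lit 151)) (XT.lf (nat_lit 0) (nat_lit 22688699006) (nat_lit 228) (nat_lit 3670019623) (nat_lit 76) (nat_lit 8915890613)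 (nat_lit 23) (nat_lit 5) (nat_lit 26) (nat_lit 5) (nat_lit 24) (nat_lit 4) (nat_lit 367) (nat_lit 263) (nat_lit 150)))) (XT.nd (nat_lit 156) (nat_lit 228) (nat_lit 0) (XT.nd (nat_lit 78) (nat_lit 0) (nat_lit 0) (XT.lf (nat_lit 0) (nat_lit 7187381448) (nat_lit 76) (nat_lit 20875999985) (nat_lit 152) (nat_lit 8080803761) (nat_lit 22) (nat_lit 5) (nat_lit 23) (nat_lit 5) (nat_lit 24) (nat_lit 4) (nat_lit 368) (nat_lit 263) (nat_lit 149)) (XT.lf (nat_lit 0) (nat_lit 18424771068) (nat_lit 76) (nat_lit 15199715902) (nat_lit 152) (nat_lit 3414611289) (nat_lit 22) (nat_lit 5) (nat_lit 23) (nat_lit 5) (nat_lit 24) (nat_lit 4) (nat_lit 369) (nat_lit 263) (nat_lit 148))) (XT.nd (nat_lit 78) (nat_lit 152) (nat_lit 0) (XT.lf (nat_lit 0) (nat_lit 1352761819) (nat_lit 152) (nat_lit 7995544459) (nat_lit 76) (nat_lit 28612505667) (nat_lit 21) (nat_lit 5) (nat_lit 23) (nat_lit 5) (nat_lit 22) (nat_lit 5) (nat_lit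 370) (nat_lit 263) (nat_lit 147)) (XT.lf (nat_lit 0) (nat_lit 2945478850) (nat_lit 152) (nat_lit 3266049397) (nat_lit 228) (nat_lit 32697129341) (nat_lit 19) (nat_lit 5) (nat_lit 21) (nat_lit 5) (nat_lit 22) (nat_lit 5) (nat_lit 371) (nat_lit 263) (nat_lit 146)))))) (XT.nd (nat_lit 546) (nat_lit 304) (nat_lit 0) (XT.nd (nat_lit 234) (nat_lit 76) (nat_lit 0) (XT.nd (nat_lit 78) (nat_lit 0) (nat_lit 0) (XT.lf (nat_lit 0) (nat_lit 11315166447) (nat_lit 228) (nat_lit 25553560002) (nat_lit 76) (nat_lit 3013243608) (nat_lit 19) (nat_lit 5) (nat_lit 22) (nat_lit 5) (nat_lit 20) (nat_lit 4) (nat_lit 372) (nat_lit 263) (nat_lit 145)) (XT.nd (nat_lit 78) (nat_lit 0) (nat_lit 0) (XT.lf (nat_lit 0) (nat_lit 16593323690) (nat_lit 228) (nat_lit 14883458527) (nat_lit 76) (nat_lit 9407061966) (nat_lit 19) (nat_lit 5) (nat_lit 22) (nat_lit 5) (nat_lit 20) (nat_lit 4) (nat_lit 373) (nat_lit 263) (nat_lit 144))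 (XT.lf (nat_lit 0) (nat_lit 22019216693) (nat_lit 228) (nat_lit 3912155662) (nat_lit 76) (nat_lit 15984724897) (nat_lit 19) (nat_lit 5) (nat_lit 22) (nat_lit 5) (nat_lit 20) (nat_lit 4) (nat_lit 374) (nat_lit 263) (nat_lit 143)))) (XT.nd (nat_lit 156) (nat_lit 0) (nat_lit 0) (XT.nd (nat_lit 78) (nat_lit 0) (nat_lit 0) (XT.lf (nat_lit 0) (nat_lit 7516611331) (nat_lit 76) (nat_lit 20153229463) (nat_lit 152) (nat_lit 15307622807) (nat_lit 18) (nat_lit 5) (nat_lit 19) (nat_lit 5) (nat_lit 20) (nat_lit 4) (nat_lit 375) (nat_lit 263) (nat_lit 142)) (XT.lf (nat_lit 0) (nat_lit 19350265483) (nat_lit 76) (nat_lit 14169048604) (nat_lit 152) (nat_lit 10550481132) (nat_lit 18) (nat_lit 5) (nat_lit 19) (nat_lit 5) (nat_lit 20) (nat_lit 4) (nat_lit 376) (nat_lit 263) (nat_lit 141))) (XT.nd (nat_lit 78) (nat_lit 0) (nat_lit 0) (XT.lf (nat_lit 0) (nat_lit 31521287312) (nat_lit 76) (nat_lit 8013105984) (nat_lit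 152) (nat_lit 5660803910) (nat_lit 18) (nat_lit 5) (nat_lit 19) (nat_lit 5) (nat_lit 20) (nat_lit 4) (nat_lit 377) (nat_lit 263) (nat_lit 140)) (XT.lf (nat_lit 0) (nat_lit 44040311692) (nat_lit 76) (nat_lit 1680022623) (nat_lit 152) (nat_lit 634318607) (nat_lit 18) (nat_lit 5) (nat_lit 19) (nat_lit 5) (nat_lit 20) (nat_lit 4) (nat_lit 378) (nat_lit 263) (nat_lit 139))))) (XT.nd (nat_lit 234) (nat_lit 76) (nat_lit 0) (XT.nd (nat_lit 78) (nat_lit 0) (nat_lit 0) (XT.lf (nat_lit 0) (nat_lit 4584151967) (nat_lit 228) (nat_lit 38081825258) (nat_lit 76) (nat_lit 4877713510) (nat_lit 15) (nat_lit 5) (nat_lit 18) (nat_lit 5) (nat_lit 16) (nat_lit 4) (nat_lit 379) (nat_lit 263) (nat_lit 138)) (XT.nd (nat_lit 78) (nat_lit 0) (nat_lit 0) (XT.lf (nat_lit 0) (nat_lit 9977299013) (nat_lit 228) (nat_lit 27168911037) (nat_lit 76) (nat_lit 11621078693) (nat_lit 15) (nat_lit 5) (nat_lit 18) (nat_lit 5) (nat_lit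 16) (nat_lit 4) (nat_lit 380) (nat_lit 263) (nat_lit 137)) (XT.lf (nat_lit 0) (nat_lit 15523149154) (nat_lit 228) (nat_lit 15944985039) (nat_lit 76) (nat_lit 18559736748) (nat_lit 15) (nat_lit 5) (nat_lit 18) (nat_lit 5) (nat_lit 16) (nat_lit 4) (nat_lit 381) (nat_lit 263) (nat_lit 136)))) (XT.nd (nat_lit 156) (nat_lit 0) (nat_lit 0) (XT.nd (nat_lit 78) (nat_lit 76) (nat_lit 0) (XT.lf (nat_lit 0) (nat_lit 21226548280) (nat_lit 228) (nat_lit 4400239949) (nat_lit 76) (nat_lit 25699750582) (nat_lit 15) (nat_lit 5) (nat_lit 18) (nat_lit 5) (nat_lit 16) (nat_lit 4) (nat_lit 382) (nat_lit 263) (nat_lit 135)) (XT.lf (nat_lit 0) (nat_lit 7624187227) (nat_lit 76) (nat_lit 19541581066) (nat_lit 152) (nat_lit 25496460166) (nat_lit 14) (nat_lit 5) (nat_lit 15) (nat_lit 5) (nat_lit 16) (nat_lit 4) (nat_lit 383) (nat_lit 263) (nat_lit 134))) (XT.nd (nat_lit 78) (nat_lit 0) (nat_lit 0) (XT.lf (nat_lit 0) (nat_lit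 20084263534) (nat_lit 76) (nat_lit 13234868405) (nat_lit 152) (nat_lit 20717781060) (nat_lit 14) (nat_lit 5) (nat_lit 15) (nat_lit 5) (nat_lit 16) (nat_lit 4) (nat_lit 384) (nat_lit 263) (nat_lit 133)) (XT.lf (nat_lit 0) (nat_lit 32903303014) (nat_lit 76) (nat_lit 6745573322) (nat_lit 152) (nat_lit 15804211464) (nat_lit 14) (nat_lit 5) (nat_lit 15) (nat_lit 5) (nat_lit 16) (nat_lit 4) (nat_lit 385) (nat_lit 263) (nat_lit 132))))))))
noncomputable def xc115 : XT := (XT.nd (nat_lit 31512) (nat_lit 0) (nat_lit 11400) (XT.nd (nat_lit 1014) (nat_lit 152) (nat_lit 0) (XT.nd (nat_lit 468) (nat_lit 152) (nat_lit 0) (XT.nd (nat_lit 234) (nat_lit 0) (nat_lit 0) (XT.nd (nat_lit 78) (nat_lit 152) (nat_lit 0) (XT.lf (nat_lit 0) (nat_lit 46092506768) (nat_lit 76) (nat_lit 68025559) (nat_lit 152) (nat_lit 10751457970) (nat_lit 14) (nat_lit 5) (nat_lit 15) (nat_lit 5) (nat_lit 16) (nat_lit 4) (nat_lit 386) (nat_lit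 263) (nat_lit 131)) (XT.nd (nat_lit 78) (nat_lit 76) (nat_lit 0) (XT.lf (nat_lit 0) (nat_lit 1206649710) (nat_lit 76) (nat_lit 51730139512) (nat_lit 76) (nat_lit 5475796049) (nat_lit 13) (nat_lit 4) (nat_lit 14) (nat_lit 5) (nat_lit 14) (nat_lit 4) (nat_lit 387) (nat_lit 263) (nat_lit 130)) (XT.lf (nat_lit 0) (nat_lit 62168644) (nat_lit 152) (nat_lit 46155099273) (nat_lit 76) (nat_lit 13737848544) (nat_lit 12) (nat_lit 5) (nat_lit 14) (nat_lit 5) (nat_lit 13) (nat_lit 4) (nat_lit 388) (nat_lit 263) (nat_lit 129)))) (XT.nd (nat_lit 78) (nat_lit 0) (nat_lit 0) (XT.lf (nat_lit 0) (nat_lit 5648646400) (nat_lit 152) (nat_lit 34840722398) (nat_lit 76) (nat_lit 21053158040) (nat_lit 12) (nat_lit 5) (nat_lit 14) (nat_lit 5) (nat_lit 13) (nat_lit 4) (nat_lit 389) (nat_lit 263) (nat_lit 128)) (XT.nd (nat_lit 78) (nat_lit 0) (nat_lit 0) (XT.lf (nat_lit 0) (nat_lit 11395371109) (nat_lit 152) (nat_lit 23200281887)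 (nat_lit 76) (nat_lit 28582129563) (nat_lit 12) (nat_lit 5) (nat_lit 14) (nat_lit 5) (nat_lit 13) (nat_lit 4) (nat_lit 390) (nat_lit 263) (nat_lit 127)) (XT.lf (nat_lit 0) (nat_lit 17307364183) (nat_lit 152) (nat_lit 11223606482) (nat_lit 76) (nat_lit 36331341826) (nat_lit 12) (nat_lit 5) (nat_lit 14) (nat_lit 5) (nat_lit 13) (nat_lit 4) (nat_lit 391) (nat_lit 263) (nat_lit 126))))) (XT.nd (nat_lit 234) (nat_lit 76) (nat_lit 0) (XT.nd (nat_lit 78) (nat_lit 0) (nat_lit 0) (XT.lf (nat_lit 0) (nat_lit 1121656429) (nat_lit 76) (nat_lit 22278917057) (nat_lit 152) (nat_lit 43196691605) (nat_lit 11) (nat_lit 5) (nat_lit 12) (nat_lit 5) (nat_lit 13) (nat_lit 4) (nat_lit 392) (nat_lit 263) (nat_lit 125)) (XT.nd (nat_lit 78) (nat_lit 0) (nat_lit 0) (XT.lf (nat_lit 0) (nat_lit 14054873380) (nat_lit 76) (nat_lit 15728198282) (nat_lit 152) (nat_lit 38598002221) (nat_lit 11) (nat_lit 5) (nat_lit 12) (nat_lit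 5) (nat_lit 13) (nat_lit 4) (nat_lit 393) (nat_lit 263) (nat_lit 124)) (XT.lf (nat_lit 0) (nat_lit 27363973461) (nat_lit 76) (nat_lit 8986426828) (nat_lit 152) (nat_lit 33868198304) (nat_lit 11) (nat_lit 5) (nat_lit 12) (nat_lit 5) (nat_lit 13) (nat_lit 4) (nat_lit 394) (nat_lit 263) (nat_lit 123)))) (XT.nd (nat_lit 156) (nat_lit 76) (nat_lit 0) (XT.nd (nat_lit 78) (nat_lit 0) (nat_lit 0) (XT.lf (nat_lit 0) (nat_lit 41060585984) (nat_lit 76) (nat_lit 2047711829) (nat_lit 152) (nat_lit 29003147016) (nat_lit 11) (nat_lit 5) (nat_lit 12) (nat_lit 5) (nat_lit 13) (nat_lit 4) (nat_lit 395) (nat_lit 263) (nat_lit 122)) (XT.lf (nat_lit 0) (nat_lit 50111635929) (nat_lit 152) (nat_lit 18953554407) (nat_lit 0) (nat_lit 4994607194) (nat_lit 11) (nat_lit 5) (nat_lit 13) (nat_lit 4) (nat_lit 11) (nat_lit 4) (nat_lit 396) (nat_lit 263) (nat_lit 121))) (XT.nd (nat_lit 78) (nat_lit 76) (nat_lit 0) (XT.lf (nat_lit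 0) (nat_lit 57339219801) (nat_lit 152) (nat_lit 6524827102) (nat_lit 0) (nat_lit 12202131664) (nat_lit 11) (nat_lit 5) (nat_lit 13) (nat_lit 4) (nat_lit 11) (nat_lit 4) (nat_lit 397) (nat_lit 263) (nat_lit 120)) (XT.lf (nat_lit 0) (nat_lit 6390570020) (nat_lit 76) (nat_lit 58448540984) (nat_lit 76) (nat_lit 13291977700) (nat_lit 10) (nat_lit 4) (nat_lit 11) (nat_lit 5) (nat_lit 11) (nat_lit 4) (nat_lit 398) (nat_lit 263) (nat_lit 119)))))) (XT.nd (nat_lit 546) (nat_lit 0) (nat_lit 0) (XT.nd (nat_lit 234) (nat_lit 76) (nat_lit 0) (XT.nd (nat_lit 78) (nat_lit 76) (nat_lit 0) (XT.lf (nat_lit 0) (nat_lit 19816393390) (nat_lit 76) (nat_lit 52807612867) (nat_lit 76) (nat_lit 7632141673) (nat_lit 10) (nat_lit 4) (nat_lit 11) (nat_lit 5) (nat_lit 11) (nat_lit 4) (nat_lit 399) (nat_lit 263) (nat_lit 118)) (XT.nd (nat_lit 78) (nat_lit 76) (nat_lit 0) (XT.lf (nat_lit 0) (nat_lit 33634517455) (nat_lit 76)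 (nat_lit 47002221545) (nat_lit 76) (nat_lit 1808393157) (nat_lit 10) (nat_lit 4) (nat_lit 11) (nat_lit 5) (nat_lit 11) (nat_lit 4) (nat_lit 400) (nat_lit 263) (nat_lit 117)) (XT.lf (nat_lit 0) (nat_lit 4102704692) (nat_lit 152) (nat_lit 36883160381) (nat_lit 76) (nat_lit 43712882339) (nat_lit 9) (nat_lit 5) (nat_lit 11) (nat_lit 5) (nat_lit 10) (nat_lit 4) (nat_lit 401) (nat_lit 263) (nat_lit 116)))) (XT.nd (nat_lit 156) (nat_lit 76) (nat_lit 0) (XT.nd (nat_lit 78) (nat_lit 0) (nat_lit 0) (XT.lf (nat_lit 0) (nat_lit 10149351858) (nat_lit 152) (nat_lit 24625770049) (nat_lit 76) (nat_lit 52244476951) (nat_lit 9) (nat_lit 5) (nat_lit 11) (nat_lit 5) (nat_lit 10) (nat_lit 4) (nat_lit 402) (nat_lit 263) (nat_lit 115)) (XT.lf (nat_lit 0) (nat_lit 16372120084) (nat_lit 152) (nat_lit 12010349983) (nat_lit 76) (nat_lit 61027765859) (nat_lit 9) (nat_lit 5) (nat_lit 11) (nat_lit 5) (nat_lit 10) (nat_lit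 4) (nat_lit 403) (nat_lit 263) (nat_lit 114))) (XT.nd (nat_lit 78) (nat_lit 0) (nat_lit 0) (XT.lf (nat_lit 0) (nat_lit 993509956) (nat_lit 76) (nat_lit 21792487010) (nat_lit 152) (nat_lit 69086464051) (nat_lit 8) (nat_lit 5) (nat_lit 9) (nat_lit 5) (nat_lit 10) (nat_lit 4) (nat_lit 404) (nat_lit 263) (nat_lit 113)) (XT.lf (nat_lit 0) (nat_lit 14624368660) (nat_lit 76) (nat_lit 14884137557) (nat_lit 152) (nat_lit 64896561788) (nat_lit 8) (nat_lit 5) (nat_lit 9) (nat_lit 5) (nat_lit 10) (nat_lit 4) (nat_lit 405) (nat_lit 263) (nat_lit 112))))) (XT.nd (nat_lit 29640) (nat_lit 0) (nat_lit 21964) (XT.nd (nat_lit 78) (nat_lit 0) (nat_lit 0) (XT.lf (nat_lit 0) (nat_lit 28655107072) (nat_lit 76) (nat_lit 7772666275) (nat_lit 152) (nat_lit 60586028959) (nat_lit 8) (nat_lit 5) (nat_lit 9) (nat_lit 5) (nat_lit 10) (nat_lit 4) (nat_lit 406) (nat_lit 263) (nat_lit 111)) (XT.nd (nat_lit 29484) (nat_lit 0) (nat_lit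 22344) (XT.lf (nat_lit 0) (nat_lit 43097985063) (nat_lit 76) (nat_lit 451859254) (nat_lit 152) (nat_lit 56151099080) (nat_lit 8) (nat_lit 5) (nat_lit 9) (nat_lit 5) (nat_lit 10) (nat_lit 4) (nat_lit 407) (nat_lit 263) (nat_lit 110)) (XT.lf (nat_lit 0) (nat_lit 1176675894) (nat_lit 380) (nat_lit 1039732626) (nat_lit 380) (nat_lit 1039732626) (nat_lit 302) (nat_lit 3) (nat_lit 307) (nat_lit 3) (nat_lit 307) (nat_lit 5) (nat_lit 264) (nat_lit 264) (nat_lit 252)))) (XT.nd (nat_lit 156) (nat_lit 0) (nat_lit 0) (XT.nd (nat_lit 78) (nat_lit 380) (nat_lit 0) (XT.lf (nat_lit 76) (nat_lit 929427681) (nat_lit 0) (nat_lit 3895162083) (nat_lit 380) (nat_lit 1706822085) (nat_lit 303) (nat_lit 5) (nat_lit 302) (nat_lit 3) (nat_lit 307) (nat_lit 5) (nat_lit 265) (nat_lit 264) (nat_lit 251)) (XT.lf (nat_lit 0) (nat_lit 727726742) (nat_lit 380) (nat_lit 2539335381) (nat_lit 456) (nat_lit 3286278860) (nat_lit 297)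 (nat_lit 5) (nat_lit 302) (nat_lit 3) (nat_lit 303) (nat_lit 5) (nat_lit 266) (nat_lit 264) (nat_lit 250))) (XT.nd (nat_lit 78) (nat_lit 0) (nat_lit 0) (XT.lf (nat_lit 76) (nat_lit 558725256) (nat_lit 0) (nat_lit 2554107914) (nat_lit 456) (nat_lit 3465434514) (nat_lit 298) (nat_lit 5) (nat_lit 297) (nat_lit 5) (nat_lit 303) (nat_lit 5) (nat_lit 267) (nat_lit 264) (nat_lit 249)) (XT.lf (nat_lit 76) (nat_lit 3751805288) (nat_lit 0) (nat_lit 1752029757) (nat_lit 456) (nat_lit 1102272471) (nat_lit 298) (nat_lit 5) (nat_lit 297) (nat_lit 5) (nat_lit 303) (nat_lit 5) (nat_lit 268) (nat_lit 264) (nat_lit 248))))))) (XT.nd (nat_lit 1014) (nat_lit 6992) (nat_lit 0) (XT.nd (nat_lit 468) (nat_lit 2660) (nat_lit 0) (XT.nd (nat_lit 234) (nat_lit 456) (nat_lit 0) (XT.nd (nat_lit 78) (nat_lit 0) (nat_lit 76) (XT.lf (nat_lit 76) (nat_lit 349421362) (nat_lit 0) (nat_lit 870029356) (nat_lit 532) (nat_lit 5417722510)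 (nat_lit 292) (nat_lit 5) (nat_lit 291) (nat_lit 5) (nat_lit 298) (nat_lit 5) (nat_lit 269) (nat_lit 264) (nat_lit 247)) (XT.nd (nat_lit 78) (nat_lit 0) (nat_lit 0) (XT.lf (nat_lit 0) (nat_lit 3530937401) (nat_lit 456) (nat_lit 3025270297) (nat_lit 532) (nat_lit 114546812) (nat_lit 292) (nat_lit 5) (nat_lit 298) (nat_lit 5) (nat_lit 299) (nat_lit 5) (nat_lit 270) (nat_lit 264) (nat_lit 246)) (XT.lf (nat_lit 76) (nat_lit 280327451) (nat_lit 0) (nat_lit 5558078928) (nat_lit 532) (nat_lit 869311508) (nat_lit 293) (nat_lit 5) (nat_lit 292) (nat_lit 5) (nat_lit 299) (nat_lit 5) (nat_lit 271) (nat_lit 264) (nat_lit 245)))) (XT.nd (nat_lit 78) (nat_lit 0) (nat_lit 0) (XT.lf (nat_lit 0) (nat_lit 1387809035) (nat_lit 532) (nat_lit 3065129352) (nat_lit 608) (nat_lit 2294176731) (nat_lit 285) (nat_lit 5) (nat_lit 292) (nat_lit 5) (nat_lit 293) (nat_lit 5) (nat_lit 272) (nat_lit 264) (nat_lit 244)) (XT.nd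 (nat_lit 78) (nat_lit 0) (nat_lit 0) (XT.lf (nat_lit 76) (nat_lit 344723682) (nat_lit 0) (nat_lit 3272517724) (nat_lit 608) (nat_lit 3172691572) (nat_lit 286) (nat_lit 5) (nat_lit 285) (nat_lit 5) (nat_lit 293) (nat_lit 5) (nat_lit 273) (nat_lit 264) (nat_lit 243)) (XT.lf (nat_lit 76) (nat_lit 3868812696) (nat_lit 0) (nat_lit 1996329771) (nat_lit 608) (nat_lit 970499742) (nat_lit 286) (nat_lit 5) (nat_lit 285) (nat_lit 5) (nat_lit 293) (nat_lit 5) (nat_lit 274) (nat_lit 264) (nat_lit 242))))) (XT.nd (nat_lit 234) (nat_lit 1520) (nat_lit 0) (XT.nd (nat_lit 78) (nat_lit 532) (nat_lit 0) (XT.lf (nat_lit 76) (nat_lit 563312415) (nat_lit 0) (nat_lit 636572056) (nat_lit 684) (nat_lit 5684786026) (nat_lit 278) (nat_lit 5) (nat_lit 277) (nat_lit 5) (nat_lit 286) (nat_lit 5) (nat_lit 275) (nat_lit 264) (nat_lit 241)) (XT.nd (nat_lit 78) (nat_lit 608) (nat_lit 0) (XT.lf (nat_lit 0) (nat_lit 3377539589)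 (nat_lit 608) (nat_lit 2744622678) (nat_lit 76) (nat_lit 814010440) (nat_lit 278) (nat_lit 5) (nat_lit 286) (nat_lit 5) (nat_lit 279) (nat_lit 5) (nat_lit 276) (nat_lit 264) (nat_lit 240)) (XT.lf (nat_lit 0) (nat_lit 898927036) (nat_lit 608) (nat_lit 4662818575) (nat_lit 684) (nat_lit 1429374923) (nat_lit 270) (nat_lit 5) (nat_lit 278) (nat_lit 5) (nat_lit 279) (nat_lit 5) (nat_lit 277) (nat_lit 264) (nat_lit 239)))) (XT.nd (nat_lit 156) (nat_lit 760) (nat_lit 0) (XT.nd (nat_lit 78) (nat_lit 684) (nat_lit 0) (XT.lf (nat_lit 0) (nat_lit 703935299) (nat_lit 684) (nat_lit 2399255808) (nat_lit 76) (nat_lit 3945782408) (nat_lit 269) (nat_lit 5) (nat_lit 278) (nat_lit 5) (nat_lit 270) (nat_lit 5) (nat_lit 278) (nat_lit 264) (nat_lit 238)) (XT.lf (nat_lit 0) (nat_lit 1365705838) (nat_lit 684) (nat_lit 1449149905) (nat_lit 760) (nat_lit 4295137125) (nat_lit 260) (nat_lit 5) (nat_lit 269) (nat_lit 5) (nat_lit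 270) (nat_lit 5) (nat_lit 279) (nat_lit 264) (nat_lit 237))) (XT.nd (nat_lit 78) (nat_lit 760) (nat_lit 0) (XT.lf (nat_lit 0) (nat_lit 4946981185) (nat_lit 760) (nat_lit 1935138589) (nat_lit 76) (nat_lit 292108595) (nat_lit 260) (nat_lit 5) (nat_lit 270) (nat_lit 5) (nat_lit 261) (nat_lit 5) (nat_lit 280) (nat_lit 264) (nat_lit 236)) (XT.lf (nat_lit 0) (nat_lit 1960607481) (nat_lit 760) (nat_lit 5148631461) (nat_lit 836) (nat_lit 132285276) (nat_lit 250) (nat_lit 5) (nat_lit 260) (nat_lit 5) (nat_lit 261) (nat_lit 5) (nat_lit 281) (nat_lit 264) (nat_lit 235)))))) (XT.nd (nat_lit 546) (nat_lit 3040) (nat_lit 0) (XT.nd (nat_lit 234) (nat_lit 3040) (nat_lit 0) (XT.nd (nat_lit 78) (nat_lit 836) (nat_lit 0) (XT.lf (nat_lit 0) (nat_lit 1939408128) (nat_lit 836) (nat_lit 1369535535) (nat_lit 76) (nat_lit 4002820472) (nat_lit 249) (nat_lit 5) (nat_lit 260) (nat_lit 5) (nat_lit 250) (nat_lit 5) (nat_lit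 282) (nat_lit 264) (nat_lit 234)) (XT.nd (nat_lit 78) (nat_lit 0) (nat_lit 0) (XT.lf (nat_lit 0) (nat_lit 2658776017) (nat_lit 836) (nat_lit 1372980496) (nat_lit 912) (nat_lit 3353588850) (nat_lit 238) (nat_lit 5) (nat_lit 249) (nat_lit 5) (nat_lit 250) (nat_lit 5) (nat_lit 283) (nat_lit 264) (nat_lit 233)) (XT.lf (nat_lit 0) (nat_lit 6143927777) (nat_lit 912) (nat_lit 683414461) (nat_lit 76) (nat_lit 635185360) (nat_lit 238) (nat_lit 5) (nat_lit 250) (nat_lit 5) (nat_lit 239) (nat_lit 5) (nat_lit 284) (nat_lit 264) (nat_lit 232)))) (XT.nd (nat_lit 156) (nat_lit 1064) (nat_lit 0) (XT.nd (nat_lit 78) (nat_lit 988) (nat_lit 0) (XT.lf (nat_lit 0) (nat_lit 748065045) (nat_lit 988) (nat_lit 4065513959) (nat_lit 76) (nat_lit 2728747304) (nat_lit 225) (nat_lit 5) (nat_lit 238) (nat_lit 5) (nat_lit 226) (nat_lit 5) (nat_lit 285) (nat_lit 264) (nat_lit 231)) (XT.lf (nat_lit 0) (nat_lit 88276138) (nat_lit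 988) (nat_lit 2709319928) (nat_lit 1064) (nat_lit 4828206407) (nat_lit 212) (nat_lit 5) (nat_lit 225) (nat_lit 5) (nat_lit 226) (nat_lit 5) (nat_lit 286) (nat_lit 264) (nat_lit 230))) (XT.nd (nat_lit 78) (nat_lit 1064) (nat_lit 0) (XT.lf (nat_lit 0) (nat_lit 4398661460) (nat_lit 988) (nat_lit 491822977) (nat_lit 1064) (nat_lit 2821935763) (nat_lit 212) (nat_lit 5) (nat_lit 225) (nat_lit 5) (nat_lit 226) (nat_lit 5) (nat_lit 287) (nat_lit 264) (nat_lit 229)) (XT.lf (nat_lit 0) (nat_lit 987005033) (nat_lit 1064) (nat_lit 6028484314) (nat_lit 1140) (nat_lit 787157912) (nat_lit 198) (nat_lit 5) (nat_lit 212) (nat_lit 5) (nat_lit 213) (nat_lit 5) (nat_lit 288) (nat_lit 264) (nat_lit 228))))) (XT.nd (nat_lit 234) (nat_lit 1824) (nat_lit 0) (XT.nd (nat_lit 78) (nat_lit 1140) (nat_lit 0) (XT.lf (nat_lit 0) (nat_lit 1264940349) (nat_lit 1140) (nat_lit 2480095970) (nat_lit 76) (nat_lit 4150798498) (nat_lit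 197) (nat_lit 5) (nat_lit 212) (nat_lit 5) (nat_lit 198) (nat_lit 5) (nat_lit 289) (nat_lit 264) (nat_lit 227)) (XT.nd (nat_lit 78) (nat_lit 0) (nat_lit 0) (XT.lf (nat_lit 0) (nat_lit 1965139177) (nat_lit 1140) (nat_lit 1361337714) (nat_lit 1216) (nat_lit 4666279409) (nat_lit 182) (nat_lit 5) (nat_lit 197) (nat_lit 5) (nat_lit 198) (nat_lit 5) (nat_lit 290) (nat_lit 264) (nat_lit 226)) (XT.lf (nat_lit 0) (nat_lit 5431630661) (nat_lit 1216) (nat_lit 1560195288) (nat_lit 76) (nat_lit 1101386928) (nat_lit 182) (nat_lit 5) (nat_lit 198) (nat_lit 5) (nat_lit 183) (nat_lit 5) (nat_lit 291) (nat_lit 264) (nat_lit 225)))) (XT.nd (nat_lit 156) (nat_lit 1140) (nat_lit 0) (XT.nd (nat_lit 78) (nat_lit 76) (nat_lit 0) (XT.lf (nat_lit 0) (nat_lit 3036371474) (nat_lit 608) (nat_lit 4553771578) (nat_lit 684) (nat_lit 606912216) (nat_lit 174) (nat_lit 5) (nat_lit 182) (nat_lit 5) (nat_lit 183) (nat_lit 5) (nat_lit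 292) (nat_lit 264) (nat_lit 224)) (XT.lf (nat_lit 0) (nat_lit 1443855328) (nat_lit 684) (nat_lit 566649571) (nat_lit 76) (nat_lit 6294229162) (nat_lit 173) (nat_lit 5) (nat_lit 182) (nat_lit 5) (nat_lit 174) (nat_lit 5) (nat_lit 293) (nat_lit 264) (nat_lit 223))) (XT.nd (nat_lit 78) (nat_lit 532) (nat_lit 0) (XT.lf (nat_lit 0) (nat_lit 3540070891) (nat_lit 684) (nat_lit 4230946750) (nat_lit 76) (nat_lit 644633203) (nat_lit 165) (nat_lit 5) (nat_lit 174) (nat_lit 5) (nat_lit 166) (nat_lit 5) (nat_lit 294) (nat_lit 264) (nat_lit 222)) (XT.lf (nat_lit 0) (nat_lit 499436905) (nat_lit 532) (nat_lit 5180735205) (nat_lit 608) (nat_lit 2850362557) (nat_lit 158) (nat_lit 5) (nat_lit 165) (nat_lit 5) (nat_lit 166) (nat_lit 5) (nat_lit 295) (nat_lit 264) (nat_lit 221))))))))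
noncomputable def xc116 : XT := (XT.nd (nat_lit 2028) (nat_lit 3040) (nat_lit 0) (XT.nd (nat_lit 1014) (nat_lit 2584) (nat_lit 0) (XT.nd (nat_lit 468) (nat_lit 1748) (nat_lit 0) (XT.nd (nat_lit 234) (nat_lit 1064) (nat_lit 0) (XT.nd (nat_lit 78) (nat_lit 608) (nat_lit 0) (XT.lf (nat_lit 0) (nat_lit 5408123805) (nat_lit 532) (nat_lit 2470547896) (nat_lit 608) (nat_lit 770434931) (nat_lit 158) (nat_lit 5) (nat_lit 165) (nat_lit 5) (nat_lit 166) (nat_lit 5) (nat_lit 296) (nat_lit 264) (nat_lit 220)) (XT.nd (nat_lit 78) (nat_lit 0) (nat_lit 0) (XT.lf (nat_lit 0) (nat_lit 1316804251) (nat_lit 608) (nat_lit 7113006785) (nat_lit 76) (nat_lit 341942184) (nat_lit 150) (nat_lit 5) (nat_lit 158) (nat_lit 5) (nat_lit 151) (nat_lit 5) (nat_lit 297) (nat_lit 264) (nat_lit 219)) (XT.lf (nat_lit 0) (nat_lit 3461929257) (nat_lit 608) (nat_lit 2208439134) (nat_lit 76) (nat_lit 3227221122) (nat_lit 150) (nat_lit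 5) (nat_lit 158) (nat_lit 5) (nat_lit 151) (nat_lit 5) (nat_lit 298) (nat_lit 264) (nat_lit 218)))) (XT.nd (nat_lit 78) (nat_lit 608) (nat_lit 0) (XT.lf (nat_lit 0) (nat_lit 2849517141) (nat_lit 456) (nat_lit 2803885232) (nat_lit 532) (nat_lit 3374398653) (nat_lit 144) (nat_lit 5) (nat_lit 150) (nat_lit 5) (nat_lit 151) (nat_lit 5) (nat_lit 299) (nat_lit 264) (nat_lit 217)) (XT.nd (nat_lit 78) (nat_lit 608) (nat_lit 0) (XT.lf (nat_lit 0) (nat_lit 7889983723) (nat_lit 532) (nat_lit 1108637955) (nat_lit 76) (nat_lit 163974501) (nat_lit 144) (nat_lit 5) (nat_lit 151) (nat_lit 5) (nat_lit 145) (nat_lit 5) (nat_lit 300) (nat_lit 264) (nat_lit 216)) (XT.lf (nat_lit 0) (nat_lit 899047559) (nat_lit 608) (nat_lit 5192671649) (nat_lit 76) (nat_lit 3208786629) (nat_lit 136) (nat_lit 5) (nat_lit 144) (nat_lit 5) (nat_lit 137) (nat_lit 5) (nat_lit 301) (nat_lit 264) (nat_lit 215))))) (XT.nd (nat_lit 234) (nat_lit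 836) (nat_lit 0) (XT.nd (nat_lit 78) (nat_lit 912) (nat_lit 0) (XT.lf (nat_lit 0) (nat_lit 3078619820) (nat_lit 608) (nat_lit 590851) (nat_lit 76) (nat_lit 6363967164) (nat_lit 136) (nat_lit 5) (nat_lit 144) (nat_lit 5) (nat_lit 137) (nat_lit 5) (nat_lit 302) (nat_lit 264) (nat_lit 214)) (XT.nd (nat_lit 78) (nat_lit 456) (nat_lit 0) (XT.lf (nat_lit 0) (nat_lit 5334505172) (nat_lit 532) (nat_lit 4185592356) (nat_lit 76) (nat_lit 69756411) (nat_lit 130) (nat_lit 5) (nat_lit 137) (nat_lit 5) (nat_lit 131) (nat_lit 5) (nat_lit 303) (nat_lit 264) (nat_lit 213)) (XT.lf (nat_lit 0) (nat_lit 1174261884) (nat_lit 456) (nat_lit 6484571881) (nat_lit 532) (nat_lit 2082123777) (nat_lit 124) (nat_lit 5) (nat_lit 130) (nat_lit 5) (nat_lit 131) (nat_lit 5) (nat_lit 304) (nat_lit 264) (nat_lit 212)))) (XT.nd (nat_lit 156) (nat_lit 380) (nat_lit 0) (XT.nd (nat_lit 78) (nat_lit 380) (nat_lit 0) (XT.lf (nat_lit 0)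 (nat_lit 155204739) (nat_lit 532) (nat_lit 3165423690) (nat_lit 76) (nat_lit 6575909384) (nat_lit 123) (nat_lit 5) (nat_lit 130) (nat_lit 5) (nat_lit 124) (nat_lit 5) (nat_lit 305) (nat_lit 264) (nat_lit 211)) (XT.lf (nat_lit 0) (nat_lit 2376174207) (nat_lit 380) (nat_lit 24929729) (nat_lit 456) (nat_lit 7655610076) (nat_lit 118) (nat_lit 5) (nat_lit 123) (nat_lit 5) (nat_lit 124) (nat_lit 5) (nat_lit 306) (nat_lit 264) (nat_lit 210))) (XT.nd (nat_lit 78) (nat_lit 380) (nat_lit 0) (XT.lf (nat_lit 0) (nat_lit 4740131915) (nat_lit 456) (nat_lit 2152666933) (nat_lit 76) (nat_lit 3328168712) (nat_lit 118) (nat_lit 5) (nat_lit 124) (nat_lit 5) (nat_lit 119) (nat_lit 5) (nat_lit 307) (nat_lit 264) (nat_lit 209)) (XT.lf (nat_lit 0) (nat_lit 3563604962) (nat_lit 380) (nat_lit 3582441461) (nat_lit 456) (nat_lit 3244244139) (nat_lit 113) (nat_lit 5) (nat_lit 118) (nat_lit 5) (nat_lit 119) (nat_lit 5) (nat_lit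 308) (nat_lit 264) (nat_lit 208)))))) (XT.nd (nat_lit 468) (nat_lit 1368) (nat_lit 0) (XT.nd (nat_lit 234) (nat_lit 760) (nat_lit 0) (XT.nd (nat_lit 78) (nat_lit 456) (nat_lit 0) (XT.lf (nat_lit 0) (nat_lit 9449221603) (nat_lit 380) (nat_lit 159523588) (nat_lit 456) (nat_lit 956451913) (nat_lit 113) (nat_lit 5) (nat_lit 118) (nat_lit 5) (nat_lit 119) (nat_lit 5) (nat_lit 309) (nat_lit 264) (nat_lit 207)) (XT.nd (nat_lit 78) (nat_lit 0) (nat_lit 0) (XT.lf (nat_lit 0) (nat_lit 1415213486) (nat_lit 456) (nat_lit 5976966940) (nat_lit 76) (nat_lit 3351529599) (nat_lit 107) (nat_lit 5) (nat_lit 113) (nat_lit 5) (nat_lit 108) (nat_lit 5) (nat_lit 310) (nat_lit 264) (nat_lit 206)) (XT.lf (nat_lit 0) (nat_lit 3815855035) (nat_lit 456) (nat_lit 135844330) (nat_lit 76) (nat_lit 6976321862) (nat_lit 107) (nat_lit 5) (nat_lit 113) (nat_lit 5) (nat_lit 108) (nat_lit 5) (nat_lit 311) (nat_lit 264) (nat_lit 205))))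 (XT.nd (nat_lit 78) (nat_lit 380) (nat_lit 0) (XT.lf (nat_lit 0) (nat_lit 5951736364) (nat_lit 380) (nat_lit 359126869) (nat_lit 456) (nat_lit 4806365476) (nat_lit 102) (nat_lit 5) (nat_lit 107) (nat_lit 5) (nat_lit 108) (nat_lit 5) (nat_lit 312) (nat_lit 264) (nat_lit 204)) (XT.nd (nat_lit 78) (nat_lit 76) (nat_lit 0) (XT.lf (nat_lit 0) (nat_lit 851704665) (nat_lit 304) (nat_lit 8036332921) (nat_lit 380) (nat_lit 2423891631) (nat_lit 98) (nat_lit 5) (nat_lit 102) (nat_lit 5) (nat_lit 103) (nat_lit 5) (nat_lit 313) (nat_lit 264) (nat_lit 203)) (XT.lf (nat_lit 0) (nat_lit 51528427) (nat_lit 380) (nat_lit 4405672297) (nat_lit 76) (nat_lit 7054633789) (nat_lit 97) (nat_lit 5) (nat_lit 102) (nat_lit 5) (nat_lit 98) (nat_lit 5) (nat_lit 314) (nat_lit 264) (nat_lit 202))))) (XT.nd (nat_lit 234) (nat_lit 684) (nat_lit 0) (XT.nd (nat_lit 78) (nat_lit 304) (nat_lit 0) (XT.lf (nat_lit 0) (nat_lit 1797208551)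 (nat_lit 380) (nat_lit 739380973) (nat_lit 456) (nat_lit 9180937786) (nat_lit 92) (nat_lit 5) (nat_lit 97) (nat_lit 5) (nat_lit 98) (nat_lit 5) (nat_lit 315) (nat_lit 264) (nat_lit 201)) (XT.nd (nat_lit 78) (nat_lit 304) (nat_lit 0) (XT.lf (nat_lit 0) (nat_lit 5138089972) (nat_lit 456) (nat_lit 3726558210) (nat_lit 76) (nat_lit 3063518317) (nat_lit 92) (nat_lit 5) (nat_lit 98) (nat_lit 5) (nat_lit 93) (nat_lit 5) (nat_lit 316) (nat_lit 264) (nat_lit 200)) (XT.lf (nat_lit 0) (nat_lit 2653942164) (nat_lit 304) (nat_lit 5164734575) (nat_lit 380) (nat_lit 4326448179) (nat_lit 88) (nat_lit 5) (nat_lit 92) (nat_lit 5) (nat_lit 93) (nat_lit 5) (nat_lit 317) (nat_lit 264) (nat_lit 199)))) (XT.nd (nat_lit 156) (nat_lit 304) (nat_lit 0) (XT.nd (nat_lit 78) (nat_lit 380) (nat_lit 0) (XT.lf (nat_lit 0) (nat_lit 9259134848) (nat_lit 304) (nat_lit 1326898087) (nat_lit 380) (nat_lit 1782398983) (nat_lit 88)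 (nat_lit 5) (nat_lit 92) (nat_lit 5) (nat_lit 93) (nat_lit 5) (nat_lit 318) (nat_lit 264) (nat_lit 198)) (XT.lf (nat_lit 0) (nat_lit 849928894) (nat_lit 380) (nat_lit 9142255221) (nat_lit 76) (nat_lit 2605191724) (nat_lit 83) (nat_lit 5) (nat_lit 88) (nat_lit 5) (nat_lit 84) (nat_lit 5) (nat_lit 319) (nat_lit 264) (nat_lit 197))) (XT.nd (nat_lit 78) (nat_lit 304) (nat_lit 0) (XT.lf (nat_lit 0) (nat_lit 3539926245) (nat_lit 380) (nat_lit 2626034374) (nat_lit 76) (nat_lit 6666290115) (nat_lit 83) (nat_lit 5) (nat_lit 88) (nat_lit 5) (nat_lit 84) (nat_lit 5) (nat_lit 320) (nat_lit 264) (nat_lit 196)) (XT.lf (nat_lit 0) (nat_lit 4124505978) (nat_lit 304) (nat_lit 2196325798) (nat_lit 380) (nat_lit 6753060847) (nat_lit 79) (nat_lit 5) (nat_lit 83) (nat_lit 5) (nat_lit 84) (nat_lit 5) (nat_lit 321) (nat_lit 264) (nat_lit 195))))))) (XT.nd (nat_lit 1014) (nat_lit 1292) (nat_lit 0) (XT.nd (nat_lit 468)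 (nat_lit 836) (nat_lit 0) (XT.nd (nat_lit 234) (nat_lit 532) (nat_lit 0) (XT.nd (nat_lit 78) (nat_lit 380) (nat_lit 0) (XT.lf (nat_lit 0) (nat_lit 9201039798) (nat_lit 380) (nat_lit 2251068398) (nat_lit 76) (nat_lit 1870225521) (nat_lit 79) (nat_lit 5) (nat_lit 84) (nat_lit 5) (nat_lit 80) (nat_lit 5) (nat_lit 322) (nat_lit 264) (nat_lit 194)) (XT.nd (nat_lit 78) (nat_lit 76) (nat_lit 0) (XT.lf (nat_lit 0) (nat_lit 4676920663) (nat_lit 304) (nat_lit 7529188158) (nat_lit 380) (nat_lit 1370991024) (nat_lit 75) (nat_lit 5) (nat_lit 79) (nat_lit 5) (nat_lit 80) (nat_lit 5) (nat_lit 323) (nat_lit 264) (nat_lit 193)) (XT.lf (nat_lit 0) (nat_lit 1428138391) (nat_lit 380) (nat_lit 2035189938) (nat_lit 76) (nat_lit 10375937769) (nat_lit 74) (nat_lit 5) (nat_lit 79) (nat_lit 5) (nat_lit 75) (nat_lit 5) (nat_lit 324) (nat_lit 264) (nat_lit 192)))) (XT.nd (nat_lit 78) (nat_lit 304) (nat_lit 0) (XT.lf (nat_lit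 0) (nat_lit 4312700663) (nat_lit 304) (nat_lit 9034181524) (nat_lit 76) (nat_lit 761160777) (nat_lit 71) (nat_lit 5) (nat_lit 75) (nat_lit 5) (nat_lit 72) (nat_lit 5) (nat_lit 325) (nat_lit 264) (nat_lit 191)) (XT.nd (nat_lit 78) (nat_lit 304) (nat_lit 0) (XT.lf (nat_lit 0) (nat_lit 7311846281) (nat_lit 304) (nat_lit 2020961702) (nat_lit 76) (nat_lit 5051256365) (nat_lit 71) (nat_lit 5) (nat_lit 75) (nat_lit 5) (nat_lit 72) (nat_lit 5) (nat_lit 326) (nat_lit 264) (nat_lit 190)) (XT.lf (nat_lit 0) (nat_lit 5266485920) (nat_lit 304) (nat_lit 5158892594) (nat_lit 380) (nat_lit 4242277440) (nat_lit 67) (nat_lit 5) (nat_lit 71) (nat_lit 5) (nat_lit 72) (nat_lit 5) (nat_lit 327) (nat_lit 264) (nat_lit 189))))) (XT.nd (nat_lit 234) (nat_lit 532) (nat_lit 0) (XT.nd (nat_lit 78) (nat_lit 304) (nat_lit 0) (XT.lf (nat_lit 0) (nat_lit 12775429537) (nat_lit 304) (nat_lit 851475346) (nat_lit 380) (nat_lit 1333034091)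 (nat_lit 67) (nat_lit 5) (nat_lit 71) (nat_lit 5) (nat_lit 72) (nat_lit 5) (nat_lit 328) (nat_lit 264) (nat_lit 188)) (XT.nd (nat_lit 78) (nat_lit 0) (nat_lit 0) (XT.lf (nat_lit 0) (nat_lit 1691622421) (nat_lit 304) (nat_lit 9996678328) (nat_lit 76) (nat_lit 3570412213) (nat_lit 63) (nat_lit 5) (nat_lit 67) (nat_lit 5) (nat_lit 64) (nat_lit 5) (nat_lit 329) (nat_lit 264) (nat_lit 187)) (XT.lf (nat_lit 0) (nat_lit 4785853348) (nat_lit 304) (nat_lit 2649111601) (nat_lit 76) (nat_lit 8130939951) (nat_lit 63) (nat_lit 5) (nat_lit 67) (nat_lit 5) (nat_lit 64) (nat_lit 5) (nat_lit 330) (nat_lit 264) (nat_lit 186)))) (XT.nd (nat_lit 156) (nat_lit 304) (nat_lit 0) (XT.nd (nat_lit 78) (nat_lit 0) (nat_lit 0) (XT.lf (nat_lit 0) (nat_lit 4978921018) (nat_lit 228) (nat_lit 3017500389) (nat_lit 304) (nat_lit 7885204814) (nat_lit 60) (nat_lit 5) (nat_lit 63) (nat_lit 5) (nat_lit 64) (nat_lit 5) (nat_lit 331)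 (nat_lit 264) (nat_lit 185)) (XT.lf (nat_lit 0) (nat_lit 11320936462) (nat_lit 304) (nat_lit 3368283373) (nat_lit 76) (nat_lit 1517088831) (nat_lit 60) (nat_lit 5) (nat_lit 64) (nat_lit 5) (nat_lit 61) (nat_lit 5) (nat_lit 332) (nat_lit 264) (nat_lit 184))) (XT.nd (nat_lit 78) (nat_lit 76) (nat_lit 0) (XT.lf (nat_lit 0) (nat_lit 4412110010) (nat_lit 228) (nat_lit 10381950583) (nat_lit 304) (nat_lit 1745222629) (nat_lit 57) (nat_lit 5) (nat_lit 60) (nat_lit 5) (nat_lit 61) (nat_lit 5) (nat_lit 333) (nat_lit 264) (nat_lit 183)) (XT.lf (nat_lit 0) (nat_lit 1471099576) (nat_lit 304) (nat_lit 4437322451) (nat_lit 76) (nat_lit 10973081581) (nat_lit 56) (nat_lit 5) (nat_lit 60) (nat_lit 5) (nat_lit 57) (nat_lit 5) (nat_lit 334) (nat_lit 264) (nat_lit 182)))))) (XT.nd (nat_lit 546) (nat_lit 608) (nat_lit 0) (XT.nd (nat_lit 234) (nat_lit 304) (nat_lit 0) (XT.nd (nat_lit 78) (nat_lit 152) (nat_lit 0) (XT.lf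 (nat_lit 0) (nat_lit 3498874090) (nat_lit 228) (nat_lit 1260949391) (nat_lit 304) (nat_lit 12473335396) (nat_lit 53) (nat_lit 5) (nat_lit 56) (nat_lit 5) (nat_lit 57) (nat_lit 5) (nat_lit 335) (nat_lit 264) (nat_lit 181)) (XT.nd (nat_lit 78) (nat_lit 152) (nat_lit 0) (XT.lf (nat_lit 0) (nat_lit 8203911757) (nat_lit 304) (nat_lit 5899802507) (nat_lit 76) (nat_lit 3489964317) (nat_lit 53) (nat_lit 5) (nat_lit 57) (nat_lit 5) (nat_lit 54) (nat_lit 5) (nat_lit 336) (nat_lit 264) (nat_lit 180)) (XT.lf (nat_lit 0) (nat_lit 2164948320) (nat_lit 152) (nat_lit 9597880676) (nat_lit 228) (nat_lit 6201855083) (nat_lit 51) (nat_lit 5) (nat_lit 53) (nat_lit 5) (nat_lit 54) (nat_lit 5) (nat_lit 337) (nat_lit 264) (nat_lit 179)))) (XT.nd (nat_lit 156) (nat_lit 0) (nat_lit 0) (XT.nd (nat_lit 78) (nat_lit 304) (nat_lit 0) (XT.lf (nat_lit 0) (nat_lit 10558393131) (nat_lit 152) (nat_lit 4908213915) (nat_lit 228)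 (nat_lit 2879084846) (nat_lit 51) (nat_lit 5) (nat_lit 53) (nat_lit 5) (nat_lit 54) (nat_lit 5) (nat_lit 338) (nat_lit 264) (nat_lit 178)) (XT.lf (nat_lit 0) (nat_lit 435153052) (nat_lit 228) (nat_lit 80717165) (nat_lit 304) (nat_lit 18222623969) (nat_lit 47) (nat_lit 5) (nat_lit 50) (nat_lit 5) (nat_lit 51) (nat_lit 5) (nat_lit 339) (nat_lit 264) (nat_lit 177))) (XT.nd (nat_lit 78) (nat_lit 0) (nat_lit 0) (XT.lf (nat_lit 0) (nat_lit 4060338722) (nat_lit 304) (nat_lit 10186930274) (nat_lit 76) (nat_lit 4891804112) (nat_lit 47) (nat_lit 5) (nat_lit 51) (nat_lit 5) (nat_lit 48) (nat_lit 5) (nat_lit 340) (nat_lit 264) (nat_lit 176)) (XT.lf (nat_lit 0) (nat_lit 7691644751) (nat_lit 304) (nat_lit 1860655164) (nat_lit 76) (nat_lit 9999967656) (nat_lit 47) (nat_lit 5) (nat_lit 51) (nat_lit 5) (nat_lit 48) (nat_lit 5) (nat_lit 341) (nat_lit 264) (nat_lit 175))))) (XT.nd (nat_lit 234) (nat_lit 228) (nat_lit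 0) (XT.nd (nat_lit 78) (nat_lit 228) (nat_lit 0) (XT.lf (nat_lit 0) (nat_lit 6816550943) (nat_lit 152) (nat_lit 4661159303) (nat_lit 228) (nat_lit 8498785907) (nat_lit 45) (nat_lit 5) (nat_lit 47) (nat_lit 5) (nat_lit 48) (nat_lit 5) (nat_lit 342) (nat_lit 264) (nat_lit 174)) (XT.nd (nat_lit 78) (nat_lit 228) (nat_lit 0) (XT.lf (nat_lit 0) (nat_lit 15380403332) (nat_lit 228) (nat_lit 4656519544) (nat_lit 76) (nat_lit 376449865) (nat_lit 45) (nat_lit 5) (nat_lit 48) (nat_lit 5) (nat_lit 46) (nat_lit 5) (nat_lit 343) (nat_lit 264) (nat_lit 173)) (XT.lf (nat_lit 0) (nat_lit 4104853241) (nat_lit 228) (nat_lit 15361951263) (nat_lit 304) (nat_lit 1394564456) (nat_lit 42) (nat_lit 5) (nat_lit 45) (nat_lit 5) (nat_lit 46) (nat_lit 5) (nat_lit 344) (nat_lit 264) (nat_lit 172)))) (XT.nd (nat_lit 156) (nat_lit 0) (nat_lit 0) (XT.nd (nat_lit 78) (nat_lit 152) (nat_lit 0) (XT.lf (nat_lit 0) (nat_lit 2335643215)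 (nat_lit 304) (nat_lit 8151146180) (nat_lit 76) (nat_lit 10834491594) (nat_lit 41) (nat_lit 5) (nat_lit 45) (nat_lit 5) (nat_lit 42) (nat_lit 5) (nat_lit 345) (nat_lit 264) (nat_lit 171)) (XT.lf (nat_lit 0) (nat_lit 681596603) (nat_lit 152) (nat_lit 5456312834) (nat_lit 228) (nat_lit 15657032388) (nat_lit 39) (nat_lit 5) (nat_lit 41) (nat_lit 5) (nat_lit 42) (nat_lit 5) (nat_lit 346) (nat_lit 264) (nat_lit 170))) (XT.nd (nat_lit 78) (nat_lit 0) (nat_lit 0) (XT.lf (nat_lit 0) (nat_lit 9916428370) (nat_lit 152) (nat_lit 202002463) (nat_lit 228) (nat_lit 12162466833) (nat_lit 39) (nat_lit 5) (nat_lit 41) (nat_lit 5) (nat_lit 42) (nat_lit 5) (nat_lit 347) (nat_lit 264) (nat_lit 169)) (XT.lf (nat_lit 0) (nat_lit 14250742747) (nat_lit 228) (nat_lit 3432746348) (nat_lit 76) (nat_lit 5096982324) (nat_lit 39) (nat_lit 5) (nat_lit 42) (nat_lit 5) (nat_lit 40) (nat_lit 5) (nat_lit 348) (nat_lit 264) (nat_lit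 168))))))))
noncomputable def xc117 : XT := (XT.nd (nat_lit 2028) (nat_lit 684) (nat_lit 0) (XT.nd (nat_lit 1014) (nat_lit 608) (nat_lit 0) (XT.nd (nat_lit 468) (nat_lit 380) (nat_lit 0) (XT.nd (nat_lit 234) (nat_lit 152) (nat_lit 0) (XT.nd (nat_lit 78) (nat_lit 228) (nat_lit 0) (XT.lf (nat_lit 0) (nat_lit 5850413076) (nat_lit 152) (nat_lit 12697658200) (nat_lit 228) (nat_lit 4745739868) (nat_lit 37) (nat_lit 5) (nat_lit 39) (nat_lit 5) (nat_lit 40) (nat_lit 5) (nat_lit 349) (nat_lit 264) (nat_lit 167)) (XT.nd (nat_lit 78) (nat_lit 228) (nat_lit 0) (XT.lf (nat_lit 0) (nat_lit 15454038557) (nat_lit 152) (nat_lit 7537982328) (nat_lit 228) (nat_lit 830009020) (nat_lit 37) (nat_lit 5) (nat_lit 39) (nat_lit 5) (nat_lit 40) (nat_lit 5) (nat_lit 350) (nat_lit 264) (nat_lit 166)) (XT.lf (nat_lit 0) (nat_lit 939305668) (nat_lit 152) (nat_lit 2193770230) (nat_lit 228) (nat_lit 21232333275) (nat_lit 34)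 (nat_lit 5) (nat_lit 36) (nat_lit 5) (nat_lit 37) (nat_lit 5) (nat_lit 351) (nat_lit 264) (nat_lit 165)))) (XT.nd (nat_lit 78) (nat_lit 152) (nat_lit 0) (XT.lf (nat_lit 0) (nat_lit 7299003129) (nat_lit 228) (nat_lit 14294107632) (nat_lit 76) (nat_lit 3328722598) (nat_lit 34) (nat_lit 5) (nat_lit 37) (nat_lit 5) (nat_lit 35) (nat_lit 5) (nat_lit 352) (nat_lit 264) (nat_lit 164)) (XT.nd (nat_lit 78) (nat_lit 152) (nat_lit 0) (XT.lf (nat_lit 0) (nat_lit 11595580180) (nat_lit 228) (nat_lit 4937086322) (nat_lit 76) (nat_lit 8962122387) (nat_lit 34) (nat_lit 5) (nat_lit 37) (nat_lit 5) (nat_lit 35) (nat_lit 5) (nat_lit 353) (nat_lit 264) (nat_lit 163)) (XT.lf (nat_lit 0) (nat_lit 4767250550) (nat_lit 152) (nat_lit 11284048659) (nat_lit 228) (nat_lit 10032735061) (nat_lit 32) (nat_lit 5) (nat_lit 34) (nat_lit 5) (nat_lit 35) (nat_lit 5) (nat_lit 354) (nat_lit 264) (nat_lit 162))))) (XT.nd (nat_lit 234)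 (nat_lit 152) (nat_lit 0) (XT.nd (nat_lit 78) (nat_lit 228) (nat_lit 0) (XT.lf (nat_lit 0) (nat_lit 14837760688) (nat_lit 152) (nat_lit 5837405280) (nat_lit 228) (nat_lit 6014765034) (nat_lit 32) (nat_lit 5) (nat_lit 34) (nat_lit 5) (nat_lit 35) (nat_lit 5) (nat_lit 355) (nat_lit 264) (nat_lit 161)) (XT.nd (nat_lit 78) (nat_lit 228) (nat_lit 0) (XT.lf (nat_lit 0) (nat_lit 25184985866) (nat_lit 152) (nat_lit 237832056) (nat_lit 228) (nat_lit 1891642672) (nat_lit 32) (nat_lit 5) (nat_lit 34) (nat_lit 5) (nat_lit 35) (nat_lit 5) (nat_lit 356) (nat_lit 264) (nat_lit 160)) (XT.lf (nat_lit 0) (nat_lit 2425445554) (nat_lit 228) (nat_lit 20015949181) (nat_lit 76) (nat_lit 5512172828) (nat_lit 29) (nat_lit 5) (nat_lit 32) (nat_lit 5) (nat_lit 30) (nat_lit 5) (nat_lit 357) (nat_lit 264) (nat_lit 159)))) (XT.nd (nat_lit 156) (nat_lit 152) (nat_lit 0) (XT.nd (nat_lit 78) (nat_lit 0) (nat_lit 0) (XT.lf (nat_lit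 0) (nat_lit 6843540826) (nat_lit 228) (nat_lit 10307180345) (nat_lit 76) (nat_lit 11460286613) (nat_lit 29) (nat_lit 5) (nat_lit 32) (nat_lit 5) (nat_lit 30) (nat_lit 5) (nat_lit 358) (nat_lit 264) (nat_lit 158)) (XT.lf (nat_lit 0) (nat_lit 11380046280) (nat_lit 228) (nat_lit 331475947) (nat_lit 76) (nat_lit 17577080102) (nat_lit 29) (nat_lit 5) (nat_lit 32) (nat_lit 5) (nat_lit 30) (nat_lit 5) (nat_lit 359) (nat_lit 264) (nat_lit 157))) (XT.nd (nat_lit 78) (nat_lit 0) (nat_lit 0) (XT.lf (nat_lit 0) (nat_lit 10117305723) (nat_lit 152) (nat_lit 6018873862) (nat_lit 228) (nat_lit 13847846076) (nat_lit 27) (nat_lit 5) (nat_lit 29) (nat_lit 5) (nat_lit 30) (nat_lit 5) (nat_lit 360) (nat_lit 264) (nat_lit 156)) (XT.lf (nat_lit 0) (nat_lit 20862958400) (nat_lit 152) (nat_lit 161839531) (nat_lit 228) (nat_lit 9675826459) (nat_lit 27) (nat_lit 5) (nat_lit 29) (nat_lit 5) (nat_lit 30) (nat_lit 5) (nat_lit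 361) (nat_lit 264) (nat_lit 155)))))) (XT.nd (nat_lit 468) (nat_lit 304) (nat_lit 0) (XT.nd (nat_lit 234) (nat_lit 152) (nat_lit 0) (XT.nd (nat_lit 78) (nat_lit 76) (nat_lit 0) (XT.lf (nat_lit 0) (nat_lit 421025124) (nat_lit 76) (nat_lit 25686288082) (nat_lit 152) (nat_lit 5329997255) (nat_lit 26) (nat_lit 5) (nat_lit 27) (nat_lit 5) (nat_lit 28) (nat_lit 4) (nat_lit 362) (nat_lit 264) (nat_lit 154)) (XT.nd (nat_lit 78) (nat_lit 76) (nat_lit 0) (XT.lf (nat_lit 0) (nat_lit 11164715431) (nat_lit 76) (nat_lit 20265439461) (nat_lit 152) (nat_lit 763313036) (nat_lit 26) (nat_lit 5) (nat_lit 27) (nat_lit 5) (nat_lit 28) (nat_lit 4) (nat_lit 363) (nat_lit 264) (nat_lit 153)) (XT.lf (nat_lit 0) (nat_lit 3850653157) (nat_lit 152) (nat_lit 10801858219) (nat_lit 76) (nat_lit 18319053235) (nat_lit 25) (nat_lit 5) (nat_lit 27) (nat_lit 5) (nat_lit 26) (nat_lit 5) (nat_lit 364) (nat_lit 264) (nat_lit 152))))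 (XT.nd (nat_lit 78) (nat_lit 152) (nat_lit 0) (XT.lf (nat_lit 0) (nat_lit 8575242416) (nat_lit 152) (nat_lit 297449893) (nat_lit 76) (nat_lit 24900464586) (nat_lit 25) (nat_lit 5) (nat_lit 27) (nat_lit 5) (nat_lit 26) (nat_lit 5) (nat_lit 365) (nat_lit 264) (nat_lit 151)) (XT.nd (nat_lit 78) (nat_lit 0) (nat_lit 0) (XT.lf (nat_lit 0) (nat_lit 10709978783) (nat_lit 152) (nat_lit 2822450093) (nat_lit 228) (nat_lit 21063647920) (nat_lit 23) (nat_lit 5) (nat_lit 25) (nat_lit 5) (nat_lit 26) (nat_lit 5) (nat_lit 366) (nat_lit 264) (nat_lit 150)) (XT.lf (nat_lit 0) (nat_lit 18662110491) (nat_lit 228) (nat_lit 13443841309) (nat_lit 76) (nat_lit 3337024578) (nat_lit 23) (nat_lit 5) (nat_lit 26) (nat_lit 5) (nat_lit 24) (nat_lit 4) (nat_lit 367) (nat_lit 264) (nat_lit 149))))) (XT.nd (nat_lit 234) (nat_lit 228) (nat_lit 0) (XT.nd (nat_lit 78) (nat_lit 76) (nat_lit 0) (XT.lf (nat_lit 0) (nat_lit 23961951770)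 (nat_lit 228) (nat_lit 2736818134) (nat_lit 76) (nat_lit 9616030280) (nat_lit 23) (nat_lit 5) (nat_lit 26) (nat_lit 5) (nat_lit 24) (nat_lit 4) (nat_lit 368) (nat_lit 264) (nat_lit 148)) (XT.nd (nat_lit 78) (nat_lit 0) (nat_lit 0) (XT.lf (nat_lit 0) (nat_lit 8436076518) (nat_lit 76) (nat_lit 21054468733) (nat_lit 152) (nat_lit 7720145899) (nat_lit 22) (nat_lit 5) (nat_lit 23) (nat_lit 5) (nat_lit 24) (nat_lit 4) (nat_lit 369) (nat_lit 264) (nat_lit 147)) (XT.lf (nat_lit 0) (nat_lit 19980498303) (nat_lit 76) (nat_lit 15220939174) (nat_lit 152) (nat_lit 2931533148) (nat_lit 22) (nat_lit 5) (nat_lit 23) (nat_lit 5) (nat_lit 24) (nat_lit 4) (nat_lit 370) (nat_lit 264) (nat_lit 146)))) (XT.nd (nat_lit 156) (nat_lit 0) (nat_lit 0) (XT.nd (nat_lit 78) (nat_lit 152) (nat_lit 0) (XT.lf (nat_lit 0) (nat_lit 1950714523) (nat_lit 152) (nat_lit 7250307548) (nat_lit 76) (nat_lit 29881653618) (nat_lit 21) (nat_lit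 5) (nat_lit 23) (nat_lit 5) (nat_lit 22) (nat_lit 5) (nat_lit 371) (nat_lit 264) (nat_lit 145)) (XT.lf (nat_lit 0) (nat_lit 4009288586) (nat_lit 152) (nat_lit 2939097861) (nat_lit 228) (nat_lit 33110782955) (nat_lit 19) (nat_lit 5) (nat_lit 21) (nat_lit 5) (nat_lit 22) (nat_lit 5) (nat_lit 372) (nat_lit 264) (nat_lit 144))) (XT.nd (nat_lit 78) (nat_lit 0) (nat_lit 0) (XT.lf (nat_lit 0) (nat_lit 12193065197) (nat_lit 228) (nat_lit 25360838095) (nat_lit 76) (nat_lit 3508146784) (nat_lit 19) (nat_lit 5) (nat_lit 22) (nat_lit 5) (nat_lit 20) (nat_lit 4) (nat_lit 373) (nat_lit 264) (nat_lit 143)) (XT.lf (nat_lit 0) (nat_lit 17613884329) (nat_lit 228) (nat_lit 14398575189) (nat_lit 76) (nat_lit 10081997968) (nat_lit 19) (nat_lit 5) (nat_lit 22) (nat_lit 5) (nat_lit 20) (nat_lit 4) (nat_lit 374) (nat_lit 264) (nat_lit 142))))))) (XT.nd (nat_lit 1014) (nat_lit 304) (nat_lit 0) (XT.nd (nat_lit 468) (nat_lit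 76) (nat_lit 0) (XT.nd (nat_lit 234) (nat_lit 228) (nat_lit 0) (XT.nd (nat_lit 78) (nat_lit 76) (nat_lit 0) (XT.lf (nat_lit 0) (nat_lit 23187328076) (nat_lit 228) (nat_lit 3125261017) (nat_lit 76) (nat_lit 16845552219) (nat_lit 19) (nat_lit 5) (nat_lit 22) (nat_lit 5) (nat_lit 20) (nat_lit 4) (nat_lit 375) (nat_lit 264) (nat_lit 141)) (XT.nd (nat_lit 78) (nat_lit 0) (nat_lit 0) (XT.lf (nat_lit 0) (nat_lit 8637503697) (nat_lit 76) (nat_lit 20363791708) (nat_lit 152) (nat_lit 15250244710) (nat_lit 18) (nat_lit 5) (nat_lit 19) (nat_lit 5) (nat_lit 20) (nat_lit 4) (nat_lit 376) (nat_lit 264) (nat_lit 140)) (XT.lf (nat_lit 0) (nat_lit 20800088037) (nat_lit 76) (nat_lit 14211562161) (nat_lit 152) (nat_lit 10365435584) (nat_lit 18) (nat_lit 5) (nat_lit 19) (nat_lit 5) (nat_lit 20) (nat_lit 4) (nat_lit 377) (nat_lit 264) (nat_lit 139)))) (XT.nd (nat_lit 78) (nat_lit 228) (nat_lit 0) (XT.lf (nat_lit 0)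 (nat_lit 33310920679) (nat_lit 76) (nat_lit 7882083725) (nat_lit 152) (nat_lit 5343676589) (nat_lit 18) (nat_lit 5) (nat_lit 19) (nat_lit 5) (nat_lit 20) (nat_lit 4) (nat_lit 378) (nat_lit 264) (nat_lit 138)) (XT.nd (nat_lit 78) (nat_lit 228) (nat_lit 0) (XT.lf (nat_lit 0) (nat_lit 46180933418) (nat_lit 76) (nat_lit 1369825788) (nat_lit 152) (nat_lit 180579778) (nat_lit 18) (nat_lit 5) (nat_lit 19) (nat_lit 5) (nat_lit 20) (nat_lit 4) (nat_lit 379) (nat_lit 264) (nat_lit 137)) (XT.lf (nat_lit 0) (nat_lit 5183094394) (nat_lit 228) (nat_lit 38393155325) (nat_lit 76) (nat_lit 5379730977) (nat_lit 15) (nat_lit 5) (nat_lit 18) (nat_lit 5) (nat_lit 16) (nat_lit 4) (nat_lit 380) (nat_lit 264) (nat_lit 136))))) (XT.nd (nat_lit 234) (nat_lit 76) (nat_lit 0) (XT.nd (nat_lit 78) (nat_lit 0) (nat_lit 0) (XT.lf (nat_lit 0) (nat_lit 10724596496) (nat_lit 228) (nat_lit 27177061193) (nat_lit 76) (nat_lit 12315037327)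 (nat_lit 15) (nat_lit 5) (nat_lit 18) (nat_lit 5) (nat_lit 16) (nat_lit 4) (nat_lit 381) (nat_lit 264) (nat_lit 135)) (XT.nd (nat_lit 78) (nat_lit 0) (nat_lit 0) (XT.lf (nat_lit 0) (nat_lit 16423774224) (nat_lit 228) (nat_lit 15639919857) (nat_lit 76) (nat_lit 19451797077) (nat_lit 15) (nat_lit 5) (nat_lit 18) (nat_lit 5) (nat_lit 16) (nat_lit 4) (nat_lit 382) (nat_lit 264) (nat_lit 134)) (XT.lf (nat_lit 0) (nat_lit 22285607442) (nat_lit 228) (nat_lit 3771650319) (nat_lit 76) (nat_lit 26796246232) (nat_lit 15) (nat_lit 5) (nat_lit 18) (nat_lit 5) (nat_lit 16) (nat_lit 4) (nat_lit 383) (nat_lit 264) (nat_lit 133)))) (XT.nd (nat_lit 156) (nat_lit 0) (nat_lit 0) (XT.nd (nat_lit 78) (nat_lit 0) (nat_lit 0) (XT.lf (nat_lit 0) (nat_lit 8606052841) (nat_lit 76) (nat_lit 19791891943) (nat_lit 152) (nat_lit 25831476075) (nat_lit 14) (nat_lit 5) (nat_lit 15) (nat_lit 5) (nat_lit 16) (nat_lit 4) (nat_lit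 384) (nat_lit 264) (nat_lit 132)) (XT.lf (nat_lit 0) (nat_lit 21417995320) (nat_lit 76) (nat_lit 13305762462) (nat_lit 152) (nat_lit 20921957311) (nat_lit 14) (nat_lit 5) (nat_lit 15) (nat_lit 5) (nat_lit 16) (nat_lit 4) (nat_lit 385) (nat_lit 264) (nat_lit 131))) (XT.nd (nat_lit 78) (nat_lit 0) (nat_lit 0) (XT.lf (nat_lit 0) (nat_lit 34600308784) (nat_lit 76) (nat_lit 6631288099) (nat_lit 152) (nat_lit 15873136663) (nat_lit 14) (nat_lit 5) (nat_lit 15) (nat_lit 5) (nat_lit 16) (nat_lit 4) (nat_lit 386) (nat_lit 264) (nat_lit 130)) (XT.lf (nat_lit 0) (nat_lit 47929430227) (nat_lit 152) (nat_lit 10445521008) (nat_lit 0) (nat_lit 232731399) (nat_lit 14) (nat_lit 5) (nat_lit 16) (nat_lit 4) (nat_lit 14) (nat_lit 4) (nat_lit 387) (nat_lit 264) (nat_lit 129)))))) (XT.nd (nat_lit 546) (nat_lit 76) (nat_lit 0) (XT.nd (nat_lit 234) (nat_lit 76) (nat_lit 0) (XT.nd (nat_lit 78) (nat_lit 76) (nat_lit 0)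 (XT.lf (nat_lit 0) (nat_lit 1933880810) (nat_lit 76) (nat_lit 52971203689) (nat_lit 76) (nat_lit 5248331890) (nat_lit 13) (nat_lit 4) (nat_lit 14) (nat_lit 5) (nat_lit 14) (nat_lit 4) (nat_lit 388) (nat_lit 264) (nat_lit 128)) (XT.nd (nat_lit 78) (nat_lit 0) (nat_lit 0) (XT.lf (nat_lit 0) (nat_lit 436940325) (nat_lit 152) (nat_lit 46861293587) (nat_lit 76) (nat_lit 14444216228) (nat_lit 12) (nat_lit 5) (nat_lit 14) (nat_lit 5) (nat_lit 13) (nat_lit 4) (nat_lit 389) (nat_lit 264) (nat_lit 127)) (XT.lf (nat_lit 0) (nat_lit 6180151055) (nat_lit 152) (nat_lit 35227246338) (nat_lit 76) (nat_lit 21970415138) (nat_lit 12) (nat_lit 5) (nat_lit 14) (nat_lit 5) (nat_lit 13) (nat_lit 4) (nat_lit 390) (nat_lit 264) (nat_lit 126)))) (XT.nd (nat_lit 156) (nat_lit 76) (nat_lit 0) (XT.nd (nat_lit 78) (nat_lit 0) (nat_lit 0) (XT.lf (nat_lit 0) (nat_lit 12088732499) (nat_lit 152) (nat_lit 23256777983) (nat_lit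 76) (nat_lit 29716935544) (nat_lit 12) (nat_lit 5) (nat_lit 14) (nat_lit 5) (nat_lit 13) (nat_lit 4) (nat_lit 391) (nat_lit 264) (nat_lit 125)) (XT.lf (nat_lit 0) (nat_lit 18167847493) (nat_lit 152) (nat_lit 10939428890) (nat_lit 76) (nat_lit 37690546250) (nat_lit 12) (nat_lit 5) (nat_lit 14) (nat_lit 5) (nat_lit 13) (nat_lit 4) (nat_lit 392) (nat_lit 264) (nat_lit 124))) (XT.nd (nat_lit 78) (nat_lit 0) (nat_lit 0) (XT.lf (nat_lit 0) (nat_lit 1770104794) (nat_lit 76) (nat_lit 22669718422) (nat_lit 152) (nat_lit 44145125026) (nat_lit 11) (nat_lit 5) (nat_lit 12) (nat_lit 5) (nat_lit 13) (nat_lit 4) (nat_lit 393) (nat_lit 264) (nat_lit 123)) (XT.lf (nat_lit 0) (nat_lit 15073411495) (nat_lit 76) (nat_lit 15930562534) (nat_lit 152) (nat_lit 39418595368) (nat_lit 11) (nat_lit 5) (nat_lit 12) (nat_lit 5) (nat_lit 13) (nat_lit 4) (nat_lit 394) (nat_lit 264) (nat_lit 122))))) (XT.nd (nat_lit 234) (nat_lit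 76) (nat_lit 0) (XT.nd (nat_lit 78) (nat_lit 0) (nat_lit 0) (XT.lf (nat_lit 0) (nat_lit 28764399378) (nat_lit 76) (nat_lit 8994386918) (nat_lit 152) (nat_lit 34556722972) (nat_lit 11) (nat_lit 5) (nat_lit 12) (nat_lit 5) (nat_lit 13) (nat_lit 4) (nat_lit 395) (nat_lit 264) (nat_lit 121)) (XT.nd (nat_lit 78) (nat_lit 0) (nat_lit 0) (XT.lf (nat_lit 0) (nat_lit 42855031440) (nat_lit 76) (nat_lit 1855130839) (nat_lit 152) (nat_lit 29555259600) (nat_lit 11) (nat_lit 5) (nat_lit 12) (nat_lit 5) (nat_lit 13) (nat_lit 4) (nat_lit 396) (nat_lit 264) (nat_lit 120)) (XT.lf (nat_lit 0) (nat_lit 51916982340) (nat_lit 152) (nat_lit 18969197497) (nat_lit 0) (nat_lit 5386247010) (nat_lit 11) (nat_lit 5) (nat_lit 13) (nat_lit 4) (nat_lit 11) (nat_lit 4) (nat_lit 397) (nat_lit 264) (nat_lit 119)))) (XT.nd (nat_lit 156) (nat_lit 0) (nat_lit 0) (XT.nd (nat_lit 78) (nat_lit 76) (nat_lit 0) (XT.lf (nat_lit 0) (nat_lit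 59352597690) (nat_lit 152) (nat_lit 6183714106) (nat_lit 0) (nat_lit 12802954450) (nat_lit 11) (nat_lit 5) (nat_lit 13) (nat_lit 4) (nat_lit 11) (nat_lit 4) (nat_lit 398) (nat_lit 264) (nat_lit 118)) (XT.lf (nat_lit 0) (nat_lit 7113881618) (nat_lit 76) (nat_lit 59960174180) (nat_lit 76) (nat_lit 13392173746) (nat_lit 10) (nat_lit 4) (nat_lit 11) (nat_lit 5) (nat_lit 11) (nat_lit 4) (nat_lit 399) (nat_lit 264) (nat_lit 117))) (XT.nd (nat_lit 78) (nat_lit 0) (nat_lit 0) (XT.lf (nat_lit 0) (nat_lit 20926996354) (nat_lit 76) (nat_lit 54157061608) (nat_lit 76) (nat_lit 7571238655) (nat_lit 10) (nat_lit 4) (nat_lit 11) (nat_lit 5) (nat_lit 11) (nat_lit 4) (nat_lit 400) (nat_lit 264) (nat_lit 116)) (XT.lf (nat_lit 0) (nat_lit 35144631776) (nat_lit 76) (nat_lit 48184346789) (nat_lit 76) (nat_lit 1581220420) (nat_lit 10) (nat_lit 4) (nat_lit 11) (nat_lit 5) (nat_lit 11) (nat_lit 4) (nat_lit 401) (nat_lit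 264) (nat_lit 115))))))))
noncomputable def xc118 : XT := (XT.nd (nat_lit 31512) (nat_lit 0) (nat_lit 7524) (XT.nd (nat_lit 30498) (nat_lit 0) (nat_lit 17480) (XT.nd (nat_lit 29952) (nat_lit 0) (nat_lit 20976) (XT.nd (nat_lit 234) (nat_lit 76) (nat_lit 0) (XT.nd (nat_lit 78) (nat_lit 0) (nat_lit 0) (XT.lf (nat_lit 0) (nat_lit 4493681876) (nat_lit 152) (nat_lit 37497751591) (nat_lit 76) (nat_lit 45240151810) (nat_lit 9) (nat_lit 5) (nat_lit 11) (nat_lit 5) (nat_lit 10) (nat_lit 4) (nat_lit 402) (nat_lit 264) (nat_lit 114)) (XT.nd (nat_lit 78) (nat_lit 0) (nat_lit 0) (XT.lf (nat_lit 0) (nat_lit 10713925661) (nat_lit 152) (nat_lit 24886966839) (nat_lit 76) (nat_lit 54021406406) (nat_lit 9) (nat_lit 5) (nat_lit 11) (nat_lit 5) (nat_lit 10) (nat_lit 4) (nat_lit 403) (nat_lit 264) (nat_lit 113)) (XT.lf (nat_lit 0) (nat_lit 17115801402) (nat_lit 152) (nat_lit 11906994161) (nat_lit 76) (nat_lit 63062089269)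 (nat_lit 9) (nat_lit 5) (nat_lit 11) (nat_lit 5) (nat_lit 10) (nat_lit 4) (nat_lit 404) (nat_lit 264) (nat_lit 112)))) (XT.nd (nat_lit 78) (nat_lit 0) (nat_lit 0) (XT.lf (nat_lit 0) (nat_lit 1482435828) (nat_lit 76) (nat_lit 22236717224) (nat_lit 152) (nat_lit 70901914275) (nat_lit 8) (nat_lit 5) (nat_lit 9) (nat_lit 5) (nat_lit 10) (nat_lit 4) (nat_lit 405) (nat_lit 264) (nat_lit 111)) (XT.nd (nat_lit 78) (nat_lit 0) (nat_lit 0) (XT.lf (nat_lit 0) (nat_lit 15508847849) (nat_lit 76) (nat_lit 15127220523) (nat_lit 152) (nat_lit 66593804566) (nat_lit 8) (nat_lit 5) (nat_lit 9) (nat_lit 5) (nat_lit 10) (nat_lit 4) (nat_lit 406) (nat_lit 264) (nat_lit 110)) (XT.lf (nat_lit 0) (nat_lit 29947525459) (nat_lit 76) (nat_lit 7808330573) (nat_lit 152) (nat_lit 62161227230) (nat_lit 8) (nat_lit 5) (nat_lit 9) (nat_lit 5) (nat_lit 10) (nat_lit 4) (nat_lit 407) (nat_lit 264) (nat_lit 109))))) (XT.nd (nat_lit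 234) (nat_lit 988) (nat_lit 0) (XT.nd (nat_lit 78) (nat_lit 0) (nat_lit 0) (XT.lf (nat_lit 0) (nat_lit 168015743) (nat_lit 0) (nat_lit 168015743) (nat_lit 380) (nat_lit 2940063064) (nat_lit 297) (nat_lit 5) (nat_lit 297) (nat_lit 3) (nat_lit 302) (nat_lit 3) (nat_lit 265) (nat_lit 265) (nat_lit 250)) (XT.nd (nat_lit 78) (nat_lit 0) (nat_lit 0) (XT.lf (nat_lit 0) (nat_lit 3023994510) (nat_lit 380) (nat_lit 3191548331) (nat_lit 456) (nat_lit 359661762) (nat_lit 297) (nat_lit 5) (nat_lit 302) (nat_lit 3) (nat_lit 303) (nat_lit 5) (nat_lit 266) (nat_lit 265) (nat_lit 249)) (XT.lf (nat_lit 0) (nat_lit 5358991384) (nat_lit 380) (nat_lit 128528905) (nat_lit 456) (nat_lit 1114210655) (nat_lit 297) (nat_lit 5) (nat_lit 302) (nat_lit 3) (nat_lit 303) (nat_lit 5) (nat_lit 267) (nat_lit 265) (nat_lit 248)))) (XT.nd (nat_lit 156) (nat_lit 532) (nat_lit 0) (XT.nd (nat_lit 78) (nat_lit 0) (nat_lit 0) (XT.lf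 (nat_lit 0) (nat_lit 1053096955) (nat_lit 456) (nat_lit 3603245237) (nat_lit 532) (nat_lit 1974360160) (nat_lit 291) (nat_lit 5) (nat_lit 297) (nat_lit 5) (nat_lit 298) (nat_lit 5) (nat_lit 268) (nat_lit 265) (nat_lit 247)) (XT.lf (nat_lit 0) (nat_lit 3307049574) (nat_lit 456) (nat_lit 441083501) (nat_lit 532) (nat_lit 2914793133) (nat_lit 291) (nat_lit 5) (nat_lit 297) (nat_lit 5) (nat_lit 298) (nat_lit 5) (nat_lit 269) (nat_lit 265) (nat_lit 246))) (XT.nd (nat_lit 78) (nat_lit 532) (nat_lit 0) (XT.lf (nat_lit 76) (nat_lit 2823446696) (nat_lit 0) (nat_lit 2747759530) (nat_lit 532) (nat_lit 1126806775) (nat_lit 292) (nat_lit 5) (nat_lit 291) (nat_lit 5) (nat_lit 298) (nat_lit 5) (nat_lit 270) (nat_lit 265) (nat_lit 245)) (XT.lf (nat_lit 0) (nat_lit 1067291140) (nat_lit 532) (nat_lit 599298340) (nat_lit 608) (nat_lit 5069760473) (nat_lit 284) (nat_lit 5) (nat_lit 291) (nat_lit 5) (nat_lit 292)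 (nat_lit 5) (nat_lit 271) (nat_lit 265) (nat_lit 244)))))) (XT.nd (nat_lit 468) (nat_lit 2280) (nat_lit 0) (XT.nd (nat_lit 234) (nat_lit 684) (nat_lit 0) (XT.nd (nat_lit 78) (nat_lit 532) (nat_lit 0) (XT.lf (nat_lit 76) (nat_lit 2769590011) (nat_lit 0) (nat_lit 480501955) (nat_lit 608) (nat_lit 3527203561) (nat_lit 285) (nat_lit 5) (nat_lit 284) (nat_lit 5) (nat_lit 292) (nat_lit 5) (nat_lit 272) (nat_lit 265) (nat_lit 243)) (XT.nd (nat_lit 78) (nat_lit 608) (nat_lit 0) (XT.lf (nat_lit 0) (nat_lit 5432736161) (nat_lit 532) (nat_lit 624541033) (nat_lit 608) (nat_lit 764315901) (nat_lit 285) (nat_lit 5) (nat_lit 292) (nat_lit 5) (nat_lit 293) (nat_lit 5) (nat_lit 273) (nat_lit 265) (nat_lit 242)) (XT.lf (nat_lit 0) (nat_lit 752874146) (nat_lit 608) (nat_lit 4013300970) (nat_lit 684) (nat_lit 2102302048) (nat_lit 277) (nat_lit 5) (nat_lit 285) (nat_lit 5) (nat_lit 286) (nat_lit 5) (nat_lit 274) (nat_lit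 265) (nat_lit 241)))) (XT.nd (nat_lit 78) (nat_lit 684) (nat_lit 0) (XT.lf (nat_lit 0) (nat_lit 2861618054) (nat_lit 608) (nat_lit 527922754) (nat_lit 684) (nat_lit 3529035451) (nat_lit 277) (nat_lit 5) (nat_lit 285) (nat_lit 5) (nat_lit 286) (nat_lit 5) (nat_lit 275) (nat_lit 265) (nat_lit 240)) (XT.nd (nat_lit 78) (nat_lit 684) (nat_lit 0) (XT.lf (nat_lit 76) (nat_lit 3073825281) (nat_lit 0) (nat_lit 1915857616) (nat_lit 684) (nat_lit 1981950861) (nat_lit 278) (nat_lit 5) (nat_lit 277) (nat_lit 5) (nat_lit 286) (nat_lit 5) (nat_lit 276) (nat_lit 265) (nat_lit 239)) (XT.lf (nat_lit 0) (nat_lit 85011376) (nat_lit 684) (nat_lit 282496886) (nat_lit 760) (nat_lit 6660877187) (nat_lit 268) (nat_lit 5) (nat_lit 277) (nat_lit 5) (nat_lit 278) (nat_lit 5) (nat_lit 277) (nat_lit 265) (nat_lit 238))))) (XT.nd (nat_lit 234) (nat_lit 1672) (nat_lit 0) (XT.nd (nat_lit 78) (nat_lit 684) (nat_lit 0) (XT.lf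 (nat_lit 0) (nat_lit 2149228665) (nat_lit 684) (nat_lit 3659081978) (nat_lit 76) (nat_lit 1278813453) (nat_lit 269) (nat_lit 5) (nat_lit 278) (nat_lit 5) (nat_lit 270) (nat_lit 5) (nat_lit 278) (nat_lit 265) (nat_lit 237)) (XT.nd (nat_lit 78) (nat_lit 0) (nat_lit 0) (XT.lf (nat_lit 0) (nat_lit 55802114) (nat_lit 684) (nat_lit 4157900090) (nat_lit 760) (nat_lit 2935894696) (nat_lit 260) (nat_lit 5) (nat_lit 269) (nat_lit 5) (nat_lit 270) (nat_lit 5) (nat_lit 279) (nat_lit 265) (nat_lit 236)) (XT.lf (nat_lit 0) (nat_lit 3907859527) (nat_lit 684) (nat_lit 2402001719) (nat_lit 760) (nat_lit 905108443) (nat_lit 260) (nat_lit 5) (nat_lit 269) (nat_lit 5) (nat_lit 270) (nat_lit 5) (nat_lit 280) (nat_lit 265) (nat_lit 235)))) (XT.nd (nat_lit 156) (nat_lit 836) (nat_lit 0) (XT.nd (nat_lit 78) (nat_lit 0) (nat_lit 0) (XT.lf (nat_lit 0) (nat_lit 543095915) (nat_lit 760) (nat_lit 559571556) (nat_lit 836)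 (nat_lit 6181228918) (nat_lit 249) (nat_lit 5) (nat_lit 259) (nat_lit 5) (nat_lit 260) (nat_lit 5) (nat_lit 281) (nat_lit 265) (nat_lit 234)) (XT.lf (nat_lit 0) (nat_lit 3134678994) (nat_lit 836) (nat_lit 2850427021) (nat_lit 76) (nat_lit 1370158505) (nat_lit 249) (nat_lit 5) (nat_lit 260) (nat_lit 5) (nat_lit 250) (nat_lit 5) (nat_lit 282) (nat_lit 265) (nat_lit 233))) (XT.nd (nat_lit 78) (nat_lit 0) (nat_lit 0) (XT.lf (nat_lit 0) (nat_lit 1123543025) (nat_lit 836) (nat_lit 4057929109) (nat_lit 912) (nat_lit 2248792067) (nat_lit 238) (nat_lit 5) (nat_lit 249) (nat_lit 5) (nat_lit 250) (nat_lit 5) (nat_lit 283) (nat_lit 265) (nat_lit 232)) (XT.lf (nat_lit 0) (nat_lit 5226149747) (nat_lit 836) (nat_lit 2031133623) (nat_lit 912) (nat_lit 251304154) (nat_lit 238) (nat_lit 5) (nat_lit 249) (nat_lit 5) (nat_lit 250) (nat_lit 5) (nat_lit 284) (nat_lit 265) (nat_lit 231))))))) (XT.nd (nat_lit 1014) (nat_lit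 3800) (nat_lit 0) (XT.nd (nat_lit 468) (nat_lit 3040) (nat_lit 0) (XT.nd (nat_lit 234) (nat_lit 1140) (nat_lit 0) (XT.nd (nat_lit 78) (nat_lit 988) (nat_lit 0) (XT.lf (nat_lit 0) (nat_lit 1729399547) (nat_lit 988) (nat_lit 5759020750) (nat_lit 76) (nat_lit 101659583) (nat_lit 225) (nat_lit 5) (nat_lit 238) (nat_lit 5) (nat_lit 226) (nat_lit 5) (nat_lit 285) (nat_lit 265) (nat_lit 230)) (XT.nd (nat_lit 78) (nat_lit 988) (nat_lit 0) (XT.lf (nat_lit 0) (nat_lit 3749171354) (nat_lit 988) (nat_lit 1631758832) (nat_lit 76) (nat_lit 2293564655) (nat_lit 225) (nat_lit 5) (nat_lit 238) (nat_lit 5) (nat_lit 226) (nat_lit 5) (nat_lit 286) (nat_lit 265) (nat_lit 229)) (XT.lf (nat_lit 0) (nat_lit 2621588884) (nat_lit 988) (nat_lit 3176168502) (nat_lit 1064) (nat_lit 1964728929) (nat_lit 212) (nat_lit 5) (nat_lit 225) (nat_lit 5) (nat_lit 226) (nat_lit 5) (nat_lit 287) (nat_lit 265) (nat_lit 228)))) (XT.nd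 (nat_lit 78) (nat_lit 1064) (nat_lit 0) (XT.lf (nat_lit 0) (nat_lit 13833442) (nat_lit 1064) (nat_lit 866943344) (nat_lit 76) (nat_lit 6973603959) (nat_lit 211) (nat_lit 5) (nat_lit 225) (nat_lit 5) (nat_lit 212) (nat_lit 5) (nat_lit 288) (nat_lit 265) (nat_lit 227)) (XT.nd (nat_lit 78) (nat_lit 0) (nat_lit 0) (XT.lf (nat_lit 0) (nat_lit 2006332244) (nat_lit 1140) (nat_lit 4427391678) (nat_lit 76) (nat_lit 1514985444) (nat_lit 197) (nat_lit 5) (nat_lit 212) (nat_lit 5) (nat_lit 198) (nat_lit 5) (nat_lit 289) (nat_lit 265) (nat_lit 226)) (XT.lf (nat_lit 0) (nat_lit 4022581569) (nat_lit 1140) (nat_lit 44861787) (nat_lit 76) (nat_lit 3979585805) (nat_lit 197) (nat_lit 5) (nat_lit 212) (nat_lit 5) (nat_lit 198) (nat_lit 5) (nat_lit 290) (nat_lit 265) (nat_lit 225))))) (XT.nd (nat_lit 234) (nat_lit 1216) (nat_lit 0) (XT.nd (nat_lit 78) (nat_lit 684) (nat_lit 0) (XT.lf (nat_lit 0) (nat_lit 4509126129)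 (nat_lit 1140) (nat_lit 1581511375) (nat_lit 1216) (nat_lit 2057999711) (nat_lit 182) (nat_lit 5) (nat_lit 197) (nat_lit 5) (nat_lit 198) (nat_lit 5) (nat_lit 291) (nat_lit 265) (nat_lit 224)) (XT.nd (nat_lit 78) (nat_lit 76) (nat_lit 0) (XT.lf (nat_lit 0) (nat_lit 906472260) (nat_lit 608) (nat_lit 7281910635) (nat_lit 684) (nat_lit 65957137) (nat_lit 174) (nat_lit 5) (nat_lit 182) (nat_lit 5) (nat_lit 183) (nat_lit 5) (nat_lit 292) (nat_lit 265) (nat_lit 223)) (XT.lf (nat_lit 0) (nat_lit 1949384910) (nat_lit 684) (nat_lit 2783550138) (nat_lit 76) (nat_lit 3629709132) (nat_lit 173) (nat_lit 5) (nat_lit 182) (nat_lit 5) (nat_lit 174) (nat_lit 5) (nat_lit 293) (nat_lit 265) (nat_lit 222)))) (XT.nd (nat_lit 156) (nat_lit 608) (nat_lit 0) (XT.nd (nat_lit 78) (nat_lit 0) (nat_lit 0) (XT.lf (nat_lit 0) (nat_lit 1905916151) (nat_lit 608) (nat_lit 2087251550) (nat_lit 684) (nat_lit 4482000488) (nat_lit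 165) (nat_lit 5) (nat_lit 173) (nat_lit 5) (nat_lit 174) (nat_lit 5) (nat_lit 294) (nat_lit 265) (nat_lit 221)) (XT.lf (nat_lit 0) (nat_lit 6084736579) (nat_lit 684) (nat_lit 1852863675) (nat_lit 76) (nat_lit 653940973) (nat_lit 165) (nat_lit 5) (nat_lit 174) (nat_lit 5) (nat_lit 166) (nat_lit 5) (nat_lit 295) (nat_lit 265) (nat_lit 220))) (XT.nd (nat_lit 78) (nat_lit 76) (nat_lit 0) (XT.lf (nat_lit 0) (nat_lit 2994872553) (nat_lit 532) (nat_lit 5246988698) (nat_lit 608) (nat_lit 469525466) (nat_lit 158) (nat_lit 5) (nat_lit 165) (nat_lit 5) (nat_lit 166) (nat_lit 5) (nat_lit 296) (nat_lit 265) (nat_lit 219)) (XT.lf (nat_lit 0) (nat_lit 1569724025) (nat_lit 608) (nat_lit 872517753) (nat_lit 76) (nat_lit 6392998710) (nat_lit 157) (nat_lit 5) (nat_lit 165) (nat_lit 5) (nat_lit 158) (nat_lit 5) (nat_lit 297) (nat_lit 265) (nat_lit 218)))))) (XT.nd (nat_lit 546) (nat_lit 1748) (nat_lit 0) (XT.nd (nat_lit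 234) (nat_lit 1064) (nat_lit 0) (XT.nd (nat_lit 78) (nat_lit 456) (nat_lit 0) (XT.lf (nat_lit 0) (nat_lit 3660370894) (nat_lit 608) (nat_lit 4821562710) (nat_lit 76) (nat_lit 480807059) (nat_lit 150) (nat_lit 5) (nat_lit 158) (nat_lit 5) (nat_lit 151) (nat_lit 5) (nat_lit 298) (nat_lit 265) (nat_lit 217)) (XT.nd (nat_lit 78) (nat_lit 0) (nat_lit 0) (XT.lf (nat_lit 0) (nat_lit 160313933) (nat_lit 456) (nat_lit 5643968135) (nat_lit 532) (nat_lit 3290125644) (nat_lit 144) (nat_lit 5) (nat_lit 150) (nat_lit 5) (nat_lit 151) (nat_lit 5) (nat_lit 299) (nat_lit 265) (nat_lit 216)) (XT.lf (nat_lit 0) (nat_lit 5343038654) (nat_lit 456) (nat_lit 2674913206) (nat_lit 532) (nat_lit 1211966194) (nat_lit 144) (nat_lit 5) (nat_lit 150) (nat_lit 5) (nat_lit 151) (nat_lit 5) (nat_lit 300) (nat_lit 265) (nat_lit 215)))) (XT.nd (nat_lit 156) (nat_lit 456) (nat_lit 0) (XT.nd (nat_lit 78) (nat_lit 0) (nat_lit 0) (XT.lf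 (nat_lit 0) (nat_lit 884125020) (nat_lit 608) (nat_lit 8093176190) (nat_lit 76) (nat_lit 392766818) (nat_lit 136) (nat_lit 5) (nat_lit 144) (nat_lit 5) (nat_lit 137) (nat_lit 5) (nat_lit 301) (nat_lit 265) (nat_lit 214)) (XT.lf (nat_lit 0) (nat_lit 3043148609) (nat_lit 608) (nat_lit 2924620878) (nat_lit 76) (nat_lit 3545612478) (nat_lit 136) (nat_lit 5) (nat_lit 144) (nat_lit 5) (nat_lit 137) (nat_lit 5) (nat_lit 302) (nat_lit 265) (nat_lit 213))) (XT.nd (nat_lit 78) (nat_lit 0) (nat_lit 0) (XT.lf (nat_lit 0) (nat_lit 2399447183) (nat_lit 456) (nat_lit 2850061840) (nat_lit 532) (nat_lit 4412059533) (nat_lit 130) (nat_lit 5) (nat_lit 136) (nat_lit 5) (nat_lit 137) (nat_lit 5) (nat_lit 303) (nat_lit 265) (nat_lit 212)) (XT.lf (nat_lit 0) (nat_lit 7515537735) (nat_lit 532) (nat_lit 1920983515) (nat_lit 76) (nat_lit 377923922) (nat_lit 130) (nat_lit 5) (nat_lit 137) (nat_lit 5) (nat_lit 131) (nat_lit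 5) (nat_lit 304) (nat_lit 265) (nat_lit 211))))) (XT.nd (nat_lit 234) (nat_lit 836) (nat_lit 0) (XT.nd (nat_lit 78) (nat_lit 456) (nat_lit 0) (XT.lf (nat_lit 0) (nat_lit 3576233248) (nat_lit 456) (nat_lit 6297249523) (nat_lit 532) (nat_lit 97754587) (nat_lit 124) (nat_lit 5) (nat_lit 130) (nat_lit 5) (nat_lit 131) (nat_lit 5) (nat_lit 305) (nat_lit 265) (nat_lit 210)) (XT.nd (nat_lit 78) (nat_lit 380) (nat_lit 0) (XT.lf (nat_lit 0) (nat_lit 2108299542) (nat_lit 532) (nat_lit 921534936) (nat_lit 76) (nat_lit 7102881826) (nat_lit 123) (nat_lit 5) (nat_lit 130) (nat_lit 5) (nat_lit 124) (nat_lit 5) (nat_lit 306) (nat_lit 265) (nat_lit 209)) (XT.lf (nat_lit 0) (nat_lit 4390704297) (nat_lit 456) (nat_lit 5539034588) (nat_lit 76) (nat_lit 368951002) (nat_lit 118) (nat_lit 5) (nat_lit 124) (nat_lit 5) (nat_lit 119) (nat_lit 5) (nat_lit 307) (nat_lit 265) (nat_lit 208)))) (XT.nd (nat_lit 156) (nat_lit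 456) (nat_lit 0) (XT.nd (nat_lit 78) (nat_lit 0) (nat_lit 0) (XT.lf (nat_lit 0) (nat_lit 87048367) (nat_lit 380) (nat_lit 6658079675) (nat_lit 456) (nat_lit 3724450286) (nat_lit 113) (nat_lit 5) (nat_lit 118) (nat_lit 5) (nat_lit 119) (nat_lit 5) (nat_lit 308) (nat_lit 265) (nat_lit 207)) (XT.lf (nat_lit 0) (nat_lit 5950535316) (nat_lit 380) (nat_lit 3239533166) (nat_lit 456) (nat_lit 1454969254) (nat_lit 113) (nat_lit 5) (nat_lit 118) (nat_lit 5) (nat_lit 119) (nat_lit 5) (nat_lit 309) (nat_lit 265) (nat_lit 206))) (XT.nd (nat_lit 78) (nat_lit 0) (nat_lit 0) (XT.lf (nat_lit 0) (nat_lit 843696336) (nat_lit 456) (nat_lit 9695649937) (nat_lit 76) (nat_lit 286848933) (nat_lit 107) (nat_lit 5) (nat_lit 113) (nat_lit 5) (nat_lit 108) (nat_lit 5) (nat_lit 310) (nat_lit 265) (nat_lit 205)) (XT.lf (nat_lit 0) (nat_lit 3227163340) (nat_lit 456) (nat_lit 3876653143) (nat_lit 76) (nat_lit 3907223569) (nat_lit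 107) (nat_lit 5) (nat_lit 113) (nat_lit 5) (nat_lit 108) (nat_lit 5) (nat_lit 311) (nat_lit 265) (nat_lit 204))))))))
noncomputable def xc119 : XT := (XT.nd (nat_lit 2106) (nat_lit 1976) (nat_lit 0) (XT.nd (nat_lit 1014) (nat_lit 1748) (nat_lit 0) (XT.nd (nat_lit 468) (nat_lit 1368) (nat_lit 0) (XT.nd (nat_lit 234) (nat_lit 456) (nat_lit 0) (XT.nd (nat_lit 78) (nat_lit 304) (nat_lit 0) (XT.lf (nat_lit 0) (nat_lit 2114569225) (nat_lit 380) (nat_lit 3554042799) (nat_lit 456) (nat_lit 5533260167) (nat_lit 102) (nat_lit 5) (nat_lit 107) (nat_lit 5) (nat_lit 108) (nat_lit 5) (nat_lit 312) (nat_lit 265) (nat_lit 203)) (XT.nd (nat_lit 78) (nat_lit 304) (nat_lit 0) (XT.lf (nat_lit 0) (nat_lit 8190447773) (nat_lit 456) (nat_lit 3077747324) (nat_lit 76) (nat_lit 130055110) (nat_lit 102) (nat_lit 5) (nat_lit 108) (nat_lit 5) (nat_lit 103) (nat_lit 5) (nat_lit 313) (nat_lit 265) (nat_lit 202)) (XT.lf (nat_lit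 0) (nat_lit 3094457395) (nat_lit 304) (nat_lit 7726014372) (nat_lit 380) (nat_lit 779105997) (nat_lit 98) (nat_lit 5) (nat_lit 102) (nat_lit 5) (nat_lit 103) (nat_lit 5) (nat_lit 314) (nat_lit 265) (nat_lit 201)))) (XT.nd (nat_lit 78) (nat_lit 380) (nat_lit 0) (XT.lf (nat_lit 0) (nat_lit 1688013819) (nat_lit 380) (nat_lit 2351045149) (nat_lit 76) (nat_lit 7767446483) (nat_lit 97) (nat_lit 5) (nat_lit 102) (nat_lit 5) (nat_lit 98) (nat_lit 5) (nat_lit 315) (nat_lit 265) (nat_lit 200)) (XT.nd (nat_lit 78) (nat_lit 0) (nat_lit 0) (XT.lf (nat_lit 0) (nat_lit 4016482935) (nat_lit 380) (nat_lit 204338963) (nat_lit 456) (nat_lit 7798398928) (nat_lit 92) (nat_lit 5) (nat_lit 97) (nat_lit 5) (nat_lit 98) (nat_lit 5) (nat_lit 316) (nat_lit 265) (nat_lit 199)) (XT.lf (nat_lit 0) (nat_lit 6858728847) (nat_lit 456) (nat_lit 1692884996) (nat_lit 76) (nat_lit 3685860763) (nat_lit 92) (nat_lit 5) (nat_lit 98)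 (nat_lit 5) (nat_lit 93) (nat_lit 5) (nat_lit 317) (nat_lit 265) (nat_lit 198))))) (XT.nd (nat_lit 234) (nat_lit 684) (nat_lit 0) (XT.nd (nat_lit 78) (nat_lit 380) (nat_lit 0) (XT.lf (nat_lit 0) (nat_lit 4857996370) (nat_lit 304) (nat_lit 4736532123) (nat_lit 380) (nat_lit 2867214339) (nat_lit 88) (nat_lit 5) (nat_lit 92) (nat_lit 5) (nat_lit 93) (nat_lit 5) (nat_lit 318) (nat_lit 265) (nat_lit 197)) (XT.nd (nat_lit 78) (nat_lit 380) (nat_lit 0) (XT.lf (nat_lit 0) (nat_lit 11599468059) (nat_lit 304) (nat_lit 800545330) (nat_lit 380) (nat_lit 293126015) (nat_lit 88) (nat_lit 5) (nat_lit 92) (nat_lit 5) (nat_lit 93) (nat_lit 5) (nat_lit 319) (nat_lit 265) (nat_lit 196)) (XT.lf (nat_lit 0) (nat_lit 2369565541) (nat_lit 380) (nat_lit 7302576354) (nat_lit 76) (nat_lit 3256961005) (nat_lit 83) (nat_lit 5) (nat_lit 88) (nat_lit 5) (nat_lit 84) (nat_lit 5) (nat_lit 320) (nat_lit 265) (nat_lit 195))))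 (XT.nd (nat_lit 156) (nat_lit 380) (nat_lit 0) (XT.nd (nat_lit 78) (nat_lit 304) (nat_lit 0) (XT.lf (nat_lit 0) (nat_lit 5096744208) (nat_lit 380) (nat_lit 652440140) (nat_lit 76) (nat_lit 7423185158) (nat_lit 83) (nat_lit 5) (nat_lit 88) (nat_lit 5) (nat_lit 84) (nat_lit 5) (nat_lit 321) (nat_lit 265) (nat_lit 194)) (XT.lf (nat_lit 0) (nat_lit 6280495097) (nat_lit 304) (nat_lit 1657866003) (nat_lit 380) (nat_lit 5483619768) (nat_lit 79) (nat_lit 5) (nat_lit 83) (nat_lit 5) (nat_lit 84) (nat_lit 5) (nat_lit 322) (nat_lit 265) (nat_lit 193))) (XT.nd (nat_lit 78) (nat_lit 380) (nat_lit 0) (XT.lf (nat_lit 0) (nat_lit 10869026087) (nat_lit 380) (nat_lit 308335308) (nat_lit 76) (nat_lit 2501629891) (nat_lit 79) (nat_lit 5) (nat_lit 84) (nat_lit 5) (nat_lit 80) (nat_lit 5) (nat_lit 323) (nat_lit 265) (nat_lit 192)) (XT.lf (nat_lit 0) (nat_lit 745260) (nat_lit 380) (nat_lit 7134301517) (nat_lit 76) (nat_lit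 6807032157) (nat_lit 74) (nat_lit 5) (nat_lit 79) (nat_lit 5) (nat_lit 75) (nat_lit 5) (nat_lit 324) (nat_lit 265) (nat_lit 191)))))) (XT.nd (nat_lit 546) (nat_lit 912) (nat_lit 0) (XT.nd (nat_lit 234) (nat_lit 608) (nat_lit 0) (XT.nd (nat_lit 78) (nat_lit 228) (nat_lit 0) (XT.lf (nat_lit 0) (nat_lit 2815944149) (nat_lit 380) (nat_lit 135751586) (nat_lit 76) (nat_lit 11261252103) (nat_lit 74) (nat_lit 5) (nat_lit 79) (nat_lit 5) (nat_lit 75) (nat_lit 5) (nat_lit 325) (nat_lit 265) (nat_lit 190)) (XT.nd (nat_lit 78) (nat_lit 0) (nat_lit 0) (XT.lf (nat_lit 0) (nat_lit 5772459656) (nat_lit 304) (nat_lit 7329015311) (nat_lit 76) (nat_lit 1388783970) (nat_lit 71) (nat_lit 5) (nat_lit 75) (nat_lit 5) (nat_lit 72) (nat_lit 5) (nat_lit 326) (nat_lit 265) (nat_lit 189)) (XT.lf (nat_lit 0) (nat_lit 8822830769) (nat_lit 304) (nat_lit 162957875) (nat_lit 76) (nat_lit 5789967231) (nat_lit 71) (nat_lit 5) (nat_lit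 75) (nat_lit 5) (nat_lit 72) (nat_lit 5) (nat_lit 327) (nat_lit 265) (nat_lit 188)))) (XT.nd (nat_lit 156) (nat_lit 304) (nat_lit 0) (XT.nd (nat_lit 78) (nat_lit 0) (nat_lit 0) (XT.lf (nat_lit 0) (nat_lit 7324303052) (nat_lit 304) (nat_lit 4686107910) (nat_lit 380) (nat_lit 3058056510) (nat_lit 67) (nat_lit 5) (nat_lit 71) (nat_lit 5) (nat_lit 72) (nat_lit 5) (nat_lit 328) (nat_lit 265) (nat_lit 187)) (XT.lf (nat_lit 0) (nat_lit 15003180340) (nat_lit 304) (nat_lit 267746342) (nat_lit 380) (nat_lit 99734576) (nat_lit 67) (nat_lit 5) (nat_lit 71) (nat_lit 5) (nat_lit 72) (nat_lit 5) (nat_lit 329) (nat_lit 265) (nat_lit 186))) (XT.nd (nat_lit 78) (nat_lit 0) (nat_lit 0) (XT.lf (nat_lit 0) (nat_lit 2978235177) (nat_lit 304) (nat_lit 8412713628) (nat_lit 76) (nat_lit 4287488698) (nat_lit 63) (nat_lit 5) (nat_lit 67) (nat_lit 5) (nat_lit 64) (nat_lit 5) (nat_lit 330) (nat_lit 265) (nat_lit 185)) (XT.lf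 (nat_lit 0) (nat_lit 6129296990) (nat_lit 304) (nat_lit 899589755) (nat_lit 76) (nat_lit 8967066322) (nat_lit 63) (nat_lit 5) (nat_lit 67) (nat_lit 5) (nat_lit 64) (nat_lit 5) (nat_lit 331) (nat_lit 265) (nat_lit 184))))) (XT.nd (nat_lit 234) (nat_lit 456) (nat_lit 0) (XT.nd (nat_lit 78) (nat_lit 228) (nat_lit 0) (XT.lf (nat_lit 0) (nat_lit 6939352517) (nat_lit 228) (nat_lit 2479291015) (nat_lit 304) (nat_lit 6903055826) (nat_lit 60) (nat_lit 5) (nat_lit 63) (nat_lit 5) (nat_lit 64) (nat_lit 5) (nat_lit 332) (nat_lit 265) (nat_lit 183)) (XT.nd (nat_lit 78) (nat_lit 228) (nat_lit 0) (XT.lf (nat_lit 0) (nat_lit 12814325005) (nat_lit 304) (nat_lit 1681569022) (nat_lit 76) (nat_lit 2161111702) (nat_lit 60) (nat_lit 5) (nat_lit 64) (nat_lit 5) (nat_lit 61) (nat_lit 5) (nat_lit 333) (nat_lit 265) (nat_lit 182)) (XT.lf (nat_lit 0) (nat_lit 6314709075) (nat_lit 228) (nat_lit 10060345700) (nat_lit 304)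 (nat_lit 625438001) (nat_lit 57) (nat_lit 5) (nat_lit 60) (nat_lit 5) (nat_lit 61) (nat_lit 5) (nat_lit 334) (nat_lit 265) (nat_lit 181)))) (XT.nd (nat_lit 156) (nat_lit 152) (nat_lit 0) (XT.nd (nat_lit 78) (nat_lit 228) (nat_lit 0) (XT.lf (nat_lit 0) (nat_lit 2631027328) (nat_lit 304) (nat_lit 2828755360) (nat_lit 76) (nat_lit 11893887425) (nat_lit 56) (nat_lit 5) (nat_lit 60) (nat_lit 5) (nat_lit 57) (nat_lit 5) (nat_lit 335) (nat_lit 265) (nat_lit 180)) (XT.lf (nat_lit 0) (nat_lit 5328451716) (nat_lit 228) (nat_lit 674040376) (nat_lit 304) (nat_lit 11713884013) (nat_lit 53) (nat_lit 5) (nat_lit 56) (nat_lit 5) (nat_lit 57) (nat_lit 5) (nat_lit 336) (nat_lit 265) (nat_lit 179))) (XT.nd (nat_lit 78) (nat_lit 152) (nat_lit 0) (XT.lf (nat_lit 0) (nat_lit 9523698300) (nat_lit 304) (nat_lit 4375453299) (nat_lit 76) (nat_lit 4189368700) (nat_lit 53) (nat_lit 5) (nat_lit 57) (nat_lit 5) (nat_lit 54)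 (nat_lit 5) (nat_lit 337) (nat_lit 265) (nat_lit 178)) (XT.lf (nat_lit 0) (nat_lit 3914560218) (nat_lit 152) (nat_lit 9259744937) (nat_lit 228) (nat_lit 5296825240) (nat_lit 51) (nat_lit 5) (nat_lit 53) (nat_lit 5) (nat_lit 54) (nat_lit 5) (nat_lit 338) (nat_lit 265) (nat_lit 177))))))) (XT.nd (nat_lit 1014) (nat_lit 912) (nat_lit 0) (XT.nd (nat_lit 468) (nat_lit 608) (nat_lit 0) (XT.nd (nat_lit 234) (nat_lit 152) (nat_lit 0) (XT.nd (nat_lit 78) (nat_lit 304) (nat_lit 0) (XT.lf (nat_lit 0) (nat_lit 12510740505) (nat_lit 152) (nat_lit 4447623284) (nat_lit 228) (nat_lit 1906151085) (nat_lit 51) (nat_lit 5) (nat_lit 53) (nat_lit 5) (nat_lit 54) (nat_lit 5) (nat_lit 339) (nat_lit 265) (nat_lit 176)) (XT.nd (nat_lit 78) (nat_lit 0) (nat_lit 0) (XT.lf (nat_lit 0) (nat_lit 1560629375) (nat_lit 304) (nat_lit 17185454365) (nat_lit 76) (nat_lit 523012807) (nat_lit 47) (nat_lit 5) (nat_lit 51) (nat_lit 5)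 (nat_lit 48) (nat_lit 5) (nat_lit 340) (nat_lit 265) (nat_lit 175)) (XT.lf (nat_lit 0) (nat_lit 5182228718) (nat_lit 304) (nat_lit 8874880101) (nat_lit 76) (nat_lit 5625479743) (nat_lit 47) (nat_lit 5) (nat_lit 51) (nat_lit 5) (nat_lit 48) (nat_lit 5) (nat_lit 341) (nat_lit 265) (nat_lit 174)))) (XT.nd (nat_lit 78) (nat_lit 152) (nat_lit 0) (XT.lf (nat_lit 0) (nat_lit 8893345390) (nat_lit 304) (nat_lit 345932992) (nat_lit 76) (nat_lit 10869793393) (nat_lit 47) (nat_lit 5) (nat_lit 51) (nat_lit 5) (nat_lit 48) (nat_lit 5) (nat_lit 342) (nat_lit 265) (nat_lit 173)) (XT.nd (nat_lit 78) (nat_lit 0) (nat_lit 0) (XT.lf (nat_lit 0) (nat_lit 8576191829) (nat_lit 152) (nat_lit 4203469885) (nat_lit 228) (nat_lit 7766783938) (nat_lit 45) (nat_lit 5) (nat_lit 47) (nat_lit 5) (nat_lit 48) (nat_lit 5) (nat_lit 343) (nat_lit 265) (nat_lit 172)) (XT.lf (nat_lit 0) (nat_lit 16777120217) (nat_lit 228) (nat_lit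 3263452047) (nat_lit 76) (nat_lit 956543699) (nat_lit 45) (nat_lit 5) (nat_lit 48) (nat_lit 5) (nat_lit 46) (nat_lit 5) (nat_lit 344) (nat_lit 265) (nat_lit 171))))) (XT.nd (nat_lit 234) (nat_lit 152) (nat_lit 0) (XT.nd (nat_lit 78) (nat_lit 228) (nat_lit 0) (XT.lf (nat_lit 0) (nat_lit 5745734833) (nat_lit 228) (nat_lit 15227726111) (nat_lit 304) (nat_lit 485488140) (nat_lit 42) (nat_lit 5) (nat_lit 45) (nat_lit 5) (nat_lit 46) (nat_lit 5) (nat_lit 345) (nat_lit 265) (nat_lit 170)) (XT.nd (nat_lit 78) (nat_lit 152) (nat_lit 0) (XT.lf (nat_lit 0) (nat_lit 3310913975) (nat_lit 304) (nat_lit 6903587188) (nat_lit 76) (nat_lit 11718714211) (nat_lit 41) (nat_lit 5) (nat_lit 45) (nat_lit 5) (nat_lit 42) (nat_lit 5) (nat_lit 346) (nat_lit 265) (nat_lit 169)) (XT.lf (nat_lit 0) (nat_lit 2179509513) (nat_lit 152) (nat_lit 5035575876) (nat_lit 228) (nat_lit 15206381489) (nat_lit 39) (nat_lit 5) (nat_lit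 41) (nat_lit 5) (nat_lit 42) (nat_lit 5) (nat_lit 347) (nat_lit 265) (nat_lit 168)))) (XT.nd (nat_lit 156) (nat_lit 152) (nat_lit 0) (XT.nd (nat_lit 78) (nat_lit 0) (nat_lit 0) (XT.lf (nat_lit 0) (nat_lit 11292465805) (nat_lit 228) (nat_lit 11277898157) (nat_lit 76) (nat_lit 352329628) (nat_lit 39) (nat_lit 5) (nat_lit 42) (nat_lit 5) (nat_lit 40) (nat_lit 5) (nat_lit 348) (nat_lit 265) (nat_lit 167)) (XT.lf (nat_lit 0) (nat_lit 15525335001) (nat_lit 228) (nat_lit 2122616900) (nat_lit 76) (nat_lit 5790020062) (nat_lit 39) (nat_lit 5) (nat_lit 42) (nat_lit 5) (nat_lit 40) (nat_lit 5) (nat_lit 349) (nat_lit 265) (nat_lit 166))) (XT.nd (nat_lit 78) (nat_lit 0) (nat_lit 0) (XT.lf (nat_lit 0) (nat_lit 7425183270) (nat_lit 152) (nat_lit 12515178698) (nat_lit 228) (nat_lit 4026701161) (nat_lit 37) (nat_lit 5) (nat_lit 39) (nat_lit 5) (nat_lit 40) (nat_lit 5) (nat_lit 350) (nat_lit 265) (nat_lit 165))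 (XT.lf (nat_lit 0) (nat_lit 17276162433) (nat_lit 152) (nat_lit 7217122528) (nat_lit 228) (nat_lit 18588027) (nat_lit 37) (nat_lit 5) (nat_lit 39) (nat_lit 5) (nat_lit 40) (nat_lit 5) (nat_lit 351) (nat_lit 265) (nat_lit 164)))))) (XT.nd (nat_lit 546) (nat_lit 304) (nat_lit 0) (XT.nd (nat_lit 234) (nat_lit 380) (nat_lit 0) (XT.nd (nat_lit 78) (nat_lit 0) (nat_lit 0) (XT.lf (nat_lit 0) (nat_lit 2329282991) (nat_lit 152) (nat_lit 1706993703) (nat_lit 228) (nat_lit 21035372922) (nat_lit 34) (nat_lit 5) (nat_lit 36) (nat_lit 5) (nat_lit 37) (nat_lit 5) (nat_lit 352) (nat_lit 265) (nat_lit 163)) (XT.nd (nat_lit 78) (nat_lit 0) (nat_lit 0) (XT.lf (nat_lit 0) (nat_lit 8308769678) (nat_lit 228) (nat_lit 13381952070) (nat_lit 76) (nat_lit 3954610121) (nat_lit 34) (nat_lit 5) (nat_lit 37) (nat_lit 5) (nat_lit 35) (nat_lit 5) (nat_lit 353) (nat_lit 265) (nat_lit 162)) (XT.lf (nat_lit 0) (nat_lit 12711211134)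 (nat_lit 228) (nat_lit 3783277756) (nat_lit 76) (nat_lit 9741690762) (nat_lit 34) (nat_lit 5) (nat_lit 37) (nat_lit 5) (nat_lit 35) (nat_lit 5) (nat_lit 354) (nat_lit 265) (nat_lit 161)))) (XT.nd (nat_lit 156) (nat_lit 228) (nat_lit 0) (XT.nd (nat_lit 78) (nat_lit 0) (nat_lit 0) (XT.lf (nat_lit 0) (nat_lit 6199425290) (nat_lit 152) (nat_lit 11091206566) (nat_lit 228) (nat_lit 9552781866) (nat_lit 32) (nat_lit 5) (nat_lit 34) (nat_lit 5) (nat_lit 35) (nat_lit 5) (nat_lit 355) (nat_lit 265) (nat_lit 160)) (XT.lf (nat_lit 0) (nat_lit 16534502463) (nat_lit 152) (nat_lit 5496640495) (nat_lit 228) (nat_lit 5437018425) (nat_lit 32) (nat_lit 5) (nat_lit 34) (nat_lit 5) (nat_lit 35) (nat_lit 5) (nat_lit 356) (nat_lit 265) (nat_lit 159))) (XT.nd (nat_lit 78) (nat_lit 228) (nat_lit 0) (XT.lf (nat_lit 0) (nat_lit 26902255485) (nat_lit 228) (nat_lit 958851302) (nat_lit 76) (nat_lit 250900676) (nat_lit 32)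 (nat_lit 5) (nat_lit 35) (nat_lit 5) (nat_lit 33) (nat_lit 4) (nat_lit 357) (nat_lit 265) (nat_lit 158)) (XT.lf (nat_lit 0) (nat_lit 3215494424) (nat_lit 228) (nat_lit 19381717009) (nat_lit 76) (nat_lit 6173082299) (nat_lit 29) (nat_lit 5) (nat_lit 32) (nat_lit 5) (nat_lit 30) (nat_lit 5) (nat_lit 358) (nat_lit 265) (nat_lit 157))))) (XT.nd (nat_lit 234) (nat_lit 152) (nat_lit 0) (XT.nd (nat_lit 78) (nat_lit 152) (nat_lit 0) (XT.lf (nat_lit 0) (nat_lit 7745240743) (nat_lit 228) (nat_lit 9417647554) (nat_lit 76) (nat_lit 12285206168) (nat_lit 29) (nat_lit 5) (nat_lit 32) (nat_lit 5) (nat_lit 30) (nat_lit 5) (nat_lit 359) (nat_lit 265) (nat_lit 156)) (XT.nd (nat_lit 78) (nat_lit 0) (nat_lit 0) (XT.lf (nat_lit 0) (nat_lit 838780610) (nat_lit 152) (nat_lit 11566840311) (nat_lit 228) (nat_lit 17740772783) (nat_lit 27) (nat_lit 5) (nat_lit 29) (nat_lit 5) (nat_lit 30) (nat_lit 5) (nat_lit 360) (nat_lit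 265) (nat_lit 155)) (XT.lf (nat_lit 0) (nat_lit 11573247971) (nat_lit 152) (nat_lit 5714512643) (nat_lit 228) (nat_lit 13575429397) (nat_lit 27) (nat_lit 5) (nat_lit 29) (nat_lit 5) (nat_lit 30) (nat_lit 5) (nat_lit 361) (nat_lit 265) (nat_lit 154)))) (XT.nd (nat_lit 156) (nat_lit 76) (nat_lit 0) (XT.nd (nat_lit 78) (nat_lit 76) (nat_lit 0) (XT.lf (nat_lit 0) (nat_lit 22306519167) (nat_lit 228) (nat_lit 8997098378) (nat_lit 76) (nat_lit 298174363) (nat_lit 27) (nat_lit 5) (nat_lit 30) (nat_lit 5) (nat_lit 28) (nat_lit 4) (nat_lit 362) (nat_lit 265) (nat_lit 153)) (XT.lf (nat_lit 0) (nat_lit 1556632517) (nat_lit 76) (nat_lit 25978267318) (nat_lit 152) (nat_lit 4825886404) (nat_lit 26) (nat_lit 5) (nat_lit 27) (nat_lit 5) (nat_lit 28) (nat_lit 4) (nat_lit 363) (nat_lit 265) (nat_lit 152))) (XT.nd (nat_lit 78) (nat_lit 76) (nat_lit 0) (XT.lf (nat_lit 0) (nat_lit 12589925476) (nat_lit 76) (nat_lit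 20408733319) (nat_lit 152) (nat_lit 141541778) (nat_lit 26) (nat_lit 5) (nat_lit 27) (nat_lit 5) (nat_lit 28) (nat_lit 4) (nat_lit 364) (nat_lit 265) (nat_lit 151)) (XT.lf (nat_lit 0) (nat_lit 4579853143) (nat_lit 152) (nat_lit 10054901338) (nat_lit 76) (nat_lit 19307260658) (nat_lit 25) (nat_lit 5) (nat_lit 27) (nat_lit 5) (nat_lit 26) (nat_lit 5) (nat_lit 365) (nat_lit 265) (nat_lit 150))))))))
noncomputable def xc120 : XT := (XT.nd (nat_lit 2028) (nat_lit 304) (nat_lit 0) (XT.nd (nat_lit 1014) (nat_lit 456) (nat_lit 0) (XT.nd (nat_lit 468) (nat_lit 304) (nat_lit 0) (XT.nd (nat_lit 234) (nat_lit 76) (nat_lit 0) (XT.nd (nat_lit 78) (nat_lit 0) (nat_lit 0) (XT.lf (nat_lit 0) (nat_lit 748041682) (nat_lit 152) (nat_lit 8687454845) (nat_lit 228) (nat_lit 25332487501) (nat_lit 23) (nat_lit 5) (nat_lit 25) (nat_lit 5) (nat_lit 26) (nat_lit 5) (nat_lit 366) (nat_lit 265) (nat_lit 149)) (XT.nd (nat_lit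 78) (nat_lit 0) (nat_lit 0) (XT.lf (nat_lit 0) (nat_lit 12060901937) (nat_lit 152) (nat_lit 2465849805) (nat_lit 228) (nat_lit 21089287277) (nat_lit 23) (nat_lit 5) (nat_lit 25) (nat_lit 5) (nat_lit 26) (nat_lit 5) (nat_lit 367) (nat_lit 265) (nat_lit 148)) (XT.lf (nat_lit 0) (nat_lit 19797305645) (nat_lit 228) (nat_lit 12834241910) (nat_lit 76) (nat_lit 3857196431) (nat_lit 23) (nat_lit 5) (nat_lit 26) (nat_lit 5) (nat_lit 24) (nat_lit 4) (nat_lit 368) (nat_lit 265) (nat_lit 147)))) (XT.nd (nat_lit 78) (nat_lit 76) (nat_lit 0) (XT.lf (nat_lit 0) (nat_lit 25239384923) (nat_lit 228) (nat_lit 1835510408) (nat_lit 76) (nat_lit 10312337514) (nat_lit 23) (nat_lit 5) (nat_lit 26) (nat_lit 5) (nat_lit 24) (nat_lit 4) (nat_lit 369) (nat_lit 265) (nat_lit 146)) (XT.nd (nat_lit 78) (nat_lit 0) (nat_lit 0) (XT.lf (nat_lit 0) (nat_lit 9662929787) (nat_lit 76) (nat_lit 21263997742) (nat_lit 152) (nat_lit 7383287674)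 (nat_lit 22) (nat_lit 5) (nat_lit 23) (nat_lit 5) (nat_lit 24) (nat_lit 4) (nat_lit 370) (nat_lit 265) (nat_lit 145)) (XT.lf (nat_lit 0) (nat_lit 21525321964) (nat_lit 76) (nat_lit 15267756617) (nat_lit 152) (nat_lit 2467573704) (nat_lit 22) (nat_lit 5) (nat_lit 23) (nat_lit 5) (nat_lit 24) (nat_lit 4) (nat_lit 371) (nat_lit 265) (nat_lit 144))))) (XT.nd (nat_lit 234) (nat_lit 76) (nat_lit 0) (XT.nd (nat_lit 78) (nat_lit 152) (nat_lit 0) (XT.lf (nat_lit 0) (nat_lit 2534610498) (nat_lit 152) (nat_lit 6539262485) (nat_lit 76) (nat_lit 31165295971) (nat_lit 21) (nat_lit 5) (nat_lit 23) (nat_lit 5) (nat_lit 22) (nat_lit 5) (nat_lit 372) (nat_lit 265) (nat_lit 143)) (XT.nd (nat_lit 78) (nat_lit 0) (nat_lit 0) (XT.lf (nat_lit 0) (nat_lit 5049018060) (nat_lit 152) (nat_lit 2626730674) (nat_lit 228) (nat_lit 33569409237) (nat_lit 19) (nat_lit 5) (nat_lit 21) (nat_lit 5) (nat_lit 22) (nat_lit 5) (nat_lit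 373) (nat_lit 265) (nat_lit 142)) (XT.lf (nat_lit 0) (nat_lit 13066392035) (nat_lit 228) (nat_lit 25217403924) (nat_lit 76) (nat_lit 3994676763) (nat_lit 19) (nat_lit 5) (nat_lit 22) (nat_lit 5) (nat_lit 20) (nat_lit 4) (nat_lit 374) (nat_lit 265) (nat_lit 141)))) (XT.nd (nat_lit 156) (nat_lit 76) (nat_lit 0) (XT.nd (nat_lit 78) (nat_lit 0) (nat_lit 0) (XT.lf (nat_lit 0) (nat_lit 18635053172) (nat_lit 228) (nat_lit 13952610781) (nat_lit 76) (nat_lit 10754638078) (nat_lit 19) (nat_lit 5) (nat_lit 22) (nat_lit 5) (nat_lit 20) (nat_lit 4) (nat_lit 375) (nat_lit 265) (nat_lit 140)) (XT.lf (nat_lit 0) (nat_lit 24361348222) (nat_lit 228) (nat_lit 2366667717) (nat_lit 76) (nat_lit 17710317010) (nat_lit 19) (nat_lit 5) (nat_lit 22) (nat_lit 5) (nat_lit 20) (nat_lit 4) (nat_lit 376) (nat_lit 265) (nat_lit 139))) (XT.nd (nat_lit 78) (nat_lit 0) (nat_lit 0) (XT.lf (nat_lit 0) (nat_lit 9740623555) (nat_lit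 76) (nat_lit 20603290021) (nat_lit 152) (nat_lit 15220800613) (nat_lit 18) (nat_lit 5) (nat_lit 19) (nat_lit 5) (nat_lit 20) (nat_lit 4) (nat_lit 377) (nat_lit 265) (nat_lit 138)) (XT.lf (nat_lit 0) (nat_lit 22243503054) (nat_lit 76) (nat_lit 14277311512) (nat_lit 152) (nat_lit 10203630265) (nat_lit 18) (nat_lit 5) (nat_lit 19) (nat_lit 5) (nat_lit 20) (nat_lit 4) (nat_lit 378) (nat_lit 265) (nat_lit 137)))))) (XT.nd (nat_lit 468) (nat_lit 228) (nat_lit 0) (XT.nd (nat_lit 234) (nat_lit 0) (nat_lit 0) (XT.nd (nat_lit 78) (nat_lit 228) (nat_lit 0) (XT.lf (nat_lit 0) (nat_lit 35105794295) (nat_lit 76) (nat_lit 7768451564) (nat_lit 152) (nat_lit 5044988453) (nat_lit 18) (nat_lit 5) (nat_lit 19) (nat_lit 5) (nat_lit 20) (nat_lit 4) (nat_lit 379) (nat_lit 265) (nat_lit 136)) (XT.nd (nat_lit 78) (nat_lit 152) (nat_lit 0) (XT.lf (nat_lit 0) (nat_lit 254566012) (nat_lit 152) (nat_lit 813886191) (nat_lit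 76) (nat_lit 48081599544) (nat_lit 17) (nat_lit 5) (nat_lit 19) (nat_lit 5) (nat_lit 18) (nat_lit 5) (nat_lit 380) (nat_lit 265) (nat_lit 135)) (XT.lf (nat_lit 0) (nat_lit 5773517821) (nat_lit 228) (nat_lit 38761535252) (nat_lit 76) (nat_lit 5876391133) (nat_lit 15) (nat_lit 5) (nat_lit 18) (nat_lit 5) (nat_lit 16) (nat_lit 4) (nat_lit 381) (nat_lit 265) (nat_lit 134)))) (XT.nd (nat_lit 78) (nat_lit 0) (nat_lit 0) (XT.lf (nat_lit 0) (nat_lit 11468597105) (nat_lit 228) (nat_lit 27231776201) (nat_lit 76) (nat_lit 13009991579) (nat_lit 15) (nat_lit 5) (nat_lit 18) (nat_lit 5) (nat_lit 16) (nat_lit 4) (nat_lit 382) (nat_lit 265) (nat_lit 133)) (XT.nd (nat_lit 78) (nat_lit 0) (nat_lit 0) (XT.lf (nat_lit 0) (nat_lit 17326451250) (nat_lit 228) (nat_lit 15370673930) (nat_lit 76) (nat_lit 20351373448) (nat_lit 15) (nat_lit 5) (nat_lit 18) (nat_lit 5) (nat_lit 16) (nat_lit 4) (nat_lit 383) (nat_lit 265)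 (nat_lit 132)) (XT.lf (nat_lit 0) (nat_lit 23352198771) (nat_lit 228) (nat_lit 3167864370) (nat_lit 76) (nat_lit 27906951540) (nat_lit 15) (nat_lit 5) (nat_lit 18) (nat_lit 5) (nat_lit 16) (nat_lit 4) (nat_lit 384) (nat_lit 265) (nat_lit 131))))) (XT.nd (nat_lit 234) (nat_lit 152) (nat_lit 0) (XT.nd (nat_lit 78) (nat_lit 0) (nat_lit 0) (XT.lf (nat_lit 0) (nat_lit 9574141106) (nat_lit 76) (nat_lit 20068996279) (nat_lit 152) (nat_lit 26201219211) (nat_lit 14) (nat_lit 5) (nat_lit 15) (nat_lit 5) (nat_lit 16) (nat_lit 4) (nat_lit 385) (nat_lit 265) (nat_lit 130)) (XT.nd (nat_lit 78) (nat_lit 0) (nat_lit 0) (XT.lf (nat_lit 0) (nat_lit 22749764966) (nat_lit 76) (nat_lit 13397505800) (nat_lit 152) (nat_lit 21156216860) (nat_lit 14) (nat_lit 5) (nat_lit 15) (nat_lit 5) (nat_lit 16) (nat_lit 4) (nat_lit 386) (nat_lit 265) (nat_lit 129)) (XT.lf (nat_lit 0) (nat_lit 36307473180) (nat_lit 76) (nat_lit 6531751464)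 (nat_lit 152) (nat_lit 15967389820) (nat_lit 14) (nat_lit 5) (nat_lit 15) (nat_lit 5) (nat_lit 16) (nat_lit 4) (nat_lit 387) (nat_lit 265) (nat_lit 128)))) (XT.nd (nat_lit 156) (nat_lit 76) (nat_lit 0) (XT.nd (nat_lit 78) (nat_lit 76) (nat_lit 0) (XT.lf (nat_lit 0) (nat_lit 49729982048) (nat_lit 152) (nat_lit 10101073927) (nat_lit 0) (nat_lit 523840476) (nat_lit 14) (nat_lit 5) (nat_lit 16) (nat_lit 4) (nat_lit 14) (nat_lit 4) (nat_lit 388) (nat_lit 265) (nat_lit 127)) (XT.lf (nat_lit 0) (nat_lit 2643260802) (nat_lit 76) (nat_lit 54267343279) (nat_lit 76) (nat_lit 5036531173) (nat_lit 13) (nat_lit 4) (nat_lit 14) (nat_lit 5) (nat_lit 14) (nat_lit 4) (nat_lit 389) (nat_lit 265) (nat_lit 126))) (XT.nd (nat_lit 78) (nat_lit 0) (nat_lit 0) (XT.lf (nat_lit 0) (nat_lit 801548791) (nat_lit 152) (nat_lit 47627620034) (nat_lit 76) (nat_lit 15154884809) (nat_lit 12) (nat_lit 5) (nat_lit 14) (nat_lit 5)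 (nat_lit 13) (nat_lit 4) (nat_lit 390) (nat_lit 265) (nat_lit 125)) (XT.lf (nat_lit 0) (nat_lit 6706817971) (nat_lit 152) (nat_lit 35663177941) (nat_lit 76) (nat_lit 22898791761) (nat_lit 12) (nat_lit 5) (nat_lit 14) (nat_lit 5) (nat_lit 13) (nat_lit 4) (nat_lit 391) (nat_lit 265) (nat_lit 124))))))) (XT.nd (nat_lit 1014) (nat_lit 76) (nat_lit 0) (XT.nd (nat_lit 468) (nat_lit 152) (nat_lit 0) (XT.nd (nat_lit 234) (nat_lit 0) (nat_lit 0) (XT.nd (nat_lit 78) (nat_lit 76) (nat_lit 0) (XT.lf (nat_lit 0) (nat_lit 12782717177) (nat_lit 152) (nat_lit 23351679588) (nat_lit 76) (nat_lit 30869865133) (nat_lit 12) (nat_lit 5) (nat_lit 14) (nat_lit 5) (nat_lit 13) (nat_lit 4) (nat_lit 392) (nat_lit 265) (nat_lit 123)) (XT.nd (nat_lit 78) (nat_lit 76) (nat_lit 0) (XT.lf (nat_lit 0) (nat_lit 19034555445) (nat_lit 152) (nat_lit 10682367353) (nat_lit 76) (nat_lit 39075069942) (nat_lit 12) (nat_lit 5) (nat_lit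 14) (nat_lit 5) (nat_lit 13) (nat_lit 4) (nat_lit 393) (nat_lit 265) (nat_lit 122)) (XT.lf (nat_lit 0) (nat_lit 2402714650) (nat_lit 76) (nat_lit 23088177259) (nat_lit 152) (nat_lit 45141957495) (nat_lit 11) (nat_lit 5) (nat_lit 12) (nat_lit 5) (nat_lit 13) (nat_lit 4) (nat_lit 394) (nat_lit 265) (nat_lit 121)))) (XT.nd (nat_lit 78) (nat_lit 0) (nat_lit 0) (XT.lf (nat_lit 0) (nat_lit 16088241717) (nat_lit 76) (nat_lit 16154467065) (nat_lit 152) (nat_lit 40283171402) (nat_lit 11) (nat_lit 5) (nat_lit 12) (nat_lit 5) (nat_lit 13) (nat_lit 4) (nat_lit 395) (nat_lit 265) (nat_lit 120)) (XT.nd (nat_lit 78) (nat_lit 0) (nat_lit 0) (XT.lf (nat_lit 0) (nat_lit 30173572016) (nat_lit 76) (nat_lit 9017604599) (nat_lit 152) (nat_lit 35284704441) (nat_lit 11) (nat_lit 5) (nat_lit 12) (nat_lit 5) (nat_lit 13) (nat_lit 4) (nat_lit 396) (nat_lit 265) (nat_lit 119)) (XT.lf (nat_lit 0) (nat_lit 44671013118) (nat_lit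 76) (nat_lit 1671353767) (nat_lit 152) (nat_lit 30142189019) (nat_lit 11) (nat_lit 5) (nat_lit 12) (nat_lit 5) (nat_lit 13) (nat_lit 4) (nat_lit 397) (nat_lit 265) (nat_lit 118))))) (XT.nd (nat_lit 234) (nat_lit 76) (nat_lit 0) (XT.nd (nat_lit 78) (nat_lit 76) (nat_lit 0) (XT.lf (nat_lit 0) (nat_lit 53759153262) (nat_lit 152) (nat_lit 19017052248) (nat_lit 0) (nat_lit 5775755621) (nat_lit 11) (nat_lit 5) (nat_lit 13) (nat_lit 4) (nat_lit 11) (nat_lit 4) (nat_lit 398) (nat_lit 265) (nat_lit 117)) (XT.nd (nat_lit 78) (nat_lit 76) (nat_lit 0) (XT.lf (nat_lit 0) (nat_lit 61409545962) (nat_lit 152) (nat_lit 5863185555) (nat_lit 0) (nat_lit 13408325802) (nat_lit 11) (nat_lit 5) (nat_lit 13) (nat_lit 4) (nat_lit 11) (nat_lit 4) (nat_lit 399) (nat_lit 265) (nat_lit 116)) (XT.lf (nat_lit 0) (nat_lit 7828376864) (nat_lit 76) (nat_lit 61531038003) (nat_lit 76) (nat_lit 13512514427) (nat_lit 10) (nat_lit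 4) (nat_lit 11) (nat_lit 5) (nat_lit 11) (nat_lit 4) (nat_lit 400) (nat_lit 265) (nat_lit 115)))) (XT.nd (nat_lit 156) (nat_lit 76) (nat_lit 0) (XT.nd (nat_lit 78) (nat_lit 0) (nat_lit 0) (XT.lf (nat_lit 0) (nat_lit 22041290514) (nat_lit 76) (nat_lit 55560471124) (nat_lit 76) (nat_lit 7525148115) (nat_lit 10) (nat_lit 4) (nat_lit 11) (nat_lit 5) (nat_lit 11) (nat_lit 4) (nat_lit 401) (nat_lit 265) (nat_lit 114)) (XT.lf (nat_lit 0) (nat_lit 36671285555) (nat_lit 76) (nat_lit 49415020559) (nat_lit 76) (nat_lit 1363387420) (nat_lit 10) (nat_lit 4) (nat_lit 11) (nat_lit 5) (nat_lit 11) (nat_lit 4) (nat_lit 402) (nat_lit 265) (nat_lit 113))) (XT.nd (nat_lit 78) (nat_lit 0) (nat_lit 0) (XT.lf (nat_lit 0) (nat_lit 4881010048) (nat_lit 152) (nat_lit 38159017817) (nat_lit 76) (nat_lit 46800846798) (nat_lit 9) (nat_lit 5) (nat_lit 11) (nat_lit 5) (nat_lit 10) (nat_lit 4) (nat_lit 403) (nat_lit 265) (nat_lit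 112)) (XT.lf (nat_lit 0) (nat_lit 11280506261) (nat_lit 152) (nat_lit 25183414366) (nat_lit 76) (nat_lit 55839612127) (nat_lit 9) (nat_lit 5) (nat_lit 11) (nat_lit 5) (nat_lit 10) (nat_lit 4) (nat_lit 404) (nat_lit 265) (nat_lit 111)))))) (XT.nd (nat_lit 30108) (nat_lit 0) (nat_lit 20368) (XT.nd (nat_lit 29796) (nat_lit 0) (nat_lit 21432) (XT.nd (nat_lit 78) (nat_lit 76) (nat_lit 0) (XT.lf (nat_lit 0) (nat_lit 17867297609) (nat_lit 152) (nat_lit 11827154007) (nat_lit 76) (nat_lit 65145761198) (nat_lit 9) (nat_lit 5) (nat_lit 11) (nat_lit 5) (nat_lit 10) (nat_lit 4) (nat_lit 405) (nat_lit 265) (nat_lit 110)) (XT.nd (nat_lit 78) (nat_lit 0) (nat_lit 0) (XT.lf (nat_lit 0) (nat_lit 1959674078) (nat_lit 76) (nat_lit 22706303050) (nat_lit 152) (nat_lit 72786589105) (nat_lit 8) (nat_lit 5) (nat_lit 9) (nat_lit 5) (nat_lit 10) (nat_lit 4) (nat_lit 406) (nat_lit 265) (nat_lit 109)) (XT.lf (nat_lit 0) (nat_lit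 16394273649) (nat_lit 76) (nat_lit 15389274333) (nat_lit 152) (nat_lit 68356295792) (nat_lit 8) (nat_lit 5) (nat_lit 9) (nat_lit 5) (nat_lit 10) (nat_lit 4) (nat_lit 407) (nat_lit 265) (nat_lit 108)))) (XT.nd (nat_lit 156) (nat_lit 0) (nat_lit 0) (XT.nd (nat_lit 78) (nat_lit 532) (nat_lit 0) (XT.lf (nat_lit 0) (nat_lit 1330979760) (nat_lit 0) (nat_lit 1330979760) (nat_lit 380) (nat_lit 637978812) (nat_lit 297) (nat_lit 5) (nat_lit 297) (nat_lit 3) (nat_lit 302) (nat_lit 3) (nat_lit 266) (nat_lit 266) (nat_lit 248)) (XT.lf (nat_lit 0) (nat_lit 960724779) (nat_lit 532) (nat_lit 900144686) (nat_lit 532) (nat_lit 4766875812) (nat_lit 290) (nat_lit 3) (nat_lit 297) (nat_lit 3) (nat_lit 297) (nat_lit 5) (nat_lit 267) (nat_lit 266) (nat_lit 247))) (XT.nd (nat_lit 78) (nat_lit 0) (nat_lit 76) (XT.lf (nat_lit 76) (nat_lit 2214417625) (nat_lit 0) (nat_lit 958678762) (nat_lit 532) (nat_lit 3485126534) (nat_lit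 291) (nat_lit 5) (nat_lit 290) (nat_lit 3) (nat_lit 297) (nat_lit 5) (nat_lit 268) (nat_lit 266) (nat_lit 246)) (XT.lf (nat_lit 0) (nat_lit 5376180771) (nat_lit 456) (nat_lit 1295872492) (nat_lit 532) (nat_lit 20005169) (nat_lit 291) (nat_lit 5) (nat_lit 297) (nat_lit 5) (nat_lit 298) (nat_lit 5) (nat_lit 269) (nat_lit 266) (nat_lit 245))))) (XT.nd (nat_lit 234) (nat_lit 608) (nat_lit 0) (XT.nd (nat_lit 78) (nat_lit 0) (nat_lit 0) (XT.lf (nat_lit 0) (nat_lit 845762384) (nat_lit 532) (nat_lit 4808560184) (nat_lit 608) (nat_lit 1074128310) (nat_lit 284) (nat_lit 5) (nat_lit 291) (nat_lit 5) (nat_lit 292) (nat_lit 5) (nat_lit 270) (nat_lit 266) (nat_lit 244)) (XT.nd (nat_lit 78) (nat_lit 0) (nat_lit 0) (XT.lf (nat_lit 0) (nat_lit 2977923808) (nat_lit 532) (nat_lit 1567535512) (nat_lit 608) (nat_lit 2222280362) (nat_lit 284) (nat_lit 5) (nat_lit 291) (nat_lit 5) (nat_lit 292) (nat_lit 5) (nat_lit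 271) (nat_lit 266) (nat_lit 243)) (XT.lf (nat_lit 76) (nat_lit 1758900810) (nat_lit 0) (nat_lit 3353323575) (nat_lit 608) (nat_lit 1697991942) (nat_lit 285) (nat_lit 5) (nat_lit 284) (nat_lit 5) (nat_lit 292) (nat_lit 5) (nat_lit 272) (nat_lit 266) (nat_lit 242)))) (XT.nd (nat_lit 156) (nat_lit 0) (nat_lit 76) (XT.nd (nat_lit 78) (nat_lit 0) (nat_lit 0) (XT.lf (nat_lit 0) (nat_lit 385875341) (nat_lit 608) (nat_lit 1688157826) (nat_lit 684) (nat_lit 4781802028) (nat_lit 276) (nat_lit 5) (nat_lit 284) (nat_lit 5) (nat_lit 285) (nat_lit 5) (nat_lit 273) (nat_lit 266) (nat_lit 241)) (XT.lf (nat_lit 76) (nat_lit 1747173652) (nat_lit 0) (nat_lit 692230116) (nat_lit 684) (nat_lit 4464817618) (nat_lit 277) (nat_lit 5) (nat_lit 276) (nat_lit 5) (nat_lit 285) (nat_lit 5) (nat_lit 274) (nat_lit 266) (nat_lit 240))) (XT.nd (nat_lit 78) (nat_lit 0) (nat_lit 0) (XT.lf (nat_lit 0) (nat_lit 4505292123) (nat_lit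 608) (nat_lit 1688745886) (nat_lit 684) (nat_lit 761635719) (nat_lit 277) (nat_lit 5) (nat_lit 285) (nat_lit 5) (nat_lit 286) (nat_lit 5) (nat_lit 275) (nat_lit 266) (nat_lit 239)) (XT.lf (nat_lit 76) (nat_lit 1866401638) (nat_lit 0) (nat_lit 4720201829) (nat_lit 684) (nat_lit 423595978) (nat_lit 278) (nat_lit 5) (nat_lit 277) (nat_lit 5) (nat_lit 286) (nat_lit 5) (nat_lit 276) (nat_lit 266) (nat_lit 238))))))))
noncomputable def xc121 : XT := (XT.nd (nat_lit 2028) (nat_lit 5244) (nat_lit 0) (XT.nd (nat_lit 1014) (nat_lit 4636) (nat_lit 0) (XT.nd (nat_lit 468) (nat_lit 3952) (nat_lit 0) (XT.nd (nat_lit 234) (nat_lit 1444) (nat_lit 0) (XT.nd (nat_lit 78) (nat_lit 0) (nat_lit 0) (XT.lf (nat_lit 0) (nat_lit 1578212058) (nat_lit 684) (nat_lit 1567032868) (nat_lit 760) (nat_lit 3922361012) (nat_lit 268) (nat_lit 5) (nat_lit 277) (nat_lit 5) (nat_lit 278) (nat_lit 5) (nat_lit 277) (nat_lit 266) (nat_lit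 237)) (XT.nd (nat_lit 78) (nat_lit 0) (nat_lit 76) (XT.lf (nat_lit 76) (nat_lit 2107519115) (nat_lit 0) (nat_lit 1475821943) (nat_lit 760) (nat_lit 3544836218) (nat_lit 269) (nat_lit 5) (nat_lit 268) (nat_lit 5) (nat_lit 278) (nat_lit 5) (nat_lit 278) (nat_lit 266) (nat_lit 236)) (XT.lf (nat_lit 0) (nat_lit 5600222460) (nat_lit 684) (nat_lit 1316479003) (nat_lit 76) (nat_lit 275434678) (nat_lit 269) (nat_lit 5) (nat_lit 278) (nat_lit 5) (nat_lit 270) (nat_lit 5) (nat_lit 279) (nat_lit 266) (nat_lit 235)))) (XT.nd (nat_lit 78) (nat_lit 760) (nat_lit 0) (XT.lf (nat_lit 0) (nat_lit 384762008) (nat_lit 760) (nat_lit 4776880341) (nat_lit 76) (nat_lit 2097161365) (nat_lit 259) (nat_lit 5) (nat_lit 269) (nat_lit 5) (nat_lit 260) (nat_lit 5) (nat_lit 280) (nat_lit 266) (nat_lit 234)) (XT.nd (nat_lit 78) (nat_lit 760) (nat_lit 0) (XT.lf (nat_lit 0) (nat_lit 2338090251) (nat_lit 760) (nat_lit 969536731)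 (nat_lit 76) (nat_lit 4020999340) (nat_lit 259) (nat_lit 5) (nat_lit 269) (nat_lit 5) (nat_lit 260) (nat_lit 5) (nat_lit 281) (nat_lit 266) (nat_lit 233)) (XT.lf (nat_lit 0) (nat_lit 2963411851) (nat_lit 760) (nat_lit 1352881638) (nat_lit 836) (nat_lit 3085367008) (nat_lit 249) (nat_lit 5) (nat_lit 259) (nat_lit 5) (nat_lit 260) (nat_lit 5) (nat_lit 282) (nat_lit 266) (nat_lit 232))))) (XT.nd (nat_lit 234) (nat_lit 2128) (nat_lit 0) (XT.nd (nat_lit 78) (nat_lit 1824) (nat_lit 0) (XT.lf (nat_lit 0) (nat_lit 6309381092) (nat_lit 836) (nat_lit 496871623) (nat_lit 76) (nat_lit 672068915) (nat_lit 249) (nat_lit 5) (nat_lit 260) (nat_lit 5) (nat_lit 250) (nat_lit 5) (nat_lit 283) (nat_lit 266) (nat_lit 231)) (XT.nd (nat_lit 78) (nat_lit 912) (nat_lit 0) (XT.lf (nat_lit 0) (nat_lit 777867319) (nat_lit 912) (nat_lit 3992938623) (nat_lit 76) (nat_lit 2786682838) (nat_lit 237) (nat_lit 5) (nat_lit 249)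 (nat_lit 5) (nat_lit 238) (nat_lit 5) (nat_lit 284) (nat_lit 266) (nat_lit 230)) (XT.lf (nat_lit 0) (nat_lit 61237179) (nat_lit 912) (nat_lit 2645680180) (nat_lit 988) (nat_lit 4933439819) (nat_lit 225) (nat_lit 5) (nat_lit 237) (nat_lit 5) (nat_lit 238) (nat_lit 5) (nat_lit 285) (nat_lit 266) (nat_lit 229)))) (XT.nd (nat_lit 156) (nat_lit 1140) (nat_lit 0) (XT.nd (nat_lit 78) (nat_lit 988) (nat_lit 0) (XT.lf (nat_lit 0) (nat_lit 4271900834) (nat_lit 912) (nat_lit 405182706) (nat_lit 988) (nat_lit 3049221446) (nat_lit 225) (nat_lit 5) (nat_lit 237) (nat_lit 5) (nat_lit 238) (nat_lit 5) (nat_lit 286) (nat_lit 266) (nat_lit 228)) (XT.lf (nat_lit 0) (nat_lit 742794734) (nat_lit 988) (nat_lit 5933668795) (nat_lit 1064) (nat_lit 1139352491) (nat_lit 212) (nat_lit 5) (nat_lit 225) (nat_lit 5) (nat_lit 226) (nat_lit 5) (nat_lit 287) (nat_lit 266) (nat_lit 227))) (XT.nd (nat_lit 78) (nat_lit 1064) (nat_lit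 0) (XT.lf (nat_lit 0) (nat_lit 796118468) (nat_lit 1064) (nat_lit 2830731592) (nat_lit 76) (nat_lit 4281472816) (nat_lit 211) (nat_lit 5) (nat_lit 225) (nat_lit 5) (nat_lit 212) (nat_lit 5) (nat_lit 288) (nat_lit 266) (nat_lit 226)) (XT.lf (nat_lit 0) (nat_lit 1510246867) (nat_lit 1064) (nat_lit 1217839539) (nat_lit 1140) (nat_lit 5276420713) (nat_lit 197) (nat_lit 5) (nat_lit 211) (nat_lit 5) (nat_lit 212) (nat_lit 5) (nat_lit 289) (nat_lit 266) (nat_lit 225)))))) (XT.nd (nat_lit 468) (nat_lit 2204) (nat_lit 0) (XT.nd (nat_lit 234) (nat_lit 1216) (nat_lit 0) (XT.nd (nat_lit 78) (nat_lit 1216) (nat_lit 0) (XT.lf (nat_lit 0) (nat_lit 4707000862) (nat_lit 1140) (nat_lit 2123672592) (nat_lit 76) (nat_lit 1273312048) (nat_lit 197) (nat_lit 5) (nat_lit 212) (nat_lit 5) (nat_lit 198) (nat_lit 5) (nat_lit 290) (nat_lit 266) (nat_lit 224)) (XT.nd (nat_lit 78) (nat_lit 76) (nat_lit 0) (XT.lf (nat_lit 0)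 (nat_lit 2365525916) (nat_lit 1140) (nat_lit 4364043486) (nat_lit 1216) (nat_lit 1477426190) (nat_lit 182) (nat_lit 5) (nat_lit 197) (nat_lit 5) (nat_lit 198) (nat_lit 5) (nat_lit 291) (nat_lit 266) (nat_lit 223)) (XT.lf (nat_lit 0) (nat_lit 461580196) (nat_lit 1216) (nat_lit 1331754515) (nat_lit 76) (nat_lit 6520540390) (nat_lit 181) (nat_lit 5) (nat_lit 197) (nat_lit 5) (nat_lit 182) (nat_lit 5) (nat_lit 292) (nat_lit 266) (nat_lit 222)))) (XT.nd (nat_lit 78) (nat_lit 608) (nat_lit 0) (XT.lf (nat_lit 0) (nat_lit 2421065703) (nat_lit 684) (nat_lit 5115276844) (nat_lit 76) (nat_lit 887489009) (nat_lit 173) (nat_lit 5) (nat_lit 182) (nat_lit 5) (nat_lit 174) (nat_lit 5) (nat_lit 293) (nat_lit 266) (nat_lit 221)) (XT.nd (nat_lit 78) (nat_lit 608) (nat_lit 0) (XT.lf (nat_lit 0) (nat_lit 4423085760) (nat_lit 684) (nat_lit 486111088) (nat_lit 76) (nat_lit 3628444844) (nat_lit 173) (nat_lit 5) (nat_lit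 182) (nat_lit 5) (nat_lit 174) (nat_lit 5) (nat_lit 294) (nat_lit 266) (nat_lit 220)) (XT.lf (nat_lit 0) (nat_lit 4320696587) (nat_lit 608) (nat_lit 2159801977) (nat_lit 684) (nat_lit 2174573125) (nat_lit 165) (nat_lit 5) (nat_lit 173) (nat_lit 5) (nat_lit 174) (nat_lit 5) (nat_lit 295) (nat_lit 266) (nat_lit 219))))) (XT.nd (nat_lit 234) (nat_lit 1064) (nat_lit 0) (XT.nd (nat_lit 78) (nat_lit 608) (nat_lit 0) (XT.lf (nat_lit 0) (nat_lit 461774875) (nat_lit 532) (nat_lit 8108428441) (nat_lit 608) (nat_lit 206767797) (nat_lit 158) (nat_lit 5) (nat_lit 165) (nat_lit 5) (nat_lit 166) (nat_lit 5) (nat_lit 296) (nat_lit 266) (nat_lit 218)) (XT.nd (nat_lit 78) (nat_lit 532) (nat_lit 0) (XT.lf (nat_lit 0) (nat_lit 1805230645) (nat_lit 608) (nat_lit 3496888501) (nat_lit 76) (nat_lit 3599323212) (nat_lit 157) (nat_lit 5) (nat_lit 165) (nat_lit 5) (nat_lit 158) (nat_lit 5) (nat_lit 297) (nat_lit 266) (nat_lit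 217)) (XT.lf (nat_lit 0) (nat_lit 1446496489) (nat_lit 532) (nat_lit 2397238310) (nat_lit 608) (nat_lit 5186800693) (nat_lit 150) (nat_lit 5) (nat_lit 157) (nat_lit 5) (nat_lit 158) (nat_lit 5) (nat_lit 298) (nat_lit 266) (nat_lit 216)))) (XT.nd (nat_lit 156) (nat_lit 608) (nat_lit 0) (XT.nd (nat_lit 78) (nat_lit 456) (nat_lit 0) (XT.lf (nat_lit 0) (nat_lit 5941981922) (nat_lit 608) (nat_lit 2605163048) (nat_lit 76) (nat_lit 616455336) (nat_lit 150) (nat_lit 5) (nat_lit 158) (nat_lit 5) (nat_lit 151) (nat_lit 5) (nat_lit 299) (nat_lit 266) (nat_lit 215)) (XT.lf (nat_lit 0) (nat_lit 2503022379) (nat_lit 456) (nat_lit 5606405060) (nat_lit 532) (nat_lit 1191096968) (nat_lit 144) (nat_lit 5) (nat_lit 150) (nat_lit 5) (nat_lit 151) (nat_lit 5) (nat_lit 300) (nat_lit 266) (nat_lit 214))) (XT.nd (nat_lit 78) (nat_lit 532) (nat_lit 0) (XT.lf (nat_lit 0) (nat_lit 868118383) (nat_lit 532) (nat_lit 1677419499)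 (nat_lit 76) (nat_lit 6896250019) (nat_lit 143) (nat_lit 5) (nat_lit 150) (nat_lit 5) (nat_lit 144) (nat_lit 5) (nat_lit 301) (nat_lit 266) (nat_lit 213)) (XT.lf (nat_lit 0) (nat_lit 2966114425) (nat_lit 608) (nat_lit 5982737572) (nat_lit 76) (nat_lit 638105405) (nat_lit 136) (nat_lit 5) (nat_lit 144) (nat_lit 5) (nat_lit 137) (nat_lit 5) (nat_lit 302) (nat_lit 266) (nat_lit 212))))))) (XT.nd (nat_lit 1014) (nat_lit 2280) (nat_lit 0) (XT.nd (nat_lit 468) (nat_lit 1596) (nat_lit 0) (XT.nd (nat_lit 234) (nat_lit 456) (nat_lit 0) (XT.nd (nat_lit 78) (nat_lit 912) (nat_lit 0) (XT.lf (nat_lit 0) (nat_lit 5130040790) (nat_lit 608) (nat_lit 727666395) (nat_lit 76) (nat_lit 3878733845) (nat_lit 136) (nat_lit 5) (nat_lit 144) (nat_lit 5) (nat_lit 137) (nat_lit 5) (nat_lit 303) (nat_lit 266) (nat_lit 211)) (XT.nd (nat_lit 78) (nat_lit 456) (nat_lit 0) (XT.lf (nat_lit 0) (nat_lit 4733724756) (nat_lit 456)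 (nat_lit 2632489610) (nat_lit 532) (nat_lit 2524022253) (nat_lit 130) (nat_lit 5) (nat_lit 136) (nat_lit 5) (nat_lit 137) (nat_lit 5) (nat_lit 304) (nat_lit 266) (nat_lit 210)) (XT.lf (nat_lit 0) (nat_lit 279817931) (nat_lit 456) (nat_lit 9368859606) (nat_lit 532) (nat_lit 400638362) (nat_lit 124) (nat_lit 5) (nat_lit 130) (nat_lit 5) (nat_lit 131) (nat_lit 5) (nat_lit 305) (nat_lit 266) (nat_lit 209)))) (XT.nd (nat_lit 78) (nat_lit 380) (nat_lit 0) (XT.lf (nat_lit 0) (nat_lit 1792965565) (nat_lit 532) (nat_lit 4315156789) (nat_lit 76) (nat_lit 4103331991) (nat_lit 123) (nat_lit 5) (nat_lit 130) (nat_lit 5) (nat_lit 124) (nat_lit 5) (nat_lit 306) (nat_lit 266) (nat_lit 208)) (XT.nd (nat_lit 78) (nat_lit 0) (nat_lit 0) (XT.lf (nat_lit 0) (nat_lit 1280395974) (nat_lit 380) (nat_lit 2740050814) (nat_lit 456) (nat_lit 6358649564) (nat_lit 118) (nat_lit 5) (nat_lit 123) (nat_lit 5) (nat_lit 124) (nat_lit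 5) (nat_lit 307) (nat_lit 266) (nat_lit 207)) (XT.lf (nat_lit 0) (nat_lit 6330149123) (nat_lit 456) (nat_lit 3469674867) (nat_lit 76) (nat_lit 751522560) (nat_lit 118) (nat_lit 5) (nat_lit 124) (nat_lit 5) (nat_lit 119) (nat_lit 5) (nat_lit 308) (nat_lit 266) (nat_lit 206))))) (XT.nd (nat_lit 234) (nat_lit 760) (nat_lit 0) (XT.nd (nat_lit 78) (nat_lit 456) (nat_lit 0) (XT.lf (nat_lit 0) (nat_lit 2303273610) (nat_lit 380) (nat_lit 6420558435) (nat_lit 456) (nat_lit 2004531165) (nat_lit 113) (nat_lit 5) (nat_lit 118) (nat_lit 5) (nat_lit 119) (nat_lit 5) (nat_lit 309) (nat_lit 266) (nat_lit 205)) (XT.nd (nat_lit 78) (nat_lit 380) (nat_lit 0) (XT.lf (nat_lit 0) (nat_lit 274227527) (nat_lit 456) (nat_lit 2635194677) (nat_lit 76) (nat_lit 8001194291) (nat_lit 112) (nat_lit 5) (nat_lit 118) (nat_lit 5) (nat_lit 113) (nat_lit 5) (nat_lit 310) (nat_lit 266) (nat_lit 204)) (XT.lf (nat_lit 0) (nat_lit 2586962032)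 (nat_lit 456) (nat_lit 7773293411) (nat_lit 76) (nat_lit 737345743) (nat_lit 107) (nat_lit 5) (nat_lit 113) (nat_lit 5) (nat_lit 108) (nat_lit 5) (nat_lit 311) (nat_lit 266) (nat_lit 203)))) (XT.nd (nat_lit 156) (nat_lit 380) (nat_lit 0) (XT.nd (nat_lit 78) (nat_lit 380) (nat_lit 0) (XT.lf (nat_lit 0) (nat_lit 4991895527) (nat_lit 456) (nat_lit 1844189607) (nat_lit 76) (nat_lit 4453460997) (nat_lit 107) (nat_lit 5) (nat_lit 113) (nat_lit 5) (nat_lit 108) (nat_lit 5) (nat_lit 312) (nat_lit 266) (nat_lit 202)) (XT.lf (nat_lit 0) (nat_lit 4305703127) (nat_lit 380) (nat_lit 3172757153) (nat_lit 456) (nat_lit 4008538842) (nat_lit 102) (nat_lit 5) (nat_lit 107) (nat_lit 5) (nat_lit 108) (nat_lit 5) (nat_lit 313) (nat_lit 266) (nat_lit 201))) (XT.nd (nat_lit 78) (nat_lit 380) (nat_lit 0) (XT.lf (nat_lit 0) (nat_lit 10032743687) (nat_lit 456) (nat_lit 1059462267) (nat_lit 76) (nat_lit 598409296) (nat_lit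 102) (nat_lit 5) (nat_lit 108) (nat_lit 5) (nat_lit 103) (nat_lit 5) (nat_lit 314) (nat_lit 266) (nat_lit 200)) (XT.lf (nat_lit 0) (nat_lit 800500022) (nat_lit 380) (nat_lit 6629455869) (nat_lit 76) (nat_lit 4468632761) (nat_lit 97) (nat_lit 5) (nat_lit 102) (nat_lit 5) (nat_lit 98) (nat_lit 5) (nat_lit 315) (nat_lit 266) (nat_lit 199)))))) (XT.nd (nat_lit 546) (nat_lit 912) (nat_lit 0) (XT.nd (nat_lit 234) (nat_lit 684) (nat_lit 0) (XT.nd (nat_lit 78) (nat_lit 684) (nat_lit 0) (XT.lf (nat_lit 0) (nat_lit 3279741555) (nat_lit 380) (nat_lit 360310299) (nat_lit 76) (nat_lit 8472874137) (nat_lit 97) (nat_lit 5) (nat_lit 102) (nat_lit 5) (nat_lit 98) (nat_lit 5) (nat_lit 316) (nat_lit 266) (nat_lit 198)) (XT.nd (nat_lit 78) (nat_lit 304) (nat_lit 0) (XT.lf (nat_lit 0) (nat_lit 5866293471) (nat_lit 456) (nat_lit 6157816326) (nat_lit 76) (nat_lit 308625156) (nat_lit 92) (nat_lit 5) (nat_lit 98) (nat_lit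 5) (nat_lit 93) (nat_lit 5) (nat_lit 317) (nat_lit 266) (nat_lit 197)) (XT.lf (nat_lit 0) (nat_lit 284185136) (nat_lit 304) (nat_lit 8259610224) (nat_lit 380) (nat_lit 4014970859) (nat_lit 88) (nat_lit 5) (nat_lit 92) (nat_lit 5) (nat_lit 93) (nat_lit 5) (nat_lit 318) (nat_lit 266) (nat_lit 196)))) (XT.nd (nat_lit 156) (nat_lit 304) (nat_lit 0) (XT.nd (nat_lit 78) (nat_lit 380) (nat_lit 0) (XT.lf (nat_lit 0) (nat_lit 7006220887) (nat_lit 304) (nat_lit 4328958476) (nat_lit 380) (nat_lit 1455420151) (nat_lit 88) (nat_lit 5) (nat_lit 92) (nat_lit 5) (nat_lit 93) (nat_lit 5) (nat_lit 319) (nat_lit 266) (nat_lit 195)) (XT.lf (nat_lit 0) (nat_lit 867209497) (nat_lit 304) (nat_lit 270907075) (nat_lit 380) (nat_lit 11891549591) (nat_lit 83) (nat_lit 5) (nat_lit 87) (nat_lit 5) (nat_lit 88) (nat_lit 5) (nat_lit 320) (nat_lit 266) (nat_lit 194))) (XT.nd (nat_lit 78) (nat_lit 304) (nat_lit 0) (XT.lf (nat_lit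 0) (nat_lit 3849021609) (nat_lit 380) (nat_lit 5529056300) (nat_lit 76) (nat_lit 3895355602) (nat_lit 83) (nat_lit 5) (nat_lit 88) (nat_lit 5) (nat_lit 84) (nat_lit 5) (nat_lit 321) (nat_lit 266) (nat_lit 193)) (XT.lf (nat_lit 0) (nat_lit 1287674349) (nat_lit 304) (nat_lit 5341698741) (nat_lit 380) (nat_lit 6895521915) (nat_lit 79) (nat_lit 5) (nat_lit 83) (nat_lit 5) (nat_lit 84) (nat_lit 5) (nat_lit 322) (nat_lit 266) (nat_lit 192))))) (XT.nd (nat_lit 234) (nat_lit 532) (nat_lit 0) (XT.nd (nat_lit 78) (nat_lit 380) (nat_lit 0) (XT.lf (nat_lit 0) (nat_lit 8384504199) (nat_lit 304) (nat_lit 1137944551) (nat_lit 380) (nat_lit 4260596167) (nat_lit 79) (nat_lit 5) (nat_lit 83) (nat_lit 5) (nat_lit 84) (nat_lit 5) (nat_lit 323) (nat_lit 266) (nat_lit 191)) (XT.nd (nat_lit 78) (nat_lit 76) (nat_lit 0) (XT.lf (nat_lit 0) (nat_lit 1608673342) (nat_lit 304) (nat_lit 10913938258) (nat_lit 380) (nat_lit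 1525742166) (nat_lit 75) (nat_lit 5) (nat_lit 79) (nat_lit 5) (nat_lit 80) (nat_lit 5) (nat_lit 324) (nat_lit 266) (nat_lit 190)) (XT.lf (nat_lit 0) (nat_lit 1306555585) (nat_lit 380) (nat_lit 5444938281) (nat_lit 76) (nat_lit 7568559821) (nat_lit 74) (nat_lit 5) (nat_lit 79) (nat_lit 5) (nat_lit 75) (nat_lit 5) (nat_lit 325) (nat_lit 266) (nat_lit 189)))) (XT.nd (nat_lit 156) (nat_lit 304) (nat_lit 0) (XT.nd (nat_lit 78) (nat_lit 0) (nat_lit 0) (XT.lf (nat_lit 0) (nat_lit 1742124665) (nat_lit 228) (nat_lit 2442799484) (nat_lit 304) (nat_lit 10414795544) (nat_lit 71) (nat_lit 5) (nat_lit 74) (nat_lit 5) (nat_lit 75) (nat_lit 5) (nat_lit 326) (nat_lit 266) (nat_lit 188)) (XT.lf (nat_lit 0) (nat_lit 7199642281) (nat_lit 304) (nat_lit 5686135597) (nat_lit 76) (nat_lit 2000518533) (nat_lit 71) (nat_lit 5) (nat_lit 75) (nat_lit 5) (nat_lit 72) (nat_lit 5) (nat_lit 327) (nat_lit 266) (nat_lit 187)))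 (XT.nd (nat_lit 78) (nat_lit 0) (nat_lit 0) (XT.lf (nat_lit 0) (nat_lit 1673300828) (nat_lit 304) (nat_lit 8647783961) (nat_lit 380) (nat_lit 4859917243) (nat_lit 67) (nat_lit 5) (nat_lit 71) (nat_lit 5) (nat_lit 72) (nat_lit 5) (nat_lit 328) (nat_lit 266) (nat_lit 186)) (XT.lf (nat_lit 0) (nat_lit 9334797111) (nat_lit 304) (nat_lit 4235163706) (nat_lit 380) (nat_lit 1913593799) (nat_lit 67) (nat_lit 5) (nat_lit 71) (nat_lit 5) (nat_lit 72) (nat_lit 5) (nat_lit 329) (nat_lit 266) (nat_lit 185))))))))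
noncomputable def xc122 : XT := (XT.nd (nat_lit 2028) (nat_lit 1444) (nat_lit 0) (XT.nd (nat_lit 1014) (nat_lit 988) (nat_lit 0) (XT.nd (nat_lit 468) (nat_lit 684) (nat_lit 0) (XT.nd (nat_lit 234) (nat_lit 304) (nat_lit 0) (XT.nd (nat_lit 78) (nat_lit 228) (nat_lit 0) (XT.lf (nat_lit 0) (nat_lit 1092747463) (nat_lit 304) (nat_lit 14385260407) (nat_lit 76) (nat_lit 317065827) (nat_lit 63) (nat_lit 5) (nat_lit 67) (nat_lit 5) (nat_lit 64) (nat_lit 5) (nat_lit 330) (nat_lit 266) (nat_lit 184)) (XT.nd (nat_lit 78) (nat_lit 228) (nat_lit 0) (XT.lf (nat_lit 0) (nat_lit 4232502662) (nat_lit 304) (nat_lit 6889371547) (nat_lit 76) (nat_lit 4991063041) (nat_lit 63) (nat_lit 5) (nat_lit 67) (nat_lit 5) (nat_lit 64) (nat_lit 5) (nat_lit 331) (nat_lit 266) (nat_lit 183)) (XT.lf (nat_lit 0) (nat_lit 813296279) (nat_lit 228) (nat_lit 6638688230) (nat_lit 304) (nat_lit 8988803509) (nat_lit 60) (nat_lit 5) (nat_lit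 63) (nat_lit 5) (nat_lit 64) (nat_lit 5) (nat_lit 332) (nat_lit 266) (nat_lit 182)))) (XT.nd (nat_lit 78) (nat_lit 304) (nat_lit 0) (XT.lf (nat_lit 0) (nat_lit 8854634486) (nat_lit 228) (nat_lit 1961027286) (nat_lit 304) (nat_lit 5961401029) (nat_lit 60) (nat_lit 5) (nat_lit 63) (nat_lit 5) (nat_lit 64) (nat_lit 5) (nat_lit 333) (nat_lit 266) (nat_lit 181)) (XT.nd (nat_lit 78) (nat_lit 304) (nat_lit 0) (XT.lf (nat_lit 0) (nat_lit 14286284635) (nat_lit 304) (nat_lit 46878141) (nat_lit 76) (nat_lit 2790098326) (nat_lit 60) (nat_lit 5) (nat_lit 64) (nat_lit 5) (nat_lit 61) (nat_lit 5) (nat_lit 334) (nat_lit 266) (nat_lit 180)) (XT.lf (nat_lit 0) (nat_lit 451665430) (nat_lit 304) (nat_lit 9309206734) (nat_lit 76) (nat_lit 7716540973) (nat_lit 56) (nat_lit 5) (nat_lit 60) (nat_lit 5) (nat_lit 57) (nat_lit 5) (nat_lit 335) (nat_lit 266) (nat_lit 179))))) (XT.nd (nat_lit 234) (nat_lit 456) (nat_lit 0)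 (XT.nd (nat_lit 78) (nat_lit 228) (nat_lit 0) (XT.lf (nat_lit 0) (nat_lit 3761701728) (nat_lit 304) (nat_lit 1271911202) (nat_lit 76) (nat_lit 12808356416) (nat_lit 56) (nat_lit 5) (nat_lit 60) (nat_lit 5) (nat_lit 57) (nat_lit 5) (nat_lit 336) (nat_lit 266) (nat_lit 178)) (XT.nd (nat_lit 78) (nat_lit 0) (nat_lit 0) (XT.lf (nat_lit 0) (nat_lit 7113916922) (nat_lit 228) (nat_lit 105386579) (nat_lit 304) (nat_lit 10996725319) (nat_lit 53) (nat_lit 5) (nat_lit 56) (nat_lit 5) (nat_lit 57) (nat_lit 5) (nat_lit 337) (nat_lit 266) (nat_lit 177)) (XT.lf (nat_lit 0) (nat_lit 10821445436) (nat_lit 304) (nat_lit 2903037678) (nat_lit 76) (nat_lit 4875616689) (nat_lit 53) (nat_lit 5) (nat_lit 57) (nat_lit 5) (nat_lit 54) (nat_lit 5) (nat_lit 338) (nat_lit 266) (nat_lit 176)))) (XT.nd (nat_lit 156) (nat_lit 304) (nat_lit 0) (XT.nd (nat_lit 78) (nat_lit 0) (nat_lit 0) (XT.lf (nat_lit 0) (nat_lit 5619953898)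 (nat_lit 152) (nat_lit 8947404229) (nat_lit 228) (nat_lit 4427277272) (nat_lit 51) (nat_lit 5) (nat_lit 53) (nat_lit 5) (nat_lit 54) (nat_lit 5) (nat_lit 339) (nat_lit 266) (nat_lit 175)) (XT.lf (nat_lit 0) (nat_lit 14427768423) (nat_lit 152) (nat_lit 4008107268) (nat_lit 228) (nat_lit 964837826) (nat_lit 51) (nat_lit 5) (nat_lit 53) (nat_lit 5) (nat_lit 54) (nat_lit 5) (nat_lit 340) (nat_lit 266) (nat_lit 174))) (XT.nd (nat_lit 78) (nat_lit 0) (nat_lit 0) (XT.lf (nat_lit 0) (nat_lit 2578399552) (nat_lit 304) (nat_lit 16130476169) (nat_lit 76) (nat_lit 1108529898) (nat_lit 47) (nat_lit 5) (nat_lit 51) (nat_lit 5) (nat_lit 48) (nat_lit 5) (nat_lit 341) (nat_lit 266) (nat_lit 173)) (XT.lf (nat_lit 0) (nat_lit 6280366741) (nat_lit 304) (nat_lit 7616328613) (nat_lit 76) (nat_lit 6347473948) (nat_lit 47) (nat_lit 5) (nat_lit 51) (nat_lit 5) (nat_lit 48) (nat_lit 5) (nat_lit 342) (nat_lit 266) (nat_lit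 172)))))) (XT.nd (nat_lit 468) (nat_lit 380) (nat_lit 0) (XT.nd (nat_lit 234) (nat_lit 456) (nat_lit 0) (XT.nd (nat_lit 78) (nat_lit 0) (nat_lit 0) (XT.lf (nat_lit 0) (nat_lit 1146446621) (nat_lit 152) (nat_lit 8939934196) (nat_lit 228) (nat_lit 10597577243) (nat_lit 45) (nat_lit 5) (nat_lit 47) (nat_lit 5) (nat_lit 48) (nat_lit 5) (nat_lit 343) (nat_lit 266) (nat_lit 171)) (XT.nd (nat_lit 78) (nat_lit 0) (nat_lit 0) (XT.lf (nat_lit 0) (nat_lit 10299350294) (nat_lit 152) (nat_lit 3766350117) (nat_lit 228) (nat_lit 7069477770) (nat_lit 45) (nat_lit 5) (nat_lit 47) (nat_lit 5) (nat_lit 48) (nat_lit 5) (nat_lit 344) (nat_lit 266) (nat_lit 170)) (XT.lf (nat_lit 0) (nat_lit 18162048287) (nat_lit 228) (nat_lit 1916579396) (nat_lit 76) (nat_lit 1521388882) (nat_lit 45) (nat_lit 5) (nat_lit 48) (nat_lit 5) (nat_lit 46) (nat_lit 5) (nat_lit 345) (nat_lit 266) (nat_lit 169)))) (XT.nd (nat_lit 78) (nat_lit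 152) (nat_lit 0) (XT.lf (nat_lit 0) (nat_lit 388541417) (nat_lit 304) (nat_lit 14731169518) (nat_lit 76) (nat_lit 6956253693) (nat_lit 41) (nat_lit 5) (nat_lit 45) (nat_lit 5) (nat_lit 42) (nat_lit 5) (nat_lit 346) (nat_lit 266) (nat_lit 168)) (XT.nd (nat_lit 78) (nat_lit 152) (nat_lit 0) (XT.lf (nat_lit 0) (nat_lit 4263480590) (nat_lit 304) (nat_lit 5704253689) (nat_lit 76) (nat_lit 12597363835) (nat_lit 41) (nat_lit 5) (nat_lit 45) (nat_lit 5) (nat_lit 42) (nat_lit 5) (nat_lit 347) (nat_lit 266) (nat_lit 167)) (XT.lf (nat_lit 0) (nat_lit 3637547275) (nat_lit 152) (nat_lit 4635765273) (nat_lit 228) (nat_lit 14795043599) (nat_lit 39) (nat_lit 5) (nat_lit 41) (nat_lit 5) (nat_lit 42) (nat_lit 5) (nat_lit 348) (nat_lit 266) (nat_lit 166))))) (XT.nd (nat_lit 234) (nat_lit 228) (nat_lit 0) (XT.nd (nat_lit 78) (nat_lit 152) (nat_lit 0) (XT.lf (nat_lit 0) (nat_lit 12453637810) (nat_lit 228) (nat_lit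 10244281860) (nat_lit 76) (nat_lit 887295893) (nat_lit 39) (nat_lit 5) (nat_lit 42) (nat_lit 5) (nat_lit 40) (nat_lit 5) (nat_lit 349) (nat_lit 266) (nat_lit 165)) (XT.nd (nat_lit 78) (nat_lit 152) (nat_lit 0) (XT.lf (nat_lit 0) (nat_lit 16789539741) (nat_lit 228) (nat_lit 854301969) (nat_lit 76) (nat_lit 6472843359) (nat_lit 39) (nat_lit 5) (nat_lit 42) (nat_lit 5) (nat_lit 40) (nat_lit 5) (nat_lit 350) (nat_lit 266) (nat_lit 164)) (XT.lf (nat_lit 0) (nat_lit 8966873447) (nat_lit 152) (nat_lit 12359566807) (nat_lit 228) (nat_lit 3335539804) (nat_lit 37) (nat_lit 5) (nat_lit 39) (nat_lit 5) (nat_lit 40) (nat_lit 5) (nat_lit 351) (nat_lit 266) (nat_lit 163)))) (XT.nd (nat_lit 156) (nat_lit 0) (nat_lit 0) (XT.nd (nat_lit 78) (nat_lit 152) (nat_lit 0) (XT.lf (nat_lit 0) (nat_lit 754158109) (nat_lit 228) (nat_lit 6156263302) (nat_lit 76) (nat_lit 18313192784) (nat_lit 36) (nat_lit 5) (nat_lit 39)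 (nat_lit 5) (nat_lit 37) (nat_lit 5) (nat_lit 352) (nat_lit 266) (nat_lit 162)) (XT.lf (nat_lit 0) (nat_lit 3682786848) (nat_lit 152) (nat_lit 1237334786) (nat_lit 228) (nat_lit 20880374773) (nat_lit 34) (nat_lit 5) (nat_lit 36) (nat_lit 5) (nat_lit 37) (nat_lit 5) (nat_lit 353) (nat_lit 266) (nat_lit 161))) (XT.nd (nat_lit 78) (nat_lit 0) (nat_lit 0) (XT.lf (nat_lit 0) (nat_lit 9303434271) (nat_lit 228) (nat_lit 12519409509) (nat_lit 76) (nat_lit 4569078233) (nat_lit 34) (nat_lit 5) (nat_lit 37) (nat_lit 5) (nat_lit 35) (nat_lit 5) (nat_lit 354) (nat_lit 266) (nat_lit 160)) (XT.lf (nat_lit 0) (nat_lit 13816238248) (nat_lit 228) (nat_lit 2669590532) (nat_lit 76) (nat_lit 10515329649) (nat_lit 34) (nat_lit 5) (nat_lit 37) (nat_lit 5) (nat_lit 35) (nat_lit 5) (nat_lit 355) (nat_lit 266) (nat_lit 159))))))) (XT.nd (nat_lit 1014) (nat_lit 608) (nat_lit 0) (XT.nd (nat_lit 468) (nat_lit 304) (nat_lit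 0) (XT.nd (nat_lit 234) (nat_lit 228) (nat_lit 0) (XT.nd (nat_lit 78) (nat_lit 152) (nat_lit 0) (XT.lf (nat_lit 0) (nat_lit 7600562374) (nat_lit 152) (nat_lit 10923081652) (nat_lit 228) (nat_lit 9103258954) (nat_lit 32) (nat_lit 5) (nat_lit 34) (nat_lit 5) (nat_lit 35) (nat_lit 5) (nat_lit 356) (nat_lit 266) (nat_lit 158)) (XT.nd (nat_lit 78) (nat_lit 152) (nat_lit 0) (XT.lf (nat_lit 0) (nat_lit 18210299018) (nat_lit 152) (nat_lit 5175266786) (nat_lit 228) (nat_lit 4885462601) (nat_lit 32) (nat_lit 5) (nat_lit 34) (nat_lit 5) (nat_lit 35) (nat_lit 5) (nat_lit 357) (nat_lit 266) (nat_lit 157)) (XT.lf (nat_lit 0) (nat_lit 177264506) (nat_lit 152) (nat_lit 28211590687) (nat_lit 228) (nat_lit 545764240) (nat_lit 30) (nat_lit 5) (nat_lit 32) (nat_lit 5) (nat_lit 33) (nat_lit 4) (nat_lit 358) (nat_lit 266) (nat_lit 156)))) (XT.nd (nat_lit 78) (nat_lit 152) (nat_lit 0) (XT.lf (nat_lit 0) (nat_lit 3988069637)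 (nat_lit 228) (nat_lit 18799335314) (nat_lit 76) (nat_lit 6825372784) (nat_lit 29) (nat_lit 5) (nat_lit 32) (nat_lit 5) (nat_lit 30) (nat_lit 5) (nat_lit 359) (nat_lit 266) (nat_lit 155)) (XT.nd (nat_lit 78) (nat_lit 152) (nat_lit 0) (XT.lf (nat_lit 0) (nat_lit 8634015811) (nat_lit 228) (nat_lit 8570241829) (nat_lit 76) (nat_lit 13107255573) (nat_lit 29) (nat_lit 5) (nat_lit 32) (nat_lit 5) (nat_lit 30) (nat_lit 5) (nat_lit 360) (nat_lit 266) (nat_lit 154)) (XT.lf (nat_lit 0) (nat_lit 1982801384) (nat_lit 152) (nat_lit 11443042185) (nat_lit 228) (nat_lit 17605178432) (nat_lit 27) (nat_lit 5) (nat_lit 29) (nat_lit 5) (nat_lit 30) (nat_lit 5) (nat_lit 361) (nat_lit 266) (nat_lit 153))))) (XT.nd (nat_lit 234) (nat_lit 228) (nat_lit 0) (XT.nd (nat_lit 78) (nat_lit 76) (nat_lit 0) (XT.lf (nat_lit 0) (nat_lit 13006714687) (nat_lit 152) (nat_lit 5428857405) (nat_lit 228) (nat_lit 13334325741) (nat_lit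 27) (nat_lit 5) (nat_lit 29) (nat_lit 5) (nat_lit 30) (nat_lit 5) (nat_lit 362) (nat_lit 266) (nat_lit 152)) (XT.nd (nat_lit 78) (nat_lit 76) (nat_lit 0) (XT.lf (nat_lit 0) (nat_lit 23590833670) (nat_lit 228) (nat_lit 8198017815) (nat_lit 76) (nat_lit 742237198) (nat_lit 27) (nat_lit 5) (nat_lit 30) (nat_lit 5) (nat_lit 28) (nat_lit 4) (nat_lit 363) (nat_lit 266) (nat_lit 151)) (XT.lf (nat_lit 0) (nat_lit 2661844679) (nat_lit 76) (nat_lit 26306480070) (nat_lit 152) (nat_lit 4344769162) (nat_lit 26) (nat_lit 5) (nat_lit 27) (nat_lit 5) (nat_lit 28) (nat_lit 4) (nat_lit 364) (nat_lit 266) (nat_lit 150)))) (XT.nd (nat_lit 156) (nat_lit 152) (nat_lit 0) (XT.nd (nat_lit 78) (nat_lit 0) (nat_lit 0) (XT.lf (nat_lit 0) (nat_lit 452863023) (nat_lit 152) (nat_lit 20125563861) (nat_lit 76) (nat_lit 13537869893) (nat_lit 25) (nat_lit 5) (nat_lit 27) (nat_lit 5) (nat_lit 26) (nat_lit 5) (nat_lit 365) (nat_lit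 266) (nat_lit 149)) (XT.lf (nat_lit 0) (nat_lit 5295701364) (nat_lit 152) (nat_lit 9347016257) (nat_lit 76) (nat_lit 20299934814) (nat_lit 25) (nat_lit 5) (nat_lit 27) (nat_lit 5) (nat_lit 26) (nat_lit 5) (nat_lit 366) (nat_lit 266) (nat_lit 148))) (XT.nd (nat_lit 78) (nat_lit 0) (nat_lit 0) (XT.lf (nat_lit 0) (nat_lit 1770117681) (nat_lit 152) (nat_lit 8519657335) (nat_lit 228) (nat_lit 25503850397) (nat_lit 23) (nat_lit 5) (nat_lit 25) (nat_lit 5) (nat_lit 26) (nat_lit 5) (nat_lit 367) (nat_lit 266) (nat_lit 147)) (XT.lf (nat_lit 0) (nat_lit 13393248168) (nat_lit 152) (nat_lit 2123882430) (nat_lit 228) (nat_lit 21150498197) (nat_lit 23) (nat_lit 5) (nat_lit 25) (nat_lit 5) (nat_lit 26) (nat_lit 5) (nat_lit 368) (nat_lit 266) (nat_lit 146)))))) (XT.nd (nat_lit 546) (nat_lit 304) (nat_lit 0) (XT.nd (nat_lit 234) (nat_lit 228) (nat_lit 0) (XT.nd (nat_lit 78) (nat_lit 76) (nat_lit 0) (XT.lf (nat_lit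 0) (nat_lit 20933530251) (nat_lit 228) (nat_lit 12264499973) (nat_lit 76) (nat_lit 4368860213) (nat_lit 23) (nat_lit 5) (nat_lit 26) (nat_lit 5) (nat_lit 24) (nat_lit 4) (nat_lit 369) (nat_lit 266) (nat_lit 145)) (XT.nd (nat_lit 78) (nat_lit 76) (nat_lit 0) (XT.lf (nat_lit 0) (nat_lit 26523076604) (nat_lit 228) (nat_lit 963615337) (nat_lit 76) (nat_lit 11006123066) (nat_lit 23) (nat_lit 5) (nat_lit 26) (nat_lit 5) (nat_lit 24) (nat_lit 4) (nat_lit 370) (nat_lit 266) (nat_lit 144)) (XT.lf (nat_lit 0) (nat_lit 10870690216) (nat_lit 76) (nat_lit 21504043177) (nat_lit 152) (nat_lit 7068955782) (nat_lit 22) (nat_lit 5) (nat_lit 23) (nat_lit 5) (nat_lit 24) (nat_lit 4) (nat_lit 371) (nat_lit 266) (nat_lit 143)))) (XT.nd (nat_lit 156) (nat_lit 152) (nat_lit 0) (XT.nd (nat_lit 78) (nat_lit 76) (nat_lit 0) (XT.lf (nat_lit 0) (nat_lit 23062220008) (nat_lit 76) (nat_lit 15339503396) (nat_lit 152) (nat_lit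 2021377106) (nat_lit 22) (nat_lit 5) (nat_lit 23) (nat_lit 5) (nat_lit 24) (nat_lit 4) (nat_lit 372) (nat_lit 266) (nat_lit 142)) (XT.lf (nat_lit 0) (nat_lit 3105864705) (nat_lit 152) (nat_lit 5860188885) (nat_lit 76) (nat_lit 32465221146) (nat_lit 21) (nat_lit 5) (nat_lit 23) (nat_lit 5) (nat_lit 22) (nat_lit 5) (nat_lit 373) (nat_lit 266) (nat_lit 141))) (XT.nd (nat_lit 78) (nat_lit 0) (nat_lit 0) (XT.lf (nat_lit 0) (nat_lit 6067159179) (nat_lit 152) (nat_lit 2327985112) (nat_lit 228) (nat_lit 34072488114) (nat_lit 19) (nat_lit 5) (nat_lit 21) (nat_lit 5) (nat_lit 22) (nat_lit 5) (nat_lit 374) (nat_lit 266) (nat_lit 140)) (XT.lf (nat_lit 0) (nat_lit 13936784101) (nat_lit 228) (nat_lit 25121574911) (nat_lit 76) (nat_lit 4473915290) (nat_lit 19) (nat_lit 5) (nat_lit 22) (nat_lit 5) (nat_lit 20) (nat_lit 4) (nat_lit 375) (nat_lit 266) (nat_lit 139))))) (XT.nd (nat_lit 234) (nat_lit 228) (nat_lit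 0) (XT.nd (nat_lit 78) (nat_lit 76) (nat_lit 0) (XT.lf (nat_lit 0) (nat_lit 19658571082) (nat_lit 228) (nat_lit 13543663735) (nat_lit 76) (nat_lit 11426207535) (nat_lit 19) (nat_lit 5) (nat_lit 22) (nat_lit 5) (nat_lit 20) (nat_lit 4) (nat_lit 376) (nat_lit 266) (nat_lit 138)) (XT.nd (nat_lit 78) (nat_lit 76) (nat_lit 0) (XT.lf (nat_lit 0) (nat_lit 25543126838) (nat_lit 228) (nat_lit 1634245060) (nat_lit 76) (nat_lit 18580393816) (nat_lit 19) (nat_lit 5) (nat_lit 22) (nat_lit 5) (nat_lit 20) (nat_lit 4) (nat_lit 377) (nat_lit 266) (nat_lit 137)) (XT.lf (nat_lit 0) (nat_lit 10828388258) (nat_lit 76) (nat_lit 20871294049) (nat_lit 152) (nat_lit 15218426197) (nat_lit 18) (nat_lit 5) (nat_lit 19) (nat_lit 5) (nat_lit 20) (nat_lit 4) (nat_lit 378) (nat_lit 266) (nat_lit 136)))) (XT.nd (nat_lit 156) (nat_lit 228) (nat_lit 0) (XT.nd (nat_lit 78) (nat_lit 0) (nat_lit 0) (XT.lf (nat_lit 0) (nat_lit 23683182898)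 (nat_lit 76) (nat_lit 14365733117) (nat_lit 152) (nat_lit 10064109626) (nat_lit 18) (nat_lit 5) (nat_lit 19) (nat_lit 5) (nat_lit 20) (nat_lit 4) (nat_lit 379) (nat_lit 266) (nat_lit 135)) (XT.lf (nat_lit 0) (nat_lit 36908846525) (nat_lit 76) (nat_lit 7671507304) (nat_lit 152) (nat_lit 4763688060) (nat_lit 18) (nat_lit 5) (nat_lit 19) (nat_lit 5) (nat_lit 20) (nat_lit 4) (nat_lit 380) (nat_lit 266) (nat_lit 134))) (XT.nd (nat_lit 78) (nat_lit 152) (nat_lit 0) (XT.lf (nat_lit 0) (nat_lit 674054920) (nat_lit 152) (nat_lit 101905733) (nat_lit 76) (nat_lit 49836073989) (nat_lit 17) (nat_lit 5) (nat_lit 19) (nat_lit 5) (nat_lit 18) (nat_lit 5) (nat_lit 381) (nat_lit 266) (nat_lit 133)) (XT.lf (nat_lit 0) (nat_lit 6356687155) (nat_lit 228) (nat_lit 39185937787) (nat_lit 76) (nat_lit 6368705326) (nat_lit 15) (nat_lit 5) (nat_lit 18) (nat_lit 5) (nat_lit 16) (nat_lit 4) (nat_lit 382) (nat_lit 266) (nat_lit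 132))))))))
noncomputable def xc123 : XT := (XT.nd (nat_lit 31746) (nat_lit 0) (nat_lit 11932) (XT.nd (nat_lit 1014) (nat_lit 228) (nat_lit 0) (XT.nd (nat_lit 468) (nat_lit 228) (nat_lit 0) (XT.nd (nat_lit 234) (nat_lit 76) (nat_lit 0) (XT.nd (nat_lit 78) (nat_lit 0) (nat_lit 0) (XT.lf (nat_lit 0) (nat_lit 12210678124) (nat_lit 228) (nat_lit 27331794028) (nat_lit 76) (nat_lit 13707109247) (nat_lit 15) (nat_lit 5) (nat_lit 18) (nat_lit 5) (nat_lit 16) (nat_lit 4) (nat_lit 383) (nat_lit 266) (nat_lit 131)) (XT.nd (nat_lit 78) (nat_lit 0) (nat_lit 0) (XT.lf (nat_lit 0) (nat_lit 18232674988) (nat_lit 228) (nat_lit 15135740304) (nat_lit 76) (nat_lit 21259796128) (nat_lit 15) (nat_lit 5) (nat_lit 18) (nat_lit 5) (nat_lit 16) (nat_lit 4) (nat_lit 384) (nat_lit 266) (nat_lit 130)) (XT.lf (nat_lit 0) (nat_lit 24427939686) (nat_lit 228) (nat_lit 2587119870) (nat_lit 76) (nat_lit 29033365404) (nat_lit 15)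 (nat_lit 5) (nat_lit 18) (nat_lit 5) (nat_lit 16) (nat_lit 4) (nat_lit 385) (nat_lit 266) (nat_lit 129)))) (XT.nd (nat_lit 78) (nat_lit 0) (nat_lit 0) (XT.lf (nat_lit 0) (nat_lit 10530520471) (nat_lit 76) (nat_lit 20372590890) (nat_lit 152) (nat_lit 26605314845) (nat_lit 14) (nat_lit 5) (nat_lit 15) (nat_lit 5) (nat_lit 16) (nat_lit 4) (nat_lit 386) (nat_lit 266) (nat_lit 128)) (XT.nd (nat_lit 78) (nat_lit 0) (nat_lit 0) (XT.lf (nat_lit 0) (nat_lit 24081923092) (nat_lit 76) (nat_lit 13509649151) (nat_lit 152) (nat_lit 21420086917) (nat_lit 14) (nat_lit 5) (nat_lit 15) (nat_lit 5) (nat_lit 16) (nat_lit 4) (nat_lit 387) (nat_lit 266) (nat_lit 127)) (XT.lf (nat_lit 0) (nat_lit 38027440265) (nat_lit 76) (nat_lit 6446362433) (nat_lit 152) (nat_lit 16086395545) (nat_lit 14) (nat_lit 5) (nat_lit 15) (nat_lit 5) (nat_lit 16) (nat_lit 4) (nat_lit 388) (nat_lit 266) (nat_lit 126))))) (XT.nd (nat_lit 234)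 (nat_lit 76) (nat_lit 0) (XT.nd (nat_lit 78) (nat_lit 152) (nat_lit 0) (XT.lf (nat_lit 0) (nat_lit 51563731745) (nat_lit 152) (nat_lit 9784054573) (nat_lit 0) (nat_lit 807372767) (nat_lit 14) (nat_lit 5) (nat_lit 16) (nat_lit 4) (nat_lit 14) (nat_lit 4) (nat_lit 389) (nat_lit 266) (nat_lit 125)) (XT.nd (nat_lit 78) (nat_lit 76) (nat_lit 0) (XT.lf (nat_lit 0) (nat_lit 3336531261) (nat_lit 76) (nat_lit 55619186255) (nat_lit 76) (nat_lit 4839572933) (nat_lit 13) (nat_lit 4) (nat_lit 14) (nat_lit 5) (nat_lit 14) (nat_lit 4) (nat_lit 390) (nat_lit 266) (nat_lit 124)) (XT.lf (nat_lit 0) (nat_lit 1156917958) (nat_lit 152) (nat_lit 48453646900) (nat_lit 76) (nat_lit 15870952876) (nat_lit 12) (nat_lit 5) (nat_lit 14) (nat_lit 5) (nat_lit 13) (nat_lit 4) (nat_lit 391) (nat_lit 266) (nat_lit 123)))) (XT.nd (nat_lit 156) (nat_lit 76) (nat_lit 0) (XT.nd (nat_lit 78) (nat_lit 0) (nat_lit 0) (XT.lf (nat_lit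 0) (nat_lit 7229695038) (nat_lit 152) (nat_lit 36147828877) (nat_lit 76) (nat_lit 23839562818) (nat_lit 12) (nat_lit 5) (nat_lit 14) (nat_lit 5) (nat_lit 13) (nat_lit 4) (nat_lit 392) (nat_lit 266) (nat_lit 122)) (XT.lf (nat_lit 0) (nat_lit 13478502117) (nat_lit 152) (nat_lit 23484031526) (nat_lit 76) (nat_lit 32042375946) (nat_lit 12) (nat_lit 5) (nat_lit 14) (nat_lit 5) (nat_lit 13) (nat_lit 4) (nat_lit 393) (nat_lit 266) (nat_lit 121))) (XT.nd (nat_lit 78) (nat_lit 76) (nat_lit 0) (XT.lf (nat_lit 0) (nat_lit 19908799317) (nat_lit 152) (nat_lit 10451189394) (nat_lit 76) (nat_lit 40486559767) (nat_lit 12) (nat_lit 5) (nat_lit 14) (nat_lit 5) (nat_lit 13) (nat_lit 4) (nat_lit 394) (nat_lit 266) (nat_lit 120)) (XT.lf (nat_lit 0) (nat_lit 3021036747) (nat_lit 76) (nat_lit 23534208650) (nat_lit 152) (nat_lit 46187496000) (nat_lit 11) (nat_lit 5) (nat_lit 12) (nat_lit 5) (nat_lit 13) (nat_lit 4) (nat_lit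 395) (nat_lit 266) (nat_lit 119)))))) (XT.nd (nat_lit 546) (nat_lit 152) (nat_lit 0) (XT.nd (nat_lit 234) (nat_lit 76) (nat_lit 0) (XT.nd (nat_lit 78) (nat_lit 0) (nat_lit 0) (XT.lf (nat_lit 0) (nat_lit 17101219703) (nat_lit 76) (nat_lit 16399670080) (nat_lit 152) (nat_lit 41191938175) (nat_lit 11) (nat_lit 5) (nat_lit 12) (nat_lit 5) (nat_lit 13) (nat_lit 4) (nat_lit 396) (nat_lit 266) (nat_lit 118)) (XT.nd (nat_lit 78) (nat_lit 0) (nat_lit 0) (XT.lf (nat_lit 0) (nat_lit 31593663385) (nat_lit 76) (nat_lit 9055675458) (nat_lit 152) (nat_lit 36052247158) (nat_lit 11) (nat_lit 5) (nat_lit 12) (nat_lit 5) (nat_lit 13) (nat_lit 4) (nat_lit 397) (nat_lit 266) (nat_lit 117)) (XT.lf (nat_lit 0) (nat_lit 46511031092) (nat_lit 76) (nat_lit 1495807702) (nat_lit 152) (nat_lit 30763931955) (nat_lit 11) (nat_lit 5) (nat_lit 12) (nat_lit 5) (nat_lit 13) (nat_lit 4) (nat_lit 398) (nat_lit 266) (nat_lit 116))))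 (XT.nd (nat_lit 156) (nat_lit 76) (nat_lit 0) (XT.nd (nat_lit 78) (nat_lit 0) (nat_lit 0) (XT.lf (nat_lit 0) (nat_lit 55640248579) (nat_lit 152) (nat_lit 19096262870) (nat_lit 0) (nat_lit 6163865880) (nat_lit 11) (nat_lit 5) (nat_lit 13) (nat_lit 4) (nat_lit 11) (nat_lit 4) (nat_lit 399) (nat_lit 266) (nat_lit 115)) (XT.lf (nat_lit 0) (nat_lit 63512337894) (nat_lit 152) (nat_lit 5562089912) (nat_lit 0) (nat_lit 14019155761) (nat_lit 11) (nat_lit 5) (nat_lit 13) (nat_lit 4) (nat_lit 11) (nat_lit 4) (nat_lit 400) (nat_lit 266) (nat_lit 114))) (XT.nd (nat_lit 78) (nat_lit 0) (nat_lit 0) (XT.lf (nat_lit 0) (nat_lit 8535542996) (nat_lit 76) (nat_lit 63162112509) (nat_lit 76) (nat_lit 13652620247) (nat_lit 10) (nat_lit 4) (nat_lit 11) (nat_lit 5) (nat_lit 11) (nat_lit 4) (nat_lit 401) (nat_lit 266) (nat_lit 113)) (XT.lf (nat_lit 0) (nat_lit 23161087312) (nat_lit 76) (nat_lit 57018686584) (nat_lit 76)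 (nat_lit 7493359245) (nat_lit 10) (nat_lit 4) (nat_lit 11) (nat_lit 5) (nat_lit 11) (nat_lit 4) (nat_lit 402) (nat_lit 266) (nat_lit 112))))) (XT.nd (nat_lit 234) (nat_lit 76) (nat_lit 0) (XT.nd (nat_lit 78) (nat_lit 76) (nat_lit 0) (XT.lf (nat_lit 0) (nat_lit 38216626144) (nat_lit 76) (nat_lit 50694948192) (nat_lit 76) (nat_lit 1154246992) (nat_lit 10) (nat_lit 4) (nat_lit 11) (nat_lit 5) (nat_lit 11) (nat_lit 4) (nat_lit 403) (nat_lit 266) (nat_lit 111)) (XT.nd (nat_lit 78) (nat_lit 0) (nat_lit 0) (XT.lf (nat_lit 0) (nat_lit 5265462515) (nat_lit 152) (nat_lit 38866738373) (nat_lit 76) (nat_lit 48396681453) (nat_lit 9) (nat_lit 5) (nat_lit 11) (nat_lit 5) (nat_lit 10) (nat_lit 4) (nat_lit 404) (nat_lit 266) (nat_lit 110)) (XT.lf (nat_lit 0) (nat_lit 11850010929) (nat_lit 152) (nat_lit 25514596429) (nat_lit 76) (nat_lit 57701023064) (nat_lit 9) (nat_lit 5) (nat_lit 11) (nat_lit 5) (nat_lit 10)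 (nat_lit 4) (nat_lit 405) (nat_lit 266) (nat_lit 109)))) (XT.nd (nat_lit 29796) (nat_lit 0) (nat_lit 21432) (XT.nd (nat_lit 78) (nat_lit 76) (nat_lit 0) (XT.lf (nat_lit 0) (nat_lit 18627675257) (nat_lit 152) (nat_lit 11770007105) (nat_lit 76) (nat_lit 67280932648) (nat_lit 9) (nat_lit 5) (nat_lit 11) (nat_lit 5) (nat_lit 10) (nat_lit 4) (nat_lit 406) (nat_lit 266) (nat_lit 108)) (XT.lf (nat_lit 0) (nat_lit 2426386984) (nat_lit 76) (nat_lit 23201314660) (nat_lit 152) (nat_lit 74741717933) (nat_lit 8) (nat_lit 5) (nat_lit 9) (nat_lit 5) (nat_lit 10) (nat_lit 4) (nat_lit 407) (nat_lit 266) (nat_lit 107))) (XT.nd (nat_lit 78) (nat_lit 0) (nat_lit 0) (XT.lf (nat_lit 0) (nat_lit 1564812918) (nat_lit 532) (nat_lit 881748688) (nat_lit 532) (nat_lit 881748688) (nat_lit 290) (nat_lit 3) (nat_lit 297) (nat_lit 3) (nat_lit 297) (nat_lit 5) (nat_lit 267) (nat_lit 267) (nat_lit 246)) (XT.lf (nat_lit 76) (nat_lit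 1311970732) (nat_lit 0) (nat_lit 3979718038) (nat_lit 532) (nat_lit 1397004334) (nat_lit 291) (nat_lit 5) (nat_lit 290) (nat_lit 3) (nat_lit 297) (nat_lit 5) (nat_lit 268) (nat_lit 267) (nat_lit 245))))))) (XT.nd (nat_lit 1014) (nat_lit 7068) (nat_lit 0) (XT.nd (nat_lit 468) (nat_lit 1368) (nat_lit 0) (XT.nd (nat_lit 234) (nat_lit 532) (nat_lit 0) (XT.nd (nat_lit 78) (nat_lit 0) (nat_lit 0) (XT.lf (nat_lit 0) (nat_lit 715867803) (nat_lit 532) (nat_lit 2258187219) (nat_lit 608) (nat_lit 3749570813) (nat_lit 283) (nat_lit 5) (nat_lit 290) (nat_lit 3) (nat_lit 291) (nat_lit 5) (nat_lit 269) (nat_lit 267) (nat_lit 244)) (XT.nd (nat_lit 78) (nat_lit 0) (nat_lit 0) (XT.lf (nat_lit 76) (nat_lit 914212774) (nat_lit 0) (nat_lit 1877601478) (nat_lit 608) (nat_lit 3969703385) (nat_lit 284) (nat_lit 5) (nat_lit 283) (nat_lit 5) (nat_lit 291) (nat_lit 5) (nat_lit 270) (nat_lit 267) (nat_lit 243)) (XT.lf (nat_lit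 76) (nat_lit 4184804743) (nat_lit 0) (nat_lit 688960099) (nat_lit 608) (nat_lit 1928623986) (nat_lit 284) (nat_lit 5) (nat_lit 283) (nat_lit 5) (nat_lit 291) (nat_lit 5) (nat_lit 271) (nat_lit 267) (nat_lit 242)))) (XT.nd (nat_lit 78) (nat_lit 0) (nat_lit 0) (XT.lf (nat_lit 0) (nat_lit 104677148) (nat_lit 608) (nat_lit 6175405562) (nat_lit 684) (nat_lit 566467540) (nat_lit 276) (nat_lit 5) (nat_lit 284) (nat_lit 5) (nat_lit 285) (nat_lit 5) (nat_lit 272) (nat_lit 267) (nat_lit 241)) (XT.nd (nat_lit 78) (nat_lit 0) (nat_lit 0) (XT.lf (nat_lit 0) (nat_lit 2118207626) (nat_lit 608) (nat_lit 2851231483) (nat_lit 684) (nat_lit 1923426039) (nat_lit 276) (nat_lit 5) (nat_lit 284) (nat_lit 5) (nat_lit 285) (nat_lit 5) (nat_lit 273) (nat_lit 267) (nat_lit 240)) (XT.lf (nat_lit 76) (nat_lit 538513246) (nat_lit 0) (nat_lit 3585485136) (nat_lit 684) (nat_lit 2818752668) (nat_lit 277) (nat_lit 5) (nat_lit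 276) (nat_lit 5) (nat_lit 285) (nat_lit 5) (nat_lit 274) (nat_lit 267) (nat_lit 239))))) (XT.nd (nat_lit 234) (nat_lit 684) (nat_lit 0) (XT.nd (nat_lit 78) (nat_lit 684) (nat_lit 0) (XT.lf (nat_lit 76) (nat_lit 4044172733) (nat_lit 0) (nat_lit 2102970298) (nat_lit 684) (nat_lit 848408284) (nat_lit 277) (nat_lit 5) (nat_lit 276) (nat_lit 5) (nat_lit 285) (nat_lit 5) (nat_lit 275) (nat_lit 267) (nat_lit 238)) (XT.nd (nat_lit 78) (nat_lit 0) (nat_lit 76) (XT.lf (nat_lit 76) (nat_lit 560182249) (nat_lit 0) (nat_lit 532861461) (nat_lit 760) (nat_lit 5958625525) (nat_lit 268) (nat_lit 5) (nat_lit 267) (nat_lit 5) (nat_lit 277) (nat_lit 5) (nat_lit 276) (nat_lit 267) (nat_lit 237)) (XT.lf (nat_lit 0) (nat_lit 3047730580) (nat_lit 684) (nat_lit 2936552101) (nat_lit 760) (nat_lit 1125896593) (nat_lit 268) (nat_lit 5) (nat_lit 277) (nat_lit 5) (nat_lit 278) (nat_lit 5) (nat_lit 277) (nat_lit 267) (nat_lit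 236)))) (XT.nd (nat_lit 156) (nat_lit 760) (nat_lit 0) (XT.nd (nat_lit 78) (nat_lit 0) (nat_lit 0) (XT.lf (nat_lit 76) (nat_lit 688087700) (nat_lit 0) (nat_lit 4318376862) (nat_lit 760) (nat_lit 2165736198) (nat_lit 269) (nat_lit 5) (nat_lit 268) (nat_lit 5) (nat_lit 278) (nat_lit 5) (nat_lit 278) (nat_lit 267) (nat_lit 235)) (XT.lf (nat_lit 76) (nat_lit 4437010895) (nat_lit 0) (nat_lit 2551626612) (nat_lit 760) (nat_lit 248619969) (nat_lit 269) (nat_lit 5) (nat_lit 268) (nat_lit 5) (nat_lit 278) (nat_lit 5) (nat_lit 279) (nat_lit 267) (nat_lit 234))) (XT.nd (nat_lit 78) (nat_lit 0) (nat_lit 76) (XT.lf (nat_lit 76) (nat_lit 951379176) (nat_lit 0) (nat_lit 686277222) (nat_lit 836) (nat_lit 5667860228) (nat_lit 259) (nat_lit 5) (nat_lit 258) (nat_lit 5) (nat_lit 269) (nat_lit 5) (nat_lit 280) (nat_lit 267) (nat_lit 233)) (XT.lf (nat_lit 0) (nat_lit 3553741921) (nat_lit 760) (nat_lit 2563074842)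 (nat_lit 76) (nat_lit 1259691546) (nat_lit 259) (nat_lit 5) (nat_lit 269) (nat_lit 5) (nat_lit 260) (nat_lit 5) (nat_lit 281) (nat_lit 267) (nat_lit 232)))))) (XT.nd (nat_lit 546) (nat_lit 3496) (nat_lit 0) (XT.nd (nat_lit 234) (nat_lit 1976) (nat_lit 0) (XT.nd (nat_lit 78) (nat_lit 912) (nat_lit 0) (XT.lf (nat_lit 0) (nat_lit 1315505582) (nat_lit 760) (nat_lit 4170845687) (nat_lit 836) (nat_lit 1964609318) (nat_lit 249) (nat_lit 5) (nat_lit 259) (nat_lit 5) (nat_lit 260) (nat_lit 5) (nat_lit 282) (nat_lit 267) (nat_lit 231)) (XT.nd (nat_lit 78) (nat_lit 912) (nat_lit 0) (XT.lf (nat_lit 0) (nat_lit 5318336506) (nat_lit 760) (nat_lit 2125415429) (nat_lit 836) (nat_lit 84989214) (nat_lit 249) (nat_lit 5) (nat_lit 259) (nat_lit 5) (nat_lit 260) (nat_lit 5) (nat_lit 283) (nat_lit 267) (nat_lit 230)) (XT.lf (nat_lit 0) (nat_lit 1774539710) (nat_lit 912) (nat_lit 5804696637) (nat_lit 76) (nat_lit 30389197)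 (nat_lit 237) (nat_lit 5) (nat_lit 249) (nat_lit 5) (nat_lit 238) (nat_lit 5) (nat_lit 284) (nat_lit 267) (nat_lit 229)))) (XT.nd (nat_lit 156) (nat_lit 1064) (nat_lit 0) (XT.nd (nat_lit 78) (nat_lit 912) (nat_lit 0) (XT.lf (nat_lit 0) (nat_lit 3675107246) (nat_lit 912) (nat_lit 1774411275) (nat_lit 76) (nat_lit 2243874576) (nat_lit 237) (nat_lit 5) (nat_lit 249) (nat_lit 5) (nat_lit 238) (nat_lit 5) (nat_lit 285) (nat_lit 267) (nat_lit 228)) (XT.lf (nat_lit 0) (nat_lit 2378465139) (nat_lit 912) (nat_lit 3222114662) (nat_lit 988) (nat_lit 2180145290) (nat_lit 225) (nat_lit 5) (nat_lit 237) (nat_lit 5) (nat_lit 238) (nat_lit 5) (nat_lit 286) (nat_lit 267) (nat_lit 227))) (XT.nd (nat_lit 78) (nat_lit 1064) (nat_lit 0) (XT.lf (nat_lit 0) (nat_lit 6648010135) (nat_lit 912) (nat_lit 899924669) (nat_lit 988) (nat_lit 323904183) (nat_lit 225) (nat_lit 5) (nat_lit 237) (nat_lit 5) (nat_lit 238) (nat_lit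 5) (nat_lit 287) (nat_lit 267) (nat_lit 226)) (XT.lf (nat_lit 0) (nat_lit 1548687334) (nat_lit 1064) (nat_lit 4900203051) (nat_lit 76) (nat_lit 1516669011) (nat_lit 211) (nat_lit 5) (nat_lit 225) (nat_lit 5) (nat_lit 212) (nat_lit 5) (nat_lit 288) (nat_lit 267) (nat_lit 225))))) (XT.nd (nat_lit 234) (nat_lit 1292) (nat_lit 0) (XT.nd (nat_lit 78) (nat_lit 2204) (nat_lit 0) (XT.lf (nat_lit 0) (nat_lit 3440701579) (nat_lit 1064) (nat_lit 611063096) (nat_lit 76) (nat_lit 4011216114) (nat_lit 211) (nat_lit 5) (nat_lit 225) (nat_lit 5) (nat_lit 212) (nat_lit 5) (nat_lit 289) (nat_lit 267) (nat_lit 224)) (XT.nd (nat_lit 78) (nat_lit 1140) (nat_lit 0) (XT.lf (nat_lit 0) (nat_lit 3837550692) (nat_lit 1064) (nat_lit 1538682753) (nat_lit 1140) (nat_lit 2787564621) (nat_lit 197) (nat_lit 5) (nat_lit 211) (nat_lit 5) (nat_lit 212) (nat_lit 5) (nat_lit 290) (nat_lit 267) (nat_lit 223)) (XT.lf (nat_lit 0) (nat_lit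 111465753) (nat_lit 1140) (nat_lit 7226720985) (nat_lit 1216) (nat_lit 930476206) (nat_lit 182) (nat_lit 5) (nat_lit 197) (nat_lit 5) (nat_lit 198) (nat_lit 5) (nat_lit 291) (nat_lit 267) (nat_lit 222)))) (XT.nd (nat_lit 156) (nat_lit 608) (nat_lit 0) (XT.nd (nat_lit 78) (nat_lit 608) (nat_lit 0) (XT.lf (nat_lit 0) (nat_lit 973922664) (nat_lit 1216) (nat_lit 3675323000) (nat_lit 76) (nat_lit 3726891338) (nat_lit 181) (nat_lit 5) (nat_lit 197) (nat_lit 5) (nat_lit 182) (nat_lit 5) (nat_lit 292) (nat_lit 267) (nat_lit 221)) (XT.lf (nat_lit 0) (nat_lit 904944572) (nat_lit 608) (nat_lit 1973334180) (nat_lit 684) (nat_lit 5609501833) (nat_lit 173) (nat_lit 5) (nat_lit 181) (nat_lit 5) (nat_lit 182) (nat_lit 5) (nat_lit 293) (nat_lit 267) (nat_lit 220))) (XT.nd (nat_lit 78) (nat_lit 608) (nat_lit 0) (XT.lf (nat_lit 0) (nat_lit 4838570784) (nat_lit 684) (nat_lit 2957137523) (nat_lit 76) (nat_lit 807166531)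 (nat_lit 173) (nat_lit 5) (nat_lit 182) (nat_lit 5) (nat_lit 174) (nat_lit 5) (nat_lit 294) (nat_lit 267) (nat_lit 219)) (XT.lf (nat_lit 0) (nat_lit 1778275682) (nat_lit 608) (nat_lit 5071172359) (nat_lit 684) (nat_lit 1872284198) (nat_lit 165) (nat_lit 5) (nat_lit 173) (nat_lit 5) (nat_lit 174) (nat_lit 5) (nat_lit 295) (nat_lit 267) (nat_lit 218))))))))
noncomputable def xc124 : XT := (XT.nd (nat_lit 2028) (nat_lit 3192) (nat_lit 0) (XT.nd (nat_lit 1014) (nat_lit 2660) (nat_lit 0) (XT.nd (nat_lit 468) (nat_lit 1900) (nat_lit 0) (XT.nd (nat_lit 234) (nat_lit 1064) (nat_lit 0) (XT.nd (nat_lit 78) (nat_lit 532) (nat_lit 0) (XT.lf (nat_lit 0) (nat_lit 60694787) (nat_lit 684) (nat_lit 2172651043) (nat_lit 76) (nat_lit 6611276695) (nat_lit 164) (nat_lit 5) (nat_lit 173) (nat_lit 5) (nat_lit 165) (nat_lit 5) (nat_lit 296) (nat_lit 267) (nat_lit 217)) (XT.nd (nat_lit 78) (nat_lit 0) (nat_lit 0) (XT.lf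 (nat_lit 0) (nat_lit 2004199442) (nat_lit 608) (nat_lit 6245641501) (nat_lit 76) (nat_lit 721155649) (nat_lit 157) (nat_lit 5) (nat_lit 165) (nat_lit 5) (nat_lit 158) (nat_lit 5) (nat_lit 297) (nat_lit 267) (nat_lit 216)) (XT.lf (nat_lit 0) (nat_lit 4007945278) (nat_lit 608) (nat_lit 1352316109) (nat_lit 76) (nat_lit 3740898931) (nat_lit 157) (nat_lit 5) (nat_lit 165) (nat_lit 5) (nat_lit 158) (nat_lit 5) (nat_lit 298) (nat_lit 267) (nat_lit 215)))) (XT.nd (nat_lit 78) (nat_lit 532) (nat_lit 0) (XT.lf (nat_lit 0) (nat_lit 3717316715) (nat_lit 532) (nat_lit 2349119866) (nat_lit 608) (nat_lit 3169008255) (nat_lit 150) (nat_lit 5) (nat_lit 157) (nat_lit 5) (nat_lit 158) (nat_lit 5) (nat_lit 299) (nat_lit 267) (nat_lit 214)) (XT.nd (nat_lit 78) (nat_lit 532) (nat_lit 0) (XT.lf (nat_lit 0) (nat_lit 8167371082) (nat_lit 608) (nat_lit 457805127) (nat_lit 76) (nat_lit 749214303) (nat_lit 150) (nat_lit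 5) (nat_lit 158) (nat_lit 5) (nat_lit 151) (nat_lit 5) (nat_lit 300) (nat_lit 267) (nat_lit 213)) (XT.lf (nat_lit 0) (nat_lit 828259742) (nat_lit 532) (nat_lit 4742967430) (nat_lit 76) (nat_lit 3945183569) (nat_lit 143) (nat_lit 5) (nat_lit 150) (nat_lit 5) (nat_lit 144) (nat_lit 5) (nat_lit 301) (nat_lit 267) (nat_lit 212))))) (XT.nd (nat_lit 234) (nat_lit 912) (nat_lit 0) (XT.nd (nat_lit 78) (nat_lit 456) (nat_lit 0) (XT.lf (nat_lit 0) (nat_lit 462512936) (nat_lit 532) (nat_lit 2408085004) (nat_lit 608) (nat_lit 6792676055) (nat_lit 136) (nat_lit 5) (nat_lit 143) (nat_lit 5) (nat_lit 144) (nat_lit 5) (nat_lit 302) (nat_lit 267) (nat_lit 211)) (XT.nd (nat_lit 78) (nat_lit 456) (nat_lit 0) (XT.lf (nat_lit 0) (nat_lit 4992571374) (nat_lit 608) (nat_lit 3944071049) (nat_lit 76) (nat_lit 877397104) (nat_lit 136) (nat_lit 5) (nat_lit 144) (nat_lit 5) (nat_lit 137) (nat_lit 5) (nat_lit 303) (nat_lit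 267) (nat_lit 210)) (XT.lf (nat_lit 0) (nat_lit 1431989259) (nat_lit 456) (nat_lit 5746760161) (nat_lit 532) (nat_lit 2790608201) (nat_lit 130) (nat_lit 5) (nat_lit 136) (nat_lit 5) (nat_lit 137) (nat_lit 5) (nat_lit 304) (nat_lit 267) (nat_lit 209)))) (XT.nd (nat_lit 156) (nat_lit 380) (nat_lit 0) (XT.nd (nat_lit 78) (nat_lit 532) (nat_lit 0) (XT.lf (nat_lit 0) (nat_lit 7008165717) (nat_lit 456) (nat_lit 2425787905) (nat_lit 532) (nat_lit 695323027) (nat_lit 130) (nat_lit 5) (nat_lit 136) (nat_lit 5) (nat_lit 137) (nat_lit 5) (nat_lit 305) (nat_lit 267) (nat_lit 208)) (XT.lf (nat_lit 0) (nat_lit 1431985232) (nat_lit 532) (nat_lit 7854024368) (nat_lit 76) (nat_lit 1007672574) (nat_lit 123) (nat_lit 5) (nat_lit 130) (nat_lit 5) (nat_lit 124) (nat_lit 5) (nat_lit 306) (nat_lit 267) (nat_lit 207))) (XT.nd (nat_lit 78) (nat_lit 380) (nat_lit 0) (XT.lf (nat_lit 0) (nat_lit 3629851921) (nat_lit 532)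 (nat_lit 2304231083) (nat_lit 76) (nat_lit 4528149727) (nat_lit 123) (nat_lit 5) (nat_lit 130) (nat_lit 5) (nat_lit 124) (nat_lit 5) (nat_lit 307) (nat_lit 267) (nat_lit 206)) (XT.lf (nat_lit 0) (nat_lit 3438204142) (nat_lit 380) (nat_lit 2454391498) (nat_lit 456) (nat_lit 4743315575) (nat_lit 118) (nat_lit 5) (nat_lit 123) (nat_lit 5) (nat_lit 124) (nat_lit 5) (nat_lit 308) (nat_lit 267) (nat_lit 205)))))) (XT.nd (nat_lit 468) (nat_lit 1444) (nat_lit 0) (XT.nd (nat_lit 234) (nat_lit 760) (nat_lit 0) (XT.nd (nat_lit 78) (nat_lit 456) (nat_lit 0) (XT.lf (nat_lit 0) (nat_lit 8224006559) (nat_lit 456) (nat_lit 1466562964) (nat_lit 76) (nat_lit 1124245471) (nat_lit 118) (nat_lit 5) (nat_lit 124) (nat_lit 5) (nat_lit 119) (nat_lit 5) (nat_lit 309) (nat_lit 267) (nat_lit 204)) (XT.nd (nat_lit 78) (nat_lit 76) (nat_lit 0) (XT.lf (nat_lit 0) (nat_lit 4458915122) (nat_lit 380) (nat_lit 6201012279) (nat_lit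 456) (nat_lit 338158823) (nat_lit 113) (nat_lit 5) (nat_lit 118) (nat_lit 5) (nat_lit 119) (nat_lit 5) (nat_lit 310) (nat_lit 267) (nat_lit 203)) (XT.lf (nat_lit 0) (nat_lit 1925966858) (nat_lit 456) (nat_lit 653983593) (nat_lit 76) (nat_lit 8606891558) (nat_lit 112) (nat_lit 5) (nat_lit 118) (nat_lit 5) (nat_lit 113) (nat_lit 5) (nat_lit 311) (nat_lit 267) (nat_lit 202)))) (XT.nd (nat_lit 78) (nat_lit 380) (nat_lit 0) (XT.lf (nat_lit 0) (nat_lit 4283908064) (nat_lit 456) (nat_lit 5920314417) (nat_lit 76) (nat_lit 1175991087) (nat_lit 107) (nat_lit 5) (nat_lit 113) (nat_lit 5) (nat_lit 108) (nat_lit 5) (nat_lit 312) (nat_lit 267) (nat_lit 201)) (XT.nd (nat_lit 78) (nat_lit 0) (nat_lit 0) (XT.lf (nat_lit 0) (nat_lit 128405698) (nat_lit 380) (nat_lit 6586653020) (nat_lit 456) (nat_lit 4864286619) (nat_lit 102) (nat_lit 5) (nat_lit 107) (nat_lit 5) (nat_lit 108) (nat_lit 5) (nat_lit 313) (nat_lit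 267) (nat_lit 200)) (XT.lf (nat_lit 0) (nat_lit 6440432544) (nat_lit 380) (nat_lit 2808040791) (nat_lit 456) (nat_lit 2535130071) (nat_lit 102) (nat_lit 5) (nat_lit 107) (nat_lit 5) (nat_lit 108) (nat_lit 5) (nat_lit 314) (nat_lit 267) (nat_lit 199))))) (XT.nd (nat_lit 234) (nat_lit 684) (nat_lit 0) (XT.nd (nat_lit 78) (nat_lit 456) (nat_lit 0) (XT.lf (nat_lit 0) (nat_lit 916089468) (nat_lit 304) (nat_lit 10931374657) (nat_lit 380) (nat_lit 146869176) (nat_lit 98) (nat_lit 5) (nat_lit 102) (nat_lit 5) (nat_lit 103) (nat_lit 5) (nat_lit 315) (nat_lit 267) (nat_lit 198)) (XT.nd (nat_lit 78) (nat_lit 380) (nat_lit 0) (XT.lf (nat_lit 0) (nat_lit 2320716306) (nat_lit 380) (nat_lit 4827110221) (nat_lit 76) (nat_lit 5061336657) (nat_lit 97) (nat_lit 5) (nat_lit 102) (nat_lit 5) (nat_lit 98) (nat_lit 5) (nat_lit 316) (nat_lit 267) (nat_lit 197)) (XT.lf (nat_lit 0) (nat_lit 1603103813) (nat_lit 380) (nat_lit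 3243062607) (nat_lit 456) (nat_lit 7584652886) (nat_lit 92) (nat_lit 5) (nat_lit 97) (nat_lit 5) (nat_lit 98) (nat_lit 5) (nat_lit 317) (nat_lit 267) (nat_lit 196)))) (XT.nd (nat_lit 156) (nat_lit 380) (nat_lit 0) (XT.nd (nat_lit 78) (nat_lit 304) (nat_lit 0) (XT.lf (nat_lit 0) (nat_lit 7475848184) (nat_lit 456) (nat_lit 4379141877) (nat_lit 76) (nat_lit 803308811) (nat_lit 92) (nat_lit 5) (nat_lit 98) (nat_lit 5) (nat_lit 93) (nat_lit 5) (nat_lit 318) (nat_lit 267) (nat_lit 195)) (XT.lf (nat_lit 0) (nat_lit 2236870522) (nat_lit 304) (nat_lit 7973738715) (nat_lit 380) (nat_lit 2681234918) (nat_lit 88) (nat_lit 5) (nat_lit 92) (nat_lit 5) (nat_lit 93) (nat_lit 5) (nat_lit 319) (nat_lit 267) (nat_lit 194))) (XT.nd (nat_lit 78) (nat_lit 380) (nat_lit 0) (XT.lf (nat_lit 0) (nat_lit 9103941331) (nat_lit 304) (nat_lit 3940710904) (nat_lit 380) (nat_lit 87252594) (nat_lit 88) (nat_lit 5) (nat_lit 92)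 (nat_lit 5) (nat_lit 93) (nat_lit 5) (nat_lit 320) (nat_lit 267) (nat_lit 193)) (XT.lf (nat_lit 0) (nat_lit 2536926464) (nat_lit 380) (nat_lit 10590087589) (nat_lit 76) (nat_lit 251348313) (nat_lit 83) (nat_lit 5) (nat_lit 88) (nat_lit 5) (nat_lit 84) (nat_lit 5) (nat_lit 321) (nat_lit 267) (nat_lit 192))))))) (XT.nd (nat_lit 1014) (nat_lit 1444) (nat_lit 0) (XT.nd (nat_lit 468) (nat_lit 836) (nat_lit 0) (XT.nd (nat_lit 234) (nat_lit 608) (nat_lit 0) (XT.nd (nat_lit 78) (nat_lit 304) (nat_lit 0) (XT.lf (nat_lit 0) (nat_lit 5292015212) (nat_lit 380) (nat_lit 3816713883) (nat_lit 76) (nat_lit 4521864462) (nat_lit 83) (nat_lit 5) (nat_lit 88) (nat_lit 5) (nat_lit 84) (nat_lit 5) (nat_lit 322) (nat_lit 267) (nat_lit 191)) (XT.nd (nat_lit 78) (nat_lit 0) (nat_lit 0) (XT.lf (nat_lit 0) (nat_lit 3186104822) (nat_lit 304) (nat_lit 4948884236) (nat_lit 380) (nat_lit 5755268937) (nat_lit 79) (nat_lit 5)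 (nat_lit 83) (nat_lit 5) (nat_lit 84) (nat_lit 5) (nat_lit 323) (nat_lit 267) (nat_lit 190)) (XT.lf (nat_lit 0) (nat_lit 10441670629) (nat_lit 304) (nat_lit 635126123) (nat_lit 380) (nat_lit 3080531882) (nat_lit 79) (nat_lit 5) (nat_lit 83) (nat_lit 5) (nat_lit 84) (nat_lit 5) (nat_lit 324) (nat_lit 267) (nat_lit 189)))) (XT.nd (nat_lit 78) (nat_lit 304) (nat_lit 0) (XT.lf (nat_lit 0) (nat_lit 3478574867) (nat_lit 304) (nat_lit 10673959884) (nat_lit 380) (nat_lit 278528307) (nat_lit 75) (nat_lit 5) (nat_lit 79) (nat_lit 5) (nat_lit 80) (nat_lit 5) (nat_lit 325) (nat_lit 267) (nat_lit 188)) (XT.nd (nat_lit 78) (nat_lit 228) (nat_lit 0) (XT.lf (nat_lit 0) (nat_lit 2576582649) (nat_lit 380) (nat_lit 3814156651) (nat_lit 76) (nat_lit 8320941057) (nat_lit 74) (nat_lit 5) (nat_lit 79) (nat_lit 5) (nat_lit 75) (nat_lit 5) (nat_lit 326) (nat_lit 267) (nat_lit 187)) (XT.lf (nat_lit 0) (nat_lit 3570928675)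 (nat_lit 228) (nat_lit 1951601357) (nat_lit 304) (nat_lit 9477800061) (nat_lit 71) (nat_lit 5) (nat_lit 74) (nat_lit 5) (nat_lit 75) (nat_lit 5) (nat_lit 327) (nat_lit 267) (nat_lit 186))))) (XT.nd (nat_lit 234) (nat_lit 532) (nat_lit 0) (XT.nd (nat_lit 78) (nat_lit 304) (nat_lit 0) (XT.lf (nat_lit 0) (nat_lit 8597655148) (nat_lit 304) (nat_lit 4100898972) (nat_lit 76) (nat_lit 2597880723) (nat_lit 71) (nat_lit 5) (nat_lit 75) (nat_lit 5) (nat_lit 72) (nat_lit 5) (nat_lit 328) (nat_lit 267) (nat_lit 185)) (XT.nd (nat_lit 78) (nat_lit 0) (nat_lit 0) (XT.lf (nat_lit 0) (nat_lit 3462106618) (nat_lit 304) (nat_lit 8332918993) (nat_lit 380) (nat_lit 3805516309) (nat_lit 67) (nat_lit 5) (nat_lit 71) (nat_lit 5) (nat_lit 72) (nat_lit 5) (nat_lit 329) (nat_lit 267) (nat_lit 184)) (XT.lf (nat_lit 0) (nat_lit 11302808757) (nat_lit 304) (nat_lit 3804647271) (nat_lit 380) (nat_lit 805760398) (nat_lit 67)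 (nat_lit 5) (nat_lit 71) (nat_lit 5) (nat_lit 72) (nat_lit 5) (nat_lit 330) (nat_lit 267) (nat_lit 183)))) (XT.nd (nat_lit 156) (nat_lit 228) (nat_lit 0) (XT.nd (nat_lit 78) (nat_lit 0) (nat_lit 0) (XT.lf (nat_lit 0) (nat_lit 2256520595) (nat_lit 304) (nat_lit 13092814831) (nat_lit 76) (nat_lit 884781377) (nat_lit 63) (nat_lit 5) (nat_lit 67) (nat_lit 5) (nat_lit 64) (nat_lit 5) (nat_lit 331) (nat_lit 267) (nat_lit 182)) (XT.lf (nat_lit 0) (nat_lit 5457526973) (nat_lit 304) (nat_lit 5422262997) (nat_lit 76) (nat_lit 5682740151) (nat_lit 63) (nat_lit 5) (nat_lit 67) (nat_lit 5) (nat_lit 64) (nat_lit 5) (nat_lit 332) (nat_lit 267) (nat_lit 181))) (XT.nd (nat_lit 78) (nat_lit 0) (nat_lit 0) (XT.lf (nat_lit 0) (nat_lit 2495075161) (nat_lit 228) (nat_lit 6262467849) (nat_lit 304) (nat_lit 8143179778) (nat_lit 60) (nat_lit 5) (nat_lit 63) (nat_lit 5) (nat_lit 64) (nat_lit 5) (nat_lit 333) (nat_lit 267)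 (nat_lit 180)) (XT.lf (nat_lit 0) (nat_lit 10729380311) (nat_lit 228) (nat_lit 1461235747) (nat_lit 304) (nat_lit 5057439335) (nat_lit 60) (nat_lit 5) (nat_lit 63) (nat_lit 5) (nat_lit 64) (nat_lit 5) (nat_lit 334) (nat_lit 267) (nat_lit 179)))))) (XT.nd (nat_lit 546) (nat_lit 760) (nat_lit 0) (XT.nd (nat_lit 234) (nat_lit 152) (nat_lit 0) (XT.nd (nat_lit 78) (nat_lit 304) (nat_lit 0) (XT.lf (nat_lit 0) (nat_lit 1570771053) (nat_lit 228) (nat_lit 14184302548) (nat_lit 304) (nat_lit 1849898000) (nat_lit 57) (nat_lit 5) (nat_lit 60) (nat_lit 5) (nat_lit 61) (nat_lit 5) (nat_lit 335) (nat_lit 267) (nat_lit 178)) (XT.nd (nat_lit 78) (nat_lit 228) (nat_lit 0) (XT.lf (nat_lit 0) (nat_lit 1486325665) (nat_lit 304) (nat_lit 7994592821) (nat_lit 76) (nat_lit 8489447268) (nat_lit 56) (nat_lit 5) (nat_lit 60) (nat_lit 5) (nat_lit 57) (nat_lit 5) (nat_lit 336) (nat_lit 267) (nat_lit 177)) (XT.lf (nat_lit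 0) (nat_lit 242122270) (nat_lit 228) (nat_lit 4626127133) (nat_lit 304) (nat_lit 13478453106) (nat_lit 53) (nat_lit 5) (nat_lit 56) (nat_lit 5) (nat_lit 57) (nat_lit 5) (nat_lit 337) (nat_lit 267) (nat_lit 176)))) (XT.nd (nat_lit 156) (nat_lit 152) (nat_lit 0) (XT.nd (nat_lit 78) (nat_lit 0) (nat_lit 0) (XT.lf (nat_lit 0) (nat_lit 8417398580) (nat_lit 304) (nat_lit 9877161708) (nat_lit 76) (nat_lit 437809724) (nat_lit 53) (nat_lit 5) (nat_lit 57) (nat_lit 5) (nat_lit 54) (nat_lit 5) (nat_lit 338) (nat_lit 267) (nat_lit 175)) (XT.lf (nat_lit 0) (nat_lit 12100029969) (nat_lit 304) (nat_lit 1478507337) (nat_lit 76) (nat_lit 5550273283) (nat_lit 53) (nat_lit 5) (nat_lit 57) (nat_lit 5) (nat_lit 54) (nat_lit 5) (nat_lit 339) (nat_lit 267) (nat_lit 174))) (XT.nd (nat_lit 78) (nat_lit 0) (nat_lit 0) (XT.lf (nat_lit 0) (nat_lit 7285354169) (nat_lit 152) (nat_lit 8659569351) (nat_lit 228) (nat_lit 3590680258)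 (nat_lit 51) (nat_lit 5) (nat_lit 53) (nat_lit 5) (nat_lit 54) (nat_lit 5) (nat_lit 340) (nat_lit 267) (nat_lit 173)) (XT.lf (nat_lit 0) (nat_lit 16313806965) (nat_lit 152) (nat_lit 3588295142) (nat_lit 228) (nat_lit 52603027) (nat_lit 51) (nat_lit 5) (nat_lit 53) (nat_lit 5) (nat_lit 54) (nat_lit 5) (nat_lit 341) (nat_lit 267) (nat_lit 172))))) (XT.nd (nat_lit 234) (nat_lit 304) (nat_lit 0) (XT.nd (nat_lit 78) (nat_lit 152) (nat_lit 0) (XT.lf (nat_lit 0) (nat_lit 3570966258) (nat_lit 304) (nat_lit 15134004153) (nat_lit 76) (nat_lit 1678902118) (nat_lit 47) (nat_lit 5) (nat_lit 51) (nat_lit 5) (nat_lit 48) (nat_lit 5) (nat_lit 342) (nat_lit 267) (nat_lit 171)) (XT.nd (nat_lit 78) (nat_lit 152) (nat_lit 0) (XT.lf (nat_lit 0) (nat_lit 7357335724) (nat_lit 304) (nat_lit 6407550218) (nat_lit 76) (nat_lit 7059370325) (nat_lit 47) (nat_lit 5) (nat_lit 51) (nat_lit 5) (nat_lit 48) (nat_lit 5) (nat_lit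 343) (nat_lit 267) (nat_lit 170)) (XT.lf (nat_lit 0) (nat_lit 2604017408) (nat_lit 152) (nat_lit 8661312936) (nat_lit 228) (nat_lit 10012291272) (nat_lit 45) (nat_lit 5) (nat_lit 47) (nat_lit 5) (nat_lit 48) (nat_lit 5) (nat_lit 344) (nat_lit 267) (nat_lit 169)))) (XT.nd (nat_lit 156) (nat_lit 304) (nat_lit 0) (XT.nd (nat_lit 78) (nat_lit 0) (nat_lit 0) (XT.lf (nat_lit 0) (nat_lit 11990056422) (nat_lit 152) (nat_lit 3348448110) (nat_lit 228) (nat_lit 6404655998) (nat_lit 45) (nat_lit 5) (nat_lit 47) (nat_lit 5) (nat_lit 48) (nat_lit 5) (nat_lit 345) (nat_lit 267) (nat_lit 168)) (XT.lf (nat_lit 0) (nat_lit 19537915923) (nat_lit 228) (nat_lit 612236630) (nat_lit 76) (nat_lit 2072402282) (nat_lit 45) (nat_lit 5) (nat_lit 48) (nat_lit 5) (nat_lit 46) (nat_lit 5) (nat_lit 346) (nat_lit 267) (nat_lit 167))) (XT.nd (nat_lit 78) (nat_lit 0) (nat_lit 0) (XT.lf (nat_lit 0) (nat_lit 1228585229) (nat_lit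 304) (nat_lit 13807627793) (nat_lit 76) (nat_lit 7676677418) (nat_lit 41) (nat_lit 5) (nat_lit 45) (nat_lit 5) (nat_lit 42) (nat_lit 5) (nat_lit 347) (nat_lit 267) (nat_lit 166)) (XT.lf (nat_lit 0) (nat_lit 5195644784) (nat_lit 304) (nat_lit 4549675659) (nat_lit 76) (nat_lit 13472115929) (nat_lit 41) (nat_lit 5) (nat_lit 45) (nat_lit 5) (nat_lit 42) (nat_lit 5) (nat_lit 348) (nat_lit 267) (nat_lit 165))))))))
noncomputable def xc125 : XT := (XT.nd (nat_lit 2028) (nat_lit 760) (nat_lit 0) (XT.nd (nat_lit 1014) (nat_lit 608) (nat_lit 0) (XT.nd (nat_lit 468) (nat_lit 380) (nat_lit 0) (XT.nd (nat_lit 234) (nat_lit 228) (nat_lit 0) (XT.nd (nat_lit 78) (nat_lit 152) (nat_lit 0) (XT.lf (nat_lit 0) (nat_lit 5059382219) (nat_lit 152) (nat_lit 4255582996) (nat_lit 228) (nat_lit 14421165306) (nat_lit 39) (nat_lit 5) (nat_lit 41) (nat_lit 5) (nat_lit 42) (nat_lit 5) (nat_lit 349) (nat_lit 267) (nat_lit 164))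 (XT.nd (nat_lit 78) (nat_lit 152) (nat_lit 0) (XT.lf (nat_lit 0) (nat_lit 13602435964) (nat_lit 228) (nat_lit 9258412803) (nat_lit 76) (nat_lit 1408208649) (nat_lit 39) (nat_lit 5) (nat_lit 42) (nat_lit 5) (nat_lit 40) (nat_lit 5) (nat_lit 350) (nat_lit 267) (nat_lit 163)) (XT.lf (nat_lit 0) (nat_lit 383075724) (nat_lit 152) (nat_lit 17666443266) (nat_lit 228) (nat_lit 6767532264) (nat_lit 37) (nat_lit 5) (nat_lit 39) (nat_lit 5) (nat_lit 40) (nat_lit 5) (nat_lit 351) (nat_lit 267) (nat_lit 162)))) (XT.nd (nat_lit 78) (nat_lit 228) (nat_lit 0) (XT.lf (nat_lit 0) (nat_lit 10479102083) (nat_lit 152) (nat_lit 12229771991) (nat_lit 228) (nat_lit 2670253568) (nat_lit 37) (nat_lit 5) (nat_lit 39) (nat_lit 5) (nat_lit 40) (nat_lit 5) (nat_lit 352) (nat_lit 267) (nat_lit 161)) (XT.nd (nat_lit 78) (nat_lit 152) (nat_lit 0) (XT.lf (nat_lit 0) (nat_lit 1505343675) (nat_lit 228) (nat_lit 5119031577) (nat_lit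 76) (nat_lit 19333682780) (nat_lit 36) (nat_lit 5) (nat_lit 39) (nat_lit 5) (nat_lit 37) (nat_lit 5) (nat_lit 353) (nat_lit 267) (nat_lit 160)) (XT.lf (nat_lit 0) (nat_lit 5003210475) (nat_lit 152) (nat_lit 783486096) (nat_lit 228) (nat_lit 20765849701) (nat_lit 34) (nat_lit 5) (nat_lit 36) (nat_lit 5) (nat_lit 37) (nat_lit 5) (nat_lit 354) (nat_lit 267) (nat_lit 159))))) (XT.nd (nat_lit 234) (nat_lit 228) (nat_lit 0) (XT.nd (nat_lit 78) (nat_lit 152) (nat_lit 0) (XT.lf (nat_lit 0) (nat_lit 10285149707) (nat_lit 228) (nat_lit 11703549507) (nat_lit 76) (nat_lit 5173517730) (nat_lit 34) (nat_lit 5) (nat_lit 37) (nat_lit 5) (nat_lit 35) (nat_lit 5) (nat_lit 355) (nat_lit 267) (nat_lit 158)) (XT.nd (nat_lit 78) (nat_lit 152) (nat_lit 0) (XT.lf (nat_lit 0) (nat_lit 14912873364) (nat_lit 228) (nat_lit 1592938163) (nat_lit 76) (nat_lit 11284544053) (nat_lit 34) (nat_lit 5) (nat_lit 37) (nat_lit 5) (nat_lit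 35) (nat_lit 5) (nat_lit 356) (nat_lit 267) (nat_lit 157)) (XT.lf (nat_lit 0) (nat_lit 8973978741) (nat_lit 152) (nat_lit 10778664468) (nat_lit 228) (nat_lit 8682505871) (nat_lit 32) (nat_lit 5) (nat_lit 34) (nat_lit 5) (nat_lit 35) (nat_lit 5) (nat_lit 357) (nat_lit 267) (nat_lit 156)))) (XT.nd (nat_lit 156) (nat_lit 0) (nat_lit 0) (XT.nd (nat_lit 78) (nat_lit 228) (nat_lit 0) (XT.lf (nat_lit 0) (nat_lit 19868646334) (nat_lit 152) (nat_lit 4872165922) (nat_lit 228) (nat_lit 4358384875) (nat_lit 32) (nat_lit 5) (nat_lit 34) (nat_lit 5) (nat_lit 35) (nat_lit 5) (nat_lit 358) (nat_lit 267) (nat_lit 155)) (XT.lf (nat_lit 0) (nat_lit 105249998) (nat_lit 228) (nat_lit 28484736817) (nat_lit 76) (nat_lit 1192809222) (nat_lit 29) (nat_lit 5) (nat_lit 32) (nat_lit 5) (nat_lit 30) (nat_lit 5) (nat_lit 359) (nat_lit 267) (nat_lit 154))) (XT.nd (nat_lit 78) (nat_lit 0) (nat_lit 0) (XT.lf (nat_lit 0) (nat_lit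 4745010606) (nat_lit 228) (nat_lit 18266290955) (nat_lit 76) (nat_lit 7470418647) (nat_lit 29) (nat_lit 5) (nat_lit 32) (nat_lit 5) (nat_lit 30) (nat_lit 5) (nat_lit 360) (nat_lit 267) (nat_lit 153)) (XT.lf (nat_lit 0) (nat_lit 9511773061) (nat_lit 228) (nat_lit 7762276833) (nat_lit 76) (nat_lit 13927934094) (nat_lit 29) (nat_lit 5) (nat_lit 32) (nat_lit 5) (nat_lit 30) (nat_lit 5) (nat_lit 361) (nat_lit 267) (nat_lit 152)))))) (XT.nd (nat_lit 468) (nat_lit 304) (nat_lit 0) (XT.nd (nat_lit 234) (nat_lit 152) (nat_lit 0) (XT.nd (nat_lit 78) (nat_lit 0) (nat_lit 0) (XT.lf (nat_lit 0) (nat_lit 3096915791) (nat_lit 152) (nat_lit 11342556153) (nat_lit 228) (nat_lit 17503851709) (nat_lit 27) (nat_lit 5) (nat_lit 29) (nat_lit 5) (nat_lit 30) (nat_lit 5) (nat_lit 362) (nat_lit 267) (nat_lit 151)) (XT.nd (nat_lit 78) (nat_lit 0) (nat_lit 0) (XT.lf (nat_lit 0) (nat_lit 14420829104) (nat_lit 152) (nat_lit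 5160871382) (nat_lit 228) (nat_lit 13123207866) (nat_lit 27) (nat_lit 5) (nat_lit 29) (nat_lit 5) (nat_lit 30) (nat_lit 5) (nat_lit 363) (nat_lit 267) (nat_lit 150)) (XT.lf (nat_lit 0) (nat_lit 24878367265) (nat_lit 228) (nat_lit 7436329435) (nat_lit 76) (nat_lit 1174644387) (nat_lit 27) (nat_lit 5) (nat_lit 30) (nat_lit 5) (nat_lit 28) (nat_lit 4) (nat_lit 364) (nat_lit 267) (nat_lit 149)))) (XT.nd (nat_lit 78) (nat_lit 76) (nat_lit 0) (XT.lf (nat_lit 0) (nat_lit 3739450219) (nat_lit 76) (nat_lit 26670436214) (nat_lit 152) (nat_lit 3885147269) (nat_lit 26) (nat_lit 5) (nat_lit 27) (nat_lit 5) (nat_lit 28) (nat_lit 4) (nat_lit 365) (nat_lit 267) (nat_lit 148)) (XT.nd (nat_lit 78) (nat_lit 0) (nat_lit 0) (XT.lf (nat_lit 0) (nat_lit 1028053405) (nat_lit 152) (nat_lit 19749202504) (nat_lit 76) (nat_lit 14345419908) (nat_lit 25) (nat_lit 5) (nat_lit 27) (nat_lit 5) (nat_lit 26) (nat_lit 5) (nat_lit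 366) (nat_lit 267) (nat_lit 147)) (XT.lf (nat_lit 0) (nat_lit 5999819484) (nat_lit 152) (nat_lit 8675845896) (nat_lit 76) (nat_lit 21298655109) (nat_lit 25) (nat_lit 5) (nat_lit 27) (nat_lit 5) (nat_lit 26) (nat_lit 5) (nat_lit 367) (nat_lit 267) (nat_lit 146))))) (XT.nd (nat_lit 234) (nat_lit 152) (nat_lit 0) (XT.nd (nat_lit 78) (nat_lit 0) (nat_lit 0) (XT.lf (nat_lit 0) (nat_lit 2765472835) (nat_lit 152) (nat_lit 8371419027) (nat_lit 228) (nat_lit 25714142901) (nat_lit 23) (nat_lit 5) (nat_lit 25) (nat_lit 5) (nat_lit 26) (nat_lit 5) (nat_lit 368) (nat_lit 267) (nat_lit 145)) (XT.nd (nat_lit 78) (nat_lit 0) (nat_lit 0) (XT.lf (nat_lit 0) (nat_lit 14709853015) (nat_lit 152) (nat_lit 1795532856) (nat_lit 228) (nat_lit 21246350028) (nat_lit 23) (nat_lit 5) (nat_lit 25) (nat_lit 5) (nat_lit 26) (nat_lit 5) (nat_lit 369) (nat_lit 267) (nat_lit 144)) (XT.lf (nat_lit 0) (nat_lit 22072711046) (nat_lit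 228) (nat_lit 11732473435) (nat_lit 76) (nat_lit 4873144880) (nat_lit 23) (nat_lit 5) (nat_lit 26) (nat_lit 5) (nat_lit 24) (nat_lit 4) (nat_lit 370) (nat_lit 267) (nat_lit 143)))) (XT.nd (nat_lit 156) (nat_lit 76) (nat_lit 0) (XT.nd (nat_lit 78) (nat_lit 76) (nat_lit 0) (XT.lf (nat_lit 0) (nat_lit 27815055200) (nat_lit 228) (nat_lit 118774732) (nat_lit 76) (nat_lit 11698655167) (nat_lit 23) (nat_lit 5) (nat_lit 26) (nat_lit 5) (nat_lit 24) (nat_lit 4) (nat_lit 371) (nat_lit 267) (nat_lit 142)) (XT.lf (nat_lit 0) (nat_lit 12061993820) (nat_lit 76) (nat_lit 21774129599) (nat_lit 152) (nat_lit 6775952796) (nat_lit 22) (nat_lit 5) (nat_lit 23) (nat_lit 5) (nat_lit 24) (nat_lit 4) (nat_lit 372) (nat_lit 267) (nat_lit 141))) (XT.nd (nat_lit 78) (nat_lit 76) (nat_lit 0) (XT.lf (nat_lit 0) (nat_lit 24594070004) (nat_lit 76) (nat_lit 15435576971) (nat_lit 152) (nat_lit 1591657585) (nat_lit 22) (nat_lit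 5) (nat_lit 23) (nat_lit 5) (nat_lit 24) (nat_lit 4) (nat_lit 373) (nat_lit 267) (nat_lit 140)) (XT.lf (nat_lit 0) (nat_lit 3665829120) (nat_lit 152) (nat_lit 5210986092) (nat_lit 76) (nat_lit 33783193518) (nat_lit 21) (nat_lit 5) (nat_lit 23) (nat_lit 5) (nat_lit 22) (nat_lit 5) (nat_lit 374) (nat_lit 267) (nat_lit 139))))))) (XT.nd (nat_lit 1014) (nat_lit 228) (nat_lit 0) (XT.nd (nat_lit 468) (nat_lit 304) (nat_lit 0) (XT.nd (nat_lit 234) (nat_lit 76) (nat_lit 0) (XT.nd (nat_lit 78) (nat_lit 0) (nat_lit 0) (XT.lf (nat_lit 0) (nat_lit 7066094095) (nat_lit 152) (nat_lit 2041949954) (nat_lit 228) (nat_lit 34619591214) (nat_lit 19) (nat_lit 5) (nat_lit 21) (nat_lit 5) (nat_lit 22) (nat_lit 5) (nat_lit 375) (nat_lit 267) (nat_lit 138)) (XT.nd (nat_lit 78) (nat_lit 0) (nat_lit 0) (XT.lf (nat_lit 0) (nat_lit 14805825793) (nat_lit 228) (nat_lit 25071799469) (nat_lit 76) (nat_lit 4946900044) (nat_lit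 19) (nat_lit 5) (nat_lit 22) (nat_lit 5) (nat_lit 20) (nat_lit 4) (nat_lit 376) (nat_lit 267) (nat_lit 137)) (XT.lf (nat_lit 0) (nat_lit 20686132262) (nat_lit 228) (nat_lit 13169951619) (nat_lit 76) (nat_lit 12097894048) (nat_lit 19) (nat_lit 5) (nat_lit 22) (nat_lit 5) (nat_lit 20) (nat_lit 4) (nat_lit 377) (nat_lit 267) (nat_lit 136)))) (XT.nd (nat_lit 78) (nat_lit 76) (nat_lit 0) (XT.lf (nat_lit 0) (nat_lit 26734473117) (nat_lit 228) (nat_lit 925969472) (nat_lit 76) (nat_lit 19457126297) (nat_lit 19) (nat_lit 5) (nat_lit 22) (nat_lit 5) (nat_lit 20) (nat_lit 4) (nat_lit 378) (nat_lit 267) (nat_lit 135)) (XT.nd (nat_lit 78) (nat_lit 0) (nat_lit 0) (XT.lf (nat_lit 0) (nat_lit 11903118306) (nat_lit 76) (nat_lit 21167435064) (nat_lit 152) (nat_lit 15242328937) (nat_lit 18) (nat_lit 5) (nat_lit 19) (nat_lit 5) (nat_lit 20) (nat_lit 4) (nat_lit 379) (nat_lit 267) (nat_lit 134)) (XT.lf (nat_lit 0)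 (nat_lit 25121715668) (nat_lit 76) (nat_lit 14476318891) (nat_lit 152) (nat_lit 9945984326) (nat_lit 18) (nat_lit 5) (nat_lit 19) (nat_lit 5) (nat_lit 20) (nat_lit 4) (nat_lit 380) (nat_lit 267) (nat_lit 133))))) (XT.nd (nat_lit 234) (nat_lit 76) (nat_lit 0) (XT.nd (nat_lit 78) (nat_lit 228) (nat_lit 0) (XT.lf (nat_lit 0) (nat_lit 38722944234) (nat_lit 76) (nat_lit 7590597941) (nat_lit 152) (nat_lit 4498784538) (nat_lit 18) (nat_lit 5) (nat_lit 19) (nat_lit 5) (nat_lit 20) (nat_lit 4) (nat_lit 381) (nat_lit 267) (nat_lit 132)) (XT.nd (nat_lit 78) (nat_lit 0) (nat_lit 0) (XT.lf (nat_lit 0) (nat_lit 600887414) (nat_lit 152) (nat_lit 487375193) (nat_lit 228) (nat_lit 51030159755) (nat_lit 15) (nat_lit 5) (nat_lit 17) (nat_lit 5) (nat_lit 18) (nat_lit 5) (nat_lit 382) (nat_lit 267) (nat_lit 131)) (XT.lf (nat_lit 0) (nat_lit 6933817970) (nat_lit 228) (nat_lit 39665462077) (nat_lit 76) (nat_lit 6857647962)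 (nat_lit 15) (nat_lit 5) (nat_lit 18) (nat_lit 5) (nat_lit 16) (nat_lit 4) (nat_lit 383) (nat_lit 267) (nat_lit 130)))) (XT.nd (nat_lit 156) (nat_lit 76) (nat_lit 0) (XT.nd (nat_lit 78) (nat_lit 0) (nat_lit 0) (XT.lf (nat_lit 0) (nat_lit 12952173420) (nat_lit 228) (nat_lit 27475967418) (nat_lit 76) (nat_lit 14407527842) (nat_lit 15) (nat_lit 5) (nat_lit 18) (nat_lit 5) (nat_lit 16) (nat_lit 4) (nat_lit 384) (nat_lit 267) (nat_lit 129)) (XT.lf (nat_lit 0) (nat_lit 19143902764) (nat_lit 228) (nat_lit 14933715008) (nat_lit 76) (nat_lit 22178371874) (nat_lit 15) (nat_lit 5) (nat_lit 18) (nat_lit 5) (nat_lit 16) (nat_lit 4) (nat_lit 385) (nat_lit 267) (nat_lit 128))) (XT.nd (nat_lit 78) (nat_lit 76) (nat_lit 0) (XT.lf (nat_lit 0) (nat_lit 25514416252) (nat_lit 228) (nat_lit 2027745597) (nat_lit 76) (nat_lit 30176970115) (nat_lit 15) (nat_lit 5) (nat_lit 18) (nat_lit 5) (nat_lit 16) (nat_lit 4) (nat_lit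 386) (nat_lit 267) (nat_lit 127)) (XT.lf (nat_lit 0) (nat_lit 11477178976) (nat_lit 76) (nat_lit 20702427041) (nat_lit 152) (nat_lit 27043458321) (nat_lit 14) (nat_lit 5) (nat_lit 15) (nat_lit 5) (nat_lit 16) (nat_lit 4) (nat_lit 387) (nat_lit 267) (nat_lit 126)))))) (XT.nd (nat_lit 546) (nat_lit 76) (nat_lit 0) (XT.nd (nat_lit 234) (nat_lit 152) (nat_lit 0) (XT.nd (nat_lit 78) (nat_lit 0) (nat_lit 0) (XT.lf (nat_lit 0) (nat_lit 25416752523) (nat_lit 76) (nat_lit 13641791465) (nat_lit 152) (nat_lit 21713159457) (nat_lit 14) (nat_lit 5) (nat_lit 15) (nat_lit 5) (nat_lit 16) (nat_lit 4) (nat_lit 388) (nat_lit 267) (nat_lit 125)) (XT.nd (nat_lit 78) (nat_lit 0) (nat_lit 0) (XT.lf (nat_lit 0) (nat_lit 39762799141) (nat_lit 76) (nat_lit 6374561887) (nat_lit 152) (nat_lit 16229637831) (nat_lit 14) (nat_lit 5) (nat_lit 15) (nat_lit 5) (nat_lit 16) (nat_lit 4) (nat_lit 389) (nat_lit 267) (nat_lit 124))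 (XT.lf (nat_lit 0) (nat_lit 53432870330) (nat_lit 152) (nat_lit 9493118136) (nat_lit 0) (nat_lit 1084037230) (nat_lit 14) (nat_lit 5) (nat_lit 16) (nat_lit 4) (nat_lit 14) (nat_lit 4) (nat_lit 390) (nat_lit 267) (nat_lit 123)))) (XT.nd (nat_lit 156) (nat_lit 0) (nat_lit 0) (XT.nd (nat_lit 78) (nat_lit 76) (nat_lit 0) (XT.lf (nat_lit 0) (nat_lit 4015355292) (nat_lit 76) (nat_lit 57027438229) (nat_lit 76) (nat_lit 4656685680) (nat_lit 13) (nat_lit 4) (nat_lit 14) (nat_lit 5) (nat_lit 14) (nat_lit 4) (nat_lit 391) (nat_lit 267) (nat_lit 122)) (XT.lf (nat_lit 0) (nat_lit 1503928921) (nat_lit 152) (nat_lit 49339057858) (nat_lit 76) (nat_lit 16593496321) (nat_lit 12) (nat_lit 5) (nat_lit 14) (nat_lit 5) (nat_lit 13) (nat_lit 4) (nat_lit 392) (nat_lit 267) (nat_lit 121))) (XT.nd (nat_lit 78) (nat_lit 0) (nat_lit 0) (XT.lf (nat_lit 0) (nat_lit 7749793098) (nat_lit 152) (nat_lit 36680614763) (nat_lit 76)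 (nat_lit 24793987429) (nat_lit 12) (nat_lit 5) (nat_lit 14) (nat_lit 5) (nat_lit 13) (nat_lit 4) (nat_lit 393) (nat_lit 267) (nat_lit 120)) (XT.lf (nat_lit 0) (nat_lit 14177233111) (nat_lit 152) (nat_lit 23652970938) (nat_lit 76) (nat_lit 33235916861) (nat_lit 12) (nat_lit 5) (nat_lit 14) (nat_lit 5) (nat_lit 13) (nat_lit 4) (nat_lit 394) (nat_lit 267) (nat_lit 119))))) (XT.nd (nat_lit 234) (nat_lit 0) (nat_lit 0) (XT.nd (nat_lit 78) (nat_lit 76) (nat_lit 0) (XT.lf (nat_lit 0) (nat_lit 20791865171) (nat_lit 152) (nat_lit 10244743004) (nat_lit 76) (nat_lit 41926661062) (nat_lit 12) (nat_lit 5) (nat_lit 14) (nat_lit 5) (nat_lit 13) (nat_lit 4) (nat_lit 395) (nat_lit 267) (nat_lit 118)) (XT.nd (nat_lit 78) (nat_lit 0) (nat_lit 0) (XT.lf (nat_lit 0) (nat_lit 3626552058) (nat_lit 76) (nat_lit 24007777631) (nat_lit 152) (nat_lit 47282122463) (nat_lit 11) (nat_lit 5) (nat_lit 12) (nat_lit 5) (nat_lit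 13) (nat_lit 4) (nat_lit 396) (nat_lit 267) (nat_lit 117)) (XT.lf (nat_lit 0) (nat_lit 18114143875) (nat_lit 76) (nat_lit 16665973504) (nat_lit 152) (nat_lit 42145173586) (nat_lit 11) (nat_lit 5) (nat_lit 12) (nat_lit 5) (nat_lit 13) (nat_lit 4) (nat_lit 397) (nat_lit 267) (nat_lit 116)))) (XT.nd (nat_lit 156) (nat_lit 0) (nat_lit 0) (XT.nd (nat_lit 78) (nat_lit 0) (nat_lit 0) (XT.lf (nat_lit 0) (nat_lit 33026801035) (nat_lit 76) (nat_lit 9108232442) (nat_lit 152) (nat_lit 36859520656) (nat_lit 11) (nat_lit 5) (nat_lit 12) (nat_lit 5) (nat_lit 13) (nat_lit 4) (nat_lit 398) (nat_lit 267) (nat_lit 115)) (XT.lf (nat_lit 0) (nat_lit 48377554014) (nat_lit 76) (nat_lit 1327950593) (nat_lit 152) (nat_lit 31420545140) (nat_lit 11) (nat_lit 5) (nat_lit 12) (nat_lit 5) (nat_lit 13) (nat_lit 4) (nat_lit 399) (nat_lit 267) (nat_lit 114))) (XT.nd (nat_lit 78) (nat_lit 0) (nat_lit 0) (XT.lf (nat_lit 0) (nat_lit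 57562374049) (nat_lit 152) (nat_lit 19206052494) (nat_lit 0) (nat_lit 6551286890) (nat_lit 11) (nat_lit 5) (nat_lit 13) (nat_lit 4) (nat_lit 11) (nat_lit 4) (nat_lit 400) (nat_lit 267) (nat_lit 113)) (XT.lf (nat_lit 0) (nat_lit 65663259499) (nat_lit 152) (nat_lit 5279342647) (nat_lit 0) (nat_lit 14636337263) (nat_lit 11) (nat_lit 5) (nat_lit 13) (nat_lit 4) (nat_lit 11) (nat_lit 4) (nat_lit 401) (nat_lit 267) (nat_lit 112))))))))
noncomputable def xc126 : XT := (XT.nd (nat_lit 31746) (nat_lit 0) (nat_lit 7068) (XT.nd (nat_lit 30732) (nat_lit 0) (nat_lit 16340) (XT.nd (nat_lit 30186) (nat_lit 0) (nat_lit 20216) (XT.nd (nat_lit 234) (nat_lit 76) (nat_lit 0) (XT.nd (nat_lit 78) (nat_lit 0) (nat_lit 0) (XT.lf (nat_lit 0) (nat_lit 9236811307) (nat_lit 76) (nat_lit 64854452901) (nat_lit 76) (nat_lit 13812156803) (nat_lit 10) (nat_lit 4) (nat_lit 11) (nat_lit 5) (nat_lit 11) (nat_lit 4) (nat_lit 402)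 (nat_lit 267) (nat_lit 111)) (XT.nd (nat_lit 78) (nat_lit 0) (nat_lit 0) (XT.lf (nat_lit 0) (nat_lit 24288154905) (nat_lit 76) (nat_lit 58532622926) (nat_lit 76) (nat_lit 7475400750) (nat_lit 10) (nat_lit 4) (nat_lit 11) (nat_lit 5) (nat_lit 11) (nat_lit 4) (nat_lit 403) (nat_lit 267) (nat_lit 110)) (XT.lf (nat_lit 0) (nat_lit 39782770533) (nat_lit 76) (nat_lit 52024899301) (nat_lit 76) (nat_lit 953185787) (nat_lit 10) (nat_lit 4) (nat_lit 11) (nat_lit 5) (nat_lit 11) (nat_lit 4) (nat_lit 404) (nat_lit 267) (nat_lit 109)))) (XT.nd (nat_lit 78) (nat_lit 0) (nat_lit 0) (XT.lf (nat_lit 0) (nat_lit 5647785109) (nat_lit 152) (nat_lit 39620779002) (nat_lit 76) (nat_lit 50029380511) (nat_lit 9) (nat_lit 5) (nat_lit 11) (nat_lit 5) (nat_lit 10) (nat_lit 4) (nat_lit 405) (nat_lit 267) (nat_lit 108)) (XT.nd (nat_lit 78) (nat_lit 0) (nat_lit 0) (XT.lf (nat_lit 0) (nat_lit 12423335257) (nat_lit 152) (nat_lit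 25880071680) (nat_lit 76) (nat_lit 59607586391) (nat_lit 9) (nat_lit 5) (nat_lit 11) (nat_lit 5) (nat_lit 10) (nat_lit 4) (nat_lit 406) (nat_lit 267) (nat_lit 107)) (XT.lf (nat_lit 0) (nat_lit 19397985126) (nat_lit 152) (nat_lit 11734794073) (nat_lit 76) (nat_lit 69469780662) (nat_lit 9) (nat_lit 5) (nat_lit 11) (nat_lit 5) (nat_lit 10) (nat_lit 4) (nat_lit 407) (nat_lit 267) (nat_lit 106))))) (XT.nd (nat_lit 234) (nat_lit 608) (nat_lit 0) (XT.nd (nat_lit 78) (nat_lit 0) (nat_lit 0) (XT.lf (nat_lit 0) (nat_lit 164691775) (nat_lit 0) (nat_lit 164691775) (nat_lit 532) (nat_lit 3031832654) (nat_lit 283) (nat_lit 5) (nat_lit 283) (nat_lit 3) (nat_lit 290) (nat_lit 3) (nat_lit 268) (nat_lit 268) (nat_lit 244)) (XT.nd (nat_lit 78) (nat_lit 0) (nat_lit 0) (XT.lf (nat_lit 0) (nat_lit 2701300387) (nat_lit 532) (nat_lit 3306302965) (nat_lit 608) (nat_lit 750729613) (nat_lit 283) (nat_lit 5) (nat_lit 290)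 (nat_lit 3) (nat_lit 291) (nat_lit 5) (nat_lit 269) (nat_lit 268) (nat_lit 243)) (XT.lf (nat_lit 0) (nat_lit 4729709321) (nat_lit 532) (nat_lit 172642202) (nat_lit 608) (nat_lit 1895375433) (nat_lit 283) (nat_lit 5) (nat_lit 290) (nat_lit 3) (nat_lit 291) (nat_lit 5) (nat_lit 270) (nat_lit 268) (nat_lit 242)))) (XT.nd (nat_lit 156) (nat_lit 0) (nat_lit 0) (XT.nd (nat_lit 78) (nat_lit 608) (nat_lit 0) (XT.lf (nat_lit 76) (nat_lit 3073819099) (nat_lit 0) (nat_lit 3698328393) (nat_lit 608) (nat_lit 67709873) (nat_lit 284) (nat_lit 5) (nat_lit 283) (nat_lit 5) (nat_lit 291) (nat_lit 5) (nat_lit 271) (nat_lit 268) (nat_lit 241)) (XT.lf (nat_lit 0) (nat_lit 1880065939) (nat_lit 608) (nat_lit 523586595) (nat_lit 684) (nat_lit 4481375580) (nat_lit 275) (nat_lit 5) (nat_lit 283) (nat_lit 5) (nat_lit 284) (nat_lit 5) (nat_lit 272) (nat_lit 268) (nat_lit 240))) (XT.nd (nat_lit 78) (nat_lit 0) (nat_lit 76)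 (XT.lf (nat_lit 76) (nat_lit 2829488516) (nat_lit 0) (nat_lit 1009402199) (nat_lit 684) (nat_lit 3094161047) (nat_lit 276) (nat_lit 5) (nat_lit 275) (nat_lit 5) (nat_lit 284) (nat_lit 5) (nat_lit 273) (nat_lit 268) (nat_lit 239)) (XT.lf (nat_lit 0) (nat_lit 5794734691) (nat_lit 608) (nat_lit 735984472) (nat_lit 684) (nat_lit 453782516) (nat_lit 276) (nat_lit 5) (nat_lit 284) (nat_lit 5) (nat_lit 285) (nat_lit 5) (nat_lit 274) (nat_lit 268) (nat_lit 238)))))) (XT.nd (nat_lit 468) (nat_lit 2584) (nat_lit 0) (XT.nd (nat_lit 234) (nat_lit 684) (nat_lit 0) (XT.nd (nat_lit 78) (nat_lit 0) (nat_lit 0) (XT.lf (nat_lit 0) (nat_lit 723407772) (nat_lit 684) (nat_lit 4311825537) (nat_lit 760) (nat_lit 2003163512) (nat_lit 267) (nat_lit 5) (nat_lit 276) (nat_lit 5) (nat_lit 277) (nat_lit 5) (nat_lit 275) (nat_lit 268) (nat_lit 237)) (XT.nd (nat_lit 78) (nat_lit 0) (nat_lit 0) (XT.lf (nat_lit 0) (nat_lit 2609277928)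 (nat_lit 684) (nat_lit 840616015) (nat_lit 760) (nat_lit 3645606971) (nat_lit 267) (nat_lit 5) (nat_lit 276) (nat_lit 5) (nat_lit 277) (nat_lit 5) (nat_lit 276) (nat_lit 268) (nat_lit 236)) (XT.lf (nat_lit 76) (nat_lit 2746412111) (nat_lit 0) (nat_lit 1765409070) (nat_lit 760) (nat_lit 2643812376) (nat_lit 268) (nat_lit 5) (nat_lit 267) (nat_lit 5) (nat_lit 277) (nat_lit 5) (nat_lit 277) (nat_lit 268) (nat_lit 235)))) (XT.nd (nat_lit 78) (nat_lit 760) (nat_lit 0) (XT.lf (nat_lit 0) (nat_lit 6415173977) (nat_lit 684) (nat_lit 802605475) (nat_lit 760) (nat_lit 1593624) (nat_lit 268) (nat_lit 5) (nat_lit 277) (nat_lit 5) (nat_lit 278) (nat_lit 5) (nat_lit 278) (nat_lit 268) (nat_lit 234)) (XT.nd (nat_lit 78) (nat_lit 0) (nat_lit 0) (XT.lf (nat_lit 0) (nat_lit 1051816120) (nat_lit 760) (nat_lit 4386976214) (nat_lit 836) (nat_lit 1846551383) (nat_lit 258) (nat_lit 5) (nat_lit 268) (nat_lit 5) (nat_lit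 269) (nat_lit 5) (nat_lit 279) (nat_lit 268) (nat_lit 233)) (XT.lf (nat_lit 0) (nat_lit 2893574030) (nat_lit 760) (nat_lit 677697923) (nat_lit 836) (nat_lit 3783501022) (nat_lit 258) (nat_lit 5) (nat_lit 268) (nat_lit 5) (nat_lit 269) (nat_lit 5) (nat_lit 280) (nat_lit 268) (nat_lit 232))))) (XT.nd (nat_lit 234) (nat_lit 1824) (nat_lit 0) (XT.nd (nat_lit 78) (nat_lit 760) (nat_lit 0) (XT.lf (nat_lit 76) (nat_lit 3162406254) (nat_lit 0) (nat_lit 1598422897) (nat_lit 836) (nat_lit 2666450706) (nat_lit 259) (nat_lit 5) (nat_lit 258) (nat_lit 5) (nat_lit 269) (nat_lit 5) (nat_lit 281) (nat_lit 268) (nat_lit 231)) (XT.nd (nat_lit 78) (nat_lit 836) (nat_lit 0) (XT.lf (nat_lit 0) (nat_lit 6636541428) (nat_lit 760) (nat_lit 418163044) (nat_lit 76) (nat_lit 448783396) (nat_lit 259) (nat_lit 5) (nat_lit 269) (nat_lit 5) (nat_lit 260) (nat_lit 5) (nat_lit 282) (nat_lit 268) (nat_lit 230)) (XT.lf (nat_lit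 0) (nat_lit 960195830) (nat_lit 836) (nat_lit 4036707619) (nat_lit 76) (nat_lit 2585100474) (nat_lit 248) (nat_lit 5) (nat_lit 259) (nat_lit 5) (nat_lit 249) (nat_lit 5) (nat_lit 283) (nat_lit 268) (nat_lit 229)))) (XT.nd (nat_lit 156) (nat_lit 988) (nat_lit 0) (XT.nd (nat_lit 78) (nat_lit 836) (nat_lit 0) (XT.lf (nat_lit 0) (nat_lit 2772670983) (nat_lit 836) (nat_lit 78438938) (nat_lit 76) (nat_lit 4813160427) (nat_lit 248) (nat_lit 5) (nat_lit 259) (nat_lit 5) (nat_lit 249) (nat_lit 5) (nat_lit 284) (nat_lit 268) (nat_lit 228)) (XT.lf (nat_lit 0) (nat_lit 4035285726) (nat_lit 836) (nat_lit 588343662) (nat_lit 912) (nat_lit 3125940163) (nat_lit 237) (nat_lit 5) (nat_lit 248) (nat_lit 5) (nat_lit 249) (nat_lit 5) (nat_lit 285) (nat_lit 268) (nat_lit 227))) (XT.nd (nat_lit 78) (nat_lit 76) (nat_lit 0) (XT.lf (nat_lit 0) (nat_lit 383934971) (nat_lit 912) (nat_lit 6114046176) (nat_lit 988) (nat_lit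 1340496136) (nat_lit 225) (nat_lit 5) (nat_lit 237) (nat_lit 5) (nat_lit 238) (nat_lit 5) (nat_lit 286) (nat_lit 268) (nat_lit 226)) (XT.lf (nat_lit 0) (nat_lit 479655629) (nat_lit 988) (nat_lit 3302809456) (nat_lit 76) (nat_lit 4147797821) (nat_lit 224) (nat_lit 5) (nat_lit 237) (nat_lit 5) (nat_lit 225) (nat_lit 5) (nat_lit 287) (nat_lit 268) (nat_lit 225))))))) (XT.nd (nat_lit 1014) (nat_lit 3648) (nat_lit 0) (XT.nd (nat_lit 468) (nat_lit 2356) (nat_lit 0) (XT.nd (nat_lit 234) (nat_lit 1216) (nat_lit 0) (XT.nd (nat_lit 78) (nat_lit 1064) (nat_lit 0) (XT.lf (nat_lit 0) (nat_lit 935612359) (nat_lit 988) (nat_lit 1349558043) (nat_lit 1064) (nat_lit 5740580732) (nat_lit 211) (nat_lit 5) (nat_lit 224) (nat_lit 5) (nat_lit 225) (nat_lit 5) (nat_lit 288) (nat_lit 268) (nat_lit 224)) (XT.nd (nat_lit 78) (nat_lit 1064) (nat_lit 0) (XT.lf (nat_lit 0) (nat_lit 4139516456) (nat_lit 1064) (nat_lit 2809742693)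 (nat_lit 76) (nat_lit 1175080842) (nat_lit 211) (nat_lit 5) (nat_lit 225) (nat_lit 5) (nat_lit 212) (nat_lit 5) (nat_lit 289) (nat_lit 268) (nat_lit 223)) (XT.lf (nat_lit 0) (nat_lit 1573609319) (nat_lit 1064) (nat_lit 4455700484) (nat_lit 1140) (nat_lit 2197255948) (nat_lit 197) (nat_lit 5) (nat_lit 211) (nat_lit 5) (nat_lit 212) (nat_lit 5) (nat_lit 290) (nat_lit 268) (nat_lit 222)))) (XT.nd (nat_lit 78) (nat_lit 1216) (nat_lit 0) (XT.lf (nat_lit 0) (nat_lit 6103677703) (nat_lit 1064) (nat_lit 1852830820) (nat_lit 1140) (nat_lit 376000012) (nat_lit 197) (nat_lit 5) (nat_lit 211) (nat_lit 5) (nat_lit 212) (nat_lit 5) (nat_lit 291) (nat_lit 268) (nat_lit 221)) (XT.nd (nat_lit 78) (nat_lit 0) (nat_lit 0) (XT.lf (nat_lit 0) (nat_lit 1454463427) (nat_lit 1216) (nat_lit 6133707476) (nat_lit 76) (nat_lit 853578505) (nat_lit 181) (nat_lit 5) (nat_lit 197) (nat_lit 5) (nat_lit 182) (nat_lit 5) (nat_lit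 292) (nat_lit 268) (nat_lit 220)) (XT.lf (nat_lit 0) (nat_lit 3327560023) (nat_lit 1216) (nat_lit 1592385607) (nat_lit 76) (nat_lit 3634417421) (nat_lit 181) (nat_lit 5) (nat_lit 197) (nat_lit 5) (nat_lit 182) (nat_lit 5) (nat_lit 293) (nat_lit 268) (nat_lit 219))))) (XT.nd (nat_lit 234) (nat_lit 1064) (nat_lit 0) (XT.nd (nat_lit 78) (nat_lit 684) (nat_lit 0) (XT.lf (nat_lit 0) (nat_lit 3103788059) (nat_lit 608) (nat_lit 2138432852) (nat_lit 684) (nat_lit 3428636665) (nat_lit 173) (nat_lit 5) (nat_lit 181) (nat_lit 5) (nat_lit 182) (nat_lit 5) (nat_lit 294) (nat_lit 268) (nat_lit 218)) (XT.nd (nat_lit 78) (nat_lit 684) (nat_lit 0) (XT.lf (nat_lit 0) (nat_lit 7193995708) (nat_lit 684) (nat_lit 866949183) (nat_lit 76) (nat_lit 730573583) (nat_lit 173) (nat_lit 5) (nat_lit 182) (nat_lit 5) (nat_lit 174) (nat_lit 5) (nat_lit 295) (nat_lit 268) (nat_lit 217)) (XT.lf (nat_lit 0) (nat_lit 300244684)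 (nat_lit 684) (nat_lit 4929120956) (nat_lit 76) (nat_lit 3685888062) (nat_lit 164) (nat_lit 5) (nat_lit 173) (nat_lit 5) (nat_lit 165) (nat_lit 5) (nat_lit 296) (nat_lit 268) (nat_lit 216)))) (XT.nd (nat_lit 156) (nat_lit 532) (nat_lit 0) (XT.nd (nat_lit 78) (nat_lit 532) (nat_lit 0) (XT.lf (nat_lit 0) (nat_lit 2189764514) (nat_lit 684) (nat_lit 97925884) (nat_lit 76) (nat_lit 6755584756) (nat_lit 164) (nat_lit 5) (nat_lit 173) (nat_lit 5) (nat_lit 165) (nat_lit 5) (nat_lit 297) (nat_lit 268) (nat_lit 215)) (XT.lf (nat_lit 0) (nat_lit 4150303788) (nat_lit 608) (nat_lit 4249050505) (nat_lit 76) (nat_lit 775407815) (nat_lit 157) (nat_lit 5) (nat_lit 165) (nat_lit 5) (nat_lit 158) (nat_lit 5) (nat_lit 298) (nat_lit 268) (nat_lit 214))) (XT.nd (nat_lit 78) (nat_lit 0) (nat_lit 0) (XT.lf (nat_lit 0) (nat_lit 741942118) (nat_lit 532) (nat_lit 5418595231) (nat_lit 608) (nat_lit 3149983254) (nat_lit 150)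 (nat_lit 5) (nat_lit 157) (nat_lit 5) (nat_lit 158) (nat_lit 5) (nat_lit 299) (nat_lit 268) (nat_lit 213)) (XT.lf (nat_lit 0) (nat_lit 5928398222) (nat_lit 532) (nat_lit 2306448403) (nat_lit 608) (nat_lit 1215443891) (nat_lit 150) (nat_lit 5) (nat_lit 157) (nat_lit 5) (nat_lit 158) (nat_lit 5) (nat_lit 300) (nat_lit 268) (nat_lit 212)))))) (XT.nd (nat_lit 546) (nat_lit 1596) (nat_lit 0) (XT.nd (nat_lit 234) (nat_lit 988) (nat_lit 0) (XT.nd (nat_lit 78) (nat_lit 532) (nat_lit 0) (XT.lf (nat_lit 0) (nat_lit 748351224) (nat_lit 532) (nat_lit 7943458567) (nat_lit 76) (nat_lit 902676854) (nat_lit 143) (nat_lit 5) (nat_lit 150) (nat_lit 5) (nat_lit 144) (nat_lit 5) (nat_lit 301) (nat_lit 268) (nat_lit 211)) (XT.nd (nat_lit 78) (nat_lit 532) (nat_lit 0) (XT.lf (nat_lit 0) (nat_lit 2767660980) (nat_lit 532) (nat_lit 2767557689) (nat_lit 76) (nat_lit 4206845401) (nat_lit 143) (nat_lit 5) (nat_lit 150)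 (nat_lit 5) (nat_lit 144) (nat_lit 5) (nat_lit 302) (nat_lit 268) (nat_lit 210)) (XT.lf (nat_lit 0) (nat_lit 2573325336) (nat_lit 532) (nat_lit 2262337337) (nat_lit 608) (nat_lit 5058808720) (nat_lit 136) (nat_lit 5) (nat_lit 143) (nat_lit 5) (nat_lit 144) (nat_lit 5) (nat_lit 303) (nat_lit 268) (nat_lit 209)))) (XT.nd (nat_lit 156) (nat_lit 532) (nat_lit 0) (XT.nd (nat_lit 78) (nat_lit 456) (nat_lit 0) (XT.lf (nat_lit 0) (nat_lit 6968603127) (nat_lit 608) (nat_lit 1971575338) (nat_lit 76) (nat_lit 1111230127) (nat_lit 136) (nat_lit 5) (nat_lit 144) (nat_lit 5) (nat_lit 137) (nat_lit 5) (nat_lit 304) (nat_lit 268) (nat_lit 208)) (XT.lf (nat_lit 0) (nat_lit 3545268566) (nat_lit 456) (nat_lit 5641807244) (nat_lit 532) (nat_lit 1025375093) (nat_lit 130) (nat_lit 5) (nat_lit 136) (nat_lit 5) (nat_lit 137) (nat_lit 5) (nat_lit 305) (nat_lit 268) (nat_lit 207))) (XT.nd (nat_lit 78) (nat_lit 456) (nat_lit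 0) (XT.lf (nat_lit 0) (nat_lit 1057862152) (nat_lit 532) (nat_lit 1160739657) (nat_lit 76) (nat_lit 8159885260) (nat_lit 129) (nat_lit 5) (nat_lit 136) (nat_lit 5) (nat_lit 130) (nat_lit 5) (nat_lit 306) (nat_lit 268) (nat_lit 206)) (XT.lf (nat_lit 0) (nat_lit 3206107303) (nat_lit 532) (nat_lit 6011605866) (nat_lit 76) (nat_lit 1330832631) (nat_lit 123) (nat_lit 5) (nat_lit 130) (nat_lit 5) (nat_lit 124) (nat_lit 5) (nat_lit 307) (nat_lit 268) (nat_lit 205))))) (XT.nd (nat_lit 234) (nat_lit 836) (nat_lit 0) (XT.nd (nat_lit 78) (nat_lit 760) (nat_lit 0) (XT.lf (nat_lit 0) (nat_lit 5419487784) (nat_lit 532) (nat_lit 355844197) (nat_lit 76) (nat_lit 4948392159) (nat_lit 123) (nat_lit 5) (nat_lit 130) (nat_lit 5) (nat_lit 124) (nat_lit 5) (nat_lit 308) (nat_lit 268) (nat_lit 204)) (XT.nd (nat_lit 78) (nat_lit 380) (nat_lit 0) (XT.lf (nat_lit 0) (nat_lit 5539084537) (nat_lit 380) (nat_lit 2181279119)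 (nat_lit 456) (nat_lit 3183198721) (nat_lit 118) (nat_lit 5) (nat_lit 123) (nat_lit 5) (nat_lit 124) (nat_lit 5) (nat_lit 309) (nat_lit 268) (nat_lit 203)) (XT.lf (nat_lit 0) (nat_lit 485147241) (nat_lit 380) (nat_lit 9596382138) (nat_lit 456) (nat_lit 1007564754) (nat_lit 113) (nat_lit 5) (nat_lit 118) (nat_lit 5) (nat_lit 119) (nat_lit 5) (nat_lit 310) (nat_lit 268) (nat_lit 202)))) (XT.nd (nat_lit 156) (nat_lit 380) (nat_lit 0) (XT.nd (nat_lit 78) (nat_lit 380) (nat_lit 0) (XT.lf (nat_lit 0) (nat_lit 1254136278) (nat_lit 456) (nat_lit 4731738980) (nat_lit 76) (nat_lit 5292649162) (nat_lit 112) (nat_lit 5) (nat_lit 118) (nat_lit 5) (nat_lit 113) (nat_lit 5) (nat_lit 311) (nat_lit 268) (nat_lit 201)) (XT.lf (nat_lit 0) (nat_lit 1293639641) (nat_lit 380) (nat_lit 2251709643) (nat_lit 456) (nat_lit 7928564895) (nat_lit 107) (nat_lit 5) (nat_lit 112) (nat_lit 5) (nat_lit 113) (nat_lit 5) (nat_lit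 312) (nat_lit 268) (nat_lit 200))) (XT.nd (nat_lit 78) (nat_lit 380) (nat_lit 0) (XT.lf (nat_lit 0) (nat_lit 5938805900) (nat_lit 456) (nat_lit 4131501192) (nat_lit 76) (nat_lit 1603885554) (nat_lit 107) (nat_lit 5) (nat_lit 113) (nat_lit 5) (nat_lit 108) (nat_lit 5) (nat_lit 313) (nat_lit 268) (nat_lit 199)) (XT.lf (nat_lit 0) (nat_lit 2079401872) (nat_lit 380) (nat_lit 6337748653) (nat_lit 456) (nat_lit 3462967707) (nat_lit 102) (nat_lit 5) (nat_lit 107) (nat_lit 5) (nat_lit 108) (nat_lit 5) (nat_lit 314) (nat_lit 268) (nat_lit 198))))))))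
noncomputable def xc127 : XT := (XT.nd (nat_lit 2106) (nat_lit 1976) (nat_lit 0) (XT.nd (nat_lit 1014) (nat_lit 1748) (nat_lit 0) (XT.nd (nat_lit 468) (nat_lit 1064) (nat_lit 0) (XT.nd (nat_lit 234) (nat_lit 684) (nat_lit 0) (XT.nd (nat_lit 78) (nat_lit 380) (nat_lit 0) (XT.lf (nat_lit 0) (nat_lit 8524076592) (nat_lit 380) (nat_lit 2458783027) (nat_lit 456) (nat_lit 1109001924) (nat_lit 102) (nat_lit 5) (nat_lit 107) (nat_lit 5) (nat_lit 108) (nat_lit 5) (nat_lit 315) (nat_lit 268) (nat_lit 197)) (XT.nd (nat_lit 78) (nat_lit 0) (nat_lit 0) (XT.lf (nat_lit 0) (nat_lit 1304299277) (nat_lit 380) (nat_lit 9466195906) (nat_lit 76) (nat_lit 1538679577) (nat_lit 97) (nat_lit 5) (nat_lit 102) (nat_lit 5) (nat_lit 98) (nat_lit 5) (nat_lit 316) (nat_lit 268) (nat_lit 196)) (XT.lf (nat_lit 0) (nat_lit 3800651003) (nat_lit 380) (nat_lit 3085572952) (nat_lit 76) (nat_lit 5645493576) (nat_lit 97) (nat_lit 5)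 (nat_lit 102) (nat_lit 5) (nat_lit 98) (nat_lit 5) (nat_lit 317) (nat_lit 268) (nat_lit 195)))) (XT.nd (nat_lit 78) (nat_lit 304) (nat_lit 0) (XT.lf (nat_lit 0) (nat_lit 3519053869) (nat_lit 380) (nat_lit 2859688652) (nat_lit 456) (nat_lit 6382015581) (nat_lit 92) (nat_lit 5) (nat_lit 97) (nat_lit 5) (nat_lit 98) (nat_lit 5) (nat_lit 318) (nat_lit 268) (nat_lit 194)) (XT.nd (nat_lit 78) (nat_lit 304) (nat_lit 0) (XT.lf (nat_lit 0) (nat_lit 9051396991) (nat_lit 456) (nat_lit 2659814900) (nat_lit 76) (nat_lit 1284967602) (nat_lit 92) (nat_lit 5) (nat_lit 98) (nat_lit 5) (nat_lit 93) (nat_lit 5) (nat_lit 319) (nat_lit 268) (nat_lit 193)) (XT.lf (nat_lit 0) (nat_lit 4136533741) (nat_lit 304) (nat_lit 7709925317) (nat_lit 380) (nat_lit 1390963071) (nat_lit 88) (nat_lit 5) (nat_lit 92) (nat_lit 5) (nat_lit 93) (nat_lit 5) (nat_lit 320) (nat_lit 268) (nat_lit 192))))) (XT.nd (nat_lit 234) (nat_lit 684)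 (nat_lit 0) (XT.nd (nat_lit 78) (nat_lit 304) (nat_lit 0) (XT.lf (nat_lit 0) (nat_lit 1216700437) (nat_lit 380) (nat_lit 2341571175) (nat_lit 76) (nat_lit 9927254499) (nat_lit 87) (nat_lit 5) (nat_lit 92) (nat_lit 5) (nat_lit 88) (nat_lit 5) (nat_lit 321) (nat_lit 268) (nat_lit 191)) (XT.nd (nat_lit 78) (nat_lit 0) (nat_lit 0) (XT.lf (nat_lit 0) (nat_lit 3901891495) (nat_lit 380) (nat_lit 9084281375) (nat_lit 76) (nat_lit 753692833) (nat_lit 83) (nat_lit 5) (nat_lit 88) (nat_lit 5) (nat_lit 84) (nat_lit 5) (nat_lit 322) (nat_lit 268) (nat_lit 190)) (XT.lf (nat_lit 0) (nat_lit 6702093374) (nat_lit 380) (nat_lit 2160818366) (nat_lit 76) (nat_lit 5137912696) (nat_lit 83) (nat_lit 5) (nat_lit 88) (nat_lit 5) (nat_lit 84) (nat_lit 5) (nat_lit 323) (nat_lit 268) (nat_lit 189)))) (XT.nd (nat_lit 156) (nat_lit 380) (nat_lit 0) (XT.nd (nat_lit 78) (nat_lit 0) (nat_lit 0) (XT.lf (nat_lit 0) (nat_lit 5034728067)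 (nat_lit 304) (nat_lit 4576033515) (nat_lit 380) (nat_lit 4658138491) (nat_lit 79) (nat_lit 5) (nat_lit 83) (nat_lit 5) (nat_lit 84) (nat_lit 5) (nat_lit 324) (nat_lit 268) (nat_lit 188)) (XT.lf (nat_lit 0) (nat_lit 12456901428) (nat_lit 304) (nat_lit 148046657) (nat_lit 380) (nat_lit 1940143455) (nat_lit 79) (nat_lit 5) (nat_lit 83) (nat_lit 5) (nat_lit 84) (nat_lit 5) (nat_lit 325) (nat_lit 268) (nat_lit 187))) (XT.nd (nat_lit 78) (nat_lit 0) (nat_lit 0) (XT.lf (nat_lit 0) (nat_lit 913694953) (nat_lit 380) (nat_lit 9536431560) (nat_lit 76) (nat_lit 4377082293) (nat_lit 74) (nat_lit 5) (nat_lit 79) (nat_lit 5) (nat_lit 75) (nat_lit 5) (nat_lit 326) (nat_lit 268) (nat_lit 186)) (XT.lf (nat_lit 0) (nat_lit 3814055824) (nat_lit 380) (nat_lit 2237441961) (nat_lit 76) (nat_lit 9065737958) (nat_lit 74) (nat_lit 5) (nat_lit 79) (nat_lit 5) (nat_lit 75) (nat_lit 5) (nat_lit 327) (nat_lit 268) (nat_lit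 185)))))) (XT.nd (nat_lit 546) (nat_lit 684) (nat_lit 0) (XT.nd (nat_lit 234) (nat_lit 532) (nat_lit 0) (XT.nd (nat_lit 78) (nat_lit 304) (nat_lit 0) (XT.lf (nat_lit 0) (nat_lit 5352616127) (nat_lit 228) (nat_lit 1478070868) (nat_lit 304) (nat_lit 8584417643) (nat_lit 71) (nat_lit 5) (nat_lit 74) (nat_lit 5) (nat_lit 75) (nat_lit 5) (nat_lit 328) (nat_lit 268) (nat_lit 184)) (XT.nd (nat_lit 78) (nat_lit 304) (nat_lit 0) (XT.lf (nat_lit 0) (nat_lit 9969755411) (nat_lit 304) (nat_lit 2568896538) (nat_lit 76) (nat_lit 3182317883) (nat_lit 71) (nat_lit 5) (nat_lit 75) (nat_lit 5) (nat_lit 72) (nat_lit 5) (nat_lit 329) (nat_lit 268) (nat_lit 183)) (XT.lf (nat_lit 0) (nat_lit 5204773440) (nat_lit 304) (nat_lit 8041575159) (nat_lit 380) (nat_lit 2788379647) (nat_lit 67) (nat_lit 5) (nat_lit 71) (nat_lit 5) (nat_lit 72) (nat_lit 5) (nat_lit 330) (nat_lit 268) (nat_lit 182)))) (XT.nd (nat_lit 156) (nat_lit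 228) (nat_lit 0) (XT.nd (nat_lit 78) (nat_lit 228) (nat_lit 0) (XT.lf (nat_lit 0) (nat_lit 263180583) (nat_lit 380) (nat_lit 3127384028) (nat_lit 76) (nat_lit 12967126309) (nat_lit 66) (nat_lit 5) (nat_lit 71) (nat_lit 5) (nat_lit 67) (nat_lit 5) (nat_lit 331) (nat_lit 268) (nat_lit 181)) (XT.lf (nat_lit 0) (nat_lit 3390283428) (nat_lit 304) (nat_lit 11860560736) (nat_lit 76) (nat_lit 1437485225) (nat_lit 63) (nat_lit 5) (nat_lit 67) (nat_lit 5) (nat_lit 64) (nat_lit 5) (nat_lit 332) (nat_lit 268) (nat_lit 180))) (XT.nd (nat_lit 78) (nat_lit 228) (nat_lit 0) (XT.lf (nat_lit 0) (nat_lit 6656269496) (nat_lit 304) (nat_lit 4007223566) (nat_lit 76) (nat_lit 6364057702) (nat_lit 63) (nat_lit 5) (nat_lit 67) (nat_lit 5) (nat_lit 64) (nat_lit 5) (nat_lit 333) (nat_lit 268) (nat_lit 179)) (XT.lf (nat_lit 0) (nat_lit 4132167018) (nat_lit 228) (nat_lit 5907990080) (nat_lit 304) (nat_lit 7336209418) (nat_lit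 60) (nat_lit 5) (nat_lit 63) (nat_lit 5) (nat_lit 64) (nat_lit 5) (nat_lit 334) (nat_lit 268) (nat_lit 178))))) (XT.nd (nat_lit 234) (nat_lit 380) (nat_lit 0) (XT.nd (nat_lit 78) (nat_lit 304) (nat_lit 0) (XT.lf (nat_lit 0) (nat_lit 12567999198) (nat_lit 228) (nat_lit 978517670) (nat_lit 304) (nat_lit 4188516153) (nat_lit 60) (nat_lit 5) (nat_lit 63) (nat_lit 5) (nat_lit 64) (nat_lit 5) (nat_lit 335) (nat_lit 268) (nat_lit 177)) (XT.nd (nat_lit 78) (nat_lit 76) (nat_lit 0) (XT.lf (nat_lit 0) (nat_lit 3144915107) (nat_lit 228) (nat_lit 14063745574) (nat_lit 304) (nat_lit 894295553) (nat_lit 57) (nat_lit 5) (nat_lit 60) (nat_lit 5) (nat_lit 61) (nat_lit 5) (nat_lit 336) (nat_lit 268) (nat_lit 176)) (XT.lf (nat_lit 0) (nat_lit 2493409800) (nat_lit 304) (nat_lit 6732036303) (nat_lit 76) (nat_lit 9254461599) (nat_lit 56) (nat_lit 5) (nat_lit 60) (nat_lit 5) (nat_lit 57) (nat_lit 5) (nat_lit 337) (nat_lit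 268) (nat_lit 175)))) (XT.nd (nat_lit 156) (nat_lit 152) (nat_lit 0) (XT.nd (nat_lit 78) (nat_lit 0) (nat_lit 0) (XT.lf (nat_lit 0) (nat_lit 1737050884) (nat_lit 228) (nat_lit 4226006895) (nat_lit 304) (nat_lit 12904909004) (nat_lit 53) (nat_lit 5) (nat_lit 56) (nat_lit 5) (nat_lit 57) (nat_lit 5) (nat_lit 338) (nat_lit 268) (nat_lit 174)) (XT.lf (nat_lit 0) (nat_lit 9596077013) (nat_lit 304) (nat_lit 8705882898) (nat_lit 76) (nat_lit 963942164) (nat_lit 53) (nat_lit 5) (nat_lit 57) (nat_lit 5) (nat_lit 54) (nat_lit 5) (nat_lit 339) (nat_lit 268) (nat_lit 173))) (XT.nd (nat_lit 78) (nat_lit 152) (nat_lit 0) (XT.lf (nat_lit 0) (nat_lit 13362211912) (nat_lit 304) (nat_lit 98014342) (nat_lit 76) (nat_lit 6214837936) (nat_lit 53) (nat_lit 5) (nat_lit 57) (nat_lit 5) (nat_lit 54) (nat_lit 5) (nat_lit 340) (nat_lit 268) (nat_lit 172)) (XT.lf (nat_lit 0) (nat_lit 8914793909) (nat_lit 152) (nat_lit 8395030855)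 (nat_lit 228) (nat_lit 2784633740) (nat_lit 51) (nat_lit 5) (nat_lit 53) (nat_lit 5) (nat_lit 54) (nat_lit 5) (nat_lit 341) (nat_lit 268) (nat_lit 171))))))) (XT.nd (nat_lit 1014) (nat_lit 836) (nat_lit 0) (XT.nd (nat_lit 468) (nat_lit 456) (nat_lit 0) (XT.nd (nat_lit 234) (nat_lit 380) (nat_lit 0) (XT.nd (nat_lit 78) (nat_lit 228) (nat_lit 0) (XT.lf (nat_lit 0) (nat_lit 816716968) (nat_lit 228) (nat_lit 2361925830) (nat_lit 76) (nat_lit 17348042514) (nat_lit 50) (nat_lit 5) (nat_lit 53) (nat_lit 5) (nat_lit 51) (nat_lit 5) (nat_lit 342) (nat_lit 268) (nat_lit 170)) (XT.nd (nat_lit 78) (nat_lit 0) (nat_lit 0) (XT.lf (nat_lit 0) (nat_lit 4540772897) (nat_lit 304) (nat_lit 14192618206) (nat_lit 76) (nat_lit 2235552830) (nat_lit 47) (nat_lit 5) (nat_lit 51) (nat_lit 5) (nat_lit 48) (nat_lit 5) (nat_lit 343) (nat_lit 268) (nat_lit 169)) (XT.lf (nat_lit 0) (nat_lit 8415606913) (nat_lit 304) (nat_lit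 5245013549) (nat_lit 76) (nat_lit 7762688958) (nat_lit 47) (nat_lit 5) (nat_lit 51) (nat_lit 5) (nat_lit 48) (nat_lit 5) (nat_lit 344) (nat_lit 268) (nat_lit 168)))) (XT.nd (nat_lit 78) (nat_lit 228) (nat_lit 0) (XT.lf (nat_lit 0) (nat_lit 4023619114) (nat_lit 152) (nat_lit 8405722702) (nat_lit 228) (nat_lit 9461294860) (nat_lit 45) (nat_lit 5) (nat_lit 47) (nat_lit 5) (nat_lit 48) (nat_lit 5) (nat_lit 345) (nat_lit 268) (nat_lit 167)) (XT.nd (nat_lit 78) (nat_lit 228) (nat_lit 0) (XT.lf (nat_lit 0) (nat_lit 13652167032) (nat_lit 152) (nat_lit 2948484444) (nat_lit 228) (nat_lit 5770227571) (nat_lit 45) (nat_lit 5) (nat_lit 47) (nat_lit 5) (nat_lit 48) (nat_lit 5) (nat_lit 346) (nat_lit 268) (nat_lit 166)) (XT.lf (nat_lit 0) (nat_lit 666058420) (nat_lit 228) (nat_lit 20247700573) (nat_lit 304) (nat_lit 1951279819) (nat_lit 42) (nat_lit 5) (nat_lit 45) (nat_lit 5) (nat_lit 46) (nat_lit 5) (nat_lit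 347) (nat_lit 268) (nat_lit 165))))) (XT.nd (nat_lit 234) (nat_lit 228) (nat_lit 0) (XT.nd (nat_lit 78) (nat_lit 152) (nat_lit 0) (XT.lf (nat_lit 0) (nat_lit 2046277520) (nat_lit 304) (nat_lit 12934763772) (nat_lit 76) (nat_lit 8389338108) (nat_lit 41) (nat_lit 5) (nat_lit 45) (nat_lit 5) (nat_lit 42) (nat_lit 5) (nat_lit 348) (nat_lit 268) (nat_lit 164)) (XT.nd (nat_lit 78) (nat_lit 152) (nat_lit 0) (XT.lf (nat_lit 0) (nat_lit 6109606102) (nat_lit 304) (nat_lit 3436561215) (nat_lit 76) (nat_lit 14344590443) (nat_lit 41) (nat_lit 5) (nat_lit 45) (nat_lit 5) (nat_lit 42) (nat_lit 5) (nat_lit 349) (nat_lit 268) (nat_lit 163)) (XT.lf (nat_lit 0) (nat_lit 6448517373) (nat_lit 152) (nat_lit 3893802625) (nat_lit 228) (nat_lit 14083011688) (nat_lit 39) (nat_lit 5) (nat_lit 41) (nat_lit 5) (nat_lit 42) (nat_lit 5) (nat_lit 350) (nat_lit 268) (nat_lit 162)))) (XT.nd (nat_lit 156) (nat_lit 76) (nat_lit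 0) (XT.nd (nat_lit 78) (nat_lit 152) (nat_lit 0) (XT.lf (nat_lit 0) (nat_lit 14741199041) (nat_lit 228) (nat_lit 8317202502) (nat_lit 76) (nat_lit 1916374297) (nat_lit 39) (nat_lit 5) (nat_lit 42) (nat_lit 5) (nat_lit 40) (nat_lit 5) (nat_lit 351) (nat_lit 268) (nat_lit 161)) (XT.lf (nat_lit 0) (nat_lit 1601580066) (nat_lit 152) (nat_lit 17710434797) (nat_lit 228) (nat_lit 6227497621) (nat_lit 37) (nat_lit 5) (nat_lit 39) (nat_lit 5) (nat_lit 40) (nat_lit 5) (nat_lit 352) (nat_lit 268) (nat_lit 160))) (XT.nd (nat_lit 78) (nat_lit 76) (nat_lit 0) (XT.lf (nat_lit 0) (nat_lit 11965331525) (nat_lit 152) (nat_lit 12124818776) (nat_lit 228) (nat_lit 2028943106) (nat_lit 37) (nat_lit 5) (nat_lit 39) (nat_lit 5) (nat_lit 40) (nat_lit 5) (nat_lit 353) (nat_lit 268) (nat_lit 159)) (XT.lf (nat_lit 0) (nat_lit 2237242436) (nat_lit 228) (nat_lit 4120826084) (nat_lit 76) (nat_lit 20357744741) (nat_lit 36) (nat_lit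 5) (nat_lit 39) (nat_lit 5) (nat_lit 37) (nat_lit 5) (nat_lit 354) (nat_lit 268) (nat_lit 158)))))) (XT.nd (nat_lit 546) (nat_lit 304) (nat_lit 0) (XT.nd (nat_lit 234) (nat_lit 380) (nat_lit 0) (XT.nd (nat_lit 78) (nat_lit 0) (nat_lit 0) (XT.lf (nat_lit 0) (nat_lit 6293791303) (nat_lit 152) (nat_lit 344205560) (nat_lit 228) (nat_lit 20690421653) (nat_lit 34) (nat_lit 5) (nat_lit 36) (nat_lit 5) (nat_lit 37) (nat_lit 5) (nat_lit 355) (nat_lit 268) (nat_lit 157)) (XT.nd (nat_lit 78) (nat_lit 0) (nat_lit 0) (XT.lf (nat_lit 0) (nat_lit 11255983779) (nat_lit 228) (nat_lit 10931607366) (nat_lit 76) (nat_lit 5769261626) (nat_lit 34) (nat_lit 5) (nat_lit 37) (nat_lit 5) (nat_lit 35) (nat_lit 5) (nat_lit 356) (nat_lit 268) (nat_lit 156)) (XT.lf (nat_lit 0) (nat_lit 16003249449) (nat_lit 228) (nat_lit 550387836) (nat_lit 76) (nat_lit 12050787524) (nat_lit 34) (nat_lit 5) (nat_lit 37) (nat_lit 5) (nat_lit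 35) (nat_lit 5) (nat_lit 357) (nat_lit 268) (nat_lit 155)))) (XT.nd (nat_lit 156) (nat_lit 228) (nat_lit 0) (XT.nd (nat_lit 78) (nat_lit 0) (nat_lit 0) (XT.lf (nat_lit 0) (nat_lit 10322846982) (nat_lit 152) (nat_lit 10657015792) (nat_lit 228) (nat_lit 8288960072) (nat_lit 32) (nat_lit 5) (nat_lit 34) (nat_lit 5) (nat_lit 35) (nat_lit 5) (nat_lit 358) (nat_lit 268) (nat_lit 154)) (XT.lf (nat_lit 0) (nat_lit 21512908519) (nat_lit 152) (nat_lit 4586283706) (nat_lit 228) (nat_lit 3854164602) (nat_lit 32) (nat_lit 5) (nat_lit 34) (nat_lit 5) (nat_lit 35) (nat_lit 5) (nat_lit 359) (nat_lit 268) (nat_lit 153))) (XT.nd (nat_lit 78) (nat_lit 0) (nat_lit 0) (XT.lf (nat_lit 0) (nat_lit 727144274) (nat_lit 228) (nat_lit 28274206671) (nat_lit 76) (nat_lit 1656054352) (nat_lit 29) (nat_lit 5) (nat_lit 32) (nat_lit 5) (nat_lit 30) (nat_lit 5) (nat_lit 360) (nat_lit 268) (nat_lit 152)) (XT.lf (nat_lit 0) (nat_lit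 5488076240) (nat_lit 228) (nat_lit 17780228954) (nat_lit 76) (nat_lit 8109541744) (nat_lit 29) (nat_lit 5) (nat_lit 32) (nat_lit 5) (nat_lit 30) (nat_lit 5) (nat_lit 361) (nat_lit 268) (nat_lit 151))))) (XT.nd (nat_lit 234) (nat_lit 152) (nat_lit 0) (XT.nd (nat_lit 78) (nat_lit 152) (nat_lit 0) (XT.lf (nat_lit 0) (nat_lit 10380345006) (nat_lit 228) (nat_lit 6991212392) (nat_lit 76) (nat_lit 14748694968) (nat_lit 29) (nat_lit 5) (nat_lit 32) (nat_lit 5) (nat_lit 30) (nat_lit 5) (nat_lit 362) (nat_lit 268) (nat_lit 150)) (XT.nd (nat_lit 78) (nat_lit 0) (nat_lit 0) (XT.lf (nat_lit 0) (nat_lit 4183913534) (nat_lit 152) (nat_lit 11264530173) (nat_lit 228) (nat_lit 17435620030) (nat_lit 27) (nat_lit 5) (nat_lit 29) (nat_lit 5) (nat_lit 30) (nat_lit 5) (nat_lit 363) (nat_lit 268) (nat_lit 149)) (XT.lf (nat_lit 0) (nat_lit 15818590161) (nat_lit 152) (nat_lit 4909578432) (nat_lit 228) (nat_lit 12940838830)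 (nat_lit 27) (nat_lit 5) (nat_lit 29) (nat_lit 5) (nat_lit 30) (nat_lit 5) (nat_lit 364) (nat_lit 268) (nat_lit 148)))) (XT.nd (nat_lit 156) (nat_lit 76) (nat_lit 0) (XT.nd (nat_lit 78) (nat_lit 76) (nat_lit 0) (XT.lf (nat_lit 0) (nat_lit 26171243482) (nat_lit 228) (nat_lit 6709632426) (nat_lit 76) (nat_lit 1596480074) (nat_lit 27) (nat_lit 5) (nat_lit 30) (nat_lit 5) (nat_lit 28) (nat_lit 4) (nat_lit 365) (nat_lit 268) (nat_lit 147)) (XT.lf (nat_lit 0) (nat_lit 4792108981) (nat_lit 76) (nat_lit 27069721458) (nat_lit 152) (nat_lit 3445603122) (nat_lit 26) (nat_lit 5) (nat_lit 27) (nat_lit 5) (nat_lit 28) (nat_lit 4) (nat_lit 366) (nat_lit 268) (nat_lit 146))) (XT.nd (nat_lit 78) (nat_lit 0) (nat_lit 0) (XT.lf (nat_lit 0) (nat_lit 1588261103) (nat_lit 152) (nat_lit 19417813678) (nat_lit 76) (nat_lit 15154153623) (nat_lit 25) (nat_lit 5) (nat_lit 27) (nat_lit 5) (nat_lit 26) (nat_lit 5) (nat_lit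 367) (nat_lit 268) (nat_lit 145)) (XT.lf (nat_lit 0) (nat_lit 6693761735) (nat_lit 152) (nat_lit 8039165059) (nat_lit 76) (nat_lit 22304965361) (nat_lit 25) (nat_lit 5) (nat_lit 27) (nat_lit 5) (nat_lit 26) (nat_lit 5) (nat_lit 368) (nat_lit 268) (nat_lit 144))))))))
noncomputable def xc128 : XT := (XT.nd (nat_lit 2028) (nat_lit 228) (nat_lit 0) (XT.nd (nat_lit 1014) (nat_lit 456) (nat_lit 0) (XT.nd (nat_lit 468) (nat_lit 304) (nat_lit 0) (XT.nd (nat_lit 234) (nat_lit 76) (nat_lit 0) (XT.nd (nat_lit 78) (nat_lit 0) (nat_lit 0) (XT.lf (nat_lit 0) (nat_lit 3736599546) (nat_lit 152) (nat_lit 8241914950) (nat_lit 228) (nat_lit 25962593290) (nat_lit 23) (nat_lit 5) (nat_lit 25) (nat_lit 5) (nat_lit 26) (nat_lit 5) (nat_lit 369) (nat_lit 268) (nat_lit 143)) (XT.nd (nat_lit 78) (nat_lit 0) (nat_lit 0) (XT.lf (nat_lit 0) (nat_lit 16013442320) (nat_lit 152) (nat_lit 1479838989) (nat_lit 228) (nat_lit 21375998881)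 (nat_lit 23) (nat_lit 5) (nat_lit 25) (nat_lit 5) (nat_lit 26) (nat_lit 5) (nat_lit 370) (nat_lit 268) (nat_lit 142)) (XT.lf (nat_lit 0) (nat_lit 23216723734) (nat_lit 228) (nat_lit 11236147575) (nat_lit 76) (nat_lit 5371133798) (nat_lit 23) (nat_lit 5) (nat_lit 26) (nat_lit 5) (nat_lit 24) (nat_lit 4) (nat_lit 371) (nat_lit 268) (nat_lit 141)))) (XT.nd (nat_lit 78) (nat_lit 0) (nat_lit 0) (XT.lf (nat_lit 0) (nat_lit 715210655) (nat_lit 76) (nat_lit 28408968677) (nat_lit 152) (nat_lit 11682827336) (nat_lit 22) (nat_lit 5) (nat_lit 23) (nat_lit 5) (nat_lit 24) (nat_lit 4) (nat_lit 372) (nat_lit 268) (nat_lit 140)) (XT.nd (nat_lit 78) (nat_lit 0) (nat_lit 0) (XT.lf (nat_lit 0) (nat_lit 13239371495) (nat_lit 76) (nat_lit 22073847150) (nat_lit 152) (nat_lit 6503152900) (nat_lit 22) (nat_lit 5) (nat_lit 23) (nat_lit 5) (nat_lit 24) (nat_lit 4) (nat_lit 373) (nat_lit 268) (nat_lit 139)) (XT.lf (nat_lit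 0) (nat_lit 26123657016) (nat_lit 76) (nat_lit 15555434244) (nat_lit 152) (nat_lit 1177195197) (nat_lit 22) (nat_lit 5) (nat_lit 23) (nat_lit 5) (nat_lit 24) (nat_lit 4) (nat_lit 374) (nat_lit 268) (nat_lit 138))))) (XT.nd (nat_lit 234) (nat_lit 76) (nat_lit 0) (XT.nd (nat_lit 78) (nat_lit 152) (nat_lit 0) (XT.lf (nat_lit 0) (nat_lit 4215796899) (nat_lit 152) (nat_lit 4589666076) (nat_lit 76) (nat_lit 35120957151) (nat_lit 21) (nat_lit 5) (nat_lit 23) (nat_lit 5) (nat_lit 22) (nat_lit 5) (nat_lit 375) (nat_lit 268) (nat_lit 137)) (XT.nd (nat_lit 78) (nat_lit 0) (nat_lit 0) (XT.lf (nat_lit 0) (nat_lit 8048102501) (nat_lit 152) (nat_lit 1767762405) (nat_lit 228) (nat_lit 35210378458) (nat_lit 19) (nat_lit 5) (nat_lit 21) (nat_lit 5) (nat_lit 22) (nat_lit 5) (nat_lit 376) (nat_lit 268) (nat_lit 136)) (XT.lf (nat_lit 0) (nat_lit 15675053041) (nat_lit 228) (nat_lit 25066650514) (nat_lit 76) (nat_lit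 5414627712) (nat_lit 19) (nat_lit 5) (nat_lit 22) (nat_lit 5) (nat_lit 20) (nat_lit 4) (nat_lit 377) (nat_lit 268) (nat_lit 135)))) (XT.nd (nat_lit 156) (nat_lit 76) (nat_lit 0) (XT.nd (nat_lit 78) (nat_lit 0) (nat_lit 0) (XT.lf (nat_lit 0) (nat_lit 21719388535) (nat_lit 228) (nat_lit 12829804595) (nat_lit 76) (nat_lit 12770850935) (nat_lit 19) (nat_lit 5) (nat_lit 22) (nat_lit 5) (nat_lit 20) (nat_lit 4) (nat_lit 378) (nat_lit 268) (nat_lit 134)) (XT.lf (nat_lit 0) (nat_lit 27937160034) (nat_lit 228) (nat_lit 239917903) (nat_lit 76) (nat_lit 20341830441) (nat_lit 19) (nat_lit 5) (nat_lit 22) (nat_lit 5) (nat_lit 20) (nat_lit 4) (nat_lit 379) (nat_lit 268) (nat_lit 133))) (XT.nd (nat_lit 78) (nat_lit 0) (nat_lit 0) (XT.lf (nat_lit 0) (nat_lit 12967044169) (nat_lit 76) (nat_lit 21491403533) (nat_lit 152) (nat_lit 15291784642) (nat_lit 18) (nat_lit 5) (nat_lit 19) (nat_lit 5) (nat_lit 20) (nat_lit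 4) (nat_lit 380) (nat_lit 268) (nat_lit 132)) (XT.lf (nat_lit 0) (nat_lit 26561612102) (nat_lit 76) (nat_lit 14608613717) (nat_lit 152) (nat_lit 9848427775) (nat_lit 18) (nat_lit 5) (nat_lit 19) (nat_lit 5) (nat_lit 20) (nat_lit 4) (nat_lit 381) (nat_lit 268) (nat_lit 131)))))) (XT.nd (nat_lit 468) (nat_lit 228) (nat_lit 0) (XT.nd (nat_lit 234) (nat_lit 0) (nat_lit 0) (XT.nd (nat_lit 78) (nat_lit 228) (nat_lit 0) (XT.lf (nat_lit 0) (nat_lit 40550889808) (nat_lit 76) (nat_lit 7525117102) (nat_lit 152) (nat_lit 4249344112) (nat_lit 18) (nat_lit 5) (nat_lit 19) (nat_lit 5) (nat_lit 20) (nat_lit 4) (nat_lit 382) (nat_lit 268) (nat_lit 130)) (XT.nd (nat_lit 78) (nat_lit 0) (nat_lit 0) (XT.lf (nat_lit 0) (nat_lit 1286214712) (nat_lit 152) (nat_lit 207035378) (nat_lit 228) (nat_lit 52177409840) (nat_lit 15) (nat_lit 5) (nat_lit 17) (nat_lit 5) (nat_lit 18) (nat_lit 5) (nat_lit 383) (nat_lit 268) (nat_lit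 129)) (XT.lf (nat_lit 0) (nat_lit 7506080035) (nat_lit 228) (nat_lit 40199328434) (nat_lit 76) (nat_lit 7344159263) (nat_lit 15) (nat_lit 5) (nat_lit 18) (nat_lit 5) (nat_lit 16) (nat_lit 4) (nat_lit 384) (nat_lit 268) (nat_lit 128)))) (XT.nd (nat_lit 78) (nat_lit 0) (nat_lit 0) (XT.lf (nat_lit 0) (nat_lit 13694376997) (nat_lit 228) (nat_lit 27663258571) (nat_lit 76) (nat_lit 15112357426) (nat_lit 15) (nat_lit 5) (nat_lit 18) (nat_lit 5) (nat_lit 16) (nat_lit 4) (nat_lit 385) (nat_lit 268) (nat_lit 127)) (XT.nd (nat_lit 78) (nat_lit 0) (nat_lit 0) (XT.lf (nat_lit 0) (nat_lit 20061558075) (nat_lit 228) (nat_lit 14763291633) (nat_lit 76) (nat_lit 23108386864) (nat_lit 15) (nat_lit 5) (nat_lit 18) (nat_lit 5) (nat_lit 16) (nat_lit 4) (nat_lit 386) (nat_lit 268) (nat_lit 126)) (XT.lf (nat_lit 0) (nat_lit 26613186825) (nat_lit 228) (nat_lit 1488155805) (nat_lit 76) (nat_lit 31339234397) (nat_lit 15)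 (nat_lit 5) (nat_lit 18) (nat_lit 5) (nat_lit 16) (nat_lit 4) (nat_lit 387) (nat_lit 268) (nat_lit 125))))) (XT.nd (nat_lit 234) (nat_lit 152) (nat_lit 0) (XT.nd (nat_lit 78) (nat_lit 0) (nat_lit 0) (XT.lf (nat_lit 0) (nat_lit 12416030013) (nat_lit 76) (nat_lit 21058308434) (nat_lit 152) (nat_lit 27515412490) (nat_lit 14) (nat_lit 5) (nat_lit 15) (nat_lit 5) (nat_lit 16) (nat_lit 4) (nat_lit 388) (nat_lit 268) (nat_lit 124)) (XT.nd (nat_lit 78) (nat_lit 0) (nat_lit 0) (XT.lf (nat_lit 0) (nat_lit 26756474194) (nat_lit 76) (nat_lit 13793577812) (nat_lit 152) (nat_lit 22035088628) (nat_lit 14) (nat_lit 5) (nat_lit 15) (nat_lit 5) (nat_lit 16) (nat_lit 4) (nat_lit 389) (nat_lit 268) (nat_lit 123)) (XT.lf (nat_lit 0) (nat_lit 41516090004) (nat_lit 76) (nat_lit 6315830398) (nat_lit 152) (nat_lit 16396657440) (nat_lit 14) (nat_lit 5) (nat_lit 15) (nat_lit 5) (nat_lit 16) (nat_lit 4) (nat_lit 390) (nat_lit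 268) (nat_lit 122)))) (XT.nd (nat_lit 156) (nat_lit 76) (nat_lit 0) (XT.nd (nat_lit 78) (nat_lit 76) (nat_lit 0) (XT.lf (nat_lit 0) (nat_lit 55339585946) (nat_lit 152) (nat_lit 9227003890) (nat_lit 0) (nat_lit 1354510350) (nat_lit 14) (nat_lit 5) (nat_lit 16) (nat_lit 4) (nat_lit 14) (nat_lit 4) (nat_lit 391) (nat_lit 268) (nat_lit 121)) (XT.lf (nat_lit 0) (nat_lit 4681322684) (nat_lit 76) (nat_lit 58492881403) (nat_lit 76) (nat_lit 4487144624) (nat_lit 13) (nat_lit 4) (nat_lit 14) (nat_lit 5) (nat_lit 14) (nat_lit 4) (nat_lit 392) (nat_lit 268) (nat_lit 120))) (XT.nd (nat_lit 78) (nat_lit 0) (nat_lit 0) (XT.lf (nat_lit 0) (nat_lit 1843422719) (nat_lit 152) (nat_lit 50283648059) (nat_lit 76) (nat_lit 17323570848) (nat_lit 12) (nat_lit 5) (nat_lit 14) (nat_lit 5) (nat_lit 13) (nat_lit 4) (nat_lit 393) (nat_lit 268) (nat_lit 119)) (XT.lf (nat_lit 0) (nat_lit 8268088765) (nat_lit 152) (nat_lit 37261051134)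 (nat_lit 76) (nat_lit 25763311554) (nat_lit 12) (nat_lit 5) (nat_lit 14) (nat_lit 5) (nat_lit 13) (nat_lit 4) (nat_lit 394) (nat_lit 268) (nat_lit 118))))))) (XT.nd (nat_lit 30810) (nat_lit 0) (nat_lit 18088) (XT.nd (nat_lit 468) (nat_lit 152) (nat_lit 0) (XT.nd (nat_lit 234) (nat_lit 0) (nat_lit 0) (XT.nd (nat_lit 78) (nat_lit 76) (nat_lit 0) (XT.lf (nat_lit 0) (nat_lit 14880027652) (nat_lit 152) (nat_lit 23857723103) (nat_lit 76) (nat_lit 34451930777) (nat_lit 12) (nat_lit 5) (nat_lit 14) (nat_lit 5) (nat_lit 13) (nat_lit 4) (nat_lit 395) (nat_lit 268) (nat_lit 117)) (XT.nd (nat_lit 78) (nat_lit 76) (nat_lit 0) (XT.lf (nat_lit 0) (nat_lit 21685016803) (nat_lit 152) (nat_lit 10061952320) (nat_lit 76) (nat_lit 43397020515) (nat_lit 12) (nat_lit 5) (nat_lit 14) (nat_lit 5) (nat_lit 13) (nat_lit 4) (nat_lit 396) (nat_lit 268) (nat_lit 116)) (XT.lf (nat_lit 0) (nat_lit 4220676368) (nat_lit 76) (nat_lit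 24508897680) (nat_lit 152) (nat_lit 48426292220) (nat_lit 11) (nat_lit 5) (nat_lit 12) (nat_lit 5) (nat_lit 13) (nat_lit 4) (nat_lit 397) (nat_lit 268) (nat_lit 115)))) (XT.nd (nat_lit 78) (nat_lit 0) (nat_lit 0) (XT.lf (nat_lit 0) (nat_lit 19128760180) (nat_lit 76) (nat_lit 16953221369) (nat_lit 152) (nat_lit 43143224020) (nat_lit 11) (nat_lit 5) (nat_lit 12) (nat_lit 5) (nat_lit 13) (nat_lit 4) (nat_lit 398) (nat_lit 268) (nat_lit 114)) (XT.nd (nat_lit 78) (nat_lit 0) (nat_lit 0) (XT.lf (nat_lit 0) (nat_lit 34475073016) (nat_lit 76) (nat_lit 9174944134) (nat_lit 152) (nat_lit 37706757952) (nat_lit 11) (nat_lit 5) (nat_lit 12) (nat_lit 5) (nat_lit 13) (nat_lit 4) (nat_lit 399) (nat_lit 268) (nat_lit 113)) (XT.lf (nat_lit 0) (nat_lit 50273024276) (nat_lit 76) (nat_lit 1167269421) (nat_lit 152) (nat_lit 32112143704) (nat_lit 11) (nat_lit 5) (nat_lit 12) (nat_lit 5) (nat_lit 13) (nat_lit 4) (nat_lit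 400) (nat_lit 268) (nat_lit 112))))) (XT.nd (nat_lit 234) (nat_lit 76) (nat_lit 0) (XT.nd (nat_lit 78) (nat_lit 76) (nat_lit 0) (XT.lf (nat_lit 0) (nat_lit 59527644755) (nat_lit 152) (nat_lit 19345719542) (nat_lit 0) (nat_lit 6938705914) (nat_lit 11) (nat_lit 5) (nat_lit 13) (nat_lit 4) (nat_lit 11) (nat_lit 4) (nat_lit 401) (nat_lit 268) (nat_lit 111)) (XT.nd (nat_lit 78) (nat_lit 76) (nat_lit 0) (XT.lf (nat_lit 0) (nat_lit 67864613094) (nat_lit 152) (nat_lit 5013922415) (nat_lit 0) (nat_lit 15260748174) (nat_lit 11) (nat_lit 5) (nat_lit 13) (nat_lit 4) (nat_lit 11) (nat_lit 4) (nat_lit 402) (nat_lit 268) (nat_lit 110)) (XT.lf (nat_lit 0) (nat_lit 9933561251) (nat_lit 76) (nat_lit 66609189152) (nat_lit 76) (nat_lit 13990832893) (nat_lit 10) (nat_lit 4) (nat_lit 11) (nat_lit 5) (nat_lit 11) (nat_lit 4) (nat_lit 403) (nat_lit 268) (nat_lit 109)))) (XT.nd (nat_lit 156) (nat_lit 76) (nat_lit 0) (XT.nd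 (nat_lit 78) (nat_lit 0) (nat_lit 0) (XT.lf (nat_lit 0) (nat_lit 25424222469) (nat_lit 76) (nat_lit 60103264394) (nat_lit 76) (nat_lit 7470838874) (nat_lit 10) (nat_lit 4) (nat_lit 11) (nat_lit 5) (nat_lit 11) (nat_lit 4) (nat_lit 404) (nat_lit 268) (nat_lit 108)) (XT.lf (nat_lit 0) (nat_lit 41371809879) (nat_lit 76) (nat_lit 53405707232) (nat_lit 76) (nat_lit 759622236) (nat_lit 10) (nat_lit 4) (nat_lit 11) (nat_lit 5) (nat_lit 11) (nat_lit 4) (nat_lit 405) (nat_lit 268) (nat_lit 107))) (XT.nd (nat_lit 78) (nat_lit 0) (nat_lit 0) (XT.lf (nat_lit 0) (nat_lit 6028698274) (nat_lit 152) (nat_lit 40421089127) (nat_lit 76) (nat_lit 51700681961) (nat_lit 9) (nat_lit 5) (nat_lit 11) (nat_lit 5) (nat_lit 10) (nat_lit 4) (nat_lit 406) (nat_lit 268) (nat_lit 106)) (XT.lf (nat_lit 0) (nat_lit 13001355325) (nat_lit 152) (nat_lit 26279470679) (nat_lit 76) (nat_lit 61561270328) (nat_lit 9) (nat_lit 5) (nat_lit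 11) (nat_lit 5) (nat_lit 10) (nat_lit 4) (nat_lit 407) (nat_lit 268) (nat_lit 105)))))) (XT.nd (nat_lit 546) (nat_lit 1444) (nat_lit 0) (XT.nd (nat_lit 234) (nat_lit 684) (nat_lit 0) (XT.nd (nat_lit 78) (nat_lit 608) (nat_lit 0) (XT.lf (nat_lit 0) (nat_lit 1172544199) (nat_lit 0) (nat_lit 1172544199) (nat_lit 532) (nat_lit 1052871246) (nat_lit 283) (nat_lit 5) (nat_lit 283) (nat_lit 3) (nat_lit 290) (nat_lit 3) (nat_lit 269) (nat_lit 269) (nat_lit 242)) (XT.nd (nat_lit 78) (nat_lit 608) (nat_lit 0) (XT.lf (nat_lit 0) (nat_lit 5510800528) (nat_lit 0) (nat_lit 1158760580) (nat_lit 532) (nat_lit 167296759) (nat_lit 283) (nat_lit 5) (nat_lit 283) (nat_lit 3) (nat_lit 290) (nat_lit 3) (nat_lit 270) (nat_lit 269) (nat_lit 241)) (XT.lf (nat_lit 0) (nat_lit 1737531546) (nat_lit 608) (nat_lit 5009149121) (nat_lit 684) (nat_lit 133639940) (nat_lit 275) (nat_lit 5) (nat_lit 283) (nat_lit 5) (nat_lit 284)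 (nat_lit 5) (nat_lit 271) (nat_lit 269) (nat_lit 240)))) (XT.nd (nat_lit 156) (nat_lit 684) (nat_lit 0) (XT.nd (nat_lit 78) (nat_lit 0) (nat_lit 0) (XT.lf (nat_lit 0) (nat_lit 3647916054) (nat_lit 608) (nat_lit 1787640548) (nat_lit 684) (nat_lit 1491064909) (nat_lit 275) (nat_lit 5) (nat_lit 283) (nat_lit 5) (nat_lit 284) (nat_lit 5) (nat_lit 272) (nat_lit 269) (nat_lit 239)) (XT.lf (nat_lit 76) (nat_lit 1520184124) (nat_lit 0) (nat_lit 4038951414) (nat_lit 684) (nat_lit 1417003392) (nat_lit 276) (nat_lit 5) (nat_lit 275) (nat_lit 5) (nat_lit 284) (nat_lit 5) (nat_lit 273) (nat_lit 269) (nat_lit 238))) (XT.nd (nat_lit 78) (nat_lit 0) (nat_lit 0) (XT.lf (nat_lit 0) (nat_lit 438799083) (nat_lit 684) (nat_lit 2108826492) (nat_lit 760) (nat_lit 4481056991) (nat_lit 266) (nat_lit 5) (nat_lit 275) (nat_lit 5) (nat_lit 276) (nat_lit 5) (nat_lit 274) (nat_lit 269) (nat_lit 237)) (XT.lf (nat_lit 76) (nat_lit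 1310328696) (nat_lit 0) (nat_lit 955893789) (nat_lit 760) (nat_lit 4817948205) (nat_lit 267) (nat_lit 5) (nat_lit 266) (nat_lit 5) (nat_lit 276) (nat_lit 5) (nat_lit 275) (nat_lit 269) (nat_lit 236))))) (XT.nd (nat_lit 234) (nat_lit 760) (nat_lit 0) (XT.nd (nat_lit 78) (nat_lit 760) (nat_lit 0) (XT.lf (nat_lit 0) (nat_lit 4110242331) (nat_lit 684) (nat_lit 2314089193) (nat_lit 760) (nat_lit 718257063) (nat_lit 267) (nat_lit 5) (nat_lit 276) (nat_lit 5) (nat_lit 277) (nat_lit 5) (nat_lit 276) (nat_lit 269) (nat_lit 235)) (XT.nd (nat_lit 78) (nat_lit 760) (nat_lit 0) (XT.lf (nat_lit 76) (nat_lit 1223170976) (nat_lit 0) (nat_lit 4743261919) (nat_lit 760) (nat_lit 1237735513) (nat_lit 268) (nat_lit 5) (nat_lit 267) (nat_lit 5) (nat_lit 277) (nat_lit 5) (nat_lit 277) (nat_lit 269) (nat_lit 234)) (XT.lf (nat_lit 0) (nat_lit 558779048) (nat_lit 760) (nat_lit 2400675864) (nat_lit 836) (nat_lit 4309273412)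 (nat_lit 257) (nat_lit 5) (nat_lit 267) (nat_lit 5) (nat_lit 268) (nat_lit 5) (nat_lit 278) (nat_lit 269) (nat_lit 233)))) (XT.nd (nat_lit 156) (nat_lit 760) (nat_lit 0) (XT.nd (nat_lit 78) (nat_lit 0) (nat_lit 76) (XT.lf (nat_lit 76) (nat_lit 1258915188) (nat_lit 0) (nat_lit 1075734560) (nat_lit 836) (nat_lit 5001802650) (nat_lit 258) (nat_lit 5) (nat_lit 257) (nat_lit 5) (nat_lit 268) (nat_lit 5) (nat_lit 279) (nat_lit 269) (nat_lit 232)) (XT.lf (nat_lit 0) (nat_lit 4136434277) (nat_lit 760) (nat_lit 2378687955) (nat_lit 836) (nat_lit 892008911) (nat_lit 258) (nat_lit 5) (nat_lit 268) (nat_lit 5) (nat_lit 269) (nat_lit 5) (nat_lit 280) (nat_lit 269) (nat_lit 231))) (XT.nd (nat_lit 78) (nat_lit 836) (nat_lit 0) (XT.lf (nat_lit 76) (nat_lit 1406997153) (nat_lit 0) (nat_lit 4551048504) (nat_lit 836) (nat_lit 1523010502) (nat_lit 259) (nat_lit 5) (nat_lit 258) (nat_lit 5) (nat_lit 269) (nat_lit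 5) (nat_lit 281) (nat_lit 269) (nat_lit 230)) (XT.lf (nat_lit 0) (nat_lit 238206390) (nat_lit 836) (nat_lit 2246142096) (nat_lit 912) (nat_lit 5073868728) (nat_lit 247) (nat_lit 5) (nat_lit 258) (nat_lit 5) (nat_lit 259) (nat_lit 5) (nat_lit 282) (nat_lit 269) (nat_lit 229))))))))
noncomputable def xc129 : XT := (XT.nd (nat_lit 2028) (nat_lit 4788) (nat_lit 0) (XT.nd (nat_lit 1014) (nat_lit 3800) (nat_lit 0) (XT.nd (nat_lit 468) (nat_lit 3876) (nat_lit 0) (XT.nd (nat_lit 234) (nat_lit 988) (nat_lit 0) (XT.nd (nat_lit 78) (nat_lit 760) (nat_lit 0) (XT.lf (nat_lit 76) (nat_lit 1673632560) (nat_lit 0) (nat_lit 308035638) (nat_lit 912) (nat_lit 5656862638) (nat_lit 248) (nat_lit 5) (nat_lit 247) (nat_lit 5) (nat_lit 259) (nat_lit 5) (nat_lit 283) (nat_lit 269) (nat_lit 228)) (XT.nd (nat_lit 78) (nat_lit 836) (nat_lit 0) (XT.lf (nat_lit 0) (nat_lit 3764246050) (nat_lit 836) (nat_lit 2024375481) (nat_lit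 76) (nat_lit 1933116025) (nat_lit 248) (nat_lit 5) (nat_lit 259) (nat_lit 5) (nat_lit 249) (nat_lit 5) (nat_lit 284) (nat_lit 269) (nat_lit 227)) (XT.lf (nat_lit 0) (nat_lit 2030117325) (nat_lit 836) (nat_lit 3539660503) (nat_lit 912) (nat_lit 2238663844) (nat_lit 237) (nat_lit 5) (nat_lit 248) (nat_lit 5) (nat_lit 249) (nat_lit 5) (nat_lit 285) (nat_lit 269) (nat_lit 226)))) (XT.nd (nat_lit 78) (nat_lit 988) (nat_lit 0) (XT.lf (nat_lit 0) (nat_lit 6207332020) (nat_lit 836) (nat_lit 1190655566) (nat_lit 912) (nat_lit 500786965) (nat_lit 237) (nat_lit 5) (nat_lit 248) (nat_lit 5) (nat_lit 249) (nat_lit 5) (nat_lit 286) (nat_lit 269) (nat_lit 225)) (XT.nd (nat_lit 78) (nat_lit 0) (nat_lit 0) (XT.lf (nat_lit 0) (nat_lit 1249519504) (nat_lit 988) (nat_lit 5490214404) (nat_lit 76) (nat_lit 1252226439) (nat_lit 224) (nat_lit 5) (nat_lit 237) (nat_lit 5) (nat_lit 225) (nat_lit 5) (nat_lit 287) (nat_lit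 269) (nat_lit 224)) (XT.lf (nat_lit 0) (nat_lit 3021509259) (nat_lit 988) (nat_lit 1290542343) (nat_lit 76) (nat_lit 3776440141) (nat_lit 224) (nat_lit 5) (nat_lit 237) (nat_lit 5) (nat_lit 225) (nat_lit 5) (nat_lit 288) (nat_lit 269) (nat_lit 223))))) (XT.nd (nat_lit 234) (nat_lit 1748) (nat_lit 0) (XT.nd (nat_lit 78) (nat_lit 1140) (nat_lit 0) (XT.lf (nat_lit 0) (nat_lit 3054332604) (nat_lit 988) (nat_lit 1773338041) (nat_lit 1064) (nat_lit 3360891822) (nat_lit 211) (nat_lit 5) (nat_lit 224) (nat_lit 5) (nat_lit 225) (nat_lit 5) (nat_lit 289) (nat_lit 269) (nat_lit 222)) (XT.nd (nat_lit 78) (nat_lit 1140) (nat_lit 0) (XT.lf (nat_lit 0) (nat_lit 6662013291) (nat_lit 1064) (nat_lit 785008252) (nat_lit 76) (nat_lit 845465476) (nat_lit 211) (nat_lit 5) (nat_lit 225) (nat_lit 5) (nat_lit 212) (nat_lit 5) (nat_lit 290) (nat_lit 269) (nat_lit 221)) (XT.lf (nat_lit 0) (nat_lit 156233093) (nat_lit 1140)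 (nat_lit 4691742877) (nat_lit 76) (nat_lit 3551356847) (nat_lit 196) (nat_lit 5) (nat_lit 211) (nat_lit 5) (nat_lit 197) (nat_lit 5) (nat_lit 291) (nat_lit 269) (nat_lit 220)))) (XT.nd (nat_lit 156) (nat_lit 608) (nat_lit 0) (XT.nd (nat_lit 78) (nat_lit 1140) (nat_lit 0) (XT.lf (nat_lit 0) (nat_lit 1926339401) (nat_lit 1140) (nat_lit 215228093) (nat_lit 76) (nat_lit 6368520643) (nat_lit 196) (nat_lit 5) (nat_lit 211) (nat_lit 5) (nat_lit 197) (nat_lit 5) (nat_lit 292) (nat_lit 269) (nat_lit 219)) (XT.lf (nat_lit 0) (nat_lit 3754815464) (nat_lit 1216) (nat_lit 4188401145) (nat_lit 76) (nat_lit 680855125) (nat_lit 181) (nat_lit 5) (nat_lit 197) (nat_lit 5) (nat_lit 182) (nat_lit 5) (nat_lit 293) (nat_lit 269) (nat_lit 218))) (XT.nd (nat_lit 78) (nat_lit 0) (nat_lit 0) (XT.lf (nat_lit 0) (nat_lit 435642373) (nat_lit 608) (nat_lit 5186920592) (nat_lit 684) (nat_lit 3119441119) (nat_lit 173) (nat_lit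 5) (nat_lit 181) (nat_lit 5) (nat_lit 182) (nat_lit 5) (nat_lit 294) (nat_lit 269) (nat_lit 217)) (XT.lf (nat_lit 0) (nat_lit 5243932666) (nat_lit 608) (nat_lit 2302405469) (nat_lit 684) (nat_lit 1317196374) (nat_lit 173) (nat_lit 5) (nat_lit 181) (nat_lit 5) (nat_lit 182) (nat_lit 5) (nat_lit 295) (nat_lit 269) (nat_lit 216)))))) (XT.nd (nat_lit 468) (nat_lit 1976) (nat_lit 0) (XT.nd (nat_lit 234) (nat_lit 608) (nat_lit 0) (XT.nd (nat_lit 78) (nat_lit 532) (nat_lit 0) (XT.lf (nat_lit 0) (nat_lit 505067894) (nat_lit 684) (nat_lit 7810447506) (nat_lit 76) (nat_lit 673802328) (nat_lit 164) (nat_lit 5) (nat_lit 173) (nat_lit 5) (nat_lit 165) (nat_lit 5) (nat_lit 296) (nat_lit 269) (nat_lit 215)) (XT.nd (nat_lit 78) (nat_lit 532) (nat_lit 0) (XT.lf (nat_lit 0) (nat_lit 2374542202) (nat_lit 684) (nat_lit 2999417215) (nat_lit 76) (nat_lit 3744008160) (nat_lit 164) (nat_lit 5) (nat_lit 173) (nat_lit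 5) (nat_lit 165) (nat_lit 5) (nat_lit 297) (nat_lit 269) (nat_lit 214)) (XT.lf (nat_lit 0) (nat_lit 1954337918) (nat_lit 532) (nat_lit 2325041919) (nat_lit 608) (nat_lit 4971771989) (nat_lit 157) (nat_lit 5) (nat_lit 164) (nat_lit 5) (nat_lit 165) (nat_lit 5) (nat_lit 298) (nat_lit 269) (nat_lit 213)))) (XT.nd (nat_lit 78) (nat_lit 608) (nat_lit 0) (XT.lf (nat_lit 0) (nat_lit 6241047573) (nat_lit 608) (nat_lit 2317930032) (nat_lit 76) (nat_lit 829415169) (nat_lit 157) (nat_lit 5) (nat_lit 165) (nat_lit 5) (nat_lit 158) (nat_lit 5) (nat_lit 299) (nat_lit 269) (nat_lit 212)) (XT.nd (nat_lit 78) (nat_lit 76) (nat_lit 0) (XT.lf (nat_lit 0) (nat_lit 2802610095) (nat_lit 532) (nat_lit 5471303516) (nat_lit 608) (nat_lit 1255517110) (nat_lit 150) (nat_lit 5) (nat_lit 157) (nat_lit 5) (nat_lit 158) (nat_lit 5) (nat_lit 300) (nat_lit 269) (nat_lit 211)) (XT.lf (nat_lit 0) (nat_lit 665875174) (nat_lit 608)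 (nat_lit 1596392577) (nat_lit 76) (nat_lit 7412689517) (nat_lit 149) (nat_lit 5) (nat_lit 157) (nat_lit 5) (nat_lit 150) (nat_lit 5) (nat_lit 301) (nat_lit 269) (nat_lit 210))))) (XT.nd (nat_lit 234) (nat_lit 988) (nat_lit 0) (XT.nd (nat_lit 78) (nat_lit 532) (nat_lit 0) (XT.lf (nat_lit 0) (nat_lit 2629591514) (nat_lit 532) (nat_lit 6125744106) (nat_lit 76) (nat_lit 1068889513) (nat_lit 143) (nat_lit 5) (nat_lit 150) (nat_lit 5) (nat_lit 144) (nat_lit 5) (nat_lit 302) (nat_lit 269) (nat_lit 209)) (XT.nd (nat_lit 78) (nat_lit 532) (nat_lit 0) (XT.lf (nat_lit 0) (nat_lit 4655341055) (nat_lit 532) (nat_lit 854450227) (nat_lit 76) (nat_lit 4468130718) (nat_lit 143) (nat_lit 5) (nat_lit 150) (nat_lit 5) (nat_lit 144) (nat_lit 5) (nat_lit 303) (nat_lit 269) (nat_lit 208)) (XT.lf (nat_lit 0) (nat_lit 4627089345) (nat_lit 532) (nat_lit 2124730769) (nat_lit 608) (nat_lit 3384154265) (nat_lit 136) (nat_lit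 5) (nat_lit 143) (nat_lit 5) (nat_lit 144) (nat_lit 5) (nat_lit 304) (nat_lit 269) (nat_lit 207)))) (XT.nd (nat_lit 156) (nat_lit 456) (nat_lit 0) (XT.nd (nat_lit 78) (nat_lit 532) (nat_lit 0) (XT.lf (nat_lit 0) (nat_lit 8899081346) (nat_lit 608) (nat_lit 59926252) (nat_lit 76) (nat_lit 1340166155) (nat_lit 136) (nat_lit 5) (nat_lit 144) (nat_lit 5) (nat_lit 137) (nat_lit 5) (nat_lit 305) (nat_lit 269) (nat_lit 206)) (XT.lf (nat_lit 0) (nat_lit 673278081) (nat_lit 532) (nat_lit 4869550224) (nat_lit 76) (nat_lit 4923024567) (nat_lit 129) (nat_lit 5) (nat_lit 136) (nat_lit 5) (nat_lit 130) (nat_lit 5) (nat_lit 306) (nat_lit 269) (nat_lit 205))) (XT.nd (nat_lit 78) (nat_lit 0) (nat_lit 0) (XT.lf (nat_lit 0) (nat_lit 748654234) (nat_lit 456) (nat_lit 2007174677) (nat_lit 532) (nat_lit 7882072480) (nat_lit 123) (nat_lit 5) (nat_lit 129) (nat_lit 5) (nat_lit 130) (nat_lit 5) (nat_lit 307) (nat_lit 269)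 (nat_lit 204)) (XT.lf (nat_lit 0) (nat_lit 4934077225) (nat_lit 532) (nat_lit 4233202762) (nat_lit 76) (nat_lit 1646872116) (nat_lit 123) (nat_lit 5) (nat_lit 130) (nat_lit 5) (nat_lit 124) (nat_lit 5) (nat_lit 308) (nat_lit 269) (nat_lit 203))))))) (XT.nd (nat_lit 1014) (nat_lit 2128) (nat_lit 0) (XT.nd (nat_lit 468) (nat_lit 1444) (nat_lit 0) (XT.nd (nat_lit 234) (nat_lit 380) (nat_lit 0) (XT.nd (nat_lit 78) (nat_lit 456) (nat_lit 0) (XT.lf (nat_lit 0) (nat_lit 1565733856) (nat_lit 380) (nat_lit 5615648289) (nat_lit 456) (nat_lit 3814233196) (nat_lit 118) (nat_lit 5) (nat_lit 123) (nat_lit 5) (nat_lit 124) (nat_lit 5) (nat_lit 309) (nat_lit 269) (nat_lit 202)) (XT.nd (nat_lit 78) (nat_lit 456) (nat_lit 0) (XT.lf (nat_lit 0) (nat_lit 7588313225) (nat_lit 380) (nat_lit 1919877900) (nat_lit 456) (nat_lit 1674004022) (nat_lit 118) (nat_lit 5) (nat_lit 123) (nat_lit 5) (nat_lit 124) (nat_lit 5) (nat_lit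 310) (nat_lit 269) (nat_lit 201)) (XT.lf (nat_lit 0) (nat_lit 531627522) (nat_lit 456) (nat_lit 8970090236) (nat_lit 76) (nat_lit 1872188442) (nat_lit 112) (nat_lit 5) (nat_lit 118) (nat_lit 5) (nat_lit 113) (nat_lit 5) (nat_lit 311) (nat_lit 269) (nat_lit 200)))) (XT.nd (nat_lit 78) (nat_lit 380) (nat_lit 0) (XT.lf (nat_lit 0) (nat_lit 2795807128) (nat_lit 456) (nat_lit 2988255057) (nat_lit 76) (nat_lit 5786060652) (nat_lit 112) (nat_lit 5) (nat_lit 118) (nat_lit 5) (nat_lit 113) (nat_lit 5) (nat_lit 312) (nat_lit 269) (nat_lit 199)) (XT.nd (nat_lit 78) (nat_lit 0) (nat_lit 0) (XT.lf (nat_lit 0) (nat_lit 3199400254) (nat_lit 380) (nat_lit 1930495362) (nat_lit 456) (nat_lit 6642302148) (nat_lit 107) (nat_lit 5) (nat_lit 112) (nat_lit 5) (nat_lit 113) (nat_lit 5) (nat_lit 313) (nat_lit 269) (nat_lit 198)) (XT.lf (nat_lit 0) (nat_lit 7555730180) (nat_lit 456) (nat_lit 2401904276) (nat_lit 76) (nat_lit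 2022079163) (nat_lit 107) (nat_lit 5) (nat_lit 113) (nat_lit 5) (nat_lit 108) (nat_lit 5) (nat_lit 314) (nat_lit 269) (nat_lit 197))))) (XT.nd (nat_lit 234) (nat_lit 684) (nat_lit 0) (XT.nd (nat_lit 78) (nat_lit 380) (nat_lit 0) (XT.lf (nat_lit 0) (nat_lit 3977153900) (nat_lit 380) (nat_lit 6107008309) (nat_lit 456) (nat_lit 2108427564) (nat_lit 102) (nat_lit 5) (nat_lit 107) (nat_lit 5) (nat_lit 108) (nat_lit 5) (nat_lit 315) (nat_lit 269) (nat_lit 196)) (XT.nd (nat_lit 78) (nat_lit 304) (nat_lit 0) (XT.lf (nat_lit 0) (nat_lit 268338214) (nat_lit 456) (nat_lit 1852884240) (nat_lit 76) (nat_lit 10290663579) (nat_lit 101) (nat_lit 5) (nat_lit 107) (nat_lit 5) (nat_lit 102) (nat_lit 5) (nat_lit 316) (nat_lit 269) (nat_lit 195)) (XT.lf (nat_lit 0) (nat_lit 2712664380) (nat_lit 380) (nat_lit 7918773458) (nat_lit 76) (nat_lit 2004565031) (nat_lit 97) (nat_lit 5) (nat_lit 102) (nat_lit 5) (nat_lit 98)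 (nat_lit 5) (nat_lit 317) (nat_lit 269) (nat_lit 194)))) (XT.nd (nat_lit 156) (nat_lit 304) (nat_lit 0) (XT.nd (nat_lit 78) (nat_lit 380) (nat_lit 0) (XT.lf (nat_lit 0) (nat_lit 5244025994) (nat_lit 380) (nat_lit 1400073806) (nat_lit 76) (nat_lit 6222358448) (nat_lit 97) (nat_lit 5) (nat_lit 102) (nat_lit 5) (nat_lit 98) (nat_lit 5) (nat_lit 318) (nat_lit 269) (nat_lit 193)) (XT.lf (nat_lit 0) (nat_lit 5385259797) (nat_lit 380) (nat_lit 2492405664) (nat_lit 456) (nat_lit 5225397161) (nat_lit 92) (nat_lit 5) (nat_lit 97) (nat_lit 5) (nat_lit 98) (nat_lit 5) (nat_lit 319) (nat_lit 269) (nat_lit 192))) (XT.nd (nat_lit 78) (nat_lit 304) (nat_lit 0) (XT.lf (nat_lit 0) (nat_lit 10596643643) (nat_lit 456) (nat_lit 995145934) (nat_lit 76) (nat_lit 1754810367) (nat_lit 92) (nat_lit 5) (nat_lit 98) (nat_lit 5) (nat_lit 93) (nat_lit 5) (nat_lit 320) (nat_lit 269) (nat_lit 191)) (XT.lf (nat_lit 0) (nat_lit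 5987990583) (nat_lit 304) (nat_lit 7467073242) (nat_lit 380) (nat_lit 140667366) (nat_lit 88) (nat_lit 5) (nat_lit 92) (nat_lit 5) (nat_lit 93) (nat_lit 5) (nat_lit 321) (nat_lit 269) (nat_lit 190)))))) (XT.nd (nat_lit 546) (nat_lit 1064) (nat_lit 0) (XT.nd (nat_lit 234) (nat_lit 684) (nat_lit 0) (XT.nd (nat_lit 78) (nat_lit 304) (nat_lit 0) (XT.lf (nat_lit 0) (nat_lit 2483116541) (nat_lit 380) (nat_lit 709143844) (nat_lit 76) (nat_lit 10659786662) (nat_lit 87) (nat_lit 5) (nat_lit 92) (nat_lit 5) (nat_lit 88) (nat_lit 5) (nat_lit 322) (nat_lit 269) (nat_lit 189)) (XT.nd (nat_lit 78) (nat_lit 0) (nat_lit 0) (XT.lf (nat_lit 0) (nat_lit 5233819799) (nat_lit 380) (nat_lit 7637977843) (nat_lit 76) (nat_lit 1242703909) (nat_lit 83) (nat_lit 5) (nat_lit 88) (nat_lit 5) (nat_lit 84) (nat_lit 5) (nat_lit 323) (nat_lit 269) (nat_lit 188)) (XT.lf (nat_lit 0) (nat_lit 8082643126) (nat_lit 380) (nat_lit 556874010)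 (nat_lit 76) (nat_lit 5744865895) (nat_lit 83) (nat_lit 5) (nat_lit 88) (nat_lit 5) (nat_lit 84) (nat_lit 5) (nat_lit 324) (nat_lit 269) (nat_lit 187)))) (XT.nd (nat_lit 156) (nat_lit 380) (nat_lit 0) (XT.nd (nat_lit 78) (nat_lit 0) (nat_lit 0) (XT.lf (nat_lit 0) (nat_lit 6838178336) (nat_lit 304) (nat_lit 4221923016) (nat_lit 380) (nat_lit 3600985186) (nat_lit 79) (nat_lit 5) (nat_lit 83) (nat_lit 5) (nat_lit 84) (nat_lit 5) (nat_lit 325) (nat_lit 269) (nat_lit 186)) (XT.lf (nat_lit 0) (nat_lit 14113417591) (nat_lit 380) (nat_lit 514840485) (nat_lit 76) (nat_lit 318257133) (nat_lit 79) (nat_lit 5) (nat_lit 84) (nat_lit 5) (nat_lit 80) (nat_lit 5) (nat_lit 326) (nat_lit 269) (nat_lit 185))) (XT.nd (nat_lit 78) (nat_lit 0) (nat_lit 0) (XT.lf (nat_lit 0) (nat_lit 2067489973) (nat_lit 380) (nat_lit 8180641604) (nat_lit 76) (nat_lit 4989141043) (nat_lit 74) (nat_lit 5) (nat_lit 79) (nat_lit 5) (nat_lit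 75) (nat_lit 5) (nat_lit 327) (nat_lit 269) (nat_lit 184)) (XT.lf (nat_lit 0) (nat_lit 5022054364) (nat_lit 380) (nat_lit 710504150) (nat_lit 76) (nat_lit 9804454059) (nat_lit 74) (nat_lit 5) (nat_lit 79) (nat_lit 5) (nat_lit 75) (nat_lit 5) (nat_lit 328) (nat_lit 269) (nat_lit 183))))) (XT.nd (nat_lit 234) (nat_lit 532) (nat_lit 0) (XT.nd (nat_lit 78) (nat_lit 304) (nat_lit 0) (XT.lf (nat_lit 0) (nat_lit 7091627632) (nat_lit 228) (nat_lit 1020877949) (nat_lit 304) (nat_lit 7731839493) (nat_lit 71) (nat_lit 5) (nat_lit 74) (nat_lit 5) (nat_lit 75) (nat_lit 5) (nat_lit 329) (nat_lit 269) (nat_lit 182)) (XT.nd (nat_lit 78) (nat_lit 304) (nat_lit 0) (XT.lf (nat_lit 0) (nat_lit 11319060730) (nat_lit 304) (nat_lit 1085939490) (nat_lit 76) (nat_lit 3755212944) (nat_lit 71) (nat_lit 5) (nat_lit 75) (nat_lit 5) (nat_lit 72) (nat_lit 5) (nat_lit 330) (nat_lit 269) (nat_lit 181)) (XT.lf (nat_lit 0) (nat_lit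 6905646236) (nat_lit 304) (nat_lit 7772565647) (nat_lit 380) (nat_lit 1805670257) (nat_lit 67) (nat_lit 5) (nat_lit 71) (nat_lit 5) (nat_lit 72) (nat_lit 5) (nat_lit 331) (nat_lit 269) (nat_lit 180)))) (XT.nd (nat_lit 156) (nat_lit 228) (nat_lit 0) (XT.nd (nat_lit 78) (nat_lit 228) (nat_lit 0) (XT.lf (nat_lit 0) (nat_lit 1286175262) (nat_lit 380) (nat_lit 1700460855) (nat_lit 76) (nat_lit 13830527792) (nat_lit 66) (nat_lit 5) (nat_lit 71) (nat_lit 5) (nat_lit 67) (nat_lit 5) (nat_lit 332) (nat_lit 269) (nat_lit 179)) (XT.lf (nat_lit 0) (nat_lit 4496862526) (nat_lit 304) (nat_lit 10684622877) (nat_lit 76) (nat_lit 1976566429) (nat_lit 63) (nat_lit 5) (nat_lit 67) (nat_lit 5) (nat_lit 64) (nat_lit 5) (nat_lit 333) (nat_lit 269) (nat_lit 178))) (XT.nd (nat_lit 78) (nat_lit 228) (nat_lit 0) (XT.lf (nat_lit 0) (nat_lit 7831560101) (nat_lit 304) (nat_lit 2640299807) (nat_lit 76) (nat_lit 7036490740)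 (nat_lit 63) (nat_lit 5) (nat_lit 67) (nat_lit 5) (nat_lit 64) (nat_lit 5) (nat_lit 334) (nat_lit 269) (nat_lit 177)) (XT.lf (nat_lit 0) (nat_lit 5728692686) (nat_lit 228) (nat_lit 5574011191) (nat_lit 304) (nat_lit 6565376903) (nat_lit 60) (nat_lit 5) (nat_lit 63) (nat_lit 5) (nat_lit 64) (nat_lit 5) (nat_lit 335) (nat_lit 269) (nat_lit 176))))))))
noncomputable def xc130 : XT := (XT.nd (nat_lit 2028) (nat_lit 1064) (nat_lit 0) (XT.nd (nat_lit 1014) (nat_lit 988) (nat_lit 0) (XT.nd (nat_lit 468) (nat_lit 684) (nat_lit 0) (XT.nd (nat_lit 234) (nat_lit 380) (nat_lit 0) (XT.nd (nat_lit 78) (nat_lit 304) (nat_lit 0) (XT.lf (nat_lit 0) (nat_lit 14374709716) (nat_lit 228) (nat_lit 511544471) (nat_lit 304) (nat_lit 3352114552) (nat_lit 60) (nat_lit 5) (nat_lit 63) (nat_lit 5) (nat_lit 64) (nat_lit 5) (nat_lit 336) (nat_lit 269) (nat_lit 175)) (XT.nd (nat_lit 78) (nat_lit 0) (nat_lit 0) (XT.lf (nat_lit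 0) (nat_lit 31310583) (nat_lit 304) (nat_lit 13939292706) (nat_lit 76) (nat_lit 4646999475) (nat_lit 56) (nat_lit 5) (nat_lit 60) (nat_lit 5) (nat_lit 57) (nat_lit 5) (nat_lit 337) (nat_lit 269) (nat_lit 174)) (XT.lf (nat_lit 0) (nat_lit 3475455345) (nat_lit 304) (nat_lit 5517846669) (nat_lit 76) (nat_lit 10013131278) (nat_lit 56) (nat_lit 5) (nat_lit 60) (nat_lit 5) (nat_lit 57) (nat_lit 5) (nat_lit 338) (nat_lit 269) (nat_lit 173)))) (XT.nd (nat_lit 78) (nat_lit 152) (nat_lit 0) (XT.lf (nat_lit 0) (nat_lit 3191429304) (nat_lit 228) (nat_lit 3844818347) (nat_lit 304) (nat_lit 12370293908) (nat_lit 53) (nat_lit 5) (nat_lit 56) (nat_lit 5) (nat_lit 57) (nat_lit 5) (nat_lit 339) (nat_lit 269) (nat_lit 172)) (XT.nd (nat_lit 78) (nat_lit 152) (nat_lit 0) (XT.lf (nat_lit 0) (nat_lit 10756950628) (nat_lit 304) (nat_lit 7583711603) (nat_lit 76) (nat_lit 1476410386) (nat_lit 53) (nat_lit 5) (nat_lit 57)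 (nat_lit 5) (nat_lit 54) (nat_lit 5) (nat_lit 340) (nat_lit 269) (nat_lit 171)) (XT.lf (nat_lit 0) (nat_lit 1266821578) (nat_lit 152) (nat_lit 13355998529) (nat_lit 228) (nat_lit 5616104937) (nat_lit 51) (nat_lit 5) (nat_lit 53) (nat_lit 5) (nat_lit 54) (nat_lit 5) (nat_lit 341) (nat_lit 269) (nat_lit 170))))) (XT.nd (nat_lit 234) (nat_lit 380) (nat_lit 0) (XT.nd (nat_lit 78) (nat_lit 304) (nat_lit 0) (XT.lf (nat_lit 0) (nat_lit 10512126608) (nat_lit 152) (nat_lit 8152654636) (nat_lit 228) (nat_lit 2006859786) (nat_lit 51) (nat_lit 5) (nat_lit 53) (nat_lit 5) (nat_lit 54) (nat_lit 5) (nat_lit 342) (nat_lit 269) (nat_lit 169)) (XT.nd (nat_lit 78) (nat_lit 228) (nat_lit 0) (XT.lf (nat_lit 0) (nat_lit 1661126873) (nat_lit 228) (nat_lit 1124763563) (nat_lit 76) (nat_lit 18331450181) (nat_lit 50) (nat_lit 5) (nat_lit 53) (nat_lit 5) (nat_lit 51) (nat_lit 5) (nat_lit 343) (nat_lit 269) (nat_lit 168))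 (XT.lf (nat_lit 0) (nat_lit 5490152508) (nat_lit 304) (nat_lit 13303092698) (nat_lit 76) (nat_lit 2779840311) (nat_lit 47) (nat_lit 5) (nat_lit 51) (nat_lit 5) (nat_lit 48) (nat_lit 5) (nat_lit 344) (nat_lit 269) (nat_lit 167)))) (XT.nd (nat_lit 156) (nat_lit 228) (nat_lit 0) (XT.nd (nat_lit 78) (nat_lit 152) (nat_lit 0) (XT.lf (nat_lit 0) (nat_lit 9457547377) (nat_lit 304) (nat_lit 4125369728) (nat_lit 76) (nat_lit 8458890885) (nat_lit 47) (nat_lit 5) (nat_lit 51) (nat_lit 5) (nat_lit 48) (nat_lit 5) (nat_lit 345) (nat_lit 269) (nat_lit 166)) (XT.lf (nat_lit 0) (nat_lit 5408802364) (nat_lit 152) (nat_lit 8172052530) (nat_lit 228) (nat_lit 8942640398) (nat_lit 45) (nat_lit 5) (nat_lit 47) (nat_lit 5) (nat_lit 48) (nat_lit 5) (nat_lit 346) (nat_lit 269) (nat_lit 165))) (XT.nd (nat_lit 78) (nat_lit 228) (nat_lit 0) (XT.lf (nat_lit 0) (nat_lit 15289377360) (nat_lit 152) (nat_lit 2565247858) (nat_lit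 228) (nat_lit 5164214682) (nat_lit 45) (nat_lit 5) (nat_lit 47) (nat_lit 5) (nat_lit 48) (nat_lit 5) (nat_lit 347) (nat_lit 269) (nat_lit 164)) (XT.lf (nat_lit 0) (nat_lit 1920098426) (nat_lit 228) (nat_lit 20371274094) (nat_lit 304) (nat_lit 1236638723) (nat_lit 42) (nat_lit 5) (nat_lit 45) (nat_lit 5) (nat_lit 46) (nat_lit 5) (nat_lit 348) (nat_lit 269) (nat_lit 163)))))) (XT.nd (nat_lit 468) (nat_lit 608) (nat_lit 0) (XT.nd (nat_lit 234) (nat_lit 152) (nat_lit 0) (XT.nd (nat_lit 78) (nat_lit 152) (nat_lit 0) (XT.lf (nat_lit 0) (nat_lit 2843677471) (nat_lit 304) (nat_lit 12109598225) (nat_lit 76) (nat_lit 9095689161) (nat_lit 41) (nat_lit 5) (nat_lit 45) (nat_lit 5) (nat_lit 42) (nat_lit 5) (nat_lit 349) (nat_lit 269) (nat_lit 162)) (XT.nd (nat_lit 78) (nat_lit 152) (nat_lit 0) (XT.lf (nat_lit 0) (nat_lit 7007468679) (nat_lit 304) (nat_lit 2361785760) (nat_lit 76) (nat_lit 15216356224) (nat_lit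 41) (nat_lit 5) (nat_lit 45) (nat_lit 5) (nat_lit 42) (nat_lit 5) (nat_lit 350) (nat_lit 269) (nat_lit 161)) (XT.lf (nat_lit 0) (nat_lit 7808297418) (nat_lit 152) (nat_lit 3549265152) (nat_lit 228) (nat_lit 13778959879) (nat_lit 39) (nat_lit 5) (nat_lit 41) (nat_lit 5) (nat_lit 42) (nat_lit 5) (nat_lit 351) (nat_lit 269) (nat_lit 160)))) (XT.nd (nat_lit 78) (nat_lit 152) (nat_lit 0) (XT.lf (nat_lit 0) (nat_lit 15872180416) (nat_lit 228) (nat_lit 7417729337) (nat_lit 76) (nat_lit 2413039236) (nat_lit 39) (nat_lit 5) (nat_lit 42) (nat_lit 5) (nat_lit 40) (nat_lit 5) (nat_lit 352) (nat_lit 269) (nat_lit 159)) (XT.nd (nat_lit 78) (nat_lit 0) (nat_lit 0) (XT.lf (nat_lit 0) (nat_lit 2787352108) (nat_lit 152) (nat_lit 17783644564) (nat_lit 228) (nat_lit 5713916657) (nat_lit 37) (nat_lit 5) (nat_lit 39) (nat_lit 5) (nat_lit 40) (nat_lit 5) (nat_lit 353) (nat_lit 269) (nat_lit 158)) (XT.lf (nat_lit 0)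 (nat_lit 13428878499) (nat_lit 152) (nat_lit 12043802876) (nat_lit 228) (nat_lit 1409805678) (nat_lit 37) (nat_lit 5) (nat_lit 39) (nat_lit 5) (nat_lit 40) (nat_lit 5) (nat_lit 354) (nat_lit 269) (nat_lit 157))))) (XT.nd (nat_lit 234) (nat_lit 380) (nat_lit 0) (XT.nd (nat_lit 78) (nat_lit 152) (nat_lit 0) (XT.lf (nat_lit 0) (nat_lit 2951676563) (nat_lit 228) (nat_lit 3158791107) (nat_lit 76) (nat_lit 21387038189) (nat_lit 36) (nat_lit 5) (nat_lit 39) (nat_lit 5) (nat_lit 37) (nat_lit 5) (nat_lit 355) (nat_lit 269) (nat_lit 156)) (XT.nd (nat_lit 78) (nat_lit 0) (nat_lit 0) (XT.lf (nat_lit 0) (nat_lit 7476718678) (nat_lit 228) (nat_lit 20571919582) (nat_lit 76) (nat_lit 80093612) (nat_lit 34) (nat_lit 5) (nat_lit 37) (nat_lit 5) (nat_lit 35) (nat_lit 5) (nat_lit 356) (nat_lit 269) (nat_lit 155)) (XT.lf (nat_lit 0) (nat_lit 12217925316) (nat_lit 228) (nat_lit 10200974546) (nat_lit 76) (nat_lit 6357589134)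 (nat_lit 34) (nat_lit 5) (nat_lit 37) (nat_lit 5) (nat_lit 35) (nat_lit 5) (nat_lit 357) (nat_lit 269) (nat_lit 154)))) (XT.nd (nat_lit 156) (nat_lit 228) (nat_lit 0) (XT.nd (nat_lit 78) (nat_lit 0) (nat_lit 0) (XT.lf (nat_lit 0) (nat_lit 470020912) (nat_lit 152) (nat_lit 16623923784) (nat_lit 228) (nat_lit 12349963375) (nat_lit 32) (nat_lit 5) (nat_lit 34) (nat_lit 5) (nat_lit 35) (nat_lit 5) (nat_lit 358) (nat_lit 269) (nat_lit 153)) (XT.lf (nat_lit 0) (nat_lit 11650205009) (nat_lit 152) (nat_lit 10557262971) (nat_lit 228) (nat_lit 7921151380) (nat_lit 32) (nat_lit 5) (nat_lit 34) (nat_lit 5) (nat_lit 35) (nat_lit 5) (nat_lit 359) (nat_lit 269) (nat_lit 152))) (XT.nd (nat_lit 78) (nat_lit 228) (nat_lit 0) (XT.lf (nat_lit 0) (nat_lit 23146327442) (nat_lit 152) (nat_lit 4316626299) (nat_lit 228) (nat_lit 3371267700) (nat_lit 32) (nat_lit 5) (nat_lit 34) (nat_lit 5) (nat_lit 35) (nat_lit 5) (nat_lit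 360) (nat_lit 269) (nat_lit 151)) (XT.lf (nat_lit 0) (nat_lit 1332177356) (nat_lit 228) (nat_lit 28118500125) (nat_lit 76) (nat_lit 2108658835) (nat_lit 29) (nat_lit 5) (nat_lit 32) (nat_lit 5) (nat_lit 30) (nat_lit 5) (nat_lit 361) (nat_lit 269) (nat_lit 150))))))) (XT.nd (nat_lit 1014) (nat_lit 532) (nat_lit 0) (XT.nd (nat_lit 468) (nat_lit 304) (nat_lit 0) (XT.nd (nat_lit 234) (nat_lit 76) (nat_lit 0) (XT.nd (nat_lit 78) (nat_lit 152) (nat_lit 0) (XT.lf (nat_lit 0) (nat_lit 6218950327) (nat_lit 228) (nat_lit 17338943836) (nat_lit 76) (nat_lit 8744015231) (nat_lit 29) (nat_lit 5) (nat_lit 32) (nat_lit 5) (nat_lit 30) (nat_lit 5) (nat_lit 362) (nat_lit 269) (nat_lit 149)) (XT.nd (nat_lit 78) (nat_lit 152) (nat_lit 0) (XT.lf (nat_lit 0) (nat_lit 11241494968) (nat_lit 228) (nat_lit 6254645864) (nat_lit 76) (nat_lit 15570949250) (nat_lit 29) (nat_lit 5) (nat_lit 32) (nat_lit 5) (nat_lit 30) (nat_lit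 5) (nat_lit 363) (nat_lit 269) (nat_lit 148)) (XT.lf (nat_lit 0) (nat_lit 5246456360) (nat_lit 152) (nat_lit 11208175697) (nat_lit 228) (nat_lit 17399401959) (nat_lit 27) (nat_lit 5) (nat_lit 29) (nat_lit 5) (nat_lit 30) (nat_lit 5) (nat_lit 364) (nat_lit 269) (nat_lit 147)))) (XT.nd (nat_lit 78) (nat_lit 76) (nat_lit 0) (XT.lf (nat_lit 0) (nat_lit 17202881284) (nat_lit 152) (nat_lit 4674059589) (nat_lit 228) (nat_lit 12786067226) (nat_lit 27) (nat_lit 5) (nat_lit 29) (nat_lit 5) (nat_lit 30) (nat_lit 5) (nat_lit 365) (nat_lit 269) (nat_lit 146)) (XT.nd (nat_lit 78) (nat_lit 76) (nat_lit 0) (XT.lf (nat_lit 0) (nat_lit 27471533205) (nat_lit 228) (nat_lit 6015656159) (nat_lit 76) (nat_lit 2008778620) (nat_lit 27) (nat_lit 5) (nat_lit 30) (nat_lit 5) (nat_lit 28) (nat_lit 4) (nat_lit 366) (nat_lit 269) (nat_lit 145)) (XT.lf (nat_lit 0) (nat_lit 5822360380) (nat_lit 76) (nat_lit 27503994418) (nat_lit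 152) (nat_lit 3024794983) (nat_lit 26) (nat_lit 5) (nat_lit 27) (nat_lit 5) (nat_lit 28) (nat_lit 4) (nat_lit 367) (nat_lit 269) (nat_lit 144))))) (XT.nd (nat_lit 234) (nat_lit 76) (nat_lit 0) (XT.nd (nat_lit 78) (nat_lit 152) (nat_lit 0) (XT.lf (nat_lit 0) (nat_lit 2134887253) (nat_lit 152) (nat_lit 19129516812) (nat_lit 76) (nat_lit 15965429298) (nat_lit 25) (nat_lit 5) (nat_lit 27) (nat_lit 5) (nat_lit 26) (nat_lit 5) (nat_lit 368) (nat_lit 269) (nat_lit 143)) (XT.nd (nat_lit 78) (nat_lit 152) (nat_lit 0) (XT.lf (nat_lit 0) (nat_lit 7379019554) (nat_lit 152) (nat_lit 7434872752) (nat_lit 76) (nat_lit 23320377494) (nat_lit 25) (nat_lit 5) (nat_lit 27) (nat_lit 5) (nat_lit 26) (nat_lit 5) (nat_lit 369) (nat_lit 269) (nat_lit 142)) (XT.lf (nat_lit 0) (nat_lit 4685875896) (nat_lit 152) (nat_lit 8130376425) (nat_lit 228) (nat_lit 26248518033) (nat_lit 23) (nat_lit 5) (nat_lit 25) (nat_lit 5) (nat_lit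 26) (nat_lit 5) (nat_lit 370) (nat_lit 269) (nat_lit 141)))) (XT.nd (nat_lit 156) (nat_lit 76) (nat_lit 0) (XT.nd (nat_lit 78) (nat_lit 0) (nat_lit 0) (XT.lf (nat_lit 0) (nat_lit 17306640117) (nat_lit 152) (nat_lit 1175888554) (nat_lit 228) (nat_lit 21538683647) (nat_lit 23) (nat_lit 5) (nat_lit 25) (nat_lit 5) (nat_lit 26) (nat_lit 5) (nat_lit 371) (nat_lit 269) (nat_lit 140)) (XT.lf (nat_lit 0) (nat_lit 24367397712) (nat_lit 228) (nat_lit 10773627833) (nat_lit 76) (nat_lit 5863867936) (nat_lit 23) (nat_lit 5) (nat_lit 26) (nat_lit 5) (nat_lit 24) (nat_lit 4) (nat_lit 372) (nat_lit 269) (nat_lit 139))) (XT.nd (nat_lit 78) (nat_lit 0) (nat_lit 0) (XT.lf (nat_lit 0) (nat_lit 1528431887) (nat_lit 76) (nat_lit 28918027701) (nat_lit 152) (nat_lit 11571100040) (nat_lit 22) (nat_lit 5) (nat_lit 23) (nat_lit 5) (nat_lit 24) (nat_lit 4) (nat_lit 373) (nat_lit 269) (nat_lit 138)) (XT.lf (nat_lit 0) (nat_lit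 14405256438) (nat_lit 76) (nat_lit 22402848937) (nat_lit 152) (nat_lit 6249497860) (nat_lit 22) (nat_lit 5) (nat_lit 23) (nat_lit 5) (nat_lit 24) (nat_lit 4) (nat_lit 374) (nat_lit 269) (nat_lit 137)))))) (XT.nd (nat_lit 546) (nat_lit 228) (nat_lit 0) (XT.nd (nat_lit 234) (nat_lit 76) (nat_lit 0) (XT.nd (nat_lit 78) (nat_lit 228) (nat_lit 0) (XT.lf (nat_lit 0) (nat_lit 27653681094) (nat_lit 76) (nat_lit 15698588895) (nat_lit 152) (nat_lit 776831803) (nat_lit 22) (nat_lit 5) (nat_lit 23) (nat_lit 5) (nat_lit 24) (nat_lit 4) (nat_lit 375) (nat_lit 269) (nat_lit 136)) (XT.nd (nat_lit 78) (nat_lit 152) (nat_lit 0) (XT.lf (nat_lit 0) (nat_lit 4757006319) (nat_lit 152) (nat_lit 3994346728) (nat_lit 76) (nat_lit 36480239393) (nat_lit 21) (nat_lit 5) (nat_lit 23) (nat_lit 5) (nat_lit 22) (nat_lit 5) (nat_lit 376) (nat_lit 269) (nat_lit 135)) (XT.lf (nat_lit 0) (nat_lit 9015368541) (nat_lit 152) (nat_lit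 1504605204) (nat_lit 228) (nat_lit 35844594899) (nat_lit 19) (nat_lit 5) (nat_lit 21) (nat_lit 5) (nat_lit 22) (nat_lit 5) (nat_lit 377) (nat_lit 269) (nat_lit 134)))) (XT.nd (nat_lit 156) (nat_lit 76) (nat_lit 0) (XT.nd (nat_lit 78) (nat_lit 0) (nat_lit 0) (XT.lf (nat_lit 0) (nat_lit 16545957355) (nat_lit 228) (nat_lit 25104819376) (nat_lit 76) (nat_lit 5878056898) (nat_lit 19) (nat_lit 5) (nat_lit 22) (nat_lit 5) (nat_lit 20) (nat_lit 4) (nat_lit 378) (nat_lit 269) (nat_lit 133)) (XT.lf (nat_lit 0) (nat_lit 22759953417) (nat_lit 228) (nat_lit 12521659264) (nat_lit 76) (nat_lit 13446200108) (nat_lit 19) (nat_lit 5) (nat_lit 22) (nat_lit 5) (nat_lit 20) (nat_lit 4) (nat_lit 379) (nat_lit 269) (nat_lit 132))) (XT.nd (nat_lit 78) (nat_lit 0) (nat_lit 0) (XT.lf (nat_lit 0) (nat_lit 434211441) (nat_lit 76) (nat_lit 28722890917) (nat_lit 152) (nat_lit 20805760095) (nat_lit 18) (nat_lit 5) (nat_lit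 19) (nat_lit 5) (nat_lit 20) (nat_lit 4) (nat_lit 380) (nat_lit 269) (nat_lit 131)) (XT.lf (nat_lit 0) (nat_lit 14022312741) (nat_lit 76) (nat_lit 21842946862) (nat_lit 152) (nat_lit 15366134219) (nat_lit 18) (nat_lit 5) (nat_lit 19) (nat_lit 5) (nat_lit 20) (nat_lit 4) (nat_lit 381) (nat_lit 269) (nat_lit 130))))) (XT.nd (nat_lit 234) (nat_lit 0) (nat_lit 0) (XT.nd (nat_lit 78) (nat_lit 228) (nat_lit 0) (XT.lf (nat_lit 0) (nat_lit 28005312161) (nat_lit 76) (nat_lit 14762213122) (nat_lit 152) (nat_lit 9770672877) (nat_lit 18) (nat_lit 5) (nat_lit 19) (nat_lit 5) (nat_lit 20) (nat_lit 4) (nat_lit 382) (nat_lit 269) (nat_lit 129)) (XT.nd (nat_lit 78) (nat_lit 228) (nat_lit 0) (XT.lf (nat_lit 0) (nat_lit 42395427857) (nat_lit 76) (nat_lit 7474502647) (nat_lit 152) (nat_lit 4014486833) (nat_lit 18) (nat_lit 5) (nat_lit 19) (nat_lit 5) (nat_lit 20) (nat_lit 4) (nat_lit 383) (nat_lit 269) (nat_lit 128))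 (XT.lf (nat_lit 0) (nat_lit 1889636113) (nat_lit 228) (nat_lit 53316940851) (nat_lit 76) (nat_lit 63518514) (nat_lit 15) (nat_lit 5) (nat_lit 18) (nat_lit 5) (nat_lit 16) (nat_lit 4) (nat_lit 384) (nat_lit 269) (nat_lit 127)))) (XT.nd (nat_lit 156) (nat_lit 0) (nat_lit 0) (XT.nd (nat_lit 78) (nat_lit 0) (nat_lit 0) (XT.lf (nat_lit 0) (nat_lit 8074600665) (nat_lit 228) (nat_lit 40786873462) (nat_lit 76) (nat_lit 7829147874) (nat_lit 15) (nat_lit 5) (nat_lit 18) (nat_lit 5) (nat_lit 16) (nat_lit 4) (nat_lit 385) (nat_lit 269) (nat_lit 126)) (XT.lf (nat_lit 0) (nat_lit 14438546392) (nat_lit 228) (nat_lit 27892734168) (nat_lit 76) (nat_lit 15822683328) (nat_lit 15) (nat_lit 5) (nat_lit 18) (nat_lit 5) (nat_lit 16) (nat_lit 4) (nat_lit 386) (nat_lit 269) (nat_lit 125))) (XT.nd (nat_lit 78) (nat_lit 0) (nat_lit 0) (XT.lf (nat_lit 0) (nat_lit 20987034026) (nat_lit 228) (nat_lit 14623256246) (nat_lit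 76) (nat_lit 24051109517) (nat_lit 15) (nat_lit 5) (nat_lit 18) (nat_lit 5) (nat_lit 16) (nat_lit 4) (nat_lit 387) (nat_lit 269) (nat_lit 124)) (XT.lf (nat_lit 0) (nat_lit 27725785545) (nat_lit 228) (nat_lit 966845007) (nat_lit 76) (nat_lit 32521616329) (nat_lit 15) (nat_lit 5) (nat_lit 18) (nat_lit 5) (nat_lit 16) (nat_lit 4) (nat_lit 388) (nat_lit 269) (nat_lit 123))))))))
noncomputable def xc131 : XT := (XT.nd (nat_lit 31902) (nat_lit 0) (nat_lit 10184) (XT.nd (nat_lit 1014) (nat_lit 152) (nat_lit 0) (XT.nd (nat_lit 468) (nat_lit 76) (nat_lit 0) (XT.nd (nat_lit 234) (nat_lit 152) (nat_lit 0) (XT.nd (nat_lit 78) (nat_lit 0) (nat_lit 0) (XT.lf (nat_lit 0) (nat_lit 13348917802) (nat_lit 76) (nat_lit 21440089341) (nat_lit 152) (nat_lit 28021005339) (nat_lit 14) (nat_lit 5) (nat_lit 15) (nat_lit 5) (nat_lit 16) (nat_lit 4) (nat_lit 389) (nat_lit 269) (nat_lit 122)) (XT.nd (nat_lit 78) (nat_lit 0)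 (nat_lit 0) (XT.lf (nat_lit 0) (nat_lit 28103252778) (nat_lit 76) (nat_lit 13964697432) (nat_lit 152) (nat_lit 22385588349) (nat_lit 14) (nat_lit 5) (nat_lit 15) (nat_lit 5) (nat_lit 16) (nat_lit 4) (nat_lit 390) (nat_lit 269) (nat_lit 121)) (XT.lf (nat_lit 0) (nat_lit 43289809945) (nat_lit 76) (nat_lit 6269686169) (nat_lit 152) (nat_lit 16587049456) (nat_lit 14) (nat_lit 5) (nat_lit 15) (nat_lit 5) (nat_lit 16) (nat_lit 4) (nat_lit 391) (nat_lit 269) (nat_lit 120)))) (XT.nd (nat_lit 78) (nat_lit 152) (nat_lit 0) (XT.lf (nat_lit 0) (nat_lit 57286067714) (nat_lit 152) (nat_lit 8984530578) (nat_lit 0) (nat_lit 1619438246) (nat_lit 14) (nat_lit 5) (nat_lit 16) (nat_lit 4) (nat_lit 14) (nat_lit 4) (nat_lit 392) (nat_lit 269) (nat_lit 119)) (XT.nd (nat_lit 78) (nat_lit 76) (nat_lit 0) (XT.lf (nat_lit 0) (nat_lit 5335954779) (nat_lit 76) (nat_lit 60016373686) (nat_lit 76) (nat_lit 4330269070) (nat_lit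 13) (nat_lit 4) (nat_lit 14) (nat_lit 5) (nat_lit 14) (nat_lit 4) (nat_lit 393) (nat_lit 269) (nat_lit 118)) (XT.lf (nat_lit 0) (nat_lit 2176202949) (nat_lit 152) (nat_lit 51287320538) (nat_lit 76) (nat_lit 18062214384) (nat_lit 12) (nat_lit 5) (nat_lit 14) (nat_lit 5) (nat_lit 13) (nat_lit 4) (nat_lit 394) (nat_lit 269) (nat_lit 117))))) (XT.nd (nat_lit 234) (nat_lit 76) (nat_lit 0) (XT.nd (nat_lit 78) (nat_lit 0) (nat_lit 0) (XT.lf (nat_lit 0) (nat_lit 8785527105) (nat_lit 152) (nat_lit 37888749694) (nat_lit 76) (nat_lit 26748770522) (nat_lit 12) (nat_lit 5) (nat_lit 14) (nat_lit 5) (nat_lit 13) (nat_lit 4) (nat_lit 395) (nat_lit 269) (nat_lit 116)) (XT.nd (nat_lit 78) (nat_lit 0) (nat_lit 0) (XT.lf (nat_lit 0) (nat_lit 15587977683) (nat_lit 152) (nat_lit 24097597540) (nat_lit 76) (nat_lit 35691857265) (nat_lit 12) (nat_lit 5) (nat_lit 14) (nat_lit 5) (nat_lit 13) (nat_lit 4) (nat_lit 396) (nat_lit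 269) (nat_lit 115)) (XT.lf (nat_lit 0) (nat_lit 22589498571) (nat_lit 152) (nat_lit 9901813554) (nat_lit 76) (nat_lit 44899288960) (nat_lit 12) (nat_lit 5) (nat_lit 14) (nat_lit 5) (nat_lit 13) (nat_lit 4) (nat_lit 397) (nat_lit 269) (nat_lit 114)))) (XT.nd (nat_lit 156) (nat_lit 0) (nat_lit 0) (XT.nd (nat_lit 78) (nat_lit 0) (nat_lit 0) (XT.lf (nat_lit 0) (nat_lit 4804764609) (nat_lit 76) (nat_lit 25037629329) (nat_lit 152) (nat_lit 49620532663) (nat_lit 11) (nat_lit 5) (nat_lit 12) (nat_lit 5) (nat_lit 13) (nat_lit 4) (nat_lit 398) (nat_lit 269) (nat_lit 113)) (XT.lf (nat_lit 0) (nat_lit 20146766627) (nat_lit 76) (nat_lit 17261298320) (nat_lit 152) (nat_lit 44186502951) (nat_lit 11) (nat_lit 5) (nat_lit 12) (nat_lit 5) (nat_lit 13) (nat_lit 4) (nat_lit 399) (nat_lit 269) (nat_lit 112))) (XT.nd (nat_lit 78) (nat_lit 0) (nat_lit 0) (XT.lf (nat_lit 0) (nat_lit 35940532626) (nat_lit 76) (nat_lit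 9255513147) (nat_lit 152) (nat_lit 38594254098) (nat_lit 11) (nat_lit 5) (nat_lit 12) (nat_lit 5) (nat_lit 13) (nat_lit 4) (nat_lit 400) (nat_lit 269) (nat_lit 111)) (XT.lf (nat_lit 0) (nat_lit 52199862983) (nat_lit 76) (nat_lit 1013278463) (nat_lit 152) (nat_lit 32838899673) (nat_lit 11) (nat_lit 5) (nat_lit 12) (nat_lit 5) (nat_lit 13) (nat_lit 4) (nat_lit 401) (nat_lit 269) (nat_lit 110)))))) (XT.nd (nat_lit 30342) (nat_lit 0) (nat_lit 19456) (XT.nd (nat_lit 234) (nat_lit 76) (nat_lit 0) (XT.nd (nat_lit 78) (nat_lit 76) (nat_lit 0) (XT.lf (nat_lit 0) (nat_lit 61538188476) (nat_lit 152) (nat_lit 19514634321) (nat_lit 0) (nat_lit 7326790191) (nat_lit 11) (nat_lit 5) (nat_lit 13) (nat_lit 4) (nat_lit 11) (nat_lit 4) (nat_lit 402) (nat_lit 269) (nat_lit 109)) (XT.nd (nat_lit 78) (nat_lit 76) (nat_lit 0) (XT.lf (nat_lit 0) (nat_lit 70118720786) (nat_lit 152) (nat_lit 4764867458) (nat_lit 0) (nat_lit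 15893253240) (nat_lit 11) (nat_lit 5) (nat_lit 13) (nat_lit 4) (nat_lit 11) (nat_lit 4) (nat_lit 403) (nat_lit 269) (nat_lit 108)) (XT.lf (nat_lit 0) (nat_lit 10627124319) (nat_lit 76) (nat_lit 68427525778) (nat_lit 76) (nat_lit 14188398756) (nat_lit 10) (nat_lit 4) (nat_lit 11) (nat_lit 5) (nat_lit 11) (nat_lit 4) (nat_lit 404) (nat_lit 269) (nat_lit 107)))) (XT.nd (nat_lit 78) (nat_lit 76) (nat_lit 0) (XT.lf (nat_lit 0) (nat_lit 26570984318) (nat_lit 76) (nat_lit 61731664221) (nat_lit 76) (nat_lit 7479275571) (nat_lit 10) (nat_lit 4) (nat_lit 11) (nat_lit 5) (nat_lit 11) (nat_lit 4) (nat_lit 405) (nat_lit 269) (nat_lit 106)) (XT.nd (nat_lit 78) (nat_lit 76) (nat_lit 0) (XT.lf (nat_lit 0) (nat_lit 42985813860) (nat_lit 76) (nat_lit 54838268639) (nat_lit 76) (nat_lit 573004622) (nat_lit 10) (nat_lit 4) (nat_lit 11) (nat_lit 5) (nat_lit 11) (nat_lit 4) (nat_lit 406) (nat_lit 269) (nat_lit 105))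 (XT.lf (nat_lit 0) (nat_lit 6408899038) (nat_lit 152) (nat_lit 41267699324) (nat_lit 76) (nat_lit 53412339647) (nat_lit 9) (nat_lit 5) (nat_lit 11) (nat_lit 5) (nat_lit 10) (nat_lit 4) (nat_lit 407) (nat_lit 269) (nat_lit 104))))) (XT.nd (nat_lit 234) (nat_lit 684) (nat_lit 0) (XT.nd (nat_lit 78) (nat_lit 0) (nat_lit 0) (XT.lf (nat_lit 0) (nat_lit 849726119) (nat_lit 684) (nat_lit 1294754276) (nat_lit 684) (nat_lit 1294754276) (nat_lit 274) (nat_lit 3) (nat_lit 283) (nat_lit 3) (nat_lit 283) (nat_lit 5) (nat_lit 270) (nat_lit 270) (nat_lit 240)) (XT.nd (nat_lit 78) (nat_lit 0) (nat_lit 0) (XT.lf (nat_lit 76) (nat_lit 563312838) (nat_lit 0) (nat_lit 2987754408) (nat_lit 684) (nat_lit 3372382638) (nat_lit 275) (nat_lit 5) (nat_lit 274) (nat_lit 3) (nat_lit 283) (nat_lit 5) (nat_lit 271) (nat_lit 270) (nat_lit 239)) (XT.lf (nat_lit 76) (nat_lit 3826410603) (nat_lit 0) (nat_lit 1586552484) (nat_lit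 684) (nat_lit 1558307973) (nat_lit 275) (nat_lit 5) (nat_lit 274) (nat_lit 3) (nat_lit 283) (nat_lit 5) (nat_lit 272) (nat_lit 270) (nat_lit 238)))) (XT.nd (nat_lit 156) (nat_lit 0) (nat_lit 76) (XT.nd (nat_lit 78) (nat_lit 0) (nat_lit 76) (XT.lf (nat_lit 76) (nat_lit 128578457) (nat_lit 0) (nat_lit 106643774) (nat_lit 760) (nat_lit 6787408148) (nat_lit 266) (nat_lit 5) (nat_lit 265) (nat_lit 5) (nat_lit 275) (nat_lit 5) (nat_lit 273) (nat_lit 270) (nat_lit 237)) (XT.lf (nat_lit 0) (nat_lit 2028768219) (nat_lit 684) (nat_lit 3579187798) (nat_lit 760) (nat_lit 1467907578) (nat_lit 266) (nat_lit 5) (nat_lit 275) (nat_lit 5) (nat_lit 276) (nat_lit 5) (nat_lit 274) (nat_lit 270) (nat_lit 236))) (XT.nd (nat_lit 78) (nat_lit 0) (nat_lit 0) (XT.lf (nat_lit 0) (nat_lit 3810993491) (nat_lit 684) (nat_lit 204697193) (nat_lit 760) (nat_lit 3117075275) (nat_lit 266) (nat_lit 5) (nat_lit 275) (nat_lit 5) (nat_lit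 276) (nat_lit 5) (nat_lit 275) (nat_lit 270) (nat_lit 235)) (XT.lf (nat_lit 76) (nat_lit 3297744474) (nat_lit 0) (nat_lit 2316385669) (nat_lit 760) (nat_lit 1578336805) (nat_lit 267) (nat_lit 5) (nat_lit 266) (nat_lit 5) (nat_lit 276) (nat_lit 5) (nat_lit 276) (nat_lit 270) (nat_lit 234))))))) (XT.nd (nat_lit 1014) (nat_lit 5168) (nat_lit 0) (XT.nd (nat_lit 468) (nat_lit 2736) (nat_lit 0) (XT.nd (nat_lit 234) (nat_lit 684) (nat_lit 0) (XT.nd (nat_lit 78) (nat_lit 0) (nat_lit 76) (XT.lf (nat_lit 0) (nat_lit 151774542) (nat_lit 760) (nat_lit 385188828) (nat_lit 836) (nat_lit 6718882754) (nat_lit 256) (nat_lit 5) (nat_lit 266) (nat_lit 5) (nat_lit 267) (nat_lit 5) (nat_lit 277) (nat_lit 270) (nat_lit 233)) (XT.nd (nat_lit 78) (nat_lit 0) (nat_lit 0) (XT.lf (nat_lit 0) (nat_lit 1884735684) (nat_lit 760) (nat_lit 4095118310) (nat_lit 836) (nat_lit 1341428926) (nat_lit 257) (nat_lit 5) (nat_lit 267)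 (nat_lit 5) (nat_lit 268) (nat_lit 5) (nat_lit 278) (nat_lit 270) (nat_lit 232)) (XT.lf (nat_lit 0) (nat_lit 3618965726) (nat_lit 760) (nat_lit 479439598) (nat_lit 836) (nat_lit 3291901176) (nat_lit 257) (nat_lit 5) (nat_lit 267) (nat_lit 5) (nat_lit 268) (nat_lit 5) (nat_lit 279) (nat_lit 270) (nat_lit 231)))) (XT.nd (nat_lit 78) (nat_lit 760) (nat_lit 0) (XT.lf (nat_lit 76) (nat_lit 3270397455) (nat_lit 0) (nat_lit 2108044248) (nat_lit 836) (nat_lit 2083861619) (nat_lit 258) (nat_lit 5) (nat_lit 257) (nat_lit 5) (nat_lit 268) (nat_lit 5) (nat_lit 280) (nat_lit 270) (nat_lit 230)) (XT.nd (nat_lit 78) (nat_lit 760) (nat_lit 0) (XT.lf (nat_lit 76) (nat_lit 7104802224) (nat_lit 0) (nat_lit 33855854) (nat_lit 836) (nat_lit 399459511) (nat_lit 258) (nat_lit 5) (nat_lit 257) (nat_lit 5) (nat_lit 268) (nat_lit 5) (nat_lit 281) (nat_lit 270) (nat_lit 229)) (XT.lf (nat_lit 0) (nat_lit 1307597175) (nat_lit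 836) (nat_lit 4182679897) (nat_lit 912) (nat_lit 2125689312) (nat_lit 247) (nat_lit 5) (nat_lit 258) (nat_lit 5) (nat_lit 259) (nat_lit 5) (nat_lit 282) (nat_lit 270) (nat_lit 228))))) (XT.nd (nat_lit 234) (nat_lit 2736) (nat_lit 0) (XT.nd (nat_lit 78) (nat_lit 0) (nat_lit 0) (XT.lf (nat_lit 0) (nat_lit 3008155485) (nat_lit 836) (nat_lit 314961730) (nat_lit 912) (nat_lit 4374493274) (nat_lit 247) (nat_lit 5) (nat_lit 258) (nat_lit 5) (nat_lit 259) (nat_lit 5) (nat_lit 283) (nat_lit 270) (nat_lit 227)) (XT.nd (nat_lit 78) (nat_lit 0) (nat_lit 76) (XT.lf (nat_lit 76) (nat_lit 3702812395) (nat_lit 0) (nat_lit 1039661843) (nat_lit 912) (nat_lit 3039832858) (nat_lit 248) (nat_lit 5) (nat_lit 247) (nat_lit 5) (nat_lit 259) (nat_lit 5) (nat_lit 284) (nat_lit 270) (nat_lit 226)) (XT.lf (nat_lit 0) (nat_lit 6493107399) (nat_lit 836) (nat_lit 74141182) (nat_lit 76) (nat_lit 1303450476) (nat_lit 248) (nat_lit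 5) (nat_lit 259) (nat_lit 5) (nat_lit 249) (nat_lit 5) (nat_lit 285) (nat_lit 270) (nat_lit 225)))) (XT.nd (nat_lit 156) (nat_lit 988) (nat_lit 0) (XT.nd (nat_lit 78) (nat_lit 912) (nat_lit 0) (XT.lf (nat_lit 0) (nat_lit 327399571) (nat_lit 912) (nat_lit 3882777268) (nat_lit 76) (nat_lit 3751565394) (nat_lit 236) (nat_lit 5) (nat_lit 248) (nat_lit 5) (nat_lit 237) (nat_lit 5) (nat_lit 286) (nat_lit 270) (nat_lit 224)) (XT.lf (nat_lit 0) (nat_lit 254864067) (nat_lit 912) (nat_lit 1754683700) (nat_lit 988) (nat_lit 6047024846) (nat_lit 224) (nat_lit 5) (nat_lit 236) (nat_lit 5) (nat_lit 237) (nat_lit 5) (nat_lit 287) (nat_lit 270) (nat_lit 223))) (XT.nd (nat_lit 78) (nat_lit 988) (nat_lit 0) (XT.lf (nat_lit 0) (nat_lit 3740853595) (nat_lit 988) (nat_lit 3605065110) (nat_lit 76) (nat_lit 808442150) (nat_lit 224) (nat_lit 5) (nat_lit 237) (nat_lit 5) (nat_lit 225) (nat_lit 5) (nat_lit 288) (nat_lit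 270) (nat_lit 222)) (XT.lf (nat_lit 0) (nat_lit 674045634) (nat_lit 988) (nat_lit 4826965431) (nat_lit 1064) (nat_lit 2754835901) (nat_lit 211) (nat_lit 5) (nat_lit 224) (nat_lit 5) (nat_lit 225) (nat_lit 5) (nat_lit 289) (nat_lit 270) (nat_lit 221)))))) (XT.nd (nat_lit 546) (nat_lit 2204) (nat_lit 0) (XT.nd (nat_lit 234) (nat_lit 1824) (nat_lit 0) (XT.nd (nat_lit 78) (nat_lit 1140) (nat_lit 0) (XT.lf (nat_lit 0) (nat_lit 5116602486) (nat_lit 988) (nat_lit 2187828838) (nat_lit 1064) (nat_lit 1056302108) (nat_lit 211) (nat_lit 5) (nat_lit 224) (nat_lit 5) (nat_lit 225) (nat_lit 5) (nat_lit 290) (nat_lit 270) (nat_lit 220)) (XT.nd (nat_lit 78) (nat_lit 0) (nat_lit 0) (XT.lf (nat_lit 0) (nat_lit 651439624) (nat_lit 1140) (nat_lit 7273183159) (nat_lit 76) (nat_lit 544855975) (nat_lit 196) (nat_lit 5) (nat_lit 211) (nat_lit 5) (nat_lit 197) (nat_lit 5) (nat_lit 291) (nat_lit 270) (nat_lit 219)) (XT.lf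 (nat_lit 0) (nat_lit 2399815413) (nat_lit 1140) (nat_lit 2816237987) (nat_lit 76) (nat_lit 3364863930) (nat_lit 196) (nat_lit 5) (nat_lit 211) (nat_lit 5) (nat_lit 197) (nat_lit 5) (nat_lit 292) (nat_lit 270) (nat_lit 218)))) (XT.nd (nat_lit 156) (nat_lit 684) (nat_lit 0) (XT.nd (nat_lit 78) (nat_lit 0) (nat_lit 0) (XT.lf (nat_lit 0) (nat_lit 1770393047) (nat_lit 1140) (nat_lit 2404439420) (nat_lit 1216) (nat_lit 4521702653) (nat_lit 181) (nat_lit 5) (nat_lit 196) (nat_lit 5) (nat_lit 197) (nat_lit 5) (nat_lit 293) (nat_lit 270) (nat_lit 217)) (XT.lf (nat_lit 0) (nat_lit 5994633210) (nat_lit 1216) (nat_lit 2306967162) (nat_lit 76) (nat_lit 514335038) (nat_lit 181) (nat_lit 5) (nat_lit 197) (nat_lit 5) (nat_lit 182) (nat_lit 5) (nat_lit 294) (nat_lit 270) (nat_lit 216))) (XT.nd (nat_lit 78) (nat_lit 76) (nat_lit 0) (XT.lf (nat_lit 0) (nat_lit 2436120348) (nat_lit 608) (nat_lit 5439440473) (nat_lit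 684) (nat_lit 1063219118) (nat_lit 173) (nat_lit 5) (nat_lit 181) (nat_lit 5) (nat_lit 182) (nat_lit 5) (nat_lit 295) (nat_lit 270) (nat_lit 215)) (XT.lf (nat_lit 0) (nat_lit 716223039) (nat_lit 684) (nat_lit 1742111722) (nat_lit 76) (nat_lit 6607318172) (nat_lit 172) (nat_lit 5) (nat_lit 181) (nat_lit 5) (nat_lit 173) (nat_lit 5) (nat_lit 296) (nat_lit 270) (nat_lit 214))))) (XT.nd (nat_lit 234) (nat_lit 1064) (nat_lit 0) (XT.nd (nat_lit 78) (nat_lit 532) (nat_lit 0) (XT.lf (nat_lit 0) (nat_lit 2525356026) (nat_lit 684) (nat_lit 6027695524) (nat_lit 76) (nat_lit 643087715) (nat_lit 164) (nat_lit 5) (nat_lit 173) (nat_lit 5) (nat_lit 165) (nat_lit 5) (nat_lit 297) (nat_lit 270) (nat_lit 213)) (XT.nd (nat_lit 78) (nat_lit 532) (nat_lit 0) (XT.lf (nat_lit 0) (nat_lit 4392512541) (nat_lit 684) (nat_lit 1131083802) (nat_lit 76) (nat_lit 3806883082) (nat_lit 164) (nat_lit 5) (nat_lit 173) (nat_lit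 5) (nat_lit 165) (nat_lit 5) (nat_lit 298) (nat_lit 270) (nat_lit 212)) (XT.lf (nat_lit 0) (nat_lit 3952084809) (nat_lit 532) (nat_lit 2364349480) (nat_lit 608) (nat_lit 3152443203) (nat_lit 157) (nat_lit 5) (nat_lit 164) (nat_lit 5) (nat_lit 165) (nat_lit 5) (nat_lit 299) (nat_lit 270) (nat_lit 211)))) (XT.nd (nat_lit 156) (nat_lit 456) (nat_lit 0) (XT.nd (nat_lit 78) (nat_lit 608) (nat_lit 0) (XT.lf (nat_lit 0) (nat_lit 8281643758) (nat_lit 608) (nat_lit 447047547) (nat_lit 76) (nat_lit 883277848) (nat_lit 157) (nat_lit 5) (nat_lit 165) (nat_lit 5) (nat_lit 158) (nat_lit 5) (nat_lit 300) (nat_lit 270) (nat_lit 210)) (XT.lf (nat_lit 0) (nat_lit 570258982) (nat_lit 608) (nat_lit 4955881384) (nat_lit 76) (nat_lit 4232067575) (nat_lit 149) (nat_lit 5) (nat_lit 157) (nat_lit 5) (nat_lit 150) (nat_lit 5) (nat_lit 301) (nat_lit 270) (nat_lit 209))) (XT.nd (nat_lit 78) (nat_lit 0) (nat_lit 0) (XT.lf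 (nat_lit 0) (nat_lit 264085406) (nat_lit 456) (nat_lit 2208971520) (nat_lit 532) (nat_lit 7436268411) (nat_lit 143) (nat_lit 5) (nat_lit 149) (nat_lit 5) (nat_lit 150) (nat_lit 5) (nat_lit 302) (nat_lit 270) (nat_lit 208)) (XT.lf (nat_lit 0) (nat_lit 4460566876) (nat_lit 532) (nat_lit 4371522068) (nat_lit 76) (nat_lit 1232101787) (nat_lit 143) (nat_lit 5) (nat_lit 150) (nat_lit 5) (nat_lit 144) (nat_lit 5) (nat_lit 303) (nat_lit 270) (nat_lit 207))))))))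
noncomputable def xc132 : XT := (XT.nd (nat_lit 2028) (nat_lit 2660) (nat_lit 0) (XT.nd (nat_lit 1014) (nat_lit 2356) (nat_lit 0) (XT.nd (nat_lit 468) (nat_lit 1596) (nat_lit 0) (XT.nd (nat_lit 234) (nat_lit 456) (nat_lit 0) (XT.nd (nat_lit 78) (nat_lit 532) (nat_lit 0) (XT.lf (nat_lit 0) (nat_lit 1021395290) (nat_lit 532) (nat_lit 5484480212) (nat_lit 608) (nat_lit 3717923439) (nat_lit 136) (nat_lit 5) (nat_lit 143) (nat_lit 5) (nat_lit 144) (nat_lit 5) (nat_lit 304) (nat_lit 270) (nat_lit 206)) (XT.nd (nat_lit 78) (nat_lit 532) (nat_lit 0) (XT.lf (nat_lit 0) (nat_lit 6629003401) (nat_lit 532) (nat_lit 1994791208) (nat_lit 608) (nat_lit 1764104083) (nat_lit 136) (nat_lit 5) (nat_lit 143) (nat_lit 5) (nat_lit 144) (nat_lit 5) (nat_lit 305) (nat_lit 270) (nat_lit 205)) (XT.lf (nat_lit 0) (nat_lit 244468534) (nat_lit 532) (nat_lit 8727644155) (nat_lit 76) (nat_lit 1584746083) (nat_lit 129) (nat_lit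 5) (nat_lit 136) (nat_lit 5) (nat_lit 130) (nat_lit 5) (nat_lit 306) (nat_lit 270) (nat_lit 204)))) (XT.nd (nat_lit 78) (nat_lit 456) (nat_lit 0) (XT.lf (nat_lit 0) (nat_lit 2304189406) (nat_lit 532) (nat_lit 3142231739) (nat_lit 76) (nat_lit 5283189454) (nat_lit 129) (nat_lit 5) (nat_lit 136) (nat_lit 5) (nat_lit 130) (nat_lit 5) (nat_lit 307) (nat_lit 270) (nat_lit 203)) (XT.nd (nat_lit 78) (nat_lit 0) (nat_lit 0) (XT.lf (nat_lit 0) (nat_lit 2626152138) (nat_lit 456) (nat_lit 1793982416) (nat_lit 532) (nat_lit 6487613723) (nat_lit 123) (nat_lit 5) (nat_lit 129) (nat_lit 5) (nat_lit 130) (nat_lit 5) (nat_lit 308) (nat_lit 270) (nat_lit 202)) (XT.lf (nat_lit 0) (nat_lit 6620215014) (nat_lit 532) (nat_lit 2513887901) (nat_lit 76) (nat_lit 1956542683) (nat_lit 123) (nat_lit 5) (nat_lit 130) (nat_lit 5) (nat_lit 124) (nat_lit 5) (nat_lit 309) (nat_lit 270) (nat_lit 201))))) (XT.nd (nat_lit 234) (nat_lit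 760) (nat_lit 0) (XT.nd (nat_lit 78) (nat_lit 456) (nat_lit 0) (XT.lf (nat_lit 0) (nat_lit 3440915727) (nat_lit 380) (nat_lit 5466797744) (nat_lit 456) (nat_lit 2370708094) (nat_lit 118) (nat_lit 5) (nat_lit 123) (nat_lit 5) (nat_lit 124) (nat_lit 5) (nat_lit 310) (nat_lit 270) (nat_lit 200)) (XT.nd (nat_lit 78) (nat_lit 456) (nat_lit 0) (XT.lf (nat_lit 0) (nat_lit 9590923647) (nat_lit 380) (nat_lit 1669396574) (nat_lit 456) (nat_lit 211649291) (nat_lit 118) (nat_lit 5) (nat_lit 123) (nat_lit 5) (nat_lit 124) (nat_lit 5) (nat_lit 311) (nat_lit 270) (nat_lit 199)) (XT.lf (nat_lit 0) (nat_lit 2007815922) (nat_lit 456) (nat_lit 7408672466) (nat_lit 76) (nat_lit 2253239547) (nat_lit 112) (nat_lit 5) (nat_lit 118) (nat_lit 5) (nat_lit 113) (nat_lit 5) (nat_lit 312) (nat_lit 270) (nat_lit 198)))) (XT.nd (nat_lit 156) (nat_lit 380) (nat_lit 0) (XT.nd (nat_lit 78) (nat_lit 380) (nat_lit 0) (XT.lf (nat_lit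 0) (nat_lit 4297389667) (nat_lit 456) (nat_lit 1300698362) (nat_lit 76) (nat_lit 6275065241) (nat_lit 112) (nat_lit 5) (nat_lit 118) (nat_lit 5) (nat_lit 113) (nat_lit 5) (nat_lit 313) (nat_lit 270) (nat_lit 197)) (XT.lf (nat_lit 0) (nat_lit 5055163037) (nat_lit 380) (nat_lit 1621961387) (nat_lit 456) (nat_lit 5404942225) (nat_lit 107) (nat_lit 5) (nat_lit 112) (nat_lit 5) (nat_lit 113) (nat_lit 5) (nat_lit 314) (nat_lit 270) (nat_lit 196))) (XT.nd (nat_lit 78) (nat_lit 380) (nat_lit 0) (XT.lf (nat_lit 0) (nat_lit 9138571473) (nat_lit 456) (nat_lit 726820343) (nat_lit 76) (nat_lit 2431574644) (nat_lit 107) (nat_lit 5) (nat_lit 113) (nat_lit 5) (nat_lit 108) (nat_lit 5) (nat_lit 315) (nat_lit 270) (nat_lit 195)) (XT.lf (nat_lit 0) (nat_lit 5826480745) (nat_lit 380) (nat_lit 5893505575) (nat_lit 456) (nat_lit 796971018) (nat_lit 102) (nat_lit 5) (nat_lit 107) (nat_lit 5) (nat_lit 108) (nat_lit 5)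 (nat_lit 316) (nat_lit 270) (nat_lit 194)))))) (XT.nd (nat_lit 468) (nat_lit 1216) (nat_lit 0) (XT.nd (nat_lit 234) (nat_lit 380) (nat_lit 0) (XT.nd (nat_lit 78) (nat_lit 684) (nat_lit 0) (XT.lf (nat_lit 0) (nat_lit 1585013450) (nat_lit 456) (nat_lit 201472895) (nat_lit 76) (nat_lit 10957167372) (nat_lit 101) (nat_lit 5) (nat_lit 107) (nat_lit 5) (nat_lit 102) (nat_lit 5) (nat_lit 317) (nat_lit 270) (nat_lit 193)) (XT.nd (nat_lit 78) (nat_lit 380) (nat_lit 0) (XT.lf (nat_lit 0) (nat_lit 4084680681) (nat_lit 380) (nat_lit 6430058667) (nat_lit 76) (nat_lit 2460333112) (nat_lit 97) (nat_lit 5) (nat_lit 102) (nat_lit 5) (nat_lit 98) (nat_lit 5) (nat_lit 318) (nat_lit 270) (nat_lit 192)) (XT.lf (nat_lit 0) (nat_lit 238577540) (nat_lit 380) (nat_lit 6418107606) (nat_lit 456) (nat_lit 6556852908) (nat_lit 92) (nat_lit 5) (nat_lit 97) (nat_lit 5) (nat_lit 98) (nat_lit 5) (nat_lit 319) (nat_lit 270) (nat_lit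 191)))) (XT.nd (nat_lit 78) (nat_lit 380) (nat_lit 0) (XT.lf (nat_lit 0) (nat_lit 7206384291) (nat_lit 380) (nat_lit 2140112466) (nat_lit 456) (nat_lit 4111465432) (nat_lit 92) (nat_lit 5) (nat_lit 97) (nat_lit 5) (nat_lit 98) (nat_lit 5) (nat_lit 320) (nat_lit 270) (nat_lit 190)) (XT.nd (nat_lit 78) (nat_lit 76) (nat_lit 0) (XT.lf (nat_lit 0) (nat_lit 631649520) (nat_lit 304) (nat_lit 11489554114) (nat_lit 380) (nat_lit 1588412672) (nat_lit 88) (nat_lit 5) (nat_lit 92) (nat_lit 5) (nat_lit 93) (nat_lit 5) (nat_lit 321) (nat_lit 270) (nat_lit 189)) (XT.lf (nat_lit 0) (nat_lit 1052032207) (nat_lit 380) (nat_lit 6181498075) (nat_lit 76) (nat_lit 6733177882) (nat_lit 87) (nat_lit 5) (nat_lit 92) (nat_lit 5) (nat_lit 88) (nat_lit 5) (nat_lit 322) (nat_lit 270) (nat_lit 188))))) (XT.nd (nat_lit 234) (nat_lit 608) (nat_lit 0) (XT.nd (nat_lit 78) (nat_lit 304) (nat_lit 0) (XT.lf (nat_lit 0) (nat_lit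 891920406) (nat_lit 304) (nat_lit 2833576248) (nat_lit 380) (nat_lit 10505993676) (nat_lit 83) (nat_lit 5) (nat_lit 87) (nat_lit 5) (nat_lit 88) (nat_lit 5) (nat_lit 323) (nat_lit 270) (nat_lit 187)) (XT.nd (nat_lit 78) (nat_lit 304) (nat_lit 0) (XT.lf (nat_lit 0) (nat_lit 6535967355) (nat_lit 380) (nat_lit 6246953191) (nat_lit 76) (nat_lit 1719612034) (nat_lit 83) (nat_lit 5) (nat_lit 88) (nat_lit 5) (nat_lit 84) (nat_lit 5) (nat_lit 324) (nat_lit 270) (nat_lit 186)) (XT.lf (nat_lit 0) (nat_lit 1019284423) (nat_lit 304) (nat_lit 8427415556) (nat_lit 380) (nat_lit 5334547770) (nat_lit 79) (nat_lit 5) (nat_lit 83) (nat_lit 5) (nat_lit 84) (nat_lit 5) (nat_lit 325) (nat_lit 270) (nat_lit 185)))) (XT.nd (nat_lit 156) (nat_lit 228) (nat_lit 0) (XT.nd (nat_lit 78) (nat_lit 380) (nat_lit 0) (XT.lf (nat_lit 0) (nat_lit 8600877109) (nat_lit 304) (nat_lit 3885397084) (nat_lit 380) (nat_lit 2580824093)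 (nat_lit 79) (nat_lit 5) (nat_lit 83) (nat_lit 5) (nat_lit 84) (nat_lit 5) (nat_lit 326) (nat_lit 270) (nat_lit 184)) (XT.lf (nat_lit 0) (nat_lit 246980402) (nat_lit 380) (nat_lit 14333545021) (nat_lit 76) (nat_lit 781049964) (nat_lit 74) (nat_lit 5) (nat_lit 79) (nat_lit 5) (nat_lit 75) (nat_lit 5) (nat_lit 327) (nat_lit 270) (nat_lit 183))) (XT.nd (nat_lit 78) (nat_lit 228) (nat_lit 0) (XT.lf (nat_lit 0) (nat_lit 3191239783) (nat_lit 380) (nat_lit 6878428745) (nat_lit 76) (nat_lit 5591964752) (nat_lit 74) (nat_lit 5) (nat_lit 79) (nat_lit 5) (nat_lit 75) (nat_lit 5) (nat_lit 328) (nat_lit 270) (nat_lit 182)) (XT.lf (nat_lit 0) (nat_lit 786075330) (nat_lit 228) (nat_lit 5424997981) (nat_lit 304) (nat_lit 9760019537) (nat_lit 71) (nat_lit 5) (nat_lit 74) (nat_lit 5) (nat_lit 75) (nat_lit 5) (nat_lit 329) (nat_lit 270) (nat_lit 181))))))) (XT.nd (nat_lit 1014) (nat_lit 1140) (nat_lit 0) (XT.nd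 (nat_lit 468) (nat_lit 912) (nat_lit 0) (XT.nd (nat_lit 234) (nat_lit 304) (nat_lit 0) (XT.nd (nat_lit 78) (nat_lit 304) (nat_lit 0) (XT.lf (nat_lit 0) (nat_lit 8792200969) (nat_lit 228) (nat_lit 578759406) (nat_lit 304) (nat_lit 6917408893) (nat_lit 71) (nat_lit 5) (nat_lit 74) (nat_lit 5) (nat_lit 75) (nat_lit 5) (nat_lit 330) (nat_lit 270) (nat_lit 180)) (XT.nd (nat_lit 78) (nat_lit 0) (nat_lit 0) (XT.lf (nat_lit 0) (nat_lit 358959097) (nat_lit 304) (nat_lit 12293050143) (nat_lit 380) (nat_lit 3962380115) (nat_lit 67) (nat_lit 5) (nat_lit 71) (nat_lit 5) (nat_lit 72) (nat_lit 5) (nat_lit 331) (nat_lit 270) (nat_lit 179)) (XT.lf (nat_lit 0) (nat_lit 8568871417) (nat_lit 304) (nat_lit 7524776675) (nat_lit 380) (nat_lit 854693056) (nat_lit 67) (nat_lit 5) (nat_lit 71) (nat_lit 5) (nat_lit 72) (nat_lit 5) (nat_lit 332) (nat_lit 270) (nat_lit 178)))) (XT.nd (nat_lit 78) (nat_lit 228) (nat_lit 0)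 (XT.lf (nat_lit 0) (nat_lit 2281588932) (nat_lit 380) (nat_lit 318026954) (nat_lit 76) (nat_lit 14692599525) (nat_lit 66) (nat_lit 5) (nat_lit 71) (nat_lit 5) (nat_lit 67) (nat_lit 5) (nat_lit 333) (nat_lit 270) (nat_lit 177)) (XT.nd (nat_lit 78) (nat_lit 0) (nat_lit 0) (XT.lf (nat_lit 0) (nat_lit 5578955315) (nat_lit 304) (nat_lit 9561335868) (nat_lit 76) (nat_lit 2503350128) (nat_lit 63) (nat_lit 5) (nat_lit 67) (nat_lit 5) (nat_lit 64) (nat_lit 5) (nat_lit 334) (nat_lit 270) (nat_lit 176)) (XT.lf (nat_lit 0) (nat_lit 8986105848) (nat_lit 304) (nat_lit 1317736281) (nat_lit 76) (nat_lit 7701456051) (nat_lit 63) (nat_lit 5) (nat_lit 67) (nat_lit 5) (nat_lit 64) (nat_lit 5) (nat_lit 335) (nat_lit 270) (nat_lit 175))))) (XT.nd (nat_lit 234) (nat_lit 380) (nat_lit 0) (XT.nd (nat_lit 78) (nat_lit 304) (nat_lit 0) (XT.lf (nat_lit 0) (nat_lit 7288583119) (nat_lit 228) (nat_lit 5259358974) (nat_lit 304)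 (nat_lit 5828302205) (nat_lit 60) (nat_lit 5) (nat_lit 63) (nat_lit 5) (nat_lit 64) (nat_lit 5) (nat_lit 336) (nat_lit 270) (nat_lit 174)) (XT.nd (nat_lit 78) (nat_lit 304) (nat_lit 0) (XT.lf (nat_lit 0) (nat_lit 16153552611) (nat_lit 228) (nat_lit 59053375) (nat_lit 304) (nat_lit 2545846916) (nat_lit 60) (nat_lit 5) (nat_lit 63) (nat_lit 5) (nat_lit 64) (nat_lit 5) (nat_lit 337) (nat_lit 270) (nat_lit 173)) (XT.lf (nat_lit 0) (nat_lit 913068591) (nat_lit 304) (nat_lit 12982567872) (nat_lit 76) (nat_lit 5253434538) (nat_lit 56) (nat_lit 5) (nat_lit 60) (nat_lit 5) (nat_lit 57) (nat_lit 5) (nat_lit 338) (nat_lit 270) (nat_lit 172)))) (XT.nd (nat_lit 156) (nat_lit 152) (nat_lit 0) (XT.nd (nat_lit 78) (nat_lit 228) (nat_lit 0) (XT.lf (nat_lit 0) (nat_lit 4434882783) (nat_lit 304) (nat_lit 4348524191) (nat_lit 76) (nat_lit 10766947623) (nat_lit 56) (nat_lit 5) (nat_lit 60) (nat_lit 5) (nat_lit 57)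 (nat_lit 5) (nat_lit 339) (nat_lit 270) (nat_lit 171)) (XT.lf (nat_lit 0) (nat_lit 4608943219) (nat_lit 228) (nat_lit 3481353627) (nat_lit 304) (nat_lit 11872553289) (nat_lit 53) (nat_lit 5) (nat_lit 56) (nat_lit 5) (nat_lit 57) (nat_lit 5) (nat_lit 340) (nat_lit 270) (nat_lit 170))) (XT.nd (nat_lit 78) (nat_lit 152) (nat_lit 0) (XT.lf (nat_lit 0) (nat_lit 11902537180) (nat_lit 304) (nat_lit 6507284991) (nat_lit 76) (nat_lit 1976494908) (nat_lit 53) (nat_lit 5) (nat_lit 57) (nat_lit 5) (nat_lit 54) (nat_lit 5) (nat_lit 341) (nat_lit 270) (nat_lit 169)) (XT.lf (nat_lit 0) (nat_lit 2595980480) (nat_lit 152) (nat_lit 13276846306) (nat_lit 228) (nat_lit 4948361904) (nat_lit 51) (nat_lit 5) (nat_lit 53) (nat_lit 5) (nat_lit 54) (nat_lit 5) (nat_lit 342) (nat_lit 270) (nat_lit 168)))))) (XT.nd (nat_lit 546) (nat_lit 456) (nat_lit 0) (XT.nd (nat_lit 234) (nat_lit 380) (nat_lit 0) (XT.nd (nat_lit 78)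 (nat_lit 304) (nat_lit 0) (XT.lf (nat_lit 0) (nat_lit 12081038227) (nat_lit 152) (nat_lit 7931377791) (nat_lit 228) (nat_lit 1255195501) (nat_lit 51) (nat_lit 5) (nat_lit 53) (nat_lit 5) (nat_lit 54) (nat_lit 5) (nat_lit 343) (nat_lit 270) (nat_lit 167)) (XT.nd (nat_lit 78) (nat_lit 0) (nat_lit 0) (XT.lf (nat_lit 0) (nat_lit 75909130) (nat_lit 228) (nat_lit 2408623533) (nat_lit 304) (nat_lit 19242604468) (nat_lit 47) (nat_lit 5) (nat_lit 50) (nat_lit 5) (nat_lit 51) (nat_lit 5) (nat_lit 344) (nat_lit 270) (nat_lit 166)) (XT.lf (nat_lit 0) (nat_lit 6421335003) (nat_lit 304) (nat_lit 12462385258) (nat_lit 76) (nat_lit 3313061985) (nat_lit 47) (nat_lit 5) (nat_lit 51) (nat_lit 5) (nat_lit 48) (nat_lit 5) (nat_lit 345) (nat_lit 270) (nat_lit 165)))) (XT.nd (nat_lit 156) (nat_lit 228) (nat_lit 0) (XT.nd (nat_lit 78) (nat_lit 152) (nat_lit 0) (XT.lf (nat_lit 0) (nat_lit 10485427118) (nat_lit 304) (nat_lit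 3045441285) (nat_lit 76) (nat_lit 9149382334) (nat_lit 47) (nat_lit 5) (nat_lit 51) (nat_lit 5) (nat_lit 48) (nat_lit 5) (nat_lit 346) (nat_lit 270) (nat_lit 164)) (XT.lf (nat_lit 0) (nat_lit 6762955092) (nat_lit 152) (nat_lit 7959261563) (nat_lit 228) (nat_lit 8454492701) (nat_lit 45) (nat_lit 5) (nat_lit 47) (nat_lit 5) (nat_lit 48) (nat_lit 5) (nat_lit 347) (nat_lit 270) (nat_lit 163))) (XT.nd (nat_lit 78) (nat_lit 228) (nat_lit 0) (XT.lf (nat_lit 0) (nat_lit 16905232134) (nat_lit 152) (nat_lit 2197591175) (nat_lit 228) (nat_lit 4584746065) (nat_lit 45) (nat_lit 5) (nat_lit 47) (nat_lit 5) (nat_lit 48) (nat_lit 5) (nat_lit 348) (nat_lit 270) (nat_lit 162)) (XT.lf (nat_lit 0) (nat_lit 3140919641) (nat_lit 228) (nat_lit 20526330220) (nat_lit 304) (nat_lit 544942059) (nat_lit 42) (nat_lit 5) (nat_lit 45) (nat_lit 5) (nat_lit 46) (nat_lit 5) (nat_lit 349) (nat_lit 270) (nat_lit 161))))) (XT.nd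 (nat_lit 234) (nat_lit 228) (nat_lit 0) (XT.nd (nat_lit 78) (nat_lit 152) (nat_lit 0) (XT.lf (nat_lit 0) (nat_lit 3622749342) (nat_lit 304) (nat_lit 11329320841) (nat_lit 76) (nat_lit 9797130775) (nat_lit 41) (nat_lit 5) (nat_lit 45) (nat_lit 5) (nat_lit 42) (nat_lit 5) (nat_lit 350) (nat_lit 270) (nat_lit 160)) (XT.nd (nat_lit 78) (nat_lit 152) (nat_lit 0) (XT.lf (nat_lit 0) (nat_lit 7891247639) (nat_lit 304) (nat_lit 1322381730) (nat_lit 76) (nat_lit 16088935201) (nat_lit 41) (nat_lit 5) (nat_lit 45) (nat_lit 5) (nat_lit 42) (nat_lit 5) (nat_lit 351) (nat_lit 270) (nat_lit 159)) (XT.lf (nat_lit 0) (nat_lit 9141919065) (nat_lit 152) (nat_lit 3220875022) (nat_lit 228) (nat_lit 13507493007) (nat_lit 39) (nat_lit 5) (nat_lit 41) (nat_lit 5) (nat_lit 42) (nat_lit 5) (nat_lit 352) (nat_lit 270) (nat_lit 158)))) (XT.nd (nat_lit 156) (nat_lit 76) (nat_lit 0) (XT.nd (nat_lit 78) (nat_lit 152) (nat_lit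 0) (XT.lf (nat_lit 0) (nat_lit 16997554428) (nat_lit 228) (nat_lit 6557228659) (nat_lit 76) (nat_lit 2899393755) (nat_lit 39) (nat_lit 5) (nat_lit 42) (nat_lit 5) (nat_lit 40) (nat_lit 5) (nat_lit 353) (nat_lit 270) (nat_lit 157)) (XT.lf (nat_lit 0) (nat_lit 3943387263) (nat_lit 152) (nat_lit 17885347626) (nat_lit 228) (nat_lit 5225134428) (nat_lit 37) (nat_lit 5) (nat_lit 39) (nat_lit 5) (nat_lit 40) (nat_lit 5) (nat_lit 354) (nat_lit 270) (nat_lit 156))) (XT.nd (nat_lit 78) (nat_lit 76) (nat_lit 0) (XT.lf (nat_lit 0) (nat_lit 14872924069) (nat_lit 152) (nat_lit 11985887569) (nat_lit 228) (nat_lit 811129238) (nat_lit 37) (nat_lit 5) (nat_lit 39) (nat_lit 5) (nat_lit 40) (nat_lit 5) (nat_lit 355) (nat_lit 270) (nat_lit 155)) (XT.lf (nat_lit 0) (nat_lit 3650385079) (nat_lit 228) (nat_lit 2230216391) (nat_lit 76) (nat_lit 22423183321) (nat_lit 36) (nat_lit 5) (nat_lit 39) (nat_lit 5) (nat_lit 37)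 (nat_lit 5) (nat_lit 356) (nat_lit 270) (nat_lit 154))))))))
noncomputable def xc133 : XT := (XT.nd (nat_lit 2028) (nat_lit 608) (nat_lit 0) (XT.nd (nat_lit 1014) (nat_lit 532) (nat_lit 0) (XT.nd (nat_lit 468) (nat_lit 304) (nat_lit 0) (XT.nd (nat_lit 234) (nat_lit 228) (nat_lit 0) (XT.nd (nat_lit 78) (nat_lit 152) (nat_lit 0) (XT.lf (nat_lit 0) (nat_lit 8307099873) (nat_lit 228) (nat_lit 20161328587) (nat_lit 76) (nat_lit 485651429) (nat_lit 34) (nat_lit 5) (nat_lit 37) (nat_lit 5) (nat_lit 35) (nat_lit 5) (nat_lit 357) (nat_lit 270) (nat_lit 153)) (XT.nd (nat_lit 78) (nat_lit 152) (nat_lit 0) (XT.lf (nat_lit 0) (nat_lit 13172889906) (nat_lit 228) (nat_lit 9509189624) (nat_lit 76) (nat_lit 6939729438) (nat_lit 34) (nat_lit 5) (nat_lit 37) (nat_lit 5) (nat_lit 35) (nat_lit 5) (nat_lit 358) (nat_lit 270) (nat_lit 152)) (XT.lf (nat_lit 0) (nat_lit 1472153206) (nat_lit 152) (nat_lit 16715395580)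 (nat_lit 228) (nat_lit 12121940437) (nat_lit 32) (nat_lit 5) (nat_lit 34) (nat_lit 5) (nat_lit 35) (nat_lit 5) (nat_lit 359) (nat_lit 270) (nat_lit 151)))) (XT.nd (nat_lit 78) (nat_lit 228) (nat_lit 0) (XT.lf (nat_lit 0) (nat_lit 12958965204) (nat_lit 152) (nat_lit 10478596474) (nat_lit 228) (nat_lit 7577696756) (nat_lit 32) (nat_lit 5) (nat_lit 34) (nat_lit 5) (nat_lit 35) (nat_lit 5) (nat_lit 360) (nat_lit 270) (nat_lit 150)) (XT.nd (nat_lit 78) (nat_lit 228) (nat_lit 0) (XT.lf (nat_lit 0) (nat_lit 24772031872) (nat_lit 152) (nat_lit 4062256752) (nat_lit 228) (nat_lit 2908241493) (nat_lit 32) (nat_lit 5) (nat_lit 34) (nat_lit 5) (nat_lit 35) (nat_lit 5) (nat_lit 361) (nat_lit 270) (nat_lit 149)) (XT.lf (nat_lit 0) (nat_lit 1921882288) (nat_lit 228) (nat_lit 28015752228) (nat_lit 76) (nat_lit 2551712032) (nat_lit 29) (nat_lit 5) (nat_lit 32) (nat_lit 5) (nat_lit 30) (nat_lit 5) (nat_lit 362)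 (nat_lit 270) (nat_lit 148))))) (XT.nd (nat_lit 234) (nat_lit 152) (nat_lit 0) (XT.nd (nat_lit 78) (nat_lit 152) (nat_lit 0) (XT.lf (nat_lit 0) (nat_lit 6939246615) (nat_lit 228) (nat_lit 16940371471) (nat_lit 76) (nat_lit 9375067175) (nat_lit 29) (nat_lit 5) (nat_lit 32) (nat_lit 5) (nat_lit 30) (nat_lit 5) (nat_lit 363) (nat_lit 270) (nat_lit 147)) (XT.nd (nat_lit 78) (nat_lit 152) (nat_lit 0) (XT.lf (nat_lit 0) (nat_lit 12096922126) (nat_lit 228) (nat_lit 5550303997) (nat_lit 76) (nat_lit 16396069462) (nat_lit 29) (nat_lit 5) (nat_lit 32) (nat_lit 5) (nat_lit 30) (nat_lit 5) (nat_lit 364) (nat_lit 270) (nat_lit 146)) (XT.lf (nat_lit 0) (nat_lit 6287086379) (nat_lit 152) (nat_lit 11172764468) (nat_lit 228) (nat_lit 17394202690) (nat_lit 27) (nat_lit 5) (nat_lit 29) (nat_lit 5) (nat_lit 30) (nat_lit 5) (nat_lit 365) (nat_lit 270) (nat_lit 145)))) (XT.nd (nat_lit 156) (nat_lit 152) (nat_lit 0)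 (XT.nd (nat_lit 78) (nat_lit 0) (nat_lit 0) (XT.lf (nat_lit 0) (nat_lit 18576478720) (nat_lit 152) (nat_lit 4453449824) (nat_lit 228) (nat_lit 12657822711) (nat_lit 27) (nat_lit 5) (nat_lit 29) (nat_lit 5) (nat_lit 30) (nat_lit 5) (nat_lit 366) (nat_lit 270) (nat_lit 144)) (XT.lf (nat_lit 0) (nat_lit 28781259762) (nat_lit 228) (nat_lit 5352252492) (nat_lit 76) (nat_lit 2412527833) (nat_lit 27) (nat_lit 5) (nat_lit 30) (nat_lit 5) (nat_lit 28) (nat_lit 4) (nat_lit 367) (nat_lit 270) (nat_lit 143))) (XT.nd (nat_lit 78) (nat_lit 76) (nat_lit 0) (XT.lf (nat_lit 0) (nat_lit 6832631275) (nat_lit 76) (nat_lit 27972983904) (nat_lit 152) (nat_lit 2621452460) (nat_lit 26) (nat_lit 5) (nat_lit 27) (nat_lit 5) (nat_lit 28) (nat_lit 4) (nat_lit 368) (nat_lit 270) (nat_lit 142)) (XT.lf (nat_lit 0) (nat_lit 2669268791) (nat_lit 152) (nat_lit 18882560318) (nat_lit 76) (nat_lit 16780570014) (nat_lit 25) (nat_lit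 5) (nat_lit 27) (nat_lit 5) (nat_lit 26) (nat_lit 5) (nat_lit 369) (nat_lit 270) (nat_lit 141)))))) (XT.nd (nat_lit 468) (nat_lit 304) (nat_lit 0) (XT.nd (nat_lit 234) (nat_lit 76) (nat_lit 0) (XT.nd (nat_lit 78) (nat_lit 152) (nat_lit 0) (XT.lf (nat_lit 0) (nat_lit 8057025986) (nat_lit 152) (nat_lit 6860984956) (nat_lit 76) (nat_lit 24346375068) (nat_lit 25) (nat_lit 5) (nat_lit 27) (nat_lit 5) (nat_lit 26) (nat_lit 5) (nat_lit 370) (nat_lit 270) (nat_lit 140)) (XT.nd (nat_lit 78) (nat_lit 0) (nat_lit 0) (XT.lf (nat_lit 0) (nat_lit 5615573074) (nat_lit 152) (nat_lit 8036088102) (nat_lit 228) (nat_lit 26571318039) (nat_lit 23) (nat_lit 5) (nat_lit 25) (nat_lit 5) (nat_lit 26) (nat_lit 5) (nat_lit 371) (nat_lit 270) (nat_lit 139)) (XT.lf (nat_lit 0) (nat_lit 18591976118) (nat_lit 152) (nat_lit 882816069) (nat_lit 228) (nat_lit 21733722279) (nat_lit 23) (nat_lit 5) (nat_lit 25) (nat_lit 5) (nat_lit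 26) (nat_lit 5) (nat_lit 372) (nat_lit 270) (nat_lit 138)))) (XT.nd (nat_lit 78) (nat_lit 76) (nat_lit 0) (XT.lf (nat_lit 0) (nat_lit 25526520564) (nat_lit 228) (nat_lit 10343133050) (nat_lit 76) (nat_lit 6352348894) (nat_lit 23) (nat_lit 5) (nat_lit 26) (nat_lit 5) (nat_lit 24) (nat_lit 4) (nat_lit 373) (nat_lit 270) (nat_lit 137)) (XT.nd (nat_lit 78) (nat_lit 0) (nat_lit 0) (XT.lf (nat_lit 0) (nat_lit 2320599211) (nat_lit 76) (nat_lit 29462060156) (nat_lit 152) (nat_lit 11482553791) (nat_lit 22) (nat_lit 5) (nat_lit 23) (nat_lit 5) (nat_lit 24) (nat_lit 4) (nat_lit 374) (nat_lit 270) (nat_lit 136)) (XT.lf (nat_lit 0) (nat_lit 15561991187) (nat_lit 76) (nat_lit 22760848603) (nat_lit 152) (nat_lit 6013993233) (nat_lit 22) (nat_lit 5) (nat_lit 23) (nat_lit 5) (nat_lit 24) (nat_lit 4) (nat_lit 375) (nat_lit 270) (nat_lit 135))))) (XT.nd (nat_lit 234) (nat_lit 76) (nat_lit 0) (XT.nd (nat_lit 78)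 (nat_lit 228) (nat_lit 0) (XT.lf (nat_lit 0) (nat_lit 29186764397) (nat_lit 76) (nat_lit 15864608890) (nat_lit 152) (nat_lit 389467278) (nat_lit 22) (nat_lit 5) (nat_lit 23) (nat_lit 5) (nat_lit 24) (nat_lit 4) (nat_lit 376) (nat_lit 270) (nat_lit 134)) (XT.nd (nat_lit 78) (nat_lit 152) (nat_lit 0) (XT.lf (nat_lit 0) (nat_lit 5290644507) (nat_lit 152) (nat_lit 3423245534) (nat_lit 76) (nat_lit 37862754339) (nat_lit 21) (nat_lit 5) (nat_lit 23) (nat_lit 5) (nat_lit 22) (nat_lit 5) (nat_lit 377) (nat_lit 270) (nat_lit 133)) (XT.lf (nat_lit 0) (nat_lit 9969987354) (nat_lit 152) (nat_lit 1251703892) (nat_lit 228) (nat_lit 36522067808) (nat_lit 19) (nat_lit 5) (nat_lit 21) (nat_lit 5) (nat_lit 22) (nat_lit 5) (nat_lit 378) (nat_lit 270) (nat_lit 132)))) (XT.nd (nat_lit 156) (nat_lit 76) (nat_lit 0) (XT.nd (nat_lit 78) (nat_lit 0) (nat_lit 0) (XT.lf (nat_lit 0) (nat_lit 17419989693) (nat_lit 228) (nat_lit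 25185110104) (nat_lit 76) (nat_lit 6338110882) (nat_lit 19) (nat_lit 5) (nat_lit 22) (nat_lit 5) (nat_lit 20) (nat_lit 4) (nat_lit 379) (nat_lit 270) (nat_lit 131)) (XT.lf (nat_lit 0) (nat_lit 23809406017) (nat_lit 228) (nat_lit 12244052874) (nat_lit 76) (nat_lit 14125034923) (nat_lit 19) (nat_lit 5) (nat_lit 22) (nat_lit 5) (nat_lit 20) (nat_lit 4) (nat_lit 380) (nat_lit 270) (nat_lit 130))) (XT.nd (nat_lit 78) (nat_lit 0) (nat_lit 0) (XT.lf (nat_lit 0) (nat_lit 1094089480) (nat_lit 76) (nat_lit 29299918638) (nat_lit 152) (nat_lit 21056725168) (nat_lit 18) (nat_lit 5) (nat_lit 19) (nat_lit 5) (nat_lit 20) (nat_lit 4) (nat_lit 381) (nat_lit 270) (nat_lit 129)) (XT.lf (nat_lit 0) (nat_lit 15070993478) (nat_lit 76) (nat_lit 22221867300) (nat_lit 152) (nat_lit 15464780643) (nat_lit 18) (nat_lit 5) (nat_lit 19) (nat_lit 5) (nat_lit 20) (nat_lit 4) (nat_lit 382) (nat_lit 270) (nat_lit 128))))))) (XT.nd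 (nat_lit 1014) (nat_lit 152) (nat_lit 0) (XT.nd (nat_lit 468) (nat_lit 228) (nat_lit 0) (XT.nd (nat_lit 234) (nat_lit 0) (nat_lit 0) (XT.nd (nat_lit 78) (nat_lit 228) (nat_lit 0) (XT.lf (nat_lit 0) (nat_lit 29455191289) (nat_lit 76) (nat_lit 14936761100) (nat_lit 152) (nat_lit 9712008984) (nat_lit 18) (nat_lit 5) (nat_lit 19) (nat_lit 5) (nat_lit 20) (nat_lit 4) (nat_lit 383) (nat_lit 270) (nat_lit 127)) (XT.nd (nat_lit 78) (nat_lit 228) (nat_lit 0) (XT.lf (nat_lit 0) (nat_lit 44259251627) (nat_lit 76) (nat_lit 7438234411) (nat_lit 152) (nat_lit 3793383497) (nat_lit 18) (nat_lit 5) (nat_lit 19) (nat_lit 5) (nat_lit 20) (nat_lit 4) (nat_lit 384) (nat_lit 270) (nat_lit 126)) (XT.lf (nat_lit 0) (nat_lit 2279663282) (nat_lit 228) (nat_lit 54316026917) (nat_lit 76) (nat_lit 322379248) (nat_lit 15) (nat_lit 5) (nat_lit 18) (nat_lit 5) (nat_lit 16) (nat_lit 4) (nat_lit 385) (nat_lit 270) (nat_lit 125))))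 (XT.nd (nat_lit 78) (nat_lit 0) (nat_lit 0) (XT.lf (nat_lit 0) (nat_lit 8640467894) (nat_lit 228) (nat_lit 41427545530) (nat_lit 76) (nat_lit 8313493358) (nat_lit 15) (nat_lit 5) (nat_lit 18) (nat_lit 5) (nat_lit 16) (nat_lit 4) (nat_lit 386) (nat_lit 270) (nat_lit 124)) (XT.nd (nat_lit 78) (nat_lit 0) (nat_lit 0) (XT.lf (nat_lit 0) (nat_lit 15185905900) (nat_lit 228) (nat_lit 28163560722) (nat_lit 76) (nat_lit 16539568728) (nat_lit 15) (nat_lit 5) (nat_lit 18) (nat_lit 5) (nat_lit 16) (nat_lit 4) (nat_lit 387) (nat_lit 270) (nat_lit 123)) (XT.lf (nat_lit 0) (nat_lit 21921696616) (nat_lit 228) (nat_lit 14512482602) (nat_lit 76) (nat_lit 25007793191) (nat_lit 15) (nat_lit 5) (nat_lit 18) (nat_lit 5) (nat_lit 16) (nat_lit 4) (nat_lit 388) (nat_lit 270) (nat_lit 122))))) (XT.nd (nat_lit 234) (nat_lit 152) (nat_lit 0) (XT.nd (nat_lit 78) (nat_lit 76) (nat_lit 0) (XT.lf (nat_lit 0) (nat_lit 28853725683)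 (nat_lit 228) (nat_lit 462383045) (nat_lit 76) (nat_lit 33725566167) (nat_lit 15) (nat_lit 5) (nat_lit 18) (nat_lit 5) (nat_lit 16) (nat_lit 4) (nat_lit 389) (nat_lit 270) (nat_lit 121)) (XT.nd (nat_lit 78) (nat_lit 0) (nat_lit 0) (XT.lf (nat_lit 0) (nat_lit 14277622577) (nat_lit 76) (nat_lit 21847672880) (nat_lit 152) (nat_lit 28560127792) (nat_lit 14) (nat_lit 5) (nat_lit 15) (nat_lit 5) (nat_lit 16) (nat_lit 4) (nat_lit 390) (nat_lit 270) (nat_lit 120)) (XT.lf (nat_lit 0) (nat_lit 29459202051) (nat_lit 76) (nat_lit 14154881907) (nat_lit 152) (nat_lit 22764430071) (nat_lit 14) (nat_lit 5) (nat_lit 15) (nat_lit 5) (nat_lit 16) (nat_lit 4) (nat_lit 391) (nat_lit 270) (nat_lit 119)))) (XT.nd (nat_lit 156) (nat_lit 152) (nat_lit 0) (XT.nd (nat_lit 78) (nat_lit 0) (nat_lit 0) (XT.lf (nat_lit 0) (nat_lit 45086418506) (nat_lit 76) (nat_lit 6235683116) (nat_lit 152) (nat_lit 16800461009) (nat_lit 14)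 (nat_lit 5) (nat_lit 15) (nat_lit 5) (nat_lit 16) (nat_lit 4) (nat_lit 392) (nat_lit 270) (nat_lit 118)) (XT.lf (nat_lit 0) (nat_lit 59274509477) (nat_lit 152) (nat_lit 8764592059) (nat_lit 0) (nat_lit 1879438666) (nat_lit 14) (nat_lit 5) (nat_lit 16) (nat_lit 4) (nat_lit 14) (nat_lit 4) (nat_lit 393) (nat_lit 270) (nat_lit 117))) (XT.nd (nat_lit 78) (nat_lit 76) (nat_lit 0) (XT.lf (nat_lit 0) (nat_lit 5980709090) (nat_lit 76) (nat_lit 61598847968) (nat_lit 76) (nat_lit 4185419963) (nat_lit 13) (nat_lit 4) (nat_lit 14) (nat_lit 5) (nat_lit 14) (nat_lit 4) (nat_lit 394) (nat_lit 270) (nat_lit 116)) (XT.lf (nat_lit 0) (nat_lit 2503038239) (nat_lit 152) (nat_lit 52350082898) (nat_lit 76) (nat_lit 18810449380) (nat_lit 12) (nat_lit 5) (nat_lit 14) (nat_lit 5) (nat_lit 13) (nat_lit 4) (nat_lit 395) (nat_lit 270) (nat_lit 115)))))) (XT.nd (nat_lit 546) (nat_lit 76) (nat_lit 0) (XT.nd (nat_lit 234) (nat_lit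 76) (nat_lit 0) (XT.nd (nat_lit 78) (nat_lit 0) (nat_lit 0) (XT.lf (nat_lit 0) (nat_lit 9303024182) (nat_lit 152) (nat_lit 38563414849) (nat_lit 76) (nat_lit 27751591467) (nat_lit 12) (nat_lit 5) (nat_lit 14) (nat_lit 5) (nat_lit 13) (nat_lit 4) (nat_lit 396) (nat_lit 270) (nat_lit 114)) (XT.nd (nat_lit 78) (nat_lit 0) (nat_lit 0) (XT.lf (nat_lit 0) (nat_lit 16302152221) (nat_lit 152) (nat_lit 24371984363) (nat_lit 76) (nat_lit 36957135148) (nat_lit 12) (nat_lit 5) (nat_lit 14) (nat_lit 5) (nat_lit 13) (nat_lit 4) (nat_lit 397) (nat_lit 270) (nat_lit 113)) (XT.lf (nat_lit 0) (nat_lit 23506538099) (nat_lit 152) (nat_lit 9763391161) (nat_lit 76) (nat_lit 46435124099) (nat_lit 12) (nat_lit 5) (nat_lit 14) (nat_lit 5) (nat_lit 13) (nat_lit 4) (nat_lit 398) (nat_lit 270) (nat_lit 112)))) (XT.nd (nat_lit 156) (nat_lit 0) (nat_lit 0) (XT.nd (nat_lit 78) (nat_lit 0) (nat_lit 0) (XT.lf (nat_lit 0) (nat_lit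 5380114966) (nat_lit 76) (nat_lit 25594078898) (nat_lit 152) (nat_lit 50865442050) (nat_lit 11) (nat_lit 5) (nat_lit 12) (nat_lit 5) (nat_lit 13) (nat_lit 4) (nat_lit 399) (nat_lit 270) (nat_lit 111)) (XT.lf (nat_lit 0) (nat_lit 21169817605) (nat_lit 76) (nat_lit 17590128230) (nat_lit 152) (nat_lit 45275489697) (nat_lit 11) (nat_lit 5) (nat_lit 12) (nat_lit 5) (nat_lit 13) (nat_lit 4) (nat_lit 400) (nat_lit 270) (nat_lit 110))) (XT.nd (nat_lit 78) (nat_lit 0) (nat_lit 0) (XT.lf (nat_lit 0) (nat_lit 37425202953) (nat_lit 76) (nat_lit 9349674619) (nat_lit 152) (nat_lit 39522364883) (nat_lit 11) (nat_lit 5) (nat_lit 12) (nat_lit 5) (nat_lit 13) (nat_lit 4) (nat_lit 401) (nat_lit 270) (nat_lit 109)) (XT.lf (nat_lit 0) (nat_lit 54160474745) (nat_lit 76) (nat_lit 865517669) (nat_lit 152) (nat_lit 33601040608) (nat_lit 11) (nat_lit 5) (nat_lit 12) (nat_lit 5) (nat_lit 13) (nat_lit 4) (nat_lit 402) (nat_lit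 270) (nat_lit 108))))) (XT.nd (nat_lit 234) (nat_lit 0) (nat_lit 0) (XT.nd (nat_lit 78) (nat_lit 76) (nat_lit 0) (XT.lf (nat_lit 0) (nat_lit 63596148984) (nat_lit 152) (nat_lit 19712235847) (nat_lit 0) (nat_lit 7716188674) (nat_lit 11) (nat_lit 5) (nat_lit 13) (nat_lit 4) (nat_lit 11) (nat_lit 4) (nat_lit 403) (nat_lit 270) (nat_lit 107)) (XT.nd (nat_lit 78) (nat_lit 76) (nat_lit 0) (XT.lf (nat_lit 0) (nat_lit 72427927899) (nat_lit 152) (nat_lit 4531272217) (nat_lit 0) (nat_lit 16534705962) (nat_lit 11) (nat_lit 5) (nat_lit 13) (nat_lit 4) (nat_lit 11) (nat_lit 4) (nat_lit 404) (nat_lit 270) (nat_lit 106)) (XT.lf (nat_lit 0) (nat_lit 11318787733) (nat_lit 76) (nat_lit 70310741741) (nat_lit 76) (nat_lit 14404644437) (nat_lit 10) (nat_lit 4) (nat_lit 11) (nat_lit 5) (nat_lit 11) (nat_lit 4) (nat_lit 405) (nat_lit 270) (nat_lit 105)))) (XT.nd (nat_lit 30108) (nat_lit 0) (nat_lit 19380) (XT.nd (nat_lit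 78) (nat_lit 0) (nat_lit 0) (XT.lf (nat_lit 0) (nat_lit 27730103833) (nat_lit 76) (nat_lit 63418944429) (nat_lit 76) (nat_lit 7500346769) (nat_lit 10) (nat_lit 4) (nat_lit 11) (nat_lit 5) (nat_lit 11) (nat_lit 4) (nat_lit 406) (nat_lit 270) (nat_lit 104)) (XT.lf (nat_lit 0) (nat_lit 44626834863) (nat_lit 76) (nat_lit 56323543185) (nat_lit 76) (nat_lit 392809256) (nat_lit 10) (nat_lit 4) (nat_lit 11) (nat_lit 5) (nat_lit 11) (nat_lit 4) (nat_lit 407) (nat_lit 270) (nat_lit 103))) (XT.nd (nat_lit 78) (nat_lit 684) (nat_lit 0) (XT.lf (nat_lit 0) (nat_lit 2678424457) (nat_lit 684) (nat_lit 403255530) (nat_lit 684) (nat_lit 403255530) (nat_lit 274) (nat_lit 3) (nat_lit 283) (nat_lit 3) (nat_lit 283) (nat_lit 5) (nat_lit 271) (nat_lit 271) (nat_lit 238)) (XT.lf (nat_lit 0) (nat_lit 154587489) (nat_lit 684) (nat_lit 4597880376) (nat_lit 760) (nat_lit 2266504466) (nat_lit 265) (nat_lit 5) (nat_lit 274)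 (nat_lit 3) (nat_lit 275) (nat_lit 5) (nat_lit 272) (nat_lit 271) (nat_lit 237))))))))
noncomputable def xc134 : XT := (XT.nd (nat_lit 2028) (nat_lit 6156) (nat_lit 0) (XT.nd (nat_lit 1014) (nat_lit 6232) (nat_lit 0) (XT.nd (nat_lit 468) (nat_lit 760) (nat_lit 0) (XT.nd (nat_lit 234) (nat_lit 684) (nat_lit 0) (XT.nd (nat_lit 78) (nat_lit 0) (nat_lit 0) (XT.lf (nat_lit 0) (nat_lit 1882923482) (nat_lit 684) (nat_lit 1360019369) (nat_lit 760) (nat_lit 3828043042) (nat_lit 265) (nat_lit 5) (nat_lit 274) (nat_lit 3) (nat_lit 275) (nat_lit 5) (nat_lit 273) (nat_lit 271) (nat_lit 236)) (XT.nd (nat_lit 78) (nat_lit 0) (nat_lit 76) (XT.lf (nat_lit 76) (nat_lit 1977921784) (nat_lit 0) (nat_lit 1638077877) (nat_lit 760) (nat_lit 3510091836) (nat_lit 266) (nat_lit 5) (nat_lit 265) (nat_lit 5) (nat_lit 275) (nat_lit 5) (nat_lit 274) (nat_lit 271) (nat_lit 235)) (XT.lf (nat_lit 0) (nat_lit 5350825863) (nat_lit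 684) (nat_lit 1776472079) (nat_lit 760) (nat_lit 57174490) (nat_lit 266) (nat_lit 5) (nat_lit 275) (nat_lit 5) (nat_lit 276) (nat_lit 5) (nat_lit 275) (nat_lit 271) (nat_lit 234)))) (XT.nd (nat_lit 78) (nat_lit 760) (nat_lit 0) (XT.lf (nat_lit 76) (nat_lit 1676330766) (nat_lit 0) (nat_lit 5431314793) (nat_lit 760) (nat_lit 137972319) (nat_lit 267) (nat_lit 5) (nat_lit 266) (nat_lit 5) (nat_lit 276) (nat_lit 5) (nat_lit 276) (nat_lit 271) (nat_lit 233)) (XT.nd (nat_lit 78) (nat_lit 0) (nat_lit 0) (XT.lf (nat_lit 0) (nat_lit 1533675736) (nat_lit 760) (nat_lit 2092077819) (nat_lit 836) (nat_lit 3683790621) (nat_lit 256) (nat_lit 5) (nat_lit 266) (nat_lit 5) (nat_lit 267) (nat_lit 5) (nat_lit 277) (nat_lit 271) (nat_lit 232)) (XT.lf (nat_lit 76) (nat_lit 1480553460) (nat_lit 0) (nat_lit 1726549643) (nat_lit 836) (nat_lit 4169714170) (nat_lit 257) (nat_lit 5) (nat_lit 256) (nat_lit 5) (nat_lit 267)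 (nat_lit 5) (nat_lit 278) (nat_lit 271) (nat_lit 231))))) (XT.nd (nat_lit 234) (nat_lit 0) (nat_lit 0) (XT.nd (nat_lit 78) (nat_lit 836) (nat_lit 0) (XT.lf (nat_lit 0) (nat_lit 4896057663) (nat_lit 760) (nat_lit 2282771333) (nat_lit 836) (nat_lit 268418942) (nat_lit 257) (nat_lit 5) (nat_lit 267) (nat_lit 5) (nat_lit 268) (nat_lit 5) (nat_lit 279) (nat_lit 271) (nat_lit 230)) (XT.nd (nat_lit 78) (nat_lit 836) (nat_lit 0) (XT.lf (nat_lit 76) (nat_lit 1412577144) (nat_lit 0) (nat_lit 5197254466) (nat_lit 836) (nat_lit 910831611) (nat_lit 258) (nat_lit 5) (nat_lit 257) (nat_lit 5) (nat_lit 268) (nat_lit 5) (nat_lit 280) (nat_lit 271) (nat_lit 229)) (XT.lf (nat_lit 0) (nat_lit 730954738) (nat_lit 836) (nat_lit 2375581027) (nat_lit 912) (nat_lit 4490588938) (nat_lit 246) (nat_lit 5) (nat_lit 257) (nat_lit 5) (nat_lit 258) (nat_lit 5) (nat_lit 281) (nat_lit 271) (nat_lit 228)))) (XT.nd (nat_lit 156)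 (nat_lit 0) (nat_lit 76) (XT.nd (nat_lit 78) (nat_lit 0) (nat_lit 76) (XT.lf (nat_lit 76) (nat_lit 1451448373) (nat_lit 0) (nat_lit 911952048) (nat_lit 912) (nat_lit 5313505742) (nat_lit 247) (nat_lit 5) (nat_lit 246) (nat_lit 5) (nat_lit 258) (nat_lit 5) (nat_lit 282) (nat_lit 271) (nat_lit 227)) (XT.lf (nat_lit 0) (nat_lit 4029158006) (nat_lit 836) (nat_lit 2367806286) (nat_lit 912) (nat_lit 1362672111) (nat_lit 247) (nat_lit 5) (nat_lit 258) (nat_lit 5) (nat_lit 259) (nat_lit 5) (nat_lit 283) (nat_lit 271) (nat_lit 226))) (XT.nd (nat_lit 78) (nat_lit 0) (nat_lit 0) (XT.lf (nat_lit 76) (nat_lit 1590463940) (nat_lit 0) (nat_lit 4127431434) (nat_lit 912) (nat_lit 2127845964) (nat_lit 248) (nat_lit 5) (nat_lit 247) (nat_lit 5) (nat_lit 259) (nat_lit 5) (nat_lit 284) (nat_lit 271) (nat_lit 225)) (XT.lf (nat_lit 76) (nat_lit 5679266601) (nat_lit 0) (nat_lit 1751768972) (nat_lit 912) (nat_lit 504262212)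 (nat_lit 248) (nat_lit 5) (nat_lit 247) (nat_lit 5) (nat_lit 259) (nat_lit 5) (nat_lit 285) (nat_lit 271) (nat_lit 224)))))) (XT.nd (nat_lit 468) (nat_lit 3496) (nat_lit 0) (XT.nd (nat_lit 234) (nat_lit 1064) (nat_lit 0) (XT.nd (nat_lit 78) (nat_lit 912) (nat_lit 0) (XT.lf (nat_lit 0) (nat_lit 1120855837) (nat_lit 912) (nat_lit 6183962523) (nat_lit 76) (nat_lit 723193112) (nat_lit 236) (nat_lit 5) (nat_lit 248) (nat_lit 5) (nat_lit 237) (nat_lit 5) (nat_lit 286) (nat_lit 271) (nat_lit 223)) (XT.nd (nat_lit 78) (nat_lit 912) (nat_lit 0) (XT.lf (nat_lit 0) (nat_lit 2776875065) (nat_lit 912) (nat_lit 2070019544) (nat_lit 76) (nat_lit 3276767440) (nat_lit 236) (nat_lit 5) (nat_lit 248) (nat_lit 5) (nat_lit 237) (nat_lit 5) (nat_lit 287) (nat_lit 271) (nat_lit 222)) (XT.lf (nat_lit 0) (nat_lit 2172836903) (nat_lit 912) (nat_lit 2283956166) (nat_lit 988) (nat_lit 3766234126) (nat_lit 224) (nat_lit 5)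 (nat_lit 236) (nat_lit 5) (nat_lit 237) (nat_lit 5) (nat_lit 288) (nat_lit 271) (nat_lit 221)))) (XT.nd (nat_lit 78) (nat_lit 1064) (nat_lit 0) (XT.lf (nat_lit 0) (nat_lit 6166066766) (nat_lit 988) (nat_lit 1781031442) (nat_lit 76) (nat_lit 378975853) (nat_lit 224) (nat_lit 5) (nat_lit 237) (nat_lit 5) (nat_lit 225) (nat_lit 5) (nat_lit 289) (nat_lit 271) (nat_lit 220)) (XT.nd (nat_lit 78) (nat_lit 76) (nat_lit 0) (XT.lf (nat_lit 0) (nat_lit 2607509628) (nat_lit 988) (nat_lit 5322542022) (nat_lit 1064) (nat_lit 502125183) (nat_lit 211) (nat_lit 5) (nat_lit 224) (nat_lit 5) (nat_lit 225) (nat_lit 5) (nat_lit 290) (nat_lit 271) (nat_lit 219)) (XT.lf (nat_lit 0) (nat_lit 1156331291) (nat_lit 1064) (nat_lit 1426006828) (nat_lit 76) (nat_lit 5959609702) (nat_lit 210) (nat_lit 5) (nat_lit 224) (nat_lit 5) (nat_lit 211) (nat_lit 5) (nat_lit 291) (nat_lit 271) (nat_lit 218))))) (XT.nd (nat_lit 234) (nat_lit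 1292) (nat_lit 0) (XT.nd (nat_lit 78) (nat_lit 1140) (nat_lit 0) (XT.lf (nat_lit 0) (nat_lit 2844667596) (nat_lit 1140) (nat_lit 5533847414) (nat_lit 76) (nat_lit 276702992) (nat_lit 196) (nat_lit 5) (nat_lit 211) (nat_lit 5) (nat_lit 197) (nat_lit 5) (nat_lit 292) (nat_lit 271) (nat_lit 217)) (XT.nd (nat_lit 78) (nat_lit 1140) (nat_lit 0) (XT.lf (nat_lit 0) (nat_lit 4582183451) (nat_lit 1140) (nat_lit 1000209360) (nat_lit 76) (nat_lit 3189597554) (nat_lit 196) (nat_lit 5) (nat_lit 211) (nat_lit 5) (nat_lit 197) (nat_lit 5) (nat_lit 293) (nat_lit 271) (nat_lit 216)) (XT.lf (nat_lit 0) (nat_lit 3705388098) (nat_lit 1140) (nat_lit 2661685541) (nat_lit 1216) (nat_lit 2525393012) (nat_lit 181) (nat_lit 5) (nat_lit 196) (nat_lit 5) (nat_lit 197) (nat_lit 5) (nat_lit 294) (nat_lit 271) (nat_lit 215)))) (XT.nd (nat_lit 156) (nat_lit 608) (nat_lit 0) (XT.nd (nat_lit 78) (nat_lit 684) (nat_lit 0) (XT.lf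 (nat_lit 0) (nat_lit 8179537040) (nat_lit 1216) (nat_lit 484305107) (nat_lit 76) (nat_lit 353550800) (nat_lit 181) (nat_lit 5) (nat_lit 197) (nat_lit 5) (nat_lit 182) (nat_lit 5) (nat_lit 295) (nat_lit 271) (nat_lit 214)) (XT.lf (nat_lit 0) (nat_lit 913109261) (nat_lit 684) (nat_lit 4771642915) (nat_lit 76) (nat_lit 3460197398) (nat_lit 172) (nat_lit 5) (nat_lit 181) (nat_lit 5) (nat_lit 173) (nat_lit 5) (nat_lit 296) (nat_lit 271) (nat_lit 213))) (XT.nd (nat_lit 78) (nat_lit 0) (nat_lit 0) (XT.lf (nat_lit 0) (nat_lit 66702792) (nat_lit 608) (nat_lit 2600633856) (nat_lit 684) (nat_lit 6609771907) (nat_lit 164) (nat_lit 5) (nat_lit 172) (nat_lit 5) (nat_lit 173) (nat_lit 5) (nat_lit 297) (nat_lit 271) (nat_lit 212)) (XT.lf (nat_lit 0) (nat_lit 4491149787) (nat_lit 684) (nat_lit 4307248789) (nat_lit 76) (nat_lit 614375178) (nat_lit 164) (nat_lit 5) (nat_lit 173) (nat_lit 5) (nat_lit 165) (nat_lit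 5) (nat_lit 298) (nat_lit 271) (nat_lit 211))))))) (XT.nd (nat_lit 1014) (nat_lit 2660) (nat_lit 0) (XT.nd (nat_lit 468) (nat_lit 1900) (nat_lit 0) (XT.nd (nat_lit 234) (nat_lit 456) (nat_lit 0) (XT.nd (nat_lit 78) (nat_lit 608) (nat_lit 0) (XT.lf (nat_lit 0) (nat_lit 694435198) (nat_lit 532) (nat_lit 5671511628) (nat_lit 608) (nat_lit 3186722752) (nat_lit 157) (nat_lit 5) (nat_lit 164) (nat_lit 5) (nat_lit 165) (nat_lit 5) (nat_lit 299) (nat_lit 271) (nat_lit 210)) (XT.nd (nat_lit 78) (nat_lit 608) (nat_lit 0) (XT.lf (nat_lit 0) (nat_lit 5898450872) (nat_lit 532) (nat_lit 2406583861) (nat_lit 608) (nat_lit 1391533471) (nat_lit 157) (nat_lit 5) (nat_lit 164) (nat_lit 5) (nat_lit 165) (nat_lit 5) (nat_lit 300) (nat_lit 271) (nat_lit 209)) (XT.lf (nat_lit 0) (nat_lit 436611013) (nat_lit 608) (nat_lit 8453653929) (nat_lit 76) (nat_lit 954790709) (nat_lit 149) (nat_lit 5) (nat_lit 157) (nat_lit 5)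 (nat_lit 150) (nat_lit 5) (nat_lit 301) (nat_lit 271) (nat_lit 208)))) (XT.nd (nat_lit 78) (nat_lit 456) (nat_lit 0) (XT.lf (nat_lit 0) (nat_lit 2320053108) (nat_lit 608) (nat_lit 3256774813) (nat_lit 76) (nat_lit 4419947141) (nat_lit 149) (nat_lit 5) (nat_lit 157) (nat_lit 5) (nat_lit 150) (nat_lit 5) (nat_lit 302) (nat_lit 271) (nat_lit 207)) (XT.nd (nat_lit 78) (nat_lit 0) (nat_lit 0) (XT.lf (nat_lit 0) (nat_lit 2101675462) (nat_lit 456) (nat_lit 2145380819) (nat_lit 532) (nat_lit 5906420094) (nat_lit 143) (nat_lit 5) (nat_lit 149) (nat_lit 5) (nat_lit 150) (nat_lit 5) (nat_lit 303) (nat_lit 271) (nat_lit 206)) (XT.lf (nat_lit 0) (nat_lit 6245894503) (nat_lit 532) (nat_lit 2675922173) (nat_lit 76) (nat_lit 1392682135) (nat_lit 143) (nat_lit 5) (nat_lit 150) (nat_lit 5) (nat_lit 144) (nat_lit 5) (nat_lit 304) (nat_lit 271) (nat_lit 205))))) (XT.nd (nat_lit 234) (nat_lit 836) (nat_lit 0) (XT.nd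 (nat_lit 78) (nat_lit 532) (nat_lit 0) (XT.lf (nat_lit 0) (nat_lit 2860873435) (nat_lit 532) (nat_lit 5460974341) (nat_lit 608) (nat_lit 2158029288) (nat_lit 136) (nat_lit 5) (nat_lit 143) (nat_lit 5) (nat_lit 144) (nat_lit 5) (nat_lit 305) (nat_lit 271) (nat_lit 204)) (XT.nd (nat_lit 78) (nat_lit 532) (nat_lit 0) (XT.lf (nat_lit 0) (nat_lit 8584025237) (nat_lit 532) (nat_lit 1872071568) (nat_lit 608) (nat_lit 194277832) (nat_lit 136) (nat_lit 5) (nat_lit 143) (nat_lit 5) (nat_lit 144) (nat_lit 5) (nat_lit 306) (nat_lit 271) (nat_lit 203)) (XT.lf (nat_lit 0) (nat_lit 1815601603) (nat_lit 532) (nat_lit 7170633682) (nat_lit 76) (nat_lit 1838574048) (nat_lit 129) (nat_lit 5) (nat_lit 136) (nat_lit 5) (nat_lit 130) (nat_lit 5) (nat_lit 307) (nat_lit 271) (nat_lit 202)))) (XT.nd (nat_lit 156) (nat_lit 380) (nat_lit 0) (XT.nd (nat_lit 78) (nat_lit 456) (nat_lit 0) (XT.lf (nat_lit 0) (nat_lit 3891566557)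 (nat_lit 532) (nat_lit 1470634809) (nat_lit 76) (nat_lit 5641962401) (nat_lit 129) (nat_lit 5) (nat_lit 136) (nat_lit 5) (nat_lit 130) (nat_lit 5) (nat_lit 308) (nat_lit 271) (nat_lit 201)) (XT.lf (nat_lit 0) (nat_lit 4453488192) (nat_lit 456) (nat_lit 1590089097) (nat_lit 532) (nat_lit 5144942737) (nat_lit 123) (nat_lit 5) (nat_lit 129) (nat_lit 5) (nat_lit 130) (nat_lit 5) (nat_lit 309) (nat_lit 271) (nat_lit 200))) (XT.nd (nat_lit 78) (nat_lit 380) (nat_lit 0) (XT.lf (nat_lit 0) (nat_lit 8268642815) (nat_lit 532) (nat_lit 848979396) (nat_lit 76) (nat_lit 2260563125) (nat_lit 123) (nat_lit 5) (nat_lit 130) (nat_lit 5) (nat_lit 124) (nat_lit 5) (nat_lit 310) (nat_lit 271) (nat_lit 199)) (XT.lf (nat_lit 0) (nat_lit 5267406330) (nat_lit 380) (nat_lit 5331697150) (nat_lit 456) (nat_lit 973310063) (nat_lit 118) (nat_lit 5) (nat_lit 123) (nat_lit 5) (nat_lit 124) (nat_lit 5) (nat_lit 311) (nat_lit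 271) (nat_lit 198)))))) (XT.nd (nat_lit 546) (nat_lit 1064) (nat_lit 0) (XT.nd (nat_lit 234) (nat_lit 760) (nat_lit 0) (XT.nd (nat_lit 78) (nat_lit 760) (nat_lit 0) (XT.lf (nat_lit 0) (nat_lit 1184180581) (nat_lit 456) (nat_lit 232947243) (nat_lit 76) (nat_lit 10355583874) (nat_lit 117) (nat_lit 5) (nat_lit 123) (nat_lit 5) (nat_lit 118) (nat_lit 5) (nat_lit 312) (nat_lit 271) (nat_lit 197)) (XT.nd (nat_lit 78) (nat_lit 380) (nat_lit 0) (XT.lf (nat_lit 0) (nat_lit 3444466249) (nat_lit 456) (nat_lit 5905491526) (nat_lit 76) (nat_lit 2627072431) (nat_lit 112) (nat_lit 5) (nat_lit 118) (nat_lit 5) (nat_lit 113) (nat_lit 5) (nat_lit 313) (nat_lit 271) (nat_lit 196)) (XT.lf (nat_lit 0) (nat_lit 342142668) (nat_lit 380) (nat_lit 5423783640) (nat_lit 456) (nat_lit 6421779625) (nat_lit 107) (nat_lit 5) (nat_lit 112) (nat_lit 5) (nat_lit 113) (nat_lit 5) (nat_lit 314) (nat_lit 271) (nat_lit 195)))) (XT.nd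 (nat_lit 156) (nat_lit 380) (nat_lit 0) (XT.nd (nat_lit 78) (nat_lit 380) (nat_lit 0) (XT.lf (nat_lit 0) (nat_lit 6865580087) (nat_lit 380) (nat_lit 1325207055) (nat_lit 456) (nat_lit 4212929886) (nat_lit 107) (nat_lit 5) (nat_lit 112) (nat_lit 5) (nat_lit 113) (nat_lit 5) (nat_lit 315) (nat_lit 271) (nat_lit 194)) (XT.lf (nat_lit 0) (nat_lit 916099463) (nat_lit 380) (nat_lit 9783754979) (nat_lit 456) (nat_lit 1926037187) (nat_lit 102) (nat_lit 5) (nat_lit 107) (nat_lit 5) (nat_lit 108) (nat_lit 5) (nat_lit 316) (nat_lit 271) (nat_lit 193))) (XT.nd (nat_lit 78) (nat_lit 304) (nat_lit 0) (XT.lf (nat_lit 0) (nat_lit 465647974) (nat_lit 456) (nat_lit 5226020601) (nat_lit 76) (nat_lit 7161627510) (nat_lit 101) (nat_lit 5) (nat_lit 107) (nat_lit 5) (nat_lit 102) (nat_lit 5) (nat_lit 317) (nat_lit 271) (nat_lit 192)) (XT.lf (nat_lit 0) (nat_lit 1429384570) (nat_lit 304) (nat_lit 1450424057) (nat_lit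 380) (nat_lit 10207483568) (nat_lit 97) (nat_lit 5) (nat_lit 101) (nat_lit 5) (nat_lit 102) (nat_lit 5) (nat_lit 318) (nat_lit 271) (nat_lit 191))))) (XT.nd (nat_lit 234) (nat_lit 684) (nat_lit 0) (XT.nd (nat_lit 78) (nat_lit 380) (nat_lit 0) (XT.lf (nat_lit 0) (nat_lit 5423769664) (nat_lit 380) (nat_lit 4995777851) (nat_lit 76) (nat_lit 2907063391) (nat_lit 97) (nat_lit 5) (nat_lit 102) (nat_lit 5) (nat_lit 98) (nat_lit 5) (nat_lit 319) (nat_lit 271) (nat_lit 190)) (XT.nd (nat_lit 78) (nat_lit 0) (nat_lit 0) (XT.lf (nat_lit 0) (nat_lit 1856964672) (nat_lit 380) (nat_lit 6196024264) (nat_lit 456) (nat_lit 5519875346) (nat_lit 92) (nat_lit 5) (nat_lit 97) (nat_lit 5) (nat_lit 98) (nat_lit 5) (nat_lit 320) (nat_lit 271) (nat_lit 189)) (XT.lf (nat_lit 0) (nat_lit 8986876602) (nat_lit 380) (nat_lit 1801765772) (nat_lit 456) (nat_lit 3037058764) (nat_lit 92) (nat_lit 5) (nat_lit 97) (nat_lit 5) (nat_lit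 98) (nat_lit 5) (nat_lit 321) (nat_lit 271) (nat_lit 188)))) (XT.nd (nat_lit 156) (nat_lit 304) (nat_lit 0) (XT.nd (nat_lit 78) (nat_lit 76) (nat_lit 0) (XT.lf (nat_lit 0) (nat_lit 2231378861) (nat_lit 304) (nat_lit 11400326471) (nat_lit 380) (nat_lit 453679519) (nat_lit 88) (nat_lit 5) (nat_lit 92) (nat_lit 5) (nat_lit 93) (nat_lit 5) (nat_lit 322) (nat_lit 271) (nat_lit 187)) (XT.lf (nat_lit 0) (nat_lit 2209139710) (nat_lit 380) (nat_lit 4808754681) (nat_lit 76) (nat_lit 7332998593) (nat_lit 87) (nat_lit 5) (nat_lit 92) (nat_lit 5) (nat_lit 88) (nat_lit 5) (nat_lit 323) (nat_lit 271) (nat_lit 186))) (XT.nd (nat_lit 78) (nat_lit 0) (nat_lit 0) (XT.lf (nat_lit 0) (nat_lit 2461589998) (nat_lit 304) (nat_lit 2483266597) (nat_lit 380) (nat_lit 9679331147) (nat_lit 83) (nat_lit 5) (nat_lit 87) (nat_lit 5) (nat_lit 88) (nat_lit 5) (nat_lit 324) (nat_lit 271) (nat_lit 185)) (XT.lf (nat_lit 0) (nat_lit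 7811444021) (nat_lit 380) (nat_lit 4907201841) (nat_lit 76) (nat_lit 2185591013) (nat_lit 83) (nat_lit 5) (nat_lit 88) (nat_lit 5) (nat_lit 84) (nat_lit 5) (nat_lit 325) (nat_lit 271) (nat_lit 184))))))))
noncomputable def xc135 : XT := (XT.nd (nat_lit 2106) (nat_lit 1672) (nat_lit 0) (XT.nd (nat_lit 1014) (nat_lit 1444) (nat_lit 0) (XT.nd (nat_lit 468) (nat_lit 836) (nat_lit 0) (XT.nd (nat_lit 234) (nat_lit 228) (nat_lit 0) (XT.nd (nat_lit 78) (nat_lit 380) (nat_lit 0) (XT.lf (nat_lit 0) (nat_lit 2562050746) (nat_lit 304) (nat_lit 8230545186) (nat_lit 380) (nat_lit 4399253476) (nat_lit 79) (nat_lit 5) (nat_lit 83) (nat_lit 5) (nat_lit 84) (nat_lit 5) (nat_lit 326) (nat_lit 271) (nat_lit 183)) (XT.nd (nat_lit 78) (nat_lit 380) (nat_lit 0) (XT.lf (nat_lit 0) (nat_lit 10327046908) (nat_lit 304) (nat_lit 3565364009) (nat_lit 380) (nat_lit 1594820925) (nat_lit 79) (nat_lit 5) (nat_lit 83) (nat_lit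 5) (nat_lit 84) (nat_lit 5) (nat_lit 327) (nat_lit 271) (nat_lit 182)) (XT.lf (nat_lit 0) (nat_lit 1285190893) (nat_lit 380) (nat_lit 13260995928) (nat_lit 76) (nat_lit 1244432412) (nat_lit 74) (nat_lit 5) (nat_lit 79) (nat_lit 5) (nat_lit 75) (nat_lit 5) (nat_lit 328) (nat_lit 271) (nat_lit 181)))) (XT.nd (nat_lit 78) (nat_lit 228) (nat_lit 0) (XT.lf (nat_lit 0) (nat_lit 4287754724) (nat_lit 380) (nat_lit 5625989915) (nat_lit 76) (nat_lit 6186860538) (nat_lit 74) (nat_lit 5) (nat_lit 79) (nat_lit 5) (nat_lit 75) (nat_lit 5) (nat_lit 329) (nat_lit 271) (nat_lit 180)) (XT.nd (nat_lit 78) (nat_lit 0) (nat_lit 0) (XT.lf (nat_lit 0) (nat_lit 2254147403) (nat_lit 228) (nat_lit 5128772307) (nat_lit 304) (nat_lit 9036911594) (nat_lit 71) (nat_lit 5) (nat_lit 74) (nat_lit 5) (nat_lit 75) (nat_lit 5) (nat_lit 330) (nat_lit 271) (nat_lit 179)) (XT.lf (nat_lit 0) (nat_lit 10458384292) (nat_lit 228) (nat_lit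 150514796) (nat_lit 304) (nat_lit 6138612200) (nat_lit 71) (nat_lit 5) (nat_lit 74) (nat_lit 5) (nat_lit 75) (nat_lit 5) (nat_lit 331) (nat_lit 271) (nat_lit 178))))) (XT.nd (nat_lit 234) (nat_lit 228) (nat_lit 0) (XT.nd (nat_lit 78) (nat_lit 304) (nat_lit 0) (XT.lf (nat_lit 0) (nat_lit 1783374272) (nat_lit 304) (nat_lit 12194884423) (nat_lit 380) (nat_lit 3105380346) (nat_lit 67) (nat_lit 5) (nat_lit 71) (nat_lit 5) (nat_lit 72) (nat_lit 5) (nat_lit 332) (nat_lit 271) (nat_lit 177)) (XT.nd (nat_lit 78) (nat_lit 228) (nat_lit 0) (XT.lf (nat_lit 0) (nat_lit 65804259) (nat_lit 380) (nat_lit 7230694694) (nat_lit 76) (nat_lit 10131941041) (nat_lit 66) (nat_lit 5) (nat_lit 71) (nat_lit 5) (nat_lit 67) (nat_lit 5) (nat_lit 333) (nat_lit 271) (nat_lit 176)) (XT.lf (nat_lit 0) (nat_lit 1043965731) (nat_lit 228) (nat_lit 2218008652) (nat_lit 304) (nat_lit 14520934338) (nat_lit 63) (nat_lit 5) (nat_lit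 66) (nat_lit 5) (nat_lit 67) (nat_lit 5) (nat_lit 334) (nat_lit 271) (nat_lit 175)))) (XT.nd (nat_lit 156) (nat_lit 228) (nat_lit 0) (XT.nd (nat_lit 78) (nat_lit 0) (nat_lit 0) (XT.lf (nat_lit 0) (nat_lit 6639138483) (nat_lit 304) (nat_lit 8487231750) (nat_lit 76) (nat_lit 3019101688) (nat_lit 63) (nat_lit 5) (nat_lit 67) (nat_lit 5) (nat_lit 64) (nat_lit 5) (nat_lit 335) (nat_lit 271) (nat_lit 174)) (XT.lf (nat_lit 0) (nat_lit 10122499226) (nat_lit 304) (nat_lit 35963327) (nat_lit 76) (nat_lit 8360316293) (nat_lit 63) (nat_lit 5) (nat_lit 67) (nat_lit 5) (nat_lit 64) (nat_lit 5) (nat_lit 336) (nat_lit 271) (nat_lit 173))) (XT.nd (nat_lit 78) (nat_lit 0) (nat_lit 0) (XT.lf (nat_lit 0) (nat_lit 8815591685) (nat_lit 228) (nat_lit 4962928646) (nat_lit 304) (nat_lit 5122732754) (nat_lit 60) (nat_lit 5) (nat_lit 63) (nat_lit 5) (nat_lit 64) (nat_lit 5) (nat_lit 337) (nat_lit 271) (nat_lit 172)) (XT.lf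 (nat_lit 0) (nat_lit 17531900576) (nat_lit 304) (nat_lit 1390944691) (nat_lit 76) (nat_lit 372738445) (nat_lit 60) (nat_lit 5) (nat_lit 64) (nat_lit 5) (nat_lit 61) (nat_lit 5) (nat_lit 338) (nat_lit 271) (nat_lit 171)))))) (XT.nd (nat_lit 546) (nat_lit 456) (nat_lit 0) (XT.nd (nat_lit 234) (nat_lit 456) (nat_lit 0) (XT.nd (nat_lit 78) (nat_lit 228) (nat_lit 0) (XT.lf (nat_lit 0) (nat_lit 1770716743) (nat_lit 304) (nat_lit 12076066385) (nat_lit 76) (nat_lit 5851253503) (nat_lit 56) (nat_lit 5) (nat_lit 60) (nat_lit 5) (nat_lit 57) (nat_lit 5) (nat_lit 339) (nat_lit 271) (nat_lit 170)) (XT.nd (nat_lit 78) (nat_lit 228) (nat_lit 0) (XT.lf (nat_lit 0) (nat_lit 5374003144) (nat_lit 304) (nat_lit 3220748341) (nat_lit 76) (nat_lit 11517350157) (nat_lit 56) (nat_lit 5) (nat_lit 60) (nat_lit 5) (nat_lit 57) (nat_lit 5) (nat_lit 340) (nat_lit 271) (nat_lit 169)) (XT.lf (nat_lit 0) (nat_lit 5993107488)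 (nat_lit 228) (nat_lit 3134470576) (nat_lit 304) (nat_lit 11409755963) (nat_lit 53) (nat_lit 5) (nat_lit 56) (nat_lit 5) (nat_lit 57) (nat_lit 5) (nat_lit 341) (nat_lit 271) (nat_lit 168)))) (XT.nd (nat_lit 156) (nat_lit 304) (nat_lit 0) (XT.nd (nat_lit 78) (nat_lit 152) (nat_lit 0) (XT.lf (nat_lit 0) (nat_lit 13035254763) (nat_lit 304) (nat_lit 5473416954) (nat_lit 76) (nat_lit 2465417628) (nat_lit 53) (nat_lit 5) (nat_lit 57) (nat_lit 5) (nat_lit 54) (nat_lit 5) (nat_lit 342) (nat_lit 271) (nat_lit 167)) (XT.lf (nat_lit 0) (nat_lit 3890896613) (nat_lit 152) (nat_lit 13222863847) (nat_lit 228) (nat_lit 4308589384) (nat_lit 51) (nat_lit 5) (nat_lit 53) (nat_lit 5) (nat_lit 54) (nat_lit 5) (nat_lit 343) (nat_lit 271) (nat_lit 166))) (XT.nd (nat_lit 78) (nat_lit 304) (nat_lit 0) (XT.lf (nat_lit 0) (nat_lit 13625058421) (nat_lit 152) (nat_lit 7730204709) (nat_lit 228) (nat_lit 527585952) (nat_lit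 51) (nat_lit 5) (nat_lit 53) (nat_lit 5) (nat_lit 54) (nat_lit 5) (nat_lit 344) (nat_lit 271) (nat_lit 165)) (XT.lf (nat_lit 0) (nat_lit 1263474510) (nat_lit 228) (nat_lit 2035465838) (nat_lit 304) (nat_lit 19057327853) (nat_lit 47) (nat_lit 5) (nat_lit 50) (nat_lit 5) (nat_lit 51) (nat_lit 5) (nat_lit 345) (nat_lit 271) (nat_lit 164))))) (XT.nd (nat_lit 234) (nat_lit 304) (nat_lit 0) (XT.nd (nat_lit 78) (nat_lit 152) (nat_lit 0) (XT.lf (nat_lit 0) (nat_lit 7336454004) (nat_lit 304) (nat_lit 11667626200) (nat_lit 76) (nat_lit 3836458429) (nat_lit 47) (nat_lit 5) (nat_lit 51) (nat_lit 5) (nat_lit 48) (nat_lit 5) (nat_lit 346) (nat_lit 271) (nat_lit 163)) (XT.nd (nat_lit 78) (nat_lit 152) (nat_lit 0) (XT.lf (nat_lit 0) (nat_lit 11501425806) (nat_lit 304) (nat_lit 2002211692) (nat_lit 76) (nat_lit 9835518741) (nat_lit 47) (nat_lit 5) (nat_lit 51) (nat_lit 5) (nat_lit 48) (nat_lit 5) (nat_lit 347)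 (nat_lit 271) (nat_lit 162)) (XT.lf (nat_lit 0) (nat_lit 8089313117) (nat_lit 152) (nat_lit 7766375216) (nat_lit 228) (nat_lit 7995122572) (nat_lit 45) (nat_lit 5) (nat_lit 47) (nat_lit 5) (nat_lit 48) (nat_lit 5) (nat_lit 348) (nat_lit 271) (nat_lit 161)))) (XT.nd (nat_lit 156) (nat_lit 0) (nat_lit 0) (XT.nd (nat_lit 78) (nat_lit 304) (nat_lit 0) (XT.lf (nat_lit 0) (nat_lit 18503136061) (nat_lit 152) (nat_lit 1844427460) (nat_lit 228) (nat_lit 4030050670) (nat_lit 45) (nat_lit 5) (nat_lit 47) (nat_lit 5) (nat_lit 48) (nat_lit 5) (nat_lit 349) (nat_lit 271) (nat_lit 160)) (XT.lf (nat_lit 0) (nat_lit 123217375) (nat_lit 304) (nat_lit 20587757378) (nat_lit 76) (nat_lit 4207130376) (nat_lit 41) (nat_lit 5) (nat_lit 45) (nat_lit 5) (nat_lit 42) (nat_lit 5) (nat_lit 350) (nat_lit 271) (nat_lit 159))) (XT.nd (nat_lit 78) (nat_lit 0) (nat_lit 0) (XT.lf (nat_lit 0) (nat_lit 4385368619) (nat_lit 304) (nat_lit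 10591280463) (nat_lit 76) (nat_lit 10495013912) (nat_lit 41) (nat_lit 5) (nat_lit 45) (nat_lit 5) (nat_lit 42) (nat_lit 5) (nat_lit 351) (nat_lit 271) (nat_lit 158)) (XT.lf (nat_lit 0) (nat_lit 8762875162) (nat_lit 304) (nat_lit 315528907) (nat_lit 76) (nat_lit 16963806377) (nat_lit 41) (nat_lit 5) (nat_lit 45) (nat_lit 5) (nat_lit 42) (nat_lit 5) (nat_lit 352) (nat_lit 271) (nat_lit 157))))))) (XT.nd (nat_lit 1014) (nat_lit 760) (nat_lit 0) (XT.nd (nat_lit 468) (nat_lit 380) (nat_lit 0) (XT.nd (nat_lit 234) (nat_lit 228) (nat_lit 0) (XT.nd (nat_lit 78) (nat_lit 152) (nat_lit 0) (XT.lf (nat_lit 0) (nat_lit 10452440870) (nat_lit 152) (nat_lit 2907596395) (nat_lit 228) (nat_lit 13267194499) (nat_lit 39) (nat_lit 5) (nat_lit 41) (nat_lit 5) (nat_lit 42) (nat_lit 5) (nat_lit 353) (nat_lit 271) (nat_lit 156)) (XT.nd (nat_lit 78) (nat_lit 152) (nat_lit 0) (XT.lf (nat_lit 0) (nat_lit 18119422432) (nat_lit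 228) (nat_lit 5733083461) (nat_lit 76) (nat_lit 3376575720) (nat_lit 39) (nat_lit 5) (nat_lit 42) (nat_lit 5) (nat_lit 40) (nat_lit 5) (nat_lit 354) (nat_lit 271) (nat_lit 155)) (XT.lf (nat_lit 0) (nat_lit 5072542488) (nat_lit 152) (nat_lit 18014889226) (nat_lit 228) (nat_lit 4759586897) (nat_lit 37) (nat_lit 5) (nat_lit 39) (nat_lit 5) (nat_lit 40) (nat_lit 5) (nat_lit 355) (nat_lit 271) (nat_lit 154)))) (XT.nd (nat_lit 78) (nat_lit 228) (nat_lit 0) (XT.lf (nat_lit 0) (nat_lit 16300523060) (nat_lit 152) (nat_lit 11950300285) (nat_lit 228) (nat_lit 231286839) (nat_lit 37) (nat_lit 5) (nat_lit 39) (nat_lit 5) (nat_lit 40) (nat_lit 5) (nat_lit 356) (nat_lit 271) (nat_lit 153)) (XT.nd (nat_lit 78) (nat_lit 152) (nat_lit 0) (XT.lf (nat_lit 0) (nat_lit 4335029272) (nat_lit 228) (nat_lit 1332528247) (nat_lit 76) (nat_lit 23467764943) (nat_lit 36) (nat_lit 5) (nat_lit 39) (nat_lit 5) (nat_lit 37) (nat_lit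 5) (nat_lit 357) (nat_lit 271) (nat_lit 152)) (XT.lf (nat_lit 0) (nat_lit 9127601054) (nat_lit 228) (nat_lit 19797416834) (nat_lit 76) (nat_lit 880233234) (nat_lit 34) (nat_lit 5) (nat_lit 37) (nat_lit 5) (nat_lit 35) (nat_lit 5) (nat_lit 358) (nat_lit 271) (nat_lit 151))))) (XT.nd (nat_lit 234) (nat_lit 228) (nat_lit 0) (XT.nd (nat_lit 78) (nat_lit 152) (nat_lit 0) (XT.lf (nat_lit 0) (nat_lit 14122725326) (nat_lit 228) (nat_lit 8853929769) (nat_lit 76) (nat_lit 7516865265) (nat_lit 34) (nat_lit 5) (nat_lit 37) (nat_lit 5) (nat_lit 35) (nat_lit 5) (nat_lit 359) (nat_lit 271) (nat_lit 150)) (XT.nd (nat_lit 78) (nat_lit 0) (nat_lit 0) (XT.lf (nat_lit 0) (nat_lit 2447632409) (nat_lit 152) (nat_lit 16832989111) (nat_lit 228) (nat_lit 11921434412) (nat_lit 32) (nat_lit 5) (nat_lit 34) (nat_lit 5) (nat_lit 35) (nat_lit 5) (nat_lit 360) (nat_lit 271) (nat_lit 149)) (XT.lf (nat_lit 0) (nat_lit 14251923099)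 (nat_lit 152) (nat_lit 10420266663) (nat_lit 228) (nat_lit 7257295390) (nat_lit 32) (nat_lit 5) (nat_lit 34) (nat_lit 5) (nat_lit 35) (nat_lit 5) (nat_lit 361) (nat_lit 271) (nat_lit 148)))) (XT.nd (nat_lit 156) (nat_lit 0) (nat_lit 0) (XT.nd (nat_lit 78) (nat_lit 228) (nat_lit 0) (XT.lf (nat_lit 0) (nat_lit 26393046167) (nat_lit 152) (nat_lit 3822291732) (nat_lit 228) (nat_lit 2463709836) (nat_lit 32) (nat_lit 5) (nat_lit 34) (nat_lit 5) (nat_lit 35) (nat_lit 5) (nat_lit 362) (nat_lit 271) (nat_lit 147)) (XT.lf (nat_lit 0) (nat_lit 2497721066) (nat_lit 228) (nat_lit 27964243553) (nat_lit 76) (nat_lit 2986255128) (nat_lit 29) (nat_lit 5) (nat_lit 32) (nat_lit 5) (nat_lit 30) (nat_lit 5) (nat_lit 363) (nat_lit 271) (nat_lit 146))) (XT.nd (nat_lit 78) (nat_lit 0) (nat_lit 0) (XT.lf (nat_lit 0) (nat_lit 7650513634) (nat_lit 228) (nat_lit 16582581409) (nat_lit 76) (nat_lit 10003883982) (nat_lit 29)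 (nat_lit 5) (nat_lit 32) (nat_lit 5) (nat_lit 30) (nat_lit 5) (nat_lit 364) (nat_lit 271) (nat_lit 145)) (XT.lf (nat_lit 0) (nat_lit 12948266314) (nat_lit 228) (nat_lit 4876035247) (nat_lit 76) (nat_lit 17225393091) (nat_lit 29) (nat_lit 5) (nat_lit 32) (nat_lit 5) (nat_lit 30) (nat_lit 5) (nat_lit 365) (nat_lit 271) (nat_lit 144)))))) (XT.nd (nat_lit 546) (nat_lit 304) (nat_lit 0) (XT.nd (nat_lit 234) (nat_lit 304) (nat_lit 0) (XT.nd (nat_lit 78) (nat_lit 0) (nat_lit 0) (XT.lf (nat_lit 0) (nat_lit 7308233921) (nat_lit 152) (nat_lit 11157625505) (nat_lit 228) (nat_lit 17419109806) (nat_lit 27) (nat_lit 5) (nat_lit 29) (nat_lit 5) (nat_lit 30) (nat_lit 5) (nat_lit 366) (nat_lit 271) (nat_lit 143)) (XT.nd (nat_lit 78) (nat_lit 0) (nat_lit 0) (XT.lf (nat_lit 0) (nat_lit 19942059441) (nat_lit 152) (nat_lit 4246934972) (nat_lit 228) (nat_lit 12555111796) (nat_lit 27) (nat_lit 5) (nat_lit 29) (nat_lit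 5) (nat_lit 30) (nat_lit 5) (nat_lit 367) (nat_lit 271) (nat_lit 142)) (XT.lf (nat_lit 0) (nat_lit 30102403806) (nat_lit 228) (nat_lit 4717388497) (nat_lit 76) (nat_lit 2808672029) (nat_lit 27) (nat_lit 5) (nat_lit 30) (nat_lit 5) (nat_lit 28) (nat_lit 4) (nat_lit 368) (nat_lit 271) (nat_lit 141)))) (XT.nd (nat_lit 156) (nat_lit 152) (nat_lit 0) (XT.nd (nat_lit 78) (nat_lit 76) (nat_lit 0) (XT.lf (nat_lit 0) (nat_lit 7825243434) (nat_lit 76) (nat_lit 28476486413) (nat_lit 152) (nat_lit 2234372240) (nat_lit 26) (nat_lit 5) (nat_lit 27) (nat_lit 5) (nat_lit 28) (nat_lit 4) (nat_lit 369) (nat_lit 271) (nat_lit 140)) (XT.lf (nat_lit 0) (nat_lit 3192682626) (nat_lit 152) (nat_lit 18675314818) (nat_lit 76) (nat_lit 17600866968) (nat_lit 25) (nat_lit 5) (nat_lit 27) (nat_lit 5) (nat_lit 26) (nat_lit 5) (nat_lit 370) (nat_lit 271) (nat_lit 139))) (XT.nd (nat_lit 78) (nat_lit 152) (nat_lit 0) (XT.lf (nat_lit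 0) (nat_lit 8729159845) (nat_lit 152) (nat_lit 6315627796) (nat_lit 76) (nat_lit 25384416663) (nat_lit 25) (nat_lit 5) (nat_lit 27) (nat_lit 5) (nat_lit 26) (nat_lit 5) (nat_lit 371) (nat_lit 271) (nat_lit 138)) (XT.lf (nat_lit 0) (nat_lit 6527862399) (nat_lit 152) (nat_lit 7958385170) (nat_lit 228) (nat_lit 26930475175) (nat_lit 23) (nat_lit 5) (nat_lit 25) (nat_lit 5) (nat_lit 26) (nat_lit 5) (nat_lit 372) (nat_lit 271) (nat_lit 137))))) (XT.nd (nat_lit 234) (nat_lit 228) (nat_lit 0) (XT.nd (nat_lit 78) (nat_lit 76) (nat_lit 0) (XT.lf (nat_lit 0) (nat_lit 19871892812) (nat_lit 152) (nat_lit 599799993) (nat_lit 228) (nat_lit 21960508311) (nat_lit 23) (nat_lit 5) (nat_lit 25) (nat_lit 5) (nat_lit 26) (nat_lit 5) (nat_lit 373) (nat_lit 271) (nat_lit 136)) (XT.nd (nat_lit 78) (nat_lit 76) (nat_lit 0) (XT.lf (nat_lit 0) (nat_lit 26695842357) (nat_lit 228) (nat_lit 9942989094) (nat_lit 76) (nat_lit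 6837541776) (nat_lit 23) (nat_lit 5) (nat_lit 26) (nat_lit 5) (nat_lit 24) (nat_lit 4) (nat_lit 374) (nat_lit 271) (nat_lit 135)) (XT.lf (nat_lit 0) (nat_lit 3093690057) (nat_lit 76) (nat_lit 30040984289) (nat_lit 152) (nat_lit 11416360927) (nat_lit 22) (nat_lit 5) (nat_lit 23) (nat_lit 5) (nat_lit 24) (nat_lit 4) (nat_lit 375) (nat_lit 271) (nat_lit 134)))) (XT.nd (nat_lit 156) (nat_lit 228) (nat_lit 0) (XT.nd (nat_lit 78) (nat_lit 0) (nat_lit 0) (XT.lf (nat_lit 0) (nat_lit 16711834291) (nat_lit 76) (nat_lit 23147618069) (nat_lit 152) (nat_lit 5795704798) (nat_lit 22) (nat_lit 5) (nat_lit 23) (nat_lit 5) (nat_lit 24) (nat_lit 4) (nat_lit 376) (nat_lit 271) (nat_lit 133)) (XT.lf (nat_lit 0) (nat_lit 30725457978) (nat_lit 76) (nat_lit 16053114155) (nat_lit 152) (nat_lit 14055926) (nat_lit 22) (nat_lit 5) (nat_lit 23) (nat_lit 5) (nat_lit 24) (nat_lit 4) (nat_lit 377) (nat_lit 271) (nat_lit 132)))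 (XT.nd (nat_lit 78) (nat_lit 152) (nat_lit 0) (XT.lf (nat_lit 0) (nat_lit 5817850974) (nat_lit 152) (nat_lit 2874673604) (nat_lit 76) (nat_lit 39270206170) (nat_lit 21) (nat_lit 5) (nat_lit 23) (nat_lit 5) (nat_lit 22) (nat_lit 5) (nat_lit 378) (nat_lit 271) (nat_lit 131)) (XT.lf (nat_lit 0) (nat_lit 10913971278) (nat_lit 152) (nat_lit 1008324225) (nat_lit 228) (nat_lit 37242703979) (nat_lit 19) (nat_lit 5) (nat_lit 21) (nat_lit 5) (nat_lit 22) (nat_lit 5) (nat_lit 379) (nat_lit 271) (nat_lit 130))))))))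
noncomputable def xc136 : XT := (XT.nd (nat_lit 2028) (nat_lit 76) (nat_lit 0) (XT.nd (nat_lit 1014) (nat_lit 228) (nat_lit 0) (XT.nd (nat_lit 468) (nat_lit 304) (nat_lit 0) (XT.nd (nat_lit 234) (nat_lit 0) (nat_lit 0) (XT.nd (nat_lit 78) (nat_lit 76) (nat_lit 0) (XT.lf (nat_lit 0) (nat_lit 18298564139) (nat_lit 228) (nat_lit 25306434118) (nat_lit 76) (nat_lit 6795680240) (nat_lit 19) (nat_lit 5) (nat_lit 22) (nat_lit 5) (nat_lit 20) (nat_lit 4) (nat_lit 380) (nat_lit 271) (nat_lit 129)) (XT.nd (nat_lit 78) (nat_lit 76) (nat_lit 0) (XT.lf (nat_lit 0) (nat_lit 24869294756) (nat_lit 228) (nat_lit 11995617868) (nat_lit 76) (nat_lit 14808422895) (nat_lit 19) (nat_lit 5) (nat_lit 22) (nat_lit 5) (nat_lit 20) (nat_lit 4) (nat_lit 381) (nat_lit 271) (nat_lit 128)) (XT.lf (nat_lit 0) (nat_lit 1736631927) (nat_lit 76) (nat_lit 29910597782) (nat_lit 152) (nat_lit 21336642843) (nat_lit 18) (nat_lit 5) (nat_lit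 19) (nat_lit 5) (nat_lit 20) (nat_lit 4) (nat_lit 382) (nat_lit 271) (nat_lit 127)))) (XT.nd (nat_lit 78) (nat_lit 0) (nat_lit 0) (XT.lf (nat_lit 0) (nat_lit 16115084217) (nat_lit 76) (nat_lit 22628020004) (nat_lit 152) (nat_lit 15587186121) (nat_lit 18) (nat_lit 5) (nat_lit 19) (nat_lit 5) (nat_lit 20) (nat_lit 4) (nat_lit 383) (nat_lit 271) (nat_lit 126)) (XT.nd (nat_lit 78) (nat_lit 0) (nat_lit 0) (XT.lf (nat_lit 0) (nat_lit 30913566381) (nat_lit 76) (nat_lit 15131948093) (nat_lit 152) (nat_lit 9671779019) (nat_lit 18) (nat_lit 5) (nat_lit 19) (nat_lit 5) (nat_lit 20) (nat_lit 4) (nat_lit 384) (nat_lit 271) (nat_lit 125)) (XT.lf (nat_lit 0) (nat_lit 46145009131) (nat_lit 76) (nat_lit 7415832084) (nat_lit 152) (nat_lit 3585252735) (nat_lit 18) (nat_lit 5) (nat_lit 19) (nat_lit 5) (nat_lit 20) (nat_lit 4) (nat_lit 385) (nat_lit 271) (nat_lit 124))))) (XT.nd (nat_lit 234) (nat_lit 76) (nat_lit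 0) (XT.nd (nat_lit 78) (nat_lit 0) (nat_lit 0) (XT.lf (nat_lit 0) (nat_lit 2662256296) (nat_lit 228) (nat_lit 55379552253) (nat_lit 76) (nat_lit 574255526) (nat_lit 15) (nat_lit 5) (nat_lit 18) (nat_lit 5) (nat_lit 16) (nat_lit 4) (nat_lit 386) (nat_lit 271) (nat_lit 123)) (XT.nd (nat_lit 78) (nat_lit 0) (nat_lit 0) (XT.lf (nat_lit 0) (nat_lit 9204733499) (nat_lit 228) (nat_lit 42120900564) (nat_lit 76) (nat_lit 8798048547) (nat_lit 15) (nat_lit 5) (nat_lit 18) (nat_lit 5) (nat_lit 16) (nat_lit 4) (nat_lit 387) (nat_lit 271) (nat_lit 122)) (XT.lf (nat_lit 0) (nat_lit 15937649648) (nat_lit 228) (nat_lit 28475000231) (nat_lit 76) (nat_lit 17264057138) (nat_lit 15) (nat_lit 5) (nat_lit 18) (nat_lit 5) (nat_lit 16) (nat_lit 4) (nat_lit 388) (nat_lit 271) (nat_lit 121)))) (XT.nd (nat_lit 156) (nat_lit 0) (nat_lit 0) (XT.nd (nat_lit 78) (nat_lit 76) (nat_lit 0) (XT.lf (nat_lit 0) (nat_lit 22866887875)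 (nat_lit 228) (nat_lit 14429927651) (nat_lit 76) (nat_lit 25979678781) (nat_lit 15) (nat_lit 5) (nat_lit 18) (nat_lit 5) (nat_lit 16) (nat_lit 4) (nat_lit 389) (nat_lit 271) (nat_lit 120)) (XT.lf (nat_lit 0) (nat_lit 27118753) (nat_lit 76) (nat_lit 29971644780) (nat_lit 152) (nat_lit 34925670997) (nat_lit 14) (nat_lit 5) (nat_lit 15) (nat_lit 5) (nat_lit 16) (nat_lit 4) (nat_lit 390) (nat_lit 271) (nat_lit 119))) (XT.nd (nat_lit 78) (nat_lit 0) (nat_lit 0) (XT.lf (nat_lit 0) (nat_lit 15203865516) (nat_lit 76) (nat_lit 22281009429) (nat_lit 152) (nat_lit 29132731695) (nat_lit 14) (nat_lit 5) (nat_lit 15) (nat_lit 5) (nat_lit 16) (nat_lit 4) (nat_lit 391) (nat_lit 271) (nat_lit 118)) (XT.lf (nat_lit 0) (nat_lit 30826390018) (nat_lit 76) (nat_lit 14363903473) (nat_lit 152) (nat_lit 23171440709) (nat_lit 14) (nat_lit 5) (nat_lit 15) (nat_lit 5) (nat_lit 16) (nat_lit 4) (nat_lit 392) (nat_lit 271)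 (nat_lit 117)))))) (XT.nd (nat_lit 468) (nat_lit 76) (nat_lit 0) (XT.nd (nat_lit 234) (nat_lit 76) (nat_lit 0) (XT.nd (nat_lit 78) (nat_lit 76) (nat_lit 0) (XT.lf (nat_lit 0) (nat_lit 46908343007) (nat_lit 76) (nat_lit 6213409055) (nat_lit 152) (nat_lit 17036589146) (nat_lit 14) (nat_lit 5) (nat_lit 15) (nat_lit 5) (nat_lit 16) (nat_lit 4) (nat_lit 393) (nat_lit 271) (nat_lit 116)) (XT.nd (nat_lit 78) (nat_lit 76) (nat_lit 0) (XT.lf (nat_lit 0) (nat_lit 61307113441) (nat_lit 152) (nat_lit 8566153220) (nat_lit 0) (nat_lit 2135102883) (nat_lit 14) (nat_lit 5) (nat_lit 16) (nat_lit 4) (nat_lit 14) (nat_lit 4) (nat_lit 394) (nat_lit 271) (nat_lit 115)) (XT.lf (nat_lit 0) (nat_lit 6616983664) (nat_lit 76) (nat_lit 63241311543) (nat_lit 76) (nat_lit 4051997568) (nat_lit 13) (nat_lit 4) (nat_lit 14) (nat_lit 5) (nat_lit 14) (nat_lit 4) (nat_lit 395) (nat_lit 271) (nat_lit 114)))) (XT.nd (nat_lit 78)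 (nat_lit 0) (nat_lit 0) (XT.lf (nat_lit 0) (nat_lit 2824664593) (nat_lit 152) (nat_lit 53472044282) (nat_lit 76) (nat_lit 19569285026) (nat_lit 12) (nat_lit 5) (nat_lit 14) (nat_lit 5) (nat_lit 13) (nat_lit 4) (nat_lit 396) (nat_lit 271) (nat_lit 113)) (XT.nd (nat_lit 78) (nat_lit 0) (nat_lit 0) (XT.lf (nat_lit 0) (nat_lit 9821469478) (nat_lit 152) (nat_lit 39284840495) (nat_lit 76) (nat_lit 28772995682) (nat_lit 12) (nat_lit 5) (nat_lit 14) (nat_lit 5) (nat_lit 13) (nat_lit 4) (nat_lit 397) (nat_lit 271) (nat_lit 112)) (XT.lf (nat_lit 0) (nat_lit 17023599866) (nat_lit 152) (nat_lit 24680350885) (nat_lit 76) (nat_lit 38249204999) (nat_lit 12) (nat_lit 5) (nat_lit 14) (nat_lit 5) (nat_lit 13) (nat_lit 4) (nat_lit 398) (nat_lit 271) (nat_lit 111))))) (XT.nd (nat_lit 234) (nat_lit 0) (nat_lit 0) (XT.nd (nat_lit 78) (nat_lit 76) (nat_lit 0) (XT.lf (nat_lit 0) (nat_lit 24437348880) (nat_lit 152) (nat_lit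 9645814247) (nat_lit 76) (nat_lit 48006193159) (nat_lit 12) (nat_lit 5) (nat_lit 14) (nat_lit 5) (nat_lit 13) (nat_lit 4) (nat_lit 399) (nat_lit 271) (nat_lit 110)) (XT.nd (nat_lit 78) (nat_lit 0) (nat_lit 0) (XT.lf (nat_lit 0) (nat_lit 5947972764) (nat_lit 76) (nat_lit 26178397343) (nat_lit 152) (nat_lit 52161688475) (nat_lit 11) (nat_lit 5) (nat_lit 12) (nat_lit 5) (nat_lit 13) (nat_lit 4) (nat_lit 400) (nat_lit 271) (nat_lit 109)) (XT.lf (nat_lit 0) (nat_lit 22199528006) (nat_lit 76) (nat_lit 17939672929) (nat_lit 152) (nat_lit 46410728332) (nat_lit 11) (nat_lit 5) (nat_lit 12) (nat_lit 5) (nat_lit 13) (nat_lit 4) (nat_lit 401) (nat_lit 271) (nat_lit 108)))) (XT.nd (nat_lit 156) (nat_lit 0) (nat_lit 0) (XT.nd (nat_lit 78) (nat_lit 0) (nat_lit 0) (XT.lf (nat_lit 0) (nat_lit 38931081248) (nat_lit 76) (nat_lit 9457194811) (nat_lit 152) (nat_lit 40491505679) (nat_lit 11) (nat_lit 5) (nat_lit 12)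 (nat_lit 5) (nat_lit 13) (nat_lit 4) (nat_lit 402) (nat_lit 271) (nat_lit 107)) (XT.lf (nat_lit 0) (nat_lit 56157252295) (nat_lit 76) (nat_lit 723551116) (nat_lit 152) (nat_lit 34398848379) (nat_lit 11) (nat_lit 5) (nat_lit 12) (nat_lit 5) (nat_lit 13) (nat_lit 4) (nat_lit 403) (nat_lit 271) (nat_lit 106))) (XT.nd (nat_lit 78) (nat_lit 0) (nat_lit 0) (XT.lf (nat_lit 0) (nat_lit 65703689268) (nat_lit 152) (nat_lit 19938028878) (nat_lit 0) (nat_lit 8107533679) (nat_lit 11) (nat_lit 5) (nat_lit 13) (nat_lit 4) (nat_lit 11) (nat_lit 4) (nat_lit 404) (nat_lit 271) (nat_lit 105)) (XT.lf (nat_lit 0) (nat_lit 74794606333) (nat_lit 152) (nat_lit 4312284127) (nat_lit 0) (nat_lit 17185950387) (nat_lit 11) (nat_lit 5) (nat_lit 13) (nat_lit 4) (nat_lit 11) (nat_lit 4) (nat_lit 405) (nat_lit 271) (nat_lit 104))))))) (XT.nd (nat_lit 31044) (nat_lit 0) (nat_lit 12312) (XT.nd (nat_lit 30498) (nat_lit 0) (nat_lit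 17860) (XT.nd (nat_lit 30264) (nat_lit 0) (nat_lit 19380) (XT.nd (nat_lit 78) (nat_lit 0) (nat_lit 0) (XT.lf (nat_lit 0) (nat_lit 12009797953) (nat_lit 76) (nat_lit 72260190480) (nat_lit 76) (nat_lit 14639398266) (nat_lit 10) (nat_lit 4) (nat_lit 11) (nat_lit 5) (nat_lit 11) (nat_lit 4) (nat_lit 406) (nat_lit 271) (nat_lit 103)) (XT.nd (nat_lit 30108) (nat_lit 0) (nat_lit 19380) (XT.lf (nat_lit 0) (nat_lit 28903217227) (nat_lit 76) (nat_lit 65166295758) (nat_lit 76) (nat_lit 7533720760) (nat_lit 10) (nat_lit 4) (nat_lit 11) (nat_lit 5) (nat_lit 11) (nat_lit 4) (nat_lit 407) (nat_lit 271) (nat_lit 102)) (XT.lf (nat_lit 0) (nat_lit 457057456) (nat_lit 0) (nat_lit 457057456) (nat_lit 684) (nat_lit 2620656713) (nat_lit 265) (nat_lit 5) (nat_lit 265) (nat_lit 3) (nat_lit 274) (nat_lit 3) (nat_lit 272) (nat_lit 272) (nat_lit 236)))) (XT.nd (nat_lit 78) (nat_lit 0) (nat_lit 0) (XT.lf (nat_lit 0) (nat_lit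 3515205937) (nat_lit 684) (nat_lit 2926342893) (nat_lit 760) (nat_lit 681307076) (nat_lit 265) (nat_lit 5) (nat_lit 274) (nat_lit 3) (nat_lit 275) (nat_lit 5) (nat_lit 273) (nat_lit 272) (nat_lit 235)) (XT.nd (nat_lit 78) (nat_lit 0) (nat_lit 0) (XT.lf (nat_lit 76) (nat_lit 363034940) (nat_lit 0) (nat_lit 4838099769) (nat_lit 760) (nat_lit 1978297822) (nat_lit 266) (nat_lit 5) (nat_lit 265) (nat_lit 5) (nat_lit 275) (nat_lit 5) (nat_lit 274) (nat_lit 272) (nat_lit 234)) (XT.lf (nat_lit 76) (nat_lit 3776806966) (nat_lit 0) (nat_lit 3127728075) (nat_lit 760) (nat_lit 334276148) (nat_lit 266) (nat_lit 5) (nat_lit 265) (nat_lit 5) (nat_lit 275) (nat_lit 5) (nat_lit 275) (nat_lit 272) (nat_lit 233))))) (XT.nd (nat_lit 234) (nat_lit 760) (nat_lit 0) (XT.nd (nat_lit 78) (nat_lit 0) (nat_lit 76) (XT.lf (nat_lit 0) (nat_lit 1271005743) (nat_lit 760) (nat_lit 54649167) (nat_lit 836) (nat_lit 5975875721)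 (nat_lit 255) (nat_lit 5) (nat_lit 265) (nat_lit 5) (nat_lit 266) (nat_lit 5) (nat_lit 276) (nat_lit 272) (nat_lit 232)) (XT.nd (nat_lit 78) (nat_lit 0) (nat_lit 0) (XT.lf (nat_lit 0) (nat_lit 2897204956) (nat_lit 760) (nat_lit 3886592641) (nat_lit 836) (nat_lit 582952524) (nat_lit 256) (nat_lit 5) (nat_lit 266) (nat_lit 5) (nat_lit 267) (nat_lit 5) (nat_lit 277) (nat_lit 272) (nat_lit 231)) (XT.lf (nat_lit 0) (nat_lit 4527786338) (nat_lit 760) (nat_lit 360270228) (nat_lit 836) (nat_lit 2547300852) (nat_lit 256) (nat_lit 5) (nat_lit 266) (nat_lit 5) (nat_lit 267) (nat_lit 5) (nat_lit 278) (nat_lit 272) (nat_lit 230)))) (XT.nd (nat_lit 156) (nat_lit 0) (nat_lit 76) (XT.nd (nat_lit 78) (nat_lit 836) (nat_lit 0) (XT.lf (nat_lit 76) (nat_lit 3301946166) (nat_lit 0) (nat_lit 2880684741) (nat_lit 836) (nat_lit 1324227876) (nat_lit 257) (nat_lit 5) (nat_lit 256) (nat_lit 5) (nat_lit 267) (nat_lit 5)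 (nat_lit 279) (nat_lit 272) (nat_lit 229)) (XT.lf (nat_lit 0) (nat_lit 248590789) (nat_lit 836) (nat_lit 537156754) (nat_lit 912) (nat_lit 6796321171) (nat_lit 245) (nat_lit 5) (nat_lit 256) (nat_lit 5) (nat_lit 257) (nat_lit 5) (nat_lit 280) (nat_lit 272) (nat_lit 228))) (XT.nd (nat_lit 78) (nat_lit 0) (nat_lit 0) (XT.lf (nat_lit 0) (nat_lit 1833013022) (nat_lit 836) (nat_lit 4416825355) (nat_lit 912) (nat_lit 1409660246) (nat_lit 246) (nat_lit 5) (nat_lit 257) (nat_lit 5) (nat_lit 258) (nat_lit 5) (nat_lit 281) (nat_lit 272) (nat_lit 227)) (XT.lf (nat_lit 0) (nat_lit 3425565680) (nat_lit 836) (nat_lit 635697807) (nat_lit 912) (nat_lit 3679255502) (nat_lit 246) (nat_lit 5) (nat_lit 257) (nat_lit 5) (nat_lit 258) (nat_lit 5) (nat_lit 282) (nat_lit 272) (nat_lit 226)))))) (XT.nd (nat_lit 546) (nat_lit 3952) (nat_lit 0) (XT.nd (nat_lit 234) (nat_lit 836) (nat_lit 0) (XT.nd (nat_lit 78) (nat_lit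 836) (nat_lit 0) (XT.lf (nat_lit 76) (nat_lit 3288386095) (nat_lit 0) (nat_lit 1757992726) (nat_lit 912) (nat_lit 2778259628) (nat_lit 247) (nat_lit 5) (nat_lit 246) (nat_lit 5) (nat_lit 258) (nat_lit 5) (nat_lit 283) (nat_lit 272) (nat_lit 225)) (XT.nd (nat_lit 78) (nat_lit 912) (nat_lit 0) (XT.lf (nat_lit 0) (nat_lit 6678388779) (nat_lit 836) (nat_lit 609870724) (nat_lit 912) (nat_lit 624225402) (nat_lit 247) (nat_lit 5) (nat_lit 258) (nat_lit 5) (nat_lit 259) (nat_lit 5) (nat_lit 284) (nat_lit 272) (nat_lit 224)) (XT.lf (nat_lit 0) (nat_lit 351579431) (nat_lit 912) (nat_lit 4557209415) (nat_lit 988) (nat_lit 3094086839) (nat_lit 235) (nat_lit 5) (nat_lit 247) (nat_lit 5) (nat_lit 248) (nat_lit 5) (nat_lit 285) (nat_lit 272) (nat_lit 223)))) (XT.nd (nat_lit 156) (nat_lit 836) (nat_lit 0) (XT.nd (nat_lit 78) (nat_lit 0) (nat_lit 76) (XT.lf (nat_lit 0) (nat_lit 1918408371) (nat_lit 912) (nat_lit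 508371343) (nat_lit 988) (nat_lit 5670154040) (nat_lit 235) (nat_lit 5) (nat_lit 247) (nat_lit 5) (nat_lit 248) (nat_lit 5) (nat_lit 286) (nat_lit 272) (nat_lit 222)) (XT.lf (nat_lit 0) (nat_lit 3523077150) (nat_lit 912) (nat_lit 4496431843) (nat_lit 76) (nat_lit 174651122) (nat_lit 236) (nat_lit 5) (nat_lit 248) (nat_lit 5) (nat_lit 237) (nat_lit 5) (nat_lit 287) (nat_lit 272) (nat_lit 221))) (XT.nd (nat_lit 78) (nat_lit 912) (nat_lit 0) (XT.lf (nat_lit 0) (nat_lit 5159788732) (nat_lit 912) (nat_lit 313625417) (nat_lit 76) (nat_lit 2821441547) (nat_lit 236) (nat_lit 5) (nat_lit 248) (nat_lit 5) (nat_lit 237) (nat_lit 5) (nat_lit 288) (nat_lit 272) (nat_lit 220)) (XT.lf (nat_lit 0) (nat_lit 4038688345) (nat_lit 912) (nat_lit 2801746181) (nat_lit 988) (nat_lit 1558360120) (nat_lit 224) (nat_lit 5) (nat_lit 236) (nat_lit 5) (nat_lit 237) (nat_lit 5) (nat_lit 289) (nat_lit 272) (nat_lit 219)))))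 (XT.nd (nat_lit 234) (nat_lit 1824) (nat_lit 0) (XT.nd (nat_lit 78) (nat_lit 2052) (nat_lit 0) (XT.lf (nat_lit 0) (nat_lit 24035545) (nat_lit 988) (nat_lit 13793737) (nat_lit 76) (nat_lit 8469277104) (nat_lit 223) (nat_lit 5) (nat_lit 236) (nat_lit 5) (nat_lit 224) (nat_lit 5) (nat_lit 290) (nat_lit 272) (nat_lit 218)) (XT.nd (nat_lit 78) (nat_lit 1064) (nat_lit 0) (XT.lf (nat_lit 0) (nat_lit 1651244868) (nat_lit 1064) (nat_lit 4144931209) (nat_lit 76) (nat_lit 2821230385) (nat_lit 210) (nat_lit 5) (nat_lit 224) (nat_lit 5) (nat_lit 211) (nat_lit 5) (nat_lit 291) (nat_lit 272) (nat_lit 217)) (XT.lf (nat_lit 0) (nat_lit 333353304) (nat_lit 1064) (nat_lit 2956349592) (nat_lit 1140) (nat_lit 5442499633) (nat_lit 196) (nat_lit 5) (nat_lit 210) (nat_lit 5) (nat_lit 211) (nat_lit 5) (nat_lit 292) (nat_lit 272) (nat_lit 216)))) (XT.nd (nat_lit 156) (nat_lit 684) (nat_lit 0) (XT.nd (nat_lit 78) (nat_lit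 1140) (nat_lit 0) (XT.lf (nat_lit 0) (nat_lit 4978914008) (nat_lit 1140) (nat_lit 3854701898) (nat_lit 76) (nat_lit 16836806) (nat_lit 196) (nat_lit 5) (nat_lit 211) (nat_lit 5) (nat_lit 197) (nat_lit 5) (nat_lit 293) (nat_lit 272) (nat_lit 215)) (XT.lf (nat_lit 0) (nat_lit 776352172) (nat_lit 1140) (nat_lit 5939989054) (nat_lit 1216) (nat_lit 2256039502) (nat_lit 181) (nat_lit 5) (nat_lit 196) (nat_lit 5) (nat_lit 197) (nat_lit 5) (nat_lit 294) (nat_lit 272) (nat_lit 214))) (XT.nd (nat_lit 78) (nat_lit 684) (nat_lit 0) (XT.lf (nat_lit 0) (nat_lit 5590405202) (nat_lit 1140) (nat_lit 2916022806) (nat_lit 1216) (nat_lit 591577348) (nat_lit 181) (nat_lit 5) (nat_lit 196) (nat_lit 5) (nat_lit 197) (nat_lit 5) (nat_lit 295) (nat_lit 272) (nat_lit 213)) (XT.lf (nat_lit 0) (nat_lit 1077895266) (nat_lit 684) (nat_lit 7928703215) (nat_lit 76) (nat_lit 221218563) (nat_lit 172) (nat_lit 5) (nat_lit 181)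 (nat_lit 5) (nat_lit 173) (nat_lit 5) (nat_lit 296) (nat_lit 272) (nat_lit 212))))))))
noncomputable def xc137 : XT := (XT.nd (nat_lit 2028) (nat_lit 3572) (nat_lit 0) (XT.nd (nat_lit 1014) (nat_lit 2356) (nat_lit 0) (XT.nd (nat_lit 468) (nat_lit 1976) (nat_lit 0) (XT.nd (nat_lit 234) (nat_lit 1140) (nat_lit 0) (XT.nd (nat_lit 78) (nat_lit 608) (nat_lit 0) (XT.lf (nat_lit 0) (nat_lit 2813304219) (nat_lit 684) (nat_lit 3109184188) (nat_lit 76) (nat_lit 3438076907) (nat_lit 172) (nat_lit 5) (nat_lit 181) (nat_lit 5) (nat_lit 173) (nat_lit 5) (nat_lit 297) (nat_lit 272) (nat_lit 211)) (XT.nd (nat_lit 78) (nat_lit 0) (nat_lit 0) (XT.lf (nat_lit 0) (nat_lit 1856609851) (nat_lit 608) (nat_lit 2726187401) (nat_lit 684) (nat_lit 4915086882) (nat_lit 164) (nat_lit 5) (nat_lit 172) (nat_lit 5) (nat_lit 173) (nat_lit 5) (nat_lit 298) (nat_lit 272) (nat_lit 210)) (XT.lf (nat_lit 0) (nat_lit 6407421731) (nat_lit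 684) (nat_lit 2644329763) (nat_lit 76) (nat_lit 587556958) (nat_lit 164) (nat_lit 5) (nat_lit 173) (nat_lit 5) (nat_lit 165) (nat_lit 5) (nat_lit 299) (nat_lit 272) (nat_lit 209)))) (XT.nd (nat_lit 78) (nat_lit 608) (nat_lit 0) (XT.lf (nat_lit 0) (nat_lit 2489834778) (nat_lit 532) (nat_lit 5813796682) (nat_lit 608) (nat_lit 1480884601) (nat_lit 157) (nat_lit 5) (nat_lit 164) (nat_lit 5) (nat_lit 165) (nat_lit 5) (nat_lit 300) (nat_lit 272) (nat_lit 208)) (XT.nd (nat_lit 78) (nat_lit 532) (nat_lit 0) (XT.lf (nat_lit 0) (nat_lit 309530964) (nat_lit 608) (nat_lit 2139075927) (nat_lit 76) (nat_lit 7485627898) (nat_lit 156) (nat_lit 5) (nat_lit 164) (nat_lit 5) (nat_lit 157) (nat_lit 5) (nat_lit 301) (nat_lit 272) (nat_lit 207)) (XT.lf (nat_lit 0) (nat_lit 2131929106) (nat_lit 608) (nat_lit 6913299456) (nat_lit 76) (nat_lit 1042577671) (nat_lit 149) (nat_lit 5) (nat_lit 157) (nat_lit 5) (nat_lit 150)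 (nat_lit 5) (nat_lit 302) (nat_lit 272) (nat_lit 206))))) (XT.nd (nat_lit 234) (nat_lit 1520) (nat_lit 0) (XT.nd (nat_lit 78) (nat_lit 456) (nat_lit 0) (XT.lf (nat_lit 0) (nat_lit 4022877772) (nat_lit 608) (nat_lit 1612765348) (nat_lit 76) (nat_lit 4609966177) (nat_lit 149) (nat_lit 5) (nat_lit 157) (nat_lit 5) (nat_lit 150) (nat_lit 5) (nat_lit 303) (nat_lit 272) (nat_lit 205)) (XT.nd (nat_lit 78) (nat_lit 0) (nat_lit 0) (XT.lf (nat_lit 0) (nat_lit 3889362820) (nat_lit 456) (nat_lit 2087336884) (nat_lit 532) (nat_lit 4431302046) (nat_lit 143) (nat_lit 5) (nat_lit 149) (nat_lit 5) (nat_lit 150) (nat_lit 5) (nat_lit 304) (nat_lit 272) (nat_lit 204)) (XT.lf (nat_lit 0) (nat_lit 7989978492) (nat_lit 532) (nat_lit 1034316949) (nat_lit 76) (nat_lit 1550983755) (nat_lit 143) (nat_lit 5) (nat_lit 150) (nat_lit 5) (nat_lit 144) (nat_lit 5) (nat_lit 305) (nat_lit 272) (nat_lit 203)))) (XT.nd (nat_lit 156)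 (nat_lit 912) (nat_lit 0) (XT.nd (nat_lit 78) (nat_lit 76) (nat_lit 0) (XT.lf (nat_lit 0) (nat_lit 4651701322) (nat_lit 532) (nat_lit 5447557576) (nat_lit 608) (nat_lit 647285337) (nat_lit 136) (nat_lit 5) (nat_lit 143) (nat_lit 5) (nat_lit 144) (nat_lit 5) (nat_lit 306) (nat_lit 272) (nat_lit 202)) (XT.lf (nat_lit 0) (nat_lit 1303547600) (nat_lit 608) (nat_lit 439439349) (nat_lit 76) (nat_lit 9180176560) (nat_lit 135) (nat_lit 5) (nat_lit 143) (nat_lit 5) (nat_lit 136) (nat_lit 5) (nat_lit 307) (nat_lit 272) (nat_lit 201))) (XT.nd (nat_lit 78) (nat_lit 456) (nat_lit 0) (XT.lf (nat_lit 0) (nat_lit 3344100203) (nat_lit 532) (nat_lit 5671321740) (nat_lit 76) (nat_lit 2088175216) (nat_lit 129) (nat_lit 5) (nat_lit 136) (nat_lit 5) (nat_lit 130) (nat_lit 5) (nat_lit 308) (nat_lit 272) (nat_lit 200)) (XT.lf (nat_lit 0) (nat_lit 152722380) (nat_lit 456) (nat_lit 5288156858) (nat_lit 532) (nat_lit 5848747484)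 (nat_lit 123) (nat_lit 5) (nat_lit 129) (nat_lit 5) (nat_lit 130) (nat_lit 5) (nat_lit 309) (nat_lit 272) (nat_lit 199)))))) (XT.nd (nat_lit 468) (nat_lit 1140) (nat_lit 0) (XT.nd (nat_lit 234) (nat_lit 760) (nat_lit 0) (XT.nd (nat_lit 78) (nat_lit 456) (nat_lit 0) (XT.lf (nat_lit 0) (nat_lit 6235270320) (nat_lit 456) (nat_lit 1394872746) (nat_lit 532) (nat_lit 3850238895) (nat_lit 123) (nat_lit 5) (nat_lit 129) (nat_lit 5) (nat_lit 130) (nat_lit 5) (nat_lit 310) (nat_lit 272) (nat_lit 198)) (XT.nd (nat_lit 78) (nat_lit 76) (nat_lit 0) (XT.lf (nat_lit 0) (nat_lit 781218977) (nat_lit 380) (nat_lit 9109588351) (nat_lit 456) (nat_lit 1785912148) (nat_lit 118) (nat_lit 5) (nat_lit 123) (nat_lit 5) (nat_lit 124) (nat_lit 5) (nat_lit 311) (nat_lit 272) (nat_lit 197)) (XT.lf (nat_lit 0) (nat_lit 374262339) (nat_lit 456) (nat_lit 4831671705) (nat_lit 76) (nat_lit 6671727643) (nat_lit 117) (nat_lit 5)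 (nat_lit 123) (nat_lit 5) (nat_lit 118) (nat_lit 5) (nat_lit 312) (nat_lit 272) (nat_lit 196)))) (XT.nd (nat_lit 78) (nat_lit 380) (nat_lit 0) (XT.lf (nat_lit 0) (nat_lit 1391933739) (nat_lit 380) (nat_lit 1158831152) (nat_lit 456) (nat_lit 9533742906) (nat_lit 112) (nat_lit 5) (nat_lit 117) (nat_lit 5) (nat_lit 118) (nat_lit 5) (nat_lit 313) (nat_lit 272) (nat_lit 195)) (XT.nd (nat_lit 78) (nat_lit 380) (nat_lit 0) (XT.lf (nat_lit 0) (nat_lit 4845204185) (nat_lit 456) (nat_lit 4456262537) (nat_lit 76) (nat_lit 2994541120) (nat_lit 112) (nat_lit 5) (nat_lit 118) (nat_lit 5) (nat_lit 113) (nat_lit 5) (nat_lit 314) (nat_lit 272) (nat_lit 194)) (XT.lf (nat_lit 0) (nat_lit 1962855647) (nat_lit 380) (nat_lit 5251144554) (nat_lit 456) (nat_lit 5299713978) (nat_lit 107) (nat_lit 5) (nat_lit 112) (nat_lit 5) (nat_lit 113) (nat_lit 5) (nat_lit 315) (nat_lit 272) (nat_lit 193))))) (XT.nd (nat_lit 234) (nat_lit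 684) (nat_lit 0) (XT.nd (nat_lit 78) (nat_lit 456) (nat_lit 0) (XT.lf (nat_lit 0) (nat_lit 8635089915) (nat_lit 380) (nat_lit 1039378222) (nat_lit 456) (nat_lit 3062891534) (nat_lit 107) (nat_lit 5) (nat_lit 112) (nat_lit 5) (nat_lit 113) (nat_lit 5) (nat_lit 316) (nat_lit 272) (nat_lit 192)) (XT.nd (nat_lit 78) (nat_lit 76) (nat_lit 0) (XT.lf (nat_lit 0) (nat_lit 2526788707) (nat_lit 380) (nat_lit 9714219051) (nat_lit 456) (nat_lit 725764486) (nat_lit 102) (nat_lit 5) (nat_lit 107) (nat_lit 5) (nat_lit 108) (nat_lit 5) (nat_lit 317) (nat_lit 272) (nat_lit 191)) (XT.lf (nat_lit 0) (nat_lit 1677194748) (nat_lit 456) (nat_lit 3820656354) (nat_lit 76) (nat_lit 7703899273) (nat_lit 101) (nat_lit 5) (nat_lit 107) (nat_lit 5) (nat_lit 102) (nat_lit 5) (nat_lit 318) (nat_lit 272) (nat_lit 190)))) (XT.nd (nat_lit 156) (nat_lit 380) (nat_lit 0) (XT.nd (nat_lit 78) (nat_lit 0) (nat_lit 0) (XT.lf (nat_lit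 0) (nat_lit 3019095827) (nat_lit 304) (nat_lit 1124672575) (nat_lit 380) (nat_lit 9299633777) (nat_lit 97) (nat_lit 5) (nat_lit 101) (nat_lit 5) (nat_lit 102) (nat_lit 5) (nat_lit 319) (nat_lit 272) (nat_lit 189)) (XT.lf (nat_lit 0) (nat_lit 6733196452) (nat_lit 380) (nat_lit 3611875546) (nat_lit 76) (nat_lit 3345788428) (nat_lit 97) (nat_lit 5) (nat_lit 102) (nat_lit 5) (nat_lit 98) (nat_lit 5) (nat_lit 320) (nat_lit 272) (nat_lit 188))) (XT.nd (nat_lit 78) (nat_lit 0) (nat_lit 0) (XT.lf (nat_lit 0) (nat_lit 3431412236) (nat_lit 380) (nat_lit 5991079683) (nat_lit 456) (nat_lit 4522606916) (nat_lit 92) (nat_lit 5) (nat_lit 97) (nat_lit 5) (nat_lit 98) (nat_lit 5) (nat_lit 321) (nat_lit 272) (nat_lit 187)) (XT.lf (nat_lit 0) (nat_lit 10730986418) (nat_lit 380) (nat_lit 1476376697) (nat_lit 456) (nat_lit 1999175682) (nat_lit 92) (nat_lit 5) (nat_lit 97) (nat_lit 5) (nat_lit 98) (nat_lit 5) (nat_lit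 322) (nat_lit 272) (nat_lit 186))))))) (XT.nd (nat_lit 1014) (nat_lit 1368) (nat_lit 0) (XT.nd (nat_lit 468) (nat_lit 1216) (nat_lit 0) (XT.nd (nat_lit 234) (nat_lit 304) (nat_lit 0) (XT.nd (nat_lit 78) (nat_lit 304) (nat_lit 0) (XT.lf (nat_lit 0) (nat_lit 634592232) (nat_lit 380) (nat_lit 10692330084) (nat_lit 76) (nat_lit 3147356483) (nat_lit 87) (nat_lit 5) (nat_lit 92) (nat_lit 5) (nat_lit 88) (nat_lit 5) (nat_lit 323) (nat_lit 272) (nat_lit 185)) (XT.nd (nat_lit 78) (nat_lit 304) (nat_lit 0) (XT.lf (nat_lit 0) (nat_lit 3336349463) (nat_lit 380) (nat_lit 3484275369) (nat_lit 76) (nat_lit 7927977121) (nat_lit 87) (nat_lit 5) (nat_lit 92) (nat_lit 5) (nat_lit 88) (nat_lit 5) (nat_lit 324) (nat_lit 272) (nat_lit 184)) (XT.lf (nat_lit 0) (nat_lit 3989780219) (nat_lit 304) (nat_lit 2147436630) (nat_lit 380) (nat_lit 8893415164) (nat_lit 83) (nat_lit 5) (nat_lit 87) (nat_lit 5) (nat_lit 88) (nat_lit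 5) (nat_lit 325) (nat_lit 272) (nat_lit 183)))) (XT.nd (nat_lit 78) (nat_lit 304) (nat_lit 0) (XT.lf (nat_lit 0) (nat_lit 9063223146) (nat_lit 380) (nat_lit 3614923178) (nat_lit 76) (nat_lit 2641761646) (nat_lit 83) (nat_lit 5) (nat_lit 88) (nat_lit 5) (nat_lit 84) (nat_lit 5) (nat_lit 326) (nat_lit 272) (nat_lit 182)) (XT.nd (nat_lit 78) (nat_lit 0) (nat_lit 0) (XT.lf (nat_lit 0) (nat_lit 4064294293) (nat_lit 304) (nat_lit 8053582913) (nat_lit 380) (nat_lit 3498776818) (nat_lit 79) (nat_lit 5) (nat_lit 83) (nat_lit 5) (nat_lit 84) (nat_lit 5) (nat_lit 327) (nat_lit 272) (nat_lit 181)) (XT.lf (nat_lit 0) (nat_lit 12020724359) (nat_lit 304) (nat_lit 3260792281) (nat_lit 380) (nat_lit 640282774) (nat_lit 79) (nat_lit 5) (nat_lit 83) (nat_lit 5) (nat_lit 84) (nat_lit 5) (nat_lit 328) (nat_lit 272) (nat_lit 180))))) (XT.nd (nat_lit 234) (nat_lit 608) (nat_lit 0) (XT.nd (nat_lit 78) (nat_lit 228) (nat_lit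 0) (XT.lf (nat_lit 0) (nat_lit 2295375500) (nat_lit 380) (nat_lit 12242523191) (nat_lit 76) (nat_lit 1696461349) (nat_lit 74) (nat_lit 5) (nat_lit 79) (nat_lit 5) (nat_lit 75) (nat_lit 5) (nat_lit 329) (nat_lit 272) (nat_lit 179)) (XT.nd (nat_lit 78) (nat_lit 228) (nat_lit 0) (XT.lf (nat_lit 0) (nat_lit 5359716376) (nat_lit 380) (nat_lit 4419718530) (nat_lit 76) (nat_lit 6775083796) (nat_lit 74) (nat_lit 5) (nat_lit 79) (nat_lit 5) (nat_lit 75) (nat_lit 5) (nat_lit 330) (nat_lit 272) (nat_lit 178)) (XT.lf (nat_lit 0) (nat_lit 3683342014) (nat_lit 228) (nat_lit 4850006940) (nat_lit 304) (nat_lit 8350427719) (nat_lit 71) (nat_lit 5) (nat_lit 74) (nat_lit 5) (nat_lit 75) (nat_lit 5) (nat_lit 331) (nat_lit 272) (nat_lit 177)))) (XT.nd (nat_lit 156) (nat_lit 304) (nat_lit 0) (XT.nd (nat_lit 78) (nat_lit 304) (nat_lit 0) (XT.lf (nat_lit 0) (nat_lit 11831598480) (nat_lit 304) (nat_lit 5130620203) (nat_lit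 76) (nat_lit 259826409) (nat_lit 71) (nat_lit 5) (nat_lit 75) (nat_lit 5) (nat_lit 72) (nat_lit 5) (nat_lit 332) (nat_lit 272) (nat_lit 176)) (XT.lf (nat_lit 0) (nat_lit 3169372816) (nat_lit 304) (nat_lit 12120578987) (nat_lit 380) (nat_lit 2278689580) (nat_lit 67) (nat_lit 5) (nat_lit 71) (nat_lit 5) (nat_lit 72) (nat_lit 5) (nat_lit 333) (nat_lit 272) (nat_lit 175))) (XT.nd (nat_lit 78) (nat_lit 228) (nat_lit 0) (XT.lf (nat_lit 0) (nat_lit 943411927) (nat_lit 380) (nat_lit 6135807803) (nat_lit 76) (nat_lit 10845110264) (nat_lit 66) (nat_lit 5) (nat_lit 71) (nat_lit 5) (nat_lit 67) (nat_lit 5) (nat_lit 334) (nat_lit 272) (nat_lit 174)) (XT.lf (nat_lit 0) (nat_lit 2374231575) (nat_lit 228) (nat_lit 1848217963) (nat_lit 304) (nat_lit 14067393993) (nat_lit 63) (nat_lit 5) (nat_lit 66) (nat_lit 5) (nat_lit 67) (nat_lit 5) (nat_lit 335) (nat_lit 272) (nat_lit 173)))))) (XT.nd (nat_lit 546) (nat_lit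 608) (nat_lit 0) (XT.nd (nat_lit 234) (nat_lit 532) (nat_lit 0) (XT.nd (nat_lit 78) (nat_lit 228) (nat_lit 0) (XT.lf (nat_lit 0) (nat_lit 7679875941) (nat_lit 304) (nat_lit 7459028273) (nat_lit 76) (nat_lit 3525030623) (nat_lit 63) (nat_lit 5) (nat_lit 67) (nat_lit 5) (nat_lit 64) (nat_lit 5) (nat_lit 336) (nat_lit 272) (nat_lit 172)) (XT.nd (nat_lit 78) (nat_lit 0) (nat_lit 0) (XT.lf (nat_lit 0) (nat_lit 1232464319) (nat_lit 228) (nat_lit 10022608836) (nat_lit 304) (nat_lit 7793766803) (nat_lit 60) (nat_lit 5) (nat_lit 63) (nat_lit 5) (nat_lit 64) (nat_lit 5) (nat_lit 337) (nat_lit 272) (nat_lit 171)) (XT.lf (nat_lit 0) (nat_lit 10313305803) (nat_lit 228) (nat_lit 4683678983) (nat_lit 304) (nat_lit 4446535844) (nat_lit 60) (nat_lit 5) (nat_lit 63) (nat_lit 5) (nat_lit 64) (nat_lit 5) (nat_lit 338) (nat_lit 272) (nat_lit 170)))) (XT.nd (nat_lit 156) (nat_lit 228) (nat_lit 0) (XT.nd (nat_lit 78)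 (nat_lit 304) (nat_lit 0) (XT.lf (nat_lit 0) (nat_lit 18843512317) (nat_lit 304) (nat_lit 215293522) (nat_lit 76) (nat_lit 791476925) (nat_lit 60) (nat_lit 5) (nat_lit 64) (nat_lit 5) (nat_lit 61) (nat_lit 5) (nat_lit 339) (nat_lit 272) (nat_lit 169)) (XT.lf (nat_lit 0) (nat_lit 2606434244) (nat_lit 304) (nat_lit 11216764323) (nat_lit 76) (nat_lit 6441736841) (nat_lit 56) (nat_lit 5) (nat_lit 60) (nat_lit 5) (nat_lit 57) (nat_lit 5) (nat_lit 340) (nat_lit 272) (nat_lit 168))) (XT.nd (nat_lit 78) (nat_lit 228) (nat_lit 0) (XT.lf (nat_lit 0) (nat_lit 6295025178) (nat_lit 304) (nat_lit 2131366855) (nat_lit 76) (nat_lit 12265730597) (nat_lit 56) (nat_lit 5) (nat_lit 60) (nat_lit 5) (nat_lit 57) (nat_lit 5) (nat_lit 341) (nat_lit 272) (nat_lit 167)) (XT.lf (nat_lit 0) (nat_lit 7347277159) (nat_lit 228) (nat_lit 2803088858) (nat_lit 304) (nat_lit 10980087171) (nat_lit 53) (nat_lit 5) (nat_lit 56) (nat_lit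 5) (nat_lit 57) (nat_lit 5) (nat_lit 342) (nat_lit 272) (nat_lit 166))))) (XT.nd (nat_lit 234) (nat_lit 380) (nat_lit 0) (XT.nd (nat_lit 78) (nat_lit 228) (nat_lit 0) (XT.lf (nat_lit 0) (nat_lit 14157428880) (nat_lit 304) (nat_lit 4479087473) (nat_lit 76) (nat_lit 2944345633) (nat_lit 53) (nat_lit 5) (nat_lit 57) (nat_lit 5) (nat_lit 54) (nat_lit 5) (nat_lit 343) (nat_lit 272) (nat_lit 165)) (XT.nd (nat_lit 78) (nat_lit 76) (nat_lit 0) (XT.lf (nat_lit 0) (nat_lit 5154797343) (nat_lit 152) (nat_lit 13193225086) (nat_lit 228) (nat_lit 3694870935) (nat_lit 51) (nat_lit 5) (nat_lit 53) (nat_lit 5) (nat_lit 54) (nat_lit 5) (nat_lit 344) (nat_lit 272) (nat_lit 164)) (XT.lf (nat_lit 0) (nat_lit 174450609) (nat_lit 228) (nat_lit 7371991180) (nat_lit 76) (nat_lit 14971358957) (nat_lit 50) (nat_lit 5) (nat_lit 53) (nat_lit 5) (nat_lit 51) (nat_lit 5) (nat_lit 345) (nat_lit 272) (nat_lit 163)))) (XT.nd (nat_lit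 156) (nat_lit 152) (nat_lit 0) (XT.nd (nat_lit 78) (nat_lit 0) (nat_lit 0) (XT.lf (nat_lit 0) (nat_lit 2418626465) (nat_lit 228) (nat_lit 1676682136) (nat_lit 304) (nat_lit 18910266702) (nat_lit 47) (nat_lit 5) (nat_lit 50) (nat_lit 5) (nat_lit 51) (nat_lit 5) (nat_lit 346) (nat_lit 272) (nat_lit 162)) (XT.lf (nat_lit 0) (nat_lit 8237553328) (nat_lit 304) (nat_lit 10916108547) (nat_lit 76) (nat_lit 4351217170) (nat_lit 47) (nat_lit 5) (nat_lit 51) (nat_lit 5) (nat_lit 48) (nat_lit 5) (nat_lit 347) (nat_lit 272) (nat_lit 161))) (XT.nd (nat_lit 78) (nat_lit 152) (nat_lit 0) (XT.lf (nat_lit 0) (nat_lit 12507639166) (nat_lit 304) (nat_lit 992815481) (nat_lit 76) (nat_lit 10518608563) (nat_lit 47) (nat_lit 5) (nat_lit 51) (nat_lit 5) (nat_lit 48) (nat_lit 5) (nat_lit 348) (nat_lit 272) (nat_lit 160)) (XT.lf (nat_lit 0) (nat_lit 9390970145) (nat_lit 152) (nat_lit 7592481570) (nat_lit 228) (nat_lit 7562900737)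 (nat_lit 45) (nat_lit 5) (nat_lit 47) (nat_lit 5) (nat_lit 48) (nat_lit 5) (nat_lit 349) (nat_lit 272) (nat_lit 159))))))))
noncomputable def xc138 : XT := (XT.nd (nat_lit 2028) (nat_lit 912) (nat_lit 0) (XT.nd (nat_lit 1014) (nat_lit 684) (nat_lit 0) (XT.nd (nat_lit 468) (nat_lit 532) (nat_lit 0) (XT.nd (nat_lit 234) (nat_lit 152) (nat_lit 0) (XT.nd (nat_lit 78) (nat_lit 304) (nat_lit 0) (XT.lf (nat_lit 0) (nat_lit 20086363769) (nat_lit 152) (nat_lit 1504726397) (nat_lit 228) (nat_lit 3498451693) (nat_lit 45) (nat_lit 5) (nat_lit 47) (nat_lit 5) (nat_lit 48) (nat_lit 5) (nat_lit 350) (nat_lit 272) (nat_lit 158)) (XT.nd (nat_lit 78) (nat_lit 0) (nat_lit 0) (XT.lf (nat_lit 0) (nat_lit 761803990) (nat_lit 304) (nat_lit 20158865825) (nat_lit 76) (nat_lit 4725547407) (nat_lit 41) (nat_lit 5) (nat_lit 45) (nat_lit 5) (nat_lit 42) (nat_lit 5) (nat_lit 351) (nat_lit 272) (nat_lit 157)) (XT.lf (nat_lit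 0) (nat_lit 5133327827) (nat_lit 304) (nat_lit 9892975892) (nat_lit 76) (nat_lit 11190644058) (nat_lit 41) (nat_lit 5) (nat_lit 45) (nat_lit 5) (nat_lit 42) (nat_lit 5) (nat_lit 352) (nat_lit 272) (nat_lit 156)))) (XT.nd (nat_lit 78) (nat_lit 0) (nat_lit 0) (XT.lf (nat_lit 0) (nat_lit 674618971) (nat_lit 152) (nat_lit 8956072101) (nat_lit 228) (nat_lit 17174275504) (nat_lit 39) (nat_lit 5) (nat_lit 41) (nat_lit 5) (nat_lit 42) (nat_lit 5) (nat_lit 353) (nat_lit 272) (nat_lit 155)) (XT.nd (nat_lit 78) (nat_lit 0) (nat_lit 0) (XT.lf (nat_lit 0) (nat_lit 11742792523) (nat_lit 152) (nat_lit 2608449625) (nat_lit 228) (nat_lit 13056742713) (nat_lit 39) (nat_lit 5) (nat_lit 41) (nat_lit 5) (nat_lit 42) (nat_lit 5) (nat_lit 354) (nat_lit 272) (nat_lit 154)) (XT.lf (nat_lit 0) (nat_lit 19239818537) (nat_lit 228) (nat_lit 4942815565) (nat_lit 76) (nat_lit 3845674060) (nat_lit 39) (nat_lit 5) (nat_lit 42)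 (nat_lit 5) (nat_lit 40) (nat_lit 5) (nat_lit 355) (nat_lit 272) (nat_lit 153))))) (XT.nd (nat_lit 234) (nat_lit 304) (nat_lit 0) (XT.nd (nat_lit 78) (nat_lit 76) (nat_lit 0) (XT.lf (nat_lit 0) (nat_lit 6177545237) (nat_lit 152) (nat_lit 18171681621) (nat_lit 228) (nat_lit 4315795595) (nat_lit 37) (nat_lit 5) (nat_lit 39) (nat_lit 5) (nat_lit 40) (nat_lit 5) (nat_lit 356) (nat_lit 272) (nat_lit 152)) (XT.nd (nat_lit 78) (nat_lit 0) (nat_lit 0) (XT.lf (nat_lit 0) (nat_lit 324804396) (nat_lit 228) (nat_lit 11608245124) (nat_lit 76) (nat_lit 17386528715) (nat_lit 36) (nat_lit 5) (nat_lit 39) (nat_lit 5) (nat_lit 37) (nat_lit 5) (nat_lit 357) (nat_lit 272) (nat_lit 151)) (XT.lf (nat_lit 0) (nat_lit 5007197825) (nat_lit 228) (nat_lit 463281138) (nat_lit 76) (nat_lit 24522336228) (nat_lit 36) (nat_lit 5) (nat_lit 39) (nat_lit 5) (nat_lit 37) (nat_lit 5) (nat_lit 358) (nat_lit 272) (nat_lit 150)))) (XT.nd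 (nat_lit 156) (nat_lit 152) (nat_lit 0) (XT.nd (nat_lit 78) (nat_lit 0) (nat_lit 0) (XT.lf (nat_lit 0) (nat_lit 9939922991) (nat_lit 228) (nat_lit 19478198034) (nat_lit 76) (nat_lit 1264838235) (nat_lit 34) (nat_lit 5) (nat_lit 37) (nat_lit 5) (nat_lit 35) (nat_lit 5) (nat_lit 359) (nat_lit 272) (nat_lit 149)) (XT.lf (nat_lit 0) (nat_lit 15069216702) (nat_lit 228) (nat_lit 8233002706) (nat_lit 76) (nat_lit 8090136275) (nat_lit 34) (nat_lit 5) (nat_lit 37) (nat_lit 5) (nat_lit 35) (nat_lit 5) (nat_lit 360) (nat_lit 272) (nat_lit 148))) (XT.nd (nat_lit 78) (nat_lit 0) (nat_lit 0) (XT.lf (nat_lit 0) (nat_lit 3398914720) (nat_lit 152) (nat_lit 16976146061) (nat_lit 228) (nat_lit 11747298542) (nat_lit 32) (nat_lit 5) (nat_lit 34) (nat_lit 5) (nat_lit 35) (nat_lit 5) (nat_lit 361) (nat_lit 272) (nat_lit 147)) (XT.lf (nat_lit 0) (nat_lit 15531765587) (nat_lit 152) (nat_lit 10381580757) (nat_lit 228)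 (nat_lit 6958724055) (nat_lit 32) (nat_lit 5) (nat_lit 34) (nat_lit 5) (nat_lit 35) (nat_lit 5) (nat_lit 362) (nat_lit 272) (nat_lit 146)))))) (XT.nd (nat_lit 468) (nat_lit 304) (nat_lit 0) (XT.nd (nat_lit 234) (nat_lit 152) (nat_lit 0) (XT.nd (nat_lit 78) (nat_lit 228) (nat_lit 0) (XT.lf (nat_lit 0) (nat_lit 28012298518) (nat_lit 152) (nat_lit 3595898439) (nat_lit 228) (nat_lit 2036368513) (nat_lit 32) (nat_lit 5) (nat_lit 34) (nat_lit 5) (nat_lit 35) (nat_lit 5) (nat_lit 363) (nat_lit 272) (nat_lit 145)) (XT.nd (nat_lit 78) (nat_lit 0) (nat_lit 0) (XT.lf (nat_lit 0) (nat_lit 3061089222) (nat_lit 228) (nat_lit 27962392989) (nat_lit 76) (nat_lit 3413284327) (nat_lit 29) (nat_lit 5) (nat_lit 32) (nat_lit 5) (nat_lit 30) (nat_lit 5) (nat_lit 364) (nat_lit 272) (nat_lit 144)) (XT.lf (nat_lit 0) (nat_lit 8354239260) (nat_lit 228) (nat_lit 16263769657) (nat_lit 76) (nat_lit 10631613652) (nat_lit 29)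 (nat_lit 5) (nat_lit 32) (nat_lit 5) (nat_lit 30) (nat_lit 5) (nat_lit 365) (nat_lit 272) (nat_lit 143)))) (XT.nd (nat_lit 78) (nat_lit 152) (nat_lit 0) (XT.lf (nat_lit 0) (nat_lit 13797112573) (nat_lit 228) (nat_lit 4229802524) (nat_lit 76) (nat_lit 18060225904) (nat_lit 29) (nat_lit 5) (nat_lit 32) (nat_lit 5) (nat_lit 30) (nat_lit 5) (nat_lit 366) (nat_lit 272) (nat_lit 142)) (XT.nd (nat_lit 78) (nat_lit 0) (nat_lit 0) (XT.lf (nat_lit 0) (nat_lit 8312224976) (nat_lit 152) (nat_lit 11162142284) (nat_lit 228) (nat_lit 17473289318) (nat_lit 27) (nat_lit 5) (nat_lit 29) (nat_lit 5) (nat_lit 30) (nat_lit 5) (nat_lit 367) (nat_lit 272) (nat_lit 141)) (XT.lf (nat_lit 0) (nat_lit 21302208640) (nat_lit 152) (nat_lit 4053748859) (nat_lit 228) (nat_lit 12477013905) (nat_lit 27) (nat_lit 5) (nat_lit 29) (nat_lit 5) (nat_lit 30) (nat_lit 5) (nat_lit 368) (nat_lit 272) (nat_lit 140))))) (XT.nd (nat_lit 234)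 (nat_lit 152) (nat_lit 0) (XT.nd (nat_lit 78) (nat_lit 152) (nat_lit 0) (XT.lf (nat_lit 0) (nat_lit 31436907960) (nat_lit 228) (nat_lit 4109139609) (nat_lit 76) (nat_lit 3198114923) (nat_lit 27) (nat_lit 5) (nat_lit 30) (nat_lit 5) (nat_lit 28) (nat_lit 4) (nat_lit 369) (nat_lit 272) (nat_lit 139)) (XT.nd (nat_lit 78) (nat_lit 76) (nat_lit 0) (XT.lf (nat_lit 0) (nat_lit 8802420589) (nat_lit 76) (nat_lit 29014363806) (nat_lit 152) (nat_lit 1862414065) (nat_lit 26) (nat_lit 5) (nat_lit 27) (nat_lit 5) (nat_lit 28) (nat_lit 4) (nat_lit 370) (nat_lit 272) (nat_lit 138)) (XT.lf (nat_lit 0) (nat_lit 3706349590) (nat_lit 152) (nat_lit 18506266779) (nat_lit 76) (nat_lit 18427582631) (nat_lit 25) (nat_lit 5) (nat_lit 27) (nat_lit 5) (nat_lit 26) (nat_lit 5) (nat_lit 371) (nat_lit 272) (nat_lit 137)))) (XT.nd (nat_lit 156) (nat_lit 0) (nat_lit 0) (XT.nd (nat_lit 78) (nat_lit 152) (nat_lit 0) (XT.lf (nat_lit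 0) (nat_lit 9396749674) (nat_lit 152) (nat_lit 5797031111) (nat_lit 76) (nat_lit 26435939118) (nat_lit 25) (nat_lit 5) (nat_lit 27) (nat_lit 5) (nat_lit 26) (nat_lit 5) (nat_lit 372) (nat_lit 272) (nat_lit 136)) (XT.lf (nat_lit 0) (nat_lit 7424821971) (nat_lit 152) (nat_lit 7896650746) (nat_lit 228) (nat_lit 27325549006) (nat_lit 23) (nat_lit 5) (nat_lit 25) (nat_lit 5) (nat_lit 26) (nat_lit 5) (nat_lit 373) (nat_lit 272) (nat_lit 135))) (XT.nd (nat_lit 78) (nat_lit 0) (nat_lit 0) (XT.lf (nat_lit 0) (nat_lit 21148752217) (nat_lit 152) (nat_lit 326060032) (nat_lit 228) (nat_lit 22218507614) (nat_lit 23) (nat_lit 5) (nat_lit 25) (nat_lit 5) (nat_lit 26) (nat_lit 5) (nat_lit 374) (nat_lit 272) (nat_lit 134)) (XT.lf (nat_lit 0) (nat_lit 27877079750) (nat_lit 228) (nat_lit 9571622863) (nat_lit 76) (nat_lit 7320377912) (nat_lit 23) (nat_lit 5) (nat_lit 26) (nat_lit 5) (nat_lit 24) (nat_lit 4) (nat_lit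 375) (nat_lit 272) (nat_lit 133))))))) (XT.nd (nat_lit 1014) (nat_lit 304) (nat_lit 0) (XT.nd (nat_lit 468) (nat_lit 304) (nat_lit 0) (XT.nd (nat_lit 234) (nat_lit 152) (nat_lit 0) (XT.nd (nat_lit 78) (nat_lit 76) (nat_lit 0) (XT.lf (nat_lit 0) (nat_lit 3849591408) (nat_lit 76) (nat_lit 30654780816) (nat_lit 152) (nat_lit 11371756384) (nat_lit 22) (nat_lit 5) (nat_lit 23) (nat_lit 5) (nat_lit 24) (nat_lit 4) (nat_lit 376) (nat_lit 272) (nat_lit 132)) (XT.nd (nat_lit 78) (nat_lit 76) (nat_lit 0) (XT.lf (nat_lit 0) (nat_lit 17856966649) (nat_lit 76) (nat_lit 23562985445) (nat_lit 152) (nat_lit 5593755194) (nat_lit 22) (nat_lit 5) (nat_lit 23) (nat_lit 5) (nat_lit 24) (nat_lit 4) (nat_lit 377) (nat_lit 272) (nat_lit 131)) (XT.lf (nat_lit 0) (nat_lit 343559402) (nat_lit 152) (nat_lit 15916745729) (nat_lit 76) (nat_lit 31925219572) (nat_lit 21) (nat_lit 5) (nat_lit 23) (nat_lit 5) (nat_lit 22) (nat_lit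 5) (nat_lit 378) (nat_lit 272) (nat_lit 130)))) (XT.nd (nat_lit 78) (nat_lit 152) (nat_lit 0) (XT.lf (nat_lit 0) (nat_lit 6339720966) (nat_lit 152) (nat_lit 2347030038) (nat_lit 76) (nat_lit 40704292372) (nat_lit 21) (nat_lit 5) (nat_lit 23) (nat_lit 5) (nat_lit 22) (nat_lit 5) (nat_lit 379) (nat_lit 272) (nat_lit 129)) (XT.nd (nat_lit 78) (nat_lit 0) (nat_lit 0) (XT.lf (nat_lit 0) (nat_lit 11849255722) (nat_lit 152) (nat_lit 773769744) (nat_lit 228) (nat_lit 38006487255) (nat_lit 19) (nat_lit 5) (nat_lit 21) (nat_lit 5) (nat_lit 22) (nat_lit 5) (nat_lit 380) (nat_lit 272) (nat_lit 128)) (XT.lf (nat_lit 0) (nat_lit 19183061411) (nat_lit 228) (nat_lit 25467805208) (nat_lit 76) (nat_lit 7251625330) (nat_lit 19) (nat_lit 5) (nat_lit 22) (nat_lit 5) (nat_lit 20) (nat_lit 4) (nat_lit 381) (nat_lit 272) (nat_lit 127))))) (XT.nd (nat_lit 234) (nat_lit 228) (nat_lit 0) (XT.nd (nat_lit 78) (nat_lit 76)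 (nat_lit 0) (XT.lf (nat_lit 0) (nat_lit 25941140927) (nat_lit 228) (nat_lit 11775076760) (nat_lit 76) (nat_lit 15497408284) (nat_lit 19) (nat_lit 5) (nat_lit 22) (nat_lit 5) (nat_lit 20) (nat_lit 4) (nat_lit 382) (nat_lit 272) (nat_lit 126)) (XT.nd (nat_lit 78) (nat_lit 0) (nat_lit 0) (XT.lf (nat_lit 0) (nat_lit 2363450239) (nat_lit 76) (nat_lit 30554999875) (nat_lit 152) (nat_lit 21645151894) (nat_lit 18) (nat_lit 5) (nat_lit 19) (nat_lit 5) (nat_lit 20) (nat_lit 4) (nat_lit 383) (nat_lit 272) (nat_lit 125)) (XT.lf (nat_lit 0) (nat_lit 17156516699) (nat_lit 76) (nat_lit 23061311244) (nat_lit 152) (nat_lit 15732869438) (nat_lit 18) (nat_lit 5) (nat_lit 19) (nat_lit 5) (nat_lit 20) (nat_lit 4) (nat_lit 384) (nat_lit 272) (nat_lit 124)))) (XT.nd (nat_lit 156) (nat_lit 228) (nat_lit 0) (XT.nd (nat_lit 78) (nat_lit 0) (nat_lit 0) (XT.lf (nat_lit 0) (nat_lit 32382701484) (nat_lit 76) (nat_lit 15347509099)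 (nat_lit 152) (nat_lit 9649376791) (nat_lit 18) (nat_lit 5) (nat_lit 19) (nat_lit 5) (nat_lit 20) (nat_lit 4) (nat_lit 385) (nat_lit 272) (nat_lit 123)) (XT.lf (nat_lit 0) (nat_lit 48055309028) (nat_lit 76) (nat_lit 7406853224) (nat_lit 152) (nat_lit 3389358280) (nat_lit 18) (nat_lit 5) (nat_lit 19) (nat_lit 5) (nat_lit 20) (nat_lit 4) (nat_lit 386) (nat_lit 272) (nat_lit 122))) (XT.nd (nat_lit 78) (nat_lit 0) (nat_lit 0) (XT.lf (nat_lit 0) (nat_lit 3038290556) (nat_lit 228) (nat_lit 56507471508) (nat_lit 76) (nat_lit 819784540) (nat_lit 15) (nat_lit 5) (nat_lit 18) (nat_lit 5) (nat_lit 16) (nat_lit 4) (nat_lit 387) (nat_lit 272) (nat_lit 121)) (XT.lf (nat_lit 0) (nat_lit 9768415865) (nat_lit 228) (nat_lit 42866598152) (nat_lit 76) (nat_lit 9283641798) (nat_lit 15) (nat_lit 5) (nat_lit 18) (nat_lit 5) (nat_lit 16) (nat_lit 4) (nat_lit 388) (nat_lit 272) (nat_lit 120)))))) (XT.nd (nat_lit 546)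 (nat_lit 228) (nat_lit 0) (XT.nd (nat_lit 234) (nat_lit 0) (nat_lit 0) (XT.nd (nat_lit 78) (nat_lit 76) (nat_lit 0) (XT.lf (nat_lit 0) (nat_lit 16694944537) (nat_lit 228) (nat_lit 28826406132) (nat_lit 76) (nat_lit 17997174769) (nat_lit 15) (nat_lit 5) (nat_lit 18) (nat_lit 5) (nat_lit 16) (nat_lit 4) (nat_lit 389) (nat_lit 272) (nat_lit 119)) (XT.nd (nat_lit 78) (nat_lit 76) (nat_lit 0) (XT.lf (nat_lit 0) (nat_lit 23823928879) (nat_lit 228) (nat_lit 14374627319) (nat_lit 76) (nat_lit 26967997219) (nat_lit 15) (nat_lit 5) (nat_lit 18) (nat_lit 5) (nat_lit 16) (nat_lit 4) (nat_lit 390) (nat_lit 272) (nat_lit 118)) (XT.lf (nat_lit 0) (nat_lit 511344221) (nat_lit 76) (nat_lit 30655169233) (nat_lit 152) (nat_lit 35697518864) (nat_lit 14) (nat_lit 5) (nat_lit 15) (nat_lit 5) (nat_lit 16) (nat_lit 4) (nat_lit 391) (nat_lit 272) (nat_lit 117)))) (XT.nd (nat_lit 156) (nat_lit 0) (nat_lit 0) (XT.nd (nat_lit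 78) (nat_lit 0) (nat_lit 0) (XT.lf (nat_lit 0) (nat_lit 16129313428) (nat_lit 76) (nat_lit 22740095157) (nat_lit 152) (nat_lit 29738827953) (nat_lit 14) (nat_lit 5) (nat_lit 15) (nat_lit 5) (nat_lit 16) (nat_lit 4) (nat_lit 392) (nat_lit 272) (nat_lit 116)) (XT.lf (nat_lit 0) (nat_lit 32206843802) (nat_lit 76) (nat_lit 14591573437) (nat_lit 152) (nat_lit 23606500734) (nat_lit 14) (nat_lit 5) (nat_lit 15) (nat_lit 5) (nat_lit 16) (nat_lit 4) (nat_lit 393) (nat_lit 272) (nat_lit 115))) (XT.nd (nat_lit 78) (nat_lit 0) (nat_lit 0) (XT.lf (nat_lit 0) (nat_lit 48757983670) (nat_lit 76) (nat_lit 6202484006) (nat_lit 152) (nat_lit 17295178863) (nat_lit 14) (nat_lit 5) (nat_lit 15) (nat_lit 5) (nat_lit 16) (nat_lit 4) (nat_lit 394) (nat_lit 272) (nat_lit 114)) (XT.lf (nat_lit 0) (nat_lit 63386093721) (nat_lit 152) (nat_lit 8388246119) (nat_lit 0) (nat_lit 2386997478) (nat_lit 14) (nat_lit 5) (nat_lit 16)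 (nat_lit 4) (nat_lit 14) (nat_lit 4) (nat_lit 395) (nat_lit 272) (nat_lit 113))))) (XT.nd (nat_lit 234) (nat_lit 76) (nat_lit 0) (XT.nd (nat_lit 78) (nat_lit 76) (nat_lit 0) (XT.lf (nat_lit 0) (nat_lit 7246121226) (nat_lit 76) (nat_lit 64944845672) (nat_lit 76) (nat_lit 3929439299) (nat_lit 13) (nat_lit 4) (nat_lit 14) (nat_lit 5) (nat_lit 14) (nat_lit 4) (nat_lit 396) (nat_lit 272) (nat_lit 112)) (XT.nd (nat_lit 78) (nat_lit 0) (nat_lit 0) (XT.lf (nat_lit 0) (nat_lit 3141787609) (nat_lit 152) (nat_lit 54653412602) (nat_lit 76) (nat_lit 20339719373) (nat_lit 12) (nat_lit 5) (nat_lit 14) (nat_lit 5) (nat_lit 13) (nat_lit 4) (nat_lit 397) (nat_lit 272) (nat_lit 111)) (XT.lf (nat_lit 0) (nat_lit 10341728201) (nat_lit 152) (nat_lit 40052907061) (nat_lit 76) (nat_lit 29814200889) (nat_lit 12) (nat_lit 5) (nat_lit 14) (nat_lit 5) (nat_lit 13) (nat_lit 4) (nat_lit 398) (nat_lit 272) (nat_lit 110))))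 (XT.nd (nat_lit 156) (nat_lit 76) (nat_lit 0) (XT.nd (nat_lit 78) (nat_lit 0) (nat_lit 0) (XT.lf (nat_lit 0) (nat_lit 17753351200) (nat_lit 152) (nat_lit 25022238451) (nat_lit 76) (nat_lit 39569511572) (nat_lit 12) (nat_lit 5) (nat_lit 14) (nat_lit 5) (nat_lit 13) (nat_lit 4) (nat_lit 399) (nat_lit 272) (nat_lit 109)) (XT.lf (nat_lit 0) (nat_lit 25383132782) (nat_lit 152) (nat_lit 9548273179) (nat_lit 76) (nat_lit 49614175482) (nat_lit 12) (nat_lit 5) (nat_lit 14) (nat_lit 5) (nat_lit 13) (nat_lit 4) (nat_lit 400) (nat_lit 272) (nat_lit 108))) (XT.nd (nat_lit 78) (nat_lit 0) (nat_lit 0) (XT.lf (nat_lit 0) (nat_lit 6509534154) (nat_lit 76) (nat_lit 26790779216) (nat_lit 152) (nat_lit 53510008978) (nat_lit 11) (nat_lit 5) (nat_lit 12) (nat_lit 5) (nat_lit 13) (nat_lit 4) (nat_lit 401) (nat_lit 272) (nat_lit 107)) (XT.lf (nat_lit 0) (nat_lit 23237477153) (nat_lit 76) (nat_lit 18309931033) (nat_lit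 152) (nat_lit 47592826735) (nat_lit 11) (nat_lit 5) (nat_lit 12) (nat_lit 5) (nat_lit 13) (nat_lit 4) (nat_lit 402) (nat_lit 272) (nat_lit 106))))))))
noncomputable def xc139 : XT := (XT.nd (nat_lit 32292) (nat_lit 0) (nat_lit 6232) (XT.nd (nat_lit 31200) (nat_lit 0) (nat_lit 12996) (XT.nd (nat_lit 30654) (nat_lit 0) (nat_lit 17860) (XT.nd (nat_lit 312) (nat_lit 76) (nat_lit 0) (XT.nd (nat_lit 78) (nat_lit 0) (nat_lit 0) (XT.lf (nat_lit 0) (nat_lit 40460143110) (nat_lit 76) (nat_lit 9577869797) (nat_lit 152) (nat_lit 41502150415) (nat_lit 11) (nat_lit 5) (nat_lit 12) (nat_lit 5) (nat_lit 13) (nat_lit 4) (nat_lit 403) (nat_lit 272) (nat_lit 105)) (XT.nd (nat_lit 156) (nat_lit 0) (nat_lit 0) (XT.lf (nat_lit 0) (nat_lit 58192580956) (nat_lit 76) (nat_lit 586965554) (nat_lit 152) (nat_lit 35232658068) (nat_lit 11) (nat_lit 5) (nat_lit 12) (nat_lit 5) (nat_lit 13) (nat_lit 4) (nat_lit 404) (nat_lit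 272) (nat_lit 104)) (XT.lf (nat_lit 0) (nat_lit 77221157877) (nat_lit 152) (nat_lit 4107100613) (nat_lit 0) (nat_lit 17847822844) (nat_lit 11) (nat_lit 5) (nat_lit 13) (nat_lit 4) (nat_lit 11) (nat_lit 4) (nat_lit 406) (nat_lit 272) (nat_lit 102)))) (XT.nd (nat_lit 30186) (nat_lit 0) (nat_lit 19380) (XT.lf (nat_lit 0) (nat_lit 12701364007) (nat_lit 76) (nat_lit 74277300074) (nat_lit 76) (nat_lit 14892525445) (nat_lit 10) (nat_lit 4) (nat_lit 11) (nat_lit 5) (nat_lit 11) (nat_lit 4) (nat_lit 407) (nat_lit 272) (nat_lit 101)) (XT.nd (nat_lit 78) (nat_lit 0) (nat_lit 0) (XT.lf (nat_lit 0) (nat_lit 1289261557) (nat_lit 0) (nat_lit 1289261557) (nat_lit 684) (nat_lit 1010266501) (nat_lit 265) (nat_lit 5) (nat_lit 265) (nat_lit 3) (nat_lit 274) (nat_lit 3) (nat_lit 273) (nat_lit 273) (nat_lit 234)) (XT.lf (nat_lit 0) (nat_lit 5918800252) (nat_lit 0) (nat_lit 873593170) (nat_lit 684) (nat_lit 443334831)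 (nat_lit 265) (nat_lit 5) (nat_lit 265) (nat_lit 3) (nat_lit 274) (nat_lit 3) (nat_lit 274) (nat_lit 273) (nat_lit 233))))) (XT.nd (nat_lit 234) (nat_lit 760) (nat_lit 0) (XT.nd (nat_lit 78) (nat_lit 0) (nat_lit 0) (XT.lf (nat_lit 0) (nat_lit 1125505366) (nat_lit 760) (nat_lit 5244923320) (nat_lit 836) (nat_lit 925936320) (nat_lit 255) (nat_lit 5) (nat_lit 265) (nat_lit 5) (nat_lit 266) (nat_lit 5) (nat_lit 275) (nat_lit 273) (nat_lit 232)) (XT.nd (nat_lit 78) (nat_lit 0) (nat_lit 0) (XT.lf (nat_lit 0) (nat_lit 2694831949) (nat_lit 760) (nat_lit 1857332267) (nat_lit 836) (nat_lit 2807757091) (nat_lit 255) (nat_lit 5) (nat_lit 265) (nat_lit 5) (nat_lit 266) (nat_lit 5) (nat_lit 276) (nat_lit 273) (nat_lit 231)) (XT.lf (nat_lit 76) (nat_lit 1631095655) (nat_lit 0) (nat_lit 2637814264) (nat_lit 836) (nat_lit 3157843337) (nat_lit 256) (nat_lit 5) (nat_lit 255) (nat_lit 5) (nat_lit 266) (nat_lit 5)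 (nat_lit 277) (nat_lit 273) (nat_lit 230)))) (XT.nd (nat_lit 156) (nat_lit 760) (nat_lit 0) (XT.nd (nat_lit 78) (nat_lit 0) (nat_lit 76) (XT.lf (nat_lit 76) (nat_lit 5229950291) (nat_lit 0) (nat_lit 622386907) (nat_lit 836) (nat_lit 1644485378) (nat_lit 256) (nat_lit 5) (nat_lit 255) (nat_lit 5) (nat_lit 266) (nat_lit 5) (nat_lit 278) (nat_lit 273) (nat_lit 229)) (XT.lf (nat_lit 76) (nat_lit 1346755994) (nat_lit 0) (nat_lit 6108677086) (nat_lit 836) (nat_lit 114489339) (nat_lit 257) (nat_lit 5) (nat_lit 256) (nat_lit 5) (nat_lit 267) (nat_lit 5) (nat_lit 279) (nat_lit 273) (nat_lit 228))) (XT.nd (nat_lit 78) (nat_lit 0) (nat_lit 0) (XT.lf (nat_lit 0) (nat_lit 1408076214) (nat_lit 836) (nat_lit 2583870123) (nat_lit 912) (nat_lit 3653679932) (nat_lit 245) (nat_lit 5) (nat_lit 256) (nat_lit 5) (nat_lit 257) (nat_lit 5) (nat_lit 280) (nat_lit 273) (nat_lit 227)) (XT.lf (nat_lit 76) (nat_lit 1152795290)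 (nat_lit 0) (nat_lit 1779786302) (nat_lit 912) (nat_lit 4792314205) (nat_lit 246) (nat_lit 5) (nat_lit 245) (nat_lit 5) (nat_lit 257) (nat_lit 5) (nat_lit 281) (nat_lit 273) (nat_lit 226)))))) (XT.nd (nat_lit 546) (nat_lit 4028) (nat_lit 0) (XT.nd (nat_lit 234) (nat_lit 912) (nat_lit 0) (XT.nd (nat_lit 78) (nat_lit 0) (nat_lit 0) (XT.lf (nat_lit 0) (nat_lit 4482840597) (nat_lit 836) (nat_lit 2790931427) (nat_lit 912) (nat_lit 533453836) (nat_lit 246) (nat_lit 5) (nat_lit 257) (nat_lit 5) (nat_lit 258) (nat_lit 5) (nat_lit 282) (nat_lit 273) (nat_lit 225)) (XT.nd (nat_lit 78) (nat_lit 0) (nat_lit 0) (XT.lf (nat_lit 76) (nat_lit 1073359562) (nat_lit 0) (nat_lit 4984550279) (nat_lit 912) (nat_lit 1834847492) (nat_lit 247) (nat_lit 5) (nat_lit 246) (nat_lit 5) (nat_lit 258) (nat_lit 5) (nat_lit 283) (nat_lit 273) (nat_lit 224)) (XT.lf (nat_lit 76) (nat_lit 5077483781) (nat_lit 0) (nat_lit 2582418921)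 (nat_lit 912) (nat_lit 321640139) (nat_lit 247) (nat_lit 5) (nat_lit 246) (nat_lit 5) (nat_lit 258) (nat_lit 5) (nat_lit 284) (nat_lit 273) (nat_lit 223)))) (XT.nd (nat_lit 156) (nat_lit 0) (nat_lit 76) (XT.nd (nat_lit 78) (nat_lit 0) (nat_lit 76) (XT.lf (nat_lit 76) (nat_lit 1105054337) (nat_lit 0) (nat_lit 70754705) (nat_lit 988) (nat_lit 6898010407) (nat_lit 235) (nat_lit 5) (nat_lit 234) (nat_lit 5) (nat_lit 247) (nat_lit 5) (nat_lit 285) (nat_lit 273) (nat_lit 222)) (XT.lf (nat_lit 0) (nat_lit 2719081454) (nat_lit 912) (nat_lit 2936306201) (nat_lit 988) (nat_lit 2513231830) (nat_lit 235) (nat_lit 5) (nat_lit 247) (nat_lit 5) (nat_lit 248) (nat_lit 5) (nat_lit 286) (nat_lit 273) (nat_lit 221))) (XT.nd (nat_lit 78) (nat_lit 0) (nat_lit 0) (XT.lf (nat_lit 76) (nat_lit 1206344334) (nat_lit 0) (nat_lit 3069517883) (nat_lit 988) (nat_lit 3991454510) (nat_lit 236) (nat_lit 5) (nat_lit 235) (nat_lit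 5) (nat_lit 248) (nat_lit 5) (nat_lit 287) (nat_lit 273) (nat_lit 220)) (XT.lf (nat_lit 76) (nat_lit 5500173686) (nat_lit 0) (nat_lit 364730347) (nat_lit 988) (nat_lit 2504571613) (nat_lit 236) (nat_lit 5) (nat_lit 235) (nat_lit 5) (nat_lit 248) (nat_lit 5) (nat_lit 288) (nat_lit 273) (nat_lit 219))))) (XT.nd (nat_lit 234) (nat_lit 2204) (nat_lit 0) (XT.nd (nat_lit 78) (nat_lit 1064) (nat_lit 0) (XT.lf (nat_lit 0) (nat_lit 1418756548) (nat_lit 912) (nat_lit 6077064343) (nat_lit 988) (nat_lit 979117850) (nat_lit 224) (nat_lit 5) (nat_lit 236) (nat_lit 5) (nat_lit 237) (nat_lit 5) (nat_lit 289) (nat_lit 273) (nat_lit 218)) (XT.nd (nat_lit 78) (nat_lit 988) (nat_lit 0) (XT.lf (nat_lit 0) (nat_lit 571156062) (nat_lit 988) (nat_lit 2732356265) (nat_lit 76) (nat_lit 5280226097) (nat_lit 223) (nat_lit 5) (nat_lit 236) (nat_lit 5) (nat_lit 224) (nat_lit 5) (nat_lit 290) (nat_lit 273) (nat_lit 217)) (XT.lf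 (nat_lit 0) (nat_lit 1711544158) (nat_lit 988) (nat_lit 412136212) (nat_lit 1064) (nat_lit 6572628217) (nat_lit 210) (nat_lit 5) (nat_lit 223) (nat_lit 5) (nat_lit 224) (nat_lit 5) (nat_lit 291) (nat_lit 273) (nat_lit 216)))) (XT.nd (nat_lit 156) (nat_lit 1140) (nat_lit 0) (XT.nd (nat_lit 78) (nat_lit 1064) (nat_lit 0) (XT.lf (nat_lit 0) (nat_lit 3735226166) (nat_lit 1064) (nat_lit 2525943792) (nat_lit 76) (nat_lit 2550770741) (nat_lit 210) (nat_lit 5) (nat_lit 224) (nat_lit 5) (nat_lit 211) (nat_lit 5) (nat_lit 292) (nat_lit 273) (nat_lit 215)) (XT.lf (nat_lit 0) (nat_lit 2069597734) (nat_lit 1064) (nat_lit 3310578264) (nat_lit 1140) (nat_lit 3551370566) (nat_lit 196) (nat_lit 5) (nat_lit 210) (nat_lit 5) (nat_lit 211) (nat_lit 5) (nat_lit 293) (nat_lit 273) (nat_lit 214))) (XT.nd (nat_lit 78) (nat_lit 1140) (nat_lit 0) (XT.lf (nat_lit 0) (nat_lit 6821763342) (nat_lit 1064) (nat_lit 240117013)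 (nat_lit 1140) (nat_lit 1993292941) (nat_lit 196) (nat_lit 5) (nat_lit 210) (nat_lit 5) (nat_lit 211) (nat_lit 5) (nat_lit 294) (nat_lit 273) (nat_lit 213)) (XT.lf (nat_lit 0) (nat_lit 2521832505) (nat_lit 1140) (nat_lit 6287593287) (nat_lit 1216) (nat_lit 372674615) (nat_lit 181) (nat_lit 5) (nat_lit 196) (nat_lit 5) (nat_lit 197) (nat_lit 5) (nat_lit 295) (nat_lit 273) (nat_lit 212))))))) (XT.nd (nat_lit 1014) (nat_lit 2812) (nat_lit 0) (XT.nd (nat_lit 468) (nat_lit 2052) (nat_lit 0) (XT.nd (nat_lit 234) (nat_lit 1216) (nat_lit 0) (XT.nd (nat_lit 78) (nat_lit 608) (nat_lit 0) (XT.lf (nat_lit 0) (nat_lit 1259821892) (nat_lit 1216) (nat_lit 1895430314) (nat_lit 76) (nat_lit 6157602635) (nat_lit 180) (nat_lit 5) (nat_lit 196) (nat_lit 5) (nat_lit 181) (nat_lit 5) (nat_lit 296) (nat_lit 273) (nat_lit 211)) (XT.nd (nat_lit 78) (nat_lit 0) (nat_lit 0) (XT.lf (nat_lit 0) (nat_lit 2928486182) (nat_lit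 684) (nat_lit 6413546821) (nat_lit 76) (nat_lit 105596466) (nat_lit 172) (nat_lit 5) (nat_lit 181) (nat_lit 5) (nat_lit 173) (nat_lit 5) (nat_lit 297) (nat_lit 273) (nat_lit 210)) (XT.lf (nat_lit 0) (nat_lit 4662998548) (nat_lit 684) (nat_lit 1500500986) (nat_lit 76) (nat_lit 3422521493) (nat_lit 172) (nat_lit 5) (nat_lit 181) (nat_lit 5) (nat_lit 173) (nat_lit 5) (nat_lit 298) (nat_lit 273) (nat_lit 209)))) (XT.nd (nat_lit 78) (nat_lit 608) (nat_lit 0) (XT.lf (nat_lit 0) (nat_lit 3597581004) (nat_lit 608) (nat_lit 2852778876) (nat_lit 684) (nat_lit 3278225998) (nat_lit 164) (nat_lit 5) (nat_lit 172) (nat_lit 5) (nat_lit 173) (nat_lit 5) (nat_lit 299) (nat_lit 273) (nat_lit 208)) (XT.nd (nat_lit 78) (nat_lit 608) (nat_lit 0) (XT.lf (nat_lit 0) (nat_lit 8278914295) (nat_lit 684) (nat_lit 1034399133) (nat_lit 76) (nat_lit 562531696) (nat_lit 164) (nat_lit 5) (nat_lit 173) (nat_lit 5) (nat_lit 165)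 (nat_lit 5) (nat_lit 300) (nat_lit 273) (nat_lit 207)) (XT.lf (nat_lit 0) (nat_lit 169348315) (nat_lit 608) (nat_lit 5790891182) (nat_lit 76) (nat_lit 4066170565) (nat_lit 156) (nat_lit 5) (nat_lit 164) (nat_lit 5) (nat_lit 157) (nat_lit 5) (nat_lit 301) (nat_lit 273) (nat_lit 206))))) (XT.nd (nat_lit 234) (nat_lit 1520) (nat_lit 0) (XT.nd (nat_lit 78) (nat_lit 532) (nat_lit 0) (XT.lf (nat_lit 0) (nat_lit 1935219941) (nat_lit 608) (nat_lit 545026538) (nat_lit 76) (nat_lit 7701450938) (nat_lit 156) (nat_lit 5) (nat_lit 164) (nat_lit 5) (nat_lit 157) (nat_lit 5) (nat_lit 302) (nat_lit 273) (nat_lit 205)) (XT.nd (nat_lit 78) (nat_lit 0) (nat_lit 0) (XT.lf (nat_lit 0) (nat_lit 3781540447) (nat_lit 608) (nat_lit 5429715228) (nat_lit 76) (nat_lit 1129603178) (nat_lit 149) (nat_lit 5) (nat_lit 157) (nat_lit 5) (nat_lit 150) (nat_lit 5) (nat_lit 303) (nat_lit 273) (nat_lit 204)) (XT.lf (nat_lit 0) (nat_lit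 5683033491) (nat_lit 608) (nat_lit 19417034) (nat_lit 76) (nat_lit 4802389606) (nat_lit 149) (nat_lit 5) (nat_lit 157) (nat_lit 5) (nat_lit 150) (nat_lit 5) (nat_lit 304) (nat_lit 273) (nat_lit 203)))) (XT.nd (nat_lit 156) (nat_lit 532) (nat_lit 0) (XT.nd (nat_lit 78) (nat_lit 532) (nat_lit 0) (XT.lf (nat_lit 0) (nat_lit 5631679574) (nat_lit 456) (nat_lit 2034578198) (nat_lit 532) (nat_lit 3006779848) (nat_lit 143) (nat_lit 5) (nat_lit 149) (nat_lit 5) (nat_lit 150) (nat_lit 5) (nat_lit 305) (nat_lit 273) (nat_lit 202)) (XT.lf (nat_lit 0) (nat_lit 568792499) (nat_lit 532) (nat_lit 9133698725) (nat_lit 608) (nat_lit 1144020715) (nat_lit 136) (nat_lit 5) (nat_lit 143) (nat_lit 5) (nat_lit 144) (nat_lit 5) (nat_lit 306) (nat_lit 273) (nat_lit 201))) (XT.nd (nat_lit 78) (nat_lit 456) (nat_lit 0) (XT.lf (nat_lit 0) (nat_lit 802372863) (nat_lit 608) (nat_lit 4633437697) (nat_lit 76) (nat_lit 5587904718)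 (nat_lit 135) (nat_lit 5) (nat_lit 143) (nat_lit 5) (nat_lit 136) (nat_lit 5) (nat_lit 307) (nat_lit 273) (nat_lit 200)) (XT.lf (nat_lit 0) (nat_lit 1160153860) (nat_lit 456) (nat_lit 1607309526) (nat_lit 532) (nat_lit 8438965759) (nat_lit 129) (nat_lit 5) (nat_lit 135) (nat_lit 5) (nat_lit 136) (nat_lit 5) (nat_lit 308) (nat_lit 273) (nat_lit 199)))))) (XT.nd (nat_lit 546) (nat_lit 1520) (nat_lit 0) (XT.nd (nat_lit 234) (nat_lit 836) (nat_lit 0) (XT.nd (nat_lit 78) (nat_lit 456) (nat_lit 0) (XT.lf (nat_lit 0) (nat_lit 4833838378) (nat_lit 532) (nat_lit 4225445789) (nat_lit 76) (nat_lit 2334102540) (nat_lit 129) (nat_lit 5) (nat_lit 136) (nat_lit 5) (nat_lit 130) (nat_lit 5) (nat_lit 309) (nat_lit 273) (nat_lit 198)) (XT.nd (nat_lit 78) (nat_lit 0) (nat_lit 0) (XT.lf (nat_lit 0) (nat_lit 1757476364) (nat_lit 456) (nat_lit 5210957851) (nat_lit 532) (nat_lit 4617363187) (nat_lit 123) (nat_lit 5)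 (nat_lit 129) (nat_lit 5) (nat_lit 130) (nat_lit 5) (nat_lit 310) (nat_lit 273) (nat_lit 197)) (XT.lf (nat_lit 0) (nat_lit 7975893781) (nat_lit 456) (nat_lit 1207744451) (nat_lit 532) (nat_lit 2599875458) (nat_lit 123) (nat_lit 5) (nat_lit 129) (nat_lit 5) (nat_lit 130) (nat_lit 5) (nat_lit 311) (nat_lit 273) (nat_lit 196)))) (XT.nd (nat_lit 156) (nat_lit 380) (nat_lit 0) (XT.nd (nat_lit 78) (nat_lit 76) (nat_lit 0) (XT.lf (nat_lit 0) (nat_lit 2381685428) (nat_lit 380) (nat_lit 9109152988) (nat_lit 456) (nat_lit 495586347) (nat_lit 118) (nat_lit 5) (nat_lit 123) (nat_lit 5) (nat_lit 124) (nat_lit 5) (nat_lit 312) (nat_lit 273) (nat_lit 195)) (XT.lf (nat_lit 0) (nat_lit 1664789990) (nat_lit 456) (nat_lit 3418653158) (nat_lit 76) (nat_lit 7110758245) (nat_lit 117) (nat_lit 5) (nat_lit 123) (nat_lit 5) (nat_lit 118) (nat_lit 5) (nat_lit 313) (nat_lit 273) (nat_lit 194))) (XT.nd (nat_lit 78) (nat_lit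 0) (nat_lit 0) (XT.lf (nat_lit 0) (nat_lit 2976386246) (nat_lit 380) (nat_lit 907769536) (nat_lit 456) (nat_lit 8523811160) (nat_lit 112) (nat_lit 5) (nat_lit 117) (nat_lit 5) (nat_lit 118) (nat_lit 5) (nat_lit 314) (nat_lit 273) (nat_lit 193)) (XT.lf (nat_lit 0) (nat_lit 6213487966) (nat_lit 456) (nat_lit 3056918332) (nat_lit 76) (nat_lit 3356463805) (nat_lit 112) (nat_lit 5) (nat_lit 118) (nat_lit 5) (nat_lit 113) (nat_lit 5) (nat_lit 315) (nat_lit 273) (nat_lit 192))))) (XT.nd (nat_lit 234) (nat_lit 684) (nat_lit 0) (XT.nd (nat_lit 78) (nat_lit 456) (nat_lit 0) (XT.lf (nat_lit 0) (nat_lit 3539743671) (nat_lit 380) (nat_lit 5092576906) (nat_lit 456) (nat_lit 4219456613) (nat_lit 107) (nat_lit 5) (nat_lit 112) (nat_lit 5) (nat_lit 113) (nat_lit 5) (nat_lit 316) (nat_lit 273) (nat_lit 191)) (XT.nd (nat_lit 78) (nat_lit 456) (nat_lit 0) (XT.lf (nat_lit 0) (nat_lit 10367931307) (nat_lit 380) (nat_lit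 763664438) (nat_lit 456) (nat_lit 1951624120) (nat_lit 107) (nat_lit 5) (nat_lit 112) (nat_lit 5) (nat_lit 113) (nat_lit 5) (nat_lit 317) (nat_lit 273) (nat_lit 190)) (XT.lf (nat_lit 0) (nat_lit 429746168) (nat_lit 456) (nat_lit 9229351756) (nat_lit 76) (nat_lit 3660830350) (nat_lit 101) (nat_lit 5) (nat_lit 107) (nat_lit 5) (nat_lit 102) (nat_lit 5) (nat_lit 318) (nat_lit 273) (nat_lit 189)))) (XT.nd (nat_lit 156) (nat_lit 380) (nat_lit 0) (XT.nd (nat_lit 78) (nat_lit 304) (nat_lit 0) (XT.lf (nat_lit 0) (nat_lit 2856342088) (nat_lit 456) (nat_lit 2462804684) (nat_lit 76) (nat_lit 8243643774) (nat_lit 101) (nat_lit 5) (nat_lit 107) (nat_lit 5) (nat_lit 102) (nat_lit 5) (nat_lit 319) (nat_lit 273) (nat_lit 188)) (XT.lf (nat_lit 0) (nat_lit 4567704068) (nat_lit 304) (nat_lit 810345824) (nat_lit 380) (nat_lit 8434241323) (nat_lit 97) (nat_lit 5) (nat_lit 101) (nat_lit 5) (nat_lit 102) (nat_lit 5)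 (nat_lit 320) (nat_lit 273) (nat_lit 187))) (XT.nd (nat_lit 78) (nat_lit 380) (nat_lit 0) (XT.lf (nat_lit 0) (nat_lit 8016079987) (nat_lit 380) (nat_lit 2274501169) (nat_lit 76) (nat_lit 3777496925) (nat_lit 97) (nat_lit 5) (nat_lit 102) (nat_lit 5) (nat_lit 98) (nat_lit 5) (nat_lit 321) (nat_lit 273) (nat_lit 186)) (XT.lf (nat_lit 0) (nat_lit 4965911417) (nat_lit 380) (nat_lit 5802421736) (nat_lit 456) (nat_lit 3562173623) (nat_lit 92) (nat_lit 5) (nat_lit 97) (nat_lit 5) (nat_lit 98) (nat_lit 5) (nat_lit 322) (nat_lit 273) (nat_lit 185))))))))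
noncomputable def xc140 : XT := (XT.nd (nat_lit 2028) (nat_lit 1824) (nat_lit 0) (XT.nd (nat_lit 1014) (nat_lit 1444) (nat_lit 0) (XT.nd (nat_lit 468) (nat_lit 988) (nat_lit 0) (XT.nd (nat_lit 234) (nat_lit 608) (nat_lit 0) (XT.nd (nat_lit 78) (nat_lit 380) (nat_lit 0) (XT.lf (nat_lit 0) (nat_lit 12442776995) (nat_lit 380) (nat_lit 1163007477) (nat_lit 456) (nat_lit 994965030) (nat_lit 92) (nat_lit 5) (nat_lit 97) (nat_lit 5) (nat_lit 98) (nat_lit 5) (nat_lit 323) (nat_lit 273) (nat_lit 184)) (XT.nd (nat_lit 78) (nat_lit 0) (nat_lit 0) (XT.lf (nat_lit 0) (nat_lit 1683664524) (nat_lit 380) (nat_lit 9587136926) (nat_lit 76) (nat_lit 3605843751) (nat_lit 87) (nat_lit 5) (nat_lit 92) (nat_lit 5) (nat_lit 88) (nat_lit 5) (nat_lit 324) (nat_lit 273) (nat_lit 183)) (XT.lf (nat_lit 0) (nat_lit 4436473466) (nat_lit 380) (nat_lit 2204373475) (nat_lit 76) (nat_lit 8519279127) (nat_lit 87) (nat_lit 5) (nat_lit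 92) (nat_lit 5) (nat_lit 88) (nat_lit 5) (nat_lit 325) (nat_lit 273) (nat_lit 182)))) (XT.nd (nat_lit 78) (nat_lit 304) (nat_lit 0) (XT.lf (nat_lit 0) (nat_lit 5480330936) (nat_lit 304) (nat_lit 1825086267) (nat_lit 380) (nat_lit 8145705490) (nat_lit 83) (nat_lit 5) (nat_lit 87) (nat_lit 5) (nat_lit 88) (nat_lit 5) (nat_lit 326) (nat_lit 273) (nat_lit 181)) (XT.nd (nat_lit 78) (nat_lit 304) (nat_lit 0) (XT.lf (nat_lit 0) (nat_lit 10294150668) (nat_lit 380) (nat_lit 2366509041) (nat_lit 76) (nat_lit 3089195192) (nat_lit 83) (nat_lit 5) (nat_lit 88) (nat_lit 5) (nat_lit 84) (nat_lit 5) (nat_lit 327) (nat_lit 273) (nat_lit 180)) (XT.lf (nat_lit 0) (nat_lit 5529782387) (nat_lit 304) (nat_lit 7895644139) (nat_lit 380) (nat_lit 2630552959) (nat_lit 79) (nat_lit 5) (nat_lit 83) (nat_lit 5) (nat_lit 84) (nat_lit 5) (nat_lit 328) (nat_lit 273) (nat_lit 179))))) (XT.nd (nat_lit 234) (nat_lit 608) (nat_lit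 0) (XT.nd (nat_lit 78) (nat_lit 304) (nat_lit 0) (XT.lf (nat_lit 0) (nat_lit 279782430) (nat_lit 380) (nat_lit 2688099374) (nat_lit 76) (nat_lit 13403164877) (nat_lit 78) (nat_lit 5) (nat_lit 83) (nat_lit 5) (nat_lit 79) (nat_lit 5) (nat_lit 329) (nat_lit 273) (nat_lit 178)) (XT.nd (nat_lit 78) (nat_lit 0) (nat_lit 0) (XT.lf (nat_lit 0) (nat_lit 3280090173) (nat_lit 380) (nat_lit 11274797836) (nat_lit 76) (nat_lit 2138245910) (nat_lit 74) (nat_lit 5) (nat_lit 79) (nat_lit 5) (nat_lit 75) (nat_lit 5) (nat_lit 330) (nat_lit 273) (nat_lit 177)) (XT.lf (nat_lit 0) (nat_lit 6409685933) (nat_lit 380) (nat_lit 3256192561) (nat_lit 76) (nat_lit 7357841864) (nat_lit 74) (nat_lit 5) (nat_lit 79) (nat_lit 5) (nat_lit 75) (nat_lit 5) (nat_lit 331) (nat_lit 273) (nat_lit 176)))) (XT.nd (nat_lit 156) (nat_lit 380) (nat_lit 0) (XT.nd (nat_lit 78) (nat_lit 0) (nat_lit 0) (XT.lf (nat_lit 0) (nat_lit 5077252765)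 (nat_lit 228) (nat_lit 4587713261) (nat_lit 304) (nat_lit 7698318980) (nat_lit 71) (nat_lit 5) (nat_lit 74) (nat_lit 5) (nat_lit 75) (nat_lit 5) (nat_lit 332) (nat_lit 273) (nat_lit 175)) (XT.lf (nat_lit 0) (nat_lit 13040465431) (nat_lit 304) (nat_lit 4016096582) (nat_lit 76) (nat_lit 655811842) (nat_lit 71) (nat_lit 5) (nat_lit 75) (nat_lit 5) (nat_lit 72) (nat_lit 5) (nat_lit 333) (nat_lit 273) (nat_lit 174))) (XT.nd (nat_lit 78) (nat_lit 76) (nat_lit 0) (XT.lf (nat_lit 0) (nat_lit 4520460519) (nat_lit 304) (nat_lit 12069310910) (nat_lit 380) (nat_lit 1480001370) (nat_lit 67) (nat_lit 5) (nat_lit 71) (nat_lit 5) (nat_lit 72) (nat_lit 5) (nat_lit 334) (nat_lit 273) (nat_lit 173)) (XT.lf (nat_lit 0) (nat_lit 1797082878) (nat_lit 380) (nat_lit 5083377436) (nat_lit 76) (nat_lit 11556184179) (nat_lit 66) (nat_lit 5) (nat_lit 71) (nat_lit 5) (nat_lit 67) (nat_lit 5) (nat_lit 335) (nat_lit 273) (nat_lit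 172)))))) (XT.nd (nat_lit 468) (nat_lit 684) (nat_lit 0) (XT.nd (nat_lit 234) (nat_lit 304) (nat_lit 0) (XT.nd (nat_lit 78) (nat_lit 228) (nat_lit 0) (XT.lf (nat_lit 0) (nat_lit 3669840529) (nat_lit 228) (nat_lit 1492380735) (nat_lit 304) (nat_lit 13651289341) (nat_lit 63) (nat_lit 5) (nat_lit 66) (nat_lit 5) (nat_lit 67) (nat_lit 5) (nat_lit 336) (nat_lit 273) (nat_lit 171)) (XT.nd (nat_lit 78) (nat_lit 228) (nat_lit 0) (XT.lf (nat_lit 0) (nat_lit 8703526347) (nat_lit 304) (nat_lit 6473617831) (nat_lit 76) (nat_lit 4022294298) (nat_lit 63) (nat_lit 5) (nat_lit 67) (nat_lit 5) (nat_lit 64) (nat_lit 5) (nat_lit 337) (nat_lit 273) (nat_lit 170)) (XT.lf (nat_lit 0) (nat_lit 2466764819) (nat_lit 228) (nat_lit 9907619604) (nat_lit 304) (nat_lit 7221872144) (nat_lit 60) (nat_lit 5) (nat_lit 63) (nat_lit 5) (nat_lit 64) (nat_lit 5) (nat_lit 338) (nat_lit 273) (nat_lit 169)))) (XT.nd (nat_lit 78) (nat_lit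 304) (nat_lit 0) (XT.lf (nat_lit 0) (nat_lit 11785157959) (nat_lit 228) (nat_lit 4420628676) (nat_lit 304) (nat_lit 3797691469) (nat_lit 60) (nat_lit 5) (nat_lit 63) (nat_lit 5) (nat_lit 64) (nat_lit 5) (nat_lit 339) (nat_lit 273) (nat_lit 168)) (XT.nd (nat_lit 78) (nat_lit 76) (nat_lit 0) (XT.lf (nat_lit 0) (nat_lit 944168750) (nat_lit 228) (nat_lit 19214279793) (nat_lit 304) (nat_lit 264289337) (nat_lit 57) (nat_lit 5) (nat_lit 60) (nat_lit 5) (nat_lit 61) (nat_lit 5) (nat_lit 340) (nat_lit 273) (nat_lit 167)) (XT.lf (nat_lit 0) (nat_lit 3422299057) (nat_lit 304) (nat_lit 10401807121) (nat_lit 76) (nat_lit 7026115097) (nat_lit 56) (nat_lit 5) (nat_lit 60) (nat_lit 5) (nat_lit 57) (nat_lit 5) (nat_lit 341) (nat_lit 273) (nat_lit 166))))) (XT.nd (nat_lit 234) (nat_lit 456) (nat_lit 0) (XT.nd (nat_lit 78) (nat_lit 228) (nat_lit 0) (XT.lf (nat_lit 0) (nat_lit 7200062134) (nat_lit 304) (nat_lit 1077385403)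 (nat_lit 76) (nat_lit 13013436642) (nat_lit 56) (nat_lit 5) (nat_lit 60) (nat_lit 5) (nat_lit 57) (nat_lit 5) (nat_lit 342) (nat_lit 273) (nat_lit 165)) (XT.nd (nat_lit 78) (nat_lit 0) (nat_lit 0) (XT.lf (nat_lit 0) (nat_lit 8674657908) (nat_lit 228) (nat_lit 2486186298) (nat_lit 304) (nat_lit 10581842062) (nat_lit 53) (nat_lit 5) (nat_lit 56) (nat_lit 5) (nat_lit 57) (nat_lit 5) (nat_lit 343) (nat_lit 273) (nat_lit 164)) (XT.lf (nat_lit 0) (nat_lit 15271299144) (nat_lit 304) (nat_lit 3521432584) (nat_lit 76) (nat_lit 3414394802) (nat_lit 53) (nat_lit 5) (nat_lit 57) (nat_lit 5) (nat_lit 54) (nat_lit 5) (nat_lit 344) (nat_lit 273) (nat_lit 163)))) (XT.nd (nat_lit 156) (nat_lit 228) (nat_lit 0) (XT.nd (nat_lit 78) (nat_lit 76) (nat_lit 0) (XT.lf (nat_lit 0) (nat_lit 6390762625) (nat_lit 152) (nat_lit 13187169944) (nat_lit 228) (nat_lit 3105390802) (nat_lit 51) (nat_lit 5) (nat_lit 53) (nat_lit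 5) (nat_lit 54) (nat_lit 5) (nat_lit 345) (nat_lit 273) (nat_lit 162)) (XT.lf (nat_lit 0) (nat_lit 846344684) (nat_lit 228) (nat_lit 6529610923) (nat_lit 76) (nat_lit 15796933769) (nat_lit 50) (nat_lit 5) (nat_lit 53) (nat_lit 5) (nat_lit 51) (nat_lit 5) (nat_lit 346) (nat_lit 273) (nat_lit 161))) (XT.nd (nat_lit 78) (nat_lit 0) (nat_lit 0) (XT.lf (nat_lit 0) (nat_lit 3544298389) (nat_lit 228) (nat_lit 1331235896) (nat_lit 304) (nat_lit 18800054685) (nat_lit 47) (nat_lit 5) (nat_lit 50) (nat_lit 5) (nat_lit 51) (nat_lit 5) (nat_lit 347) (nat_lit 273) (nat_lit 160)) (XT.lf (nat_lit 0) (nat_lit 9126593118) (nat_lit 304) (nat_lit 10205278637) (nat_lit 76) (nat_lit 4858476267) (nat_lit 47) (nat_lit 5) (nat_lit 51) (nat_lit 5) (nat_lit 48) (nat_lit 5) (nat_lit 348) (nat_lit 273) (nat_lit 159))))))) (XT.nd (nat_lit 1014) (nat_lit 836) (nat_lit 0) (XT.nd (nat_lit 468) (nat_lit 380) (nat_lit 0) (XT.nd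 (nat_lit 234) (nat_lit 456) (nat_lit 0) (XT.nd (nat_lit 78) (nat_lit 152) (nat_lit 0) (XT.lf (nat_lit 0) (nat_lit 13506085031) (nat_lit 304) (nat_lit 14528910) (nat_lit 76) (nat_lit 11199916899) (nat_lit 47) (nat_lit 5) (nat_lit 51) (nat_lit 5) (nat_lit 48) (nat_lit 5) (nat_lit 349) (nat_lit 273) (nat_lit 158)) (XT.nd (nat_lit 78) (nat_lit 0) (nat_lit 0) (XT.lf (nat_lit 0) (nat_lit 10670887235) (nat_lit 152) (nat_lit 7436727972) (nat_lit 228) (nat_lit 7156292132) (nat_lit 45) (nat_lit 5) (nat_lit 47) (nat_lit 5) (nat_lit 48) (nat_lit 5) (nat_lit 350) (nat_lit 273) (nat_lit 157)) (XT.lf (nat_lit 0) (nat_lit 21658069232) (nat_lit 152) (nat_lit 1177510863) (nat_lit 228) (nat_lit 2988360946) (nat_lit 45) (nat_lit 5) (nat_lit 47) (nat_lit 5) (nat_lit 48) (nat_lit 5) (nat_lit 351) (nat_lit 273) (nat_lit 156)))) (XT.nd (nat_lit 78) (nat_lit 152) (nat_lit 0) (XT.lf (nat_lit 0) (nat_lit 1383102914) (nat_lit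 304) (nat_lit 19777182299) (nat_lit 76) (nat_lit 5237002887) (nat_lit 41) (nat_lit 5) (nat_lit 45) (nat_lit 5) (nat_lit 42) (nat_lit 5) (nat_lit 352) (nat_lit 273) (nat_lit 155)) (XT.nd (nat_lit 78) (nat_lit 152) (nat_lit 0) (XT.lf (nat_lit 0) (nat_lit 5868342036) (nat_lit 304) (nat_lit 9232047207) (nat_lit 76) (nat_lit 11885284795) (nat_lit 41) (nat_lit 5) (nat_lit 45) (nat_lit 5) (nat_lit 42) (nat_lit 5) (nat_lit 353) (nat_lit 273) (nat_lit 154)) (XT.lf (nat_lit 0) (nat_lit 1643186110) (nat_lit 152) (nat_lit 8849633234) (nat_lit 228) (nat_lit 17098758507) (nat_lit 39) (nat_lit 5) (nat_lit 41) (nat_lit 5) (nat_lit 42) (nat_lit 5) (nat_lit 354) (nat_lit 273) (nat_lit 153))))) (XT.nd (nat_lit 234) (nat_lit 228) (nat_lit 0) (XT.nd (nat_lit 78) (nat_lit 152) (nat_lit 0) (XT.lf (nat_lit 0) (nat_lit 13015783648) (nat_lit 152) (nat_lit 2322507939) (nat_lit 228) (nat_lit 12874905905) (nat_lit 39) (nat_lit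 5) (nat_lit 41) (nat_lit 5) (nat_lit 42) (nat_lit 5) (nat_lit 355) (nat_lit 273) (nat_lit 152)) (XT.nd (nat_lit 78) (nat_lit 152) (nat_lit 0) (XT.lf (nat_lit 0) (nat_lit 20360715075) (nat_lit 228) (nat_lit 4184077315) (nat_lit 76) (nat_lit 4307732063) (nat_lit 39) (nat_lit 5) (nat_lit 42) (nat_lit 5) (nat_lit 40) (nat_lit 5) (nat_lit 356) (nat_lit 273) (nat_lit 151)) (XT.lf (nat_lit 0) (nat_lit 7261001931) (nat_lit 152) (nat_lit 18355201112) (nat_lit 228) (nat_lit 3892362584) (nat_lit 37) (nat_lit 5) (nat_lit 39) (nat_lit 5) (nat_lit 40) (nat_lit 5) (nat_lit 357) (nat_lit 273) (nat_lit 150)))) (XT.nd (nat_lit 156) (nat_lit 0) (nat_lit 0) (XT.nd (nat_lit 78) (nat_lit 152) (nat_lit 0) (XT.lf (nat_lit 0) (nat_lit 860876367) (nat_lit 228) (nat_lit 11073751743) (nat_lit 76) (nat_lit 18248453059) (nat_lit 36) (nat_lit 5) (nat_lit 39) (nat_lit 5) (nat_lit 37) (nat_lit 5) (nat_lit 358) (nat_lit 273) (nat_lit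 149)) (XT.lf (nat_lit 0) (nat_lit 387410032) (nat_lit 152) (nat_lit 5284725652) (nat_lit 228) (nat_lit 25204736306) (nat_lit 34) (nat_lit 5) (nat_lit 36) (nat_lit 5) (nat_lit 37) (nat_lit 5) (nat_lit 359) (nat_lit 273) (nat_lit 148))) (XT.nd (nat_lit 78) (nat_lit 0) (nat_lit 0) (XT.lf (nat_lit 0) (nat_lit 10745702833) (nat_lit 228) (nat_lit 19201820717) (nat_lit 76) (nat_lit 1640419355) (nat_lit 34) (nat_lit 5) (nat_lit 37) (nat_lit 5) (nat_lit 35) (nat_lit 5) (nat_lit 360) (nat_lit 273) (nat_lit 147)) (XT.lf (nat_lit 0) (nat_lit 16014091410) (nat_lit 228) (nat_lit 7644339139) (nat_lit 76) (nat_lit 8660642279) (nat_lit 34) (nat_lit 5) (nat_lit 37) (nat_lit 5) (nat_lit 35) (nat_lit 5) (nat_lit 361) (nat_lit 273) (nat_lit 146)))))) (XT.nd (nat_lit 546) (nat_lit 304) (nat_lit 0) (XT.nd (nat_lit 234) (nat_lit 380) (nat_lit 0) (XT.nd (nat_lit 78) (nat_lit 0) (nat_lit 0) (XT.lf (nat_lit 0) (nat_lit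 4328343128) (nat_lit 152) (nat_lit 17144368399) (nat_lit 228) (nat_lit 11598464880) (nat_lit 32) (nat_lit 5) (nat_lit 34) (nat_lit 5) (nat_lit 35) (nat_lit 5) (nat_lit 362) (nat_lit 273) (nat_lit 145)) (XT.nd (nat_lit 78) (nat_lit 0) (nat_lit 0) (XT.lf (nat_lit 0) (nat_lit 16801078716) (nat_lit 152) (nat_lit 10361899982) (nat_lit 228) (nat_lit 6680832749) (nat_lit 32) (nat_lit 5) (nat_lit 34) (nat_lit 5) (nat_lit 35) (nat_lit 5) (nat_lit 363) (nat_lit 273) (nat_lit 144)) (XT.lf (nat_lit 0) (nat_lit 29632628795) (nat_lit 152) (nat_lit 3382291705) (nat_lit 228) (nat_lit 1624980901) (nat_lit 32) (nat_lit 5) (nat_lit 34) (nat_lit 5) (nat_lit 35) (nat_lit 5) (nat_lit 364) (nat_lit 273) (nat_lit 143)))) (XT.nd (nat_lit 156) (nat_lit 152) (nat_lit 0) (XT.nd (nat_lit 78) (nat_lit 0) (nat_lit 0) (XT.lf (nat_lit 0) (nat_lit 3613320169) (nat_lit 228) (nat_lit 28008750998) (nat_lit 76) (nat_lit 3833753877)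 (nat_lit 29) (nat_lit 5) (nat_lit 32) (nat_lit 5) (nat_lit 30) (nat_lit 5) (nat_lit 365) (nat_lit 273) (nat_lit 142)) (XT.lf (nat_lit 0) (nat_lit 9051855050) (nat_lit 228) (nat_lit 15982251892) (nat_lit 76) (nat_lit 11259368878) (nat_lit 29) (nat_lit 5) (nat_lit 32) (nat_lit 5) (nat_lit 30) (nat_lit 5) (nat_lit 366) (nat_lit 273) (nat_lit 141))) (XT.nd (nat_lit 78) (nat_lit 152) (nat_lit 0) (XT.lf (nat_lit 0) (nat_lit 14644995476) (nat_lit 228) (nat_lit 3609676352) (nat_lit 76) (nat_lit 18901845124) (nat_lit 29) (nat_lit 5) (nat_lit 32) (nat_lit 5) (nat_lit 30) (nat_lit 5) (nat_lit 367) (nat_lit 273) (nat_lit 140)) (XT.lf (nat_lit 0) (nat_lit 9301288245) (nat_lit 152) (nat_lit 11185750085) (nat_lit 228) (nat_lit 17555981934) (nat_lit 27) (nat_lit 5) (nat_lit 29) (nat_lit 5) (nat_lit 30) (nat_lit 5) (nat_lit 368) (nat_lit 273) (nat_lit 139))))) (XT.nd (nat_lit 234) (nat_lit 228) (nat_lit 0) (XT.nd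 (nat_lit 78) (nat_lit 76) (nat_lit 0) (XT.lf (nat_lit 0) (nat_lit 22659426860) (nat_lit 152) (nat_lit 3873170580) (nat_lit 228) (nat_lit 12422677658) (nat_lit 27) (nat_lit 5) (nat_lit 29) (nat_lit 5) (nat_lit 30) (nat_lit 5) (nat_lit 369) (nat_lit 273) (nat_lit 138)) (XT.nd (nat_lit 78) (nat_lit 76) (nat_lit 0) (XT.lf (nat_lit 0) (nat_lit 32786681274) (nat_lit 228) (nat_lit 3525683150) (nat_lit 76) (nat_lit 3581722366) (nat_lit 27) (nat_lit 5) (nat_lit 30) (nat_lit 5) (nat_lit 28) (nat_lit 4) (nat_lit 370) (nat_lit 273) (nat_lit 137)) (XT.lf (nat_lit 0) (nat_lit 9766295122) (nat_lit 76) (nat_lit 29586541161) (nat_lit 152) (nat_lit 1504496928) (nat_lit 26) (nat_lit 5) (nat_lit 27) (nat_lit 5) (nat_lit 28) (nat_lit 4) (nat_lit 371) (nat_lit 273) (nat_lit 136)))) (XT.nd (nat_lit 156) (nat_lit 152) (nat_lit 0) (XT.nd (nat_lit 78) (nat_lit 0) (nat_lit 0) (XT.lf (nat_lit 0) (nat_lit 4211438169) (nat_lit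 152) (nat_lit 18374012531) (nat_lit 76) (nat_lit 19261953756) (nat_lit 25) (nat_lit 5) (nat_lit 27) (nat_lit 5) (nat_lit 26) (nat_lit 5) (nat_lit 372) (nat_lit 273) (nat_lit 135)) (XT.lf (nat_lit 0) (nat_lit 10061077495) (nat_lit 152) (nat_lit 5303522384) (nat_lit 76) (nat_lit 27502360637) (nat_lit 25) (nat_lit 5) (nat_lit 27) (nat_lit 5) (nat_lit 26) (nat_lit 5) (nat_lit 373) (nat_lit 273) (nat_lit 134))) (XT.nd (nat_lit 78) (nat_lit 0) (nat_lit 0) (XT.lf (nat_lit 0) (nat_lit 8308442961) (nat_lit 152) (nat_lit 7850313414) (nat_lit 228) (nat_lit 27756173781) (nat_lit 23) (nat_lit 5) (nat_lit 25) (nat_lit 5) (nat_lit 26) (nat_lit 5) (nat_lit 374) (nat_lit 273) (nat_lit 133)) (XT.lf (nat_lit 0) (nat_lit 22424842290) (nat_lit 152) (nat_lit 60854596) (nat_lit 228) (nat_lit 22507255372) (nat_lit 23) (nat_lit 5) (nat_lit 25) (nat_lit 5) (nat_lit 26) (nat_lit 5) (nat_lit 375) (nat_lit 273) (nat_lit 132))))))))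
noncomputable def xc141 : XT := (XT.nd (nat_lit 2028) (nat_lit 76) (nat_lit 0) (XT.nd (nat_lit 1014) (nat_lit 228) (nat_lit 0) (XT.nd (nat_lit 468) (nat_lit 304) (nat_lit 0) (XT.nd (nat_lit 234) (nat_lit 228) (nat_lit 0) (XT.nd (nat_lit 78) (nat_lit 76) (nat_lit 0) (XT.lf (nat_lit 0) (nat_lit 29071919923) (nat_lit 228) (nat_lit 9227556634) (nat_lit 76) (nat_lit 7801757449) (nat_lit 23) (nat_lit 5) (nat_lit 26) (nat_lit 5) (nat_lit 24) (nat_lit 4) (nat_lit 376) (nat_lit 273) (nat_lit 131)) (XT.nd (nat_lit 78) (nat_lit 0) (nat_lit 0) (XT.lf (nat_lit 0) (nat_lit 4590105684) (nat_lit 76) (nat_lit 31303491069) (nat_lit 152) (nat_lit 11348034563) (nat_lit 22) (nat_lit 5) (nat_lit 23) (nat_lit 5) (nat_lit 24) (nat_lit 4) (nat_lit 377) (nat_lit 273) (nat_lit 130)) (XT.lf (nat_lit 0) (nat_lit 18999497526) (nat_lit 76) (nat_lit 24006833094) (nat_lit 152) (nat_lit 5407320750) (nat_lit 22) (nat_lit 5) (nat_lit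 23) (nat_lit 5) (nat_lit 24) (nat_lit 4) (nat_lit 378) (nat_lit 273) (nat_lit 129)))) (XT.nd (nat_lit 78) (nat_lit 152) (nat_lit 0) (XT.lf (nat_lit 0) (nat_lit 691084109) (nat_lit 152) (nat_lit 15798244437) (nat_lit 76) (nat_lit 33131500447) (nat_lit 21) (nat_lit 5) (nat_lit 23) (nat_lit 5) (nat_lit 22) (nat_lit 5) (nat_lit 379) (nat_lit 273) (nat_lit 128)) (XT.nd (nat_lit 78) (nat_lit 152) (nat_lit 0) (XT.lf (nat_lit 0) (nat_lit 6857308638) (nat_lit 152) (nat_lit 1838796605) (nat_lit 76) (nat_lit 42166706860) (nat_lit 21) (nat_lit 5) (nat_lit 23) (nat_lit 5) (nat_lit 22) (nat_lit 5) (nat_lit 380) (nat_lit 273) (nat_lit 127)) (XT.lf (nat_lit 0) (nat_lit 12777704744) (nat_lit 152) (nat_lit 547379474) (nat_lit 228) (nat_lit 38813476250) (nat_lit 19) (nat_lit 5) (nat_lit 21) (nat_lit 5) (nat_lit 22) (nat_lit 5) (nat_lit 381) (nat_lit 273) (nat_lit 126))))) (XT.nd (nat_lit 234) (nat_lit 228) (nat_lit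 0) (XT.nd (nat_lit 78) (nat_lit 76) (nat_lit 0) (XT.lf (nat_lit 0) (nat_lit 20074832212) (nat_lit 228) (nat_lit 25668334855) (nat_lit 76) (nat_lit 7706778655) (nat_lit 19) (nat_lit 5) (nat_lit 22) (nat_lit 5) (nat_lit 20) (nat_lit 4) (nat_lit 382) (nat_lit 273) (nat_lit 125)) (XT.nd (nat_lit 78) (nat_lit 76) (nat_lit 0) (XT.lf (nat_lit 0) (nat_lit 27026442105) (nat_lit 228) (nat_lit 11581237306) (nat_lit 76) (nat_lit 16193014576) (nat_lit 19) (nat_lit 5) (nat_lit 22) (nat_lit 5) (nat_lit 20) (nat_lit 4) (nat_lit 383) (nat_lit 273) (nat_lit 124)) (XT.lf (nat_lit 0) (nat_lit 2976081858) (nat_lit 76) (nat_lit 31233252434) (nat_lit 152) (nat_lit 21981950852) (nat_lit 18) (nat_lit 5) (nat_lit 19) (nat_lit 5) (nat_lit 20) (nat_lit 4) (nat_lit 384) (nat_lit 273) (nat_lit 123)))) (XT.nd (nat_lit 156) (nat_lit 228) (nat_lit 0) (XT.nd (nat_lit 78) (nat_lit 0) (nat_lit 0) (XT.lf (nat_lit 0) (nat_lit 18197161823)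 (nat_lit 76) (nat_lit 23521696759) (nat_lit 152) (nat_lit 15901403484) (nat_lit 18) (nat_lit 5) (nat_lit 19) (nat_lit 5) (nat_lit 20) (nat_lit 4) (nat_lit 385) (nat_lit 273) (nat_lit 122)) (XT.lf (nat_lit 0) (nat_lit 33864813231) (nat_lit 76) (nat_lit 15583221924) (nat_lit 152) (nat_lit 9644244466) (nat_lit 18) (nat_lit 5) (nat_lit 19) (nat_lit 5) (nat_lit 20) (nat_lit 4) (nat_lit 386) (nat_lit 273) (nat_lit 121))) (XT.nd (nat_lit 78) (nat_lit 228) (nat_lit 0) (XT.lf (nat_lit 0) (nat_lit 49992726262) (nat_lit 76) (nat_lit 7410891395) (nat_lit 152) (nat_lit 3205006379) (nat_lit 18) (nat_lit 5) (nat_lit 19) (nat_lit 5) (nat_lit 20) (nat_lit 4) (nat_lit 387) (nat_lit 273) (nat_lit 120)) (XT.lf (nat_lit 0) (nat_lit 3408604672) (nat_lit 228) (nat_lit 57699851547) (nat_lit 76) (nat_lit 1059573993) (nat_lit 15) (nat_lit 5) (nat_lit 18) (nat_lit 5) (nat_lit 16) (nat_lit 4) (nat_lit 388) (nat_lit 273)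 (nat_lit 119)))))) (XT.nd (nat_lit 468) (nat_lit 152) (nat_lit 0) (XT.nd (nat_lit 234) (nat_lit 76) (nat_lit 0) (XT.nd (nat_lit 78) (nat_lit 0) (nat_lit 0) (XT.lf (nat_lit 0) (nat_lit 10332502708) (nat_lit 228) (nat_lit 43664397935) (nat_lit 76) (nat_lit 9771079126) (nat_lit 15) (nat_lit 5) (nat_lit 18) (nat_lit 5) (nat_lit 16) (nat_lit 4) (nat_lit 389) (nat_lit 273) (nat_lit 118)) (XT.nd (nat_lit 78) (nat_lit 0) (nat_lit 0) (XT.lf (nat_lit 0) (nat_lit 17458933035) (nat_lit 228) (nat_lit 29217219518) (nat_lit 76) (nat_lit 18739932803) (nat_lit 15) (nat_lit 5) (nat_lit 18) (nat_lit 5) (nat_lit 16) (nat_lit 4) (nat_lit 390) (nat_lit 273) (nat_lit 117)) (XT.lf (nat_lit 0) (nat_lit 24794122631) (nat_lit 228) (nat_lit 14345692549) (nat_lit 76) (nat_lit 27973971884) (nat_lit 15) (nat_lit 5) (nat_lit 18) (nat_lit 5) (nat_lit 16) (nat_lit 4) (nat_lit 391) (nat_lit 273) (nat_lit 116)))) (XT.nd (nat_lit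 78) (nat_lit 0) (nat_lit 0) (XT.lf (nat_lit 0) (nat_lit 982346632) (nat_lit 76) (nat_lit 31371577169) (nat_lit 152) (nat_lit 36508361233) (nat_lit 14) (nat_lit 5) (nat_lit 15) (nat_lit 5) (nat_lit 16) (nat_lit 4) (nat_lit 392) (nat_lit 273) (nat_lit 115)) (XT.nd (nat_lit 78) (nat_lit 0) (nat_lit 0) (XT.lf (nat_lit 0) (nat_lit 17055583204) (nat_lit 76) (nat_lit 23224970691) (nat_lit 152) (nat_lit 30378484834) (nat_lit 14) (nat_lit 5) (nat_lit 15) (nat_lit 5) (nat_lit 16) (nat_lit 4) (nat_lit 393) (nat_lit 273) (nat_lit 114)) (XT.lf (nat_lit 0) (nat_lit 33602554333) (nat_lit 76) (nat_lit 14837740717) (nat_lit 152) (nat_lit 24069542399) (nat_lit 14) (nat_lit 5) (nat_lit 15) (nat_lit 5) (nat_lit 16) (nat_lit 4) (nat_lit 394) (nat_lit 273) (nat_lit 113))))) (XT.nd (nat_lit 234) (nat_lit 76) (nat_lit 0) (XT.nd (nat_lit 78) (nat_lit 76) (nat_lit 0) (XT.lf (nat_lit 0) (nat_lit 50637718536) (nat_lit 76)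 (nat_lit 6202558601) (nat_lit 152) (nat_lit 17576021261) (nat_lit 14) (nat_lit 5) (nat_lit 15) (nat_lit 5) (nat_lit 16) (nat_lit 4) (nat_lit 395) (nat_lit 273) (nat_lit 112)) (XT.nd (nat_lit 78) (nat_lit 76) (nat_lit 0) (XT.lf (nat_lit 0) (nat_lit 65513679810) (nat_lit 152) (nat_lit 8229966369) (nat_lit 0) (nat_lit 2635666040) (nat_lit 14) (nat_lit 5) (nat_lit 16) (nat_lit 4) (nat_lit 14) (nat_lit 4) (nat_lit 396) (nat_lit 273) (nat_lit 111)) (XT.lf (nat_lit 0) (nat_lit 7869413104) (nat_lit 76) (nat_lit 66710605297) (nat_lit 76) (nat_lit 3817217666) (nat_lit 13) (nat_lit 4) (nat_lit 14) (nat_lit 5) (nat_lit 14) (nat_lit 4) (nat_lit 397) (nat_lit 273) (nat_lit 110)))) (XT.nd (nat_lit 156) (nat_lit 0) (nat_lit 0) (XT.nd (nat_lit 78) (nat_lit 0) (nat_lit 0) (XT.lf (nat_lit 0) (nat_lit 3455084576) (nat_lit 152) (nat_lit 55894492019) (nat_lit 76) (nat_lit 21122741378) (nat_lit 12) (nat_lit 5) (nat_lit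 14) (nat_lit 5) (nat_lit 13) (nat_lit 4) (nat_lit 398) (nat_lit 273) (nat_lit 109)) (XT.lf (nat_lit 0) (nat_lit 10864643483) (nat_lit 152) (nat_lit 40867578777) (nat_lit 76) (nat_lit 30876423443) (nat_lit 12) (nat_lit 5) (nat_lit 14) (nat_lit 5) (nat_lit 13) (nat_lit 4) (nat_lit 399) (nat_lit 273) (nat_lit 108))) (XT.nd (nat_lit 78) (nat_lit 0) (nat_lit 0) (XT.lf (nat_lit 0) (nat_lit 18492421091) (nat_lit 152) (nat_lit 25397259492) (nat_lit 76) (nat_lit 40919506170) (nat_lit 12) (nat_lit 5) (nat_lit 14) (nat_lit 5) (nat_lit 13) (nat_lit 4) (nat_lit 400) (nat_lit 273) (nat_lit 107)) (XT.lf (nat_lit 0) (nat_lit 26345082450) (nat_lit 152) (nat_lit 9470016411) (nat_lit 76) (nat_lit 51260765067) (nat_lit 12) (nat_lit 5) (nat_lit 14) (nat_lit 5) (nat_lit 13) (nat_lit 4) (nat_lit 401) (nat_lit 273) (nat_lit 106))))))) (XT.nd (nat_lit 31278) (nat_lit 0) (nat_lit 14060) (XT.nd (nat_lit 30732) (nat_lit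 0) (nat_lit 17708) (XT.nd (nat_lit 312) (nat_lit 0) (nat_lit 0) (XT.nd (nat_lit 78) (nat_lit 0) (nat_lit 0) (XT.lf (nat_lit 0) (nat_lit 7065949603) (nat_lit 76) (nat_lit 27431461735) (nat_lit 152) (nat_lit 54911208813) (nat_lit 11) (nat_lit 5) (nat_lit 12) (nat_lit 5) (nat_lit 13) (nat_lit 4) (nat_lit 402) (nat_lit 273) (nat_lit 105)) (XT.nd (nat_lit 78) (nat_lit 0) (nat_lit 0) (XT.lf (nat_lit 0) (nat_lit 24285212559) (nat_lit 76) (nat_lit 18700936868) (nat_lit 152) (nat_lit 48822455775) (nat_lit 11) (nat_lit 5) (nat_lit 12) (nat_lit 5) (nat_lit 13) (nat_lit 4) (nat_lit 403) (nat_lit 273) (nat_lit 104)) (XT.lf (nat_lit 0) (nat_lit 42014346522) (nat_lit 76) (nat_lit 9711524245) (nat_lit 152) (nat_lit 42554830693) (nat_lit 11) (nat_lit 5) (nat_lit 12) (nat_lit 5) (nat_lit 13) (nat_lit 4) (nat_lit 404) (nat_lit 273) (nat_lit 103)))) (XT.nd (nat_lit 78) (nat_lit 0) (nat_lit 0) (XT.lf (nat_lit 0) (nat_lit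 70076276147) (nat_lit 152) (nat_lit 20472520777) (nat_lit 0) (nat_lit 8898518683) (nat_lit 11) (nat_lit 5) (nat_lit 13) (nat_lit 4) (nat_lit 11) (nat_lit 4) (nat_lit 406) (nat_lit 273) (nat_lit 101)) (XT.nd (nat_lit 30264) (nat_lit 0) (nat_lit 18468) (XT.lf (nat_lit 0) (nat_lit 79710017472) (nat_lit 152) (nat_lit 3914966249) (nat_lit 0) (nat_lit 18521153603) (nat_lit 11) (nat_lit 5) (nat_lit 13) (nat_lit 4) (nat_lit 11) (nat_lit 4) (nat_lit 407) (nat_lit 273) (nat_lit 100)) (XT.lf (nat_lit 0) (nat_lit 540717989) (nat_lit 836) (nat_lit 1553268789) (nat_lit 836) (nat_lit 1553268789) (nat_lit 254) (nat_lit 3) (nat_lit 265) (nat_lit 3) (nat_lit 265) (nat_lit 5) (nat_lit 274) (nat_lit 274) (nat_lit 232))))) (XT.nd (nat_lit 234) (nat_lit 760) (nat_lit 0) (XT.nd (nat_lit 78) (nat_lit 0) (nat_lit 0) (XT.lf (nat_lit 76) (nat_lit 215741115) (nat_lit 0) (nat_lit 2369651405) (nat_lit 836) (nat_lit 4771364784)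 (nat_lit 255) (nat_lit 5) (nat_lit 254) (nat_lit 3) (nat_lit 265) (nat_lit 5) (nat_lit 275) (nat_lit 274) (nat_lit 231)) (XT.nd (nat_lit 78) (nat_lit 0) (nat_lit 76) (XT.lf (nat_lit 76) (nat_lit 3670864008) (nat_lit 0) (nat_lit 436699254) (nat_lit 836) (nat_lit 3314213839) (nat_lit 255) (nat_lit 5) (nat_lit 254) (nat_lit 3) (nat_lit 265) (nat_lit 5) (nat_lit 276) (nat_lit 274) (nat_lit 230)) (XT.lf (nat_lit 0) (nat_lit 5634021485) (nat_lit 760) (nat_lit 305716559) (nat_lit 836) (nat_lit 1550346998) (nat_lit 255) (nat_lit 5) (nat_lit 265) (nat_lit 5) (nat_lit 266) (nat_lit 5) (nat_lit 277) (nat_lit 274) (nat_lit 229)))) (XT.nd (nat_lit 156) (nat_lit 0) (nat_lit 76) (XT.nd (nat_lit 78) (nat_lit 836) (nat_lit 0) (XT.lf (nat_lit 76) (nat_lit 3271606008) (nat_lit 0) (nat_lit 3915762248) (nat_lit 836) (nat_lit 373734540) (nat_lit 256) (nat_lit 5) (nat_lit 255) (nat_lit 5) (nat_lit 266) (nat_lit 5) (nat_lit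 278) (nat_lit 274) (nat_lit 228)) (XT.lf (nat_lit 0) (nat_lit 1079686451) (nat_lit 836) (nat_lit 714366003) (nat_lit 912) (nat_lit 5841480489) (nat_lit 244) (nat_lit 5) (nat_lit 255) (nat_lit 5) (nat_lit 256) (nat_lit 5) (nat_lit 279) (nat_lit 274) (nat_lit 227))) (XT.nd (nat_lit 78) (nat_lit 0) (nat_lit 0) (XT.lf (nat_lit 0) (nat_lit 2549828809) (nat_lit 836) (nat_lit 4725156302) (nat_lit 912) (nat_lit 437766452) (nat_lit 245) (nat_lit 5) (nat_lit 256) (nat_lit 5) (nat_lit 257) (nat_lit 5) (nat_lit 280) (nat_lit 274) (nat_lit 226)) (XT.lf (nat_lit 0) (nat_lit 4038135692) (nat_lit 836) (nat_lit 1026850732) (nat_lit 912) (nat_lit 2728161510) (nat_lit 245) (nat_lit 5) (nat_lit 256) (nat_lit 5) (nat_lit 257) (nat_lit 5) (nat_lit 281) (nat_lit 274) (nat_lit 225)))))) (XT.nd (nat_lit 546) (nat_lit 2888) (nat_lit 0) (XT.nd (nat_lit 234) (nat_lit 0) (nat_lit 0) (XT.nd (nat_lit 78) (nat_lit 836) (nat_lit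 0) (XT.lf (nat_lit 76) (nat_lit 2805889786) (nat_lit 0) (nat_lit 2742671244) (nat_lit 912) (nat_lit 2328151673) (nat_lit 246) (nat_lit 5) (nat_lit 245) (nat_lit 5) (nat_lit 257) (nat_lit 5) (nat_lit 282) (nat_lit 274) (nat_lit 224)) (XT.nd (nat_lit 78) (nat_lit 836) (nat_lit 0) (XT.lf (nat_lit 76) (nat_lit 6743701260) (nat_lit 0) (nat_lit 322608581) (nat_lit 912) (nat_lit 897692488) (nat_lit 246) (nat_lit 5) (nat_lit 245) (nat_lit 5) (nat_lit 257) (nat_lit 5) (nat_lit 283) (nat_lit 274) (nat_lit 223)) (XT.lf (nat_lit 0) (nat_lit 564853048) (nat_lit 912) (nat_lit 5312739941) (nat_lit 988) (nat_lit 2176213202) (nat_lit 234) (nat_lit 5) (nat_lit 246) (nat_lit 5) (nat_lit 247) (nat_lit 5) (nat_lit 284) (nat_lit 274) (nat_lit 222)))) (XT.nd (nat_lit 156) (nat_lit 0) (nat_lit 76) (XT.nd (nat_lit 78) (nat_lit 0) (nat_lit 0) (XT.lf (nat_lit 0) (nat_lit 2022619331) (nat_lit 912) (nat_lit 1344236124) (nat_lit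 988) (nat_lit 4780172055) (nat_lit 234) (nat_lit 5) (nat_lit 246) (nat_lit 5) (nat_lit 247) (nat_lit 5) (nat_lit 285) (nat_lit 274) (nat_lit 221)) (XT.lf (nat_lit 76) (nat_lit 2765850824) (nat_lit 0) (nat_lit 739950278) (nat_lit 988) (nat_lit 4737863405) (nat_lit 235) (nat_lit 5) (nat_lit 234) (nat_lit 5) (nat_lit 247) (nat_lit 5) (nat_lit 286) (nat_lit 274) (nat_lit 220))) (XT.nd (nat_lit 78) (nat_lit 0) (nat_lit 0) (XT.lf (nat_lit 0) (nat_lit 5022309699) (nat_lit 912) (nat_lit 1367670440) (nat_lit 988) (nat_lit 1953623021) (nat_lit 235) (nat_lit 5) (nat_lit 247) (nat_lit 5) (nat_lit 248) (nat_lit 5) (nat_lit 287) (nat_lit 274) (nat_lit 219)) (XT.lf (nat_lit 76) (nat_lit 2883017210) (nat_lit 0) (nat_lit 3693837576) (nat_lit 988) (nat_lit 1869974471) (nat_lit 236) (nat_lit 5) (nat_lit 235) (nat_lit 5) (nat_lit 248) (nat_lit 5) (nat_lit 288) (nat_lit 274) (nat_lit 218))))) (XT.nd (nat_lit 234)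 (nat_lit 2052) (nat_lit 0) (XT.nd (nat_lit 78) (nat_lit 912) (nat_lit 0) (XT.lf (nat_lit 76) (nat_lit 7257880397) (nat_lit 0) (nat_lit 892404448) (nat_lit 988) (nat_lit 403763447) (nat_lit 236) (nat_lit 5) (nat_lit 235) (nat_lit 5) (nat_lit 248) (nat_lit 5) (nat_lit 289) (nat_lit 274) (nat_lit 217)) (XT.nd (nat_lit 78) (nat_lit 0) (nat_lit 0) (XT.lf (nat_lit 0) (nat_lit 1093659264) (nat_lit 988) (nat_lit 5565820105) (nat_lit 76) (nat_lit 2004480944) (nat_lit 223) (nat_lit 5) (nat_lit 236) (nat_lit 5) (nat_lit 224) (nat_lit 5) (nat_lit 290) (nat_lit 274) (nat_lit 216)) (XT.lf (nat_lit 0) (nat_lit 2610107589) (nat_lit 988) (nat_lit 1171265480) (nat_lit 76) (nat_lit 4996268364) (nat_lit 223) (nat_lit 5) (nat_lit 236) (nat_lit 5) (nat_lit 224) (nat_lit 5) (nat_lit 291) (nat_lit 274) (nat_lit 215)))) (XT.nd (nat_lit 156) (nat_lit 1064) (nat_lit 0) (XT.nd (nat_lit 78) (nat_lit 0) (nat_lit 0) (XT.lf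 (nat_lit 0) (nat_lit 3389843511) (nat_lit 988) (nat_lit 776115515) (nat_lit 1064) (nat_lit 4729013192) (nat_lit 210) (nat_lit 5) (nat_lit 223) (nat_lit 5) (nat_lit 224) (nat_lit 5) (nat_lit 292) (nat_lit 274) (nat_lit 214)) (XT.lf (nat_lit 0) (nat_lit 5764941498) (nat_lit 1064) (nat_lit 958461333) (nat_lit 76) (nat_lit 2292581303) (nat_lit 210) (nat_lit 5) (nat_lit 224) (nat_lit 5) (nat_lit 211) (nat_lit 5) (nat_lit 293) (nat_lit 274) (nat_lit 213))) (XT.nd (nat_lit 78) (nat_lit 0) (nat_lit 0) (XT.lf (nat_lit 0) (nat_lit 3758836038) (nat_lit 1064) (nat_lit 3660190818) (nat_lit 1140) (nat_lit 1721438824) (nat_lit 196) (nat_lit 5) (nat_lit 210) (nat_lit 5) (nat_lit 211) (nat_lit 5) (nat_lit 294) (nat_lit 274) (nat_lit 212)) (XT.lf (nat_lit 0) (nat_lit 8606173886) (nat_lit 1064) (nat_lit 490325578) (nat_lit 1140) (nat_lit 173020992) (nat_lit 196) (nat_lit 5) (nat_lit 210) (nat_lit 5) (nat_lit 211)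 (nat_lit 5) (nat_lit 295) (nat_lit 274) (nat_lit 211))))))))
noncomputable def xc142 : XT := (XT.nd (nat_lit 2028) (nat_lit 3800) (nat_lit 0) (XT.nd (nat_lit 1014) (nat_lit 2888) (nat_lit 0) (XT.nd (nat_lit 468) (nat_lit 1672) (nat_lit 0) (XT.nd (nat_lit 234) (nat_lit 1140) (nat_lit 0) (XT.nd (nat_lit 78) (nat_lit 608) (nat_lit 0) (XT.lf (nat_lit 0) (nat_lit 1426797131) (nat_lit 1216) (nat_lit 5194696148) (nat_lit 76) (nat_lit 2779611526) (nat_lit 180) (nat_lit 5) (nat_lit 196) (nat_lit 5) (nat_lit 181) (nat_lit 5) (nat_lit 296) (nat_lit 274) (nat_lit 210)) (XT.nd (nat_lit 78) (nat_lit 608) (nat_lit 0) (XT.lf (nat_lit 0) (nat_lit 3048258874) (nat_lit 1216) (nat_lit 339002016) (nat_lit 76) (nat_lit 6150057937) (nat_lit 180) (nat_lit 5) (nat_lit 196) (nat_lit 5) (nat_lit 181) (nat_lit 5) (nat_lit 297) (nat_lit 274) (nat_lit 209)) (XT.lf (nat_lit 0) (nat_lit 4723678063) (nat_lit 608) (nat_lit 6605033)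 (nat_lit 684) (nat_lit 4947024570) (nat_lit 172) (nat_lit 5) (nat_lit 180) (nat_lit 5) (nat_lit 181) (nat_lit 5) (nat_lit 298) (nat_lit 274) (nat_lit 208)))) (XT.nd (nat_lit 78) (nat_lit 532) (nat_lit 0) (XT.lf (nat_lit 0) (nat_lit 59912425) (nat_lit 608) (nat_lit 6407512030) (nat_lit 684) (nat_lit 3353976640) (nat_lit 164) (nat_lit 5) (nat_lit 172) (nat_lit 5) (nat_lit 173) (nat_lit 5) (nat_lit 299) (nat_lit 274) (nat_lit 207)) (XT.nd (nat_lit 78) (nat_lit 532) (nat_lit 0) (XT.lf (nat_lit 0) (nat_lit 5294039736) (nat_lit 608) (nat_lit 2980596056) (nat_lit 684) (nat_lit 1694686181) (nat_lit 164) (nat_lit 5) (nat_lit 172) (nat_lit 5) (nat_lit 173) (nat_lit 5) (nat_lit 300) (nat_lit 274) (nat_lit 206)) (XT.lf (nat_lit 0) (nat_lit 537344476) (nat_lit 532) (nat_lit 9577975480) (nat_lit 608) (nat_lit 7024881) (nat_lit 157) (nat_lit 5) (nat_lit 164) (nat_lit 5) (nat_lit 165) (nat_lit 5) (nat_lit 301)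 (nat_lit 274) (nat_lit 205))))) (XT.nd (nat_lit 234) (nat_lit 1064) (nat_lit 0) (XT.nd (nat_lit 78) (nat_lit 532) (nat_lit 0) (XT.lf (nat_lit 0) (nat_lit 1743752112) (nat_lit 608) (nat_lit 4354693969) (nat_lit 76) (nat_lit 4179664617) (nat_lit 156) (nat_lit 5) (nat_lit 164) (nat_lit 5) (nat_lit 157) (nat_lit 5) (nat_lit 302) (nat_lit 274) (nat_lit 204)) (XT.nd (nat_lit 78) (nat_lit 0) (nat_lit 0) (XT.lf (nat_lit 0) (nat_lit 1021590535) (nat_lit 532) (nat_lit 2505121058) (nat_lit 608) (nat_lit 6912480331) (nat_lit 149) (nat_lit 5) (nat_lit 156) (nat_lit 5) (nat_lit 157) (nat_lit 5) (nat_lit 303) (nat_lit 274) (nat_lit 203)) (XT.lf (nat_lit 0) (nat_lit 5389617132) (nat_lit 608) (nat_lit 3998692826) (nat_lit 76) (nat_lit 1216039277) (nat_lit 149) (nat_lit 5) (nat_lit 157) (nat_lit 5) (nat_lit 150) (nat_lit 5) (nat_lit 304) (nat_lit 274) (nat_lit 202)))) (XT.nd (nat_lit 156) (nat_lit 608) (nat_lit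 0) (XT.nd (nat_lit 78) (nat_lit 0) (nat_lit 0) (XT.lf (nat_lit 0) (nat_lit 1557889676) (nat_lit 456) (nat_lit 5761707753) (nat_lit 532) (nat_lit 3454564485) (nat_lit 143) (nat_lit 5) (nat_lit 149) (nat_lit 5) (nat_lit 150) (nat_lit 5) (nat_lit 305) (nat_lit 274) (nat_lit 201)) (XT.lf (nat_lit 0) (nat_lit 7332947682) (nat_lit 456) (nat_lit 1986859967) (nat_lit 532) (nat_lit 1628926631) (nat_lit 143) (nat_lit 5) (nat_lit 149) (nat_lit 5) (nat_lit 150) (nat_lit 5) (nat_lit 306) (nat_lit 274) (nat_lit 200))) (XT.nd (nat_lit 78) (nat_lit 0) (nat_lit 0) (XT.lf (nat_lit 0) (nat_lit 258309595) (nat_lit 608) (nat_lit 8984586476) (nat_lit 76) (nat_lit 1885256328) (nat_lit 135) (nat_lit 5) (nat_lit 143) (nat_lit 5) (nat_lit 136) (nat_lit 5) (nat_lit 307) (nat_lit 274) (nat_lit 199)) (XT.lf (nat_lit 0) (nat_lit 2198926815) (nat_lit 608) (nat_lit 3228617905) (nat_lit 76) (nat_lit 5884071622) (nat_lit 135)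 (nat_lit 5) (nat_lit 143) (nat_lit 5) (nat_lit 136) (nat_lit 5) (nat_lit 308) (nat_lit 274) (nat_lit 198)))))) (XT.nd (nat_lit 468) (nat_lit 1520) (nat_lit 0) (XT.nd (nat_lit 234) (nat_lit 456) (nat_lit 0) (XT.nd (nat_lit 78) (nat_lit 456) (nat_lit 0) (XT.lf (nat_lit 0) (nat_lit 2723645880) (nat_lit 456) (nat_lit 1474043626) (nat_lit 532) (nat_lit 7302928183) (nat_lit 129) (nat_lit 5) (nat_lit 135) (nat_lit 5) (nat_lit 136) (nat_lit 5) (nat_lit 309) (nat_lit 274) (nat_lit 197)) (XT.nd (nat_lit 78) (nat_lit 456) (nat_lit 0) (XT.lf (nat_lit 0) (nat_lit 6288510583) (nat_lit 532) (nat_lit 2828959467) (nat_lit 76) (nat_lit 2576886544) (nat_lit 129) (nat_lit 5) (nat_lit 136) (nat_lit 5) (nat_lit 130) (nat_lit 5) (nat_lit 310) (nat_lit 274) (nat_lit 196)) (XT.lf (nat_lit 0) (nat_lit 3318516530) (nat_lit 456) (nat_lit 5144981269) (nat_lit 532) (nat_lit 3429796118) (nat_lit 123) (nat_lit 5) (nat_lit 129)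 (nat_lit 5) (nat_lit 130) (nat_lit 5) (nat_lit 311) (nat_lit 274) (nat_lit 195)))) (XT.nd (nat_lit 78) (nat_lit 456) (nat_lit 0) (XT.lf (nat_lit 0) (nat_lit 9679554940) (nat_lit 456) (nat_lit 1028146379) (nat_lit 532) (nat_lit 1390407678) (nat_lit 123) (nat_lit 5) (nat_lit 129) (nat_lit 5) (nat_lit 130) (nat_lit 5) (nat_lit 312) (nat_lit 274) (nat_lit 194)) (XT.nd (nat_lit 78) (nat_lit 0) (nat_lit 0) (XT.lf (nat_lit 0) (nat_lit 741545478) (nat_lit 456) (nat_lit 8375383752) (nat_lit 76) (nat_lit 3190604272) (nat_lit 117) (nat_lit 5) (nat_lit 123) (nat_lit 5) (nat_lit 118) (nat_lit 5) (nat_lit 313) (nat_lit 274) (nat_lit 193)) (XT.lf (nat_lit 0) (nat_lit 2920596429) (nat_lit 456) (nat_lit 2052677832) (nat_lit 76) (nat_lit 7549247146) (nat_lit 117) (nat_lit 5) (nat_lit 123) (nat_lit 5) (nat_lit 118) (nat_lit 5) (nat_lit 314) (nat_lit 274) (nat_lit 192))))) (XT.nd (nat_lit 234) (nat_lit 760) (nat_lit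 0) (XT.nd (nat_lit 78) (nat_lit 380) (nat_lit 0) (XT.lf (nat_lit 0) (nat_lit 4519815353) (nat_lit 380) (nat_lit 665583685) (nat_lit 456) (nat_lit 7557973951) (nat_lit 112) (nat_lit 5) (nat_lit 117) (nat_lit 5) (nat_lit 118) (nat_lit 5) (nat_lit 315) (nat_lit 274) (nat_lit 191)) (XT.nd (nat_lit 78) (nat_lit 380) (nat_lit 0) (XT.lf (nat_lit 0) (nat_lit 7552619209) (nat_lit 456) (nat_lit 1703596114) (nat_lit 76) (nat_lit 3713625295) (nat_lit 112) (nat_lit 5) (nat_lit 118) (nat_lit 5) (nat_lit 113) (nat_lit 5) (nat_lit 316) (nat_lit 274) (nat_lit 190)) (XT.lf (nat_lit 0) (nat_lit 5076798791) (nat_lit 380) (nat_lit 4947397775) (nat_lit 456) (nat_lit 3177929477) (nat_lit 107) (nat_lit 5) (nat_lit 112) (nat_lit 5) (nat_lit 113) (nat_lit 5) (nat_lit 317) (nat_lit 274) (nat_lit 189)))) (XT.nd (nat_lit 156) (nat_lit 304) (nat_lit 0) (XT.nd (nat_lit 78) (nat_lit 456) (nat_lit 0) (XT.lf (nat_lit 0) (nat_lit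 12068156440) (nat_lit 380) (nat_lit 497296276) (nat_lit 456) (nat_lit 876084655) (nat_lit 107) (nat_lit 5) (nat_lit 112) (nat_lit 5) (nat_lit 113) (nat_lit 5) (nat_lit 318) (nat_lit 274) (nat_lit 188)) (XT.lf (nat_lit 0) (nat_lit 1538591463) (nat_lit 456) (nat_lit 8076648465) (nat_lit 76) (nat_lit 4070293632) (nat_lit 101) (nat_lit 5) (nat_lit 107) (nat_lit 5) (nat_lit 102) (nat_lit 5) (nat_lit 319) (nat_lit 274) (nat_lit 187))) (XT.nd (nat_lit 78) (nat_lit 304) (nat_lit 0) (XT.lf (nat_lit 0) (nat_lit 4006064302) (nat_lit 456) (nat_lit 1148743345) (nat_lit 76) (nat_lit 8781864127) (nat_lit 101) (nat_lit 5) (nat_lit 107) (nat_lit 5) (nat_lit 102) (nat_lit 5) (nat_lit 320) (nat_lit 274) (nat_lit 186)) (XT.lf (nat_lit 0) (nat_lit 6079073361) (nat_lit 304) (nat_lit 506569736) (nat_lit 380) (nat_lit 7608579274) (nat_lit 97) (nat_lit 5) (nat_lit 101) (nat_lit 5) (nat_lit 102) (nat_lit 5) (nat_lit 321)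 (nat_lit 274) (nat_lit 185))))))) (XT.nd (nat_lit 1014) (nat_lit 1824) (nat_lit 0) (XT.nd (nat_lit 468) (nat_lit 912) (nat_lit 0) (XT.nd (nat_lit 234) (nat_lit 684) (nat_lit 0) (XT.nd (nat_lit 78) (nat_lit 380) (nat_lit 0) (XT.lf (nat_lit 0) (nat_lit 9275402655) (nat_lit 380) (nat_lit 979996414) (nat_lit 76) (nat_lit 4203136700) (nat_lit 97) (nat_lit 5) (nat_lit 102) (nat_lit 5) (nat_lit 98) (nat_lit 5) (nat_lit 322) (nat_lit 274) (nat_lit 184)) (XT.nd (nat_lit 78) (nat_lit 0) (nat_lit 0) (XT.lf (nat_lit 0) (nat_lit 6464268355) (nat_lit 380) (nat_lit 5629251163) (nat_lit 456) (nat_lit 2635848616) (nat_lit 92) (nat_lit 5) (nat_lit 97) (nat_lit 5) (nat_lit 98) (nat_lit 5) (nat_lit 323) (nat_lit 274) (nat_lit 183)) (XT.lf (nat_lit 0) (nat_lit 14126137583) (nat_lit 380) (nat_lit 860768356) (nat_lit 456) (nat_lit 21716685) (nat_lit 92) (nat_lit 5) (nat_lit 97) (nat_lit 5) (nat_lit 98) (nat_lit 5) (nat_lit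 324) (nat_lit 274) (nat_lit 182)))) (XT.nd (nat_lit 78) (nat_lit 304) (nat_lit 0) (XT.lf (nat_lit 0) (nat_lit 2705080790) (nat_lit 380) (nat_lit 8530644087) (nat_lit 76) (nat_lit 4057186726) (nat_lit 87) (nat_lit 5) (nat_lit 92) (nat_lit 5) (nat_lit 88) (nat_lit 5) (nat_lit 325) (nat_lit 274) (nat_lit 181)) (XT.nd (nat_lit 78) (nat_lit 304) (nat_lit 0) (XT.lf (nat_lit 0) (nat_lit 5512195175) (nat_lit 380) (nat_lit 965546479) (nat_lit 76) (nat_lit 9108029989) (nat_lit 87) (nat_lit 5) (nat_lit 92) (nat_lit 5) (nat_lit 88) (nat_lit 5) (nat_lit 326) (nat_lit 274) (nat_lit 180)) (XT.lf (nat_lit 0) (nat_lit 6936905357) (nat_lit 304) (nat_lit 1515267773) (nat_lit 380) (nat_lit 7433801673) (nat_lit 83) (nat_lit 5) (nat_lit 87) (nat_lit 5) (nat_lit 88) (nat_lit 5) (nat_lit 327) (nat_lit 274) (nat_lit 179))))) (XT.nd (nat_lit 234) (nat_lit 532) (nat_lit 0) (XT.nd (nat_lit 78) (nat_lit 380) (nat_lit 0) (XT.lf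 (nat_lit 0) (nat_lit 11506953722) (nat_lit 380) (nat_lit 1158531900) (nat_lit 76) (nat_lit 3528916667) (nat_lit 83) (nat_lit 5) (nat_lit 88) (nat_lit 5) (nat_lit 84) (nat_lit 5) (nat_lit 328) (nat_lit 274) (nat_lit 178)) (XT.nd (nat_lit 78) (nat_lit 76) (nat_lit 0) (XT.lf (nat_lit 0) (nat_lit 6962109326) (nat_lit 304) (nat_lit 7755902792) (nat_lit 380) (nat_lit 1792147308) (nat_lit 79) (nat_lit 5) (nat_lit 83) (nat_lit 5) (nat_lit 84) (nat_lit 5) (nat_lit 329) (nat_lit 274) (nat_lit 177)) (XT.lf (nat_lit 0) (nat_lit 1161401125) (nat_lit 380) (nat_lit 1521057842) (nat_lit 76) (nat_lit 14152763794) (nat_lit 78) (nat_lit 5) (nat_lit 83) (nat_lit 5) (nat_lit 79) (nat_lit 5) (nat_lit 330) (nat_lit 274) (nat_lit 176)))) (XT.nd (nat_lit 156) (nat_lit 228) (nat_lit 0) (XT.nd (nat_lit 78) (nat_lit 0) (nat_lit 0) (XT.lf (nat_lit 0) (nat_lit 4241772554) (nat_lit 380) (nat_lit 10354675242) (nat_lit 76) (nat_lit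 2570845281) (nat_lit 74) (nat_lit 5) (nat_lit 79) (nat_lit 5) (nat_lit 75) (nat_lit 5) (nat_lit 331) (nat_lit 274) (nat_lit 175)) (XT.lf (nat_lit 0) (nat_lit 7440112118) (nat_lit 380) (nat_lit 2132163261) (nat_lit 76) (nat_lit 7936297502) (nat_lit 74) (nat_lit 5) (nat_lit 79) (nat_lit 5) (nat_lit 75) (nat_lit 5) (nat_lit 332) (nat_lit 274) (nat_lit 174))) (XT.nd (nat_lit 78) (nat_lit 0) (nat_lit 0) (XT.lf (nat_lit 0) (nat_lit 6439307826) (nat_lit 228) (nat_lit 4340959808) (nat_lit 304) (nat_lit 7078461151) (nat_lit 71) (nat_lit 5) (nat_lit 74) (nat_lit 5) (nat_lit 75) (nat_lit 5) (nat_lit 333) (nat_lit 274) (nat_lit 173)) (XT.lf (nat_lit 0) (nat_lit 14236579947) (nat_lit 304) (nat_lit 2940951026) (nat_lit 76) (nat_lit 1041393108) (nat_lit 71) (nat_lit 5) (nat_lit 75) (nat_lit 5) (nat_lit 72) (nat_lit 5) (nat_lit 334) (nat_lit 274) (nat_lit 172)))))) (XT.nd (nat_lit 546) (nat_lit 684) (nat_lit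 0) (XT.nd (nat_lit 234) (nat_lit 532) (nat_lit 0) (XT.nd (nat_lit 78) (nat_lit 304) (nat_lit 0) (XT.lf (nat_lit 0) (nat_lit 5839980941) (nat_lit 304) (nat_lit 12040320914) (nat_lit 380) (nat_lit 707124667) (nat_lit 67) (nat_lit 5) (nat_lit 71) (nat_lit 5) (nat_lit 72) (nat_lit 5) (nat_lit 335) (nat_lit 274) (nat_lit 171)) (XT.nd (nat_lit 78) (nat_lit 228) (nat_lit 0) (XT.lf (nat_lit 0) (nat_lit 2628984424) (nat_lit 380) (nat_lit 4070354580) (nat_lit 76) (nat_lit 12266448370) (nat_lit 66) (nat_lit 5) (nat_lit 71) (nat_lit 5) (nat_lit 67) (nat_lit 5) (nat_lit 336) (nat_lit 274) (nat_lit 170)) (XT.lf (nat_lit 0) (nat_lit 4934033216) (nat_lit 228) (nat_lit 1149477761) (nat_lit 304) (nat_lit 13270813437) (nat_lit 63) (nat_lit 5) (nat_lit 66) (nat_lit 5) (nat_lit 67) (nat_lit 5) (nat_lit 337) (nat_lit 274) (nat_lit 169)))) (XT.nd (nat_lit 156) (nat_lit 304) (nat_lit 0) (XT.nd (nat_lit 78) (nat_lit 228)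 (nat_lit 0) (XT.lf (nat_lit 0) (nat_lit 9712350233) (nat_lit 304) (nat_lit 5528057030) (nat_lit 76) (nat_lit 4512001450) (nat_lit 63) (nat_lit 5) (nat_lit 67) (nat_lit 5) (nat_lit 64) (nat_lit 5) (nat_lit 338) (nat_lit 274) (nat_lit 168)) (XT.lf (nat_lit 0) (nat_lit 3669362891) (nat_lit 228) (nat_lit 9813041710) (nat_lit 304) (nat_lit 6679071561) (nat_lit 60) (nat_lit 5) (nat_lit 63) (nat_lit 5) (nat_lit 64) (nat_lit 5) (nat_lit 339) (nat_lit 274) (nat_lit 167))) (XT.nd (nat_lit 78) (nat_lit 304) (nat_lit 0) (XT.lf (nat_lit 0) (nat_lit 13234436122) (nat_lit 228) (nat_lit 4172852893) (nat_lit 304) (nat_lit 3174285566) (nat_lit 60) (nat_lit 5) (nat_lit 63) (nat_lit 5) (nat_lit 64) (nat_lit 5) (nat_lit 340) (nat_lit 274) (nat_lit 166)) (XT.lf (nat_lit 0) (nat_lit 449280136) (nat_lit 304) (nat_lit 18942387019) (nat_lit 76) (nat_lit 1621829231) (nat_lit 56) (nat_lit 5) (nat_lit 60) (nat_lit 5) (nat_lit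 57) (nat_lit 5) (nat_lit 341) (nat_lit 274) (nat_lit 165))))) (XT.nd (nat_lit 234) (nat_lit 456) (nat_lit 0) (XT.nd (nat_lit 78) (nat_lit 228) (nat_lit 0) (XT.lf (nat_lit 0) (nat_lit 4220294437) (nat_lit 304) (nat_lit 9628499724) (nat_lit 76) (nat_lit 7605572460) (nat_lit 56) (nat_lit 5) (nat_lit 60) (nat_lit 5) (nat_lit 57) (nat_lit 5) (nat_lit 342) (nat_lit 274) (nat_lit 164)) (XT.nd (nat_lit 78) (nat_lit 228) (nat_lit 0) (XT.lf (nat_lit 0) (nat_lit 8091138181) (nat_lit 304) (nat_lit 55957829) (nat_lit 76) (nat_lit 13761775576) (nat_lit 56) (nat_lit 5) (nat_lit 60) (nat_lit 5) (nat_lit 57) (nat_lit 5) (nat_lit 343) (nat_lit 274) (nat_lit 163)) (XT.lf (nat_lit 0) (nat_lit 9978315907) (nat_lit 228) (nat_lit 2182795427) (nat_lit 304) (nat_lit 10213419556) (nat_lit 53) (nat_lit 5) (nat_lit 56) (nat_lit 5) (nat_lit 57) (nat_lit 5) (nat_lit 344) (nat_lit 274) (nat_lit 162)))) (XT.nd (nat_lit 156)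 (nat_lit 304) (nat_lit 0) (XT.nd (nat_lit 78) (nat_lit 152) (nat_lit 0) (XT.lf (nat_lit 0) (nat_lit 16379025636) (nat_lit 304) (nat_lit 2597734895) (nat_lit 76) (nat_lit 3876633227) (nat_lit 53) (nat_lit 5) (nat_lit 57) (nat_lit 5) (nat_lit 54) (nat_lit 5) (nat_lit 345) (nat_lit 274) (nat_lit 161)) (XT.lf (nat_lit 0) (nat_lit 7601734595) (nat_lit 152) (nat_lit 13204001089) (nat_lit 228) (nat_lit 2538427857) (nat_lit 51) (nat_lit 5) (nat_lit 53) (nat_lit 5) (nat_lit 54) (nat_lit 5) (nat_lit 346) (nat_lit 274) (nat_lit 160))) (XT.nd (nat_lit 78) (nat_lit 228) (nat_lit 0) (XT.lf (nat_lit 0) (nat_lit 1500126538) (nat_lit 228) (nat_lit 5723010804) (nat_lit 76) (nat_lit 16625666971) (nat_lit 50) (nat_lit 5) (nat_lit 53) (nat_lit 5) (nat_lit 51) (nat_lit 5) (nat_lit 347) (nat_lit 274) (nat_lit 159)) (XT.lf (nat_lit 0) (nat_lit 4643287468) (nat_lit 228) (nat_lit 998143750) (nat_lit 304) (nat_lit 18725428729)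 (nat_lit 47) (nat_lit 5) (nat_lit 50) (nat_lit 5) (nat_lit 51) (nat_lit 5) (nat_lit 348) (nat_lit 274) (nat_lit 158))))))))
noncomputable def xc143 : XT := (XT.nd (nat_lit 2106) (nat_lit 836) (nat_lit 0) (XT.nd (nat_lit 1014) (nat_lit 836) (nat_lit 0) (XT.nd (nat_lit 468) (nat_lit 532) (nat_lit 0) (XT.nd (nat_lit 234) (nat_lit 304) (nat_lit 0) (XT.nd (nat_lit 78) (nat_lit 152) (nat_lit 0) (XT.lf (nat_lit 0) (nat_lit 10005455659) (nat_lit 304) (nat_lit 9532727253) (nat_lit 76) (nat_lit 5359327720) (nat_lit 47) (nat_lit 5) (nat_lit 51) (nat_lit 5) (nat_lit 48) (nat_lit 5) (nat_lit 349) (nat_lit 274) (nat_lit 157)) (XT.nd (nat_lit 78) (nat_lit 0) (nat_lit 0) (XT.lf (nat_lit 0) (nat_lit 953851943) (nat_lit 152) (nat_lit 13554026150) (nat_lit 228) (nat_lit 10935986001) (nat_lit 45) (nat_lit 5) (nat_lit 47) (nat_lit 5) (nat_lit 48) (nat_lit 5) (nat_lit 350) (nat_lit 274) (nat_lit 156)) (XT.lf (nat_lit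 0) (nat_lit 11931901765) (nat_lit 152) (nat_lit 7298317844) (nat_lit 228) (nat_lit 6773850509) (nat_lit 45) (nat_lit 5) (nat_lit 47) (nat_lit 5) (nat_lit 48) (nat_lit 5) (nat_lit 351) (nat_lit 274) (nat_lit 155)))) (XT.nd (nat_lit 78) (nat_lit 304) (nat_lit 0) (XT.lf (nat_lit 0) (nat_lit 23221294718) (nat_lit 152) (nat_lit 861853698) (nat_lit 228) (nat_lit 2498273534) (nat_lit 45) (nat_lit 5) (nat_lit 47) (nat_lit 5) (nat_lit 48) (nat_lit 5) (nat_lit 352) (nat_lit 274) (nat_lit 154)) (XT.nd (nat_lit 78) (nat_lit 0) (nat_lit 0) (XT.lf (nat_lit 0) (nat_lit 1988687627) (nat_lit 304) (nat_lit 19440674505) (nat_lit 76) (nat_lit 5742580366) (nat_lit 41) (nat_lit 5) (nat_lit 45) (nat_lit 5) (nat_lit 42) (nat_lit 5) (nat_lit 353) (nat_lit 274) (nat_lit 153)) (XT.lf (nat_lit 0) (nat_lit 6592054069) (nat_lit 304) (nat_lit 8606267591) (nat_lit 76) (nat_lit 12580161195) (nat_lit 41) (nat_lit 5) (nat_lit 45)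 (nat_lit 5) (nat_lit 42) (nat_lit 5) (nat_lit 354) (nat_lit 274) (nat_lit 152))))) (XT.nd (nat_lit 234) (nat_lit 380) (nat_lit 0) (XT.nd (nat_lit 78) (nat_lit 0) (nat_lit 0) (XT.lf (nat_lit 0) (nat_lit 2586372323) (nat_lit 152) (nat_lit 8761534682) (nat_lit 228) (nat_lit 17054887194) (nat_lit 39) (nat_lit 5) (nat_lit 41) (nat_lit 5) (nat_lit 42) (nat_lit 5) (nat_lit 355) (nat_lit 274) (nat_lit 151)) (XT.nd (nat_lit 78) (nat_lit 0) (nat_lit 0) (XT.lf (nat_lit 0) (nat_lit 14274112138) (nat_lit 152) (nat_lit 2048894296) (nat_lit 228) (nat_lit 12720537482) (nat_lit 39) (nat_lit 5) (nat_lit 41) (nat_lit 5) (nat_lit 42) (nat_lit 5) (nat_lit 356) (nat_lit 274) (nat_lit 150)) (XT.lf (nat_lit 0) (nat_lit 21484027791) (nat_lit 228) (nat_lit 3454643733) (nat_lit 76) (nat_lit 4763750510) (nat_lit 39) (nat_lit 5) (nat_lit 42) (nat_lit 5) (nat_lit 40) (nat_lit 5) (nat_lit 357) (nat_lit 274) (nat_lit 149))))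 (XT.nd (nat_lit 156) (nat_lit 152) (nat_lit 0) (XT.nd (nat_lit 78) (nat_lit 76) (nat_lit 0) (XT.lf (nat_lit 0) (nat_lit 8325405970) (nat_lit 152) (nat_lit 18564985285) (nat_lit 228) (nat_lit 3487965699) (nat_lit 37) (nat_lit 5) (nat_lit 39) (nat_lit 5) (nat_lit 40) (nat_lit 5) (nat_lit 358) (nat_lit 274) (nat_lit 148)) (XT.lf (nat_lit 0) (nat_lit 1382817126) (nat_lit 228) (nat_lit 10573896489) (nat_lit 76) (nat_lit 19116698886) (nat_lit 36) (nat_lit 5) (nat_lit 39) (nat_lit 5) (nat_lit 37) (nat_lit 5) (nat_lit 359) (nat_lit 274) (nat_lit 147))) (XT.nd (nat_lit 78) (nat_lit 0) (nat_lit 0) (XT.lf (nat_lit 0) (nat_lit 1222942612) (nat_lit 152) (nat_lit 5108941605) (nat_lit 228) (nat_lit 25456336819) (nat_lit 34) (nat_lit 5) (nat_lit 36) (nat_lit 5) (nat_lit 37) (nat_lit 5) (nat_lit 360) (nat_lit 274) (nat_lit 146)) (XT.lf (nat_lit 0) (nat_lit 11546518778) (nat_lit 228) (nat_lit 18966561117) (nat_lit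 76) (nat_lit 2007886223) (nat_lit 34) (nat_lit 5) (nat_lit 37) (nat_lit 5) (nat_lit 35) (nat_lit 5) (nat_lit 361) (nat_lit 274) (nat_lit 145)))))) (XT.nd (nat_lit 546) (nat_lit 456) (nat_lit 0) (XT.nd (nat_lit 234) (nat_lit 228) (nat_lit 0) (XT.nd (nat_lit 78) (nat_lit 152) (nat_lit 0) (XT.lf (nat_lit 0) (nat_lit 16959023725) (nat_lit 228) (nat_lit 7085985602) (nat_lit 76) (nat_lit 9229446292) (nat_lit 34) (nat_lit 5) (nat_lit 37) (nat_lit 5) (nat_lit 35) (nat_lit 5) (nat_lit 362) (nat_lit 274) (nat_lit 144)) (XT.nd (nat_lit 78) (nat_lit 0) (nat_lit 0) (XT.lf (nat_lit 0) (nat_lit 5238154743) (nat_lit 152) (nat_lit 17337215763) (nat_lit 228) (nat_lit 11473940159) (nat_lit 32) (nat_lit 5) (nat_lit 34) (nat_lit 5) (nat_lit 35) (nat_lit 5) (nat_lit 363) (nat_lit 274) (nat_lit 143)) (XT.lf (nat_lit 0) (nat_lit 18062355079) (nat_lit 152) (nat_lit 10360636896) (nat_lit 228) (nat_lit 6422540579) (nat_lit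 32) (nat_lit 5) (nat_lit 34) (nat_lit 5) (nat_lit 35) (nat_lit 5) (nat_lit 364) (nat_lit 274) (nat_lit 142)))) (XT.nd (nat_lit 156) (nat_lit 0) (nat_lit 0) (XT.nd (nat_lit 78) (nat_lit 228) (nat_lit 0) (XT.lf (nat_lit 0) (nat_lit 31256796010) (nat_lit 152) (nat_lit 3180731247) (nat_lit 228) (nat_lit 1228373869) (nat_lit 32) (nat_lit 5) (nat_lit 34) (nat_lit 5) (nat_lit 35) (nat_lit 5) (nat_lit 365) (nat_lit 274) (nat_lit 141)) (XT.lf (nat_lit 0) (nat_lit 4155689299) (nat_lit 228) (nat_lit 28101993281) (nat_lit 76) (nat_lit 4248578936) (nat_lit 29) (nat_lit 5) (nat_lit 32) (nat_lit 5) (nat_lit 30) (nat_lit 5) (nat_lit 366) (nat_lit 274) (nat_lit 140))) (XT.nd (nat_lit 78) (nat_lit 0) (nat_lit 0) (XT.lf (nat_lit 0) (nat_lit 9744740338) (nat_lit 228) (nat_lit 15736457072) (nat_lit 76) (nat_lit 11888229985) (nat_lit 29) (nat_lit 5) (nat_lit 32) (nat_lit 5) (nat_lit 30) (nat_lit 5) (nat_lit 367) (nat_lit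 274) (nat_lit 139)) (XT.lf (nat_lit 0) (nat_lit 15493403240) (nat_lit 228) (nat_lit 3013828413) (nat_lit 76) (nat_lit 19751502459) (nat_lit 29) (nat_lit 5) (nat_lit 32) (nat_lit 5) (nat_lit 30) (nat_lit 5) (nat_lit 368) (nat_lit 274) (nat_lit 138))))) (XT.nd (nat_lit 234) (nat_lit 304) (nat_lit 0) (XT.nd (nat_lit 78) (nat_lit 0) (nat_lit 0) (XT.lf (nat_lit 0) (nat_lit 10277561806) (nat_lit 152) (nat_lit 11227933514) (nat_lit 228) (nat_lit 17666499583) (nat_lit 27) (nat_lit 5) (nat_lit 29) (nat_lit 5) (nat_lit 30) (nat_lit 5) (nat_lit 369) (nat_lit 274) (nat_lit 137)) (XT.nd (nat_lit 78) (nat_lit 0) (nat_lit 0) (XT.lf (nat_lit 0) (nat_lit 24016136766) (nat_lit 152) (nat_lit 3704521937) (nat_lit 228) (nat_lit 12391317397) (nat_lit 27) (nat_lit 5) (nat_lit 29) (nat_lit 5) (nat_lit 30) (nat_lit 5) (nat_lit 370) (nat_lit 274) (nat_lit 136)) (XT.lf (nat_lit 0) (nat_lit 34153603492) (nat_lit 228) (nat_lit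 2965292228) (nat_lit 76) (nat_lit 3960324943) (nat_lit 27) (nat_lit 5) (nat_lit 30) (nat_lit 5) (nat_lit 28) (nat_lit 4) (nat_lit 371) (nat_lit 274) (nat_lit 135)))) (XT.nd (nat_lit 156) (nat_lit 152) (nat_lit 0) (XT.nd (nat_lit 78) (nat_lit 76) (nat_lit 0) (XT.lf (nat_lit 0) (nat_lit 10718914398) (nat_lit 76) (nat_lit 30193004812) (nat_lit 152) (nat_lit 1159595491) (nat_lit 26) (nat_lit 5) (nat_lit 27) (nat_lit 5) (nat_lit 28) (nat_lit 4) (nat_lit 372) (nat_lit 274) (nat_lit 134)) (XT.lf (nat_lit 0) (nat_lit 4709068043) (nat_lit 152) (nat_lit 18277252654) (nat_lit 76) (nat_lit 20105194257) (nat_lit 25) (nat_lit 5) (nat_lit 27) (nat_lit 5) (nat_lit 26) (nat_lit 5) (nat_lit 373) (nat_lit 274) (nat_lit 133))) (XT.nd (nat_lit 78) (nat_lit 152) (nat_lit 0) (XT.lf (nat_lit 0) (nat_lit 10723382373) (nat_lit 152) (nat_lit 4833521013) (nat_lit 76) (nat_lit 28585083776) (nat_lit 25) (nat_lit 5) (nat_lit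 27) (nat_lit 5) (nat_lit 26) (nat_lit 5) (nat_lit 374) (nat_lit 274) (nat_lit 132)) (XT.lf (nat_lit 0) (nat_lit 9180635576) (nat_lit 152) (nat_lit 7818844916) (nat_lit 228) (nat_lit 28222055625) (nat_lit 23) (nat_lit 5) (nat_lit 25) (nat_lit 5) (nat_lit 26) (nat_lit 5) (nat_lit 375) (nat_lit 274) (nat_lit 131))))))) (XT.nd (nat_lit 1014) (nat_lit 456) (nat_lit 0) (XT.nd (nat_lit 468) (nat_lit 228) (nat_lit 0) (XT.nd (nat_lit 234) (nat_lit 76) (nat_lit 0) (XT.nd (nat_lit 78) (nat_lit 76) (nat_lit 0) (XT.lf (nat_lit 0) (nat_lit 23507750497) (nat_lit 228) (nat_lit 22631720733) (nat_lit 76) (nat_lit 192686765) (nat_lit 23) (nat_lit 5) (nat_lit 26) (nat_lit 5) (nat_lit 24) (nat_lit 4) (nat_lit 376) (nat_lit 274) (nat_lit 130)) (XT.nd (nat_lit 78) (nat_lit 76) (nat_lit 0) (XT.lf (nat_lit 0) (nat_lit 30282024341) (nat_lit 228) (nat_lit 8909402737) (nat_lit 76) (nat_lit 8282551807) (nat_lit 23) (nat_lit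 5) (nat_lit 26) (nat_lit 5) (nat_lit 24) (nat_lit 4) (nat_lit 377) (nat_lit 274) (nat_lit 129)) (XT.lf (nat_lit 0) (nat_lit 5316956308) (nat_lit 76) (nat_lit 31987215301) (nat_lit 152) (nat_lit 11344546377) (nat_lit 22) (nat_lit 5) (nat_lit 23) (nat_lit 5) (nat_lit 24) (nat_lit 4) (nat_lit 378) (nat_lit 274) (nat_lit 128)))) (XT.nd (nat_lit 78) (nat_lit 76) (nat_lit 0) (XT.lf (nat_lit 0) (nat_lit 20141470271) (nat_lit 76) (nat_lit 24479095854) (nat_lit 152) (nat_lit 5235628506) (nat_lit 22) (nat_lit 5) (nat_lit 23) (nat_lit 5) (nat_lit 24) (nat_lit 4) (nat_lit 379) (nat_lit 274) (nat_lit 127)) (XT.nd (nat_lit 78) (nat_lit 0) (nat_lit 0) (XT.lf (nat_lit 0) (nat_lit 1029676869) (nat_lit 152) (nat_lit 15710401154) (nat_lit 76) (nat_lit 34359703439) (nat_lit 21) (nat_lit 5) (nat_lit 23) (nat_lit 5) (nat_lit 22) (nat_lit 5) (nat_lit 380) (nat_lit 274) (nat_lit 126)) (XT.lf (nat_lit 0) (nat_lit 7371630069)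 (nat_lit 152) (nat_lit 1348532720) (nat_lit 76) (nat_lit 43659142996) (nat_lit 21) (nat_lit 5) (nat_lit 23) (nat_lit 5) (nat_lit 22) (nat_lit 5) (nat_lit 381) (nat_lit 274) (nat_lit 125))))) (XT.nd (nat_lit 234) (nat_lit 76) (nat_lit 0) (XT.nd (nat_lit 78) (nat_lit 0) (nat_lit 0) (XT.lf (nat_lit 0) (nat_lit 13701116338) (nat_lit 152) (nat_lit 328525749) (nat_lit 228) (nat_lit 39663802282) (nat_lit 19) (nat_lit 5) (nat_lit 21) (nat_lit 5) (nat_lit 22) (nat_lit 5) (nat_lit 382) (nat_lit 274) (nat_lit 124)) (XT.nd (nat_lit 78) (nat_lit 0) (nat_lit 0) (XT.lf (nat_lit 0) (nat_lit 20975200432) (nat_lit 228) (nat_lit 25907227855) (nat_lit 76) (nat_lit 8161947106) (nat_lit 19) (nat_lit 5) (nat_lit 22) (nat_lit 5) (nat_lit 20) (nat_lit 4) (nat_lit 383) (nat_lit 274) (nat_lit 123)) (XT.lf (nat_lit 0) (nat_lit 28126675420) (nat_lit 228) (nat_lit 11412987974) (nat_lit 76) (nat_lit 16896246850) (nat_lit 19)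 (nat_lit 5) (nat_lit 22) (nat_lit 5) (nat_lit 20) (nat_lit 4) (nat_lit 384) (nat_lit 274) (nat_lit 122)))) (XT.nd (nat_lit 156) (nat_lit 0) (nat_lit 0) (XT.nd (nat_lit 78) (nat_lit 0) (nat_lit 0) (XT.lf (nat_lit 0) (nat_lit 3575995015) (nat_lit 76) (nat_lit 31945537559) (nat_lit 152) (nat_lit 22346795749) (nat_lit 18) (nat_lit 5) (nat_lit 19) (nat_lit 5) (nat_lit 20) (nat_lit 4) (nat_lit 385) (nat_lit 274) (nat_lit 121)) (XT.lf (nat_lit 0) (nat_lit 19238834641) (nat_lit 76) (nat_lit 24009180236) (nat_lit 152) (nat_lit 16092412939) (nat_lit 18) (nat_lit 5) (nat_lit 19) (nat_lit 5) (nat_lit 20) (nat_lit 4) (nat_lit 386) (nat_lit 274) (nat_lit 120))) (XT.nd (nat_lit 78) (nat_lit 0) (nat_lit 0) (XT.lf (nat_lit 0) (nat_lit 35362076039) (nat_lit 76) (nat_lit 15838905547) (nat_lit 152) (nat_lit 9655870199) (nat_lit 18) (nat_lit 5) (nat_lit 19) (nat_lit 5) (nat_lit 20) (nat_lit 4) (nat_lit 387) (nat_lit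 274) (nat_lit 119)) (XT.lf (nat_lit 0) (nat_lit 51959807478) (nat_lit 76) (nat_lit 7427574414) (nat_lit 152) (nat_lit 3031543365) (nat_lit 18) (nat_lit 5) (nat_lit 19) (nat_lit 5) (nat_lit 20) (nat_lit 4) (nat_lit 388) (nat_lit 274) (nat_lit 118)))))) (XT.nd (nat_lit 546) (nat_lit 152) (nat_lit 0) (XT.nd (nat_lit 234) (nat_lit 76) (nat_lit 0) (XT.nd (nat_lit 78) (nat_lit 0) (nat_lit 0) (XT.lf (nat_lit 0) (nat_lit 3774002975) (nat_lit 228) (nat_lit 58956868296) (nat_lit 76) (nat_lit 1294204003) (nat_lit 15) (nat_lit 5) (nat_lit 18) (nat_lit 5) (nat_lit 16) (nat_lit 4) (nat_lit 389) (nat_lit 274) (nat_lit 117)) (XT.nd (nat_lit 78) (nat_lit 0) (nat_lit 0) (XT.lf (nat_lit 0) (nat_lit 10897953676) (nat_lit 228) (nat_lit 44514156283) (nat_lit 76) (nat_lit 10261146248) (nat_lit 15) (nat_lit 5) (nat_lit 18) (nat_lit 5) (nat_lit 16) (nat_lit 4) (nat_lit 390) (nat_lit 274) (nat_lit 116)) (XT.lf (nat_lit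 0) (nat_lit 18230735867) (nat_lit 228) (nat_lit 29646965628) (nat_lit 76) (nat_lit 19493329571) (nat_lit 15) (nat_lit 5) (nat_lit 18) (nat_lit 5) (nat_lit 16) (nat_lit 4) (nat_lit 391) (nat_lit 274) (nat_lit 115)))) (XT.nd (nat_lit 156) (nat_lit 0) (nat_lit 0) (XT.nd (nat_lit 78) (nat_lit 76) (nat_lit 0) (XT.lf (nat_lit 0) (nat_lit 25778756835) (nat_lit 228) (nat_lit 14342305582) (nat_lit 76) (nat_lit 28998820929) (nat_lit 15) (nat_lit 5) (nat_lit 18) (nat_lit 5) (nat_lit 16) (nat_lit 4) (nat_lit 392) (nat_lit 274) (nat_lit 114)) (XT.lf (nat_lit 0) (nat_lit 1441322247) (nat_lit 76) (nat_lit 32121144561) (nat_lit 152) (nat_lit 37358458713) (nat_lit 14) (nat_lit 5) (nat_lit 15) (nat_lit 5) (nat_lit 16) (nat_lit 4) (nat_lit 393) (nat_lit 274) (nat_lit 113))) (XT.nd (nat_lit 78) (nat_lit 0) (nat_lit 0) (XT.lf (nat_lit 0) (nat_lit 17984246056) (nat_lit 76) (nat_lit 23735719886) (nat_lit 152) (nat_lit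 31051826411) (nat_lit 14) (nat_lit 5) (nat_lit 15) (nat_lit 5) (nat_lit 16) (nat_lit 4) (nat_lit 394) (nat_lit 274) (nat_lit 112)) (XT.lf (nat_lit 0) (nat_lit 35015480823) (nat_lit 76) (nat_lit 15102290487) (nat_lit 152) (nat_lit 24560548120) (nat_lit 14) (nat_lit 5) (nat_lit 15) (nat_lit 5) (nat_lit 16) (nat_lit 4) (nat_lit 395) (nat_lit 274) (nat_lit 111))))) (XT.nd (nat_lit 234) (nat_lit 76) (nat_lit 0) (XT.nd (nat_lit 78) (nat_lit 76) (nat_lit 0) (XT.lf (nat_lit 0) (nat_lit 52549908209) (nat_lit 76) (nat_lit 6213312590) (nat_lit 152) (nat_lit 17878951849) (nat_lit 14) (nat_lit 5) (nat_lit 15) (nat_lit 5) (nat_lit 16) (nat_lit 4) (nat_lit 396) (nat_lit 274) (nat_lit 110)) (XT.nd (nat_lit 78) (nat_lit 76) (nat_lit 0) (XT.lf (nat_lit 0) (nat_lit 67692119969) (nat_lit 152) (nat_lit 8090469720) (nat_lit 0) (nat_lit 2881630769) (nat_lit 14) (nat_lit 5) (nat_lit 16) (nat_lit 4) (nat_lit 14) (nat_lit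 4) (nat_lit 397) (nat_lit 274) (nat_lit 109)) (XT.lf (nat_lit 0) (nat_lit 8488102944) (nat_lit 76) (nat_lit 68539818880) (nat_lit 76) (nat_lit 3714838341) (nat_lit 13) (nat_lit 4) (nat_lit 14) (nat_lit 5) (nat_lit 14) (nat_lit 4) (nat_lit 398) (nat_lit 274) (nat_lit 108)))) (XT.nd (nat_lit 156) (nat_lit 0) (nat_lit 0) (XT.nd (nat_lit 78) (nat_lit 0) (nat_lit 0) (XT.lf (nat_lit 0) (nat_lit 3765206468) (nat_lit 152) (nat_lit 57195680668) (nat_lit 76) (nat_lit 21919332870) (nat_lit 12) (nat_lit 5) (nat_lit 14) (nat_lit 5) (nat_lit 13) (nat_lit 4) (nat_lit 399) (nat_lit 274) (nat_lit 107)) (XT.lf (nat_lit 0) (nat_lit 11391038472) (nat_lit 152) (nat_lit 41728901177) (nat_lit 76) (nat_lit 31960880468) (nat_lit 12) (nat_lit 5) (nat_lit 14) (nat_lit 5) (nat_lit 13) (nat_lit 4) (nat_lit 400) (nat_lit 274) (nat_lit 106))) (XT.nd (nat_lit 78) (nat_lit 0) (nat_lit 0) (XT.lf (nat_lit 0) (nat_lit 19241810893)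 (nat_lit 152) (nat_lit 25805094788) (nat_lit 76) (nat_lit 42300648948) (nat_lit 12) (nat_lit 5) (nat_lit 14) (nat_lit 5) (nat_lit 13) (nat_lit 4) (nat_lit 401) (nat_lit 274) (nat_lit 105)) (XT.lf (nat_lit 0) (nat_lit 27324383632) (nat_lit 152) (nat_lit 9410347497) (nat_lit 76) (nat_lit 52947673061) (nat_lit 12) (nat_lit 5) (nat_lit 14) (nat_lit 5) (nat_lit 13) (nat_lit 4) (nat_lit 402) (nat_lit 274) (nat_lit 104))))))))
noncomputable def xc144 : XT := (XT.nd (nat_lit 32526) (nat_lit 0) (nat_lit 5776) (XT.nd (nat_lit 31512) (nat_lit 0) (nat_lit 12236) (XT.nd (nat_lit 30966) (nat_lit 0) (nat_lit 16872) (XT.nd (nat_lit 30732) (nat_lit 0) (nat_lit 17708) (XT.nd (nat_lit 234) (nat_lit 0) (nat_lit 0) (XT.lf (nat_lit 0) (nat_lit 7618327209) (nat_lit 76) (nat_lit 28100723941) (nat_lit 152) (nat_lit 56366160843) (nat_lit 11) (nat_lit 5) (nat_lit 12) (nat_lit 5) (nat_lit 13) (nat_lit 4) (nat_lit 403) (nat_lit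 274) (nat_lit 103)) (XT.nd (nat_lit 30420) (nat_lit 0) (nat_lit 18468) (XT.lf (nat_lit 0) (nat_lit 62388421668) (nat_lit 76) (nat_lit 328389633) (nat_lit 152) (nat_lit 37009883883) (nat_lit 11) (nat_lit 5) (nat_lit 12) (nat_lit 5) (nat_lit 13) (nat_lit 4) (nat_lit 406) (nat_lit 274) (nat_lit 100)) (XT.lf (nat_lit 0) (nat_lit 2028319612) (nat_lit 836) (nat_lit 840848591) (nat_lit 836) (nat_lit 840848591) (nat_lit 254) (nat_lit 3) (nat_lit 265) (nat_lit 3) (nat_lit 265) (nat_lit 5) (nat_lit 275) (nat_lit 275) (nat_lit 230)))) (XT.nd (nat_lit 78) (nat_lit 760) (nat_lit 0) (XT.lf (nat_lit 76) (nat_lit 1725367160) (nat_lit 0) (nat_lit 3809085075) (nat_lit 836) (nat_lit 1951979285) (nat_lit 255) (nat_lit 5) (nat_lit 254) (nat_lit 3) (nat_lit 265) (nat_lit 5) (nat_lit 276) (nat_lit 275) (nat_lit 229)) (XT.nd (nat_lit 78) (nat_lit 760) (nat_lit 0) (XT.lf (nat_lit 76) (nat_lit 5240362560) (nat_lit 0) (nat_lit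 1778289676) (nat_lit 836) (nat_lit 537400990) (nat_lit 255) (nat_lit 5) (nat_lit 254) (nat_lit 3) (nat_lit 265) (nat_lit 5) (nat_lit 277) (nat_lit 275) (nat_lit 228)) (XT.lf (nat_lit 0) (nat_lit 862895734) (nat_lit 836) (nat_lit 6413397304) (nat_lit 912) (nat_lit 352456621) (nat_lit 244) (nat_lit 5) (nat_lit 255) (nat_lit 5) (nat_lit 256) (nat_lit 5) (nat_lit 278) (nat_lit 275) (nat_lit 227))))) (XT.nd (nat_lit 234) (nat_lit 836) (nat_lit 0) (XT.nd (nat_lit 78) (nat_lit 0) (nat_lit 0) (XT.lf (nat_lit 0) (nat_lit 2283199936) (nat_lit 836) (nat_lit 2856976091) (nat_lit 912) (nat_lit 2563712834) (nat_lit 244) (nat_lit 5) (nat_lit 255) (nat_lit 5) (nat_lit 256) (nat_lit 5) (nat_lit 279) (nat_lit 275) (nat_lit 226)) (XT.nd (nat_lit 78) (nat_lit 0) (nat_lit 0) (XT.lf (nat_lit 76) (nat_lit 791794813) (nat_lit 0) (nat_lit 2911034048) (nat_lit 912) (nat_lit 4079834908) (nat_lit 245) (nat_lit 5) (nat_lit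 244) (nat_lit 5) (nat_lit 256) (nat_lit 5) (nat_lit 280) (nat_lit 275) (nat_lit 225)) (XT.lf (nat_lit 76) (nat_lit 4579092437) (nat_lit 0) (nat_lit 565107268) (nat_lit 912) (nat_lit 2720308214) (nat_lit 245) (nat_lit 5) (nat_lit 244) (nat_lit 5) (nat_lit 256) (nat_lit 5) (nat_lit 281) (nat_lit 275) (nat_lit 224)))) (XT.nd (nat_lit 156) (nat_lit 0) (nat_lit 0) (XT.nd (nat_lit 78) (nat_lit 912) (nat_lit 0) (XT.lf (nat_lit 76) (nat_lit 492663862) (nat_lit 0) (nat_lit 6110617584) (nat_lit 912) (nat_lit 1346370089) (nat_lit 246) (nat_lit 5) (nat_lit 245) (nat_lit 5) (nat_lit 257) (nat_lit 5) (nat_lit 282) (nat_lit 275) (nat_lit 223)) (XT.lf (nat_lit 0) (nat_lit 59054472) (nat_lit 912) (nat_lit 3622583403) (nat_lit 988) (nat_lit 4356017177) (nat_lit 233) (nat_lit 5) (nat_lit 245) (nat_lit 5) (nat_lit 246) (nat_lit 5) (nat_lit 283) (nat_lit 275) (nat_lit 222))) (XT.nd (nat_lit 78) (nat_lit 0) (nat_lit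 76) (XT.lf (nat_lit 76) (nat_lit 288989196) (nat_lit 0) (nat_lit 1147263698) (nat_lit 988) (nat_lit 6693017311) (nat_lit 234) (nat_lit 5) (nat_lit 233) (nat_lit 5) (nat_lit 246) (nat_lit 5) (nat_lit 284) (nat_lit 275) (nat_lit 221)) (XT.lf (nat_lit 0) (nat_lit 2860870510) (nat_lit 912) (nat_lit 3876238496) (nat_lit 988) (nat_lit 1486411222) (nat_lit 234) (nat_lit 5) (nat_lit 246) (nat_lit 5) (nat_lit 247) (nat_lit 5) (nat_lit 285) (nat_lit 275) (nat_lit 220)))))) (XT.nd (nat_lit 468) (nat_lit 3800) (nat_lit 0) (XT.nd (nat_lit 234) (nat_lit 912) (nat_lit 0) (XT.nd (nat_lit 78) (nat_lit 0) (nat_lit 0) (XT.lf (nat_lit 76) (nat_lit 168118994) (nat_lit 0) (nat_lit 4129486117) (nat_lit 988) (nat_lit 4023978775) (nat_lit 235) (nat_lit 5) (nat_lit 234) (nat_lit 5) (nat_lit 247) (nat_lit 5) (nat_lit 286) (nat_lit 275) (nat_lit 219)) (XT.nd (nat_lit 78) (nat_lit 0) (nat_lit 76) (XT.lf (nat_lit 76) (nat_lit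 4383037733) (nat_lit 0) (nat_lit 1390929003) (nat_lit 988) (nat_lit 2648792488) (nat_lit 235) (nat_lit 5) (nat_lit 234) (nat_lit 5) (nat_lit 247) (nat_lit 5) (nat_lit 287) (nat_lit 275) (nat_lit 218)) (XT.lf (nat_lit 76) (nat_lit 155965043) (nat_lit 0) (nat_lit 7112636848) (nat_lit 988) (nat_lit 1259212064) (nat_lit 236) (nat_lit 5) (nat_lit 235) (nat_lit 5) (nat_lit 248) (nat_lit 5) (nat_lit 288) (nat_lit 275) (nat_lit 217)))) (XT.nd (nat_lit 78) (nat_lit 0) (nat_lit 0) (XT.lf (nat_lit 0) (nat_lit 182855380) (nat_lit 988) (nat_lit 4121632581) (nat_lit 1064) (nat_lit 4331118002) (nat_lit 222) (nat_lit 5) (nat_lit 235) (nat_lit 5) (nat_lit 236) (nat_lit 5) (nat_lit 289) (nat_lit 275) (nat_lit 216)) (XT.nd (nat_lit 78) (nat_lit 0) (nat_lit 76) (XT.lf (nat_lit 76) (nat_lit 217439430) (nat_lit 0) (nat_lit 1387903654) (nat_lit 1064) (nat_lit 7142098823) (nat_lit 223) (nat_lit 5) (nat_lit 222) (nat_lit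 5) (nat_lit 236) (nat_lit 5) (nat_lit 290) (nat_lit 275) (nat_lit 215)) (XT.lf (nat_lit 0) (nat_lit 3089398018) (nat_lit 988) (nat_lit 4137589394) (nat_lit 76) (nat_lit 1635135260) (nat_lit 223) (nat_lit 5) (nat_lit 236) (nat_lit 5) (nat_lit 224) (nat_lit 5) (nat_lit 291) (nat_lit 275) (nat_lit 214))))) (XT.nd (nat_lit 234) (nat_lit 1824) (nat_lit 0) (XT.nd (nat_lit 78) (nat_lit 1064) (nat_lit 0) (XT.lf (nat_lit 0) (nat_lit 349152806) (nat_lit 988) (nat_lit 4248370568) (nat_lit 1064) (nat_lit 4383388896) (nat_lit 210) (nat_lit 5) (nat_lit 223) (nat_lit 5) (nat_lit 224) (nat_lit 5) (nat_lit 292) (nat_lit 275) (nat_lit 213)) (XT.nd (nat_lit 78) (nat_lit 1064) (nat_lit 0) (XT.lf (nat_lit 0) (nat_lit 5025098084) (nat_lit 988) (nat_lit 1130830045) (nat_lit 1064) (nat_lit 2947239633) (nat_lit 210) (nat_lit 5) (nat_lit 223) (nat_lit 5) (nat_lit 224) (nat_lit 5) (nat_lit 293) (nat_lit 275) (nat_lit 212))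 (XT.lf (nat_lit 0) (nat_lit 572894952) (nat_lit 1064) (nat_lit 7178078909) (nat_lit 1140) (nat_lit 1478472117) (nat_lit 196) (nat_lit 5) (nat_lit 210) (nat_lit 5) (nat_lit 211) (nat_lit 5) (nat_lit 294) (nat_lit 275) (nat_lit 211)))) (XT.nd (nat_lit 156) (nat_lit 608) (nat_lit 0) (XT.nd (nat_lit 78) (nat_lit 1140) (nat_lit 0) (XT.lf (nat_lit 0) (nat_lit 51210221) (nat_lit 1140) (nat_lit 3954196436) (nat_lit 76) (nat_lit 5353619060) (nat_lit 195) (nat_lit 5) (nat_lit 210) (nat_lit 5) (nat_lit 196) (nat_lit 5) (nat_lit 295) (nat_lit 275) (nat_lit 210)) (XT.lf (nat_lit 0) (nat_lit 861330218) (nat_lit 1140) (nat_lit 709781356) (nat_lit 1216) (nat_lit 7921768128) (nat_lit 180) (nat_lit 5) (nat_lit 195) (nat_lit 5) (nat_lit 196) (nat_lit 5) (nat_lit 296) (nat_lit 275) (nat_lit 209))) (XT.nd (nat_lit 78) (nat_lit 608) (nat_lit 0) (XT.lf (nat_lit 0) (nat_lit 3169253788) (nat_lit 1216) (nat_lit 3784234889)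 (nat_lit 76) (nat_lit 2676327272) (nat_lit 180) (nat_lit 5) (nat_lit 196) (nat_lit 5) (nat_lit 181) (nat_lit 5) (nat_lit 297) (nat_lit 275) (nat_lit 208)) (XT.lf (nat_lit 0) (nat_lit 1194824954) (nat_lit 608) (nat_lit 3606515368) (nat_lit 684) (nat_lit 4969984575) (nat_lit 172) (nat_lit 5) (nat_lit 180) (nat_lit 5) (nat_lit 181) (nat_lit 5) (nat_lit 298) (nat_lit 275) (nat_lit 207))))))) (XT.nd (nat_lit 1014) (nat_lit 3192) (nat_lit 0) (XT.nd (nat_lit 468) (nat_lit 1520) (nat_lit 0) (XT.nd (nat_lit 234) (nat_lit 1140) (nat_lit 0) (XT.nd (nat_lit 78) (nat_lit 608) (nat_lit 0) (XT.lf (nat_lit 0) (nat_lit 6371161454) (nat_lit 608) (nat_lit 117590269) (nat_lit 684) (nat_lit 3428179841) (nat_lit 172) (nat_lit 5) (nat_lit 180) (nat_lit 5) (nat_lit 181) (nat_lit 5) (nat_lit 299) (nat_lit 275) (nat_lit 206)) (XT.nd (nat_lit 78) (nat_lit 0) (nat_lit 0) (XT.lf (nat_lit 0) (nat_lit 1603973197) (nat_lit 608)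 (nat_lit 6640741094) (nat_lit 684) (nat_lit 1821696331) (nat_lit 164) (nat_lit 5) (nat_lit 172) (nat_lit 5) (nat_lit 173) (nat_lit 5) (nat_lit 300) (nat_lit 275) (nat_lit 205)) (XT.lf (nat_lit 0) (nat_lit 6950204034) (nat_lit 608) (nat_lit 3109823358) (nat_lit 684) (nat_lit 160187341) (nat_lit 164) (nat_lit 5) (nat_lit 172) (nat_lit 5) (nat_lit 173) (nat_lit 5) (nat_lit 301) (nat_lit 275) (nat_lit 204)))) (XT.nd (nat_lit 78) (nat_lit 532) (nat_lit 0) (XT.lf (nat_lit 0) (nat_lit 1516520466) (nat_lit 608) (nat_lit 8309447861) (nat_lit 76) (nat_lit 552387133) (nat_lit 156) (nat_lit 5) (nat_lit 164) (nat_lit 5) (nat_lit 157) (nat_lit 5) (nat_lit 302) (nat_lit 275) (nat_lit 203)) (XT.nd (nat_lit 78) (nat_lit 532) (nat_lit 0) (XT.lf (nat_lit 0) (nat_lit 3275302444) (nat_lit 608) (nat_lit 2967827061) (nat_lit 76) (nat_lit 4297050912) (nat_lit 156) (nat_lit 5) (nat_lit 164) (nat_lit 5) (nat_lit 157) (nat_lit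 5) (nat_lit 303) (nat_lit 275) (nat_lit 202)) (XT.lf (nat_lit 0) (nat_lit 2554868452) (nat_lit 532) (nat_lit 2528241863) (nat_lit 608) (nat_lit 5623898213) (nat_lit 149) (nat_lit 5) (nat_lit 156) (nat_lit 5) (nat_lit 157) (nat_lit 5) (nat_lit 304) (nat_lit 275) (nat_lit 201))))) (XT.nd (nat_lit 234) (nat_lit 1064) (nat_lit 0) (XT.nd (nat_lit 78) (nat_lit 456) (nat_lit 0) (XT.lf (nat_lit 0) (nat_lit 6960138214) (nat_lit 608) (nat_lit 2616236928) (nat_lit 76) (nat_lit 1302051989) (nat_lit 149) (nat_lit 5) (nat_lit 157) (nat_lit 5) (nat_lit 150) (nat_lit 5) (nat_lit 305) (nat_lit 275) (nat_lit 200)) (XT.nd (nat_lit 78) (nat_lit 0) (nat_lit 0) (XT.lf (nat_lit 0) (nat_lit 3092313474) (nat_lit 456) (nat_lit 5828971046) (nat_lit 532) (nat_lit 2132903738) (nat_lit 143) (nat_lit 5) (nat_lit 149) (nat_lit 5) (nat_lit 150) (nat_lit 5) (nat_lit 306) (nat_lit 275) (nat_lit 199)) (XT.lf (nat_lit 0) (nat_lit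 8997292527) (nat_lit 456) (nat_lit 1943953204) (nat_lit 532) (nat_lit 294010273) (nat_lit 143) (nat_lit 5) (nat_lit 149) (nat_lit 5) (nat_lit 150) (nat_lit 5) (nat_lit 307) (nat_lit 275) (nat_lit 198)))) (XT.nd (nat_lit 156) (nat_lit 456) (nat_lit 0) (XT.nd (nat_lit 78) (nat_lit 0) (nat_lit 0) (XT.lf (nat_lit 0) (nat_lit 1598566424) (nat_lit 608) (nat_lit 7755266863) (nat_lit 76) (nat_lit 2066600194) (nat_lit 135) (nat_lit 5) (nat_lit 143) (nat_lit 5) (nat_lit 136) (nat_lit 5) (nat_lit 308) (nat_lit 275) (nat_lit 197)) (XT.lf (nat_lit 0) (nat_lit 3558591261) (nat_lit 608) (nat_lit 1870275271) (nat_lit 76) (nat_lit 6181745398) (nat_lit 135) (nat_lit 5) (nat_lit 143) (nat_lit 5) (nat_lit 136) (nat_lit 5) (nat_lit 309) (nat_lit 275) (nat_lit 196))) (XT.nd (nat_lit 78) (nat_lit 0) (nat_lit 0) (XT.lf (nat_lit 0) (nat_lit 4246289749) (nat_lit 456) (nat_lit 1347197742) (nat_lit 532) (nat_lit 6212555619)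 (nat_lit 129) (nat_lit 5) (nat_lit 135) (nat_lit 5) (nat_lit 136) (nat_lit 5) (nat_lit 310) (nat_lit 275) (nat_lit 195)) (XT.lf (nat_lit 0) (nat_lit 7711643282) (nat_lit 532) (nat_lit 1478019319) (nat_lit 76) (nat_lit 2817036884) (nat_lit 129) (nat_lit 5) (nat_lit 136) (nat_lit 5) (nat_lit 130) (nat_lit 5) (nat_lit 311) (nat_lit 275) (nat_lit 194)))))) (XT.nd (nat_lit 546) (nat_lit 1520) (nat_lit 0) (XT.nd (nat_lit 234) (nat_lit 760) (nat_lit 0) (XT.nd (nat_lit 78) (nat_lit 456) (nat_lit 0) (XT.lf (nat_lit 0) (nat_lit 4839804400) (nat_lit 456) (nat_lit 5089786624) (nat_lit 532) (nat_lit 2282724910) (nat_lit 123) (nat_lit 5) (nat_lit 129) (nat_lit 5) (nat_lit 130) (nat_lit 5) (nat_lit 312) (nat_lit 275) (nat_lit 193)) (XT.nd (nat_lit 78) (nat_lit 456) (nat_lit 0) (XT.lf (nat_lit 0) (nat_lit 11350264282) (nat_lit 456) (nat_lit 855549912) (nat_lit 532) (nat_lit 218561568) (nat_lit 123) (nat_lit 5)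 (nat_lit 129) (nat_lit 5) (nat_lit 130) (nat_lit 5) (nat_lit 313) (nat_lit 275) (nat_lit 192)) (XT.lf (nat_lit 0) (nat_lit 1934532366) (nat_lit 456) (nat_lit 7200883205) (nat_lit 76) (nat_lit 3504930317) (nat_lit 117) (nat_lit 5) (nat_lit 123) (nat_lit 5) (nat_lit 118) (nat_lit 5) (nat_lit 314) (nat_lit 275) (nat_lit 191)))) (XT.nd (nat_lit 156) (nat_lit 380) (nat_lit 0) (XT.nd (nat_lit 78) (nat_lit 380) (nat_lit 0) (XT.lf (nat_lit 0) (nat_lit 4144855607) (nat_lit 456) (nat_lit 730023158) (nat_lit 76) (nat_lit 7987965256) (nat_lit 117) (nat_lit 5) (nat_lit 123) (nat_lit 5) (nat_lit 118) (nat_lit 5) (nat_lit 315) (nat_lit 275) (nat_lit 190)) (XT.lf (nat_lit 0) (nat_lit 6026073891) (nat_lit 380) (nat_lit 431598008) (nat_lit 456) (nat_lit 6633283681) (nat_lit 112) (nat_lit 5) (nat_lit 117) (nat_lit 5) (nat_lit 118) (nat_lit 5) (nat_lit 316) (nat_lit 275) (nat_lit 189))) (XT.nd (nat_lit 78) (nat_lit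 380) (nat_lit 0) (XT.lf (nat_lit 0) (nat_lit 8865753167) (nat_lit 456) (nat_lit 392624849) (nat_lit 76) (nat_lit 4066779342) (nat_lit 112) (nat_lit 5) (nat_lit 118) (nat_lit 5) (nat_lit 113) (nat_lit 5) (nat_lit 317) (nat_lit 275) (nat_lit 188)) (XT.lf (nat_lit 0) (nat_lit 6577828186) (nat_lit 380) (nat_lit 4814967189) (nat_lit 456) (nat_lit 2172210867) (nat_lit 107) (nat_lit 5) (nat_lit 112) (nat_lit 5) (nat_lit 113) (nat_lit 5) (nat_lit 318) (nat_lit 275) (nat_lit 187))))) (XT.nd (nat_lit 234) (nat_lit 760) (nat_lit 0) (XT.nd (nat_lit 78) (nat_lit 684) (nat_lit 0) (XT.lf (nat_lit 0) (nat_lit 163368342) (nat_lit 456) (nat_lit 74524773) (nat_lit 76) (nat_lit 13574625257) (nat_lit 106) (nat_lit 5) (nat_lit 112) (nat_lit 5) (nat_lit 107) (nat_lit 5) (nat_lit 319) (nat_lit 275) (nat_lit 186)) (XT.nd (nat_lit 78) (nat_lit 304) (nat_lit 0) (XT.lf (nat_lit 0) (nat_lit 2617789936) (nat_lit 456) (nat_lit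 6971428035) (nat_lit 76) (nat_lit 4474840344) (nat_lit 101) (nat_lit 5) (nat_lit 107) (nat_lit 5) (nat_lit 102) (nat_lit 5) (nat_lit 320) (nat_lit 275) (nat_lit 185)) (XT.lf (nat_lit 0) (nat_lit 127555146) (nat_lit 304) (nat_lit 5002869388) (nat_lit 380) (nat_lit 9193202599) (nat_lit 97) (nat_lit 5) (nat_lit 101) (nat_lit 5) (nat_lit 102) (nat_lit 5) (nat_lit 321) (nat_lit 275) (nat_lit 184)))) (XT.nd (nat_lit 156) (nat_lit 380) (nat_lit 0) (XT.nd (nat_lit 78) (nat_lit 380) (nat_lit 0) (XT.lf (nat_lit 0) (nat_lit 7556891100) (nat_lit 304) (nat_lit 212513870) (nat_lit 380) (nat_lit 6820068541) (nat_lit 97) (nat_lit 5) (nat_lit 101) (nat_lit 5) (nat_lit 102) (nat_lit 5) (nat_lit 322) (nat_lit 275) (nat_lit 183)) (XT.lf (nat_lit 0) (nat_lit 280592005) (nat_lit 380) (nat_lit 10236124620) (nat_lit 456) (nat_lit 4345722735) (nat_lit 92) (nat_lit 5) (nat_lit 97) (nat_lit 5) (nat_lit 98) (nat_lit 5) (nat_lit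 323) (nat_lit 275) (nat_lit 182))) (XT.nd (nat_lit 78) (nat_lit 380) (nat_lit 0) (XT.lf (nat_lit 0) (nat_lit 7930116094) (nat_lit 380) (nat_lit 5470818655) (nat_lit 456) (nat_lit 1741043204) (nat_lit 92) (nat_lit 5) (nat_lit 97) (nat_lit 5) (nat_lit 98) (nat_lit 5) (nat_lit 324) (nat_lit 275) (nat_lit 181)) (XT.lf (nat_lit 0) (nat_lit 352334006) (nat_lit 304) (nat_lit 556186139) (nat_lit 380) (nat_lit 14521574670) (nat_lit 87) (nat_lit 5) (nat_lit 91) (nat_lit 5) (nat_lit 92) (nat_lit 5) (nat_lit 325) (nat_lit 275) (nat_lit 180))))))))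
noncomputable def xc145 : XT := (XT.nd (nat_lit 2028) (nat_lit 1672) (nat_lit 0) (XT.nd (nat_lit 1014) (nat_lit 1368) (nat_lit 0) (XT.nd (nat_lit 468) (nat_lit 1140) (nat_lit 0) (XT.nd (nat_lit 234) (nat_lit 380) (nat_lit 0) (XT.nd (nat_lit 78) (nat_lit 304) (nat_lit 0) (XT.lf (nat_lit 0) (nat_lit 3701405548) (nat_lit 380) (nat_lit 7519613701) (nat_lit 76) (nat_lit 4502370763) (nat_lit 87) (nat_lit 5) (nat_lit 92) (nat_lit 5) (nat_lit 88) (nat_lit 5) (nat_lit 326) (nat_lit 275) (nat_lit 179)) (XT.nd (nat_lit 78) (nat_lit 0) (nat_lit 0) (XT.lf (nat_lit 0) (nat_lit 240223003) (nat_lit 304) (nat_lit 6328164027) (nat_lit 380) (nat_lit 9457404080) (nat_lit 83) (nat_lit 5) (nat_lit 87) (nat_lit 5) (nat_lit 88) (nat_lit 5) (nat_lit 327) (nat_lit 275) (nat_lit 178)) (XT.lf (nat_lit 0) (nat_lit 8363001483) (nat_lit 304) (nat_lit 1217082595) (nat_lit 380) (nat_lit 6755434836) (nat_lit 83) (nat_lit 5) (nat_lit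 87) (nat_lit 5) (nat_lit 88) (nat_lit 5) (nat_lit 328) (nat_lit 275) (nat_lit 177)))) (XT.nd (nat_lit 78) (nat_lit 76) (nat_lit 0) (XT.lf (nat_lit 0) (nat_lit 12510429) (nat_lit 304) (nat_lit 12691858630) (nat_lit 380) (nat_lit 3949517776) (nat_lit 79) (nat_lit 5) (nat_lit 83) (nat_lit 5) (nat_lit 84) (nat_lit 5) (nat_lit 329) (nat_lit 275) (nat_lit 176)) (XT.nd (nat_lit 78) (nat_lit 76) (nat_lit 0) (XT.lf (nat_lit 0) (nat_lit 8364707611) (nat_lit 304) (nat_lit 7633588197) (nat_lit 380) (nat_lit 981247537) (nat_lit 79) (nat_lit 5) (nat_lit 83) (nat_lit 5) (nat_lit 84) (nat_lit 5) (nat_lit 330) (nat_lit 275) (nat_lit 175)) (XT.lf (nat_lit 0) (nat_lit 2019341680) (nat_lit 380) (nat_lit 390627259) (nat_lit 76) (nat_lit 14904902529) (nat_lit 78) (nat_lit 5) (nat_lit 83) (nat_lit 5) (nat_lit 79) (nat_lit 5) (nat_lit 331) (nat_lit 275) (nat_lit 174))))) (XT.nd (nat_lit 234) (nat_lit 608) (nat_lit 0)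 (XT.nd (nat_lit 78) (nat_lit 228) (nat_lit 0) (XT.lf (nat_lit 0) (nat_lit 5182749621) (nat_lit 380) (nat_lit 9479184357) (nat_lit 76) (nat_lit 2995271982) (nat_lit 74) (nat_lit 5) (nat_lit 79) (nat_lit 5) (nat_lit 75) (nat_lit 5) (nat_lit 332) (nat_lit 275) (nat_lit 173)) (XT.nd (nat_lit 78) (nat_lit 228) (nat_lit 0) (XT.lf (nat_lit 0) (nat_lit 8453338677) (nat_lit 380) (nat_lit 1044544526) (nat_lit 76) (nat_lit 8511572196) (nat_lit 74) (nat_lit 5) (nat_lit 79) (nat_lit 5) (nat_lit 75) (nat_lit 5) (nat_lit 333) (nat_lit 275) (nat_lit 172)) (XT.lf (nat_lit 0) (nat_lit 7772780659) (nat_lit 228) (nat_lit 4108869015) (nat_lit 304) (nat_lit 6488847411) (nat_lit 71) (nat_lit 5) (nat_lit 74) (nat_lit 5) (nat_lit 75) (nat_lit 5) (nat_lit 334) (nat_lit 275) (nat_lit 171)))) (XT.nd (nat_lit 156) (nat_lit 228) (nat_lit 0) (XT.nd (nat_lit 78) (nat_lit 380) (nat_lit 0) (XT.lf (nat_lit 0) (nat_lit 15422373314)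 (nat_lit 304) (nat_lit 1902185067) (nat_lit 76) (nat_lit 1417537258) (nat_lit 71) (nat_lit 5) (nat_lit 75) (nat_lit 5) (nat_lit 72) (nat_lit 5) (nat_lit 335) (nat_lit 275) (nat_lit 170)) (XT.lf (nat_lit 0) (nat_lit 41203282) (nat_lit 380) (nat_lit 11991290841) (nat_lit 76) (nat_lit 7089506538) (nat_lit 66) (nat_lit 5) (nat_lit 71) (nat_lit 5) (nat_lit 67) (nat_lit 5) (nat_lit 336) (nat_lit 275) (nat_lit 169))) (XT.nd (nat_lit 78) (nat_lit 228) (nat_lit 0) (XT.lf (nat_lit 0) (nat_lit 3441183261) (nat_lit 380) (nat_lit 3093846895) (nat_lit 76) (nat_lit 12977149585) (nat_lit 66) (nat_lit 5) (nat_lit 71) (nat_lit 5) (nat_lit 67) (nat_lit 5) (nat_lit 337) (nat_lit 275) (nat_lit 168)) (XT.lf (nat_lit 0) (nat_lit 6169901768) (nat_lit 228) (nat_lit 818541793) (nat_lit 304) (nat_lit 12924273325) (nat_lit 63) (nat_lit 5) (nat_lit 66) (nat_lit 5) (nat_lit 67) (nat_lit 5) (nat_lit 338) (nat_lit 275) (nat_lit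 167)))))) (XT.nd (nat_lit 468) (nat_lit 608) (nat_lit 0) (XT.nd (nat_lit 234) (nat_lit 532) (nat_lit 0) (XT.nd (nat_lit 78) (nat_lit 228) (nat_lit 0) (XT.lf (nat_lit 0) (nat_lit 10708516758) (nat_lit 304) (nat_lit 4619556826) (nat_lit 76) (nat_lit 4995215507) (nat_lit 63) (nat_lit 5) (nat_lit 67) (nat_lit 5) (nat_lit 64) (nat_lit 5) (nat_lit 339) (nat_lit 275) (nat_lit 166)) (XT.nd (nat_lit 78) (nat_lit 0) (nat_lit 0) (XT.lf (nat_lit 0) (nat_lit 4843252928) (nat_lit 228) (nat_lit 9738117774) (nat_lit 304) (nat_lit 6163582885) (nat_lit 60) (nat_lit 5) (nat_lit 63) (nat_lit 5) (nat_lit 64) (nat_lit 5) (nat_lit 340) (nat_lit 275) (nat_lit 165)) (XT.lf (nat_lit 0) (nat_lit 14664293624) (nat_lit 228) (nat_lit 3939480045) (nat_lit 304) (nat_lit 2574503625) (nat_lit 60) (nat_lit 5) (nat_lit 63) (nat_lit 5) (nat_lit 64) (nat_lit 5) (nat_lit 341) (nat_lit 275) (nat_lit 164)))) (XT.nd (nat_lit 78) (nat_lit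 228) (nat_lit 0) (XT.lf (nat_lit 0) (nat_lit 1137832723) (nat_lit 304) (nat_lit 18456909494) (nat_lit 76) (nat_lit 2028419943) (nat_lit 56) (nat_lit 5) (nat_lit 60) (nat_lit 5) (nat_lit 57) (nat_lit 5) (nat_lit 342) (nat_lit 275) (nat_lit 163)) (XT.nd (nat_lit 78) (nat_lit 228) (nat_lit 0) (XT.lf (nat_lit 0) (nat_lit 5002315098) (nat_lit 304) (nat_lit 8894297303) (nat_lit 76) (nat_lit 8181250153) (nat_lit 56) (nat_lit 5) (nat_lit 60) (nat_lit 5) (nat_lit 57) (nat_lit 5) (nat_lit 343) (nat_lit 275) (nat_lit 162)) (XT.lf (nat_lit 0) (nat_lit 954243793) (nat_lit 228) (nat_lit 8025123470) (nat_lit 304) (nat_lit 13566946678) (nat_lit 53) (nat_lit 5) (nat_lit 56) (nat_lit 5) (nat_lit 57) (nat_lit 5) (nat_lit 344) (nat_lit 275) (nat_lit 161))))) (XT.nd (nat_lit 234) (nat_lit 456) (nat_lit 0) (XT.nd (nat_lit 78) (nat_lit 152) (nat_lit 0) (XT.lf (nat_lit 0) (nat_lit 11261187169) (nat_lit 228) (nat_lit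 1892000226) (nat_lit 304) (nat_lit 9873316565) (nat_lit 53) (nat_lit 5) (nat_lit 56) (nat_lit 5) (nat_lit 57) (nat_lit 5) (nat_lit 345) (nat_lit 275) (nat_lit 160)) (XT.nd (nat_lit 78) (nat_lit 152) (nat_lit 0) (XT.lf (nat_lit 0) (nat_lit 17482694942) (nat_lit 304) (nat_lit 1705414641) (nat_lit 76) (nat_lit 4332084434) (nat_lit 53) (nat_lit 5) (nat_lit 57) (nat_lit 5) (nat_lit 54) (nat_lit 5) (nat_lit 346) (nat_lit 275) (nat_lit 159)) (XT.lf (nat_lit 0) (nat_lit 8790526657) (nat_lit 152) (nat_lit 13243080918) (nat_lit 228) (nat_lit 1992349880) (nat_lit 51) (nat_lit 5) (nat_lit 53) (nat_lit 5) (nat_lit 54) (nat_lit 5) (nat_lit 347) (nat_lit 275) (nat_lit 158)))) (XT.nd (nat_lit 156) (nat_lit 152) (nat_lit 0) (XT.nd (nat_lit 78) (nat_lit 228) (nat_lit 0) (XT.lf (nat_lit 0) (nat_lit 2137449604) (nat_lit 228) (nat_lit 4949759620) (nat_lit 76) (nat_lit 17458893751) (nat_lit 50) (nat_lit 5) (nat_lit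 53) (nat_lit 5) (nat_lit 51) (nat_lit 5) (nat_lit 348) (nat_lit 275) (nat_lit 157)) (XT.lf (nat_lit 0) (nat_lit 5718263469) (nat_lit 228) (nat_lit 676472242) (nat_lit 304) (nat_lit 18685223830) (nat_lit 47) (nat_lit 5) (nat_lit 50) (nat_lit 5) (nat_lit 51) (nat_lit 5) (nat_lit 349) (nat_lit 275) (nat_lit 156))) (XT.nd (nat_lit 78) (nat_lit 152) (nat_lit 0) (XT.lf (nat_lit 0) (nat_lit 10875950884) (nat_lit 304) (nat_lit 8896181271) (nat_lit 76) (nat_lit 5854820686) (nat_lit 47) (nat_lit 5) (nat_lit 51) (nat_lit 5) (nat_lit 48) (nat_lit 5) (nat_lit 350) (nat_lit 275) (nat_lit 155)) (XT.lf (nat_lit 0) (nat_lit 1895950911) (nat_lit 152) (nat_lit 13609664442) (nat_lit 228) (nat_lit 10684327341) (nat_lit 45) (nat_lit 5) (nat_lit 47) (nat_lit 5) (nat_lit 48) (nat_lit 5) (nat_lit 351) (nat_lit 275) (nat_lit 154))))))) (XT.nd (nat_lit 1014) (nat_lit 684) (nat_lit 0) (XT.nd (nat_lit 468) (nat_lit 532) (nat_lit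 0) (XT.nd (nat_lit 234) (nat_lit 152) (nat_lit 0) (XT.nd (nat_lit 78) (nat_lit 304) (nat_lit 0) (XT.lf (nat_lit 0) (nat_lit 13176735915) (nat_lit 152) (nat_lit 7176507679) (nat_lit 228) (nat_lit 6414213364) (nat_lit 45) (nat_lit 5) (nat_lit 47) (nat_lit 5) (nat_lit 48) (nat_lit 5) (nat_lit 352) (nat_lit 275) (nat_lit 153)) (XT.nd (nat_lit 78) (nat_lit 304) (nat_lit 0) (XT.lf (nat_lit 0) (nat_lit 24778979285) (nat_lit 152) (nat_lit 556874648) (nat_lit 228) (nat_lit 2026762847) (nat_lit 45) (nat_lit 5) (nat_lit 47) (nat_lit 5) (nat_lit 48) (nat_lit 5) (nat_lit 353) (nat_lit 275) (nat_lit 152)) (XT.lf (nat_lit 0) (nat_lit 2580058714) (nat_lit 304) (nat_lit 19147447136) (nat_lit 76) (nat_lit 6243321716) (nat_lit 41) (nat_lit 5) (nat_lit 45) (nat_lit 5) (nat_lit 42) (nat_lit 5) (nat_lit 354) (nat_lit 275) (nat_lit 151)))) (XT.nd (nat_lit 78) (nat_lit 152) (nat_lit 0) (XT.lf (nat_lit 0) (nat_lit 7306039437)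 (nat_lit 304) (nat_lit 8013535614) (nat_lit 76) (nat_lit 13276463059) (nat_lit 41) (nat_lit 5) (nat_lit 45) (nat_lit 5) (nat_lit 42) (nat_lit 5) (nat_lit 355) (nat_lit 275) (nat_lit 150)) (XT.nd (nat_lit 78) (nat_lit 0) (nat_lit 0) (XT.lf (nat_lit 0) (nat_lit 3506541144) (nat_lit 152) (nat_lit 8691090546) (nat_lit 228) (nat_lit 17041664296) (nat_lit 39) (nat_lit 5) (nat_lit 41) (nat_lit 5) (nat_lit 42) (nat_lit 5) (nat_lit 356) (nat_lit 275) (nat_lit 149)) (XT.lf (nat_lit 0) (nat_lit 15520372057) (nat_lit 152) (nat_lit 1786778429) (nat_lit 228) (nat_lit 12592571554) (nat_lit 39) (nat_lit 5) (nat_lit 41) (nat_lit 5) (nat_lit 42) (nat_lit 5) (nat_lit 357) (nat_lit 275) (nat_lit 148))))) (XT.nd (nat_lit 234) (nat_lit 304) (nat_lit 0) (XT.nd (nat_lit 78) (nat_lit 228) (nat_lit 0) (XT.lf (nat_lit 0) (nat_lit 22611620793) (nat_lit 228) (nat_lit 2752405109) (nat_lit 76) (nat_lit 5214690629) (nat_lit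 39) (nat_lit 5) (nat_lit 42) (nat_lit 5) (nat_lit 40) (nat_lit 5) (nat_lit 358) (nat_lit 275) (nat_lit 147)) (XT.nd (nat_lit 78) (nat_lit 76) (nat_lit 0) (XT.lf (nat_lit 0) (nat_lit 9373145321) (nat_lit 152) (nat_lit 18800630422) (nat_lit 228) (nat_lit 3101354069) (nat_lit 37) (nat_lit 5) (nat_lit 39) (nat_lit 5) (nat_lit 40) (nat_lit 5) (nat_lit 359) (nat_lit 275) (nat_lit 146)) (XT.lf (nat_lit 0) (nat_lit 1891937108) (nat_lit 228) (nat_lit 10106809674) (nat_lit 76) (nat_lit 19992577302) (nat_lit 36) (nat_lit 5) (nat_lit 39) (nat_lit 5) (nat_lit 37) (nat_lit 5) (nat_lit 360) (nat_lit 275) (nat_lit 145)))) (XT.nd (nat_lit 156) (nat_lit 152) (nat_lit 0) (XT.nd (nat_lit 78) (nat_lit 0) (nat_lit 0) (XT.lf (nat_lit 0) (nat_lit 2036245348) (nat_lit 152) (nat_lit 4947075706) (nat_lit 228) (nat_lit 25744448097) (nat_lit 34) (nat_lit 5) (nat_lit 36) (nat_lit 5) (nat_lit 37) (nat_lit 5) (nat_lit 361) (nat_lit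 275) (nat_lit 144)) (XT.lf (nat_lit 0) (nat_lit 12343894510) (nat_lit 228) (nat_lit 18770816483) (nat_lit 76) (nat_lit 2368107998) (nat_lit 34) (nat_lit 5) (nat_lit 37) (nat_lit 5) (nat_lit 35) (nat_lit 5) (nat_lit 362) (nat_lit 275) (nat_lit 143))) (XT.nd (nat_lit 78) (nat_lit 152) (nat_lit 0) (XT.lf (nat_lit 0) (nat_lit 17905639260) (nat_lit 228) (nat_lit 6556097726) (nat_lit 76) (nat_lit 9797577437) (nat_lit 34) (nat_lit 5) (nat_lit 37) (nat_lit 5) (nat_lit 35) (nat_lit 5) (nat_lit 363) (nat_lit 275) (nat_lit 142)) (XT.lf (nat_lit 0) (nat_lit 6130487736) (nat_lit 152) (nat_lit 17554303027) (nat_lit 228) (nat_lit 11372801905) (nat_lit 32) (nat_lit 5) (nat_lit 34) (nat_lit 5) (nat_lit 35) (nat_lit 5) (nat_lit 364) (nat_lit 275) (nat_lit 141)))))) (XT.nd (nat_lit 546) (nat_lit 304) (nat_lit 0) (XT.nd (nat_lit 234) (nat_lit 152) (nat_lit 0) (XT.nd (nat_lit 78) (nat_lit 228) (nat_lit 0) (XT.lf (nat_lit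 0) (nat_lit 19318000829) (nat_lit 152) (nat_lit 10377252887) (nat_lit 228) (nat_lit 6182831885) (nat_lit 32) (nat_lit 5) (nat_lit 34) (nat_lit 5) (nat_lit 35) (nat_lit 5) (nat_lit 365) (nat_lit 275) (nat_lit 140)) (XT.nd (nat_lit 78) (nat_lit 228) (nat_lit 0) (XT.lf (nat_lit 0) (nat_lit 32887485422) (nat_lit 152) (nat_lit 2990519091) (nat_lit 228) (nat_lit 845433909) (nat_lit 32) (nat_lit 5) (nat_lit 34) (nat_lit 5) (nat_lit 35) (nat_lit 5) (nat_lit 366) (nat_lit 275) (nat_lit 139)) (XT.lf (nat_lit 0) (nat_lit 4689417878) (nat_lit 228) (nat_lit 28240914849) (nat_lit 76) (nat_lit 4658638286) (nat_lit 29) (nat_lit 5) (nat_lit 32) (nat_lit 5) (nat_lit 30) (nat_lit 5) (nat_lit 367) (nat_lit 275) (nat_lit 138)))) (XT.nd (nat_lit 156) (nat_lit 152) (nat_lit 0) (XT.nd (nat_lit 78) (nat_lit 0) (nat_lit 0) (XT.lf (nat_lit 0) (nat_lit 10434226140) (nat_lit 228) (nat_lit 15524921435) (nat_lit 76) (nat_lit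 12519247741) (nat_lit 29) (nat_lit 5) (nat_lit 32) (nat_lit 5) (nat_lit 30) (nat_lit 5) (nat_lit 368) (nat_lit 275) (nat_lit 137)) (XT.lf (nat_lit 0) (nat_lit 16343781640) (nat_lit 228) (nat_lit 2440525451) (nat_lit 76) (nat_lit 20610427005) (nat_lit 29) (nat_lit 5) (nat_lit 32) (nat_lit 5) (nat_lit 30) (nat_lit 5) (nat_lit 369) (nat_lit 275) (nat_lit 136))) (XT.nd (nat_lit 78) (nat_lit 0) (nat_lit 0) (XT.lf (nat_lit 0) (nat_lit 11243099438) (nat_lit 152) (nat_lit 11288224179) (nat_lit 228) (nat_lit 17804222152) (nat_lit 27) (nat_lit 5) (nat_lit 29) (nat_lit 5) (nat_lit 30) (nat_lit 5) (nat_lit 370) (nat_lit 275) (nat_lit 135)) (XT.lf (nat_lit 0) (nat_lit 25374689585) (nat_lit 152) (nat_lit 3547165032) (nat_lit 228) (nat_lit 12382209910) (nat_lit 27) (nat_lit 5) (nat_lit 29) (nat_lit 5) (nat_lit 30) (nat_lit 5) (nat_lit 371) (nat_lit 275) (nat_lit 134))))) (XT.nd (nat_lit 234) (nat_lit 152) (nat_lit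 0) (XT.nd (nat_lit 78) (nat_lit 152) (nat_lit 0) (XT.lf (nat_lit 0) (nat_lit 35539529138) (nat_lit 228) (nat_lit 2426329969) (nat_lit 76) (nat_lit 4334720425) (nat_lit 27) (nat_lit 5) (nat_lit 30) (nat_lit 5) (nat_lit 28) (nat_lit 4) (nat_lit 372) (nat_lit 275) (nat_lit 133)) (XT.nd (nat_lit 78) (nat_lit 76) (nat_lit 0) (XT.lf (nat_lit 0) (nat_lit 11662246768) (nat_lit 76) (nat_lit 30833800533) (nat_lit 152) (nat_lit 826736693) (nat_lit 26) (nat_lit 5) (nat_lit 27) (nat_lit 5) (nat_lit 28) (nat_lit 4) (nat_lit 373) (nat_lit 275) (nat_lit 132)) (XT.lf (nat_lit 0) (nat_lit 5200313436) (nat_lit 152) (nat_lit 18214786697) (nat_lit 76) (nat_lit 20958497968) (nat_lit 25) (nat_lit 5) (nat_lit 27) (nat_lit 5) (nat_lit 26) (nat_lit 5) (nat_lit 374) (nat_lit 275) (nat_lit 131)))) (XT.nd (nat_lit 156) (nat_lit 0) (nat_lit 0) (XT.nd (nat_lit 78) (nat_lit 152) (nat_lit 0) (XT.lf (nat_lit 0) (nat_lit 11384863797)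 (nat_lit 152) (nat_lit 4385532919) (nat_lit 76) (nat_lit 29685498311) (nat_lit 25) (nat_lit 5) (nat_lit 27) (nat_lit 5) (nat_lit 26) (nat_lit 5) (nat_lit 375) (nat_lit 275) (nat_lit 130)) (XT.lf (nat_lit 0) (nat_lit 10043234704) (nat_lit 152) (nat_lit 7801757987) (nat_lit 228) (nat_lit 28722969939) (nat_lit 23) (nat_lit 5) (nat_lit 25) (nat_lit 5) (nat_lit 26) (nat_lit 5) (nat_lit 376) (nat_lit 275) (nat_lit 129))) (XT.nd (nat_lit 78) (nat_lit 0) (nat_lit 0) (XT.lf (nat_lit 0) (nat_lit 24541086720) (nat_lit 228) (nat_lit 22733021290) (nat_lit 76) (nat_lit 438022353) (nat_lit 23) (nat_lit 5) (nat_lit 26) (nat_lit 5) (nat_lit 24) (nat_lit 4) (nat_lit 377) (nat_lit 275) (nat_lit 128)) (XT.lf (nat_lit 0) (nat_lit 31509032360) (nat_lit 228) (nat_lit 8615858543) (nat_lit 76) (nat_lit 8763606016) (nat_lit 23) (nat_lit 5) (nat_lit 26) (nat_lit 5) (nat_lit 24) (nat_lit 4) (nat_lit 378) (nat_lit 275) (nat_lit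 127))))))))
noncomputable def xc146 : XT := (XT.nd (nat_lit 32604) (nat_lit 0) (nat_lit 11552) (XT.nd (nat_lit 1014) (nat_lit 304) (nat_lit 0) (XT.nd (nat_lit 468) (nat_lit 304) (nat_lit 0) (XT.nd (nat_lit 234) (nat_lit 152) (nat_lit 0) (XT.nd (nat_lit 78) (nat_lit 76) (nat_lit 0) (XT.lf (nat_lit 0) (nat_lit 6031792976) (nat_lit 76) (nat_lit 32706111146) (nat_lit 152) (nat_lit 11360696489) (nat_lit 22) (nat_lit 5) (nat_lit 23) (nat_lit 5) (nat_lit 24) (nat_lit 4) (nat_lit 379) (nat_lit 275) (nat_lit 126)) (XT.nd (nat_lit 78) (nat_lit 76) (nat_lit 0) (XT.lf (nat_lit 0) (nat_lit 21284867757) (nat_lit 76) (nat_lit 24979759396) (nat_lit 152) (nat_lit 5077953401) (nat_lit 22) (nat_lit 5) (nat_lit 23) (nat_lit 5) (nat_lit 24) (nat_lit 4) (nat_lit 380) (nat_lit 275) (nat_lit 125)) (XT.lf (nat_lit 0) (nat_lit 1360180934) (nat_lit 152) (nat_lit 15652171652) (nat_lit 76) (nat_lit 35611305153) (nat_lit 21)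 (nat_lit 5) (nat_lit 23) (nat_lit 5) (nat_lit 22) (nat_lit 5) (nat_lit 381) (nat_lit 275) (nat_lit 124)))) (XT.nd (nat_lit 78) (nat_lit 152) (nat_lit 0) (XT.lf (nat_lit 0) (nat_lit 7883666116) (nat_lit 152) (nat_lit 874870706) (nat_lit 76) (nat_lit 45183296520) (nat_lit 21) (nat_lit 5) (nat_lit 23) (nat_lit 5) (nat_lit 22) (nat_lit 5) (nat_lit 382) (nat_lit 275) (nat_lit 123)) (XT.nd (nat_lit 78) (nat_lit 0) (nat_lit 0) (XT.lf (nat_lit 0) (nat_lit 14621227452) (nat_lit 152) (nat_lit 116612167) (nat_lit 228) (nat_lit 40557667471) (nat_lit 19) (nat_lit 5) (nat_lit 21) (nat_lit 5) (nat_lit 22) (nat_lit 5) (nat_lit 383) (nat_lit 275) (nat_lit 122)) (XT.lf (nat_lit 0) (nat_lit 21885466204) (nat_lit 228) (nat_lit 26183778233) (nat_lit 76) (nat_lit 8617914098) (nat_lit 19) (nat_lit 5) (nat_lit 22) (nat_lit 5) (nat_lit 20) (nat_lit 4) (nat_lit 384) (nat_lit 275) (nat_lit 121))))) (XT.nd (nat_lit 234)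 (nat_lit 228) (nat_lit 0) (XT.nd (nat_lit 78) (nat_lit 76) (nat_lit 0) (XT.lf (nat_lit 0) (nat_lit 29243300691) (nat_lit 228) (nat_lit 11269293673) (nat_lit 76) (nat_lit 17608094040) (nat_lit 19) (nat_lit 5) (nat_lit 22) (nat_lit 5) (nat_lit 20) (nat_lit 4) (nat_lit 385) (nat_lit 275) (nat_lit 120)) (XT.nd (nat_lit 78) (nat_lit 0) (nat_lit 0) (XT.lf (nat_lit 0) (nat_lit 4164593277) (nat_lit 76) (nat_lit 32692090651) (nat_lit 152) (nat_lit 22739498020) (nat_lit 18) (nat_lit 5) (nat_lit 19) (nat_lit 5) (nat_lit 20) (nat_lit 4) (nat_lit 386) (nat_lit 275) (nat_lit 119)) (XT.lf (nat_lit 0) (nat_lit 20283299108) (nat_lit 76) (nat_lit 24523811921) (nat_lit 152) (nat_lit 16305572122) (nat_lit 18) (nat_lit 5) (nat_lit 19) (nat_lit 5) (nat_lit 20) (nat_lit 4) (nat_lit 387) (nat_lit 275) (nat_lit 118)))) (XT.nd (nat_lit 156) (nat_lit 228) (nat_lit 0) (XT.nd (nat_lit 78) (nat_lit 0) (nat_lit 0) (XT.lf (nat_lit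 0) (nat_lit 36876627085) (nat_lit 76) (nat_lit 16114418613) (nat_lit 152) (nat_lit 9683785912) (nat_lit 18) (nat_lit 5) (nat_lit 19) (nat_lit 5) (nat_lit 20) (nat_lit 4) (nat_lit 388) (nat_lit 275) (nat_lit 117)) (XT.lf (nat_lit 0) (nat_lit 53959076232) (nat_lit 76) (nat_lit 7456562714) (nat_lit 152) (nat_lit 2868353362) (nat_lit 18) (nat_lit 5) (nat_lit 19) (nat_lit 5) (nat_lit 20) (nat_lit 4) (nat_lit 389) (nat_lit 275) (nat_lit 116))) (XT.nd (nat_lit 78) (nat_lit 0) (nat_lit 0) (XT.lf (nat_lit 0) (nat_lit 4135257905) (nat_lit 228) (nat_lit 60278803869) (nat_lit 76) (nat_lit 1524228908) (nat_lit 15) (nat_lit 5) (nat_lit 18) (nat_lit 5) (nat_lit 16) (nat_lit 4) (nat_lit 390) (nat_lit 275) (nat_lit 115)) (XT.lf (nat_lit 0) (nat_lit 11465702811) (nat_lit 228) (nat_lit 45415823228) (nat_lit 76) (nat_lit 10754610524) (nat_lit 15) (nat_lit 5) (nat_lit 18) (nat_lit 5) (nat_lit 16) (nat_lit 4) (nat_lit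 391) (nat_lit 275) (nat_lit 114)))))) (XT.nd (nat_lit 468) (nat_lit 228) (nat_lit 0) (XT.nd (nat_lit 234) (nat_lit 0) (nat_lit 0) (XT.nd (nat_lit 78) (nat_lit 76) (nat_lit 0) (XT.lf (nat_lit 0) (nat_lit 19011454570) (nat_lit 228) (nat_lit 30115250574) (nat_lit 76) (nat_lit 20258352651) (nat_lit 15) (nat_lit 5) (nat_lit 18) (nat_lit 5) (nat_lit 16) (nat_lit 4) (nat_lit 392) (nat_lit 275) (nat_lit 113)) (XT.nd (nat_lit 78) (nat_lit 76) (nat_lit 0) (XT.lf (nat_lit 0) (nat_lit 26779106556) (nat_lit 228) (nat_lit 14363716475) (nat_lit 76) (nat_lit 30043759530) (nat_lit 15) (nat_lit 5) (nat_lit 18) (nat_lit 5) (nat_lit 16) (nat_lit 4) (nat_lit 393) (nat_lit 275) (nat_lit 112)) (XT.lf (nat_lit 0) (nat_lit 1889411774) (nat_lit 76) (nat_lit 32904196447) (nat_lit 152) (nat_lit 38248131923) (nat_lit 14) (nat_lit 5) (nat_lit 15) (nat_lit 5) (nat_lit 16) (nat_lit 4) (nat_lit 394) (nat_lit 275) (nat_lit 111))))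 (XT.nd (nat_lit 78) (nat_lit 0) (nat_lit 0) (XT.lf (nat_lit 0) (nat_lit 18916831554) (nat_lit 76) (nat_lit 24272468714) (nat_lit 152) (nat_lit 31759031153) (nat_lit 14) (nat_lit 5) (nat_lit 15) (nat_lit 5) (nat_lit 16) (nat_lit 4) (nat_lit 395) (nat_lit 275) (nat_lit 110)) (XT.nd (nat_lit 78) (nat_lit 0) (nat_lit 0) (XT.lf (nat_lit 0) (nat_lit 36447555069) (nat_lit 76) (nat_lit 15385142922) (nat_lit 152) (nat_lit 25079548981) (nat_lit 14) (nat_lit 5) (nat_lit 15) (nat_lit 5) (nat_lit 16) (nat_lit 4) (nat_lit 396) (nat_lit 275) (nat_lit 109)) (XT.lf (nat_lit 0) (nat_lit 54496900427) (nat_lit 76) (nat_lit 6234453444) (nat_lit 152) (nat_lit 18203848965) (nat_lit 14) (nat_lit 5) (nat_lit 15) (nat_lit 5) (nat_lit 16) (nat_lit 4) (nat_lit 397) (nat_lit 275) (nat_lit 108))))) (XT.nd (nat_lit 234) (nat_lit 76) (nat_lit 0) (XT.nd (nat_lit 78) (nat_lit 152) (nat_lit 0) (XT.lf (nat_lit 0) (nat_lit 69923684552)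 (nat_lit 152) (nat_lit 7968968862) (nat_lit 0) (nat_lit 3125393998) (nat_lit 14) (nat_lit 5) (nat_lit 16) (nat_lit 4) (nat_lit 14) (nat_lit 4) (nat_lit 398) (nat_lit 275) (nat_lit 107)) (XT.nd (nat_lit 78) (nat_lit 76) (nat_lit 0) (XT.lf (nat_lit 0) (nat_lit 9103390247) (nat_lit 76) (nat_lit 70433788377) (nat_lit 76) (nat_lit 3621838346) (nat_lit 13) (nat_lit 4) (nat_lit 14) (nat_lit 5) (nat_lit 14) (nat_lit 4) (nat_lit 399) (nat_lit 275) (nat_lit 106)) (XT.lf (nat_lit 0) (nat_lit 4072779831) (nat_lit 152) (nat_lit 58557468599) (nat_lit 76) (nat_lit 22730470449) (nat_lit 12) (nat_lit 5) (nat_lit 14) (nat_lit 5) (nat_lit 13) (nat_lit 4) (nat_lit 400) (nat_lit 275) (nat_lit 105)))) (XT.nd (nat_lit 156) (nat_lit 76) (nat_lit 0) (XT.nd (nat_lit 78) (nat_lit 0) (nat_lit 0) (XT.lf (nat_lit 0) (nat_lit 11921718334) (nat_lit 152) (nat_lit 42636998806) (nat_lit 76) (nat_lit 33068791923) (nat_lit 12) (nat_lit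 5) (nat_lit 14) (nat_lit 5) (nat_lit 13) (nat_lit 4) (nat_lit 401) (nat_lit 275) (nat_lit 104)) (XT.lf (nat_lit 0) (nat_lit 20002510568) (nat_lit 152) (nat_lit 26245490927) (nat_lit 76) (nat_lit 43714411176) (nat_lit 12) (nat_lit 5) (nat_lit 14) (nat_lit 5) (nat_lit 13) (nat_lit 4) (nat_lit 402) (nat_lit 275) (nat_lit 103))) (XT.nd (nat_lit 156) (nat_lit 76) (nat_lit 0) (XT.lf (nat_lit 0) (nat_lit 28322217420) (nat_lit 152) (nat_lit 9368622285) (nat_lit 76) (nat_lit 54676630203) (nat_lit 12) (nat_lit 5) (nat_lit 14) (nat_lit 5) (nat_lit 13) (nat_lit 4) (nat_lit 403) (nat_lit 275) (nat_lit 102)) (XT.lf (nat_lit 0) (nat_lit 26416094536) (nat_lit 76) (nat_lit 19545501801) (nat_lit 152) (nat_lit 51427300270) (nat_lit 11) (nat_lit 5) (nat_lit 12) (nat_lit 5) (nat_lit 13) (nat_lit 4) (nat_lit 405) (nat_lit 275) (nat_lit 100))))))) (XT.nd (nat_lit 1014) (nat_lit 5320) (nat_lit 0) (XT.nd (nat_lit 468)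 (nat_lit 760) (nat_lit 0) (XT.nd (nat_lit 234) (nat_lit 0) (nat_lit 0) (XT.nd (nat_lit 78) (nat_lit 836) (nat_lit 0) (XT.lf (nat_lit 0) (nat_lit 3476086047) (nat_lit 836) (nat_lit 150626541) (nat_lit 836) (nat_lit 150626541) (nat_lit 254) (nat_lit 3) (nat_lit 265) (nat_lit 3) (nat_lit 265) (nat_lit 5) (nat_lit 276) (nat_lit 276) (nat_lit 228)) (XT.nd (nat_lit 78) (nat_lit 0) (nat_lit 0) (XT.lf (nat_lit 0) (nat_lit 766668437) (nat_lit 836) (nat_lit 4438742919) (nat_lit 912) (nat_lit 2419584523) (nat_lit 243) (nat_lit 5) (nat_lit 254) (nat_lit 3) (nat_lit 255) (nat_lit 5) (nat_lit 277) (nat_lit 276) (nat_lit 227)) (XT.lf (nat_lit 0) (nat_lit 2115505634) (nat_lit 836) (nat_lit 946998988) (nat_lit 912) (nat_lit 4636304016) (nat_lit 243) (nat_lit 5) (nat_lit 254) (nat_lit 3) (nat_lit 255) (nat_lit 5) (nat_lit 278) (nat_lit 276) (nat_lit 226)))) (XT.nd (nat_lit 78) (nat_lit 0) (nat_lit 76) (XT.lf (nat_lit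 76) (nat_lit 2674272951) (nat_lit 0) (nat_lit 805392179) (nat_lit 912) (nat_lit 4296007938) (nat_lit 244) (nat_lit 5) (nat_lit 243) (nat_lit 5) (nat_lit 255) (nat_lit 5) (nat_lit 279) (nat_lit 276) (nat_lit 225)) (XT.nd (nat_lit 78) (nat_lit 0) (nat_lit 0) (XT.lf (nat_lit 0) (nat_lit 4859599430) (nat_lit 836) (nat_lit 1474587287) (nat_lit 912) (nat_lit 1521491794) (nat_lit 244) (nat_lit 5) (nat_lit 255) (nat_lit 5) (nat_lit 256) (nat_lit 5) (nat_lit 280) (nat_lit 276) (nat_lit 224)) (XT.lf (nat_lit 76) (nat_lit 2269253626) (nat_lit 0) (nat_lit 3993491767) (nat_lit 912) (nat_lit 1675962555) (nat_lit 245) (nat_lit 5) (nat_lit 244) (nat_lit 5) (nat_lit 256) (nat_lit 5) (nat_lit 281) (nat_lit 276) (nat_lit 223))))) (XT.nd (nat_lit 234) (nat_lit 0) (nat_lit 0) (XT.nd (nat_lit 78) (nat_lit 836) (nat_lit 0) (XT.lf (nat_lit 76) (nat_lit 6127829256) (nat_lit 0) (nat_lit 1548202910) (nat_lit 912) (nat_lit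 349230664) (nat_lit 245) (nat_lit 5) (nat_lit 244) (nat_lit 5) (nat_lit 256) (nat_lit 5) (nat_lit 282) (nat_lit 276) (nat_lit 222)) (XT.nd (nat_lit 78) (nat_lit 0) (nat_lit 0) (XT.lf (nat_lit 0) (nat_lit 980355001) (nat_lit 912) (nat_lit 6135994873) (nat_lit 988) (nat_lit 998355623) (nat_lit 233) (nat_lit 5) (nat_lit 245) (nat_lit 5) (nat_lit 246) (nat_lit 5) (nat_lit 283) (nat_lit 276) (nat_lit 221)) (XT.lf (nat_lit 0) (nat_lit 2332724638) (nat_lit 912) (nat_lit 2244491940) (nat_lit 988) (nat_lit 3629883178) (nat_lit 233) (nat_lit 5) (nat_lit 245) (nat_lit 5) (nat_lit 246) (nat_lit 5) (nat_lit 284) (nat_lit 276) (nat_lit 220)))) (XT.nd (nat_lit 156) (nat_lit 0) (nat_lit 76) (XT.nd (nat_lit 78) (nat_lit 0) (nat_lit 76) (XT.lf (nat_lit 76) (nat_lit 1769851671) (nat_lit 0) (nat_lit 1929367158) (nat_lit 988) (nat_lit 4603907897) (nat_lit 234) (nat_lit 5) (nat_lit 233) (nat_lit 5) (nat_lit 246) (nat_lit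 5) (nat_lit 285) (nat_lit 276) (nat_lit 219)) (XT.lf (nat_lit 0) (nat_lit 5094940447) (nat_lit 912) (nat_lit 2488252258) (nat_lit 988) (nat_lit 819260344) (nat_lit 234) (nat_lit 5) (nat_lit 246) (nat_lit 5) (nat_lit 247) (nat_lit 5) (nat_lit 286) (nat_lit 276) (nat_lit 218))) (XT.nd (nat_lit 78) (nat_lit 0) (nat_lit 0) (XT.lf (nat_lit 76) (nat_lit 1662688179) (nat_lit 0) (nat_lit 4863836930) (nat_lit 988) (nat_lit 1978477925) (nat_lit 235) (nat_lit 5) (nat_lit 234) (nat_lit 5) (nat_lit 247) (nat_lit 5) (nat_lit 287) (nat_lit 276) (nat_lit 217)) (XT.lf (nat_lit 76) (nat_lit 5960670239) (nat_lit 0) (nat_lit 2025342534) (nat_lit 988) (nat_lit 625129842) (nat_lit 235) (nat_lit 5) (nat_lit 234) (nat_lit 5) (nat_lit 247) (nat_lit 5) (nat_lit 288) (nat_lit 276) (nat_lit 216)))))) (XT.nd (nat_lit 546) (nat_lit 2432) (nat_lit 0) (XT.nd (nat_lit 234) (nat_lit 2052) (nat_lit 0) (XT.nd (nat_lit 78) (nat_lit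 0) (nat_lit 0) (XT.lf (nat_lit 0) (nat_lit 739334519) (nat_lit 988) (nat_lit 7066285255) (nat_lit 1064) (nat_lit 915117566) (nat_lit 222) (nat_lit 5) (nat_lit 235) (nat_lit 5) (nat_lit 236) (nat_lit 5) (nat_lit 289) (nat_lit 276) (nat_lit 215)) (XT.nd (nat_lit 78) (nat_lit 0) (nat_lit 0) (XT.lf (nat_lit 0) (nat_lit 2140781847) (nat_lit 988) (nat_lit 2746008084) (nat_lit 1064) (nat_lit 3946442407) (nat_lit 222) (nat_lit 5) (nat_lit 235) (nat_lit 5) (nat_lit 236) (nat_lit 5) (nat_lit 290) (nat_lit 276) (nat_lit 214)) (XT.lf (nat_lit 76) (nat_lit 1708537329) (nat_lit 0) (nat_lit 1854810287) (nat_lit 1064) (nat_lit 5386437193) (nat_lit 223) (nat_lit 5) (nat_lit 222) (nat_lit 5) (nat_lit 236) (nat_lit 5) (nat_lit 291) (nat_lit 276) (nat_lit 213)))) (XT.nd (nat_lit 156) (nat_lit 1140) (nat_lit 0) (XT.nd (nat_lit 78) (nat_lit 988) (nat_lit 0) (XT.lf (nat_lit 0) (nat_lit 5032328781) (nat_lit 988) (nat_lit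 2758083073) (nat_lit 76) (nat_lit 1279363121) (nat_lit 223) (nat_lit 5) (nat_lit 236) (nat_lit 5) (nat_lit 224) (nat_lit 5) (nat_lit 292) (nat_lit 276) (nat_lit 212)) (XT.lf (nat_lit 0) (nat_lit 1848519884) (nat_lit 988) (nat_lit 4697599417) (nat_lit 1064) (nat_lit 2647275073) (nat_lit 210) (nat_lit 5) (nat_lit 223) (nat_lit 5) (nat_lit 224) (nat_lit 5) (nat_lit 293) (nat_lit 276) (nat_lit 211))) (XT.nd (nat_lit 78) (nat_lit 1140) (nat_lit 0) (XT.lf (nat_lit 0) (nat_lit 6621377719) (nat_lit 988) (nat_lit 1477160512) (nat_lit 1064) (nat_lit 1222437900) (nat_lit 210) (nat_lit 5) (nat_lit 223) (nat_lit 5) (nat_lit 224) (nat_lit 5) (nat_lit 294) (nat_lit 276) (nat_lit 210)) (XT.lf (nat_lit 0) (nat_lit 244455559) (nat_lit 1140) (nat_lit 7375552765) (nat_lit 76) (nat_lit 1832230811) (nat_lit 195) (nat_lit 5) (nat_lit 210) (nat_lit 5) (nat_lit 196) (nat_lit 5) (nat_lit 295) (nat_lit 276) (nat_lit 209)))))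 (XT.nd (nat_lit 234) (nat_lit 1292) (nat_lit 0) (XT.nd (nat_lit 78) (nat_lit 1140) (nat_lit 0) (XT.lf (nat_lit 0) (nat_lit 1739703823) (nat_lit 1140) (nat_lit 2591214122) (nat_lit 76) (nat_lit 5255937407) (nat_lit 195) (nat_lit 5) (nat_lit 210) (nat_lit 5) (nat_lit 196) (nat_lit 5) (nat_lit 296) (nat_lit 276) (nat_lit 208)) (XT.nd (nat_lit 78) (nat_lit 0) (nat_lit 0) (XT.lf (nat_lit 0) (nat_lit 2354252762) (nat_lit 1140) (nat_lit 915917273) (nat_lit 1216) (nat_lit 6455673822) (nat_lit 180) (nat_lit 5) (nat_lit 195) (nat_lit 5) (nat_lit 196) (nat_lit 5) (nat_lit 297) (nat_lit 276) (nat_lit 207)) (XT.lf (nat_lit 0) (nat_lit 4866417123) (nat_lit 1216) (nat_lit 2421371942) (nat_lit 76) (nat_lit 2580660262) (nat_lit 180) (nat_lit 5) (nat_lit 196) (nat_lit 5) (nat_lit 181) (nat_lit 5) (nat_lit 298) (nat_lit 276) (nat_lit 206)))) (XT.nd (nat_lit 156) (nat_lit 684) (nat_lit 0) (XT.nd (nat_lit 78) (nat_lit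 0) (nat_lit 0) (XT.lf (nat_lit 0) (nat_lit 2692585285) (nat_lit 608) (nat_lit 3822271106) (nat_lit 684) (nat_lit 3500389485) (nat_lit 172) (nat_lit 5) (nat_lit 180) (nat_lit 5) (nat_lit 181) (nat_lit 5) (nat_lit 299) (nat_lit 276) (nat_lit 205)) (XT.lf (nat_lit 0) (nat_lit 7981631814) (nat_lit 608) (nat_lit 225545430) (nat_lit 684) (nat_lit 1959477055) (nat_lit 172) (nat_lit 5) (nat_lit 180) (nat_lit 5) (nat_lit 181) (nat_lit 5) (nat_lit 300) (nat_lit 276) (nat_lit 204))) (XT.nd (nat_lit 78) (nat_lit 76) (nat_lit 0) (XT.lf (nat_lit 0) (nat_lit 3105823564) (nat_lit 608) (nat_lit 6878613249) (nat_lit 684) (nat_lit 337182730) (nat_lit 164) (nat_lit 5) (nat_lit 172) (nat_lit 5) (nat_lit 173) (nat_lit 5) (nat_lit 301) (nat_lit 276) (nat_lit 203)) (XT.lf (nat_lit 0) (nat_lit 1303401255) (nat_lit 684) (nat_lit 1924079203) (nat_lit 76) (nat_lit 7253536590) (nat_lit 163) (nat_lit 5) (nat_lit 172) (nat_lit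 5) (nat_lit 164) (nat_lit 5) (nat_lit 302) (nat_lit 276) (nat_lit 202))))))))
noncomputable def xc147 : XT := (XT.nd (nat_lit 2028) (nat_lit 3192) (nat_lit 0) (XT.nd (nat_lit 1014) (nat_lit 2584) (nat_lit 0) (XT.nd (nat_lit 468) (nat_lit 1900) (nat_lit 0) (XT.nd (nat_lit 234) (nat_lit 532) (nat_lit 0) (XT.nd (nat_lit 78) (nat_lit 532) (nat_lit 0) (XT.lf (nat_lit 0) (nat_lit 2998169253) (nat_lit 608) (nat_lit 7085422823) (nat_lit 76) (nat_lit 561188220) (nat_lit 156) (nat_lit 5) (nat_lit 164) (nat_lit 5) (nat_lit 157) (nat_lit 5) (nat_lit 303) (nat_lit 276) (nat_lit 201)) (XT.nd (nat_lit 78) (nat_lit 532) (nat_lit 0) (XT.lf (nat_lit 0) (nat_lit 4767884986) (nat_lit 608) (nat_lit 1626465297) (nat_lit 76) (nat_lit 4418418238) (nat_lit 156) (nat_lit 5) (nat_lit 164) (nat_lit 5) (nat_lit 157) (nat_lit 5) (nat_lit 304) (nat_lit 276) (nat_lit 200)) (XT.lf (nat_lit 0) (nat_lit 4047887586) (nat_lit 532)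 (nat_lit 2555043189) (nat_lit 608) (nat_lit 4382532657) (nat_lit 149) (nat_lit 5) (nat_lit 156) (nat_lit 5) (nat_lit 157) (nat_lit 5) (nat_lit 305) (nat_lit 276) (nat_lit 199)))) (XT.nd (nat_lit 78) (nat_lit 532) (nat_lit 0) (XT.lf (nat_lit 0) (nat_lit 8496902175) (nat_lit 608) (nat_lit 1278552217) (nat_lit 76) (nat_lit 1387801769) (nat_lit 149) (nat_lit 5) (nat_lit 157) (nat_lit 5) (nat_lit 150) (nat_lit 5) (nat_lit 306) (nat_lit 276) (nat_lit 198)) (XT.nd (nat_lit 78) (nat_lit 76) (nat_lit 0) (XT.lf (nat_lit 0) (nat_lit 4587370659) (nat_lit 456) (nat_lit 5904313418) (nat_lit 532) (nat_lit 853411086) (nat_lit 143) (nat_lit 5) (nat_lit 149) (nat_lit 5) (nat_lit 150) (nat_lit 5) (nat_lit 307) (nat_lit 276) (nat_lit 197)) (XT.lf (nat_lit 0) (nat_lit 981975466) (nat_lit 532) (nat_lit 913752385) (nat_lit 76) (nat_lit 9636764258) (nat_lit 142) (nat_lit 5) (nat_lit 149) (nat_lit 5) (nat_lit 143) (nat_lit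 5) (nat_lit 308) (nat_lit 276) (nat_lit 196))))) (XT.nd (nat_lit 234) (nat_lit 912) (nat_lit 0) (XT.nd (nat_lit 78) (nat_lit 456) (nat_lit 0) (XT.lf (nat_lit 0) (nat_lit 2902539573) (nat_lit 608) (nat_lit 6575108198) (nat_lit 76) (nat_lit 2246221139) (nat_lit 135) (nat_lit 5) (nat_lit 143) (nat_lit 5) (nat_lit 136) (nat_lit 5) (nat_lit 309) (nat_lit 276) (nat_lit 195)) (XT.nd (nat_lit 78) (nat_lit 456) (nat_lit 0) (XT.lf (nat_lit 0) (nat_lit 4884782160) (nat_lit 608) (nat_lit 554716859) (nat_lit 76) (nat_lit 6481394789) (nat_lit 135) (nat_lit 5) (nat_lit 143) (nat_lit 5) (nat_lit 136) (nat_lit 5) (nat_lit 310) (nat_lit 276) (nat_lit 194)) (XT.lf (nat_lit 0) (nat_lit 5731897400) (nat_lit 456) (nat_lit 1226366438) (nat_lit 532) (nat_lit 5164640262) (nat_lit 129) (nat_lit 5) (nat_lit 135) (nat_lit 5) (nat_lit 136) (nat_lit 5) (nat_lit 311) (nat_lit 276) (nat_lit 193)))) (XT.nd (nat_lit 156) (nat_lit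 456) (nat_lit 0) (XT.nd (nat_lit 78) (nat_lit 456) (nat_lit 0) (XT.lf (nat_lit 0) (nat_lit 9106605909) (nat_lit 532) (nat_lit 168972272) (nat_lit 76) (nat_lit 3055043837) (nat_lit 129) (nat_lit 5) (nat_lit 136) (nat_lit 5) (nat_lit 130) (nat_lit 5) (nat_lit 312) (nat_lit 276) (nat_lit 192)) (XT.lf (nat_lit 0) (nat_lit 6325117652) (nat_lit 456) (nat_lit 5044964826) (nat_lit 532) (nat_lit 1172994677) (nat_lit 123) (nat_lit 5) (nat_lit 129) (nat_lit 5) (nat_lit 130) (nat_lit 5) (nat_lit 313) (nat_lit 276) (nat_lit 191))) (XT.nd (nat_lit 78) (nat_lit 0) (nat_lit 0) (XT.lf (nat_lit 0) (nat_lit 224879180) (nat_lit 380) (nat_lit 678130564) (nat_lit 456) (nat_lit 11859196362) (nat_lit 117) (nat_lit 5) (nat_lit 122) (nat_lit 5) (nat_lit 123) (nat_lit 5) (nat_lit 314) (nat_lit 276) (nat_lit 190)) (XT.lf (nat_lit 0) (nat_lit 3096103565) (nat_lit 456) (nat_lit 6072992216) (nat_lit 76) (nat_lit 3816137154)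 (nat_lit 117) (nat_lit 5) (nat_lit 123) (nat_lit 5) (nat_lit 118) (nat_lit 5) (nat_lit 315) (nat_lit 276) (nat_lit 189)))))) (XT.nd (nat_lit 468) (nat_lit 1368) (nat_lit 0) (XT.nd (nat_lit 234) (nat_lit 456) (nat_lit 0) (XT.nd (nat_lit 78) (nat_lit 380) (nat_lit 0) (XT.lf (nat_lit 0) (nat_lit 563853210) (nat_lit 380) (nat_lit 4782161592) (nat_lit 456) (nat_lit 7869228316) (nat_lit 112) (nat_lit 5) (nat_lit 117) (nat_lit 5) (nat_lit 118) (nat_lit 5) (nat_lit 316) (nat_lit 276) (nat_lit 188)) (XT.nd (nat_lit 78) (nat_lit 380) (nat_lit 0) (XT.lf (nat_lit 0) (nat_lit 7498838460) (nat_lit 380) (nat_lit 205170712) (nat_lit 456) (nat_lit 5746949466) (nat_lit 112) (nat_lit 5) (nat_lit 117) (nat_lit 5) (nat_lit 118) (nat_lit 5) (nat_lit 317) (nat_lit 276) (nat_lit 187)) (XT.lf (nat_lit 0) (nat_lit 896990146) (nat_lit 380) (nat_lit 9267540692) (nat_lit 456) (nat_lit 3528283113) (nat_lit 107) (nat_lit 5)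 (nat_lit 112) (nat_lit 5) (nat_lit 113) (nat_lit 5) (nat_lit 318) (nat_lit 276) (nat_lit 186)))) (XT.nd (nat_lit 78) (nat_lit 456) (nat_lit 0) (XT.lf (nat_lit 0) (nat_lit 8046466105) (nat_lit 380) (nat_lit 4694685769) (nat_lit 456) (nat_lit 1199525846) (nat_lit 107) (nat_lit 5) (nat_lit 112) (nat_lit 5) (nat_lit 113) (nat_lit 5) (nat_lit 319) (nat_lit 276) (nat_lit 185)) (XT.nd (nat_lit 78) (nat_lit 0) (nat_lit 0) (XT.lf (nat_lit 0) (nat_lit 1168106174) (nat_lit 456) (nat_lit 12994570143) (nat_lit 76) (nat_lit 33203057) (nat_lit 101) (nat_lit 5) (nat_lit 107) (nat_lit 5) (nat_lit 102) (nat_lit 5) (nat_lit 320) (nat_lit 276) (nat_lit 184)) (XT.lf (nat_lit 0) (nat_lit 3670063600) (nat_lit 456) (nat_lit 5910404146) (nat_lit 76) (nat_lit 4875310366) (nat_lit 101) (nat_lit 5) (nat_lit 107) (nat_lit 5) (nat_lit 102) (nat_lit 5) (nat_lit 321) (nat_lit 276) (nat_lit 183))))) (XT.nd (nat_lit 234) (nat_lit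 684) (nat_lit 0) (XT.nd (nat_lit 78) (nat_lit 380) (nat_lit 0) (XT.lf (nat_lit 0) (nat_lit 1389095915) (nat_lit 304) (nat_lit 4852709879) (nat_lit 380) (nat_lit 8481845171) (nat_lit 97) (nat_lit 5) (nat_lit 101) (nat_lit 5) (nat_lit 102) (nat_lit 5) (nat_lit 322) (nat_lit 276) (nat_lit 182)) (XT.nd (nat_lit 78) (nat_lit 380) (nat_lit 0) (XT.lf (nat_lit 0) (nat_lit 8932766196) (nat_lit 380) (nat_lit 5994355833) (nat_lit 76) (nat_lit 71194378) (nat_lit 97) (nat_lit 5) (nat_lit 102) (nat_lit 5) (nat_lit 98) (nat_lit 5) (nat_lit 323) (nat_lit 276) (nat_lit 181)) (XT.lf (nat_lit 0) (nat_lit 1523883248) (nat_lit 380) (nat_lit 10225431618) (nat_lit 456) (nat_lit 3530579009) (nat_lit 92) (nat_lit 5) (nat_lit 97) (nat_lit 5) (nat_lit 98) (nat_lit 5) (nat_lit 324) (nat_lit 276) (nat_lit 180)))) (XT.nd (nat_lit 156) (nat_lit 304) (nat_lit 0) (XT.nd (nat_lit 78) (nat_lit 380) (nat_lit 0) (XT.lf (nat_lit 0)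 (nat_lit 9366925870) (nat_lit 380) (nat_lit 5326422107) (nat_lit 456) (nat_lit 875298376) (nat_lit 92) (nat_lit 5) (nat_lit 97) (nat_lit 5) (nat_lit 98) (nat_lit 5) (nat_lit 325) (nat_lit 276) (nat_lit 179)) (XT.lf (nat_lit 0) (nat_lit 1568639139) (nat_lit 304) (nat_lit 252574547) (nat_lit 380) (nat_lit 14044391932) (nat_lit 87) (nat_lit 5) (nat_lit 91) (nat_lit 5) (nat_lit 92) (nat_lit 5) (nat_lit 326) (nat_lit 276) (nat_lit 178))) (XT.nd (nat_lit 78) (nat_lit 304) (nat_lit 0) (XT.lf (nat_lit 0) (nat_lit 4675085413) (nat_lit 380) (nat_lit 6550980498) (nat_lit 76) (nat_lit 4942341909) (nat_lit 87) (nat_lit 5) (nat_lit 92) (nat_lit 5) (nat_lit 88) (nat_lit 5) (nat_lit 327) (nat_lit 276) (nat_lit 177)) (XT.lf (nat_lit 0) (nat_lit 1429943252) (nat_lit 304) (nat_lit 6184374762) (nat_lit 380) (nat_lit 8865999128) (nat_lit 83) (nat_lit 5) (nat_lit 87) (nat_lit 5) (nat_lit 88) (nat_lit 5) (nat_lit 328)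 (nat_lit 276) (nat_lit 176))))))) (XT.nd (nat_lit 1014) (nat_lit 1444) (nat_lit 0) (XT.nd (nat_lit 468) (nat_lit 836) (nat_lit 0) (XT.nd (nat_lit 234) (nat_lit 608) (nat_lit 0) (XT.nd (nat_lit 78) (nat_lit 304) (nat_lit 0) (XT.lf (nat_lit 0) (nat_lit 9761962943) (nat_lit 304) (nat_lit 929678388) (nat_lit 380) (nat_lit 6108459945) (nat_lit 83) (nat_lit 5) (nat_lit 87) (nat_lit 5) (nat_lit 88) (nat_lit 5) (nat_lit 329) (nat_lit 276) (nat_lit 175)) (XT.nd (nat_lit 78) (nat_lit 0) (nat_lit 0) (XT.lf (nat_lit 0) (nat_lit 1171851767) (nat_lit 304) (nat_lit 12727962274) (nat_lit 380) (nat_lit 3228523513) (nat_lit 79) (nat_lit 5) (nat_lit 83) (nat_lit 5) (nat_lit 84) (nat_lit 5) (nat_lit 330) (nat_lit 276) (nat_lit 174)) (XT.lf (nat_lit 0) (nat_lit 9740858572) (nat_lit 304) (nat_lit 7527982139) (nat_lit 380) (nat_lit 195656034) (nat_lit 79) (nat_lit 5) (nat_lit 83) (nat_lit 5) (nat_lit 84) (nat_lit 5)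 (nat_lit 331) (nat_lit 276) (nat_lit 173)))) (XT.nd (nat_lit 78) (nat_lit 228) (nat_lit 0) (XT.lf (nat_lit 0) (nat_lit 720260325) (nat_lit 304) (nat_lit 2142434488) (nat_lit 380) (nat_lit 14947465639) (nat_lit 74) (nat_lit 5) (nat_lit 78) (nat_lit 5) (nat_lit 79) (nat_lit 5) (nat_lit 332) (nat_lit 276) (nat_lit 172)) (XT.nd (nat_lit 78) (nat_lit 228) (nat_lit 0) (XT.lf (nat_lit 0) (nat_lit 6105244920) (nat_lit 380) (nat_lit 8645517525) (nat_lit 76) (nat_lit 3412494965) (nat_lit 74) (nat_lit 5) (nat_lit 79) (nat_lit 5) (nat_lit 75) (nat_lit 5) (nat_lit 333) (nat_lit 276) (nat_lit 171)) (XT.lf (nat_lit 0) (nat_lit 9788162) (nat_lit 228) (nat_lit 9441917396) (nat_lit 304) (nat_lit 9075055216) (nat_lit 71) (nat_lit 5) (nat_lit 74) (nat_lit 5) (nat_lit 75) (nat_lit 5) (nat_lit 334) (nat_lit 276) (nat_lit 170))))) (XT.nd (nat_lit 234) (nat_lit 456) (nat_lit 0) (XT.nd (nat_lit 78) (nat_lit 380) (nat_lit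 0) (XT.lf (nat_lit 0) (nat_lit 9080800159) (nat_lit 228) (nat_lit 3890614124) (nat_lit 304) (nat_lit 5927581479) (nat_lit 71) (nat_lit 5) (nat_lit 74) (nat_lit 5) (nat_lit 75) (nat_lit 5) (nat_lit 335) (nat_lit 276) (nat_lit 169)) (XT.nd (nat_lit 78) (nat_lit 380) (nat_lit 0) (XT.lf (nat_lit 0) (nat_lit 16600188230) (nat_lit 304) (nat_lit 896950224) (nat_lit 76) (nat_lit 1785166926) (nat_lit 71) (nat_lit 5) (nat_lit 75) (nat_lit 5) (nat_lit 72) (nat_lit 5) (nat_lit 336) (nat_lit 276) (nat_lit 168)) (XT.lf (nat_lit 0) (nat_lit 754409579) (nat_lit 380) (nat_lit 11284409836) (nat_lit 76) (nat_lit 7634917718) (nat_lit 66) (nat_lit 5) (nat_lit 71) (nat_lit 5) (nat_lit 67) (nat_lit 5) (nat_lit 337) (nat_lit 276) (nat_lit 167)))) (XT.nd (nat_lit 156) (nat_lit 228) (nat_lit 0) (XT.nd (nat_lit 78) (nat_lit 228) (nat_lit 0) (XT.lf (nat_lit 0) (nat_lit 4235651962) (nat_lit 380) (nat_lit 2151109165) (nat_lit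 76) (nat_lit 13689499008) (nat_lit 66) (nat_lit 5) (nat_lit 71) (nat_lit 5) (nat_lit 67) (nat_lit 5) (nat_lit 338) (nat_lit 276) (nat_lit 166)) (XT.lf (nat_lit 0) (nat_lit 7380399476) (nat_lit 228) (nat_lit 498654367) (nat_lit 304) (nat_lit 12610083799) (nat_lit 63) (nat_lit 5) (nat_lit 66) (nat_lit 5) (nat_lit 67) (nat_lit 5) (nat_lit 339) (nat_lit 276) (nat_lit 165))) (XT.nd (nat_lit 78) (nat_lit 228) (nat_lit 0) (XT.lf (nat_lit 0) (nat_lit 11694110104) (nat_lit 304) (nat_lit 3745473238) (nat_lit 76) (nat_lit 5472957742) (nat_lit 63) (nat_lit 5) (nat_lit 67) (nat_lit 5) (nat_lit 64) (nat_lit 5) (nat_lit 340) (nat_lit 276) (nat_lit 164)) (XT.lf (nat_lit 0) (nat_lit 5991292669) (nat_lit 228) (nat_lit 9682146322) (nat_lit 304) (nat_lit 5673722889) (nat_lit 60) (nat_lit 5) (nat_lit 63) (nat_lit 5) (nat_lit 64) (nat_lit 5) (nat_lit 341) (nat_lit 276) (nat_lit 163)))))) (XT.nd (nat_lit 546) (nat_lit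 760) (nat_lit 0) (XT.nd (nat_lit 234) (nat_lit 380) (nat_lit 0) (XT.nd (nat_lit 78) (nat_lit 304) (nat_lit 0) (XT.lf (nat_lit 0) (nat_lit 16077758504) (nat_lit 228) (nat_lit 3719688733) (nat_lit 304) (nat_lit 1996624673) (nat_lit 60) (nat_lit 5) (nat_lit 63) (nat_lit 5) (nat_lit 64) (nat_lit 5) (nat_lit 342) (nat_lit 276) (nat_lit 162)) (XT.nd (nat_lit 78) (nat_lit 0) (nat_lit 0) (XT.lf (nat_lit 0) (nat_lit 1808289868) (nat_lit 304) (nat_lit 18017357154) (nat_lit 76) (nat_lit 2426661394) (nat_lit 56) (nat_lit 5) (nat_lit 60) (nat_lit 5) (nat_lit 57) (nat_lit 5) (nat_lit 343) (nat_lit 276) (nat_lit 161)) (XT.lf (nat_lit 0) (nat_lit 5770173059) (nat_lit 304) (nat_lit 8196796489) (nat_lit 76) (nat_lit 8754249651) (nat_lit 56) (nat_lit 5) (nat_lit 60) (nat_lit 5) (nat_lit 57) (nat_lit 5) (nat_lit 344) (nat_lit 276) (nat_lit 160)))) (XT.nd (nat_lit 156) (nat_lit 152) (nat_lit 0) (XT.nd (nat_lit 78)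 (nat_lit 0) (nat_lit 0) (XT.lf (nat_lit 0) (nat_lit 1937746627) (nat_lit 228) (nat_lit 7919975170) (nat_lit 304) (nat_lit 13346279760) (nat_lit 53) (nat_lit 5) (nat_lit 56) (nat_lit 5) (nat_lit 57) (nat_lit 5) (nat_lit 345) (nat_lit 276) (nat_lit 159)) (XT.lf (nat_lit 0) (nat_lit 12526086395) (nat_lit 228) (nat_lit 1612933044) (nat_lit 304) (nat_lit 9560122548) (nat_lit 53) (nat_lit 5) (nat_lit 56) (nat_lit 5) (nat_lit 57) (nat_lit 5) (nat_lit 346) (nat_lit 276) (nat_lit 158))) (XT.nd (nat_lit 78) (nat_lit 152) (nat_lit 0) (XT.lf (nat_lit 0) (nat_lit 18584325886) (nat_lit 304) (nat_lit 842021230) (nat_lit 76) (nat_lit 4781730453) (nat_lit 53) (nat_lit 5) (nat_lit 57) (nat_lit 5) (nat_lit 54) (nat_lit 5) (nat_lit 347) (nat_lit 276) (nat_lit 157)) (XT.lf (nat_lit 0) (nat_lit 9959832073) (nat_lit 152) (nat_lit 13303828709) (nat_lit 228) (nat_lit 1465608158) (nat_lit 51) (nat_lit 5) (nat_lit 53) (nat_lit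 5) (nat_lit 54) (nat_lit 5) (nat_lit 348) (nat_lit 276) (nat_lit 156))))) (XT.nd (nat_lit 234) (nat_lit 456) (nat_lit 0) (XT.nd (nat_lit 78) (nat_lit 228) (nat_lit 0) (XT.lf (nat_lit 0) (nat_lit 2759890813) (nat_lit 228) (nat_lit 4207554408) (nat_lit 76) (nat_lit 18297918149) (nat_lit 50) (nat_lit 5) (nat_lit 53) (nat_lit 5) (nat_lit 51) (nat_lit 5) (nat_lit 349) (nat_lit 276) (nat_lit 155)) (XT.nd (nat_lit 78) (nat_lit 0) (nat_lit 0) (XT.lf (nat_lit 0) (nat_lit 6771777039) (nat_lit 228) (nat_lit 365334776) (nat_lit 304) (nat_lit 18678368197) (nat_lit 47) (nat_lit 5) (nat_lit 50) (nat_lit 5) (nat_lit 51) (nat_lit 5) (nat_lit 350) (nat_lit 276) (nat_lit 154)) (XT.lf (nat_lit 0) (nat_lit 11739821602) (nat_lit 304) (nat_lit 8293495778) (nat_lit 76) (nat_lit 6345964539) (nat_lit 47) (nat_lit 5) (nat_lit 51) (nat_lit 5) (nat_lit 48) (nat_lit 5) (nat_lit 351) (nat_lit 276) (nat_lit 153)))) (XT.nd (nat_lit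 156) (nat_lit 304) (nat_lit 0) (XT.nd (nat_lit 78) (nat_lit 0) (nat_lit 0) (XT.lf (nat_lit 0) (nat_lit 2813875163) (nat_lit 152) (nat_lit 13687119715) (nat_lit 228) (nat_lit 10458398268) (nat_lit 45) (nat_lit 5) (nat_lit 47) (nat_lit 5) (nat_lit 48) (nat_lit 5) (nat_lit 352) (nat_lit 276) (nat_lit 152)) (XT.lf (nat_lit 0) (nat_lit 14408004716) (nat_lit 152) (nat_lit 7070604210) (nat_lit 228) (nat_lit 6076097150) (nat_lit 45) (nat_lit 5) (nat_lit 47) (nat_lit 5) (nat_lit 48) (nat_lit 5) (nat_lit 353) (nat_lit 276) (nat_lit 151))) (XT.nd (nat_lit 78) (nat_lit 304) (nat_lit 0) (XT.lf (nat_lit 0) (nat_lit 26333966842) (nat_lit 152) (nat_lit 261737489) (nat_lit 228) (nat_lit 1572475815) (nat_lit 45) (nat_lit 5) (nat_lit 47) (nat_lit 5) (nat_lit 48) (nat_lit 5) (nat_lit 354) (nat_lit 276) (nat_lit 150)) (XT.lf (nat_lit 0) (nat_lit 3158648578) (nat_lit 304) (nat_lit 18895734623) (nat_lit 76) (nat_lit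 6740230132) (nat_lit 41) (nat_lit 5) (nat_lit 45) (nat_lit 5) (nat_lit 42) (nat_lit 5) (nat_lit 355) (nat_lit 276) (nat_lit 149))))))))
noncomputable def xc148 : XT := (XT.nd (nat_lit 2028) (nat_lit 836) (nat_lit 0) (XT.nd (nat_lit 1014) (nat_lit 532) (nat_lit 0) (XT.nd (nat_lit 468) (nat_lit 532) (nat_lit 0) (XT.nd (nat_lit 234) (nat_lit 228) (nat_lit 0) (XT.nd (nat_lit 78) (nat_lit 152) (nat_lit 0) (XT.lf (nat_lit 0) (nat_lit 8011811011) (nat_lit 304) (nat_lit 7451867967) (nat_lit 76) (nat_lit 13975347985) (nat_lit 41) (nat_lit 5) (nat_lit 45) (nat_lit 5) (nat_lit 42) (nat_lit 5) (nat_lit 356) (nat_lit 276) (nat_lit 148)) (XT.nd (nat_lit 78) (nat_lit 0) (nat_lit 0) (XT.lf (nat_lit 0) (nat_lit 4405947626) (nat_lit 152) (nat_lit 8637665305) (nat_lit 228) (nat_lit 17058174367) (nat_lit 39) (nat_lit 5) (nat_lit 41) (nat_lit 5) (nat_lit 42) (nat_lit 5) (nat_lit 357) (nat_lit 276) (nat_lit 147)) (XT.lf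 (nat_lit 0) (nat_lit 16757061129) (nat_lit 152) (nat_lit 1535374056) (nat_lit 228) (nat_lit 12490018742) (nat_lit 39) (nat_lit 5) (nat_lit 41) (nat_lit 5) (nat_lit 42) (nat_lit 5) (nat_lit 358) (nat_lit 276) (nat_lit 146)))) (XT.nd (nat_lit 78) (nat_lit 228) (nat_lit 0) (XT.lf (nat_lit 0) (nat_lit 23745311267) (nat_lit 228) (nat_lit 2075360016) (nat_lit 76) (nat_lit 5661476907) (nat_lit 39) (nat_lit 5) (nat_lit 42) (nat_lit 5) (nat_lit 40) (nat_lit 5) (nat_lit 359) (nat_lit 276) (nat_lit 145)) (XT.nd (nat_lit 78) (nat_lit 76) (nat_lit 0) (XT.lf (nat_lit 0) (nat_lit 10406509698) (nat_lit 152) (nat_lit 19061789101) (nat_lit 228) (nat_lit 2731343884) (nat_lit 37) (nat_lit 5) (nat_lit 39) (nat_lit 5) (nat_lit 40) (nat_lit 5) (nat_lit 360) (nat_lit 276) (nat_lit 144)) (XT.lf (nat_lit 0) (nat_lit 2389486501) (nat_lit 228) (nat_lit 9670732496) (nat_lit 76) (nat_lit 20877374367) (nat_lit 36) (nat_lit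 5) (nat_lit 39) (nat_lit 5) (nat_lit 37) (nat_lit 5) (nat_lit 361) (nat_lit 276) (nat_lit 143))))) (XT.nd (nat_lit 234) (nat_lit 380) (nat_lit 0) (XT.nd (nat_lit 78) (nat_lit 0) (nat_lit 0) (XT.lf (nat_lit 0) (nat_lit 2829366319) (nat_lit 152) (nat_lit 4798443820) (nat_lit 228) (nat_lit 26068502884) (nat_lit 34) (nat_lit 5) (nat_lit 36) (nat_lit 5) (nat_lit 37) (nat_lit 5) (nat_lit 362) (nat_lit 276) (nat_lit 142)) (XT.nd (nat_lit 78) (nat_lit 0) (nat_lit 0) (XT.lf (nat_lit 0) (nat_lit 13139303407) (nat_lit 228) (nat_lit 18613098800) (nat_lit 76) (nat_lit 2721916050) (nat_lit 34) (nat_lit 5) (nat_lit 37) (nat_lit 5) (nat_lit 35) (nat_lit 5) (nat_lit 363) (nat_lit 276) (nat_lit 141)) (XT.lf (nat_lit 0) (nat_lit 18855519178) (nat_lit 228) (nat_lit 6052933883) (nat_lit 76) (nat_lit 10366033703) (nat_lit 34) (nat_lit 5) (nat_lit 37) (nat_lit 5) (nat_lit 35) (nat_lit 5) (nat_lit 364) (nat_lit 276)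 (nat_lit 140)))) (XT.nd (nat_lit 156) (nat_lit 228) (nat_lit 0) (XT.nd (nat_lit 78) (nat_lit 0) (nat_lit 0) (XT.lf (nat_lit 0) (nat_lit 7007387900) (nat_lit 152) (nat_lit 17795298024) (nat_lit 228) (nat_lit 11294194786) (nat_lit 32) (nat_lit 5) (nat_lit 34) (nat_lit 5) (nat_lit 35) (nat_lit 5) (nat_lit 365) (nat_lit 276) (nat_lit 139)) (XT.lf (nat_lit 0) (nat_lit 20570342342) (nat_lit 152) (nat_lit 10411255820) (nat_lit 228) (nat_lit 5960752593) (nat_lit 32) (nat_lit 5) (nat_lit 34) (nat_lit 5) (nat_lit 35) (nat_lit 5) (nat_lit 366) (nat_lit 276) (nat_lit 138))) (XT.nd (nat_lit 78) (nat_lit 228) (nat_lit 0) (XT.lf (nat_lit 0) (nat_lit 34527315312) (nat_lit 152) (nat_lit 2810997136) (nat_lit 228) (nat_lit 475103481) (nat_lit 32) (nat_lit 5) (nat_lit 34) (nat_lit 5) (nat_lit 35) (nat_lit 5) (nat_lit 367) (nat_lit 276) (nat_lit 137)) (XT.lf (nat_lit 0) (nat_lit 5215676717) (nat_lit 228) (nat_lit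 28424424480) (nat_lit 76) (nat_lit 5064776906) (nat_lit 29) (nat_lit 5) (nat_lit 32) (nat_lit 5) (nat_lit 30) (nat_lit 5) (nat_lit 368) (nat_lit 276) (nat_lit 136)))))) (XT.nd (nat_lit 468) (nat_lit 304) (nat_lit 0) (XT.nd (nat_lit 234) (nat_lit 76) (nat_lit 0) (XT.nd (nat_lit 78) (nat_lit 152) (nat_lit 0) (XT.lf (nat_lit 0) (nat_lit 11121598849) (nat_lit 228) (nat_lit 15346282851) (nat_lit 76) (nat_lit 13153446019) (nat_lit 29) (nat_lit 5) (nat_lit 32) (nat_lit 5) (nat_lit 30) (nat_lit 5) (nat_lit 369) (nat_lit 276) (nat_lit 135)) (XT.nd (nat_lit 78) (nat_lit 152) (nat_lit 0) (XT.lf (nat_lit 0) (nat_lit 17197537735) (nat_lit 228) (nat_lit 1888123517) (nat_lit 76) (nat_lit 21479828015) (nat_lit 29) (nat_lit 5) (nat_lit 32) (nat_lit 5) (nat_lit 30) (nat_lit 5) (nat_lit 370) (nat_lit 276) (nat_lit 134)) (XT.lf (nat_lit 0) (nat_lit 12199876611) (nat_lit 152) (nat_lit 11366198513) (nat_lit 228) (nat_lit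 17968594440) (nat_lit 27) (nat_lit 5) (nat_lit 29) (nat_lit 5) (nat_lit 30) (nat_lit 5) (nat_lit 371) (nat_lit 276) (nat_lit 133)))) (XT.nd (nat_lit 78) (nat_lit 76) (nat_lit 0) (XT.lf (nat_lit 0) (nat_lit 26737371234) (nat_lit 152) (nat_lit 3400499991) (nat_lit 228) (nat_lit 12394691375) (nat_lit 27) (nat_lit 5) (nat_lit 29) (nat_lit 5) (nat_lit 30) (nat_lit 5) (nat_lit 372) (nat_lit 276) (nat_lit 132)) (XT.nd (nat_lit 78) (nat_lit 76) (nat_lit 0) (XT.lf (nat_lit 0) (nat_lit 36946291448) (nat_lit 228) (nat_lit 1907244077) (nat_lit 76) (nat_lit 4705676106) (nat_lit 27) (nat_lit 5) (nat_lit 30) (nat_lit 5) (nat_lit 28) (nat_lit 4) (nat_lit 373) (nat_lit 276) (nat_lit 131)) (XT.lf (nat_lit 0) (nat_lit 12598187258) (nat_lit 76) (nat_lit 31509031889) (nat_lit 152) (nat_lit 504996553) (nat_lit 26) (nat_lit 5) (nat_lit 27) (nat_lit 5) (nat_lit 28) (nat_lit 4) (nat_lit 374) (nat_lit 276) (nat_lit 130)))))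 (XT.nd (nat_lit 234) (nat_lit 76) (nat_lit 0) (XT.nd (nat_lit 78) (nat_lit 152) (nat_lit 0) (XT.lf (nat_lit 0) (nat_lit 5686206289) (nat_lit 152) (nat_lit 18185508236) (nat_lit 76) (nat_lit 21823041278) (nat_lit 25) (nat_lit 5) (nat_lit 27) (nat_lit 5) (nat_lit 26) (nat_lit 5) (nat_lit 375) (nat_lit 276) (nat_lit 129)) (XT.nd (nat_lit 78) (nat_lit 152) (nat_lit 0) (XT.lf (nat_lit 0) (nat_lit 12046684905) (nat_lit 152) (nat_lit 3958145448) (nat_lit 76) (nat_lit 30804984009) (nat_lit 25) (nat_lit 5) (nat_lit 27) (nat_lit 5) (nat_lit 26) (nat_lit 5) (nat_lit 376) (nat_lit 276) (nat_lit 128)) (XT.lf (nat_lit 0) (nat_lit 10898005268) (nat_lit 152) (nat_lit 7798604321) (nat_lit 228) (nat_lit 29258758994) (nat_lit 23) (nat_lit 5) (nat_lit 25) (nat_lit 5) (nat_lit 26) (nat_lit 5) (nat_lit 377) (nat_lit 276) (nat_lit 127)))) (XT.nd (nat_lit 156) (nat_lit 76) (nat_lit 0) (XT.nd (nat_lit 78) (nat_lit 0)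 (nat_lit 0) (XT.lf (nat_lit 0) (nat_lit 25586588535) (nat_lit 228) (nat_lit 22870520398) (nat_lit 76) (nat_lit 676966572) (nat_lit 23) (nat_lit 5) (nat_lit 26) (nat_lit 5) (nat_lit 24) (nat_lit 4) (nat_lit 378) (nat_lit 276) (nat_lit 126)) (XT.lf (nat_lit 0) (nat_lit 32754564703) (nat_lit 228) (nat_lit 8345701745) (nat_lit 76) (nat_lit 9245740943) (nat_lit 23) (nat_lit 5) (nat_lit 26) (nat_lit 5) (nat_lit 24) (nat_lit 4) (nat_lit 379) (nat_lit 276) (nat_lit 125))) (XT.nd (nat_lit 78) (nat_lit 0) (nat_lit 0) (XT.lf (nat_lit 0) (nat_lit 6736196647) (nat_lit 76) (nat_lit 33460392215) (nat_lit 152) (nat_lit 11395940724) (nat_lit 22) (nat_lit 5) (nat_lit 23) (nat_lit 5) (nat_lit 24) (nat_lit 4) (nat_lit 380) (nat_lit 276) (nat_lit 124)) (XT.lf (nat_lit 0) (nat_lit 22431617558) (nat_lit 76) (nat_lit 25508858715) (nat_lit 152) (nat_lit 4933615634) (nat_lit 22) (nat_lit 5) (nat_lit 23) (nat_lit 5) (nat_lit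 24) (nat_lit 4) (nat_lit 381) (nat_lit 276) (nat_lit 123))))))) (XT.nd (nat_lit 1014) (nat_lit 304) (nat_lit 0) (XT.nd (nat_lit 468) (nat_lit 228) (nat_lit 0) (XT.nd (nat_lit 234) (nat_lit 76) (nat_lit 0) (XT.nd (nat_lit 78) (nat_lit 152) (nat_lit 0) (XT.lf (nat_lit 0) (nat_lit 1683401065) (nat_lit 152) (nat_lit 15622593116) (nat_lit 76) (nat_lit 36887779487) (nat_lit 21) (nat_lit 5) (nat_lit 23) (nat_lit 5) (nat_lit 22) (nat_lit 5) (nat_lit 382) (nat_lit 276) (nat_lit 122)) (XT.nd (nat_lit 78) (nat_lit 152) (nat_lit 0) (XT.lf (nat_lit 0) (nat_lit 8394365132) (nat_lit 152) (nat_lit 416511307) (nat_lit 76) (nat_lit 46740868405) (nat_lit 21) (nat_lit 5) (nat_lit 23) (nat_lit 5) (nat_lit 22) (nat_lit 5) (nat_lit 383) (nat_lit 276) (nat_lit 121)) (XT.lf (nat_lit 0) (nat_lit 15451645240) (nat_lit 228) (nat_lit 41407269512) (nat_lit 76) (nat_lit 87193042) (nat_lit 19) (nat_lit 5) (nat_lit 22) (nat_lit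 5) (nat_lit 20) (nat_lit 4) (nat_lit 384) (nat_lit 276) (nat_lit 120)))) (XT.nd (nat_lit 78) (nat_lit 76) (nat_lit 0) (XT.lf (nat_lit 0) (nat_lit 22806908839) (nat_lit 228) (nat_lit 26497365425) (nat_lit 76) (nat_lit 9075441604) (nat_lit 19) (nat_lit 5) (nat_lit 22) (nat_lit 5) (nat_lit 20) (nat_lit 4) (nat_lit 385) (nat_lit 276) (nat_lit 119)) (XT.nd (nat_lit 78) (nat_lit 76) (nat_lit 0) (XT.lf (nat_lit 0) (nat_lit 30377763449) (nat_lit 228) (nat_lit 11149191751) (nat_lit 76) (nat_lit 18329531117) (nat_lit 19) (nat_lit 5) (nat_lit 22) (nat_lit 5) (nat_lit 20) (nat_lit 4) (nat_lit 386) (nat_lit 276) (nat_lit 118)) (XT.lf (nat_lit 0) (nat_lit 4743219840) (nat_lit 76) (nat_lit 33473199270) (nat_lit 152) (nat_lit 23159922568) (nat_lit 18) (nat_lit 5) (nat_lit 19) (nat_lit 5) (nat_lit 20) (nat_lit 4) (nat_lit 387) (nat_lit 276) (nat_lit 117))))) (XT.nd (nat_lit 234) (nat_lit 228) (nat_lit 0) (XT.nd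 (nat_lit 78) (nat_lit 0) (nat_lit 0) (XT.lf (nat_lit 0) (nat_lit 21332272610) (nat_lit 76) (nat_lit 25065687346) (nat_lit 152) (nat_lit 16540602982) (nat_lit 18) (nat_lit 5) (nat_lit 19) (nat_lit 5) (nat_lit 20) (nat_lit 4) (nat_lit 388) (nat_lit 276) (nat_lit 116)) (XT.nd (nat_lit 78) (nat_lit 0) (nat_lit 0) (XT.lf (nat_lit 0) (nat_lit 38410571071) (nat_lit 76) (nat_lit 16409658033) (nat_lit 152) (nat_lit 9727565213) (nat_lit 18) (nat_lit 5) (nat_lit 19) (nat_lit 5) (nat_lit 20) (nat_lit 4) (nat_lit 389) (nat_lit 276) (nat_lit 115)) (XT.lf (nat_lit 0) (nat_lit 55993038008) (nat_lit 76) (nat_lit 7497547811) (nat_lit 152) (nat_lit 2714856123) (nat_lit 18) (nat_lit 5) (nat_lit 19) (nat_lit 5) (nat_lit 20) (nat_lit 4) (nat_lit 390) (nat_lit 276) (nat_lit 114)))) (XT.nd (nat_lit 156) (nat_lit 0) (nat_lit 0) (XT.nd (nat_lit 78) (nat_lit 0) (nat_lit 0) (XT.lf (nat_lit 0) (nat_lit 4493112268) (nat_lit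 228) (nat_lit 61666043963) (nat_lit 76) (nat_lit 1750178968) (nat_lit 15) (nat_lit 5) (nat_lit 18) (nat_lit 5) (nat_lit 16) (nat_lit 4) (nat_lit 391) (nat_lit 276) (nat_lit 113)) (XT.lf (nat_lit 0) (nat_lit 12036660911) (nat_lit 228) (nat_lit 46369439651) (nat_lit 76) (nat_lit 11252222813) (nat_lit 15) (nat_lit 5) (nat_lit 18) (nat_lit 5) (nat_lit 16) (nat_lit 4) (nat_lit 392) (nat_lit 276) (nat_lit 112))) (XT.nd (nat_lit 78) (nat_lit 0) (nat_lit 0) (XT.lf (nat_lit 0) (nat_lit 19802173951) (nat_lit 228) (nat_lit 30621758311) (nat_lit 76) (nat_lit 21035980874) (nat_lit 15) (nat_lit 5) (nat_lit 18) (nat_lit 5) (nat_lit 16) (nat_lit 4) (nat_lit 393) (nat_lit 276) (nat_lit 111)) (XT.lf (nat_lit 0) (nat_lit 27796436786) (nat_lit 228) (nat_lit 14409239833) (nat_lit 76) (nat_lit 31110002067) (nat_lit 15) (nat_lit 5) (nat_lit 18) (nat_lit 5) (nat_lit 16) (nat_lit 4) (nat_lit 394) (nat_lit 276) (nat_lit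 110)))))) (XT.nd (nat_lit 546) (nat_lit 76) (nat_lit 0) (XT.nd (nat_lit 234) (nat_lit 152) (nat_lit 0) (XT.nd (nat_lit 78) (nat_lit 0) (nat_lit 0) (XT.lf (nat_lit 0) (nat_lit 2327703949) (nat_lit 76) (nat_lit 33721106060) (nat_lit 152) (nat_lit 39177760298) (nat_lit 14) (nat_lit 5) (nat_lit 15) (nat_lit 5) (nat_lit 16) (nat_lit 4) (nat_lit 395) (nat_lit 276) (nat_lit 109)) (XT.nd (nat_lit 78) (nat_lit 0) (nat_lit 0) (XT.lf (nat_lit 0) (nat_lit 19854831473) (nat_lit 76) (nat_lit 24835384251) (nat_lit 152) (nat_lit 32500330648) (nat_lit 14) (nat_lit 5) (nat_lit 15) (nat_lit 5) (nat_lit 16) (nat_lit 4) (nat_lit 396) (nat_lit 276) (nat_lit 108)) (XT.lf (nat_lit 0) (nat_lit 37900685578) (nat_lit 76) (nat_lit 15686252040) (nat_lit 152) (nat_lit 25626623373) (nat_lit 14) (nat_lit 5) (nat_lit 15) (nat_lit 5) (nat_lit 16) (nat_lit 4) (nat_lit 397) (nat_lit 276) (nat_lit 107)))) (XT.nd (nat_lit 156) (nat_lit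 152) (nat_lit 0) (XT.nd (nat_lit 78) (nat_lit 0) (nat_lit 0) (XT.lf (nat_lit 0) (nat_lit 56481034486) (nat_lit 76) (nat_lit 6265715038) (nat_lit 152) (nat_lit 18550632320) (nat_lit 14) (nat_lit 5) (nat_lit 15) (nat_lit 5) (nat_lit 16) (nat_lit 4) (nat_lit 398) (nat_lit 276) (nat_lit 106)) (XT.lf (nat_lit 0) (nat_lit 72210669275) (nat_lit 152) (nat_lit 7864730407) (nat_lit 0) (nat_lit 3367439640) (nat_lit 14) (nat_lit 5) (nat_lit 16) (nat_lit 4) (nat_lit 14) (nat_lit 4) (nat_lit 399) (nat_lit 276) (nat_lit 105))) (XT.nd (nat_lit 78) (nat_lit 76) (nat_lit 0) (XT.lf (nat_lit 0) (nat_lit 9716433716) (nat_lit 76) (nat_lit 72393889341) (nat_lit 76) (nat_lit 3537784338) (nat_lit 13) (nat_lit 4) (nat_lit 14) (nat_lit 5) (nat_lit 14) (nat_lit 4) (nat_lit 400) (nat_lit 276) (nat_lit 104)) (XT.lf (nat_lit 0) (nat_lit 4378408574) (nat_lit 152) (nat_lit 59980435952) (nat_lit 76) (nat_lit 23557127321) (nat_lit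 12) (nat_lit 5) (nat_lit 14) (nat_lit 5) (nat_lit 13) (nat_lit 4) (nat_lit 401) (nat_lit 276) (nat_lit 103))))) (XT.nd (nat_lit 30888) (nat_lit 0) (nat_lit 17632) (XT.nd (nat_lit 78) (nat_lit 76) (nat_lit 0) (XT.lf (nat_lit 0) (nat_lit 12457472163) (nat_lit 152) (nat_lit 43592073134) (nat_lit 76) (nat_lit 34201382632) (nat_lit 12) (nat_lit 5) (nat_lit 14) (nat_lit 5) (nat_lit 13) (nat_lit 4) (nat_lit 402) (nat_lit 276) (nat_lit 102)) (XT.nd (nat_lit 156) (nat_lit 76) (nat_lit 0) (XT.lf (nat_lit 0) (nat_lit 20775500719) (nat_lit 152) (nat_lit 26718257950) (nat_lit 76) (nat_lit 45162277444) (nat_lit 12) (nat_lit 5) (nat_lit 14) (nat_lit 5) (nat_lit 13) (nat_lit 4) (nat_lit 403) (nat_lit 276) (nat_lit 101)) (XT.lf (nat_lit 0) (nat_lit 8715208124) (nat_lit 76) (nat_lit 29526308395) (nat_lit 152) (nat_lit 59441148327) (nat_lit 11) (nat_lit 5) (nat_lit 12) (nat_lit 5) (nat_lit 13) (nat_lit 4) (nat_lit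 405) (nat_lit 276) (nat_lit 99)))) (XT.nd (nat_lit 156) (nat_lit 0) (nat_lit 0) (XT.nd (nat_lit 78) (nat_lit 0) (nat_lit 0) (XT.lf (nat_lit 0) (nat_lit 514142040) (nat_lit 0) (nat_lit 514142040) (nat_lit 836) (nat_lit 2820319616) (nat_lit 243) (nat_lit 5) (nat_lit 243) (nat_lit 3) (nat_lit 254) (nat_lit 3) (nat_lit 277) (nat_lit 277) (nat_lit 226)) (XT.lf (nat_lit 0) (nat_lit 3370471817) (nat_lit 836) (nat_lit 3180796861) (nat_lit 912) (nat_lit 1220840370) (nat_lit 243) (nat_lit 5) (nat_lit 254) (nat_lit 3) (nat_lit 255) (nat_lit 5) (nat_lit 278) (nat_lit 277) (nat_lit 225))) (XT.nd (nat_lit 78) (nat_lit 0) (nat_lit 0) (XT.lf (nat_lit 76) (nat_lit 382648519) (nat_lit 0) (nat_lit 4305634834) (nat_lit 912) (nat_lit 3162120259) (nat_lit 244) (nat_lit 5) (nat_lit 243) (nat_lit 5) (nat_lit 255) (nat_lit 5) (nat_lit 279) (nat_lit 277) (nat_lit 224)) (XT.lf (nat_lit 76) (nat_lit 4091850682) (nat_lit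 0) (nat_lit 1937714482) (nat_lit 912) (nat_lit 1902042007) (nat_lit 244) (nat_lit 5) (nat_lit 243) (nat_lit 5) (nat_lit 255) (nat_lit 5) (nat_lit 280) (nat_lit 277) (nat_lit 223))))))))
noncomputable def xc149 : XT := (XT.nd (nat_lit 2028) (nat_lit 5700) (nat_lit 0) (XT.nd (nat_lit 1014) (nat_lit 5472) (nat_lit 0) (XT.nd (nat_lit 468) (nat_lit 836) (nat_lit 0) (XT.nd (nat_lit 234) (nat_lit 0) (nat_lit 76) (XT.nd (nat_lit 78) (nat_lit 912) (nat_lit 0) (XT.lf (nat_lit 0) (nat_lit 7369326989) (nat_lit 836) (nat_lit 135001656) (nat_lit 912) (nat_lit 512246903) (nat_lit 244) (nat_lit 5) (nat_lit 255) (nat_lit 5) (nat_lit 256) (nat_lit 5) (nat_lit 281) (nat_lit 277) (nat_lit 222)) (XT.nd (nat_lit 78) (nat_lit 0) (nat_lit 0) (XT.lf (nat_lit 0) (nat_lit 642226322) (nat_lit 912) (nat_lit 4402587324) (nat_lit 988) (nat_lit 3058876041) (nat_lit 232) (nat_lit 5) (nat_lit 244) (nat_lit 5) (nat_lit 245) (nat_lit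 5) (nat_lit 282) (nat_lit 277) (nat_lit 221)) (XT.lf (nat_lit 0) (nat_lit 1914090797) (nat_lit 912) (nat_lit 571911533) (nat_lit 988) (nat_lit 5708590749) (nat_lit 232) (nat_lit 5) (nat_lit 244) (nat_lit 5) (nat_lit 245) (nat_lit 5) (nat_lit 283) (nat_lit 277) (nat_lit 220)))) (XT.nd (nat_lit 78) (nat_lit 0) (nat_lit 0) (XT.lf (nat_lit 0) (nat_lit 3215492381) (nat_lit 912) (nat_lit 4876609704) (nat_lit 988) (nat_lit 196447540) (nat_lit 233) (nat_lit 5) (nat_lit 245) (nat_lit 5) (nat_lit 246) (nat_lit 5) (nat_lit 284) (nat_lit 277) (nat_lit 219)) (XT.nd (nat_lit 78) (nat_lit 0) (nat_lit 0) (XT.lf (nat_lit 0) (nat_lit 4544188639) (nat_lit 912) (nat_lit 910404353) (nat_lit 988) (nat_lit 2931149817) (nat_lit 233) (nat_lit 5) (nat_lit 245) (nat_lit 5) (nat_lit 246) (nat_lit 5) (nat_lit 285) (nat_lit 277) (nat_lit 218)) (XT.lf (nat_lit 76) (nat_lit 3210630131) (nat_lit 0) (nat_lit 2692013512) (nat_lit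 988) (nat_lit 2583574825) (nat_lit 234) (nat_lit 5) (nat_lit 233) (nat_lit 5) (nat_lit 246) (nat_lit 5) (nat_lit 286) (nat_lit 277) (nat_lit 217))))) (XT.nd (nat_lit 234) (nat_lit 0) (nat_lit 76) (XT.nd (nat_lit 78) (nat_lit 988) (nat_lit 0) (XT.lf (nat_lit 0) (nat_lit 7272714499) (nat_lit 912) (nat_lit 1144977878) (nat_lit 988) (nat_lit 172951912) (nat_lit 234) (nat_lit 5) (nat_lit 246) (nat_lit 5) (nat_lit 247) (nat_lit 5) (nat_lit 287) (nat_lit 277) (nat_lit 216)) (XT.nd (nat_lit 78) (nat_lit 0) (nat_lit 0) (XT.lf (nat_lit 0) (nat_lit 3959251) (nat_lit 988) (nat_lit 5581175777) (nat_lit 1064) (nat_lit 3112590343) (nat_lit 221) (nat_lit 5) (nat_lit 234) (nat_lit 5) (nat_lit 235) (nat_lit 5) (nat_lit 288) (nat_lit 277) (nat_lit 215)) (XT.lf (nat_lit 0) (nat_lit 1312395381) (nat_lit 988) (nat_lit 1319117887) (nat_lit 1064) (nat_lit 6176969288) (nat_lit 221) (nat_lit 5) (nat_lit 234) (nat_lit 5)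 (nat_lit 235) (nat_lit 5) (nat_lit 289) (nat_lit 277) (nat_lit 214)))) (XT.nd (nat_lit 156) (nat_lit 0) (nat_lit 0) (XT.nd (nat_lit 78) (nat_lit 0) (nat_lit 0) (XT.lf (nat_lit 0) (nat_lit 2657088152) (nat_lit 988) (nat_lit 5822668497) (nat_lit 1064) (nat_lit 442950573) (nat_lit 222) (nat_lit 5) (nat_lit 235) (nat_lit 5) (nat_lit 236) (nat_lit 5) (nat_lit 290) (nat_lit 277) (nat_lit 213)) (XT.lf (nat_lit 0) (nat_lit 4045368018) (nat_lit 988) (nat_lit 1415179282) (nat_lit 1064) (nat_lit 3579767213) (nat_lit 222) (nat_lit 5) (nat_lit 235) (nat_lit 5) (nat_lit 236) (nat_lit 5) (nat_lit 291) (nat_lit 277) (nat_lit 212))) (XT.nd (nat_lit 78) (nat_lit 0) (nat_lit 76) (XT.lf (nat_lit 76) (nat_lit 3159147502) (nat_lit 0) (nat_lit 2311311907) (nat_lit 1064) (nat_lit 3691187444) (nat_lit 223) (nat_lit 5) (nat_lit 222) (nat_lit 5) (nat_lit 236) (nat_lit 5) (nat_lit 292) (nat_lit 277) (nat_lit 211)) (XT.lf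 (nat_lit 0) (nat_lit 6927335615) (nat_lit 988) (nat_lit 1423506306) (nat_lit 76) (nat_lit 936156498) (nat_lit 223) (nat_lit 5) (nat_lit 236) (nat_lit 5) (nat_lit 224) (nat_lit 5) (nat_lit 293) (nat_lit 277) (nat_lit 210)))))) (XT.nd (nat_lit 468) (nat_lit 2356) (nat_lit 0) (XT.nd (nat_lit 234) (nat_lit 1140) (nat_lit 0) (XT.nd (nat_lit 78) (nat_lit 1140) (nat_lit 0) (XT.lf (nat_lit 0) (nat_lit 3307399453) (nat_lit 988) (nat_lit 5141833774) (nat_lit 1064) (nat_lit 966286605) (nat_lit 210) (nat_lit 5) (nat_lit 223) (nat_lit 5) (nat_lit 224) (nat_lit 5) (nat_lit 294) (nat_lit 277) (nat_lit 209)) (XT.nd (nat_lit 78) (nat_lit 1064) (nat_lit 0) (XT.lf (nat_lit 0) (nat_lit 441240156) (nat_lit 1064) (nat_lit 1370251719) (nat_lit 76) (nat_lit 7736870780) (nat_lit 209) (nat_lit 5) (nat_lit 223) (nat_lit 5) (nat_lit 210) (nat_lit 5) (nat_lit 295) (nat_lit 277) (nat_lit 208)) (XT.lf (nat_lit 0) (nat_lit 1889611843)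 (nat_lit 1140) (nat_lit 6158364778) (nat_lit 76) (nat_lit 1636430526) (nat_lit 195) (nat_lit 5) (nat_lit 210) (nat_lit 5) (nat_lit 196) (nat_lit 5) (nat_lit 296) (nat_lit 277) (nat_lit 207)))) (XT.nd (nat_lit 78) (nat_lit 1140) (nat_lit 0) (XT.lf (nat_lit 0) (nat_lit 3382013983) (nat_lit 1140) (nat_lit 1272392710) (nat_lit 76) (nat_lit 5170152219) (nat_lit 195) (nat_lit 5) (nat_lit 210) (nat_lit 5) (nat_lit 196) (nat_lit 5) (nat_lit 297) (nat_lit 277) (nat_lit 206)) (XT.nd (nat_lit 78) (nat_lit 0) (nat_lit 0) (XT.lf (nat_lit 0) (nat_lit 3807746436) (nat_lit 1140) (nat_lit 1117626553) (nat_lit 1216) (nat_lit 5043398754) (nat_lit 180) (nat_lit 5) (nat_lit 195) (nat_lit 5) (nat_lit 196) (nat_lit 5) (nat_lit 298) (nat_lit 277) (nat_lit 205)) (XT.lf (nat_lit 0) (nat_lit 6522529085) (nat_lit 1216) (nat_lit 1102373933) (nat_lit 76) (nat_lit 2492223883) (nat_lit 180) (nat_lit 5) (nat_lit 196) (nat_lit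 5) (nat_lit 181) (nat_lit 5) (nat_lit 299) (nat_lit 277) (nat_lit 204))))) (XT.nd (nat_lit 234) (nat_lit 1064) (nat_lit 0) (XT.nd (nat_lit 78) (nat_lit 684) (nat_lit 0) (XT.lf (nat_lit 0) (nat_lit 4151358490) (nat_lit 608) (nat_lit 4038325116) (nat_lit 684) (nat_lit 2079626236) (nat_lit 172) (nat_lit 5) (nat_lit 180) (nat_lit 5) (nat_lit 181) (nat_lit 5) (nat_lit 300) (nat_lit 277) (nat_lit 203)) (XT.nd (nat_lit 78) (nat_lit 684) (nat_lit 0) (XT.lf (nat_lit 0) (nat_lit 9558940619) (nat_lit 608) (nat_lit 330744683) (nat_lit 684) (nat_lit 536926479) (nat_lit 172) (nat_lit 5) (nat_lit 180) (nat_lit 5) (nat_lit 181) (nat_lit 5) (nat_lit 301) (nat_lit 277) (nat_lit 202)) (XT.lf (nat_lit 0) (nat_lit 1081978447) (nat_lit 684) (nat_lit 6028498597) (nat_lit 76) (nat_lit 3476375018) (nat_lit 163) (nat_lit 5) (nat_lit 172) (nat_lit 5) (nat_lit 164) (nat_lit 5) (nat_lit 302) (nat_lit 277) (nat_lit 201))))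 (XT.nd (nat_lit 156) (nat_lit 532) (nat_lit 0) (XT.nd (nat_lit 78) (nat_lit 532) (nat_lit 0) (XT.lf (nat_lit 0) (nat_lit 2723570886) (nat_lit 684) (nat_lit 622158065) (nat_lit 76) (nat_lit 7406498976) (nat_lit 163) (nat_lit 5) (nat_lit 172) (nat_lit 5) (nat_lit 164) (nat_lit 5) (nat_lit 303) (nat_lit 277) (nat_lit 200)) (XT.lf (nat_lit 0) (nat_lit 4441826436) (nat_lit 608) (nat_lit 5909250968) (nat_lit 76) (nat_lit 570699399) (nat_lit 156) (nat_lit 5) (nat_lit 164) (nat_lit 5) (nat_lit 157) (nat_lit 5) (nat_lit 304) (nat_lit 277) (nat_lit 199))) (XT.nd (nat_lit 78) (nat_lit 532) (nat_lit 0) (XT.lf (nat_lit 0) (nat_lit 6225205134) (nat_lit 608) (nat_lit 326973295) (nat_lit 76) (nat_lit 4543859652) (nat_lit 156) (nat_lit 5) (nat_lit 164) (nat_lit 5) (nat_lit 157) (nat_lit 5) (nat_lit 305) (nat_lit 277) (nat_lit 198)) (XT.lf (nat_lit 0) (nat_lit 5504391684) (nat_lit 532) (nat_lit 2585463992) (nat_lit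 608) (nat_lit 3184870637) (nat_lit 149) (nat_lit 5) (nat_lit 156) (nat_lit 5) (nat_lit 157) (nat_lit 5) (nat_lit 306) (nat_lit 277) (nat_lit 197))))))) (XT.nd (nat_lit 1014) (nat_lit 2508) (nat_lit 0) (XT.nd (nat_lit 468) (nat_lit 1672) (nat_lit 0) (XT.nd (nat_lit 234) (nat_lit 456) (nat_lit 0) (XT.nd (nat_lit 78) (nat_lit 608) (nat_lit 0) (XT.lf (nat_lit 0) (nat_lit 18326597) (nat_lit 456) (nat_lit 9985388299) (nat_lit 532) (nat_lit 1455293517) (nat_lit 143) (nat_lit 5) (nat_lit 149) (nat_lit 5) (nat_lit 150) (nat_lit 5) (nat_lit 307) (nat_lit 277) (nat_lit 196)) (XT.nd (nat_lit 78) (nat_lit 532) (nat_lit 0) (XT.lf (nat_lit 0) (nat_lit 379786611) (nat_lit 532) (nat_lit 5604007593) (nat_lit 76) (nat_lit 5663160793) (nat_lit 142) (nat_lit 5) (nat_lit 149) (nat_lit 5) (nat_lit 143) (nat_lit 5) (nat_lit 308) (nat_lit 277) (nat_lit 195)) (XT.lf (nat_lit 0) (nat_lit 374887371) (nat_lit 532) (nat_lit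 1845633834) (nat_lit 608) (nat_lit 9620219587) (nat_lit 135) (nat_lit 5) (nat_lit 142) (nat_lit 5) (nat_lit 143) (nat_lit 5) (nat_lit 309) (nat_lit 277) (nat_lit 194)))) (XT.nd (nat_lit 78) (nat_lit 456) (nat_lit 0) (XT.lf (nat_lit 0) (nat_lit 4173531451) (nat_lit 608) (nat_lit 5440646230) (nat_lit 76) (nat_lit 2424478675) (nat_lit 135) (nat_lit 5) (nat_lit 143) (nat_lit 5) (nat_lit 136) (nat_lit 5) (nat_lit 310) (nat_lit 277) (nat_lit 193)) (XT.nd (nat_lit 78) (nat_lit 0) (nat_lit 0) (XT.lf (nat_lit 0) (nat_lit 735929666) (nat_lit 456) (nat_lit 5451902874) (nat_lit 532) (nat_lit 6054622824) (nat_lit 129) (nat_lit 5) (nat_lit 135) (nat_lit 5) (nat_lit 136) (nat_lit 5) (nat_lit 311) (nat_lit 277) (nat_lit 192)) (XT.lf (nat_lit 0) (nat_lit 7184105956) (nat_lit 456) (nat_lit 1111166446) (nat_lit 532) (nat_lit 4156140856) (nat_lit 129) (nat_lit 5) (nat_lit 135) (nat_lit 5) (nat_lit 136) (nat_lit 5)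 (nat_lit 312) (nat_lit 277) (nat_lit 191))))) (XT.nd (nat_lit 234) (nat_lit 760) (nat_lit 0) (XT.nd (nat_lit 78) (nat_lit 456) (nat_lit 0) (XT.lf (nat_lit 0) (nat_lit 1123581317) (nat_lit 456) (nat_lit 9363840485) (nat_lit 532) (nat_lit 2178598943) (nat_lit 123) (nat_lit 5) (nat_lit 129) (nat_lit 5) (nat_lit 130) (nat_lit 5) (nat_lit 313) (nat_lit 277) (nat_lit 190)) (XT.nd (nat_lit 78) (nat_lit 456) (nat_lit 0) (XT.lf (nat_lit 0) (nat_lit 7778061981) (nat_lit 456) (nat_lit 5010136567) (nat_lit 532) (nat_lit 97606723) (nat_lit 123) (nat_lit 5) (nat_lit 129) (nat_lit 5) (nat_lit 130) (nat_lit 5) (nat_lit 314) (nat_lit 277) (nat_lit 189)) (XT.lf (nat_lit 0) (nat_lit 1505096378) (nat_lit 380) (nat_lit 494435738) (nat_lit 456) (nat_lit 11112275393) (nat_lit 117) (nat_lit 5) (nat_lit 122) (nat_lit 5) (nat_lit 123) (nat_lit 5) (nat_lit 315) (nat_lit 277) (nat_lit 188)))) (XT.nd (nat_lit 156) (nat_lit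 380) (nat_lit 0) (XT.nd (nat_lit 78) (nat_lit 380) (nat_lit 0) (XT.lf (nat_lit 0) (nat_lit 4229174464) (nat_lit 456) (nat_lit 4988410860) (nat_lit 76) (nat_lit 4124851571) (nat_lit 117) (nat_lit 5) (nat_lit 123) (nat_lit 5) (nat_lit 118) (nat_lit 5) (nat_lit 316) (nat_lit 277) (nat_lit 187)) (XT.lf (nat_lit 0) (nat_lit 1835120605) (nat_lit 380) (nat_lit 4693223298) (nat_lit 456) (nat_lit 7051584073) (nat_lit 112) (nat_lit 5) (nat_lit 117) (nat_lit 5) (nat_lit 118) (nat_lit 5) (nat_lit 317) (nat_lit 277) (nat_lit 186))) (XT.nd (nat_lit 78) (nat_lit 380) (nat_lit 0) (XT.lf (nat_lit 0) (nat_lit 8927450150) (nat_lit 456) (nat_lit 4882157020) (nat_lit 76) (nat_lit 14029077) (nat_lit 112) (nat_lit 5) (nat_lit 118) (nat_lit 5) (nat_lit 113) (nat_lit 5) (nat_lit 318) (nat_lit 277) (nat_lit 185)) (XT.lf (nat_lit 0) (nat_lit 2158174679) (nat_lit 380) (nat_lit 9288547072) (nat_lit 456) (nat_lit 2626508939)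 (nat_lit 107) (nat_lit 5) (nat_lit 112) (nat_lit 5) (nat_lit 113) (nat_lit 5) (nat_lit 319) (nat_lit 277) (nat_lit 184)))))) (XT.nd (nat_lit 546) (nat_lit 1368) (nat_lit 0) (XT.nd (nat_lit 234) (nat_lit 684) (nat_lit 0) (XT.nd (nat_lit 78) (nat_lit 456) (nat_lit 0) (XT.lf (nat_lit 0) (nat_lit 9486185165) (nat_lit 380) (nat_lit 4585992516) (nat_lit 456) (nat_lit 257237187) (nat_lit 107) (nat_lit 5) (nat_lit 112) (nat_lit 5) (nat_lit 113) (nat_lit 5) (nat_lit 320) (nat_lit 277) (nat_lit 183)) (XT.nd (nat_lit 78) (nat_lit 0) (nat_lit 0) (XT.lf (nat_lit 0) (nat_lit 2148527967) (nat_lit 456) (nat_lit 12151235665) (nat_lit 76) (nat_lit 292669840) (nat_lit 101) (nat_lit 5) (nat_lit 107) (nat_lit 5) (nat_lit 102) (nat_lit 5) (nat_lit 321) (nat_lit 277) (nat_lit 182)) (XT.lf (nat_lit 0) (nat_lit 4698008816) (nat_lit 456) (nat_lit 4890462308) (nat_lit 76) (nat_lit 5272512096) (nat_lit 101) (nat_lit 5) (nat_lit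 107) (nat_lit 5) (nat_lit 102) (nat_lit 5) (nat_lit 322) (nat_lit 277) (nat_lit 181)))) (XT.nd (nat_lit 156) (nat_lit 380) (nat_lit 0) (XT.nd (nat_lit 78) (nat_lit 0) (nat_lit 0) (XT.lf (nat_lit 0) (nat_lit 2616284971) (nat_lit 304) (nat_lit 4715280911) (nat_lit 380) (nat_lit 7805813670) (nat_lit 97) (nat_lit 5) (nat_lit 101) (nat_lit 5) (nat_lit 102) (nat_lit 5) (nat_lit 323) (nat_lit 277) (nat_lit 180)) (XT.lf (nat_lit 0) (nat_lit 10079609748) (nat_lit 380) (nat_lit 4998675194) (nat_lit 76) (nat_lit 342735758) (nat_lit 97) (nat_lit 5) (nat_lit 102) (nat_lit 5) (nat_lit 98) (nat_lit 5) (nat_lit 324) (nat_lit 277) (nat_lit 179))) (XT.nd (nat_lit 78) (nat_lit 0) (nat_lit 0) (XT.lf (nat_lit 0) (nat_lit 2733586439) (nat_lit 380) (nat_lit 10232659510) (nat_lit 456) (nat_lit 2745257423) (nat_lit 92) (nat_lit 5) (nat_lit 97) (nat_lit 5) (nat_lit 98) (nat_lit 5) (nat_lit 325) (nat_lit 277) (nat_lit 178))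 (XT.lf (nat_lit 0) (nat_lit 10778017815) (nat_lit 380) (nat_lit 5195404036) (nat_lit 456) (nat_lit 36276787) (nat_lit 92) (nat_lit 5) (nat_lit 97) (nat_lit 5) (nat_lit 98) (nat_lit 5) (nat_lit 326) (nat_lit 277) (nat_lit 177))))) (XT.nd (nat_lit 234) (nat_lit 684) (nat_lit 0) (XT.nd (nat_lit 78) (nat_lit 304) (nat_lit 0) (XT.lf (nat_lit 0) (nat_lit 2710861688) (nat_lit 380) (nat_lit 13563936277) (nat_lit 76) (nat_lit 40944154) (nat_lit 87) (nat_lit 5) (nat_lit 92) (nat_lit 5) (nat_lit 88) (nat_lit 5) (nat_lit 327) (nat_lit 277) (nat_lit 176)) (XT.nd (nat_lit 78) (nat_lit 304) (nat_lit 0) (XT.lf (nat_lit 0) (nat_lit 5628456742) (nat_lit 380) (nat_lit 5621841506) (nat_lit 76) (nat_lit 5378009681) (nat_lit 87) (nat_lit 5) (nat_lit 92) (nat_lit 5) (nat_lit 88) (nat_lit 5) (nat_lit 328) (nat_lit 277) (nat_lit 175)) (XT.lf (nat_lit 0) (nat_lit 2587473992) (nat_lit 304) (nat_lit 6055423786) (nat_lit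 380) (nat_lit 8307087902) (nat_lit 83) (nat_lit 5) (nat_lit 87) (nat_lit 5) (nat_lit 88) (nat_lit 5) (nat_lit 329) (nat_lit 277) (nat_lit 174)))) (XT.nd (nat_lit 156) (nat_lit 380) (nat_lit 0) (XT.nd (nat_lit 78) (nat_lit 304) (nat_lit 0) (XT.lf (nat_lit 0) (nat_lit 11136989251) (nat_lit 304) (nat_lit 652246197) (nat_lit 380) (nat_lit 5490848501) (nat_lit 83) (nat_lit 5) (nat_lit 87) (nat_lit 5) (nat_lit 88) (nat_lit 5) (nat_lit 330) (nat_lit 277) (nat_lit 173)) (XT.lf (nat_lit 0) (nat_lit 2299443954) (nat_lit 304) (nat_lit 12784933469) (nat_lit 380) (nat_lit 2534088996) (nat_lit 79) (nat_lit 5) (nat_lit 83) (nat_lit 5) (nat_lit 84) (nat_lit 5) (nat_lit 331) (nat_lit 277) (nat_lit 172))) (XT.nd (nat_lit 78) (nat_lit 304) (nat_lit 0) (XT.lf (nat_lit 0) (nat_lit 555658524) (nat_lit 380) (nat_lit 6877146510) (nat_lit 76) (nat_lit 10532432834) (nat_lit 78) (nat_lit 5) (nat_lit 83) (nat_lit 5) (nat_lit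 79) (nat_lit 5) (nat_lit 332) (nat_lit 277) (nat_lit 171)) (XT.lf (nat_lit 0) (nat_lit 1807580152) (nat_lit 304) (nat_lit 1882552157) (nat_lit 380) (nat_lit 14631450972) (nat_lit 74) (nat_lit 5) (nat_lit 78) (nat_lit 5) (nat_lit 79) (nat_lit 5) (nat_lit 333) (nat_lit 277) (nat_lit 170))))))))
noncomputable def xc150 : XT := (XT.nd (nat_lit 2028) (nat_lit 1520) (nat_lit 0) (XT.nd (nat_lit 1014) (nat_lit 1064) (nat_lit 0) (XT.nd (nat_lit 468) (nat_lit 988) (nat_lit 0) (XT.nd (nat_lit 234) (nat_lit 380) (nat_lit 0) (XT.nd (nat_lit 78) (nat_lit 228) (nat_lit 0) (XT.lf (nat_lit 0) (nat_lit 7011385405) (nat_lit 380) (nat_lit 7851020894) (nat_lit 76) (nat_lit 3823442558) (nat_lit 74) (nat_lit 5) (nat_lit 79) (nat_lit 5) (nat_lit 75) (nat_lit 5) (nat_lit 334) (nat_lit 277) (nat_lit 169)) (XT.nd (nat_lit 78) (nat_lit 0) (nat_lit 0) (XT.lf (nat_lit 0) (nat_lit 1053611982) (nat_lit 228) (nat_lit 9393601169)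 (nat_lit 304) (nat_lit 8613392936) (nat_lit 71) (nat_lit 5) (nat_lit 74) (nat_lit 5) (nat_lit 75) (nat_lit 5) (nat_lit 335) (nat_lit 277) (nat_lit 168)) (XT.lf (nat_lit 0) (nat_lit 10366360256) (nat_lit 228) (nat_lit 3685416287) (nat_lit 304) (nat_lit 5392871121) (nat_lit 71) (nat_lit 5) (nat_lit 74) (nat_lit 5) (nat_lit 75) (nat_lit 5) (nat_lit 336) (nat_lit 277) (nat_lit 167)))) (XT.nd (nat_lit 78) (nat_lit 76) (nat_lit 0) (XT.lf (nat_lit 0) (nat_lit 79002906) (nat_lit 304) (nat_lit 17694041936) (nat_lit 380) (nat_lit 2066919728) (nat_lit 67) (nat_lit 5) (nat_lit 71) (nat_lit 5) (nat_lit 72) (nat_lit 5) (nat_lit 337) (nat_lit 277) (nat_lit 166)) (XT.nd (nat_lit 78) (nat_lit 0) (nat_lit 0) (XT.lf (nat_lit 0) (nat_lit 1448142063) (nat_lit 380) (nat_lit 10617550736) (nat_lit 76) (nat_lit 8177591401) (nat_lit 66) (nat_lit 5) (nat_lit 71) (nat_lit 5) (nat_lit 67) (nat_lit 5) (nat_lit 338) (nat_lit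 277) (nat_lit 165)) (XT.lf (nat_lit 0) (nat_lit 5014275110) (nat_lit 380) (nat_lit 1239534289) (nat_lit 76) (nat_lit 14404675387) (nat_lit 66) (nat_lit 5) (nat_lit 71) (nat_lit 5) (nat_lit 67) (nat_lit 5) (nat_lit 339) (nat_lit 277) (nat_lit 164))))) (XT.nd (nat_lit 234) (nat_lit 532) (nat_lit 0) (XT.nd (nat_lit 78) (nat_lit 228) (nat_lit 0) (XT.lf (nat_lit 0) (nat_lit 8568349923) (nat_lit 228) (nat_lit 188942795) (nat_lit 304) (nat_lit 12326761537) (nat_lit 63) (nat_lit 5) (nat_lit 66) (nat_lit 5) (nat_lit 67) (nat_lit 5) (nat_lit 340) (nat_lit 277) (nat_lit 163)) (XT.nd (nat_lit 78) (nat_lit 228) (nat_lit 0) (XT.lf (nat_lit 0) (nat_lit 12671135540) (nat_lit 304) (nat_lit 2903298559) (nat_lit 76) (nat_lit 5946210260) (nat_lit 63) (nat_lit 5) (nat_lit 67) (nat_lit 5) (nat_lit 64) (nat_lit 5) (nat_lit 341) (nat_lit 277) (nat_lit 162)) (XT.lf (nat_lit 0) (nat_lit 7116212101) (nat_lit 228) (nat_lit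 9644478951) (nat_lit 304) (nat_lit 5207901506) (nat_lit 60) (nat_lit 5) (nat_lit 63) (nat_lit 5) (nat_lit 64) (nat_lit 5) (nat_lit 342) (nat_lit 277) (nat_lit 161)))) (XT.nd (nat_lit 156) (nat_lit 228) (nat_lit 0) (XT.nd (nat_lit 78) (nat_lit 304) (nat_lit 0) (XT.lf (nat_lit 0) (nat_lit 17477742377) (nat_lit 228) (nat_lit 3512704870) (nat_lit 304) (nat_lit 1439015579) (nat_lit 60) (nat_lit 5) (nat_lit 63) (nat_lit 5) (nat_lit 64) (nat_lit 5) (nat_lit 343) (nat_lit 277) (nat_lit 160)) (XT.lf (nat_lit 0) (nat_lit 2462333231) (nat_lit 304) (nat_lit 17621635410) (nat_lit 76) (nat_lit 2817482589) (nat_lit 56) (nat_lit 5) (nat_lit 60) (nat_lit 5) (nat_lit 57) (nat_lit 5) (nat_lit 344) (nat_lit 277) (nat_lit 159))) (XT.nd (nat_lit 78) (nat_lit 228) (nat_lit 0) (XT.lf (nat_lit 0) (nat_lit 6525603170) (nat_lit 304) (nat_lit 7533727123) (nat_lit 76) (nat_lit 9325635736) (nat_lit 56) (nat_lit 5) (nat_lit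 60) (nat_lit 5) (nat_lit 57) (nat_lit 5) (nat_lit 345) (nat_lit 277) (nat_lit 158)) (XT.lf (nat_lit 0) (nat_lit 2895940784) (nat_lit 228) (nat_lit 7831528611) (nat_lit 304) (nat_lit 13155023965) (nat_lit 53) (nat_lit 5) (nat_lit 56) (nat_lit 5) (nat_lit 57) (nat_lit 5) (nat_lit 346) (nat_lit 277) (nat_lit 157)))))) (XT.nd (nat_lit 468) (nat_lit 608) (nat_lit 0) (XT.nd (nat_lit 234) (nat_lit 304) (nat_lit 0) (XT.nd (nat_lit 78) (nat_lit 152) (nat_lit 0) (XT.lf (nat_lit 0) (nat_lit 13775715355) (nat_lit 228) (nat_lit 1344771701) (nat_lit 304) (nat_lit 9272514392) (nat_lit 53) (nat_lit 5) (nat_lit 56) (nat_lit 5) (nat_lit 57) (nat_lit 5) (nat_lit 347) (nat_lit 277) (nat_lit 156)) (XT.nd (nat_lit 78) (nat_lit 152) (nat_lit 0) (XT.lf (nat_lit 0) (nat_lit 19685874982) (nat_lit 304) (nat_lit 5225263) (nat_lit 76) (nat_lit 5226514713) (nat_lit 53) (nat_lit 5) (nat_lit 57) (nat_lit 5) (nat_lit 54) (nat_lit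 5) (nat_lit 348) (nat_lit 277) (nat_lit 155)) (XT.lf (nat_lit 0) (nat_lit 11112232103) (nat_lit 152) (nat_lit 13385717973) (nat_lit 228) (nat_lit 956732385) (nat_lit 51) (nat_lit 5) (nat_lit 53) (nat_lit 5) (nat_lit 54) (nat_lit 5) (nat_lit 349) (nat_lit 277) (nat_lit 154)))) (XT.nd (nat_lit 78) (nat_lit 228) (nat_lit 0) (XT.lf (nat_lit 0) (nat_lit 3368955538) (nat_lit 228) (nat_lit 3494212749) (nat_lit 76) (nat_lit 19144016203) (nat_lit 50) (nat_lit 5) (nat_lit 53) (nat_lit 5) (nat_lit 51) (nat_lit 5) (nat_lit 350) (nat_lit 277) (nat_lit 153)) (XT.nd (nat_lit 78) (nat_lit 0) (nat_lit 0) (XT.lf (nat_lit 0) (nat_lit 7806267580) (nat_lit 228) (nat_lit 63888717) (nat_lit 304) (nat_lit 18703878684) (nat_lit 47) (nat_lit 5) (nat_lit 50) (nat_lit 5) (nat_lit 51) (nat_lit 5) (nat_lit 351) (nat_lit 277) (nat_lit 152)) (XT.lf (nat_lit 0) (nat_lit 12598748450) (nat_lit 304) (nat_lit 7722646650) (nat_lit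 76) (nat_lit 6833731760) (nat_lit 47) (nat_lit 5) (nat_lit 51) (nat_lit 5) (nat_lit 48) (nat_lit 5) (nat_lit 352) (nat_lit 277) (nat_lit 151))))) (XT.nd (nat_lit 234) (nat_lit 456) (nat_lit 0) (XT.nd (nat_lit 78) (nat_lit 0) (nat_lit 0) (XT.lf (nat_lit 0) (nat_lit 3709909597) (nat_lit 152) (nat_lit 13785889909) (nat_lit 228) (nat_lit 10257060298) (nat_lit 45) (nat_lit 5) (nat_lit 47) (nat_lit 5) (nat_lit 48) (nat_lit 5) (nat_lit 353) (nat_lit 277) (nat_lit 150)) (XT.nd (nat_lit 78) (nat_lit 0) (nat_lit 0) (XT.lf (nat_lit 0) (nat_lit 15628223671) (nat_lit 152) (nat_lit 6979961755) (nat_lit 228) (nat_lit 5758292766) (nat_lit 45) (nat_lit 5) (nat_lit 47) (nat_lit 5) (nat_lit 48) (nat_lit 5) (nat_lit 354) (nat_lit 277) (nat_lit 149)) (XT.lf (nat_lit 0) (nat_lit 27864895218) (nat_lit 228) (nat_lit 1110009837) (nat_lit 76) (nat_lit 23877487) (nat_lit 45) (nat_lit 5) (nat_lit 48) (nat_lit 5) (nat_lit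 46) (nat_lit 5) (nat_lit 355) (nat_lit 277) (nat_lit 148)))) (XT.nd (nat_lit 156) (nat_lit 152) (nat_lit 0) (XT.nd (nat_lit 78) (nat_lit 0) (nat_lit 0) (XT.lf (nat_lit 0) (nat_lit 3725825891) (nat_lit 304) (nat_lit 18683894317) (nat_lit 76) (nat_lit 7234272991) (nat_lit 41) (nat_lit 5) (nat_lit 45) (nat_lit 5) (nat_lit 42) (nat_lit 5) (nat_lit 356) (nat_lit 277) (nat_lit 147)) (XT.lf (nat_lit 0) (nat_lit 8710823453) (nat_lit 304) (nat_lit 6919392604) (nat_lit 76) (nat_lit 14677944304) (nat_lit 41) (nat_lit 5) (nat_lit 45) (nat_lit 5) (nat_lit 42) (nat_lit 5) (nat_lit 357) (nat_lit 277) (nat_lit 146))) (XT.nd (nat_lit 78) (nat_lit 0) (nat_lit 0) (XT.lf (nat_lit 0) (nat_lit 5286745385) (nat_lit 152) (nat_lit 8600671259) (nat_lit 228) (nat_lit 17103579833) (nat_lit 39) (nat_lit 5) (nat_lit 41) (nat_lit 5) (nat_lit 42) (nat_lit 5) (nat_lit 358) (nat_lit 277) (nat_lit 145)) (XT.lf (nat_lit 0) (nat_lit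 17986587846) (nat_lit 152) (nat_lit 1293936244) (nat_lit 228) (nat_lit 12411962250) (nat_lit 39) (nat_lit 5) (nat_lit 41) (nat_lit 5) (nat_lit 42) (nat_lit 5) (nat_lit 359) (nat_lit 277) (nat_lit 144))))))) (XT.nd (nat_lit 1014) (nat_lit 608) (nat_lit 0) (XT.nd (nat_lit 468) (nat_lit 532) (nat_lit 0) (XT.nd (nat_lit 234) (nat_lit 152) (nat_lit 0) (XT.nd (nat_lit 78) (nat_lit 228) (nat_lit 0) (XT.lf (nat_lit 0) (nat_lit 24886873970) (nat_lit 228) (nat_lit 1421608709) (nat_lit 76) (nat_lit 6104999751) (nat_lit 39) (nat_lit 5) (nat_lit 42) (nat_lit 5) (nat_lit 40) (nat_lit 5) (nat_lit 360) (nat_lit 277) (nat_lit 143)) (XT.nd (nat_lit 78) (nat_lit 76) (nat_lit 0) (XT.lf (nat_lit 0) (nat_lit 11427697371) (nat_lit 152) (nat_lit 19348167957) (nat_lit 228) (nat_lit 2376814405) (nat_lit 37) (nat_lit 5) (nat_lit 39) (nat_lit 5) (nat_lit 40) (nat_lit 5) (nat_lit 361) (nat_lit 277) (nat_lit 142)) (XT.lf (nat_lit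 0) (nat_lit 2876659153) (nat_lit 228) (nat_lit 9264010783) (nat_lit 76) (nat_lit 21772354044) (nat_lit 36) (nat_lit 5) (nat_lit 39) (nat_lit 5) (nat_lit 37) (nat_lit 5) (nat_lit 362) (nat_lit 277) (nat_lit 141)))) (XT.nd (nat_lit 78) (nat_lit 0) (nat_lit 0) (XT.lf (nat_lit 0) (nat_lit 3604259196) (nat_lit 152) (nat_lit 4662404526) (nat_lit 228) (nat_lit 26428012343) (nat_lit 34) (nat_lit 5) (nat_lit 36) (nat_lit 5) (nat_lit 37) (nat_lit 5) (nat_lit 363) (nat_lit 277) (nat_lit 140)) (XT.nd (nat_lit 78) (nat_lit 0) (nat_lit 0) (XT.lf (nat_lit 0) (nat_lit 13934172547) (nat_lit 228) (nat_lit 18492028875) (nat_lit 76) (nat_lit 3070106486) (nat_lit 34) (nat_lit 5) (nat_lit 37) (nat_lit 5) (nat_lit 35) (nat_lit 5) (nat_lit 364) (nat_lit 277) (nat_lit 139)) (XT.lf (nat_lit 0) (nat_lit 19810204208) (nat_lit 228) (nat_lit 5574849193) (nat_lit 76) (nat_lit 10935784574) (nat_lit 34) (nat_lit 5) (nat_lit 37)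 (nat_lit 5) (nat_lit 35) (nat_lit 5) (nat_lit 365) (nat_lit 277) (nat_lit 138))))) (XT.nd (nat_lit 234) (nat_lit 380) (nat_lit 0) (XT.nd (nat_lit 78) (nat_lit 0) (nat_lit 0) (XT.lf (nat_lit 0) (nat_lit 7870814865) (nat_lit 152) (nat_lit 18059919438) (nat_lit 228) (nat_lit 11237327184) (nat_lit 32) (nat_lit 5) (nat_lit 34) (nat_lit 5) (nat_lit 35) (nat_lit 5) (nat_lit 366) (nat_lit 277) (nat_lit 137)) (XT.nd (nat_lit 78) (nat_lit 0) (nat_lit 0) (XT.lf (nat_lit 0) (nat_lit 21821632542) (nat_lit 152) (nat_lit 10462197837) (nat_lit 228) (nat_lit 5755406777) (nat_lit 32) (nat_lit 5) (nat_lit 34) (nat_lit 5) (nat_lit 35) (nat_lit 5) (nat_lit 367) (nat_lit 277) (nat_lit 136)) (XT.lf (nat_lit 0) (nat_lit 36178843441) (nat_lit 152) (nat_lit 2641544859) (nat_lit 228) (nat_lit 116377562) (nat_lit 32) (nat_lit 5) (nat_lit 34) (nat_lit 5) (nat_lit 35) (nat_lit 5) (nat_lit 368) (nat_lit 277) (nat_lit 135))))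 (XT.nd (nat_lit 156) (nat_lit 152) (nat_lit 0) (XT.nd (nat_lit 78) (nat_lit 0) (nat_lit 0) (XT.lf (nat_lit 0) (nat_lit 5735589664) (nat_lit 228) (nat_lit 28651539518) (nat_lit 76) (nat_lit 5467808414) (nat_lit 29) (nat_lit 5) (nat_lit 32) (nat_lit 5) (nat_lit 30) (nat_lit 5) (nat_lit 369) (nat_lit 277) (nat_lit 134)) (XT.lf (nat_lit 0) (nat_lit 11808103752) (nat_lit 228) (nat_lit 15199275514) (nat_lit 76) (nat_lit 13791824352) (nat_lit 29) (nat_lit 5) (nat_lit 32) (nat_lit 5) (nat_lit 30) (nat_lit 5) (nat_lit 370) (nat_lit 277) (nat_lit 133))) (XT.nd (nat_lit 78) (nat_lit 152) (nat_lit 0) (XT.lf (nat_lit 0) (nat_lit 18056043418) (nat_lit 228) (nat_lit 1355062541) (nat_lit 76) (nat_lit 22360897566) (nat_lit 29) (nat_lit 5) (nat_lit 32) (nat_lit 5) (nat_lit 30) (nat_lit 5) (nat_lit 371) (nat_lit 277) (nat_lit 132)) (XT.lf (nat_lit 0) (nat_lit 13149796172) (nat_lit 152) (nat_lit 11461475739) (nat_lit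 228) (nat_lit 18159123309) (nat_lit 27) (nat_lit 5) (nat_lit 29) (nat_lit 5) (nat_lit 30) (nat_lit 5) (nat_lit 372) (nat_lit 277) (nat_lit 131)))))) (XT.nd (nat_lit 546) (nat_lit 304) (nat_lit 0) (XT.nd (nat_lit 234) (nat_lit 228) (nat_lit 0) (XT.nd (nat_lit 78) (nat_lit 76) (nat_lit 0) (XT.lf (nat_lit 0) (nat_lit 28106408160) (nat_lit 152) (nat_lit 3263962826) (nat_lit 228) (nat_lit 12428154482) (nat_lit 27) (nat_lit 5) (nat_lit 29) (nat_lit 5) (nat_lit 30) (nat_lit 5) (nat_lit 373) (nat_lit 277) (nat_lit 130)) (XT.nd (nat_lit 78) (nat_lit 76) (nat_lit 0) (XT.lf (nat_lit 0) (nat_lit 38375706147) (nat_lit 228) (nat_lit 1406561700) (nat_lit 76) (nat_lit 5073931004) (nat_lit 27) (nat_lit 5) (nat_lit 30) (nat_lit 5) (nat_lit 28) (nat_lit 4) (nat_lit 374) (nat_lit 277) (nat_lit 129)) (XT.lf (nat_lit 0) (nat_lit 13528562969) (nat_lit 76) (nat_lit 32218858733) (nat_lit 152) (nat_lit 193497151) (nat_lit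 26) (nat_lit 5) (nat_lit 27) (nat_lit 5) (nat_lit 28) (nat_lit 4) (nat_lit 375) (nat_lit 277) (nat_lit 128)))) (XT.nd (nat_lit 156) (nat_lit 152) (nat_lit 0) (XT.nd (nat_lit 78) (nat_lit 0) (nat_lit 0) (XT.lf (nat_lit 0) (nat_lit 6167739268) (nat_lit 152) (nat_lit 18188400222) (nat_lit 76) (nat_lit 22699985670) (nat_lit 25) (nat_lit 5) (nat_lit 27) (nat_lit 5) (nat_lit 26) (nat_lit 5) (nat_lit 376) (nat_lit 277) (nat_lit 127)) (XT.lf (nat_lit 0) (nat_lit 12709975540) (nat_lit 152) (nat_lit 3550022568) (nat_lit 76) (nat_lit 31944913290) (nat_lit 25) (nat_lit 5) (nat_lit 27) (nat_lit 5) (nat_lit 26) (nat_lit 5) (nat_lit 377) (nat_lit 277) (nat_lit 126))) (XT.nd (nat_lit 78) (nat_lit 0) (nat_lit 0) (XT.lf (nat_lit 0) (nat_lit 11746647304) (nat_lit 152) (nat_lit 7808972662) (nat_lit 228) (nat_lit 29829329716) (nat_lit 23) (nat_lit 5) (nat_lit 25) (nat_lit 5) (nat_lit 26) (nat_lit 5) (nat_lit 378)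 (nat_lit 277) (nat_lit 125)) (XT.lf (nat_lit 0) (nat_lit 26645702086) (nat_lit 228) (nat_lit 23043400521) (nat_lit 76) (nat_lit 910117070) (nat_lit 23) (nat_lit 5) (nat_lit 26) (nat_lit 5) (nat_lit 24) (nat_lit 4) (nat_lit 379) (nat_lit 277) (nat_lit 124))))) (XT.nd (nat_lit 234) (nat_lit 228) (nat_lit 0) (XT.nd (nat_lit 78) (nat_lit 76) (nat_lit 0) (XT.lf (nat_lit 0) (nat_lit 34020226785) (nat_lit 228) (nat_lit 8097785915) (nat_lit 76) (nat_lit 9729755405) (nat_lit 23) (nat_lit 5) (nat_lit 26) (nat_lit 5) (nat_lit 24) (nat_lit 4) (nat_lit 380) (nat_lit 277) (nat_lit 123)) (XT.nd (nat_lit 78) (nat_lit 0) (nat_lit 0) (XT.lf (nat_lit 0) (nat_lit 7431684264) (nat_lit 76) (nat_lit 34250326834) (nat_lit 152) (nat_lit 11449783636) (nat_lit 22) (nat_lit 5) (nat_lit 23) (nat_lit 5) (nat_lit 24) (nat_lit 4) (nat_lit 381) (nat_lit 277) (nat_lit 122)) (XT.lf (nat_lit 0) (nat_lit 23583596878) (nat_lit 76)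 (nat_lit 26066476760) (nat_lit 152) (nat_lit 4801978172) (nat_lit 22) (nat_lit 5) (nat_lit 23) (nat_lit 5) (nat_lit 24) (nat_lit 4) (nat_lit 382) (nat_lit 277) (nat_lit 121)))) (XT.nd (nat_lit 156) (nat_lit 0) (nat_lit 0) (XT.nd (nat_lit 78) (nat_lit 152) (nat_lit 0) (XT.lf (nat_lit 0) (nat_lit 2000106041) (nat_lit 152) (nat_lit 15620780113) (nat_lit 76) (nat_lit 38190600240) (nat_lit 21) (nat_lit 5) (nat_lit 23) (nat_lit 5) (nat_lit 22) (nat_lit 5) (nat_lit 383) (nat_lit 277) (nat_lit 120)) (XT.lf (nat_lit 0) (nat_lit 28333421) (nat_lit 152) (nat_lit 8876584482) (nat_lit 228) (nat_lit 48305506567) (nat_lit 19) (nat_lit 5) (nat_lit 21) (nat_lit 5) (nat_lit 22) (nat_lit 5) (nat_lit 384) (nat_lit 277) (nat_lit 119))) (XT.nd (nat_lit 78) (nat_lit 0) (nat_lit 0) (XT.lf (nat_lit 0) (nat_lit 16172358334) (nat_lit 228) (nat_lit 42191306864) (nat_lit 76) (nat_lit 283003088) (nat_lit 19) (nat_lit 5) (nat_lit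 22) (nat_lit 5) (nat_lit 20) (nat_lit 4) (nat_lit 385) (nat_lit 277) (nat_lit 118)) (XT.lf (nat_lit 0) (nat_lit 23740789635) (nat_lit 228) (nat_lit 26847450725) (nat_lit 76) (nat_lit 9535272090) (nat_lit 19) (nat_lit 5) (nat_lit 22) (nat_lit 5) (nat_lit 20) (nat_lit 4) (nat_lit 386) (nat_lit 277) (nat_lit 117))))))))
noncomputable def xc151 : XT := (XT.nd (nat_lit 32838) (nat_lit 0) (nat_lit 8892) (XT.nd (nat_lit 1014) (nat_lit 152) (nat_lit 0) (XT.nd (nat_lit 468) (nat_lit 76) (nat_lit 0) (XT.nd (nat_lit 234) (nat_lit 228) (nat_lit 0) (XT.nd (nat_lit 78) (nat_lit 76) (nat_lit 0) (XT.lf (nat_lit 0) (nat_lit 31531497839) (nat_lit 228) (nat_lit 11051788218) (nat_lit 76) (nat_lit 19061521165) (nat_lit 19) (nat_lit 5) (nat_lit 22) (nat_lit 5) (nat_lit 20) (nat_lit 4) (nat_lit 387) (nat_lit 277) (nat_lit 116)) (XT.nd (nat_lit 78) (nat_lit 0) (nat_lit 0) (XT.lf (nat_lit 0) (nat_lit 5313161609) (nat_lit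 76) (nat_lit 34289202110) (nat_lit 152) (nat_lit 23607985969) (nat_lit 18) (nat_lit 5) (nat_lit 19) (nat_lit 5) (nat_lit 20) (nat_lit 4) (nat_lit 388) (nat_lit 277) (nat_lit 115)) (XT.lf (nat_lit 0) (nat_lit 22387430278) (nat_lit 76) (nat_lit 25634946182) (nat_lit 152) (nat_lit 16797273231) (nat_lit 18) (nat_lit 5) (nat_lit 19) (nat_lit 5) (nat_lit 20) (nat_lit 4) (nat_lit 389) (nat_lit 277) (nat_lit 114)))) (XT.nd (nat_lit 78) (nat_lit 228) (nat_lit 0) (XT.lf (nat_lit 0) (nat_lit 39965984795) (nat_lit 76) (nat_lit 16724557692) (nat_lit 152) (nat_lit 9786821451) (nat_lit 18) (nat_lit 5) (nat_lit 19) (nat_lit 5) (nat_lit 20) (nat_lit 4) (nat_lit 390) (nat_lit 277) (nat_lit 113)) (XT.nd (nat_lit 78) (nat_lit 228) (nat_lit 0) (XT.lf (nat_lit 0) (nat_lit 58064185062) (nat_lit 76) (nat_lit 7550250865) (nat_lit 152) (nat_lit 2570504992) (nat_lit 18) (nat_lit 5) (nat_lit 19) (nat_lit 5) (nat_lit 20)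 (nat_lit 4) (nat_lit 391) (nat_lit 277) (nat_lit 112)) (XT.lf (nat_lit 0) (nat_lit 4848281380) (nat_lit 228) (nat_lit 63119075501) (nat_lit 76) (nat_lit 1972561981) (nat_lit 15) (nat_lit 5) (nat_lit 18) (nat_lit 5) (nat_lit 16) (nat_lit 4) (nat_lit 392) (nat_lit 277) (nat_lit 111))))) (XT.nd (nat_lit 234) (nat_lit 76) (nat_lit 0) (XT.nd (nat_lit 78) (nat_lit 0) (nat_lit 0) (XT.lf (nat_lit 0) (nat_lit 12611717771) (nat_lit 228) (nat_lit 47375134704) (nat_lit 76) (nat_lit 11754719249) (nat_lit 15) (nat_lit 5) (nat_lit 18) (nat_lit 5) (nat_lit 16) (nat_lit 4) (nat_lit 393) (nat_lit 277) (nat_lit 110)) (XT.nd (nat_lit 78) (nat_lit 0) (nat_lit 0) (XT.lf (nat_lit 0) (nat_lit 20603964444) (nat_lit 228) (nat_lit 31166247821) (nat_lit 76) (nat_lit 21827186273) (nat_lit 15) (nat_lit 5) (nat_lit 18) (nat_lit 5) (nat_lit 16) (nat_lit 4) (nat_lit 394) (nat_lit 277) (nat_lit 109)) (XT.lf (nat_lit 0) (nat_lit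 28832004913) (nat_lit 228) (nat_lit 14478251746) (nat_lit 76) (nat_lit 32198764238) (nat_lit 15) (nat_lit 5) (nat_lit 18) (nat_lit 5) (nat_lit 16) (nat_lit 4) (nat_lit 395) (nat_lit 277) (nat_lit 108)))) (XT.nd (nat_lit 156) (nat_lit 0) (nat_lit 0) (XT.nd (nat_lit 78) (nat_lit 0) (nat_lit 0) (XT.lf (nat_lit 0) (nat_lit 2757238924) (nat_lit 76) (nat_lit 34572294072) (nat_lit 152) (nat_lit 40147781030) (nat_lit 14) (nat_lit 5) (nat_lit 15) (nat_lit 5) (nat_lit 16) (nat_lit 4) (nat_lit 396) (nat_lit 277) (nat_lit 107)) (XT.lf (nat_lit 0) (nat_lit 20799703463) (nat_lit 76) (nat_lit 25424673770) (nat_lit 152) (nat_lit 33276008454) (nat_lit 14) (nat_lit 5) (nat_lit 15) (nat_lit 5) (nat_lit 16) (nat_lit 4) (nat_lit 397) (nat_lit 277) (nat_lit 106))) (XT.nd (nat_lit 78) (nat_lit 0) (nat_lit 0) (XT.lf (nat_lit 0) (nat_lit 39376761529) (nat_lit 76) (nat_lit 16005604641) (nat_lit 152) (nat_lit 26201895751)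 (nat_lit 14) (nat_lit 5) (nat_lit 15) (nat_lit 5) (nat_lit 16) (nat_lit 4) (nat_lit 398) (nat_lit 277) (nat_lit 105)) (XT.lf (nat_lit 0) (nat_lit 58504645505) (nat_lit 76) (nat_lit 6306856430) (nat_lit 152) (nat_lit 18919261655) (nat_lit 14) (nat_lit 5) (nat_lit 15) (nat_lit 5) (nat_lit 16) (nat_lit 4) (nat_lit 399) (nat_lit 277) (nat_lit 104)))))) (XT.nd (nat_lit 31278) (nat_lit 0) (nat_lit 16644) (XT.nd (nat_lit 234) (nat_lit 0) (nat_lit 0) (XT.nd (nat_lit 78) (nat_lit 152) (nat_lit 0) (XT.lf (nat_lit 0) (nat_lit 74555398428) (nat_lit 152) (nat_lit 7777072054) (nat_lit 0) (nat_lit 3608234552) (nat_lit 14) (nat_lit 5) (nat_lit 16) (nat_lit 4) (nat_lit 14) (nat_lit 4) (nat_lit 400) (nat_lit 277) (nat_lit 103)) (XT.nd (nat_lit 78) (nat_lit 76) (nat_lit 0) (XT.lf (nat_lit 0) (nat_lit 10328354441) (nat_lit 76) (nat_lit 74421571148) (nat_lit 76) (nat_lit 3462271005) (nat_lit 13) (nat_lit 4) (nat_lit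 14) (nat_lit 5) (nat_lit 14) (nat_lit 4) (nat_lit 401) (nat_lit 277) (nat_lit 102)) (XT.lf (nat_lit 0) (nat_lit 4682675665) (nat_lit 152) (nat_lit 61465251325) (nat_lit 76) (nat_lit 24400275074) (nat_lit 12) (nat_lit 5) (nat_lit 14) (nat_lit 5) (nat_lit 13) (nat_lit 4) (nat_lit 402) (nat_lit 277) (nat_lit 101)))) (XT.nd (nat_lit 30888) (nat_lit 0) (nat_lit 17556) (XT.nd (nat_lit 156) (nat_lit 0) (nat_lit 0) (XT.lf (nat_lit 0) (nat_lit 12999074808) (nat_lit 152) (nat_lit 44594400663) (nat_lit 76) (nat_lit 35359884239) (nat_lit 12) (nat_lit 5) (nat_lit 14) (nat_lit 5) (nat_lit 13) (nat_lit 4) (nat_lit 403) (nat_lit 277) (nat_lit 100)) (XT.lf (nat_lit 0) (nat_lit 30378196863) (nat_lit 152) (nat_lit 9336672212) (nat_lit 76) (nat_lit 58267727291) (nat_lit 12) (nat_lit 5) (nat_lit 14) (nat_lit 5) (nat_lit 13) (nat_lit 4) (nat_lit 405) (nat_lit 277) (nat_lit 98))) (XT.nd (nat_lit 78) (nat_lit 0) (nat_lit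 0) (XT.lf (nat_lit 0) (nat_lit 1159000127) (nat_lit 0) (nat_lit 1159000127) (nat_lit 836) (nat_lit 1606250568) (nat_lit 243) (nat_lit 5) (nat_lit 243) (nat_lit 3) (nat_lit 254) (nat_lit 3) (nat_lit 278) (nat_lit 278) (nat_lit 224)) (XT.lf (nat_lit 0) (nat_lit 5904240630) (nat_lit 836) (nat_lit 1964967731) (nat_lit 912) (nat_lit 59113533) (nat_lit 243) (nat_lit 5) (nat_lit 254) (nat_lit 3) (nat_lit 255) (nat_lit 5) (nat_lit 279) (nat_lit 278) (nat_lit 223))))) (XT.nd (nat_lit 234) (nat_lit 0) (nat_lit 76) (XT.nd (nat_lit 78) (nat_lit 912) (nat_lit 0) (XT.lf (nat_lit 76) (nat_lit 1692525589) (nat_lit 0) (nat_lit 5510687896) (nat_lit 912) (nat_lit 807618654) (nat_lit 244) (nat_lit 5) (nat_lit 243) (nat_lit 5) (nat_lit 255) (nat_lit 5) (nat_lit 280) (nat_lit 278) (nat_lit 222)) (XT.nd (nat_lit 78) (nat_lit 0) (nat_lit 0) (XT.lf (nat_lit 0) (nat_lit 410746548) (nat_lit 912) (nat_lit 2625499223) (nat_lit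 988) (nat_lit 5060292126) (nat_lit 231) (nat_lit 5) (nat_lit 243) (nat_lit 5) (nat_lit 244) (nat_lit 5) (nat_lit 281) (nat_lit 278) (nat_lit 221)) (XT.lf (nat_lit 76) (nat_lit 1167813371) (nat_lit 0) (nat_lit 448240873) (nat_lit 988) (nat_lit 6569591494) (nat_lit 232) (nat_lit 5) (nat_lit 231) (nat_lit 5) (nat_lit 244) (nat_lit 5) (nat_lit 282) (nat_lit 278) (nat_lit 220)))) (XT.nd (nat_lit 156) (nat_lit 0) (nat_lit 0) (XT.nd (nat_lit 78) (nat_lit 0) (nat_lit 0) (XT.lf (nat_lit 0) (nat_lit 2862249607) (nat_lit 912) (nat_lit 3195842304) (nat_lit 988) (nat_lit 2219260537) (nat_lit 232) (nat_lit 5) (nat_lit 244) (nat_lit 5) (nat_lit 245) (nat_lit 5) (nat_lit 283) (nat_lit 278) (nat_lit 219)) (XT.lf (nat_lit 76) (nat_lit 724904422) (nat_lit 0) (nat_lit 3390234115) (nat_lit 988) (nat_lit 4257658113) (nat_lit 233) (nat_lit 5) (nat_lit 232) (nat_lit 5) (nat_lit 245) (nat_lit 5) (nat_lit 284) (nat_lit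 278) (nat_lit 218))) (XT.nd (nat_lit 78) (nat_lit 0) (nat_lit 76) (XT.lf (nat_lit 76) (nat_lit 4803425762) (nat_lit 0) (nat_lit 593343968) (nat_lit 988) (nat_lit 3074663394) (nat_lit 233) (nat_lit 5) (nat_lit 232) (nat_lit 5) (nat_lit 245) (nat_lit 5) (nat_lit 285) (nat_lit 278) (nat_lit 217)) (XT.lf (nat_lit 76) (nat_lit 390886079) (nat_lit 0) (nat_lit 6311938075) (nat_lit 988) (nat_lit 1870687069) (nat_lit 234) (nat_lit 5) (nat_lit 233) (nat_lit 5) (nat_lit 246) (nat_lit 5) (nat_lit 286) (nat_lit 278) (nat_lit 216))))))) (XT.nd (nat_lit 1014) (nat_lit 3876) (nat_lit 0) (XT.nd (nat_lit 468) (nat_lit 3040) (nat_lit 0) (XT.nd (nat_lit 234) (nat_lit 0) (nat_lit 76) (XT.nd (nat_lit 78) (nat_lit 988) (nat_lit 0) (XT.lf (nat_lit 76) (nat_lit 4614973269) (nat_lit 0) (nat_lit 3437082844) (nat_lit 988) (nat_lit 626535638) (nat_lit 234) (nat_lit 5) (nat_lit 233) (nat_lit 5) (nat_lit 246) (nat_lit 5) (nat_lit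 287) (nat_lit 278) (nat_lit 215)) (XT.nd (nat_lit 78) (nat_lit 0) (nat_lit 76) (XT.lf (nat_lit 76) (nat_lit 149747474) (nat_lit 0) (nat_lit 455692438) (nat_lit 1064) (nat_lit 8182354035) (nat_lit 221) (nat_lit 5) (nat_lit 220) (nat_lit 5) (nat_lit 234) (nat_lit 5) (nat_lit 288) (nat_lit 278) (nat_lit 214)) (XT.lf (nat_lit 0) (nat_lit 1891179609) (nat_lit 988) (nat_lit 4384844783) (nat_lit 1064) (nat_lit 2623234664) (nat_lit 221) (nat_lit 5) (nat_lit 234) (nat_lit 5) (nat_lit 235) (nat_lit 5) (nat_lit 289) (nat_lit 278) (nat_lit 213)))) (XT.nd (nat_lit 78) (nat_lit 0) (nat_lit 0) (XT.lf (nat_lit 0) (nat_lit 3183904699) (nat_lit 988) (nat_lit 34646503) (nat_lit 1064) (nat_lit 5796517794) (nat_lit 221) (nat_lit 5) (nat_lit 234) (nat_lit 5) (nat_lit 235) (nat_lit 5) (nat_lit 290) (nat_lit 278) (nat_lit 212)) (XT.nd (nat_lit 78) (nat_lit 0) (nat_lit 76) (XT.lf (nat_lit 76) (nat_lit 4508711095) (nat_lit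 0) (nat_lit 14993749) (nat_lit 1064) (nat_lit 4610451316) (nat_lit 222) (nat_lit 5) (nat_lit 221) (nat_lit 5) (nat_lit 235) (nat_lit 5) (nat_lit 291) (nat_lit 278) (nat_lit 211)) (XT.lf (nat_lit 0) (nat_lit 5901447427) (nat_lit 988) (nat_lit 125549596) (nat_lit 1064) (nat_lit 3229936679) (nat_lit 222) (nat_lit 5) (nat_lit 235) (nat_lit 5) (nat_lit 236) (nat_lit 5) (nat_lit 292) (nat_lit 278) (nat_lit 210))))) (XT.nd (nat_lit 234) (nat_lit 2204) (nat_lit 0) (XT.nd (nat_lit 78) (nat_lit 988) (nat_lit 0) (XT.lf (nat_lit 76) (nat_lit 4572947334) (nat_lit 0) (nat_lit 2758497727) (nat_lit 1064) (nat_lit 2051670580) (nat_lit 223) (nat_lit 5) (nat_lit 222) (nat_lit 5) (nat_lit 236) (nat_lit 5) (nat_lit 293) (nat_lit 278) (nat_lit 209)) (XT.nd (nat_lit 78) (nat_lit 1064) (nat_lit 0) (XT.lf (nat_lit 0) (nat_lit 8779077798) (nat_lit 988) (nat_lit 130252158) (nat_lit 76) (nat_lit 604558361) (nat_lit 223)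 (nat_lit 5) (nat_lit 236) (nat_lit 5) (nat_lit 224) (nat_lit 5) (nat_lit 294) (nat_lit 278) (nat_lit 208)) (XT.lf (nat_lit 0) (nat_lit 651118436) (nat_lit 1064) (nat_lit 4924290679) (nat_lit 76) (nat_lit 4071789677) (nat_lit 209) (nat_lit 5) (nat_lit 223) (nat_lit 5) (nat_lit 210) (nat_lit 5) (nat_lit 295) (nat_lit 278) (nat_lit 207)))) (XT.nd (nat_lit 156) (nat_lit 1140) (nat_lit 0) (XT.nd (nat_lit 78) (nat_lit 1064) (nat_lit 0) (XT.lf (nat_lit 0) (nat_lit 2034062055) (nat_lit 1064) (nat_lit 93392166) (nat_lit 76) (nat_lit 7657773244) (nat_lit 209) (nat_lit 5) (nat_lit 223) (nat_lit 5) (nat_lit 210) (nat_lit 5) (nat_lit 296) (nat_lit 278) (nat_lit 206)) (XT.lf (nat_lit 0) (nat_lit 3490105097) (nat_lit 1140) (nat_lit 4987234328) (nat_lit 76) (nat_lit 1449151297) (nat_lit 195) (nat_lit 5) (nat_lit 210) (nat_lit 5) (nat_lit 196) (nat_lit 5) (nat_lit 297) (nat_lit 278) (nat_lit 205))) (XT.nd (nat_lit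 78) (nat_lit 0) (nat_lit 0) (XT.lf (nat_lit 0) (nat_lit 5941143) (nat_lit 1140) (nat_lit 4976430077) (nat_lit 1216) (nat_lit 5089885232) (nat_lit 180) (nat_lit 5) (nat_lit 195) (nat_lit 5) (nat_lit 196) (nat_lit 5) (nat_lit 298) (nat_lit 278) (nat_lit 204)) (XT.lf (nat_lit 0) (nat_lit 5225462750) (nat_lit 1140) (nat_lit 1315385495) (nat_lit 1216) (nat_lit 3680943263) (nat_lit 180) (nat_lit 5) (nat_lit 195) (nat_lit 5) (nat_lit 196) (nat_lit 5) (nat_lit 299) (nat_lit 278) (nat_lit 203)))))) (XT.nd (nat_lit 546) (nat_lit 1520) (nat_lit 0) (XT.nd (nat_lit 234) (nat_lit 1064) (nat_lit 0) (XT.nd (nat_lit 78) (nat_lit 684) (nat_lit 0) (XT.lf (nat_lit 0) (nat_lit 179817115) (nat_lit 608) (nat_lit 7963548768) (nat_lit 684) (nat_lit 2232566633) (nat_lit 172) (nat_lit 5) (nat_lit 180) (nat_lit 5) (nat_lit 181) (nat_lit 5) (nat_lit 300) (nat_lit 278) (nat_lit 202)) (XT.nd (nat_lit 78) (nat_lit 684) (nat_lit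 0) (XT.lf (nat_lit 0) (nat_lit 5574792304) (nat_lit 608) (nat_lit 4255040782) (nat_lit 684) (nat_lit 703825812) (nat_lit 172) (nat_lit 5) (nat_lit 180) (nat_lit 5) (nat_lit 181) (nat_lit 5) (nat_lit 301) (nat_lit 278) (nat_lit 201)) (XT.lf (nat_lit 0) (nat_lit 409705305) (nat_lit 608) (nat_lit 421043807) (nat_lit 684) (nat_lit 9865843151) (nat_lit 163) (nat_lit 5) (nat_lit 171) (nat_lit 5) (nat_lit 172) (nat_lit 5) (nat_lit 302) (nat_lit 278) (nat_lit 200)))) (XT.nd (nat_lit 156) (nat_lit 532) (nat_lit 0) (XT.nd (nat_lit 78) (nat_lit 532) (nat_lit 0) (XT.lf (nat_lit 0) (nat_lit 2455280124) (nat_lit 684) (nat_lit 4889311308) (nat_lit 76) (nat_lit 3517905383) (nat_lit 163) (nat_lit 5) (nat_lit 172) (nat_lit 5) (nat_lit 164) (nat_lit 5) (nat_lit 303) (nat_lit 278) (nat_lit 199)) (XT.lf (nat_lit 0) (nat_lit 653524218) (nat_lit 532) (nat_lit 3459824532) (nat_lit 608) (nat_lit 6920518904) (nat_lit 156)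 (nat_lit 5) (nat_lit 163) (nat_lit 5) (nat_lit 164) (nat_lit 5) (nat_lit 304) (nat_lit 278) (nat_lit 198))) (XT.nd (nat_lit 78) (nat_lit 532) (nat_lit 0) (XT.lf (nat_lit 0) (nat_lit 5851084722) (nat_lit 608) (nat_lit 4777513001) (nat_lit 76) (nat_lit 580916368) (nat_lit 156) (nat_lit 5) (nat_lit 164) (nat_lit 5) (nat_lit 157) (nat_lit 5) (nat_lit 305) (nat_lit 278) (nat_lit 197)) (XT.lf (nat_lit 0) (nat_lit 952696884) (nat_lit 532) (nat_lit 6707260651) (nat_lit 608) (nat_lit 3729933537) (nat_lit 149) (nat_lit 5) (nat_lit 156) (nat_lit 5) (nat_lit 157) (nat_lit 5) (nat_lit 306) (nat_lit 278) (nat_lit 196))))) (XT.nd (nat_lit 234) (nat_lit 988) (nat_lit 0) (XT.nd (nat_lit 78) (nat_lit 532) (nat_lit 0) (XT.lf (nat_lit 0) (nat_lit 6927952571) (nat_lit 532) (nat_lit 2619451238) (nat_lit 608) (nat_lit 2027576716) (nat_lit 149) (nat_lit 5) (nat_lit 156) (nat_lit 5) (nat_lit 157) (nat_lit 5) (nat_lit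 307) (nat_lit 278) (nat_lit 195)) (XT.nd (nat_lit 78) (nat_lit 76) (nat_lit 0) (XT.lf (nat_lit 0) (nat_lit 1302168362) (nat_lit 456) (nat_lit 10193868864) (nat_lit 532) (nat_lit 269478022) (nat_lit 143) (nat_lit 5) (nat_lit 149) (nat_lit 5) (nat_lit 150) (nat_lit 5) (nat_lit 308) (nat_lit 278) (nat_lit 194)) (XT.lf (nat_lit 0) (nat_lit 1561551888) (nat_lit 532) (nat_lit 4501509446) (nat_lit 76) (nat_lit 5896780011) (nat_lit 142) (nat_lit 5) (nat_lit 149) (nat_lit 5) (nat_lit 143) (nat_lit 5) (nat_lit 309) (nat_lit 278) (nat_lit 193)))) (XT.nd (nat_lit 156) (nat_lit 456) (nat_lit 0) (XT.nd (nat_lit 78) (nat_lit 0) (nat_lit 0) (XT.lf (nat_lit 0) (nat_lit 1644295323) (nat_lit 532) (nat_lit 1791218917) (nat_lit 608) (nat_lit 8724627404) (nat_lit 135) (nat_lit 5) (nat_lit 142) (nat_lit 5) (nat_lit 143) (nat_lit 5) (nat_lit 310) (nat_lit 278) (nat_lit 192)) (XT.lf (nat_lit 0) (nat_lit 5414691481) (nat_lit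 608) (nat_lit 4348596303) (nat_lit 76) (nat_lit 2601719494) (nat_lit 135) (nat_lit 5) (nat_lit 143) (nat_lit 5) (nat_lit 136) (nat_lit 5) (nat_lit 311) (nat_lit 278) (nat_lit 191))) (XT.nd (nat_lit 78) (nat_lit 0) (nat_lit 0) (XT.lf (nat_lit 0) (nat_lit 2000970307) (nat_lit 456) (nat_lit 5467895897) (nat_lit 532) (nat_lit 5106709457) (nat_lit 129) (nat_lit 5) (nat_lit 135) (nat_lit 5) (nat_lit 136) (nat_lit 5) (nat_lit 312) (nat_lit 278) (nat_lit 190)) (XT.lf (nat_lit 0) (nat_lit 8606389088) (nat_lit 456) (nat_lit 1001235359) (nat_lit 532) (nat_lit 3184172604) (nat_lit 129) (nat_lit 5) (nat_lit 135) (nat_lit 5) (nat_lit 136) (nat_lit 5) (nat_lit 313) (nat_lit 278) (nat_lit 189))))))))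
noncomputable def xc152 : XT := (XT.nd (nat_lit 2028) (nat_lit 2432) (nat_lit 0) (XT.nd (nat_lit 1014) (nat_lit 1976) (nat_lit 0) (XT.nd (nat_lit 468) (nat_lit 1520) (nat_lit 0) (XT.nd (nat_lit 234) (nat_lit 380) (nat_lit 0) (XT.nd (nat_lit 78) (nat_lit 456) (nat_lit 0) (XT.lf (nat_lit 0) (nat_lit 2383687591) (nat_lit 456) (nat_lit 9464001132) (nat_lit 532) (nat_lit 1165726044) (nat_lit 123) (nat_lit 5) (nat_lit 129) (nat_lit 5) (nat_lit 130) (nat_lit 5) (nat_lit 314) (nat_lit 278) (nat_lit 188)) (XT.nd (nat_lit 78) (nat_lit 380) (nat_lit 0) (XT.lf (nat_lit 0) (nat_lit 927825610) (nat_lit 532) (nat_lit 4047755963) (nat_lit 76) (nat_lit 8264887491) (nat_lit 122) (nat_lit 5) (nat_lit 129) (nat_lit 5) (nat_lit 123) (nat_lit 5) (nat_lit 315) (nat_lit 278) (nat_lit 187)) (XT.lf (nat_lit 0) (nat_lit 2750617657) (nat_lit 380) (nat_lit 316942727) (nat_lit 456) (nat_lit 10406246105) (nat_lit 117) (nat_lit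 5) (nat_lit 122) (nat_lit 5) (nat_lit 123) (nat_lit 5) (nat_lit 316) (nat_lit 278) (nat_lit 186)))) (XT.nd (nat_lit 78) (nat_lit 380) (nat_lit 0) (XT.lf (nat_lit 0) (nat_lit 5336526455) (nat_lit 456) (nat_lit 3944009907) (nat_lit 76) (nat_lit 4431677807) (nat_lit 117) (nat_lit 5) (nat_lit 123) (nat_lit 5) (nat_lit 118) (nat_lit 5) (nat_lit 317) (nat_lit 278) (nat_lit 185)) (XT.nd (nat_lit 78) (nat_lit 0) (nat_lit 0) (XT.lf (nat_lit 0) (nat_lit 3072521097) (nat_lit 380) (nat_lit 4614957746) (nat_lit 456) (nat_lit 6269898404) (nat_lit 112) (nat_lit 5) (nat_lit 117) (nat_lit 5) (nat_lit 118) (nat_lit 5) (nat_lit 318) (nat_lit 278) (nat_lit 184)) (XT.lf (nat_lit 0) (nat_lit 10132545872) (nat_lit 456) (nat_lit 3853680292) (nat_lit 76) (nat_lit 222981558) (nat_lit 112) (nat_lit 5) (nat_lit 118) (nat_lit 5) (nat_lit 113) (nat_lit 5) (nat_lit 319) (nat_lit 278) (nat_lit 183))))) (XT.nd (nat_lit 234) (nat_lit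 684) (nat_lit 0) (XT.nd (nat_lit 78) (nat_lit 456) (nat_lit 0) (XT.lf (nat_lit 0) (nat_lit 3386342324) (nat_lit 380) (nat_lit 9324937634) (nat_lit 456) (nat_lit 1755523203) (nat_lit 107) (nat_lit 5) (nat_lit 112) (nat_lit 5) (nat_lit 113) (nat_lit 5) (nat_lit 320) (nat_lit 278) (nat_lit 182)) (XT.nd (nat_lit 78) (nat_lit 380) (nat_lit 0) (XT.lf (nat_lit 0) (nat_lit 644339556) (nat_lit 456) (nat_lit 3837516606) (nat_lit 76) (nat_lit 10249460913) (nat_lit 106) (nat_lit 5) (nat_lit 112) (nat_lit 5) (nat_lit 107) (nat_lit 5) (nat_lit 321) (nat_lit 278) (nat_lit 181)) (XT.lf (nat_lit 0) (nat_lit 3104093814) (nat_lit 456) (nat_lit 11353390246) (nat_lit 76) (nat_lit 545083351) (nat_lit 101) (nat_lit 5) (nat_lit 107) (nat_lit 5) (nat_lit 102) (nat_lit 5) (nat_lit 322) (nat_lit 278) (nat_lit 180)))) (XT.nd (nat_lit 156) (nat_lit 380) (nat_lit 0) (XT.nd (nat_lit 78) (nat_lit 304) (nat_lit 0) (XT.lf (nat_lit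 0) (nat_lit 5704104428) (nat_lit 456) (nat_lit 3908649489) (nat_lit 76) (nat_lit 5667224756) (nat_lit 101) (nat_lit 5) (nat_lit 107) (nat_lit 5) (nat_lit 102) (nat_lit 5) (nat_lit 323) (nat_lit 278) (nat_lit 179)) (XT.lf (nat_lit 0) (nat_lit 3812236221) (nat_lit 304) (nat_lit 4589975021) (nat_lit 380) (nat_lit 7162914976) (nat_lit 97) (nat_lit 5) (nat_lit 101) (nat_lit 5) (nat_lit 102) (nat_lit 5) (nat_lit 324) (nat_lit 278) (nat_lit 178))) (XT.nd (nat_lit 78) (nat_lit 380) (nat_lit 0) (XT.lf (nat_lit 0) (nat_lit 11210408414) (nat_lit 380) (nat_lit 4040603294) (nat_lit 76) (nat_lit 606958398) (nat_lit 97) (nat_lit 5) (nat_lit 102) (nat_lit 5) (nat_lit 98) (nat_lit 5) (nat_lit 325) (nat_lit 278) (nat_lit 177)) (XT.lf (nat_lit 0) (nat_lit 3912763127) (nat_lit 380) (nat_lit 10257298777) (nat_lit 456) (nat_lit 1987536952) (nat_lit 92) (nat_lit 5) (nat_lit 97) (nat_lit 5) (nat_lit 98) (nat_lit 5) (nat_lit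 326) (nat_lit 278) (nat_lit 176)))))) (XT.nd (nat_lit 468) (nat_lit 988) (nat_lit 0) (XT.nd (nat_lit 234) (nat_lit 608) (nat_lit 0) (XT.nd (nat_lit 78) (nat_lit 304) (nat_lit 0) (XT.lf (nat_lit 0) (nat_lit 763058446) (nat_lit 456) (nat_lit 4306385308) (nat_lit 76) (nat_lit 11395807222) (nat_lit 91) (nat_lit 5) (nat_lit 97) (nat_lit 5) (nat_lit 92) (nat_lit 5) (nat_lit 327) (nat_lit 278) (nat_lit 175)) (XT.nd (nat_lit 78) (nat_lit 0) (nat_lit 0) (XT.lf (nat_lit 0) (nat_lit 3581623234) (nat_lit 380) (nat_lit 12877972416) (nat_lit 76) (nat_lit 321199192) (nat_lit 87) (nat_lit 5) (nat_lit 92) (nat_lit 5) (nat_lit 88) (nat_lit 5) (nat_lit 328) (nat_lit 278) (nat_lit 174)) (XT.lf (nat_lit 0) (nat_lit 6563752866) (nat_lit 380) (nat_lit 4729446316) (nat_lit 76) (nat_lit 5810249693) (nat_lit 87) (nat_lit 5) (nat_lit 92) (nat_lit 5) (nat_lit 88) (nat_lit 5) (nat_lit 329) (nat_lit 278) (nat_lit 173)))) (XT.nd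 (nat_lit 78) (nat_lit 304) (nat_lit 0) (XT.lf (nat_lit 0) (nat_lit 3715746192) (nat_lit 304) (nat_lit 5940656847) (nat_lit 380) (nat_lit 7778761468) (nat_lit 83) (nat_lit 5) (nat_lit 87) (nat_lit 5) (nat_lit 88) (nat_lit 5) (nat_lit 330) (nat_lit 278) (nat_lit 172)) (XT.nd (nat_lit 78) (nat_lit 304) (nat_lit 0) (XT.lf (nat_lit 0) (nat_lit 12491145512) (nat_lit 304) (nat_lit 384017804) (nat_lit 380) (nat_lit 4900681654) (nat_lit 83) (nat_lit 5) (nat_lit 87) (nat_lit 5) (nat_lit 88) (nat_lit 5) (nat_lit 331) (nat_lit 278) (nat_lit 171)) (XT.lf (nat_lit 0) (nat_lit 3398153574) (nat_lit 304) (nat_lit 12862262533) (nat_lit 380) (nat_lit 1864244740) (nat_lit 79) (nat_lit 5) (nat_lit 83) (nat_lit 5) (nat_lit 84) (nat_lit 5) (nat_lit 332) (nat_lit 278) (nat_lit 170))))) (XT.nd (nat_lit 234) (nat_lit 608) (nat_lit 0) (XT.nd (nat_lit 78) (nat_lit 304) (nat_lit 0) (XT.lf (nat_lit 0) (nat_lit 1282340295)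 (nat_lit 380) (nat_lit 6068979218) (nat_lit 76) (nat_lit 11130958348) (nat_lit 78) (nat_lit 5) (nat_lit 83) (nat_lit 5) (nat_lit 79) (nat_lit 5) (nat_lit 333) (nat_lit 278) (nat_lit 169)) (XT.nd (nat_lit 78) (nat_lit 0) (nat_lit 0) (XT.lf (nat_lit 0) (nat_lit 2866343344) (nat_lit 304) (nat_lit 1633481201) (nat_lit 380) (nat_lit 14349837770) (nat_lit 74) (nat_lit 5) (nat_lit 78) (nat_lit 5) (nat_lit 79) (nat_lit 5) (nat_lit 334) (nat_lit 278) (nat_lit 168)) (XT.lf (nat_lit 0) (nat_lit 7903207915) (nat_lit 380) (nat_lit 7093185362) (nat_lit 76) (nat_lit 4229005241) (nat_lit 74) (nat_lit 5) (nat_lit 79) (nat_lit 5) (nat_lit 75) (nat_lit 5) (nat_lit 335) (nat_lit 278) (nat_lit 167)))) (XT.nd (nat_lit 156) (nat_lit 380) (nat_lit 0) (XT.nd (nat_lit 78) (nat_lit 0) (nat_lit 0) (XT.lf (nat_lit 0) (nat_lit 2068847615) (nat_lit 228) (nat_lit 9362869145) (nat_lit 304) (nat_lit 8180010450) (nat_lit 71) (nat_lit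 5) (nat_lit 74) (nat_lit 5) (nat_lit 75) (nat_lit 5) (nat_lit 336) (nat_lit 278) (nat_lit 166)) (XT.lf (nat_lit 0) (nat_lit 11632329000) (nat_lit 228) (nat_lit 3492541825) (nat_lit 304) (nat_lit 4883022037) (nat_lit 71) (nat_lit 5) (nat_lit 74) (nat_lit 5) (nat_lit 75) (nat_lit 5) (nat_lit 337) (nat_lit 278) (nat_lit 165))) (XT.nd (nat_lit 78) (nat_lit 76) (nat_lit 0) (XT.lf (nat_lit 0) (nat_lit 1043997405) (nat_lit 304) (nat_lit 17906888046) (nat_lit 380) (nat_lit 1464406537) (nat_lit 67) (nat_lit 5) (nat_lit 71) (nat_lit 5) (nat_lit 72) (nat_lit 5) (nat_lit 338) (nat_lit 278) (nat_lit 164)) (XT.lf (nat_lit 0) (nat_lit 2124162626) (nat_lit 380) (nat_lit 9988399442) (nat_lit 76) (nat_lit 8718541870) (nat_lit 66) (nat_lit 5) (nat_lit 71) (nat_lit 5) (nat_lit 67) (nat_lit 5) (nat_lit 339) (nat_lit 278) (nat_lit 163))))))) (XT.nd (nat_lit 1014) (nat_lit 988) (nat_lit 0) (XT.nd (nat_lit 468) (nat_lit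 684) (nat_lit 0) (XT.nd (nat_lit 234) (nat_lit 532) (nat_lit 0) (XT.nd (nat_lit 78) (nat_lit 228) (nat_lit 0) (XT.lf (nat_lit 0) (nat_lit 5778855111) (nat_lit 380) (nat_lit 356644769) (nat_lit 76) (nat_lit 15123828005) (nat_lit 66) (nat_lit 5) (nat_lit 71) (nat_lit 5) (nat_lit 67) (nat_lit 5) (nat_lit 340) (nat_lit 278) (nat_lit 162)) (XT.nd (nat_lit 78) (nat_lit 0) (nat_lit 0) (XT.lf (nat_lit 0) (nat_lit 9626104015) (nat_lit 304) (nat_lit 11962567968) (nat_lit 76) (nat_lit 109248411) (nat_lit 63) (nat_lit 5) (nat_lit 67) (nat_lit 5) (nat_lit 64) (nat_lit 5) (nat_lit 341) (nat_lit 278) (nat_lit 161)) (XT.lf (nat_lit 0) (nat_lit 13641525176) (nat_lit 304) (nat_lit 2090653076) (nat_lit 76) (nat_lit 6415918827) (nat_lit 63) (nat_lit 5) (nat_lit 67) (nat_lit 5) (nat_lit 64) (nat_lit 5) (nat_lit 342) (nat_lit 278) (nat_lit 160)))) (XT.nd (nat_lit 78) (nat_lit 304) (nat_lit 0) (XT.lf (nat_lit 0) (nat_lit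 8220621880) (nat_lit 228) (nat_lit 9624517664) (nat_lit 304) (nat_lit 4764616382) (nat_lit 60) (nat_lit 5) (nat_lit 63) (nat_lit 5) (nat_lit 64) (nat_lit 5) (nat_lit 343) (nat_lit 278) (nat_lit 159)) (XT.nd (nat_lit 78) (nat_lit 304) (nat_lit 0) (XT.lf (nat_lit 0) (nat_lit 18867048838) (nat_lit 228) (nat_lit 3317798973) (nat_lit 304) (nat_lit 900125688) (nat_lit 60) (nat_lit 5) (nat_lit 63) (nat_lit 5) (nat_lit 64) (nat_lit 5) (nat_lit 344) (nat_lit 278) (nat_lit 158)) (XT.lf (nat_lit 0) (nat_lit 3101567228) (nat_lit 304) (nat_lit 17267786161) (nat_lit 76) (nat_lit 3201772694) (nat_lit 56) (nat_lit 5) (nat_lit 60) (nat_lit 5) (nat_lit 57) (nat_lit 5) (nat_lit 345) (nat_lit 278) (nat_lit 157))))) (XT.nd (nat_lit 234) (nat_lit 456) (nat_lit 0) (XT.nd (nat_lit 78) (nat_lit 228) (nat_lit 0) (XT.lf (nat_lit 0) (nat_lit 7270268353) (nat_lit 304) (nat_lit 6902944459) (nat_lit 76) (nat_lit 9896439397)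 (nat_lit 56) (nat_lit 5) (nat_lit 60) (nat_lit 5) (nat_lit 57) (nat_lit 5) (nat_lit 346) (nat_lit 278) (nat_lit 156)) (XT.nd (nat_lit 78) (nat_lit 0) (nat_lit 0) (XT.lf (nat_lit 0) (nat_lit 3831213539) (nat_lit 228) (nat_lit 7759145019) (nat_lit 304) (nat_lit 12991993293) (nat_lit 53) (nat_lit 5) (nat_lit 56) (nat_lit 5) (nat_lit 57) (nat_lit 5) (nat_lit 347) (nat_lit 278) (nat_lit 155)) (XT.lf (nat_lit 0) (nat_lit 15012670827) (nat_lit 228) (nat_lit 1086736744) (nat_lit 304) (nat_lit 9009251580) (nat_lit 53) (nat_lit 5) (nat_lit 56) (nat_lit 5) (nat_lit 57) (nat_lit 5) (nat_lit 348) (nat_lit 278) (nat_lit 154)))) (XT.nd (nat_lit 156) (nat_lit 304) (nat_lit 0) (XT.nd (nat_lit 78) (nat_lit 0) (nat_lit 0) (XT.lf (nat_lit 0) (nat_lit 823253649) (nat_lit 152) (nat_lit 19973901585) (nat_lit 228) (nat_lit 4852004759) (nat_lit 51) (nat_lit 5) (nat_lit 53) (nat_lit 5) (nat_lit 54) (nat_lit 5) (nat_lit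 349) (nat_lit 278) (nat_lit 153)) (XT.lf (nat_lit 0) (nat_lit 12250203711) (nat_lit 152) (nat_lit 13488273962) (nat_lit 228) (nat_lit 464325847) (nat_lit 51) (nat_lit 5) (nat_lit 53) (nat_lit 5) (nat_lit 54) (nat_lit 5) (nat_lit 350) (nat_lit 278) (nat_lit 152))) (XT.nd (nat_lit 78) (nat_lit 228) (nat_lit 0) (XT.lf (nat_lit 0) (nat_lit 3966082267) (nat_lit 228) (nat_lit 2807665495) (nat_lit 76) (nat_lit 19998438969) (nat_lit 50) (nat_lit 5) (nat_lit 53) (nat_lit 5) (nat_lit 51) (nat_lit 5) (nat_lit 351) (nat_lit 278) (nat_lit 151)) (XT.lf (nat_lit 0) (nat_lit 8597601435) (nat_lit 304) (nat_lit 18534387278) (nat_lit 76) (nat_lit 224205210) (nat_lit 47) (nat_lit 5) (nat_lit 51) (nat_lit 5) (nat_lit 48) (nat_lit 5) (nat_lit 352) (nat_lit 278) (nat_lit 150)))))) (XT.nd (nat_lit 546) (nat_lit 380) (nat_lit 0) (XT.nd (nat_lit 234) (nat_lit 456) (nat_lit 0) (XT.nd (nat_lit 78) (nat_lit 152) (nat_lit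 0) (XT.lf (nat_lit 0) (nat_lit 13454354603) (nat_lit 304) (nat_lit 7181723541) (nat_lit 76) (nat_lit 7319060694) (nat_lit 47) (nat_lit 5) (nat_lit 51) (nat_lit 5) (nat_lit 48) (nat_lit 5) (nat_lit 353) (nat_lit 278) (nat_lit 149)) (XT.nd (nat_lit 78) (nat_lit 0) (nat_lit 0) (XT.lf (nat_lit 0) (nat_lit 4586234859) (nat_lit 152) (nat_lit 13905524295) (nat_lit 228) (nat_lit 10079250458) (nat_lit 45) (nat_lit 5) (nat_lit 47) (nat_lit 5) (nat_lit 48) (nat_lit 5) (nat_lit 354) (nat_lit 278) (nat_lit 148)) (XT.lf (nat_lit 0) (nat_lit 16839815987) (nat_lit 152) (nat_lit 6903979723) (nat_lit 228) (nat_lit 5459661307) (nat_lit 45) (nat_lit 5) (nat_lit 47) (nat_lit 5) (nat_lit 48) (nat_lit 5) (nat_lit 355) (nat_lit 278) (nat_lit 147)))) (XT.nd (nat_lit 156) (nat_lit 152) (nat_lit 0) (XT.nd (nat_lit 78) (nat_lit 304) (nat_lit 0) (XT.lf (nat_lit 0) (nat_lit 29147548849) (nat_lit 228) (nat_lit 411253947) (nat_lit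 76) (nat_lit 296256021) (nat_lit 45) (nat_lit 5) (nat_lit 48) (nat_lit 5) (nat_lit 46) (nat_lit 5) (nat_lit 356) (nat_lit 278) (nat_lit 146)) (XT.lf (nat_lit 0) (nat_lit 4282899806) (nat_lit 304) (nat_lit 18510400076) (nat_lit 76) (nat_lit 7726384559) (nat_lit 41) (nat_lit 5) (nat_lit 45) (nat_lit 5) (nat_lit 42) (nat_lit 5) (nat_lit 357) (nat_lit 278) (nat_lit 145))) (XT.nd (nat_lit 78) (nat_lit 152) (nat_lit 0) (XT.lf (nat_lit 0) (nat_lit 9404477417) (nat_lit 304) (nat_lit 6414342275) (nat_lit 76) (nat_lit 15385353873) (nat_lit 41) (nat_lit 5) (nat_lit 45) (nat_lit 5) (nat_lit 42) (nat_lit 5) (nat_lit 358) (nat_lit 278) (nat_lit 144)) (XT.lf (nat_lit 0) (nat_lit 6150993264) (nat_lit 152) (nat_lit 8579566121) (nat_lit 228) (nat_lit 17177117273) (nat_lit 39) (nat_lit 5) (nat_lit 41) (nat_lit 5) (nat_lit 42) (nat_lit 5) (nat_lit 359) (nat_lit 278) (nat_lit 143))))) (XT.nd (nat_lit 234) (nat_lit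 228) (nat_lit 0) (XT.nd (nat_lit 78) (nat_lit 152) (nat_lit 0) (XT.lf (nat_lit 0) (nat_lit 19211278217) (nat_lit 152) (nat_lit 1061758917) (nat_lit 228) (nat_lit 12357554171) (nat_lit 39) (nat_lit 5) (nat_lit 41) (nat_lit 5) (nat_lit 42) (nat_lit 5) (nat_lit 360) (nat_lit 278) (nat_lit 142)) (XT.nd (nat_lit 78) (nat_lit 152) (nat_lit 0) (XT.lf (nat_lit 0) (nat_lit 26038045525) (nat_lit 228) (nat_lit 789346886) (nat_lit 76) (nat_lit 6546118012) (nat_lit 39) (nat_lit 5) (nat_lit 42) (nat_lit 5) (nat_lit 40) (nat_lit 5) (nat_lit 361) (nat_lit 278) (nat_lit 141)) (XT.lf (nat_lit 0) (nat_lit 12438821611) (nat_lit 152) (nat_lit 19659525601) (nat_lit 228) (nat_lit 2036704192) (nat_lit 37) (nat_lit 5) (nat_lit 39) (nat_lit 5) (nat_lit 40) (nat_lit 5) (nat_lit 362) (nat_lit 278) (nat_lit 140)))) (XT.nd (nat_lit 156) (nat_lit 0) (nat_lit 0) (XT.nd (nat_lit 78) (nat_lit 152) (nat_lit 0) (XT.lf (nat_lit 0)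 (nat_lit 3354596270) (nat_lit 228) (nat_lit 8885089097) (nat_lit 76) (nat_lit 22678761018) (nat_lit 36) (nat_lit 5) (nat_lit 39) (nat_lit 5) (nat_lit 37) (nat_lit 5) (nat_lit 363) (nat_lit 278) (nat_lit 139)) (XT.lf (nat_lit 0) (nat_lit 4362789354) (nat_lit 152) (nat_lit 4538356775) (nat_lit 228) (nat_lit 26822562934) (nat_lit 34) (nat_lit 5) (nat_lit 36) (nat_lit 5) (nat_lit 37) (nat_lit 5) (nat_lit 364) (nat_lit 278) (nat_lit 138))) (XT.nd (nat_lit 78) (nat_lit 0) (nat_lit 0) (XT.lf (nat_lit 0) (nat_lit 14729886515) (nat_lit 228) (nat_lit 18406330803) (nat_lit 76) (nat_lit 3413442554) (nat_lit 34) (nat_lit 5) (nat_lit 37) (nat_lit 5) (nat_lit 35) (nat_lit 5) (nat_lit 365) (nat_lit 278) (nat_lit 137)) (XT.lf (nat_lit 0) (nat_lit 20771198480) (nat_lit 228) (nat_lit 5120289874) (nat_lit 76) (nat_lit 11507773522) (nat_lit 34) (nat_lit 5) (nat_lit 37) (nat_lit 5) (nat_lit 35) (nat_lit 5) (nat_lit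 366) (nat_lit 278) (nat_lit 136))))))))
noncomputable def xc153 : XT := (XT.nd (nat_lit 2028) (nat_lit 456) (nat_lit 0) (XT.nd (nat_lit 1014) (nat_lit 380) (nat_lit 0) (XT.nd (nat_lit 468) (nat_lit 456) (nat_lit 0) (XT.nd (nat_lit 234) (nat_lit 152) (nat_lit 0) (XT.nd (nat_lit 78) (nat_lit 76) (nat_lit 0) (XT.lf (nat_lit 0) (nat_lit 8722647980) (nat_lit 152) (nat_lit 18347934829) (nat_lit 228) (nat_lit 11201467977) (nat_lit 32) (nat_lit 5) (nat_lit 34) (nat_lit 5) (nat_lit 35) (nat_lit 5) (nat_lit 367) (nat_lit 278) (nat_lit 135)) (XT.nd (nat_lit 78) (nat_lit 76) (nat_lit 0) (XT.lf (nat_lit 0) (nat_lit 23074056925) (nat_lit 152) (nat_lit 10529673295) (nat_lit 228) (nat_lit 5565953424) (nat_lit 32) (nat_lit 5) (nat_lit 34) (nat_lit 5) (nat_lit 35) (nat_lit 5) (nat_lit 368) (nat_lit 278) (nat_lit 134)) (XT.lf (nat_lit 0) (nat_lit 227178317) (nat_lit 228) (nat_lit 2252104775) (nat_lit 76) (nat_lit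 37615100845) (nat_lit 31) (nat_lit 5) (nat_lit 34) (nat_lit 5) (nat_lit 32) (nat_lit 5) (nat_lit 369) (nat_lit 278) (nat_lit 133)))) (XT.nd (nat_lit 78) (nat_lit 0) (nat_lit 0) (XT.lf (nat_lit 0) (nat_lit 6250236905) (nat_lit 228) (nat_lit 28921381022) (nat_lit 76) (nat_lit 5868517377) (nat_lit 29) (nat_lit 5) (nat_lit 32) (nat_lit 5) (nat_lit 30) (nat_lit 5) (nat_lit 370) (nat_lit 278) (nat_lit 132)) (XT.nd (nat_lit 78) (nat_lit 0) (nat_lit 0) (XT.lf (nat_lit 0) (nat_lit 12494948371) (nat_lit 228) (nat_lit 15082724962) (nat_lit 76) (nat_lit 14435360355) (nat_lit 29) (nat_lit 5) (nat_lit 32) (nat_lit 5) (nat_lit 30) (nat_lit 5) (nat_lit 371) (nat_lit 278) (nat_lit 131)) (XT.lf (nat_lit 0) (nat_lit 18920638804) (nat_lit 228) (nat_lit 839861197) (nat_lit 76) (nat_lit 23254813107) (nat_lit 29) (nat_lit 5) (nat_lit 32) (nat_lit 5) (nat_lit 30) (nat_lit 5) (nat_lit 372) (nat_lit 278) (nat_lit 130)))))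 (XT.nd (nat_lit 234) (nat_lit 304) (nat_lit 0) (XT.nd (nat_lit 78) (nat_lit 0) (nat_lit 0) (XT.lf (nat_lit 0) (nat_lit 14094693737) (nat_lit 152) (nat_lit 11573715967) (nat_lit 228) (nat_lit 18375375034) (nat_lit 27) (nat_lit 5) (nat_lit 29) (nat_lit 5) (nat_lit 30) (nat_lit 5) (nat_lit 373) (nat_lit 278) (nat_lit 129)) (XT.nd (nat_lit 78) (nat_lit 0) (nat_lit 0) (XT.lf (nat_lit 0) (nat_lit 29483972909) (nat_lit 152) (nat_lit 3137023416) (nat_lit 228) (nat_lit 12482045743) (nat_lit 27) (nat_lit 5) (nat_lit 29) (nat_lit 5) (nat_lit 30) (nat_lit 5) (nat_lit 374) (nat_lit 278) (nat_lit 128)) (XT.lf (nat_lit 0) (nat_lit 39829575083) (nat_lit 228) (nat_lit 922884578) (nat_lit 76) (nat_lit 5440197962) (nat_lit 27) (nat_lit 5) (nat_lit 30) (nat_lit 5) (nat_lit 28) (nat_lit 4) (nat_lit 375) (nat_lit 278) (nat_lit 127)))) (XT.nd (nat_lit 156) (nat_lit 152) (nat_lit 0) (XT.nd (nat_lit 78) (nat_lit 0) (nat_lit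 0) (XT.lf (nat_lit 0) (nat_lit 106477122) (nat_lit 152) (nat_lit 32855943504) (nat_lit 76) (nat_lit 14347585872) (nat_lit 25) (nat_lit 5) (nat_lit 27) (nat_lit 5) (nat_lit 26) (nat_lit 5) (nat_lit 376) (nat_lit 278) (nat_lit 126)) (XT.lf (nat_lit 0) (nat_lit 6645868619) (nat_lit 152) (nat_lit 18222530633) (nat_lit 76) (nat_lit 23590480153) (nat_lit 25) (nat_lit 5) (nat_lit 27) (nat_lit 5) (nat_lit 26) (nat_lit 5) (nat_lit 377) (nat_lit 278) (nat_lit 125))) (XT.nd (nat_lit 78) (nat_lit 152) (nat_lit 0) (XT.lf (nat_lit 0) (nat_lit 13375835168) (nat_lit 152) (nat_lit 3159900336) (nat_lit 76) (nat_lit 33106653809) (nat_lit 25) (nat_lit 5) (nat_lit 27) (nat_lit 5) (nat_lit 26) (nat_lit 5) (nat_lit 378) (nat_lit 278) (nat_lit 124)) (XT.lf (nat_lit 0) (nat_lit 12590800780) (nat_lit 152) (nat_lit 7832487022) (nat_lit 228) (nat_lit 30434651641) (nat_lit 23) (nat_lit 5) (nat_lit 25) (nat_lit 5) (nat_lit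 26) (nat_lit 5) (nat_lit 379) (nat_lit 278) (nat_lit 123)))))) (XT.nd (nat_lit 468) (nat_lit 76) (nat_lit 0) (XT.nd (nat_lit 234) (nat_lit 228) (nat_lit 0) (XT.nd (nat_lit 78) (nat_lit 76) (nat_lit 0) (XT.lf (nat_lit 0) (nat_lit 27719854839) (nat_lit 228) (nat_lit 23250928864) (nat_lit 76) (nat_lit 1138044111) (nat_lit 23) (nat_lit 5) (nat_lit 26) (nat_lit 5) (nat_lit 24) (nat_lit 4) (nat_lit 380) (nat_lit 278) (nat_lit 122)) (XT.nd (nat_lit 78) (nat_lit 76) (nat_lit 0) (XT.lf (nat_lit 0) (nat_lit 35307611929) (nat_lit 228) (nat_lit 7871036315) (nat_lit 76) (nat_lit 10216428192) (nat_lit 23) (nat_lit 5) (nat_lit 26) (nat_lit 5) (nat_lit 24) (nat_lit 4) (nat_lit 381) (nat_lit 278) (nat_lit 121)) (XT.lf (nat_lit 0) (nat_lit 8119713232) (nat_lit 76) (nat_lit 35076236914) (nat_lit 152) (nat_lit 11521776241) (nat_lit 22) (nat_lit 5) (nat_lit 23) (nat_lit 5) (nat_lit 24) (nat_lit 4) (nat_lit 382) (nat_lit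 278) (nat_lit 120)))) (XT.nd (nat_lit 78) (nat_lit 228) (nat_lit 0) (XT.lf (nat_lit 0) (nat_lit 24742637251) (nat_lit 76) (nat_lit 26652743175) (nat_lit 152) (nat_lit 4682444406) (nat_lit 22) (nat_lit 5) (nat_lit 23) (nat_lit 5) (nat_lit 24) (nat_lit 4) (nat_lit 383) (nat_lit 278) (nat_lit 119)) (XT.nd (nat_lit 78) (nat_lit 152) (nat_lit 0) (XT.lf (nat_lit 0) (nat_lit 2311031029) (nat_lit 152) (nat_lit 15645920817) (nat_lit 76) (nat_lit 39521243658) (nat_lit 21) (nat_lit 5) (nat_lit 23) (nat_lit 5) (nat_lit 22) (nat_lit 5) (nat_lit 384) (nat_lit 278) (nat_lit 118)) (XT.lf (nat_lit 0) (nat_lit 468318254) (nat_lit 152) (nat_lit 8951581823) (nat_lit 228) (nat_lit 49499297400) (nat_lit 19) (nat_lit 5) (nat_lit 21) (nat_lit 5) (nat_lit 22) (nat_lit 5) (nat_lit 385) (nat_lit 278) (nat_lit 117))))) (XT.nd (nat_lit 234) (nat_lit 76) (nat_lit 0) (XT.nd (nat_lit 78) (nat_lit 0) (nat_lit 0) (XT.lf (nat_lit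 0) (nat_lit 16899930571) (nat_lit 228) (nat_lit 43025166785) (nat_lit 76) (nat_lit 473597295) (nat_lit 19) (nat_lit 5) (nat_lit 22) (nat_lit 5) (nat_lit 20) (nat_lit 4) (nat_lit 386) (nat_lit 278) (nat_lit 116)) (XT.nd (nat_lit 78) (nat_lit 0) (nat_lit 0) (XT.lf (nat_lit 0) (nat_lit 24688354573) (nat_lit 228) (nat_lit 27233573970) (nat_lit 76) (nat_lit 9998130364) (nat_lit 19) (nat_lit 5) (nat_lit 22) (nat_lit 5) (nat_lit 20) (nat_lit 4) (nat_lit 387) (nat_lit 278) (nat_lit 115)) (XT.lf (nat_lit 0) (nat_lit 32705929424) (nat_lit 228) (nat_lit 10976254218) (nat_lit 76) (nat_lit 19805017393) (nat_lit 19) (nat_lit 5) (nat_lit 22) (nat_lit 5) (nat_lit 20) (nat_lit 4) (nat_lit 388) (nat_lit 278) (nat_lit 114)))) (XT.nd (nat_lit 156) (nat_lit 0) (nat_lit 0) (XT.nd (nat_lit 78) (nat_lit 0) (nat_lit 0) (XT.lf (nat_lit 0) (nat_lit 5875653049) (nat_lit 76) (nat_lit 35140488092) (nat_lit 152) (nat_lit 24083654829)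 (nat_lit 18) (nat_lit 5) (nat_lit 19) (nat_lit 5) (nat_lit 20) (nat_lit 4) (nat_lit 389) (nat_lit 278) (nat_lit 113)) (XT.lf (nat_lit 0) (nat_lit 23450409100) (nat_lit 76) (nat_lit 26231771187) (nat_lit 152) (nat_lit 17075394613) (nat_lit 18) (nat_lit 5) (nat_lit 19) (nat_lit 5) (nat_lit 20) (nat_lit 4) (nat_lit 390) (nat_lit 278) (nat_lit 112))) (XT.nd (nat_lit 78) (nat_lit 0) (nat_lit 0) (XT.lf (nat_lit 0) (nat_lit 41544921537) (nat_lit 76) (nat_lit 17059087258) (nat_lit 152) (nat_lit 9861205886) (nat_lit 18) (nat_lit 5) (nat_lit 19) (nat_lit 5) (nat_lit 20) (nat_lit 4) (nat_lit 391) (nat_lit 278) (nat_lit 111)) (XT.lf (nat_lit 0) (nat_lit 60175001098) (nat_lit 76) (nat_lit 7614421337) (nat_lit 152) (nat_lit 2434784988) (nat_lit 18) (nat_lit 5) (nat_lit 19) (nat_lit 5) (nat_lit 20) (nat_lit 4) (nat_lit 392) (nat_lit 278) (nat_lit 110))))))) (XT.nd (nat_lit 31902) (nat_lit 0) (nat_lit 15808)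 (XT.nd (nat_lit 468) (nat_lit 152) (nat_lit 0) (XT.nd (nat_lit 234) (nat_lit 76) (nat_lit 0) (XT.nd (nat_lit 78) (nat_lit 0) (nat_lit 0) (XT.lf (nat_lit 0) (nat_lit 5201455096) (nat_lit 228) (nat_lit 64638484526) (nat_lit 76) (nat_lit 2191864812) (nat_lit 15) (nat_lit 5) (nat_lit 18) (nat_lit 5) (nat_lit 16) (nat_lit 4) (nat_lit 393) (nat_lit 278) (nat_lit 109)) (XT.nd (nat_lit 78) (nat_lit 0) (nat_lit 0) (XT.lf (nat_lit 0) (nat_lit 13191744328) (nat_lit 228) (nat_lit 48433123464) (nat_lit 76) (nat_lit 12262822935) (nat_lit 15) (nat_lit 5) (nat_lit 18) (nat_lit 5) (nat_lit 16) (nat_lit 4) (nat_lit 394) (nat_lit 278) (nat_lit 108)) (XT.lf (nat_lit 0) (nat_lit 21417884371) (nat_lit 228) (nat_lit 31748550516) (nat_lit 76) (nat_lit 22632935947) (nat_lit 15) (nat_lit 5) (nat_lit 18) (nat_lit 5) (nat_lit 16) (nat_lit 4) (nat_lit 395) (nat_lit 278) (nat_lit 107)))) (XT.nd (nat_lit 78) (nat_lit 76) (nat_lit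 0) (XT.lf (nat_lit 0) (nat_lit 29887063113) (nat_lit 228) (nat_lit 14570186931) (nat_lit 76) (nat_lit 33311265113) (nat_lit 15) (nat_lit 5) (nat_lit 18) (nat_lit 5) (nat_lit 16) (nat_lit 4) (nat_lit 396) (nat_lit 278) (nat_lit 106)) (XT.nd (nat_lit 78) (nat_lit 0) (nat_lit 0) (XT.lf (nat_lit 0) (nat_lit 3179011476) (nat_lit 76) (nat_lit 35458227934) (nat_lit 152) (nat_lit 41158688137) (nat_lit 14) (nat_lit 5) (nat_lit 15) (nat_lit 5) (nat_lit 16) (nat_lit 4) (nat_lit 397) (nat_lit 278) (nat_lit 105)) (XT.lf (nat_lit 0) (nat_lit 21752874551) (nat_lit 76) (nat_lit 26040583924) (nat_lit 152) (nat_lit 34086399073) (nat_lit 14) (nat_lit 5) (nat_lit 15) (nat_lit 5) (nat_lit 16) (nat_lit 4) (nat_lit 398) (nat_lit 278) (nat_lit 104))))) (XT.nd (nat_lit 234) (nat_lit 152) (nat_lit 0) (XT.nd (nat_lit 78) (nat_lit 0) (nat_lit 0) (XT.lf (nat_lit 0) (nat_lit 40877656593) (nat_lit 76) (nat_lit 16343219325)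 (nat_lit 152) (nat_lit 26805535502) (nat_lit 14) (nat_lit 5) (nat_lit 15) (nat_lit 5) (nat_lit 16) (nat_lit 4) (nat_lit 399) (nat_lit 278) (nat_lit 103)) (XT.nd (nat_lit 78) (nat_lit 0) (nat_lit 0) (XT.lf (nat_lit 0) (nat_lit 60570068577) (nat_lit 76) (nat_lit 6357660711) (nat_lit 152) (nat_lit 19309735503) (nat_lit 14) (nat_lit 5) (nat_lit 15) (nat_lit 5) (nat_lit 16) (nat_lit 4) (nat_lit 400) (nat_lit 278) (nat_lit 102)) (XT.lf (nat_lit 0) (nat_lit 76960228044) (nat_lit 152) (nat_lit 7705359930) (nat_lit 0) (nat_lit 3848229844) (nat_lit 14) (nat_lit 5) (nat_lit 16) (nat_lit 4) (nat_lit 14) (nat_lit 4) (nat_lit 401) (nat_lit 278) (nat_lit 101)))) (XT.nd (nat_lit 31044) (nat_lit 0) (nat_lit 16568) (XT.nd (nat_lit 234) (nat_lit 76) (nat_lit 0) (XT.lf (nat_lit 0) (nat_lit 10940238926) (nat_lit 76) (nat_lit 76518357341) (nat_lit 76) (nat_lit 3394919544) (nat_lit 13) (nat_lit 4) (nat_lit 14) (nat_lit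 5) (nat_lit 14) (nat_lit 4) (nat_lit 402) (nat_lit 278) (nat_lit 100)) (XT.lf (nat_lit 0) (nat_lit 22362239783) (nat_lit 152) (nat_lit 27760449207) (nat_lit 76) (nat_lit 48166340051) (nat_lit 12) (nat_lit 5) (nat_lit 14) (nat_lit 5) (nat_lit 13) (nat_lit 4) (nat_lit 405) (nat_lit 278) (nat_lit 97))) (XT.nd (nat_lit 78) (nat_lit 988) (nat_lit 0) (XT.lf (nat_lit 0) (nat_lit 1787071881) (nat_lit 0) (nat_lit 1787071881) (nat_lit 836) (nat_lit 430308915) (nat_lit 243) (nat_lit 5) (nat_lit 243) (nat_lit 3) (nat_lit 254) (nat_lit 3) (nat_lit 279) (nat_lit 279) (nat_lit 222)) (XT.lf (nat_lit 0) (nat_lit 285842477) (nat_lit 988) (nat_lit 801214596) (nat_lit 988) (nat_lit 7006182932) (nat_lit 230) (nat_lit 3) (nat_lit 243) (nat_lit 3) (nat_lit 243) (nat_lit 5) (nat_lit 280) (nat_lit 279) (nat_lit 221)))))) (XT.nd (nat_lit 546) (nat_lit 0) (nat_lit 0) (XT.nd (nat_lit 234) (nat_lit 836) (nat_lit 0) (XT.nd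 (nat_lit 78) (nat_lit 0) (nat_lit 0) (XT.lf (nat_lit 0) (nat_lit 1448094495) (nat_lit 912) (nat_lit 5227414996) (nat_lit 988) (nat_lit 1504448225) (nat_lit 231) (nat_lit 5) (nat_lit 243) (nat_lit 5) (nat_lit 244) (nat_lit 5) (nat_lit 281) (nat_lit 279) (nat_lit 220)) (XT.nd (nat_lit 78) (nat_lit 0) (nat_lit 0) (XT.lf (nat_lit 0) (nat_lit 2620845036) (nat_lit 912) (nat_lit 1468881164) (nat_lit 988) (nat_lit 4180349317) (nat_lit 231) (nat_lit 5) (nat_lit 243) (nat_lit 5) (nat_lit 244) (nat_lit 5) (nat_lit 282) (nat_lit 279) (nat_lit 219)) (XT.lf (nat_lit 76) (nat_lit 2426119209) (nat_lit 0) (nat_lit 1383938691) (nat_lit 988) (nat_lit 4553466078) (nat_lit 232) (nat_lit 5) (nat_lit 231) (nat_lit 5) (nat_lit 244) (nat_lit 5) (nat_lit 283) (nat_lit 279) (nat_lit 218)))) (XT.nd (nat_lit 156) (nat_lit 912) (nat_lit 0) (XT.nd (nat_lit 78) (nat_lit 0) (nat_lit 0) (XT.lf (nat_lit 0) (nat_lit 5022541165)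 (nat_lit 912) (nat_lit 2029748830) (nat_lit 988) (nat_lit 1407921692) (nat_lit 232) (nat_lit 5) (nat_lit 244) (nat_lit 5) (nat_lit 245) (nat_lit 5) (nat_lit 284) (nat_lit 279) (nat_lit 217)) (XT.lf (nat_lit 76) (nat_lit 1996248055) (nat_lit 0) (nat_lit 4268360475) (nat_lit 988) (nat_lit 2295456969) (nat_lit 233) (nat_lit 5) (nat_lit 232) (nat_lit 5) (nat_lit 245) (nat_lit 5) (nat_lit 285) (nat_lit 279) (nat_lit 216))) (XT.nd (nat_lit 78) (nat_lit 912) (nat_lit 0) (XT.lf (nat_lit 76) (nat_lit 6160729021) (nat_lit 0) (nat_lit 1364949468) (nat_lit 988) (nat_lit 1137844182) (nat_lit 233) (nat_lit 5) (nat_lit 232) (nat_lit 5) (nat_lit 245) (nat_lit 5) (nat_lit 286) (nat_lit 279) (nat_lit 215)) (XT.lf (nat_lit 0) (nat_lit 47534094) (nat_lit 988) (nat_lit 7098242244) (nat_lit 1064) (nat_lit 1624525007) (nat_lit 220) (nat_lit 5) (nat_lit 233) (nat_lit 5) (nat_lit 234) (nat_lit 5) (nat_lit 287) (nat_lit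 279) (nat_lit 214))))) (XT.nd (nat_lit 234) (nat_lit 0) (nat_lit 76) (XT.nd (nat_lit 78) (nat_lit 0) (nat_lit 0) (XT.lf (nat_lit 0) (nat_lit 1247593871) (nat_lit 988) (nat_lit 2906178081) (nat_lit 1064) (nat_lit 4726168635) (nat_lit 220) (nat_lit 5) (nat_lit 233) (nat_lit 5) (nat_lit 234) (nat_lit 5) (nat_lit 288) (nat_lit 279) (nat_lit 213)) (XT.nd (nat_lit 78) (nat_lit 0) (nat_lit 76) (XT.lf (nat_lit 76) (nat_lit 1414903710) (nat_lit 0) (nat_lit 1046383529) (nat_lit 1064) (nat_lit 6532306091) (nat_lit 221) (nat_lit 5) (nat_lit 220) (nat_lit 5) (nat_lit 234) (nat_lit 5) (nat_lit 289) (nat_lit 279) (nat_lit 212)) (XT.lf (nat_lit 0) (nat_lit 3726689227) (nat_lit 988) (nat_lit 3230909621) (nat_lit 1064) (nat_lit 2152649595) (nat_lit 221) (nat_lit 5) (nat_lit 234) (nat_lit 5) (nat_lit 235) (nat_lit 5) (nat_lit 290) (nat_lit 279) (nat_lit 211)))) (XT.nd (nat_lit 156) (nat_lit 0) (nat_lit 76) (XT.nd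 (nat_lit 78) (nat_lit 0) (nat_lit 0) (XT.lf (nat_lit 76) (nat_lit 1236481636) (nat_lit 0) (nat_lit 3781791293) (nat_lit 1064) (nat_lit 4212533908) (nat_lit 222) (nat_lit 5) (nat_lit 221) (nat_lit 5) (nat_lit 235) (nat_lit 5) (nat_lit 291) (nat_lit 279) (nat_lit 210)) (XT.lf (nat_lit 76) (nat_lit 5879776074) (nat_lit 0) (nat_lit 468184529) (nat_lit 1064) (nat_lit 3007089441) (nat_lit 222) (nat_lit 5) (nat_lit 221) (nat_lit 5) (nat_lit 235) (nat_lit 5) (nat_lit 292) (nat_lit 279) (nat_lit 209))) (XT.nd (nat_lit 78) (nat_lit 0) (nat_lit 0) (XT.lf (nat_lit 76) (nat_lit 1148717462) (nat_lit 0) (nat_lit 6575953999) (nat_lit 1064) (nat_lit 1758182443) (nat_lit 223) (nat_lit 5) (nat_lit 222) (nat_lit 5) (nat_lit 236) (nat_lit 5) (nat_lit 293) (nat_lit 279) (nat_lit 208)) (XT.lf (nat_lit 76) (nat_lit 5953443706) (nat_lit 0) (nat_lit 3197409189) (nat_lit 1064) (nat_lit 463439862) (nat_lit 223) (nat_lit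 5) (nat_lit 222) (nat_lit 5) (nat_lit 236) (nat_lit 5) (nat_lit 294) (nat_lit 279) (nat_lit 207))))))))
noncomputable def xc154 : XT := (XT.nd (nat_lit 2028) (nat_lit 4256) (nat_lit 0) (XT.nd (nat_lit 1014) (nat_lit 2812) (nat_lit 0) (XT.nd (nat_lit 468) (nat_lit 2356) (nat_lit 0) (XT.nd (nat_lit 234) (nat_lit 1140) (nat_lit 0) (XT.nd (nat_lit 78) (nat_lit 1064) (nat_lit 0) (XT.lf (nat_lit 0) (nat_lit 836170508) (nat_lit 1064) (nat_lit 8610918713) (nat_lit 76) (nat_lit 302887787) (nat_lit 209) (nat_lit 5) (nat_lit 223) (nat_lit 5) (nat_lit 210) (nat_lit 5) (nat_lit 295) (nat_lit 279) (nat_lit 206)) (XT.nd (nat_lit 78) (nat_lit 1064) (nat_lit 0) (XT.lf (nat_lit 0) (nat_lit 2204229362) (nat_lit 1064) (nat_lit 3792439687) (nat_lit 76) (nat_lit 3891803892) (nat_lit 209) (nat_lit 5) (nat_lit 223) (nat_lit 5) (nat_lit 210) (nat_lit 5) (nat_lit 296) (nat_lit 279) (nat_lit 205)) (XT.lf (nat_lit 0) (nat_lit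 1168926434) (nat_lit 1064) (nat_lit 2426303990) (nat_lit 1140) (nat_lit 6436477147) (nat_lit 195) (nat_lit 5) (nat_lit 209) (nat_lit 5) (nat_lit 210) (nat_lit 5) (nat_lit 297) (nat_lit 279) (nat_lit 204)))) (XT.nd (nat_lit 78) (nat_lit 1140) (nat_lit 0) (XT.lf (nat_lit 0) (nat_lit 5049992432) (nat_lit 1140) (nat_lit 3858803103) (nat_lit 76) (nat_lit 1269822418) (nat_lit 195) (nat_lit 5) (nat_lit 210) (nat_lit 5) (nat_lit 196) (nat_lit 5) (nat_lit 298) (nat_lit 279) (nat_lit 203)) (XT.nd (nat_lit 78) (nat_lit 0) (nat_lit 0) (XT.lf (nat_lit 0) (nat_lit 1271637747) (nat_lit 1140) (nat_lit 5285169723) (nat_lit 1216) (nat_lit 3772914359) (nat_lit 180) (nat_lit 5) (nat_lit 195) (nat_lit 5) (nat_lit 196) (nat_lit 5) (nat_lit 299) (nat_lit 279) (nat_lit 202)) (XT.lf (nat_lit 0) (nat_lit 6610885244) (nat_lit 1140) (nat_lit 1509649724) (nat_lit 1216) (nat_lit 2364509978) (nat_lit 180) (nat_lit 5) (nat_lit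 195) (nat_lit 5) (nat_lit 196) (nat_lit 5) (nat_lit 300) (nat_lit 279) (nat_lit 201))))) (XT.nd (nat_lit 234) (nat_lit 1064) (nat_lit 0) (XT.nd (nat_lit 78) (nat_lit 684) (nat_lit 0) (XT.lf (nat_lit 0) (nat_lit 1446272851) (nat_lit 608) (nat_lit 8295237671) (nat_lit 684) (nat_lit 903243427) (nat_lit 172) (nat_lit 5) (nat_lit 180) (nat_lit 5) (nat_lit 181) (nat_lit 5) (nat_lit 301) (nat_lit 279) (nat_lit 200)) (XT.nd (nat_lit 78) (nat_lit 608) (nat_lit 0) (XT.lf (nat_lit 0) (nat_lit 618383632) (nat_lit 684) (nat_lit 3848143949) (nat_lit 76) (nat_lit 6341739262) (nat_lit 171) (nat_lit 5) (nat_lit 180) (nat_lit 5) (nat_lit 172) (nat_lit 5) (nat_lit 302) (nat_lit 279) (nat_lit 199)) (XT.lf (nat_lit 0) (nat_lit 1662236926) (nat_lit 608) (nat_lit 495820704) (nat_lit 684) (nat_lit 8818675830) (nat_lit 163) (nat_lit 5) (nat_lit 171) (nat_lit 5) (nat_lit 172) (nat_lit 5) (nat_lit 303) (nat_lit 279) (nat_lit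 198)))) (XT.nd (nat_lit 156) (nat_lit 532) (nat_lit 0) (XT.nd (nat_lit 78) (nat_lit 532) (nat_lit 0) (XT.lf (nat_lit 0) (nat_lit 3792811017) (nat_lit 684) (nat_lit 3791724226) (nat_lit 76) (nat_lit 3564284391) (nat_lit 163) (nat_lit 5) (nat_lit 172) (nat_lit 5) (nat_lit 164) (nat_lit 5) (nat_lit 304) (nat_lit 279) (nat_lit 197)) (XT.lf (nat_lit 0) (nat_lit 1905197675) (nat_lit 532) (nat_lit 3570455595) (nat_lit 608) (nat_lit 5850475028) (nat_lit 156) (nat_lit 5) (nat_lit 163) (nat_lit 5) (nat_lit 164) (nat_lit 5) (nat_lit 305) (nat_lit 279) (nat_lit 196))) (XT.nd (nat_lit 78) (nat_lit 532) (nat_lit 0) (XT.lf (nat_lit 0) (nat_lit 7229372936) (nat_lit 608) (nat_lit 3686965740) (nat_lit 76) (nat_lit 591836164) (nat_lit 156) (nat_lit 5) (nat_lit 164) (nat_lit 5) (nat_lit 157) (nat_lit 5) (nat_lit 306) (nat_lit 279) (nat_lit 195)) (XT.lf (nat_lit 0) (nat_lit 2203053652) (nat_lit 532) (nat_lit 6866171020)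 (nat_lit 608) (nat_lit 2625481989) (nat_lit 149) (nat_lit 5) (nat_lit 156) (nat_lit 5) (nat_lit 157) (nat_lit 5) (nat_lit 307) (nat_lit 279) (nat_lit 194)))))) (XT.nd (nat_lit 468) (nat_lit 1292) (nat_lit 0) (XT.nd (nat_lit 234) (nat_lit 988) (nat_lit 0) (XT.nd (nat_lit 78) (nat_lit 532) (nat_lit 0) (XT.lf (nat_lit 0) (nat_lit 8321981305) (nat_lit 532) (nat_lit 2656959581) (nat_lit 608) (nat_lit 907482121) (nat_lit 149) (nat_lit 5) (nat_lit 156) (nat_lit 5) (nat_lit 157) (nat_lit 5) (nat_lit 308) (nat_lit 279) (nat_lit 193)) (XT.nd (nat_lit 78) (nat_lit 0) (nat_lit 0) (XT.lf (nat_lit 0) (nat_lit 864137061) (nat_lit 532) (nat_lit 9540969122) (nat_lit 76) (nat_lit 1677996020) (nat_lit 142) (nat_lit 5) (nat_lit 149) (nat_lit 5) (nat_lit 143) (nat_lit 5) (nat_lit 309) (nat_lit 279) (nat_lit 192)) (XT.lf (nat_lit 0) (nat_lit 2711586001) (nat_lit 532) (nat_lit 3438875048) (nat_lit 76) (nat_lit 6133749765)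 (nat_lit 142) (nat_lit 5) (nat_lit 149) (nat_lit 5) (nat_lit 143) (nat_lit 5) (nat_lit 310) (nat_lit 279) (nat_lit 191)))) (XT.nd (nat_lit 78) (nat_lit 456) (nat_lit 0) (XT.lf (nat_lit 0) (nat_lit 2879561906) (nat_lit 532) (nat_lit 1741473599) (nat_lit 608) (nat_lit 7870145309) (nat_lit 135) (nat_lit 5) (nat_lit 142) (nat_lit 5) (nat_lit 143) (nat_lit 5) (nat_lit 311) (nat_lit 279) (nat_lit 190)) (XT.nd (nat_lit 78) (nat_lit 456) (nat_lit 0) (XT.lf (nat_lit 0) (nat_lit 6629025982) (nat_lit 608) (nat_lit 3295842473) (nat_lit 76) (nat_lit 2778278439) (nat_lit 135) (nat_lit 5) (nat_lit 143) (nat_lit 5) (nat_lit 136) (nat_lit 5) (nat_lit 312) (nat_lit 279) (nat_lit 189)) (XT.lf (nat_lit 0) (nat_lit 3232611021) (nat_lit 456) (nat_lit 5492839491) (nat_lit 532) (nat_lit 4195199597) (nat_lit 129) (nat_lit 5) (nat_lit 135) (nat_lit 5) (nat_lit 136) (nat_lit 5) (nat_lit 313) (nat_lit 279) (nat_lit 188)))))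 (XT.nd (nat_lit 234) (nat_lit 760) (nat_lit 0) (XT.nd (nat_lit 78) (nat_lit 532) (nat_lit 0) (XT.lf (nat_lit 0) (nat_lit 10002067756) (nat_lit 456) (nat_lit 896230398) (nat_lit 532) (nat_lit 2245997642) (nat_lit 129) (nat_lit 5) (nat_lit 135) (nat_lit 5) (nat_lit 136) (nat_lit 5) (nat_lit 314) (nat_lit 279) (nat_lit 187)) (XT.nd (nat_lit 78) (nat_lit 76) (nat_lit 0) (XT.lf (nat_lit 0) (nat_lit 3611196743) (nat_lit 456) (nat_lit 9577542651) (nat_lit 532) (nat_lit 184361820) (nat_lit 123) (nat_lit 5) (nat_lit 129) (nat_lit 5) (nat_lit 130) (nat_lit 5) (nat_lit 315) (nat_lit 279) (nat_lit 186)) (XT.lf (nat_lit 0) (nat_lit 1923139630) (nat_lit 532) (nat_lit 3026523713) (nat_lit 76) (nat_lit 8657913886) (nat_lit 122) (nat_lit 5) (nat_lit 129) (nat_lit 5) (nat_lit 123) (nat_lit 5) (nat_lit 316) (nat_lit 279) (nat_lit 185)))) (XT.nd (nat_lit 156) (nat_lit 380) (nat_lit 0) (XT.nd (nat_lit 78) (nat_lit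 0) (nat_lit 0) (XT.lf (nat_lit 0) (nat_lit 3964598519) (nat_lit 380) (nat_lit 145165229) (nat_lit 456) (nat_lit 9738701611) (nat_lit 117) (nat_lit 5) (nat_lit 122) (nat_lit 5) (nat_lit 123) (nat_lit 5) (nat_lit 317) (nat_lit 279) (nat_lit 184)) (XT.lf (nat_lit 0) (nat_lit 6420815629) (nat_lit 456) (nat_lit 2936820469) (nat_lit 76) (nat_lit 4737199249) (nat_lit 117) (nat_lit 5) (nat_lit 123) (nat_lit 5) (nat_lit 118) (nat_lit 5) (nat_lit 318) (nat_lit 279) (nat_lit 183))) (XT.nd (nat_lit 78) (nat_lit 0) (nat_lit 0) (XT.lf (nat_lit 0) (nat_lit 4279172056) (nat_lit 380) (nat_lit 4546919297) (nat_lit 456) (nat_lit 5521777814) (nat_lit 112) (nat_lit 5) (nat_lit 117) (nat_lit 5) (nat_lit 118) (nat_lit 5) (nat_lit 319) (nat_lit 279) (nat_lit 182)) (XT.lf (nat_lit 0) (nat_lit 11319991206) (nat_lit 456) (nat_lit 2861795708) (nat_lit 76) (nat_lit 426232046) (nat_lit 112) (nat_lit 5) (nat_lit 118) (nat_lit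 5) (nat_lit 113) (nat_lit 5) (nat_lit 320) (nat_lit 279) (nat_lit 181))))))) (XT.nd (nat_lit 1014) (nat_lit 1748) (nat_lit 0) (XT.nd (nat_lit 468) (nat_lit 1368) (nat_lit 0) (XT.nd (nat_lit 234) (nat_lit 304) (nat_lit 0) (XT.nd (nat_lit 78) (nat_lit 456) (nat_lit 0) (XT.lf (nat_lit 0) (nat_lit 4584569793) (nat_lit 380) (nat_lit 9376326963) (nat_lit 456) (nat_lit 912929210) (nat_lit 107) (nat_lit 5) (nat_lit 112) (nat_lit 5) (nat_lit 113) (nat_lit 5) (nat_lit 321) (nat_lit 279) (nat_lit 180)) (XT.nd (nat_lit 78) (nat_lit 380) (nat_lit 0) (XT.lf (nat_lit 0) (nat_lit 1515892993) (nat_lit 456) (nat_lit 2870105497) (nat_lit 76) (nat_lit 10760812016) (nat_lit 106) (nat_lit 5) (nat_lit 112) (nat_lit 5) (nat_lit 107) (nat_lit 5) (nat_lit 322) (nat_lit 279) (nat_lit 179)) (XT.lf (nat_lit 0) (nat_lit 4037173276) (nat_lit 456) (nat_lit 10598334975) (nat_lit 76) (nat_lit 791083713) (nat_lit 101) (nat_lit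 5) (nat_lit 107) (nat_lit 5) (nat_lit 102) (nat_lit 5) (nat_lit 323) (nat_lit 279) (nat_lit 178)))) (XT.nd (nat_lit 78) (nat_lit 304) (nat_lit 0) (XT.lf (nat_lit 0) (nat_lit 6690719452) (nat_lit 456) (nat_lit 2962164334) (nat_lit 76) (nat_lit 6060200587) (nat_lit 101) (nat_lit 5) (nat_lit 107) (nat_lit 5) (nat_lit 102) (nat_lit 5) (nat_lit 324) (nat_lit 279) (nat_lit 177)) (XT.nd (nat_lit 78) (nat_lit 0) (nat_lit 0) (XT.lf (nat_lit 0) (nat_lit 4979919079) (nat_lit 304) (nat_lit 4476223317) (nat_lit 380) (nat_lit 6551076905) (nat_lit 97) (nat_lit 5) (nat_lit 101) (nat_lit 5) (nat_lit 102) (nat_lit 5) (nat_lit 325) (nat_lit 279) (nat_lit 176)) (XT.lf (nat_lit 0) (nat_lit 12327576896) (nat_lit 380) (nat_lit 3117394816) (nat_lit 76) (nat_lit 864530491) (nat_lit 97) (nat_lit 5) (nat_lit 102) (nat_lit 5) (nat_lit 98) (nat_lit 5) (nat_lit 326) (nat_lit 279) (nat_lit 175))))) (XT.nd (nat_lit 234) (nat_lit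 608) (nat_lit 0) (XT.nd (nat_lit 78) (nat_lit 380) (nat_lit 0) (XT.lf (nat_lit 0) (nat_lit 5064333122) (nat_lit 380) (nat_lit 10298884722) (nat_lit 456) (nat_lit 1255308791) (nat_lit 92) (nat_lit 5) (nat_lit 97) (nat_lit 5) (nat_lit 98) (nat_lit 5) (nat_lit 327) (nat_lit 279) (nat_lit 174)) (XT.nd (nat_lit 78) (nat_lit 304) (nat_lit 0) (XT.lf (nat_lit 0) (nat_lit 1539738879) (nat_lit 456) (nat_lit 3415794829) (nat_lit 76) (nat_lit 11980346118) (nat_lit 91) (nat_lit 5) (nat_lit 97) (nat_lit 5) (nat_lit 92) (nat_lit 5) (nat_lit 328) (nat_lit 279) (nat_lit 173)) (XT.lf (nat_lit 0) (nat_lit 4433190788) (nat_lit 380) (nat_lit 12234165535) (nat_lit 76) (nat_lit 593844606) (nat_lit 87) (nat_lit 5) (nat_lit 92) (nat_lit 5) (nat_lit 88) (nat_lit 5) (nat_lit 329) (nat_lit 279) (nat_lit 172)))) (XT.nd (nat_lit 156) (nat_lit 304) (nat_lit 0) (XT.nd (nat_lit 78) (nat_lit 304) (nat_lit 0) (XT.lf (nat_lit 0)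 (nat_lit 7483110944) (nat_lit 380) (nat_lit 3871187905) (nat_lit 76) (nat_lit 6239906154) (nat_lit 87) (nat_lit 5) (nat_lit 92) (nat_lit 5) (nat_lit 88) (nat_lit 5) (nat_lit 330) (nat_lit 279) (nat_lit 171)) (XT.lf (nat_lit 0) (nat_lit 4817555066) (nat_lit 304) (nat_lit 5839463175) (nat_lit 380) (nat_lit 7279219165) (nat_lit 83) (nat_lit 5) (nat_lit 87) (nat_lit 5) (nat_lit 88) (nat_lit 5) (nat_lit 331) (nat_lit 279) (nat_lit 170))) (XT.nd (nat_lit 78) (nat_lit 304) (nat_lit 0) (XT.lf (nat_lit 0) (nat_lit 13827371613) (nat_lit 304) (nat_lit 124263214) (nat_lit 380) (nat_lit 4336143708) (nat_lit 83) (nat_lit 5) (nat_lit 87) (nat_lit 5) (nat_lit 88) (nat_lit 5) (nat_lit 332) (nat_lit 279) (nat_lit 169)) (XT.lf (nat_lit 0) (nat_lit 4470713981) (nat_lit 304) (nat_lit 12959489689) (nat_lit 380) (nat_lit 1217120968) (nat_lit 79) (nat_lit 5) (nat_lit 83) (nat_lit 5) (nat_lit 84) (nat_lit 5) (nat_lit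 333) (nat_lit 279) (nat_lit 168)))))) (XT.nd (nat_lit 546) (nat_lit 760) (nat_lit 0) (XT.nd (nat_lit 234) (nat_lit 608) (nat_lit 0) (XT.nd (nat_lit 78) (nat_lit 304) (nat_lit 0) (XT.lf (nat_lit 0) (nat_lit 1990064925) (nat_lit 380) (nat_lit 5294802307) (nat_lit 76) (nat_lit 11731219957) (nat_lit 78) (nat_lit 5) (nat_lit 83) (nat_lit 5) (nat_lit 79) (nat_lit 5) (nat_lit 334) (nat_lit 279) (nat_lit 167)) (XT.nd (nat_lit 78) (nat_lit 0) (nat_lit 0) (XT.lf (nat_lit 0) (nat_lit 3899204968) (nat_lit 304) (nat_lit 1394477793) (nat_lit 380) (nat_lit 14101139076) (nat_lit 74) (nat_lit 5) (nat_lit 78) (nat_lit 5) (nat_lit 79) (nat_lit 5) (nat_lit 335) (nat_lit 279) (nat_lit 166)) (XT.lf (nat_lit 0) (nat_lit 8782665306) (nat_lit 380) (nat_lit 6369638046) (nat_lit 76) (nat_lit 4630038285) (nat_lit 74) (nat_lit 5) (nat_lit 79) (nat_lit 5) (nat_lit 75) (nat_lit 5) (nat_lit 336) (nat_lit 279) (nat_lit 165))))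 (XT.nd (nat_lit 156) (nat_lit 380) (nat_lit 0) (XT.nd (nat_lit 78) (nat_lit 0) (nat_lit 0) (XT.lf (nat_lit 0) (nat_lit 3058076089) (nat_lit 228) (nat_lit 9349156239) (nat_lit 304) (nat_lit 7773337737) (nat_lit 71) (nat_lit 5) (nat_lit 74) (nat_lit 5) (nat_lit 75) (nat_lit 5) (nat_lit 337) (nat_lit 279) (nat_lit 164)) (XT.lf (nat_lit 0) (nat_lit 12881457166) (nat_lit 228) (nat_lit 3311299652) (nat_lit 304) (nat_lit 4396432090) (nat_lit 71) (nat_lit 5) (nat_lit 74) (nat_lit 5) (nat_lit 75) (nat_lit 5) (nat_lit 338) (nat_lit 279) (nat_lit 163))) (XT.nd (nat_lit 78) (nat_lit 76) (nat_lit 0) (XT.lf (nat_lit 0) (nat_lit 1982683160) (nat_lit 304) (nat_lit 18144372614) (nat_lit 380) (nat_lit 881964161) (nat_lit 67) (nat_lit 5) (nat_lit 71) (nat_lit 5) (nat_lit 72) (nat_lit 5) (nat_lit 339) (nat_lit 279) (nat_lit 162)) (XT.lf (nat_lit 0) (nat_lit 2784151337) (nat_lit 380) (nat_lit 9394774192) (nat_lit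 76) (nat_lit 9258750899) (nat_lit 66) (nat_lit 5) (nat_lit 71) (nat_lit 5) (nat_lit 67) (nat_lit 5) (nat_lit 340) (nat_lit 279) (nat_lit 161))))) (XT.nd (nat_lit 234) (nat_lit 532) (nat_lit 0) (XT.nd (nat_lit 78) (nat_lit 0) (nat_lit 0) (XT.lf (nat_lit 0) (nat_lit 509864632) (nat_lit 228) (nat_lit 6026154187) (nat_lit 304) (nat_lit 15343116017) (nat_lit 63) (nat_lit 5) (nat_lit 66) (nat_lit 5) (nat_lit 67) (nat_lit 5) (nat_lit 341) (nat_lit 279) (nat_lit 160)) (XT.nd (nat_lit 78) (nat_lit 0) (nat_lit 0) (XT.lf (nat_lit 0) (nat_lit 10487950795) (nat_lit 304) (nat_lit 11447906717) (nat_lit 76) (nat_lit 395363009) (nat_lit 63) (nat_lit 5) (nat_lit 67) (nat_lit 5) (nat_lit 64) (nat_lit 5) (nat_lit 342) (nat_lit 279) (nat_lit 159)) (XT.lf (nat_lit 0) (nat_lit 14607143416) (nat_lit 304) (nat_lit 1305277241) (nat_lit 76) (nat_lit 6882995563) (nat_lit 63) (nat_lit 5) (nat_lit 67) (nat_lit 5) (nat_lit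 64) (nat_lit 5) (nat_lit 343) (nat_lit 279) (nat_lit 158)))) (XT.nd (nat_lit 156) (nat_lit 304) (nat_lit 0) (XT.nd (nat_lit 78) (nat_lit 0) (nat_lit 0) (XT.lf (nat_lit 0) (nat_lit 9307021303) (nat_lit 228) (nat_lit 9621712375) (nat_lit 304) (nat_lit 4342447730) (nat_lit 60) (nat_lit 5) (nat_lit 63) (nat_lit 5) (nat_lit 64) (nat_lit 5) (nat_lit 344) (nat_lit 279) (nat_lit 157)) (XT.lf (nat_lit 0) (nat_lit 20248381436) (nat_lit 228) (nat_lit 3134283603) (nat_lit 304) (nat_lit 378481745) (nat_lit 60) (nat_lit 5) (nat_lit 63) (nat_lit 5) (nat_lit 64) (nat_lit 5) (nat_lit 345) (nat_lit 279) (nat_lit 156))) (XT.nd (nat_lit 78) (nat_lit 0) (nat_lit 0) (XT.lf (nat_lit 0) (nat_lit 3727524039) (nat_lit 304) (nat_lit 16953980447) (nat_lit 76) (nat_lit 3580383728) (nat_lit 56) (nat_lit 5) (nat_lit 60) (nat_lit 5) (nat_lit 57) (nat_lit 5) (nat_lit 346) (nat_lit 279) (nat_lit 155)) (XT.lf (nat_lit 0) (nat_lit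 8005764553) (nat_lit 304) (nat_lit 6302421824) (nat_lit 76) (nat_lit 10467660592) (nat_lit 56) (nat_lit 5) (nat_lit 60) (nat_lit 5) (nat_lit 57) (nat_lit 5) (nat_lit 347) (nat_lit 279) (nat_lit 154))))))))
noncomputable def xc155 : XT := (XT.nd (nat_lit 2106) (nat_lit 988) (nat_lit 0) (XT.nd (nat_lit 1014) (nat_lit 912) (nat_lit 0) (XT.nd (nat_lit 468) (nat_lit 608) (nat_lit 0) (XT.nd (nat_lit 234) (nat_lit 304) (nat_lit 0) (XT.nd (nat_lit 78) (nat_lit 152) (nat_lit 0) (XT.lf (nat_lit 0) (nat_lit 4745843160) (nat_lit 228) (nat_lit 7702231886) (nat_lit 304) (nat_lit 12856084894) (nat_lit 53) (nat_lit 5) (nat_lit 56) (nat_lit 5) (nat_lit 57) (nat_lit 5) (nat_lit 348) (nat_lit 279) (nat_lit 153)) (XT.nd (nat_lit 78) (nat_lit 152) (nat_lit 0) (XT.lf (nat_lit 0) (nat_lit 16239452131) (nat_lit 228) (nat_lit 838088863) (nat_lit 304) (nat_lit 8769171653) (nat_lit 53) (nat_lit 5) (nat_lit 56) (nat_lit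 5) (nat_lit 57) (nat_lit 5) (nat_lit 349) (nat_lit 279) (nat_lit 152)) (XT.lf (nat_lit 0) (nat_lit 1629120817) (nat_lit 152) (nat_lit 20282812273) (nat_lit 228) (nat_lit 4491634310) (nat_lit 51) (nat_lit 5) (nat_lit 53) (nat_lit 5) (nat_lit 54) (nat_lit 5) (nat_lit 350) (nat_lit 279) (nat_lit 151)))) (XT.nd (nat_lit 78) (nat_lit 228) (nat_lit 0) (XT.lf (nat_lit 0) (nat_lit 12686637) (nat_lit 228) (nat_lit 13598256599) (nat_lit 76) (nat_lit 13363312122) (nat_lit 50) (nat_lit 5) (nat_lit 53) (nat_lit 5) (nat_lit 51) (nat_lit 5) (nat_lit 351) (nat_lit 279) (nat_lit 150)) (XT.nd (nat_lit 78) (nat_lit 228) (nat_lit 0) (XT.lf (nat_lit 0) (nat_lit 4552647037) (nat_lit 228) (nat_lit 2145949907) (nat_lit 76) (nat_lit 20862415403) (nat_lit 50) (nat_lit 5) (nat_lit 53) (nat_lit 5) (nat_lit 51) (nat_lit 5) (nat_lit 352) (nat_lit 279) (nat_lit 149)) (XT.lf (nat_lit 0) (nat_lit 9319261225) (nat_lit 304) (nat_lit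 18340319374) (nat_lit 76) (nat_lit 503083776) (nat_lit 47) (nat_lit 5) (nat_lit 51) (nat_lit 5) (nat_lit 48) (nat_lit 5) (nat_lit 353) (nat_lit 279) (nat_lit 148))))) (XT.nd (nat_lit 234) (nat_lit 456) (nat_lit 0) (XT.nd (nat_lit 78) (nat_lit 152) (nat_lit 0) (XT.lf (nat_lit 0) (nat_lit 14308210237) (nat_lit 304) (nat_lit 6668923283) (nat_lit 76) (nat_lit 7802858154) (nat_lit 47) (nat_lit 5) (nat_lit 51) (nat_lit 5) (nat_lit 48) (nat_lit 5) (nat_lit 354) (nat_lit 279) (nat_lit 147)) (XT.nd (nat_lit 78) (nat_lit 0) (nat_lit 0) (XT.lf (nat_lit 0) (nat_lit 5444934144) (nat_lit 152) (nat_lit 14045621203) (nat_lit 228) (nat_lit 9923977252) (nat_lit 45) (nat_lit 5) (nat_lit 47) (nat_lit 5) (nat_lit 48) (nat_lit 5) (nat_lit 355) (nat_lit 279) (nat_lit 146)) (XT.lf (nat_lit 0) (nat_lit 18045119437) (nat_lit 152) (nat_lit 6842100261) (nat_lit 228) (nat_lit 5179130059) (nat_lit 45) (nat_lit 5) (nat_lit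 47) (nat_lit 5) (nat_lit 48) (nat_lit 5) (nat_lit 356) (nat_lit 279) (nat_lit 145)))) (XT.nd (nat_lit 156) (nat_lit 152) (nat_lit 0) (XT.nd (nat_lit 78) (nat_lit 76) (nat_lit 0) (XT.lf (nat_lit 0) (nat_lit 271744309) (nat_lit 228) (nat_lit 30173907155) (nat_lit 304) (nat_lit 292079252) (nat_lit 42) (nat_lit 5) (nat_lit 45) (nat_lit 5) (nat_lit 46) (nat_lit 5) (nat_lit 357) (nat_lit 279) (nat_lit 144)) (XT.lf (nat_lit 0) (nat_lit 4831123946) (nat_lit 304) (nat_lit 18373836246) (nat_lit 76) (nat_lit 8217468562) (nat_lit 41) (nat_lit 5) (nat_lit 45) (nat_lit 5) (nat_lit 42) (nat_lit 5) (nat_lit 358) (nat_lit 279) (nat_lit 143))) (XT.nd (nat_lit 78) (nat_lit 152) (nat_lit 0) (XT.lf (nat_lit 0) (nat_lit 10094123532) (nat_lit 304) (nat_lit 5935048434) (nat_lit 76) (nat_lit 16098654748) (nat_lit 41) (nat_lit 5) (nat_lit 45) (nat_lit 5) (nat_lit 42) (nat_lit 5) (nat_lit 359) (nat_lit 279) (nat_lit 142))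 (XT.lf (nat_lit 0) (nat_lit 7000661641) (nat_lit 152) (nat_lit 8573850762) (nat_lit 228) (nat_lit 17278093949) (nat_lit 39) (nat_lit 5) (nat_lit 41) (nat_lit 5) (nat_lit 42) (nat_lit 5) (nat_lit 360) (nat_lit 279) (nat_lit 141)))))) (XT.nd (nat_lit 546) (nat_lit 532) (nat_lit 0) (XT.nd (nat_lit 234) (nat_lit 228) (nat_lit 0) (XT.nd (nat_lit 78) (nat_lit 152) (nat_lit 0) (XT.lf (nat_lit 0) (nat_lit 20433382174) (nat_lit 152) (nat_lit 838172517) (nat_lit 228) (nat_lit 12326012018) (nat_lit 39) (nat_lit 5) (nat_lit 41) (nat_lit 5) (nat_lit 42) (nat_lit 5) (nat_lit 361) (nat_lit 279) (nat_lit 140)) (XT.nd (nat_lit 78) (nat_lit 152) (nat_lit 0) (XT.lf (nat_lit 0) (nat_lit 27200528521) (nat_lit 228) (nat_lit 176859808) (nat_lit 76) (nat_lit 6985661388) (nat_lit 39) (nat_lit 5) (nat_lit 42) (nat_lit 5) (nat_lit 40) (nat_lit 5) (nat_lit 362) (nat_lit 279) (nat_lit 139)) (XT.lf (nat_lit 0) (nat_lit 13441916807)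 (nat_lit 152) (nat_lit 19995670692) (nat_lit 228) (nat_lit 1710007557) (nat_lit 37) (nat_lit 5) (nat_lit 39) (nat_lit 5) (nat_lit 40) (nat_lit 5) (nat_lit 363) (nat_lit 279) (nat_lit 138)))) (XT.nd (nat_lit 156) (nat_lit 0) (nat_lit 0) (XT.nd (nat_lit 78) (nat_lit 152) (nat_lit 0) (XT.lf (nat_lit 0) (nat_lit 3824389915) (nat_lit 228) (nat_lit 8532505178) (nat_lit 76) (nat_lit 23597823399) (nat_lit 36) (nat_lit 5) (nat_lit 39) (nat_lit 5) (nat_lit 37) (nat_lit 5) (nat_lit 364) (nat_lit 279) (nat_lit 137)) (XT.lf (nat_lit 0) (nat_lit 5106739659) (nat_lit 152) (nat_lit 4425737673) (nat_lit 228) (nat_lit 27251813505) (nat_lit 34) (nat_lit 5) (nat_lit 36) (nat_lit 5) (nat_lit 37) (nat_lit 5) (nat_lit 365) (nat_lit 279) (nat_lit 136))) (XT.nd (nat_lit 78) (nat_lit 0) (nat_lit 0) (XT.lf (nat_lit 0) (nat_lit 15527791019) (nat_lit 228) (nat_lit 18354826751) (nat_lit 76) (nat_lit 3752656909) (nat_lit 34)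 (nat_lit 5) (nat_lit 37) (nat_lit 5) (nat_lit 35) (nat_lit 5) (nat_lit 366) (nat_lit 279) (nat_lit 135)) (XT.lf (nat_lit 0) (nat_lit 21739973182) (nat_lit 228) (nat_lit 4687787914) (nat_lit 76) (nat_lit 12082920395) (nat_lit 34) (nat_lit 5) (nat_lit 37) (nat_lit 5) (nat_lit 35) (nat_lit 5) (nat_lit 367) (nat_lit 279) (nat_lit 134))))) (XT.nd (nat_lit 234) (nat_lit 304) (nat_lit 0) (XT.nd (nat_lit 78) (nat_lit 76) (nat_lit 0) (XT.lf (nat_lit 0) (nat_lit 9564691893) (nat_lit 152) (nat_lit 18659158818) (nat_lit 228) (nat_lit 11185943515) (nat_lit 32) (nat_lit 5) (nat_lit 34) (nat_lit 5) (nat_lit 35) (nat_lit 5) (nat_lit 368) (nat_lit 279) (nat_lit 133)) (XT.nd (nat_lit 78) (nat_lit 76) (nat_lit 0) (XT.lf (nat_lit 0) (nat_lit 24329739287) (nat_lit 152) (nat_lit 10613316837) (nat_lit 228) (nat_lit 5391603385) (nat_lit 32) (nat_lit 5) (nat_lit 34) (nat_lit 5) (nat_lit 35) (nat_lit 5) (nat_lit 369) (nat_lit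 279) (nat_lit 132)) (XT.lf (nat_lit 0) (nat_lit 558914143) (nat_lit 228) (nat_lit 1765984192) (nat_lit 76) (nat_lit 38962401512) (nat_lit 31) (nat_lit 5) (nat_lit 34) (nat_lit 5) (nat_lit 32) (nat_lit 5) (nat_lit 370) (nat_lit 279) (nat_lit 131)))) (XT.nd (nat_lit 156) (nat_lit 152) (nat_lit 0) (XT.nd (nat_lit 78) (nat_lit 0) (nat_lit 0) (XT.lf (nat_lit 0) (nat_lit 6760658096) (nat_lit 228) (nat_lit 29233169232) (nat_lit 76) (nat_lit 6267661512) (nat_lit 29) (nat_lit 5) (nat_lit 32) (nat_lit 5) (nat_lit 30) (nat_lit 5) (nat_lit 371) (nat_lit 279) (nat_lit 130)) (XT.lf (nat_lit 0) (nat_lit 13183305640) (nat_lit 228) (nat_lit 14995543390) (nat_lit 76) (nat_lit 15085012053) (nat_lit 29) (nat_lit 5) (nat_lit 32) (nat_lit 5) (nat_lit 30) (nat_lit 5) (nat_lit 372) (nat_lit 279) (nat_lit 129))) (XT.nd (nat_lit 78) (nat_lit 152) (nat_lit 0) (XT.lf (nat_lit 0) (nat_lit 19792635462) (nat_lit 228) (nat_lit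 341112061) (nat_lit 76) (nat_lit 24162739915) (nat_lit 29) (nat_lit 5) (nat_lit 32) (nat_lit 5) (nat_lit 30) (nat_lit 5) (nat_lit 373) (nat_lit 279) (nat_lit 128)) (XT.lf (nat_lit 0) (nat_lit 15036342805) (nat_lit 152) (nat_lit 11702618422) (nat_lit 228) (nat_lit 18616972815) (nat_lit 27) (nat_lit 5) (nat_lit 29) (nat_lit 5) (nat_lit 30) (nat_lit 5) (nat_lit 374) (nat_lit 279) (nat_lit 127))))))) (XT.nd (nat_lit 1014) (nat_lit 380) (nat_lit 0) (XT.nd (nat_lit 468) (nat_lit 304) (nat_lit 0) (XT.nd (nat_lit 234) (nat_lit 152) (nat_lit 0) (XT.nd (nat_lit 78) (nat_lit 152) (nat_lit 0) (XT.lf (nat_lit 0) (nat_lit 30872189433) (nat_lit 152) (nat_lit 3019183609) (nat_lit 228) (nat_lit 12555862970) (nat_lit 27) (nat_lit 5) (nat_lit 29) (nat_lit 5) (nat_lit 30) (nat_lit 5) (nat_lit 375) (nat_lit 279) (nat_lit 126)) (XT.nd (nat_lit 78) (nat_lit 152) (nat_lit 0) (XT.lf (nat_lit 0) (nat_lit 41309689739) (nat_lit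 228) (nat_lit 454884458) (nat_lit 76) (nat_lit 5805165640) (nat_lit 27) (nat_lit 5) (nat_lit 30) (nat_lit 5) (nat_lit 28) (nat_lit 4) (nat_lit 376) (nat_lit 279) (nat_lit 125)) (XT.lf (nat_lit 0) (nat_lit 394231798) (nat_lit 152) (nat_lit 33344998900) (nat_lit 76) (nat_lit 14981406568) (nat_lit 25) (nat_lit 5) (nat_lit 27) (nat_lit 5) (nat_lit 26) (nat_lit 5) (nat_lit 377) (nat_lit 279) (nat_lit 124)))) (XT.nd (nat_lit 78) (nat_lit 152) (nat_lit 0) (XT.lf (nat_lit 0) (nat_lit 7121516874) (nat_lit 152) (nat_lit 18287048388) (nat_lit 76) (nat_lit 24495663607) (nat_lit 25) (nat_lit 5) (nat_lit 27) (nat_lit 5) (nat_lit 26) (nat_lit 5) (nat_lit 378) (nat_lit 279) (nat_lit 123)) (XT.nd (nat_lit 78) (nat_lit 152) (nat_lit 0) (XT.lf (nat_lit 0) (nat_lit 14045335656) (nat_lit 152) (nat_lit 2786582624) (nat_lit 76) (nat_lit 34291570946) (nat_lit 25) (nat_lit 5) (nat_lit 27) (nat_lit 5) (nat_lit 26) (nat_lit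 5) (nat_lit 379) (nat_lit 279) (nat_lit 122)) (XT.lf (nat_lit 0) (nat_lit 13432050165) (nat_lit 152) (nat_lit 7868805002) (nat_lit 228) (nat_lit 31074755035) (nat_lit 23) (nat_lit 5) (nat_lit 25) (nat_lit 5) (nat_lit 26) (nat_lit 5) (nat_lit 380) (nat_lit 279) (nat_lit 121))))) (XT.nd (nat_lit 234) (nat_lit 228) (nat_lit 0) (XT.nd (nat_lit 78) (nat_lit 76) (nat_lit 0) (XT.lf (nat_lit 0) (nat_lit 28810458581) (nat_lit 228) (nat_lit 23492453646) (nat_lit 76) (nat_lit 1361292351) (nat_lit 23) (nat_lit 5) (nat_lit 26) (nat_lit 5) (nat_lit 24) (nat_lit 4) (nat_lit 381) (nat_lit 279) (nat_lit 120)) (XT.nd (nat_lit 78) (nat_lit 76) (nat_lit 0) (XT.lf (nat_lit 0) (nat_lit 36618304459) (nat_lit 228) (nat_lit 7664445963) (nat_lit 76) (nat_lit 10706519986) (nat_lit 23) (nat_lit 5) (nat_lit 26) (nat_lit 5) (nat_lit 24) (nat_lit 4) (nat_lit 382) (nat_lit 279) (nat_lit 119)) (XT.lf (nat_lit 0) (nat_lit 8801685664)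 (nat_lit 76) (nat_lit 35938496946) (nat_lit 152) (nat_lit 11611513886) (nat_lit 22) (nat_lit 5) (nat_lit 23) (nat_lit 5) (nat_lit 24) (nat_lit 4) (nat_lit 383) (nat_lit 279) (nat_lit 118)))) (XT.nd (nat_lit 156) (nat_lit 152) (nat_lit 0) (XT.nd (nat_lit 78) (nat_lit 76) (nat_lit 0) (XT.lf (nat_lit 0) (nat_lit 25910529024) (nat_lit 76) (nat_lit 27267833164) (nat_lit 152) (nat_lit 4574455949) (nat_lit 22) (nat_lit 5) (nat_lit 23) (nat_lit 5) (nat_lit 24) (nat_lit 4) (nat_lit 384) (nat_lit 279) (nat_lit 117)) (XT.lf (nat_lit 0) (nat_lit 2616879828) (nat_lit 152) (nat_lit 15697273463) (nat_lit 76) (nat_lit 40881190903) (nat_lit 21) (nat_lit 5) (nat_lit 23) (nat_lit 5) (nat_lit 22) (nat_lit 5) (nat_lit 385) (nat_lit 279) (nat_lit 116))) (XT.nd (nat_lit 78) (nat_lit 0) (nat_lit 0) (XT.lf (nat_lit 0) (nat_lit 896294496) (nat_lit 152) (nat_lit 9039810498) (nat_lit 228) (nat_lit 50743561491) (nat_lit 19)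 (nat_lit 5) (nat_lit 21) (nat_lit 5) (nat_lit 22) (nat_lit 5) (nat_lit 386) (nat_lit 279) (nat_lit 115)) (XT.lf (nat_lit 0) (nat_lit 17635415137) (nat_lit 228) (nat_lit 43908834142) (nat_lit 76) (nat_lit 659455807) (nat_lit 19) (nat_lit 5) (nat_lit 22) (nat_lit 5) (nat_lit 20) (nat_lit 4) (nat_lit 387) (nat_lit 279) (nat_lit 114)))))) (XT.nd (nat_lit 546) (nat_lit 76) (nat_lit 0) (XT.nd (nat_lit 234) (nat_lit 228) (nat_lit 0) (XT.nd (nat_lit 78) (nat_lit 76) (nat_lit 0) (XT.lf (nat_lit 0) (nat_lit 25650836909) (nat_lit 228) (nat_lit 27655350464) (nat_lit 76) (nat_lit 10464725336) (nat_lit 19) (nat_lit 5) (nat_lit 22) (nat_lit 5) (nat_lit 20) (nat_lit 4) (nat_lit 388) (nat_lit 279) (nat_lit 113)) (XT.nd (nat_lit 78) (nat_lit 76) (nat_lit 0) (XT.lf (nat_lit 0) (nat_lit 33902477888) (nat_lit 228) (nat_lit 10921822694) (nat_lit 76) (nat_lit 20560965062) (nat_lit 19) (nat_lit 5) (nat_lit 22) (nat_lit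 5) (nat_lit 20) (nat_lit 4) (nat_lit 389) (nat_lit 279) (nat_lit 112)) (XT.lf (nat_lit 0) (nat_lit 6431879839) (nat_lit 76) (nat_lit 36027495569) (nat_lit 152) (nat_lit 24586944266) (nat_lit 18) (nat_lit 5) (nat_lit 19) (nat_lit 5) (nat_lit 20) (nat_lit 4) (nat_lit 390) (nat_lit 279) (nat_lit 111)))) (XT.nd (nat_lit 156) (nat_lit 228) (nat_lit 0) (XT.nd (nat_lit 78) (nat_lit 0) (nat_lit 0) (XT.lf (nat_lit 0) (nat_lit 24522811857) (nat_lit 76) (nat_lit 26856387269) (nat_lit 152) (nat_lit 17374821298) (nat_lit 18) (nat_lit 5) (nat_lit 19) (nat_lit 5) (nat_lit 20) (nat_lit 4) (nat_lit 391) (nat_lit 279) (nat_lit 110)) (XT.lf (nat_lit 0) (nat_lit 43149415284) (nat_lit 76) (nat_lit 17413251085) (nat_lit 152) (nat_lit 9950405991) (nat_lit 18) (nat_lit 5) (nat_lit 19) (nat_lit 5) (nat_lit 20) (nat_lit 4) (nat_lit 392) (nat_lit 279) (nat_lit 109))) (XT.nd (nat_lit 78) (nat_lit 228) (nat_lit 0) (XT.lf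 (nat_lit 0) (nat_lit 62327965792) (nat_lit 76) (nat_lit 7689835734) (nat_lit 152) (nat_lit 2307210992) (nat_lit 18) (nat_lit 5) (nat_lit 19) (nat_lit 5) (nat_lit 20) (nat_lit 4) (nat_lit 393) (nat_lit 279) (nat_lit 108)) (XT.lf (nat_lit 0) (nat_lit 5553299743) (nat_lit 228) (nat_lit 66224954323) (nat_lit 76) (nat_lit 2408554843) (nat_lit 15) (nat_lit 5) (nat_lit 18) (nat_lit 5) (nat_lit 16) (nat_lit 4) (nat_lit 394) (nat_lit 279) (nat_lit 107))))) (XT.nd (nat_lit 234) (nat_lit 76) (nat_lit 0) (XT.nd (nat_lit 78) (nat_lit 0) (nat_lit 0) (XT.lf (nat_lit 0) (nat_lit 13777594710) (nat_lit 228) (nat_lit 49543704800) (nat_lit 76) (nat_lit 12777245571) (nat_lit 15) (nat_lit 5) (nat_lit 18) (nat_lit 5) (nat_lit 16) (nat_lit 4) (nat_lit 395) (nat_lit 279) (nat_lit 106)) (XT.nd (nat_lit 78) (nat_lit 0) (nat_lit 0) (XT.lf (nat_lit 0) (nat_lit 22244982118) (nat_lit 228) (nat_lit 32368567840) (nat_lit 76)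 (nat_lit 23454193878) (nat_lit 15) (nat_lit 5) (nat_lit 18) (nat_lit 5) (nat_lit 16) (nat_lit 4) (nat_lit 396) (nat_lit 279) (nat_lit 105)) (XT.lf (nat_lit 0) (nat_lit 30962860653) (nat_lit 228) (nat_lit 14684536042) (nat_lit 76) (nat_lit 34448729136) (nat_lit 15) (nat_lit 5) (nat_lit 18) (nat_lit 5) (nat_lit 16) (nat_lit 4) (nat_lit 397) (nat_lit 279) (nat_lit 104)))) (XT.nd (nat_lit 156) (nat_lit 0) (nat_lit 0) (XT.nd (nat_lit 78) (nat_lit 0) (nat_lit 0) (XT.lf (nat_lit 0) (nat_lit 3593974038) (nat_lit 76) (nat_lit 36379421317) (nat_lit 152) (nat_lit 42211031660) (nat_lit 14) (nat_lit 5) (nat_lit 15) (nat_lit 5) (nat_lit 16) (nat_lit 4) (nat_lit 398) (nat_lit 279) (nat_lit 103)) (XT.lf (nat_lit 0) (nat_lit 22715744494) (nat_lit 76) (nat_lit 26683400029) (nat_lit 152) (nat_lit 34931887044) (nat_lit 14) (nat_lit 5) (nat_lit 15) (nat_lit 5) (nat_lit 16) (nat_lit 4) (nat_lit 399) (nat_lit 279) (nat_lit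 102))) (XT.nd (nat_lit 78) (nat_lit 0) (nat_lit 0) (XT.lf (nat_lit 0) (nat_lit 42405232608) (nat_lit 76) (nat_lit 16699145601) (nat_lit 152) (nat_lit 27437755935) (nat_lit 14) (nat_lit 5) (nat_lit 15) (nat_lit 5) (nat_lit 16) (nat_lit 4) (nat_lit 400) (nat_lit 279) (nat_lit 101)) (XT.lf (nat_lit 0) (nat_lit 62679642787) (nat_lit 76) (nat_lit 6417933927) (nat_lit 152) (nat_lit 19722090062) (nat_lit 14) (nat_lit 5) (nat_lit 15) (nat_lit 5) (nat_lit 16) (nat_lit 4) (nat_lit 401) (nat_lit 279) (nat_lit 100))))))))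
noncomputable def xc156 : XT := (XT.nd (nat_lit 33072) (nat_lit 0) (nat_lit 5548) (XT.nd (nat_lit 32058) (nat_lit 0) (nat_lit 11324) (XT.nd (nat_lit 31512) (nat_lit 0) (nat_lit 15580) (XT.nd (nat_lit 31278) (nat_lit 0) (nat_lit 16492) (XT.nd (nat_lit 31122) (nat_lit 0) (nat_lit 16416) (XT.lf (nat_lit 0) (nat_lit 79427549036) (nat_lit 152) (nat_lit 7649006083) (nat_lit 0) (nat_lit 4087862105) (nat_lit 14) (nat_lit 5) (nat_lit 16) (nat_lit 4) (nat_lit 14) (nat_lit 4) (nat_lit 402) (nat_lit 279) (nat_lit 99)) (XT.nd (nat_lit 78) (nat_lit 0) (nat_lit 0) (XT.lf (nat_lit 0) (nat_lit 696773800) (nat_lit 988) (nat_lit 1696117990) (nat_lit 988) (nat_lit 1696117990) (nat_lit 230) (nat_lit 3) (nat_lit 243) (nat_lit 3) (nat_lit 243) (nat_lit 5) (nat_lit 280) (nat_lit 280) (nat_lit 220)) (XT.lf (nat_lit 76) (nat_lit 313930701) (nat_lit 0) (nat_lit 2180287657) (nat_lit 988) (nat_lit 5772399595) (nat_lit 231)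 (nat_lit 5) (nat_lit 230) (nat_lit 3) (nat_lit 243) (nat_lit 5) (nat_lit 281) (nat_lit 280) (nat_lit 219)))) (XT.nd (nat_lit 78) (nat_lit 0) (nat_lit 0) (XT.lf (nat_lit 0) (nat_lit 3625300525) (nat_lit 912) (nat_lit 4184836441) (nat_lit 988) (nat_lit 547881115) (nat_lit 231) (nat_lit 5) (nat_lit 243) (nat_lit 5) (nat_lit 244) (nat_lit 5) (nat_lit 282) (nat_lit 280) (nat_lit 218)) (XT.nd (nat_lit 78) (nat_lit 0) (nat_lit 0) (XT.lf (nat_lit 0) (nat_lit 4771085140) (nat_lit 912) (nat_lit 348480603) (nat_lit 988) (nat_lit 3333234984) (nat_lit 231) (nat_lit 5) (nat_lit 243) (nat_lit 5) (nat_lit 244) (nat_lit 5) (nat_lit 283) (nat_lit 280) (nat_lit 217)) (XT.lf (nat_lit 76) (nat_lit 3651953438) (nat_lit 0) (nat_lit 2294766487) (nat_lit 988) (nat_lit 2603904389) (nat_lit 232) (nat_lit 5) (nat_lit 231) (nat_lit 5) (nat_lit 244) (nat_lit 5) (nat_lit 284) (nat_lit 280) (nat_lit 216))))) (XT.nd (nat_lit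 234) (nat_lit 0) (nat_lit 76) (XT.nd (nat_lit 78) (nat_lit 988) (nat_lit 0) (XT.lf (nat_lit 0) (nat_lit 7128561043) (nat_lit 912) (nat_lit 901114720) (nat_lit 988) (nat_lit 622638689) (nat_lit 232) (nat_lit 5) (nat_lit 244) (nat_lit 5) (nat_lit 245) (nat_lit 5) (nat_lit 285) (nat_lit 280) (nat_lit 215)) (XT.nd (nat_lit 78) (nat_lit 988) (nat_lit 0) (XT.lf (nat_lit 76) (nat_lit 3234000047) (nat_lit 0) (nat_lit 5128260979) (nat_lit 988) (nat_lit 394360373) (nat_lit 233) (nat_lit 5) (nat_lit 232) (nat_lit 5) (nat_lit 245) (nat_lit 5) (nat_lit 286) (nat_lit 280) (nat_lit 214)) (XT.lf (nat_lit 0) (nat_lit 726151474) (nat_lit 988) (nat_lit 1382947451) (nat_lit 1064) (nat_lit 6755624526) (nat_lit 219) (nat_lit 5) (nat_lit 232) (nat_lit 5) (nat_lit 233) (nat_lit 5) (nat_lit 287) (nat_lit 280) (nat_lit 213)))) (XT.nd (nat_lit 156) (nat_lit 0) (nat_lit 0) (XT.nd (nat_lit 78) (nat_lit 0) (nat_lit 0) (XT.lf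 (nat_lit 0) (nat_lit 1874525974) (nat_lit 988) (nat_lit 6075125791) (nat_lit 1064) (nat_lit 1026287732) (nat_lit 220) (nat_lit 5) (nat_lit 233) (nat_lit 5) (nat_lit 234) (nat_lit 5) (nat_lit 288) (nat_lit 280) (nat_lit 212)) (XT.lf (nat_lit 0) (nat_lit 3057415724) (nat_lit 988) (nat_lit 1793301560) (nat_lit 1064) (nat_lit 4239824544) (nat_lit 220) (nat_lit 5) (nat_lit 233) (nat_lit 5) (nat_lit 234) (nat_lit 5) (nat_lit 289) (nat_lit 280) (nat_lit 211))) (XT.nd (nat_lit 78) (nat_lit 0) (nat_lit 76) (XT.lf (nat_lit 76) (nat_lit 2645647374) (nat_lit 0) (nat_lit 1621672025) (nat_lit 1064) (nat_lit 4941567228) (nat_lit 221) (nat_lit 5) (nat_lit 220) (nat_lit 5) (nat_lit 234) (nat_lit 5) (nat_lit 290) (nat_lit 280) (nat_lit 210)) (XT.lf (nat_lit 0) (nat_lit 5515155217) (nat_lit 988) (nat_lit 2116148245) (nat_lit 1064) (nat_lit 1699478013) (nat_lit 221) (nat_lit 5) (nat_lit 234) (nat_lit 5) (nat_lit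 235) (nat_lit 5) (nat_lit 291) (nat_lit 280) (nat_lit 209)))))) (XT.nd (nat_lit 468) (nat_lit 3420) (nat_lit 0) (XT.nd (nat_lit 234) (nat_lit 988) (nat_lit 0) (XT.nd (nat_lit 78) (nat_lit 0) (nat_lit 0) (XT.lf (nat_lit 76) (nat_lit 2473385450) (nat_lit 0) (nat_lit 4334799370) (nat_lit 1064) (nat_lit 2647962921) (nat_lit 222) (nat_lit 5) (nat_lit 221) (nat_lit 5) (nat_lit 235) (nat_lit 5) (nat_lit 292) (nat_lit 280) (nat_lit 208)) (XT.nd (nat_lit 78) (nat_lit 0) (nat_lit 76) (XT.lf (nat_lit 76) (nat_lit 7221032817) (nat_lit 0) (nat_lit 908981848) (nat_lit 1064) (nat_lit 1455606004) (nat_lit 222) (nat_lit 5) (nat_lit 221) (nat_lit 5) (nat_lit 235) (nat_lit 5) (nat_lit 293) (nat_lit 280) (nat_lit 207)) (XT.lf (nat_lit 76) (nat_lit 2390274085) (nat_lit 0) (nat_lit 7119015658) (nat_lit 1064) (nat_lit 209198950) (nat_lit 223) (nat_lit 5) (nat_lit 222) (nat_lit 5) (nat_lit 236) (nat_lit 5) (nat_lit 294)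 (nat_lit 280) (nat_lit 206)))) (XT.nd (nat_lit 78) (nat_lit 0) (nat_lit 76) (XT.lf (nat_lit 0) (nat_lit 1056703142) (nat_lit 1064) (nat_lit 2561669381) (nat_lit 1140) (nat_lit 6236610234) (nat_lit 208) (nat_lit 5) (nat_lit 222) (nat_lit 5) (nat_lit 223) (nat_lit 5) (nat_lit 295) (nat_lit 280) (nat_lit 205)) (XT.nd (nat_lit 78) (nat_lit 0) (nat_lit 0) (XT.lf (nat_lit 0) (nat_lit 2350165695) (nat_lit 1064) (nat_lit 7626935874) (nat_lit 76) (nat_lit 18635124) (nat_lit 209) (nat_lit 5) (nat_lit 223) (nat_lit 5) (nat_lit 210) (nat_lit 5) (nat_lit 296) (nat_lit 280) (nat_lit 204)) (XT.lf (nat_lit 0) (nat_lit 3715900002) (nat_lit 1064) (nat_lit 2700086275) (nat_lit 76) (nat_lit 3723762576) (nat_lit 209) (nat_lit 5) (nat_lit 223) (nat_lit 5) (nat_lit 210) (nat_lit 5) (nat_lit 297) (nat_lit 280) (nat_lit 203))))) (XT.nd (nat_lit 234) (nat_lit 1292) (nat_lit 0) (XT.nd (nat_lit 78) (nat_lit 1140) (nat_lit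 0) (XT.lf (nat_lit 0) (nat_lit 2398296059) (nat_lit 1064) (nat_lit 2719712180) (nat_lit 1140) (nat_lit 5170249568) (nat_lit 195) (nat_lit 5) (nat_lit 209) (nat_lit 5) (nat_lit 210) (nat_lit 5) (nat_lit 298) (nat_lit 280) (nat_lit 202)) (XT.nd (nat_lit 78) (nat_lit 1140) (nat_lit 0) (XT.lf (nat_lit 0) (nat_lit 6573142862) (nat_lit 1140) (nat_lit 2769884139) (nat_lit 76) (nat_lit 1097903501) (nat_lit 195) (nat_lit 5) (nat_lit 210) (nat_lit 5) (nat_lit 196) (nat_lit 5) (nat_lit 299) (nat_lit 280) (nat_lit 201)) (XT.lf (nat_lit 0) (nat_lit 2502659318) (nat_lit 1140) (nat_lit 5594018663) (nat_lit 1216) (nat_lit 2500799282) (nat_lit 180) (nat_lit 5) (nat_lit 195) (nat_lit 5) (nat_lit 196) (nat_lit 5) (nat_lit 300) (nat_lit 280) (nat_lit 200)))) (XT.nd (nat_lit 156) (nat_lit 608) (nat_lit 0) (XT.nd (nat_lit 78) (nat_lit 684) (nat_lit 0) (XT.lf (nat_lit 0) (nat_lit 7967340383) (nat_lit 1140) (nat_lit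 1700855573) (nat_lit 1216) (nat_lit 1090491386) (nat_lit 180) (nat_lit 5) (nat_lit 195) (nat_lit 5) (nat_lit 196) (nat_lit 5) (nat_lit 301) (nat_lit 280) (nat_lit 199)) (XT.lf (nat_lit 0) (nat_lit 378277663) (nat_lit 684) (nat_lit 8249453623) (nat_lit 76) (nat_lit 2296234660) (nat_lit 171) (nat_lit 5) (nat_lit 180) (nat_lit 5) (nat_lit 172) (nat_lit 5) (nat_lit 302) (nat_lit 280) (nat_lit 198))) (XT.nd (nat_lit 78) (nat_lit 608) (nat_lit 0) (XT.lf (nat_lit 0) (nat_lit 1889812903) (nat_lit 684) (nat_lit 2782967972) (nat_lit 76) (nat_lit 6420511729) (nat_lit 171) (nat_lit 5) (nat_lit 180) (nat_lit 5) (nat_lit 172) (nat_lit 5) (nat_lit 303) (nat_lit 280) (nat_lit 197)) (XT.lf (nat_lit 0) (nat_lit 2881149621) (nat_lit 608) (nat_lit 569273497) (nat_lit 684) (nat_lit 7817195371) (nat_lit 163) (nat_lit 5) (nat_lit 171) (nat_lit 5) (nat_lit 172) (nat_lit 5) (nat_lit 304) (nat_lit 280) (nat_lit 196)))))))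 (XT.nd (nat_lit 1014) (nat_lit 2660) (nat_lit 0) (XT.nd (nat_lit 468) (nat_lit 1520) (nat_lit 0) (XT.nd (nat_lit 234) (nat_lit 1064) (nat_lit 0) (XT.nd (nat_lit 78) (nat_lit 532) (nat_lit 0) (XT.lf (nat_lit 0) (nat_lit 5097916385) (nat_lit 684) (nat_lit 2732635514) (nat_lit 76) (nat_lit 3615450689) (nat_lit 163) (nat_lit 5) (nat_lit 172) (nat_lit 5) (nat_lit 164) (nat_lit 5) (nat_lit 305) (nat_lit 280) (nat_lit 195)) (XT.nd (nat_lit 78) (nat_lit 0) (nat_lit 0) (XT.lf (nat_lit 0) (nat_lit 3123695608) (nat_lit 532) (nat_lit 3684013156) (nat_lit 608) (nat_lit 4821672715) (nat_lit 156) (nat_lit 5) (nat_lit 163) (nat_lit 5) (nat_lit 164) (nat_lit 5) (nat_lit 306) (nat_lit 280) (nat_lit 194)) (XT.lf (nat_lit 0) (nat_lit 8579966701) (nat_lit 608) (nat_lit 2634531398) (nat_lit 76) (nat_lit 603457123) (nat_lit 156) (nat_lit 5) (nat_lit 164) (nat_lit 5) (nat_lit 157) (nat_lit 5) (nat_lit 307) (nat_lit 280)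 (nat_lit 193)))) (XT.nd (nat_lit 78) (nat_lit 532) (nat_lit 0) (XT.lf (nat_lit 0) (nat_lit 3420786189) (nat_lit 532) (nat_lit 7032277322) (nat_lit 608) (nat_lit 1557720335) (nat_lit 149) (nat_lit 5) (nat_lit 156) (nat_lit 5) (nat_lit 157) (nat_lit 5) (nat_lit 308) (nat_lit 280) (nat_lit 192)) (XT.nd (nat_lit 78) (nat_lit 456) (nat_lit 0) (XT.lf (nat_lit 0) (nat_lit 174943838) (nat_lit 608) (nat_lit 2521240630) (nat_lit 76) (nat_lit 9513028304) (nat_lit 148) (nat_lit 5) (nat_lit 156) (nat_lit 5) (nat_lit 149) (nat_lit 5) (nat_lit 309) (nat_lit 280) (nat_lit 191)) (XT.lf (nat_lit 0) (nat_lit 1961117052) (nat_lit 532) (nat_lit 8664402389) (nat_lit 76) (nat_lit 1786652748) (nat_lit 142) (nat_lit 5) (nat_lit 149) (nat_lit 5) (nat_lit 143) (nat_lit 5) (nat_lit 310) (nat_lit 280) (nat_lit 190))))) (XT.nd (nat_lit 234) (nat_lit 988) (nat_lit 0) (XT.nd (nat_lit 78) (nat_lit 532) (nat_lit 0) (XT.lf (nat_lit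 0) (nat_lit 3832793658) (nat_lit 532) (nat_lit 2413113332) (nat_lit 76) (nat_lit 6374380556) (nat_lit 142) (nat_lit 5) (nat_lit 149) (nat_lit 5) (nat_lit 143) (nat_lit 5) (nat_lit 311) (nat_lit 280) (nat_lit 189)) (XT.nd (nat_lit 78) (nat_lit 0) (nat_lit 0) (XT.lf (nat_lit 0) (nat_lit 4083808810) (nat_lit 532) (nat_lit 1696176206) (nat_lit 608) (nat_lit 7054104398) (nat_lit 135) (nat_lit 5) (nat_lit 142) (nat_lit 5) (nat_lit 143) (nat_lit 5) (nat_lit 312) (nat_lit 280) (nat_lit 188)) (XT.lf (nat_lit 0) (nat_lit 7819407514) (nat_lit 608) (nat_lit 2279427220) (nat_lit 76) (nat_lit 2954479426) (nat_lit 135) (nat_lit 5) (nat_lit 143) (nat_lit 5) (nat_lit 136) (nat_lit 5) (nat_lit 313) (nat_lit 280) (nat_lit 187)))) (XT.nd (nat_lit 156) (nat_lit 532) (nat_lit 0) (XT.nd (nat_lit 78) (nat_lit 0) (nat_lit 0) (XT.lf (nat_lit 0) (nat_lit 4433945658) (nat_lit 456) (nat_lit 5526515917) (nat_lit 532) (nat_lit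 3317463216) (nat_lit 129) (nat_lit 5) (nat_lit 135) (nat_lit 5) (nat_lit 136) (nat_lit 5) (nat_lit 314) (nat_lit 280) (nat_lit 186)) (XT.lf (nat_lit 0) (nat_lit 11374320376) (nat_lit 456) (nat_lit 795827252) (nat_lit 532) (nat_lit 1339016049) (nat_lit 129) (nat_lit 5) (nat_lit 135) (nat_lit 5) (nat_lit 136) (nat_lit 5) (nat_lit 315) (nat_lit 280) (nat_lit 185))) (XT.nd (nat_lit 78) (nat_lit 0) (nat_lit 0) (XT.lf (nat_lit 0) (nat_lit 753113058) (nat_lit 532) (nat_lit 8943552815) (nat_lit 76) (nat_lit 4048454102) (nat_lit 122) (nat_lit 5) (nat_lit 129) (nat_lit 5) (nat_lit 123) (nat_lit 5) (nat_lit 316) (nat_lit 280) (nat_lit 184)) (XT.lf (nat_lit 0) (nat_lit 2892775803) (nat_lit 532) (nat_lit 2040248137) (nat_lit 76) (nat_lit 9054402901) (nat_lit 122) (nat_lit 5) (nat_lit 129) (nat_lit 5) (nat_lit 123) (nat_lit 5) (nat_lit 317) (nat_lit 280) (nat_lit 183)))))) (XT.nd (nat_lit 546) (nat_lit 1064)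 (nat_lit 0) (XT.nd (nat_lit 234) (nat_lit 836) (nat_lit 0) (XT.nd (nat_lit 78) (nat_lit 380) (nat_lit 0) (XT.lf (nat_lit 0) (nat_lit 5128894508) (nat_lit 456) (nat_lit 9086217668) (nat_lit 76) (nat_lit 20942256) (nat_lit 117) (nat_lit 5) (nat_lit 123) (nat_lit 5) (nat_lit 118) (nat_lit 5) (nat_lit 318) (nat_lit 280) (nat_lit 182)) (XT.nd (nat_lit 78) (nat_lit 380) (nat_lit 0) (XT.lf (nat_lit 0) (nat_lit 7484580997) (nat_lit 456) (nat_lit 1964024210) (nat_lit 76) (nat_lit 5041980047) (nat_lit 117) (nat_lit 5) (nat_lit 123) (nat_lit 5) (nat_lit 118) (nat_lit 5) (nat_lit 319) (nat_lit 280) (nat_lit 181)) (XT.lf (nat_lit 0) (nat_lit 5458047102) (nat_lit 380) (nat_lit 4488692904) (nat_lit 456) (nat_lit 4804956322) (nat_lit 112) (nat_lit 5) (nat_lit 117) (nat_lit 5) (nat_lit 118) (nat_lit 5) (nat_lit 320) (nat_lit 280) (nat_lit 180)))) (XT.nd (nat_lit 156) (nat_lit 456) (nat_lit 0) (XT.nd (nat_lit 78)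 (nat_lit 380) (nat_lit 0) (XT.lf (nat_lit 0) (nat_lit 12492345167) (nat_lit 456) (nat_lit 1903729329) (nat_lit 76) (nat_lit 624296641) (nat_lit 112) (nat_lit 5) (nat_lit 118) (nat_lit 5) (nat_lit 113) (nat_lit 5) (nat_lit 321) (nat_lit 280) (nat_lit 179)) (XT.lf (nat_lit 0) (nat_lit 5755792625) (nat_lit 380) (nat_lit 9442366702) (nat_lit 456) (nat_lit 96448966) (nat_lit 107) (nat_lit 5) (nat_lit 112) (nat_lit 5) (nat_lit 113) (nat_lit 5) (nat_lit 322) (nat_lit 280) (nat_lit 178))) (XT.nd (nat_lit 78) (nat_lit 380) (nat_lit 0) (XT.lf (nat_lit 0) (nat_lit 2364671932) (nat_lit 456) (nat_lit 1935814086) (nat_lit 76) (nat_lit 11275800836) (nat_lit 106) (nat_lit 5) (nat_lit 112) (nat_lit 5) (nat_lit 107) (nat_lit 5) (nat_lit 323) (nat_lit 280) (nat_lit 177)) (XT.lf (nat_lit 0) (nat_lit 4950028175) (nat_lit 456) (nat_lit 9883523238) (nat_lit 76) (nat_lit 1031281359) (nat_lit 101) (nat_lit 5) (nat_lit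 107) (nat_lit 5) (nat_lit 102) (nat_lit 5) (nat_lit 324) (nat_lit 280) (nat_lit 176))))) (XT.nd (nat_lit 234) (nat_lit 760) (nat_lit 0) (XT.nd (nat_lit 78) (nat_lit 304) (nat_lit 0) (XT.lf (nat_lit 0) (nat_lit 7660120356) (nat_lit 456) (nat_lit 2048347918) (nat_lit 76) (nat_lit 6452166930) (nat_lit 101) (nat_lit 5) (nat_lit 107) (nat_lit 5) (nat_lit 102) (nat_lit 5) (nat_lit 325) (nat_lit 280) (nat_lit 175)) (XT.nd (nat_lit 78) (nat_lit 0) (nat_lit 0) (XT.lf (nat_lit 0) (nat_lit 6122167787) (nat_lit 304) (nat_lit 4373493375) (nat_lit 380) (nat_lit 5968341118) (nat_lit 97) (nat_lit 5) (nat_lit 101) (nat_lit 5) (nat_lit 102) (nat_lit 5) (nat_lit 326) (nat_lit 280) (nat_lit 174)) (XT.lf (nat_lit 0) (nat_lit 13433436090) (nat_lit 380) (nat_lit 2226444441) (nat_lit 76) (nat_lit 1116089311) (nat_lit 97) (nat_lit 5) (nat_lit 102) (nat_lit 5) (nat_lit 98) (nat_lit 5) (nat_lit 327) (nat_lit 280) (nat_lit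 173)))) (XT.nd (nat_lit 156) (nat_lit 304) (nat_lit 0) (XT.nd (nat_lit 78) (nat_lit 76) (nat_lit 0) (XT.lf (nat_lit 0) (nat_lit 6191083646) (nat_lit 380) (nat_lit 10356995370) (nat_lit 456) (nat_lit 546569460) (nat_lit 92) (nat_lit 5) (nat_lit 97) (nat_lit 5) (nat_lit 98) (nat_lit 5) (nat_lit 328) (nat_lit 280) (nat_lit 172)) (XT.lf (nat_lit 0) (nat_lit 2296449171) (nat_lit 456) (nat_lit 2557026296) (nat_lit 76) (nat_lit 12568491236) (nat_lit 91) (nat_lit 5) (nat_lit 97) (nat_lit 5) (nat_lit 92) (nat_lit 5) (nat_lit 329) (nat_lit 280) (nat_lit 171))) (XT.nd (nat_lit 78) (nat_lit 0) (nat_lit 0) (XT.lf (nat_lit 0) (nat_lit 5267589902) (nat_lit 380) (nat_lit 11630179044) (nat_lit 76) (nat_lit 859571566) (nat_lit 87) (nat_lit 5) (nat_lit 92) (nat_lit 5) (nat_lit 88) (nat_lit 5) (nat_lit 330) (nat_lit 280) (nat_lit 170)) (XT.lf (nat_lit 0) (nat_lit 8388578438) (nat_lit 380) (nat_lit 3044593973) (nat_lit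 76) (nat_lit 6667794232) (nat_lit 87) (nat_lit 5) (nat_lit 92) (nat_lit 5) (nat_lit 88) (nat_lit 5) (nat_lit 331) (nat_lit 280) (nat_lit 169))))))))
noncomputable def xc157 : XT := (XT.nd (nat_lit 2028) (nat_lit 1748) (nat_lit 0) (XT.nd (nat_lit 1014) (nat_lit 1368) (nat_lit 0) (XT.nd (nat_lit 468) (nat_lit 836) (nat_lit 0) (XT.nd (nat_lit 234) (nat_lit 380) (nat_lit 0) (XT.nd (nat_lit 78) (nat_lit 304) (nat_lit 0) (XT.lf (nat_lit 0) (nat_lit 5895568841) (nat_lit 304) (nat_lit 5751273163) (nat_lit 380) (nat_lit 6806762346) (nat_lit 83) (nat_lit 5) (nat_lit 87) (nat_lit 5) (nat_lit 88) (nat_lit 5) (nat_lit 332) (nat_lit 280) (nat_lit 168)) (XT.nd (nat_lit 78) (nat_lit 304) (nat_lit 0) (XT.lf (nat_lit 0) (nat_lit 15022006871) (nat_lit 380) (nat_lit 3669031919) (nat_lit 76) (nat_lit 125219595) (nat_lit 83) (nat_lit 5) (nat_lit 88) (nat_lit 5) (nat_lit 84) (nat_lit 5) (nat_lit 333) (nat_lit 280) (nat_lit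 167)) (XT.lf (nat_lit 0) (nat_lit 5519733883) (nat_lit 304) (nat_lit 13076202818) (nat_lit 380) (nat_lit 590941494) (nat_lit 79) (nat_lit 5) (nat_lit 83) (nat_lit 5) (nat_lit 84) (nat_lit 5) (nat_lit 334) (nat_lit 280) (nat_lit 166)))) (XT.nd (nat_lit 78) (nat_lit 304) (nat_lit 0) (XT.lf (nat_lit 0) (nat_lit 2680603353) (nat_lit 380) (nat_lit 4552292538) (nat_lit 76) (nat_lit 12334200818) (nat_lit 78) (nat_lit 5) (nat_lit 83) (nat_lit 5) (nat_lit 79) (nat_lit 5) (nat_lit 335) (nat_lit 280) (nat_lit 165)) (XT.nd (nat_lit 78) (nat_lit 0) (nat_lit 0) (XT.lf (nat_lit 0) (nat_lit 4908698154) (nat_lit 304) (nat_lit 1164837112) (nat_lit 380) (nat_lit 13883967925) (nat_lit 74) (nat_lit 5) (nat_lit 78) (nat_lit 5) (nat_lit 79) (nat_lit 5) (nat_lit 336) (nat_lit 280) (nat_lit 164)) (XT.lf (nat_lit 0) (nat_lit 9651632261) (nat_lit 380) (nat_lit 5678134223) (nat_lit 76) (nat_lit 5027364249) (nat_lit 74) (nat_lit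 5) (nat_lit 79) (nat_lit 5) (nat_lit 75) (nat_lit 5) (nat_lit 337) (nat_lit 280) (nat_lit 163))))) (XT.nd (nat_lit 234) (nat_lit 304) (nat_lit 0) (XT.nd (nat_lit 78) (nat_lit 304) (nat_lit 0) (XT.lf (nat_lit 0) (nat_lit 4023758464) (nat_lit 228) (nat_lit 9351943131) (nat_lit 304) (nat_lit 7391896501) (nat_lit 71) (nat_lit 5) (nat_lit 74) (nat_lit 5) (nat_lit 75) (nat_lit 5) (nat_lit 338) (nat_lit 280) (nat_lit 162)) (XT.nd (nat_lit 78) (nat_lit 304) (nat_lit 0) (XT.lf (nat_lit 0) (nat_lit 14116386408) (nat_lit 228) (nat_lit 3141038841) (nat_lit 304) (nat_lit 3931585861) (nat_lit 71) (nat_lit 5) (nat_lit 74) (nat_lit 5) (nat_lit 75) (nat_lit 5) (nat_lit 339) (nat_lit 280) (nat_lit 161)) (XT.lf (nat_lit 0) (nat_lit 2897442977) (nat_lit 304) (nat_lit 18406186992) (nat_lit 380) (nat_lit 318004977) (nat_lit 67) (nat_lit 5) (nat_lit 71) (nat_lit 5) (nat_lit 72) (nat_lit 5) (nat_lit 340) (nat_lit 280)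 (nat_lit 160)))) (XT.nd (nat_lit 156) (nat_lit 0) (nat_lit 0) (XT.nd (nat_lit 78) (nat_lit 228) (nat_lit 0) (XT.lf (nat_lit 0) (nat_lit 3429711727) (nat_lit 380) (nat_lit 8834617953) (nat_lit 76) (nat_lit 9799170390) (nat_lit 66) (nat_lit 5) (nat_lit 71) (nat_lit 5) (nat_lit 67) (nat_lit 5) (nat_lit 341) (nat_lit 280) (nat_lit 159)) (XT.lf (nat_lit 0) (nat_lit 1358905139) (nat_lit 228) (nat_lit 5926874581) (nat_lit 304) (nat_lit 15232686153) (nat_lit 63) (nat_lit 5) (nat_lit 66) (nat_lit 5) (nat_lit 67) (nat_lit 5) (nat_lit 342) (nat_lit 280) (nat_lit 158))) (XT.nd (nat_lit 78) (nat_lit 0) (nat_lit 0) (XT.lf (nat_lit 0) (nat_lit 11342756780) (nat_lit 304) (nat_lit 10967950299) (nat_lit 76) (nat_lit 673825036) (nat_lit 63) (nat_lit 5) (nat_lit 67) (nat_lit 5) (nat_lit 64) (nat_lit 5) (nat_lit 343) (nat_lit 280) (nat_lit 157)) (XT.lf (nat_lit 0) (nat_lit 15569792146) (nat_lit 304) (nat_lit 545024277)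 (nat_lit 76) (nat_lit 7348321484) (nat_lit 63) (nat_lit 5) (nat_lit 67) (nat_lit 5) (nat_lit 64) (nat_lit 5) (nat_lit 344) (nat_lit 280) (nat_lit 156)))))) (XT.nd (nat_lit 468) (nat_lit 608) (nat_lit 0) (XT.nd (nat_lit 234) (nat_lit 228) (nat_lit 0) (XT.nd (nat_lit 78) (nat_lit 304) (nat_lit 0) (XT.lf (nat_lit 0) (nat_lit 10377805858) (nat_lit 228) (nat_lit 9635558563) (nat_lit 304) (nat_lit 3940053479) (nat_lit 60) (nat_lit 5) (nat_lit 63) (nat_lit 5) (nat_lit 64) (nat_lit 5) (nat_lit 345) (nat_lit 280) (nat_lit 155)) (XT.nd (nat_lit 78) (nat_lit 228) (nat_lit 0) (XT.lf (nat_lit 0) (nat_lit 124832480) (nat_lit 304) (nat_lit 2835417918) (nat_lit 76) (nat_lit 21498258200) (nat_lit 59) (nat_lit 5) (nat_lit 63) (nat_lit 5) (nat_lit 60) (nat_lit 5) (nat_lit 346) (nat_lit 280) (nat_lit 154)) (XT.lf (nat_lit 0) (nat_lit 4341668351) (nat_lit 304) (nat_lit 16678511541) (nat_lit 76) (nat_lit 3954133116)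 (nat_lit 56) (nat_lit 5) (nat_lit 60) (nat_lit 5) (nat_lit 57) (nat_lit 5) (nat_lit 347) (nat_lit 280) (nat_lit 153)))) (XT.nd (nat_lit 78) (nat_lit 228) (nat_lit 0) (XT.lf (nat_lit 0) (nat_lit 8733625442) (nat_lit 304) (nat_lit 5730243682) (nat_lit 76) (nat_lit 11040270872) (nat_lit 56) (nat_lit 5) (nat_lit 60) (nat_lit 5) (nat_lit 57) (nat_lit 5) (nat_lit 348) (nat_lit 280) (nat_lit 152)) (XT.nd (nat_lit 78) (nat_lit 0) (nat_lit 0) (XT.lf (nat_lit 0) (nat_lit 5642006008) (nat_lit 228) (nat_lit 7660240606) (nat_lit 304) (nat_lit 12746274748) (nat_lit 53) (nat_lit 5) (nat_lit 56) (nat_lit 5) (nat_lit 57) (nat_lit 5) (nat_lit 349) (nat_lit 280) (nat_lit 151)) (XT.lf (nat_lit 0) (nat_lit 17458468270) (nat_lit 228) (nat_lit 598126445) (nat_lit 304) (nat_lit 8551185936) (nat_lit 53) (nat_lit 5) (nat_lit 56) (nat_lit 5) (nat_lit 57) (nat_lit 5) (nat_lit 350) (nat_lit 280) (nat_lit 150))))) (XT.nd (nat_lit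 234) (nat_lit 380) (nat_lit 0) (XT.nd (nat_lit 78) (nat_lit 76) (nat_lit 0) (XT.lf (nat_lit 0) (nat_lit 2414321671) (nat_lit 152) (nat_lit 20617655055) (nat_lit 228) (nat_lit 4149495233) (nat_lit 51) (nat_lit 5) (nat_lit 53) (nat_lit 5) (nat_lit 54) (nat_lit 5) (nat_lit 351) (nat_lit 280) (nat_lit 149)) (XT.nd (nat_lit 78) (nat_lit 0) (nat_lit 0) (XT.lf (nat_lit 0) (nat_lit 467030636) (nat_lit 228) (nat_lit 13281985314) (nat_lit 76) (nat_lit 14020544751) (nat_lit 50) (nat_lit 5) (nat_lit 53) (nat_lit 5) (nat_lit 51) (nat_lit 5) (nat_lit 352) (nat_lit 280) (nat_lit 148)) (XT.lf (nat_lit 0) (nat_lit 5129967613) (nat_lit 228) (nat_lit 1507203178) (nat_lit 76) (nat_lit 21737155113) (nat_lit 50) (nat_lit 5) (nat_lit 53) (nat_lit 5) (nat_lit 51) (nat_lit 5) (nat_lit 353) (nat_lit 280) (nat_lit 147)))) (XT.nd (nat_lit 156) (nat_lit 152) (nat_lit 0) (XT.nd (nat_lit 78) (nat_lit 0) (nat_lit 0) (XT.lf (nat_lit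 0) (nat_lit 10035950709) (nat_lit 304) (nat_lit 18183488213) (nat_lit 76) (nat_lit 774706036) (nat_lit 47) (nat_lit 5) (nat_lit 51) (nat_lit 5) (nat_lit 48) (nat_lit 5) (nat_lit 354) (nat_lit 280) (nat_lit 146)) (XT.lf (nat_lit 0) (nat_lit 15161836785) (nat_lit 304) (nat_lit 6182543659) (nat_lit 76) (nat_lit 8286001906) (nat_lit 47) (nat_lit 5) (nat_lit 51) (nat_lit 5) (nat_lit 48) (nat_lit 5) (nat_lit 355) (nat_lit 280) (nat_lit 145))) (XT.nd (nat_lit 78) (nat_lit 0) (nat_lit 0) (XT.lf (nat_lit 0) (nat_lit 6287999615) (nat_lit 152) (nat_lit 14205825903) (nat_lit 228) (nat_lit 9790316873) (nat_lit 45) (nat_lit 5) (nat_lit 47) (nat_lit 5) (nat_lit 48) (nat_lit 5) (nat_lit 356) (nat_lit 280) (nat_lit 144)) (XT.lf (nat_lit 0) (nat_lit 19246392871) (nat_lit 152) (nat_lit 6793806049) (nat_lit 228) (nat_lit 4915688722) (nat_lit 45) (nat_lit 5) (nat_lit 47) (nat_lit 5) (nat_lit 48) (nat_lit 5) (nat_lit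 357) (nat_lit 280) (nat_lit 143))))))) (XT.nd (nat_lit 1014) (nat_lit 760) (nat_lit 0) (XT.nd (nat_lit 468) (nat_lit 380) (nat_lit 0) (XT.nd (nat_lit 234) (nat_lit 304) (nat_lit 0) (XT.nd (nat_lit 78) (nat_lit 0) (nat_lit 0) (XT.lf (nat_lit 0) (nat_lit 112540665) (nat_lit 304) (nat_lit 30705350017) (nat_lit 76) (nat_lit 829586653) (nat_lit 41) (nat_lit 5) (nat_lit 45) (nat_lit 5) (nat_lit 42) (nat_lit 5) (nat_lit 358) (nat_lit 280) (nat_lit 142)) (XT.nd (nat_lit 78) (nat_lit 0) (nat_lit 0) (XT.lf (nat_lit 0) (nat_lit 5371700180) (nat_lit 304) (nat_lit 18272892005) (nat_lit 76) (nat_lit 8708400637) (nat_lit 41) (nat_lit 5) (nat_lit 45) (nat_lit 5) (nat_lit 42) (nat_lit 5) (nat_lit 359) (nat_lit 280) (nat_lit 141)) (XT.lf (nat_lit 0) (nat_lit 10781066186) (nat_lit 304) (nat_lit 5479935490) (nat_lit 76) (nat_lit 16818903728) (nat_lit 41) (nat_lit 5) (nat_lit 45) (nat_lit 5) (nat_lit 42) (nat_lit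 5) (nat_lit 360) (nat_lit 280) (nat_lit 140)))) (XT.nd (nat_lit 78) (nat_lit 152) (nat_lit 0) (XT.lf (nat_lit 0) (nat_lit 7837638393) (nat_lit 152) (nat_lit 8583067092) (nat_lit 228) (nat_lit 17405884556) (nat_lit 39) (nat_lit 5) (nat_lit 41) (nat_lit 5) (nat_lit 42) (nat_lit 5) (nat_lit 361) (nat_lit 280) (nat_lit 139)) (XT.nd (nat_lit 78) (nat_lit 152) (nat_lit 0) (XT.lf (nat_lit 0) (nat_lit 21655079662) (nat_lit 152) (nat_lit 622541777) (nat_lit 228) (nat_lit 12316615474) (nat_lit 39) (nat_lit 5) (nat_lit 41) (nat_lit 5) (nat_lit 42) (nat_lit 5) (nat_lit 362) (nat_lit 280) (nat_lit 138)) (XT.lf (nat_lit 0) (nat_lit 425792000) (nat_lit 152) (nat_lit 27954296411) (nat_lit 228) (nat_lit 7002733667) (nat_lit 37) (nat_lit 5) (nat_lit 39) (nat_lit 5) (nat_lit 40) (nat_lit 5) (nat_lit 363) (nat_lit 280) (nat_lit 137))))) (XT.nd (nat_lit 234) (nat_lit 152) (nat_lit 0) (XT.nd (nat_lit 78) (nat_lit 228)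 (nat_lit 0) (XT.lf (nat_lit 0) (nat_lit 14438944269) (nat_lit 152) (nat_lit 20356460148) (nat_lit 228) (nat_lit 1395771201) (nat_lit 37) (nat_lit 5) (nat_lit 39) (nat_lit 5) (nat_lit 40) (nat_lit 5) (nat_lit 364) (nat_lit 280) (nat_lit 136)) (XT.nd (nat_lit 78) (nat_lit 152) (nat_lit 0) (XT.lf (nat_lit 0) (nat_lit 4287086319) (nat_lit 228) (nat_lit 8204884716) (nat_lit 76) (nat_lit 24530755321) (nat_lit 36) (nat_lit 5) (nat_lit 39) (nat_lit 5) (nat_lit 37) (nat_lit 5) (nat_lit 365) (nat_lit 280) (nat_lit 135)) (XT.lf (nat_lit 0) (nat_lit 5837815941) (nat_lit 152) (nat_lit 4324020402) (nat_lit 228) (nat_lit 27715492599) (nat_lit 34) (nat_lit 5) (nat_lit 36) (nat_lit 5) (nat_lit 37) (nat_lit 5) (nat_lit 366) (nat_lit 280) (nat_lit 134)))) (XT.nd (nat_lit 156) (nat_lit 152) (nat_lit 0) (XT.nd (nat_lit 78) (nat_lit 0) (nat_lit 0) (XT.lf (nat_lit 0) (nat_lit 16329196349) (nat_lit 228) (nat_lit 18336432082)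 (nat_lit 76) (nat_lit 4088453770) (nat_lit 34) (nat_lit 5) (nat_lit 37) (nat_lit 5) (nat_lit 35) (nat_lit 5) (nat_lit 367) (nat_lit 280) (nat_lit 133)) (XT.lf (nat_lit 0) (nat_lit 22717970046) (nat_lit 228) (nat_lit 4275956044) (nat_lit 76) (nat_lit 12662123690) (nat_lit 34) (nat_lit 5) (nat_lit 37) (nat_lit 5) (nat_lit 35) (nat_lit 5) (nat_lit 368) (nat_lit 280) (nat_lit 132))) (XT.nd (nat_lit 78) (nat_lit 0) (nat_lit 0) (XT.lf (nat_lit 0) (nat_lit 10398681828) (nat_lit 152) (nat_lit 18993451392) (nat_lit 228) (nat_lit 11190134790) (nat_lit 32) (nat_lit 5) (nat_lit 34) (nat_lit 5) (nat_lit 35) (nat_lit 5) (nat_lit 369) (nat_lit 280) (nat_lit 131)) (XT.lf (nat_lit 0) (nat_lit 25590747172) (nat_lit 152) (nat_lit 10712801594) (nat_lit 228) (nat_lit 5231616505) (nat_lit 32) (nat_lit 5) (nat_lit 34) (nat_lit 5) (nat_lit 35) (nat_lit 5) (nat_lit 370) (nat_lit 280) (nat_lit 130)))))) (XT.nd (nat_lit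 546) (nat_lit 380) (nat_lit 0) (XT.nd (nat_lit 234) (nat_lit 152) (nat_lit 0) (XT.nd (nat_lit 78) (nat_lit 152) (nat_lit 0) (XT.lf (nat_lit 0) (nat_lit 881950279) (nat_lit 228) (nat_lit 1297063702) (nat_lit 76) (nat_lit 40337558450) (nat_lit 31) (nat_lit 5) (nat_lit 34) (nat_lit 5) (nat_lit 32) (nat_lit 5) (nat_lit 371) (nat_lit 280) (nat_lit 129)) (XT.nd (nat_lit 78) (nat_lit 0) (nat_lit 0) (XT.lf (nat_lit 0) (nat_lit 7267855333) (nat_lit 228) (nat_lit 29586219337) (nat_lit 76) (nat_lit 6665973772) (nat_lit 29) (nat_lit 5) (nat_lit 32) (nat_lit 5) (nat_lit 30) (nat_lit 5) (nat_lit 372) (nat_lit 280) (nat_lit 128)) (XT.lf (nat_lit 0) (nat_lit 13874316940) (nat_lit 228) (nat_lit 14936725253) (nat_lit 76) (nat_lit 15741720099) (nat_lit 29) (nat_lit 5) (nat_lit 32) (nat_lit 5) (nat_lit 30) (nat_lit 5) (nat_lit 373) (nat_lit 280) (nat_lit 127)))) (XT.nd (nat_lit 156) (nat_lit 0) (nat_lit 0) (XT.nd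 (nat_lit 78) (nat_lit 0) (nat_lit 0) (XT.lf (nat_lit 0) (nat_lit 145359450) (nat_lit 152) (nat_lit 20529357340) (nat_lit 228) (nat_lit 24941871290) (nat_lit 27) (nat_lit 5) (nat_lit 29) (nat_lit 5) (nat_lit 30) (nat_lit 5) (nat_lit 374) (nat_lit 280) (nat_lit 126)) (XT.lf (nat_lit 0) (nat_lit 15976459630) (nat_lit 152) (nat_lit 11847919782) (nat_lit 228) (nat_lit 18883594480) (nat_lit 27) (nat_lit 5) (nat_lit 29) (nat_lit 5) (nat_lit 30) (nat_lit 5) (nat_lit 375) (nat_lit 280) (nat_lit 125))) (XT.nd (nat_lit 78) (nat_lit 0) (nat_lit 0) (XT.lf (nat_lit 0) (nat_lit 32273138165) (nat_lit 152) (nat_lit 2909975435) (nat_lit 228) (nat_lit 12649152918) (nat_lit 27) (nat_lit 5) (nat_lit 29) (nat_lit 5) (nat_lit 30) (nat_lit 5) (nat_lit 376) (nat_lit 280) (nat_lit 124)) (XT.lf (nat_lit 0) (nat_lit 42817834615) (nat_lit 228) (nat_lit 1298778) (nat_lit 76) (nat_lit 6169500399) (nat_lit 27) (nat_lit 5) (nat_lit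 30) (nat_lit 5) (nat_lit 28) (nat_lit 4) (nat_lit 377) (nat_lit 280) (nat_lit 123))))) (XT.nd (nat_lit 234) (nat_lit 228) (nat_lit 0) (XT.nd (nat_lit 78) (nat_lit 0) (nat_lit 0) (XT.lf (nat_lit 0) (nat_lit 674284185) (nat_lit 152) (nat_lit 33877234146) (nat_lit 76) (nat_lit 15622566288) (nat_lit 25) (nat_lit 5) (nat_lit 27) (nat_lit 5) (nat_lit 26) (nat_lit 5) (nat_lit 378) (nat_lit 280) (nat_lit 122)) (XT.nd (nat_lit 78) (nat_lit 0) (nat_lit 0) (XT.lf (nat_lit 0) (nat_lit 7595575421) (nat_lit 152) (nat_lit 18381179527) (nat_lit 76) (nat_lit 25416667032) (nat_lit 25) (nat_lit 5) (nat_lit 27) (nat_lit 5) (nat_lit 26) (nat_lit 5) (nat_lit 379) (nat_lit 280) (nat_lit 121)) (XT.lf (nat_lit 0) (nat_lit 14719523922) (nat_lit 152) (nat_lit 2428937081) (nat_lit 76) (nat_lit 35501030227) (nat_lit 25) (nat_lit 5) (nat_lit 27) (nat_lit 5) (nat_lit 26) (nat_lit 5) (nat_lit 380) (nat_lit 280) (nat_lit 120))))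 (XT.nd (nat_lit 156) (nat_lit 76) (nat_lit 0) (XT.nd (nat_lit 78) (nat_lit 0) (nat_lit 0) (XT.lf (nat_lit 0) (nat_lit 14271928780) (nat_lit 152) (nat_lit 7917616224) (nat_lit 228) (nat_lit 31749729182) (nat_lit 23) (nat_lit 5) (nat_lit 25) (nat_lit 5) (nat_lit 26) (nat_lit 5) (nat_lit 381) (nat_lit 280) (nat_lit 119)) (XT.lf (nat_lit 0) (nat_lit 29918912311) (nat_lit 228) (nat_lit 23767400613) (nat_lit 76) (nat_lit 1580382528) (nat_lit 23) (nat_lit 5) (nat_lit 26) (nat_lit 5) (nat_lit 24) (nat_lit 4) (nat_lit 382) (nat_lit 280) (nat_lit 118))) (XT.nd (nat_lit 78) (nat_lit 76) (nat_lit 0) (XT.lf (nat_lit 0) (nat_lit 37953882692) (nat_lit 228) (nat_lit 7477071923) (nat_lit 76) (nat_lit 11200775204) (nat_lit 23) (nat_lit 5) (nat_lit 26) (nat_lit 5) (nat_lit 24) (nat_lit 4) (nat_lit 383) (nat_lit 280) (nat_lit 117)) (XT.lf (nat_lit 0) (nat_lit 9478952404) (nat_lit 76) (nat_lit 36837533110) (nat_lit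 152) (nat_lit 11718634265) (nat_lit 22) (nat_lit 5) (nat_lit 23) (nat_lit 5) (nat_lit 24) (nat_lit 4) (nat_lit 384) (nat_lit 280) (nat_lit 116))))))))
noncomputable def xc158 : XT := (XT.nd (nat_lit 33150) (nat_lit 0) (nat_lit 8740) (XT.nd (nat_lit 1014) (nat_lit 76) (nat_lit 0) (XT.nd (nat_lit 468) (nat_lit 304) (nat_lit 0) (XT.nd (nat_lit 234) (nat_lit 0) (nat_lit 0) (XT.nd (nat_lit 78) (nat_lit 228) (nat_lit 0) (XT.lf (nat_lit 0) (nat_lit 27089025642) (nat_lit 76) (nat_lit 27911966466) (nat_lit 152) (nat_lit 4477490563) (nat_lit 22) (nat_lit 5) (nat_lit 23) (nat_lit 5) (nat_lit 24) (nat_lit 4) (nat_lit 385) (nat_lit 280) (nat_lit 115)) (XT.nd (nat_lit 78) (nat_lit 152) (nat_lit 0) (XT.lf (nat_lit 0) (nat_lit 2918326997) (nat_lit 152) (nat_lit 15774163032) (nat_lit 76) (nat_lit 42271930463) (nat_lit 21) (nat_lit 5) (nat_lit 23) (nat_lit 5) (nat_lit 22) (nat_lit 5) (nat_lit 386) (nat_lit 280)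 (nat_lit 114)) (XT.lf (nat_lit 0) (nat_lit 1313348940) (nat_lit 152) (nat_lit 9141037068) (nat_lit 228) (nat_lit 52038971521) (nat_lit 19) (nat_lit 5) (nat_lit 21) (nat_lit 5) (nat_lit 22) (nat_lit 5) (nat_lit 387) (nat_lit 280) (nat_lit 113)))) (XT.nd (nat_lit 78) (nat_lit 0) (nat_lit 0) (XT.lf (nat_lit 0) (nat_lit 18379848173) (nat_lit 228) (nat_lit 44842380016) (nat_lit 76) (nat_lit 841036629) (nat_lit 19) (nat_lit 5) (nat_lit 22) (nat_lit 5) (nat_lit 20) (nat_lit 4) (nat_lit 388) (nat_lit 280) (nat_lit 112)) (XT.nd (nat_lit 78) (nat_lit 0) (nat_lit 0) (XT.lf (nat_lit 0) (nat_lit 26629459668) (nat_lit 228) (nat_lit 28112468113) (nat_lit 76) (nat_lit 10935751705) (nat_lit 19) (nat_lit 5) (nat_lit 22) (nat_lit 5) (nat_lit 20) (nat_lit 4) (nat_lit 389) (nat_lit 280) (nat_lit 111)) (XT.lf (nat_lit 0) (nat_lit 35122559653) (nat_lit 228) (nat_lit 10887785273) (nat_lit 76) (nat_lit 21330303343) (nat_lit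 19) (nat_lit 5) (nat_lit 22) (nat_lit 5) (nat_lit 20) (nat_lit 4) (nat_lit 390) (nat_lit 280) (nat_lit 110))))) (XT.nd (nat_lit 234) (nat_lit 228) (nat_lit 0) (XT.nd (nat_lit 78) (nat_lit 0) (nat_lit 0) (XT.lf (nat_lit 0) (nat_lit 6982982334) (nat_lit 76) (nat_lit 36950711646) (nat_lit 152) (nat_lit 25117916522) (nat_lit 18) (nat_lit 5) (nat_lit 19) (nat_lit 5) (nat_lit 20) (nat_lit 4) (nat_lit 391) (nat_lit 280) (nat_lit 109)) (XT.nd (nat_lit 78) (nat_lit 0) (nat_lit 0) (XT.lf (nat_lit 0) (nat_lit 25606210874) (nat_lit 76) (nat_lit 27509060644) (nat_lit 152) (nat_lit 17695448391) (nat_lit 18) (nat_lit 5) (nat_lit 19) (nat_lit 5) (nat_lit 20) (nat_lit 4) (nat_lit 392) (nat_lit 280) (nat_lit 108)) (XT.lf (nat_lit 0) (nat_lit 44781484792) (nat_lit 76) (nat_lit 17787087217) (nat_lit 152) (nat_lit 10054143855) (nat_lit 18) (nat_lit 5) (nat_lit 19) (nat_lit 5) (nat_lit 20) (nat_lit 4) (nat_lit 393)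 (nat_lit 280) (nat_lit 107)))) (XT.nd (nat_lit 156) (nat_lit 0) (nat_lit 0) (XT.nd (nat_lit 78) (nat_lit 228) (nat_lit 0) (XT.lf (nat_lit 0) (nat_lit 64525559182) (nat_lit 76) (nat_lit 7776296437) (nat_lit 152) (nat_lit 2187326045) (nat_lit 18) (nat_lit 5) (nat_lit 19) (nat_lit 5) (nat_lit 20) (nat_lit 4) (nat_lit 394) (nat_lit 280) (nat_lit 106)) (XT.lf (nat_lit 0) (nat_lit 5904459951) (nat_lit 228) (nat_lit 67879263761) (nat_lit 76) (nat_lit 2623081341) (nat_lit 15) (nat_lit 5) (nat_lit 18) (nat_lit 5) (nat_lit 16) (nat_lit 4) (nat_lit 395) (nat_lit 280) (nat_lit 105))) (XT.nd (nat_lit 78) (nat_lit 0) (nat_lit 0) (XT.lf (nat_lit 0) (nat_lit 14370108198) (nat_lit 228) (nat_lit 50707259446) (nat_lit 76) (nat_lit 13298689008) (nat_lit 15) (nat_lit 5) (nat_lit 18) (nat_lit 5) (nat_lit 16) (nat_lit 4) (nat_lit 396) (nat_lit 280) (nat_lit 104)) (XT.lf (nat_lit 0) (nat_lit 23086298228) (nat_lit 228)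 (nat_lit 33026269052) (nat_lit 76) (nat_lit 24291922675) (nat_lit 15) (nat_lit 5) (nat_lit 18) (nat_lit 5) (nat_lit 16) (nat_lit 4) (nat_lit 397) (nat_lit 280) (nat_lit 103)))))) (XT.nd (nat_lit 31590) (nat_lit 0) (nat_lit 15504) (XT.nd (nat_lit 234) (nat_lit 0) (nat_lit 0) (XT.nd (nat_lit 78) (nat_lit 76) (nat_lit 0) (XT.lf (nat_lit 0) (nat_lit 32060646129) (nat_lit 228) (nat_lit 14820843169) (nat_lit 76) (nat_lit 35612388079) (nat_lit 15) (nat_lit 5) (nat_lit 18) (nat_lit 5) (nat_lit 16) (nat_lit 4) (nat_lit 398) (nat_lit 280) (nat_lit 102)) (XT.nd (nat_lit 78) (nat_lit 0) (nat_lit 0) (XT.lf (nat_lit 0) (nat_lit 4003039577) (nat_lit 76) (nat_lit 37336433653) (nat_lit 152) (nat_lit 43305416977) (nat_lit 14) (nat_lit 5) (nat_lit 15) (nat_lit 5) (nat_lit 16) (nat_lit 4) (nat_lit 399) (nat_lit 280) (nat_lit 101)) (XT.lf (nat_lit 0) (nat_lit 23689688982) (nat_lit 76) (nat_lit 27353445425) (nat_lit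 152) (nat_lit 35812906148) (nat_lit 14) (nat_lit 5) (nat_lit 15) (nat_lit 5) (nat_lit 16) (nat_lit 4) (nat_lit 400) (nat_lit 280) (nat_lit 100)))) (XT.nd (nat_lit 78) (nat_lit 0) (nat_lit 0) (XT.lf (nat_lit 0) (nat_lit 43961343132) (nat_lit 76) (nat_lit 17073463071) (nat_lit 152) (nat_lit 28098813363) (nat_lit 14) (nat_lit 5) (nat_lit 15) (nat_lit 5) (nat_lit 16) (nat_lit 4) (nat_lit 401) (nat_lit 280) (nat_lit 99)) (XT.nd (nat_lit 31200) (nat_lit 0) (nat_lit 16416) (XT.lf (nat_lit 0) (nat_lit 64835715125) (nat_lit 76) (nat_lit 6487504082) (nat_lit 152) (nat_lit 20156398152) (nat_lit 14) (nat_lit 5) (nat_lit 15) (nat_lit 5) (nat_lit 16) (nat_lit 4) (nat_lit 402) (nat_lit 280) (nat_lit 98)) (XT.lf (nat_lit 0) (nat_lit 1784076486) (nat_lit 988) (nat_lit 1196974434) (nat_lit 988) (nat_lit 1196974434) (nat_lit 230) (nat_lit 3) (nat_lit 243) (nat_lit 3) (nat_lit 243) (nat_lit 5) (nat_lit 281) (nat_lit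 281) (nat_lit 218))))) (XT.nd (nat_lit 234) (nat_lit 912) (nat_lit 0) (XT.nd (nat_lit 78) (nat_lit 0) (nat_lit 0) (XT.lf (nat_lit 76) (nat_lit 1412617969) (nat_lit 0) (nat_lit 3237576250) (nat_lit 988) (nat_lit 3798759181) (nat_lit 231) (nat_lit 5) (nat_lit 230) (nat_lit 3) (nat_lit 243) (nat_lit 5) (nat_lit 282) (nat_lit 281) (nat_lit 217)) (XT.nd (nat_lit 78) (nat_lit 0) (nat_lit 76) (XT.lf (nat_lit 76) (nat_lit 5361618646) (nat_lit 0) (nat_lit 387441680) (nat_lit 988) (nat_lit 2796113699) (nat_lit 231) (nat_lit 5) (nat_lit 230) (nat_lit 3) (nat_lit 243) (nat_lit 5) (nat_lit 283) (nat_lit 281) (nat_lit 216)) (XT.lf (nat_lit 76) (nat_lit 753388119) (nat_lit 0) (nat_lit 6120767193) (nat_lit 988) (nat_lit 1770388031) (nat_lit 232) (nat_lit 5) (nat_lit 231) (nat_lit 5) (nat_lit 244) (nat_lit 5) (nat_lit 284) (nat_lit 281) (nat_lit 215)))) (XT.nd (nat_lit 156) (nat_lit 0) (nat_lit 76) (XT.nd (nat_lit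 78) (nat_lit 988) (nat_lit 0) (XT.lf (nat_lit 76) (nat_lit 4848372869) (nat_lit 0) (nat_lit 3183017187) (nat_lit 988) (nat_lit 715610293) (nat_lit 232) (nat_lit 5) (nat_lit 231) (nat_lit 5) (nat_lit 244) (nat_lit 5) (nat_lit 285) (nat_lit 281) (nat_lit 214)) (XT.lf (nat_lit 76) (nat_lit 192284203) (nat_lit 0) (nat_lit 136257363) (nat_lit 1064) (nat_lit 8524988440) (nat_lit 219) (nat_lit 5) (nat_lit 218) (nat_lit 5) (nat_lit 232) (nat_lit 5) (nat_lit 286) (nat_lit 281) (nat_lit 213))) (XT.nd (nat_lit 78) (nat_lit 0) (nat_lit 0) (XT.lf (nat_lit 0) (nat_lit 1422377243) (nat_lit 988) (nat_lit 4535206868) (nat_lit 1064) (nat_lit 3004529889) (nat_lit 219) (nat_lit 5) (nat_lit 232) (nat_lit 5) (nat_lit 233) (nat_lit 5) (nat_lit 287) (nat_lit 281) (nat_lit 212)) (XT.lf (nat_lit 0) (nat_lit 2515549781) (nat_lit 988) (nat_lit 308718819) (nat_lit 1064) (nat_lit 6250742985) (nat_lit 219) (nat_lit 5) (nat_lit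 232) (nat_lit 5) (nat_lit 233) (nat_lit 5) (nat_lit 288) (nat_lit 281) (nat_lit 211))))))) (XT.nd (nat_lit 1014) (nat_lit 3876) (nat_lit 0) (XT.nd (nat_lit 468) (nat_lit 2052) (nat_lit 0) (XT.nd (nat_lit 234) (nat_lit 988) (nat_lit 0) (XT.nd (nat_lit 78) (nat_lit 0) (nat_lit 0) (XT.lf (nat_lit 0) (nat_lit 3651532662) (nat_lit 988) (nat_lit 5092270959) (nat_lit 1064) (nat_lit 447242237) (nat_lit 220) (nat_lit 5) (nat_lit 233) (nat_lit 5) (nat_lit 234) (nat_lit 5) (nat_lit 289) (nat_lit 281) (nat_lit 210)) (XT.nd (nat_lit 78) (nat_lit 0) (nat_lit 0) (XT.lf (nat_lit 0) (nat_lit 4819789564) (nat_lit 988) (nat_lit 715927202) (nat_lit 1064) (nat_lit 3774947312) (nat_lit 220) (nat_lit 5) (nat_lit 233) (nat_lit 5) (nat_lit 234) (nat_lit 5) (nat_lit 290) (nat_lit 281) (nat_lit 209)) (XT.lf (nat_lit 76) (nat_lit 3845100263) (nat_lit 0) (nat_lit 2182997264) (nat_lit 1064) (nat_lit 3405670551) (nat_lit 221)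 (nat_lit 5) (nat_lit 220) (nat_lit 5) (nat_lit 234) (nat_lit 5) (nat_lit 291) (nat_lit 281) (nat_lit 208)))) (XT.nd (nat_lit 78) (nat_lit 1064) (nat_lit 0) (XT.lf (nat_lit 0) (nat_lit 7261027738) (nat_lit 988) (nat_lit 1037499913) (nat_lit 1064) (nat_lit 1262432314) (nat_lit 221) (nat_lit 5) (nat_lit 234) (nat_lit 5) (nat_lit 235) (nat_lit 5) (nat_lit 292) (nat_lit 281) (nat_lit 207)) (XT.nd (nat_lit 78) (nat_lit 1064) (nat_lit 0) (XT.lf (nat_lit 76) (nat_lit 3678522412) (nat_lit 0) (nat_lit 4879165471) (nat_lit 1064) (nat_lit 1133522080) (nat_lit 222) (nat_lit 5) (nat_lit 221) (nat_lit 5) (nat_lit 235) (nat_lit 5) (nat_lit 293) (nat_lit 281) (nat_lit 206)) (XT.lf (nat_lit 0) (nat_lit 47241661) (nat_lit 1064) (nat_lit 1290787080) (nat_lit 1140) (nat_lit 8487940625) (nat_lit 207) (nat_lit 5) (nat_lit 221) (nat_lit 5) (nat_lit 222) (nat_lit 5) (nat_lit 294) (nat_lit 281) (nat_lit 205))))) (XT.nd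 (nat_lit 234) (nat_lit 2128) (nat_lit 0) (XT.nd (nat_lit 78) (nat_lit 0) (nat_lit 0) (XT.lf (nat_lit 0) (nat_lit 1269051636) (nat_lit 1064) (nat_lit 6376653236) (nat_lit 1140) (nat_lit 2317918640) (nat_lit 208) (nat_lit 5) (nat_lit 222) (nat_lit 5) (nat_lit 223) (nat_lit 5) (nat_lit 295) (nat_lit 281) (nat_lit 204)) (XT.nd (nat_lit 78) (nat_lit 0) (nat_lit 0) (XT.lf (nat_lit 0) (nat_lit 2525609929) (nat_lit 1064) (nat_lit 1503241274) (nat_lit 1140) (nat_lit 6076652901) (nat_lit 208) (nat_lit 5) (nat_lit 222) (nat_lit 5) (nat_lit 223) (nat_lit 5) (nat_lit 296) (nat_lit 281) (nat_lit 203)) (XT.lf (nat_lit 76) (nat_lit 3564206677) (nat_lit 0) (nat_lit 262427141) (nat_lit 1140) (nat_lit 6424842718) (nat_lit 209) (nat_lit 5) (nat_lit 208) (nat_lit 5) (nat_lit 223) (nat_lit 5) (nat_lit 297) (nat_lit 281) (nat_lit 202)))) (XT.nd (nat_lit 156) (nat_lit 1140) (nat_lit 0) (XT.nd (nat_lit 78) (nat_lit 1064)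 (nat_lit 0) (XT.lf (nat_lit 0) (nat_lit 5189940635) (nat_lit 1064) (nat_lit 1644198861) (nat_lit 76) (nat_lit 3567028443) (nat_lit 209) (nat_lit 5) (nat_lit 223) (nat_lit 5) (nat_lit 210) (nat_lit 5) (nat_lit 298) (nat_lit 281) (nat_lit 201)) (XT.lf (nat_lit 0) (nat_lit 3595988962) (nat_lit 1064) (nat_lit 3009258178) (nat_lit 1140) (nat_lit 3949806209) (nat_lit 195) (nat_lit 5) (nat_lit 209) (nat_lit 5) (nat_lit 210) (nat_lit 5) (nat_lit 299) (nat_lit 281) (nat_lit 200))) (XT.nd (nat_lit 78) (nat_lit 1140) (nat_lit 0) (XT.lf (nat_lit 0) (nat_lit 8063249446) (nat_lit 1140) (nat_lit 1717451343) (nat_lit 76) (nat_lit 932882656) (nat_lit 195) (nat_lit 5) (nat_lit 210) (nat_lit 5) (nat_lit 196) (nat_lit 5) (nat_lit 300) (nat_lit 281) (nat_lit 199)) (XT.lf (nat_lit 0) (nat_lit 3702135778) (nat_lit 1140) (nat_lit 5903505589) (nat_lit 1216) (nat_lit 1270042783) (nat_lit 180) (nat_lit 5) (nat_lit 195)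 (nat_lit 5) (nat_lit 196) (nat_lit 5) (nat_lit 301) (nat_lit 281) (nat_lit 198)))))) (XT.nd (nat_lit 546) (nat_lit 2052) (nat_lit 0) (XT.nd (nat_lit 234) (nat_lit 1140) (nat_lit 0) (XT.nd (nat_lit 78) (nat_lit 608) (nat_lit 0) (XT.lf (nat_lit 0) (nat_lit 141721373) (nat_lit 1216) (nat_lit 1746268920) (nat_lit 76) (nat_lit 9154855375) (nat_lit 179) (nat_lit 5) (nat_lit 195) (nat_lit 5) (nat_lit 180) (nat_lit 5) (nat_lit 302) (nat_lit 281) (nat_lit 197)) (XT.nd (nat_lit 78) (nat_lit 0) (nat_lit 0) (XT.lf (nat_lit 0) (nat_lit 1606012169) (nat_lit 684) (nat_lit 7350703936) (nat_lit 76) (nat_lit 2256888971) (nat_lit 171) (nat_lit 5) (nat_lit 180) (nat_lit 5) (nat_lit 172) (nat_lit 5) (nat_lit 303) (nat_lit 281) (nat_lit 196)) (XT.lf (nat_lit 0) (nat_lit 3127464744) (nat_lit 684) (nat_lit 1753609151) (nat_lit 76) (nat_lit 6508046761) (nat_lit 171) (nat_lit 5) (nat_lit 180) (nat_lit 5) (nat_lit 172)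 (nat_lit 5) (nat_lit 304) (nat_lit 281) (nat_lit 195)))) (XT.nd (nat_lit 156) (nat_lit 532) (nat_lit 0) (XT.nd (nat_lit 78) (nat_lit 0) (nat_lit 0) (XT.lf (nat_lit 0) (nat_lit 4069521697) (nat_lit 608) (nat_lit 641567247) (nat_lit 684) (nat_lit 6858346415) (nat_lit 163) (nat_lit 5) (nat_lit 171) (nat_lit 5) (nat_lit 172) (nat_lit 5) (nat_lit 305) (nat_lit 281) (nat_lit 194)) (XT.lf (nat_lit 0) (nat_lit 6373788213) (nat_lit 684) (nat_lit 1709099980) (nat_lit 76) (nat_lit 3671352956) (nat_lit 163) (nat_lit 5) (nat_lit 172) (nat_lit 5) (nat_lit 164) (nat_lit 5) (nat_lit 306) (nat_lit 281) (nat_lit 193))) (XT.nd (nat_lit 78) (nat_lit 0) (nat_lit 0) (XT.lf (nat_lit 0) (nat_lit 4312082698) (nat_lit 532) (nat_lit 3800607539) (nat_lit 608) (nat_lit 3831139030) (nat_lit 156) (nat_lit 5) (nat_lit 163) (nat_lit 5) (nat_lit 164) (nat_lit 5) (nat_lit 307) (nat_lit 281) (nat_lit 192)) (XT.lf (nat_lit 0) (nat_lit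 9905998539) (nat_lit 608) (nat_lit 1617287470) (nat_lit 76) (nat_lit 615778834) (nat_lit 156) (nat_lit 5) (nat_lit 164) (nat_lit 5) (nat_lit 157) (nat_lit 5) (nat_lit 308) (nat_lit 281) (nat_lit 191))))) (XT.nd (nat_lit 234) (nat_lit 988) (nat_lit 0) (XT.nd (nat_lit 78) (nat_lit 532) (nat_lit 0) (XT.lf (nat_lit 0) (nat_lit 4608941803) (nat_lit 532) (nat_lit 7205656020) (nat_lit 608) (nat_lit 523741121) (nat_lit 149) (nat_lit 5) (nat_lit 156) (nat_lit 5) (nat_lit 157) (nat_lit 5) (nat_lit 309) (nat_lit 281) (nat_lit 190)) (XT.nd (nat_lit 78) (nat_lit 456) (nat_lit 0) (XT.lf (nat_lit 0) (nat_lit 1208951633) (nat_lit 608) (nat_lit 1521235138) (nat_lit 76) (nat_lit 9813185810) (nat_lit 148) (nat_lit 5) (nat_lit 156) (nat_lit 5) (nat_lit 149) (nat_lit 5) (nat_lit 310) (nat_lit 281) (nat_lit 189)) (XT.lf (nat_lit 0) (nat_lit 3029523455) (nat_lit 532) (nat_lit 7828287889) (nat_lit 76) (nat_lit 1895221553)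 (nat_lit 142) (nat_lit 5) (nat_lit 149) (nat_lit 5) (nat_lit 143) (nat_lit 5) (nat_lit 311) (nat_lit 281) (nat_lit 188)))) (XT.nd (nat_lit 156) (nat_lit 456) (nat_lit 0) (XT.nd (nat_lit 78) (nat_lit 532) (nat_lit 0) (XT.lf (nat_lit 0) (nat_lit 4927945323) (nat_lit 532) (nat_lit 1421383847) (nat_lit 76) (nat_lit 6618980150) (nat_lit 142) (nat_lit 5) (nat_lit 149) (nat_lit 5) (nat_lit 143) (nat_lit 5) (nat_lit 312) (nat_lit 281) (nat_lit 187)) (XT.lf (nat_lit 0) (nat_lit 5260013382) (nat_lit 532) (nat_lit 1655119177) (nat_lit 608) (nat_lit 6273979702) (nat_lit 135) (nat_lit 5) (nat_lit 142) (nat_lit 5) (nat_lit 143) (nat_lit 5) (nat_lit 313) (nat_lit 281) (nat_lit 186))) (XT.nd (nat_lit 78) (nat_lit 456) (nat_lit 0) (XT.lf (nat_lit 0) (nat_lit 8988583718) (nat_lit 608) (nat_lit 1296541749) (nat_lit 76) (nat_lit 3130636323) (nat_lit 135) (nat_lit 5) (nat_lit 143) (nat_lit 5) (nat_lit 136) (nat_lit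 5) (nat_lit 314) (nat_lit 281) (nat_lit 185)) (XT.lf (nat_lit 0) (nat_lit 5607925764) (nat_lit 456) (nat_lit 5568728814) (nat_lit 532) (nat_lit 2471005052) (nat_lit 129) (nat_lit 5) (nat_lit 135) (nat_lit 5) (nat_lit 136) (nat_lit 5) (nat_lit 315) (nat_lit 281) (nat_lit 184))))))))
noncomputable def xc159 : XT := (XT.nd (nat_lit 2106) (nat_lit 2432) (nat_lit 0) (XT.nd (nat_lit 1014) (nat_lit 2356) (nat_lit 0) (XT.nd (nat_lit 468) (nat_lit 1140) (nat_lit 0) (XT.nd (nat_lit 234) (nat_lit 760) (nat_lit 0) (XT.nd (nat_lit 78) (nat_lit 532) (nat_lit 0) (XT.lf (nat_lit 0) (nat_lit 12726192450) (nat_lit 456) (nat_lit 699718982) (nat_lit 532) (nat_lit 460757345) (nat_lit 129) (nat_lit 5) (nat_lit 135) (nat_lit 5) (nat_lit 136) (nat_lit 5) (nat_lit 316) (nat_lit 281) (nat_lit 183)) (XT.nd (nat_lit 78) (nat_lit 0) (nat_lit 0) (XT.lf (nat_lit 0) (nat_lit 1661087017) (nat_lit 532) (nat_lit 8166159120) (nat_lit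 76) (nat_lit 4302676267) (nat_lit 122) (nat_lit 5) (nat_lit 129) (nat_lit 5) (nat_lit 123) (nat_lit 5) (nat_lit 317) (nat_lit 281) (nat_lit 182)) (XT.lf (nat_lit 0) (nat_lit 3839151861) (nat_lit 532) (nat_lit 1086212591) (nat_lit 76) (nat_lit 9454936485) (nat_lit 122) (nat_lit 5) (nat_lit 129) (nat_lit 5) (nat_lit 123) (nat_lit 5) (nat_lit 318) (nat_lit 281) (nat_lit 181)))) (XT.nd (nat_lit 78) (nat_lit 380) (nat_lit 0) (XT.lf (nat_lit 0) (nat_lit 6128529207) (nat_lit 456) (nat_lit 8328803351) (nat_lit 76) (nat_lit 179497533) (nat_lit 117) (nat_lit 5) (nat_lit 123) (nat_lit 5) (nat_lit 118) (nat_lit 5) (nat_lit 319) (nat_lit 281) (nat_lit 180)) (XT.nd (nat_lit 78) (nat_lit 380) (nat_lit 0) (XT.lf (nat_lit 0) (nat_lit 8530252275) (nat_lit 456) (nat_lit 1022944114) (nat_lit 76) (nat_lit 5346566643) (nat_lit 117) (nat_lit 5) (nat_lit 123) (nat_lit 5) (nat_lit 118) (nat_lit 5) (nat_lit 320) (nat_lit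 281) (nat_lit 179)) (XT.lf (nat_lit 0) (nat_lit 6611985407) (nat_lit 380) (nat_lit 4439892505) (nat_lit 456) (nat_lit 4117287851) (nat_lit 112) (nat_lit 5) (nat_lit 117) (nat_lit 5) (nat_lit 118) (nat_lit 5) (nat_lit 321) (nat_lit 281) (nat_lit 178))))) (XT.nd (nat_lit 234) (nat_lit 684) (nat_lit 0) (XT.nd (nat_lit 78) (nat_lit 456) (nat_lit 0) (XT.lf (nat_lit 0) (nat_lit 13652066248) (nat_lit 456) (nat_lit 976846252) (nat_lit 76) (nat_lit 817667480) (nat_lit 112) (nat_lit 5) (nat_lit 118) (nat_lit 5) (nat_lit 113) (nat_lit 5) (nat_lit 322) (nat_lit 281) (nat_lit 177)) (XT.nd (nat_lit 78) (nat_lit 0) (nat_lit 0) (XT.lf (nat_lit 0) (nat_lit 682501092) (nat_lit 456) (nat_lit 8833350852) (nat_lit 76) (nat_lit 6213421336) (nat_lit 106) (nat_lit 5) (nat_lit 112) (nat_lit 5) (nat_lit 107) (nat_lit 5) (nat_lit 323) (nat_lit 281) (nat_lit 176)) (XT.lf (nat_lit 0) (nat_lit 3192801410) (nat_lit 456) (nat_lit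 1032068754) (nat_lit 76) (nat_lit 11795208295) (nat_lit 106) (nat_lit 5) (nat_lit 112) (nat_lit 5) (nat_lit 107) (nat_lit 5) (nat_lit 324) (nat_lit 281) (nat_lit 175)))) (XT.nd (nat_lit 156) (nat_lit 304) (nat_lit 0) (XT.nd (nat_lit 78) (nat_lit 0) (nat_lit 0) (XT.lf (nat_lit 0) (nat_lit 5844819622) (nat_lit 456) (nat_lit 9206551901) (nat_lit 76) (nat_lit 1266258951) (nat_lit 101) (nat_lit 5) (nat_lit 107) (nat_lit 5) (nat_lit 102) (nat_lit 5) (nat_lit 325) (nat_lit 281) (nat_lit 174)) (XT.lf (nat_lit 0) (nat_lit 8614477950) (nat_lit 456) (nat_lit 1164675022) (nat_lit 76) (nat_lit 6843828200) (nat_lit 101) (nat_lit 5) (nat_lit 107) (nat_lit 5) (nat_lit 102) (nat_lit 5) (nat_lit 326) (nat_lit 281) (nat_lit 173))) (XT.nd (nat_lit 78) (nat_lit 0) (nat_lit 0) (XT.lf (nat_lit 0) (nat_lit 7241690240) (nat_lit 304) (nat_lit 4281287260) (nat_lit 380) (nat_lit 5412856435) (nat_lit 97) (nat_lit 5) (nat_lit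 101) (nat_lit 5) (nat_lit 102) (nat_lit 5) (nat_lit 327) (nat_lit 281) (nat_lit 172)) (XT.lf (nat_lit 0) (nat_lit 14530219819) (nat_lit 380) (nat_lit 1365278288) (nat_lit 76) (nat_lit 1362243219) (nat_lit 97) (nat_lit 5) (nat_lit 102) (nat_lit 5) (nat_lit 98) (nat_lit 5) (nat_lit 328) (nat_lit 281) (nat_lit 171)))))) (XT.nd (nat_lit 546) (nat_lit 912) (nat_lit 0) (XT.nd (nat_lit 234) (nat_lit 684) (nat_lit 0) (XT.nd (nat_lit 78) (nat_lit 304) (nat_lit 0) (XT.lf (nat_lit 0) (nat_lit 137842383) (nat_lit 456) (nat_lit 10292015170) (nat_lit 76) (nat_lit 7156443679) (nat_lit 91) (nat_lit 5) (nat_lit 97) (nat_lit 5) (nat_lit 92) (nat_lit 5) (nat_lit 329) (nat_lit 281) (nat_lit 170)) (XT.nd (nat_lit 78) (nat_lit 304) (nat_lit 0) (XT.lf (nat_lit 0) (nat_lit 3035074125) (nat_lit 456) (nat_lit 1727673953) (nat_lit 76) (nat_lit 13161150397) (nat_lit 91) (nat_lit 5) (nat_lit 97) (nat_lit 5) (nat_lit 92) (nat_lit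 5) (nat_lit 330) (nat_lit 281) (nat_lit 169)) (XT.lf (nat_lit 0) (nat_lit 6086757565) (nat_lit 380) (nat_lit 11063812989) (nat_lit 76) (nat_lit 1119039192) (nat_lit 87) (nat_lit 5) (nat_lit 92) (nat_lit 5) (nat_lit 88) (nat_lit 5) (nat_lit 331) (nat_lit 281) (nat_lit 168)))) (XT.nd (nat_lit 156) (nat_lit 380) (nat_lit 0) (XT.nd (nat_lit 78) (nat_lit 304) (nat_lit 0) (XT.lf (nat_lit 0) (nat_lit 9282119254) (nat_lit 380) (nat_lit 2247318757) (nat_lit 76) (nat_lit 7094702311) (nat_lit 87) (nat_lit 5) (nat_lit 92) (nat_lit 5) (nat_lit 88) (nat_lit 5) (nat_lit 332) (nat_lit 281) (nat_lit 167)) (XT.lf (nat_lit 0) (nat_lit 6952337049) (nat_lit 304) (nat_lit 5675556191) (nat_lit 380) (nat_lit 6359788486) (nat_lit 83) (nat_lit 5) (nat_lit 87) (nat_lit 5) (nat_lit 88) (nat_lit 5) (nat_lit 333) (nat_lit 281) (nat_lit 166))) (XT.nd (nat_lit 78) (nat_lit 380) (nat_lit 0) (XT.lf (nat_lit 0) (nat_lit 16088232471)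 (nat_lit 380) (nat_lit 2908184898) (nat_lit 76) (nat_lit 365297363) (nat_lit 83) (nat_lit 5) (nat_lit 88) (nat_lit 5) (nat_lit 84) (nat_lit 5) (nat_lit 334) (nat_lit 281) (nat_lit 165)) (XT.lf (nat_lit 0) (nat_lit 15670201) (nat_lit 380) (nat_lit 13196206922) (nat_lit 76) (nat_lit 6531877026) (nat_lit 78) (nat_lit 5) (nat_lit 83) (nat_lit 5) (nat_lit 79) (nat_lit 5) (nat_lit 335) (nat_lit 281) (nat_lit 164))))) (XT.nd (nat_lit 234) (nat_lit 608) (nat_lit 0) (XT.nd (nat_lit 78) (nat_lit 304) (nat_lit 0) (XT.lf (nat_lit 0) (nat_lit 3355645339) (nat_lit 380) (nat_lit 3839248873) (nat_lit 76) (nat_lit 12940860137) (nat_lit 78) (nat_lit 5) (nat_lit 83) (nat_lit 5) (nat_lit 79) (nat_lit 5) (nat_lit 336) (nat_lit 281) (nat_lit 163)) (XT.nd (nat_lit 78) (nat_lit 0) (nat_lit 0) (XT.lf (nat_lit 0) (nat_lit 5897242006) (nat_lit 304) (nat_lit 943890987) (nat_lit 380) (nat_lit 13697032044) (nat_lit 74) (nat_lit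 5) (nat_lit 78) (nat_lit 5) (nat_lit 79) (nat_lit 5) (nat_lit 337) (nat_lit 281) (nat_lit 162)) (XT.lf (nat_lit 0) (nat_lit 10511910793) (nat_lit 380) (nat_lit 5016549731) (nat_lit 76) (nat_lit 5421775350) (nat_lit 74) (nat_lit 5) (nat_lit 79) (nat_lit 5) (nat_lit 75) (nat_lit 5) (nat_lit 338) (nat_lit 281) (nat_lit 161)))) (XT.nd (nat_lit 156) (nat_lit 380) (nat_lit 0) (XT.nd (nat_lit 78) (nat_lit 0) (nat_lit 0) (XT.lf (nat_lit 0) (nat_lit 4968243575) (nat_lit 228) (nat_lit 9370754046) (nat_lit 304) (nat_lit 7034294958) (nat_lit 71) (nat_lit 5) (nat_lit 74) (nat_lit 5) (nat_lit 75) (nat_lit 5) (nat_lit 339) (nat_lit 281) (nat_lit 160)) (XT.lf (nat_lit 0) (nat_lit 15339656987) (nat_lit 228) (nat_lit 2981146337) (nat_lit 304) (nat_lit 3487049516) (nat_lit 71) (nat_lit 5) (nat_lit 74) (nat_lit 5) (nat_lit 75) (nat_lit 5) (nat_lit 340) (nat_lit 281) (nat_lit 159))) (XT.nd (nat_lit 78) (nat_lit 0)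 (nat_lit 0) (XT.lf (nat_lit 0) (nat_lit 224512331) (nat_lit 380) (nat_lit 18465293956) (nat_lit 76) (nat_lit 3563769590) (nat_lit 66) (nat_lit 5) (nat_lit 71) (nat_lit 5) (nat_lit 67) (nat_lit 5) (nat_lit 341) (nat_lit 281) (nat_lit 158)) (XT.lf (nat_lit 0) (nat_lit 4062375771) (nat_lit 380) (nat_lit 8305991240) (nat_lit 76) (nat_lit 10340724882) (nat_lit 66) (nat_lit 5) (nat_lit 71) (nat_lit 5) (nat_lit 67) (nat_lit 5) (nat_lit 342) (nat_lit 281) (nat_lit 157))))))) (XT.nd (nat_lit 1014) (nat_lit 988) (nat_lit 0) (XT.nd (nat_lit 468) (nat_lit 684) (nat_lit 0) (XT.nd (nat_lit 234) (nat_lit 304) (nat_lit 0) (XT.nd (nat_lit 78) (nat_lit 228) (nat_lit 0) (XT.lf (nat_lit 0) (nat_lit 2185556513) (nat_lit 228) (nat_lit 5840693418) (nat_lit 304) (nat_lit 15151705248) (nat_lit 63) (nat_lit 5) (nat_lit 66) (nat_lit 5) (nat_lit 67) (nat_lit 5) (nat_lit 343) (nat_lit 281) (nat_lit 156)) (XT.nd (nat_lit 78)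 (nat_lit 228) (nat_lit 0) (XT.lf (nat_lit 0) (nat_lit 12192199122) (nat_lit 304) (nat_lit 10520861351) (nat_lit 76) (nat_lit 945336927) (nat_lit 63) (nat_lit 5) (nat_lit 67) (nat_lit 5) (nat_lit 64) (nat_lit 5) (nat_lit 344) (nat_lit 281) (nat_lit 155)) (XT.lf (nat_lit 0) (nat_lit 195970895) (nat_lit 228) (nat_lit 16337128554) (nat_lit 304) (nat_lit 7618661832) (nat_lit 60) (nat_lit 5) (nat_lit 63) (nat_lit 5) (nat_lit 64) (nat_lit 5) (nat_lit 345) (nat_lit 281) (nat_lit 154)))) (XT.nd (nat_lit 78) (nat_lit 304) (nat_lit 0) (XT.lf (nat_lit 0) (nat_lit 11435274368) (nat_lit 228) (nat_lit 9665595078) (nat_lit 304) (nat_lit 3556164705) (nat_lit 60) (nat_lit 5) (nat_lit 63) (nat_lit 5) (nat_lit 64) (nat_lit 5) (nat_lit 346) (nat_lit 281) (nat_lit 153)) (XT.nd (nat_lit 78) (nat_lit 228) (nat_lit 0) (XT.lf (nat_lit 0) (nat_lit 606531616) (nat_lit 304) (nat_lit 2186214222) (nat_lit 76) (nat_lit 22384827651)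 (nat_lit 59) (nat_lit 5) (nat_lit 63) (nat_lit 5) (nat_lit 60) (nat_lit 5) (nat_lit 347) (nat_lit 281) (nat_lit 152)) (XT.lf (nat_lit 0) (nat_lit 4945401851) (nat_lit 304) (nat_lit 16439788444) (nat_lit 76) (nat_lit 4323806102) (nat_lit 56) (nat_lit 5) (nat_lit 60) (nat_lit 5) (nat_lit 57) (nat_lit 5) (nat_lit 348) (nat_lit 281) (nat_lit 151))))) (XT.nd (nat_lit 234) (nat_lit 456) (nat_lit 0) (XT.nd (nat_lit 78) (nat_lit 228) (nat_lit 0) (XT.lf (nat_lit 0) (nat_lit 9455326874) (nat_lit 304) (nat_lit 5184599107) (nat_lit 76) (nat_lit 11615215885) (nat_lit 56) (nat_lit 5) (nat_lit 60) (nat_lit 5) (nat_lit 57) (nat_lit 5) (nat_lit 349) (nat_lit 281) (nat_lit 150)) (XT.nd (nat_lit 78) (nat_lit 0) (nat_lit 0) (XT.lf (nat_lit 0) (nat_lit 6521783251) (nat_lit 228) (nat_lit 7632664248) (nat_lit 304) (nat_lit 12661613605) (nat_lit 53) (nat_lit 5) (nat_lit 56) (nat_lit 5) (nat_lit 57) (nat_lit 5) (nat_lit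 350) (nat_lit 281) (nat_lit 149)) (XT.lf (nat_lit 0) (nat_lit 18672044710) (nat_lit 228) (nat_lit 366183271) (nat_lit 304) (nat_lit 8354275509) (nat_lit 53) (nat_lit 5) (nat_lit 56) (nat_lit 5) (nat_lit 57) (nat_lit 5) (nat_lit 351) (nat_lit 281) (nat_lit 148)))) (XT.nd (nat_lit 156) (nat_lit 228) (nat_lit 0) (XT.nd (nat_lit 78) (nat_lit 76) (nat_lit 0) (XT.lf (nat_lit 0) (nat_lit 3180810356) (nat_lit 152) (nat_lit 20978251266) (nat_lit 228) (nat_lit 3824467312) (nat_lit 51) (nat_lit 5) (nat_lit 53) (nat_lit 5) (nat_lit 54) (nat_lit 5) (nat_lit 352) (nat_lit 281) (nat_lit 147)) (XT.lf (nat_lit 0) (nat_lit 908945598) (nat_lit 228) (nat_lit 12997799023) (nat_lit 76) (nat_lit 14682779782) (nat_lit 50) (nat_lit 5) (nat_lit 53) (nat_lit 5) (nat_lit 51) (nat_lit 5) (nat_lit 353) (nat_lit 281) (nat_lit 146))) (XT.nd (nat_lit 78) (nat_lit 228) (nat_lit 0) (XT.lf (nat_lit 0) (nat_lit 5699307460) (nat_lit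 228) (nat_lit 889656312) (nat_lit 76) (nat_lit 22623851017) (nat_lit 50) (nat_lit 5) (nat_lit 53) (nat_lit 5) (nat_lit 51) (nat_lit 5) (nat_lit 354) (nat_lit 281) (nat_lit 145)) (XT.lf (nat_lit 0) (nat_lit 10749048881) (nat_lit 304) (nat_lit 18062539148) (nat_lit 76) (nat_lit 1039751107) (nat_lit 47) (nat_lit 5) (nat_lit 51) (nat_lit 5) (nat_lit 48) (nat_lit 5) (nat_lit 355) (nat_lit 281) (nat_lit 144)))))) (XT.nd (nat_lit 546) (nat_lit 380) (nat_lit 0) (XT.nd (nat_lit 234) (nat_lit 456) (nat_lit 0) (XT.nd (nat_lit 78) (nat_lit 152) (nat_lit 0) (XT.lf (nat_lit 0) (nat_lit 16016710966) (nat_lit 304) (nat_lit 5720977531) (nat_lit 76) (nat_lit 8769343021) (nat_lit 47) (nat_lit 5) (nat_lit 51) (nat_lit 5) (nat_lit 48) (nat_lit 5) (nat_lit 356) (nat_lit 281) (nat_lit 143)) (XT.nd (nat_lit 78) (nat_lit 0) (nat_lit 0) (XT.lf (nat_lit 0) (nat_lit 7117338488) (nat_lit 152) (nat_lit 14385828622) (nat_lit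 228) (nat_lit 9677409642) (nat_lit 45) (nat_lit 5) (nat_lit 47) (nat_lit 5) (nat_lit 48) (nat_lit 5) (nat_lit 357) (nat_lit 281) (nat_lit 142)) (XT.lf (nat_lit 0) (nat_lit 20445822409) (nat_lit 152) (nat_lit 6758618232) (nat_lit 228) (nat_lit 4668385852) (nat_lit 45) (nat_lit 5) (nat_lit 47) (nat_lit 5) (nat_lit 48) (nat_lit 5) (nat_lit 358) (nat_lit 281) (nat_lit 141)))) (XT.nd (nat_lit 156) (nat_lit 152) (nat_lit 0) (XT.nd (nat_lit 78) (nat_lit 0) (nat_lit 0) (XT.lf (nat_lit 0) (nat_lit 500035833) (nat_lit 304) (nat_lit 30993346120) (nat_lit 76) (nat_lit 1091763591) (nat_lit 41) (nat_lit 5) (nat_lit 45) (nat_lit 5) (nat_lit 42) (nat_lit 5) (nat_lit 359) (nat_lit 281) (nat_lit 140)) (XT.lf (nat_lit 0) (nat_lit 5905782203) (nat_lit 304) (nat_lit 18206356049) (nat_lit 76) (nat_lit 9200030654) (nat_lit 41) (nat_lit 5) (nat_lit 45) (nat_lit 5) (nat_lit 42) (nat_lit 5) (nat_lit 360) (nat_lit 281)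 (nat_lit 139))) (XT.nd (nat_lit 78) (nat_lit 152) (nat_lit 0) (XT.lf (nat_lit 0) (nat_lit 11466567120) (nat_lit 304) (nat_lit 5047515384) (nat_lit 76) (nat_lit 17547138799) (nat_lit 41) (nat_lit 5) (nat_lit 45) (nat_lit 5) (nat_lit 42) (nat_lit 5) (nat_lit 361) (nat_lit 281) (nat_lit 138)) (XT.lf (nat_lit 0) (nat_lit 8663734557) (nat_lit 152) (nat_lit 8606796081) (nat_lit 228) (nat_lit 17559928175) (nat_lit 39) (nat_lit 5) (nat_lit 41) (nat_lit 5) (nat_lit 42) (nat_lit 5) (nat_lit 362) (nat_lit 281) (nat_lit 137))))) (XT.nd (nat_lit 234) (nat_lit 228) (nat_lit 0) (XT.nd (nat_lit 78) (nat_lit 152) (nat_lit 0) (XT.lf (nat_lit 0) (nat_lit 22878486433) (nat_lit 152) (nat_lit 414263638) (nat_lit 228) (nat_lit 12328703339) (nat_lit 39) (nat_lit 5) (nat_lit 41) (nat_lit 5) (nat_lit 42) (nat_lit 5) (nat_lit 363) (nat_lit 281) (nat_lit 136)) (XT.nd (nat_lit 78) (nat_lit 0) (nat_lit 0) (XT.lf (nat_lit 0)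 (nat_lit 1015041447) (nat_lit 152) (nat_lit 28560808153) (nat_lit 228) (nat_lit 6857925791) (nat_lit 37) (nat_lit 5) (nat_lit 39) (nat_lit 5) (nat_lit 40) (nat_lit 5) (nat_lit 364) (nat_lit 281) (nat_lit 135)) (XT.lf (nat_lit 0) (nat_lit 15431797730) (nat_lit 152) (nat_lit 20741797495) (nat_lit 228) (nat_lit 1093091050) (nat_lit 37) (nat_lit 5) (nat_lit 39) (nat_lit 5) (nat_lit 40) (nat_lit 5) (nat_lit 365) (nat_lit 281) (nat_lit 134)))) (XT.nd (nat_lit 156) (nat_lit 0) (nat_lit 0) (XT.nd (nat_lit 78) (nat_lit 152) (nat_lit 0) (XT.lf (nat_lit 0) (nat_lit 4743689017) (nat_lit 228) (nat_lit 7900936415) (nat_lit 76) (nat_lit 25478759439) (nat_lit 36) (nat_lit 5) (nat_lit 39) (nat_lit 5) (nat_lit 37) (nat_lit 5) (nat_lit 366) (nat_lit 281) (nat_lit 133)) (XT.lf (nat_lit 0) (nat_lit 6557652175) (nat_lit 152) (nat_lit 4232712264) (nat_lit 228) (nat_lit 28213395957) (nat_lit 34) (nat_lit 5) (nat_lit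 36) (nat_lit 5) (nat_lit 37) (nat_lit 5) (nat_lit 367) (nat_lit 281) (nat_lit 132))) (XT.nd (nat_lit 78) (nat_lit 0) (nat_lit 0) (XT.lf (nat_lit 0) (nat_lit 17135380656) (nat_lit 228) (nat_lit 18350150766) (nat_lit 76) (nat_lit 4421510959) (nat_lit 34) (nat_lit 5) (nat_lit 37) (nat_lit 5) (nat_lit 35) (nat_lit 5) (nat_lit 368) (nat_lit 281) (nat_lit 131)) (XT.lf (nat_lit 0) (nat_lit 23706604697) (nat_lit 228) (nat_lit 3883482999) (nat_lit 76) (nat_lit 13246262718) (nat_lit 34) (nat_lit 5) (nat_lit 37) (nat_lit 5) (nat_lit 35) (nat_lit 5) (nat_lit 369) (nat_lit 281) (nat_lit 130))))))))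
noncomputable def xc160 : XT := (XT.nd (nat_lit 2028) (nat_lit 304) (nat_lit 0) (XT.nd (nat_lit 1014) (nat_lit 380) (nat_lit 0) (XT.nd (nat_lit 468) (nat_lit 304) (nat_lit 0) (XT.nd (nat_lit 234) (nat_lit 304) (nat_lit 0) (XT.nd (nat_lit 78) (nat_lit 76) (nat_lit 0) (XT.lf (nat_lit 0) (nat_lit 11226288600) (nat_lit 152) (nat_lit 19350716343) (nat_lit 228) (nat_lit 11213474774) (nat_lit 32) (nat_lit 5) (nat_lit 34) (nat_lit 5) (nat_lit 35) (nat_lit 5) (nat_lit 370) (nat_lit 281) (nat_lit 129)) (XT.nd (nat_lit 78) (nat_lit 76) (nat_lit 0) (XT.lf (nat_lit 0) (nat_lit 26859097080) (nat_lit 152) (nat_lit 10827837496) (nat_lit 228) (nat_lit 5085298922) (nat_lit 32) (nat_lit 5) (nat_lit 34) (nat_lit 5) (nat_lit 35) (nat_lit 5) (nat_lit 371) (nat_lit 281) (nat_lit 128)) (XT.lf (nat_lit 0) (nat_lit 1197096422) (nat_lit 228) (nat_lit 844034793) (nat_lit 76) (nat_lit 41742128499) (nat_lit 31) (nat_lit 5)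 (nat_lit 34) (nat_lit 5) (nat_lit 32) (nat_lit 5) (nat_lit 372) (nat_lit 281) (nat_lit 127)))) (XT.nd (nat_lit 78) (nat_lit 152) (nat_lit 0) (XT.lf (nat_lit 0) (nat_lit 7772795973) (nat_lit 228) (nat_lit 29979937530) (nat_lit 76) (nat_lit 7064164329) (nat_lit 29) (nat_lit 5) (nat_lit 32) (nat_lit 5) (nat_lit 30) (nat_lit 5) (nat_lit 373) (nat_lit 281) (nat_lit 126)) (XT.nd (nat_lit 78) (nat_lit 152) (nat_lit 0) (XT.lf (nat_lit 0) (nat_lit 14569094973) (nat_lit 228) (nat_lit 14905343140) (nat_lit 76) (nat_lit 16406409900) (nat_lit 29) (nat_lit 5) (nat_lit 32) (nat_lit 5) (nat_lit 30) (nat_lit 5) (nat_lit 374) (nat_lit 281) (nat_lit 125)) (XT.lf (nat_lit 0) (nat_lit 624503282) (nat_lit 152) (nat_lit 20945454377) (nat_lit 228) (nat_lit 25406741488) (nat_lit 27) (nat_lit 5) (nat_lit 29) (nat_lit 5) (nat_lit 30) (nat_lit 5) (nat_lit 375) (nat_lit 281) (nat_lit 124))))) (XT.nd (nat_lit 234) (nat_lit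 228) (nat_lit 0) (XT.nd (nat_lit 78) (nat_lit 76) (nat_lit 0) (XT.lf (nat_lit 0) (nat_lit 16916707835) (nat_lit 152) (nat_lit 12009392635) (nat_lit 228) (nat_lit 19174970332) (nat_lit 27) (nat_lit 5) (nat_lit 29) (nat_lit 5) (nat_lit 30) (nat_lit 5) (nat_lit 376) (nat_lit 281) (nat_lit 123)) (XT.nd (nat_lit 78) (nat_lit 76) (nat_lit 0) (XT.lf (nat_lit 0) (nat_lit 33688860869) (nat_lit 152) (nat_lit 2808959416) (nat_lit 228) (nat_lit 12761509076) (nat_lit 27) (nat_lit 5) (nat_lit 29) (nat_lit 5) (nat_lit 30) (nat_lit 5) (nat_lit 377) (nat_lit 281) (nat_lit 122)) (XT.lf (nat_lit 0) (nat_lit 447811854) (nat_lit 76) (nat_lit 43912283294) (nat_lit 152) (nat_lit 6090340889) (nat_lit 26) (nat_lit 5) (nat_lit 27) (nat_lit 5) (nat_lit 28) (nat_lit 4) (nat_lit 378) (nat_lit 281) (nat_lit 121)))) (XT.nd (nat_lit 156) (nat_lit 152) (nat_lit 0) (XT.nd (nat_lit 78) (nat_lit 0) (nat_lit 0) (XT.lf (nat_lit 0)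 (nat_lit 947340906) (nat_lit 152) (nat_lit 34452308148) (nat_lit 76) (nat_lit 16271955430) (nat_lit 25) (nat_lit 5) (nat_lit 27) (nat_lit 5) (nat_lit 26) (nat_lit 5) (nat_lit 379) (nat_lit 281) (nat_lit 120)) (XT.lf (nat_lit 0) (nat_lit 8068906952) (nat_lit 152) (nat_lit 18504223630) (nat_lit 76) (nat_lit 26354615735) (nat_lit 25) (nat_lit 5) (nat_lit 27) (nat_lit 5) (nat_lit 26) (nat_lit 5) (nat_lit 380) (nat_lit 281) (nat_lit 119))) (XT.nd (nat_lit 78) (nat_lit 152) (nat_lit 0) (XT.lf (nat_lit 0) (nat_lit 15399424462) (nat_lit 152) (nat_lit 2085891326) (nat_lit 76) (nat_lit 36736399670) (nat_lit 25) (nat_lit 5) (nat_lit 27) (nat_lit 5) (nat_lit 26) (nat_lit 5) (nat_lit 381) (nat_lit 281) (nat_lit 118)) (XT.lf (nat_lit 0) (nat_lit 15111922924) (nat_lit 152) (nat_lit 7978640867) (nat_lit 228) (nat_lit 32459720819) (nat_lit 23) (nat_lit 5) (nat_lit 25) (nat_lit 5) (nat_lit 26) (nat_lit 5) (nat_lit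 382) (nat_lit 281) (nat_lit 117)))))) (XT.nd (nat_lit 468) (nat_lit 76) (nat_lit 0) (XT.nd (nat_lit 234) (nat_lit 228) (nat_lit 0) (XT.nd (nat_lit 78) (nat_lit 76) (nat_lit 0) (XT.lf (nat_lit 0) (nat_lit 31046605020) (nat_lit 228) (nat_lit 24075269797) (nat_lit 76) (nat_lit 1795813050) (nat_lit 23) (nat_lit 5) (nat_lit 26) (nat_lit 5) (nat_lit 24) (nat_lit 4) (nat_lit 383) (nat_lit 281) (nat_lit 116)) (XT.nd (nat_lit 78) (nat_lit 76) (nat_lit 0) (XT.lf (nat_lit 0) (nat_lit 39315921833) (nat_lit 228) (nat_lit 7308031814) (nat_lit 76) (nat_lit 11699923748) (nat_lit 23) (nat_lit 5) (nat_lit 26) (nat_lit 5) (nat_lit 24) (nat_lit 4) (nat_lit 384) (nat_lit 281) (nat_lit 115)) (XT.lf (nat_lit 0) (nat_lit 10152816848) (nat_lit 76) (nat_lit 37773822508) (nat_lit 152) (nat_lit 11842815560) (nat_lit 22) (nat_lit 5) (nat_lit 23) (nat_lit 5) (nat_lit 24) (nat_lit 4) (nat_lit 385) (nat_lit 281) (nat_lit 114))))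 (XT.nd (nat_lit 78) (nat_lit 228) (nat_lit 0) (XT.lf (nat_lit 0) (nat_lit 28279847743) (nat_lit 76) (nat_lit 28585406435) (nat_lit 152) (nat_lit 4391060199) (nat_lit 22) (nat_lit 5) (nat_lit 23) (nat_lit 5) (nat_lit 24) (nat_lit 4) (nat_lit 386) (nat_lit 281) (nat_lit 113)) (XT.nd (nat_lit 78) (nat_lit 152) (nat_lit 0) (XT.lf (nat_lit 0) (nat_lit 3216019869) (nat_lit 152) (nat_lit 15875978143) (nat_lit 76) (nat_lit 43694960497) (nat_lit 21) (nat_lit 5) (nat_lit 23) (nat_lit 5) (nat_lit 22) (nat_lit 5) (nat_lit 387) (nat_lit 281) (nat_lit 112)) (XT.lf (nat_lit 0) (nat_lit 1720517915) (nat_lit 152) (nat_lit 9255057280) (nat_lit 228) (nat_lit 53386268658) (nat_lit 19) (nat_lit 5) (nat_lit 21) (nat_lit 5) (nat_lit 22) (nat_lit 5) (nat_lit 388) (nat_lit 281) (nat_lit 111))))) (XT.nd (nat_lit 234) (nat_lit 76) (nat_lit 0) (XT.nd (nat_lit 78) (nat_lit 0) (nat_lit 0) (XT.lf (nat_lit 0) (nat_lit 19134251047)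 (nat_lit 228) (nat_lit 45825959315) (nat_lit 76) (nat_lit 1018777057) (nat_lit 19) (nat_lit 5) (nat_lit 22) (nat_lit 5) (nat_lit 20) (nat_lit 4) (nat_lit 389) (nat_lit 281) (nat_lit 110)) (XT.nd (nat_lit 78) (nat_lit 0) (nat_lit 0) (XT.lf (nat_lit 0) (nat_lit 27625438049) (nat_lit 228) (nat_lit 28604684777) (nat_lit 76) (nat_lit 11411891566) (nat_lit 19) (nat_lit 5) (nat_lit 22) (nat_lit 5) (nat_lit 20) (nat_lit 4) (nat_lit 390) (nat_lit 281) (nat_lit 109)) (XT.lf (nat_lit 0) (nat_lit 36367590414) (nat_lit 228) (nat_lit 10873489336) (nat_lit 76) (nat_lit 22113967113) (nat_lit 19) (nat_lit 5) (nat_lit 22) (nat_lit 5) (nat_lit 20) (nat_lit 4) (nat_lit 391) (nat_lit 281) (nat_lit 108)))) (XT.nd (nat_lit 156) (nat_lit 0) (nat_lit 0) (XT.nd (nat_lit 78) (nat_lit 0) (nat_lit 0) (XT.lf (nat_lit 0) (nat_lit 7530058854) (nat_lit 76) (nat_lit 37910671594) (nat_lit 152) (nat_lit 25676679702) (nat_lit 18)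 (nat_lit 5) (nat_lit 19) (nat_lit 5) (nat_lit 20) (nat_lit 4) (nat_lit 392) (nat_lit 281) (nat_lit 107)) (XT.lf (nat_lit 0) (nat_lit 26702151617) (nat_lit 76) (nat_lit 28190098093) (nat_lit 152) (nat_lit 18037210566) (nat_lit 18) (nat_lit 5) (nat_lit 19) (nat_lit 5) (nat_lit 20) (nat_lit 4) (nat_lit 393) (nat_lit 281) (nat_lit 106))) (XT.nd (nat_lit 78) (nat_lit 0) (nat_lit 0) (XT.lf (nat_lit 0) (nat_lit 46443137507) (nat_lit 76) (nat_lit 18180666465) (nat_lit 152) (nat_lit 10172174697) (nat_lit 18) (nat_lit 5) (nat_lit 19) (nat_lit 5) (nat_lit 20) (nat_lit 4) (nat_lit 394) (nat_lit 281) (nat_lit 105)) (XT.lf (nat_lit 0) (nat_lit 66770265930) (nat_lit 76) (nat_lit 7873630603) (nat_lit 152) (nat_lit 2074699735) (nat_lit 18) (nat_lit 5) (nat_lit 19) (nat_lit 5) (nat_lit 20) (nat_lit 4) (nat_lit 395) (nat_lit 281) (nat_lit 104))))))) (XT.nd (nat_lit 32292) (nat_lit 0) (nat_lit 12616) (XT.nd (nat_lit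 31746) (nat_lit 0) (nat_lit 15504) (XT.nd (nat_lit 234) (nat_lit 76) (nat_lit 0) (XT.nd (nat_lit 78) (nat_lit 0) (nat_lit 0) (XT.lf (nat_lit 0) (nat_lit 6255560396) (nat_lit 228) (nat_lit 69602285851) (nat_lit 76) (nat_lit 2835876762) (nat_lit 15) (nat_lit 5) (nat_lit 18) (nat_lit 5) (nat_lit 16) (nat_lit 4) (nat_lit 396) (nat_lit 281) (nat_lit 103)) (XT.nd (nat_lit 78) (nat_lit 0) (nat_lit 0) (XT.lf (nat_lit 0) (nat_lit 14970111102) (nat_lit 228) (nat_lit 51924248276) (nat_lit 76) (nat_lit 13827846747) (nat_lit 15) (nat_lit 5) (nat_lit 18) (nat_lit 5) (nat_lit 16) (nat_lit 4) (nat_lit 397) (nat_lit 281) (nat_lit 102)) (XT.lf (nat_lit 0) (nat_lit 23942867425) (nat_lit 228) (nat_lit 33721689207) (nat_lit 76) (nat_lit 25147085276) (nat_lit 15) (nat_lit 5) (nat_lit 18) (nat_lit 5) (nat_lit 16) (nat_lit 4) (nat_lit 398) (nat_lit 281) (nat_lit 101)))) (XT.nd (nat_lit 78) (nat_lit 76) (nat_lit 0) (XT.lf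 (nat_lit 0) (nat_lit 33181669639) (nat_lit 228) (nat_lit 14978703496) (nat_lit 76) (nat_lit 36803482946) (nat_lit 15) (nat_lit 5) (nat_lit 18) (nat_lit 5) (nat_lit 16) (nat_lit 4) (nat_lit 399) (nat_lit 281) (nat_lit 100)) (XT.nd (nat_lit 78) (nat_lit 0) (nat_lit 0) (XT.lf (nat_lit 0) (nat_lit 4407084310) (nat_lit 76) (nat_lit 38329869764) (nat_lit 152) (nat_lit 44442504237) (nat_lit 14) (nat_lit 5) (nat_lit 15) (nat_lit 5) (nat_lit 16) (nat_lit 4) (nat_lit 400) (nat_lit 281) (nat_lit 99)) (XT.lf (nat_lit 0) (nat_lit 24676062706) (nat_lit 76) (nat_lit 28051080925) (nat_lit 152) (nat_lit 36729938722) (nat_lit 14) (nat_lit 5) (nat_lit 15) (nat_lit 5) (nat_lit 16) (nat_lit 4) (nat_lit 401) (nat_lit 281) (nat_lit 98))))) (XT.nd (nat_lit 234) (nat_lit 912) (nat_lit 0) (XT.nd (nat_lit 78) (nat_lit 0) (nat_lit 0) (XT.lf (nat_lit 0) (nat_lit 2842782560) (nat_lit 988) (nat_lit 714430376) (nat_lit 988)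 (nat_lit 714430376) (nat_lit 230) (nat_lit 3) (nat_lit 243) (nat_lit 3) (nat_lit 243) (nat_lit 5) (nat_lit 282) (nat_lit 282) (nat_lit 216)) (XT.nd (nat_lit 78) (nat_lit 0) (nat_lit 0) (XT.lf (nat_lit 76) (nat_lit 2481737338) (nat_lit 0) (nat_lit 4269645533) (nat_lit 988) (nat_lit 1889145369) (nat_lit 231) (nat_lit 5) (nat_lit 230) (nat_lit 3) (nat_lit 243) (nat_lit 5) (nat_lit 283) (nat_lit 282) (nat_lit 215)) (XT.lf (nat_lit 76) (nat_lit 6519302963) (nat_lit 0) (nat_lit 1306775606) (nat_lit 988) (nat_lit 915359646) (nat_lit 231) (nat_lit 5) (nat_lit 230) (nat_lit 3) (nat_lit 243) (nat_lit 5) (nat_lit 284) (nat_lit 282) (nat_lit 214)))) (XT.nd (nat_lit 156) (nat_lit 0) (nat_lit 0) (XT.nd (nat_lit 78) (nat_lit 0) (nat_lit 0) (XT.lf (nat_lit 0) (nat_lit 83966346) (nat_lit 988) (nat_lit 7015117428) (nat_lit 1064) (nat_lit 1746380208) (nat_lit 218) (nat_lit 5) (nat_lit 231) (nat_lit 5) (nat_lit 232)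 (nat_lit 5) (nat_lit 285) (nat_lit 282) (nat_lit 213)) (XT.lf (nat_lit 0) (nat_lit 1094666565) (nat_lit 988) (nat_lit 2945157503) (nat_lit 1064) (nat_lit 4912574075) (nat_lit 218) (nat_lit 5) (nat_lit 231) (nat_lit 5) (nat_lit 232) (nat_lit 5) (nat_lit 286) (nat_lit 282) (nat_lit 212))) (XT.nd (nat_lit 78) (nat_lit 0) (nat_lit 76) (XT.lf (nat_lit 76) (nat_lit 1250971344) (nat_lit 0) (nat_lit 861976999) (nat_lit 1064) (nat_lit 6950325890) (nat_lit 219) (nat_lit 5) (nat_lit 218) (nat_lit 5) (nat_lit 232) (nat_lit 5) (nat_lit 287) (nat_lit 282) (nat_lit 211)) (XT.lf (nat_lit 0) (nat_lit 3181178427) (nat_lit 988) (nat_lit 3588042631) (nat_lit 1064) (nat_lit 2407723769) (nat_lit 219) (nat_lit 5) (nat_lit 232) (nat_lit 5) (nat_lit 233) (nat_lit 5) (nat_lit 288) (nat_lit 282) (nat_lit 210)))))) (XT.nd (nat_lit 546) (nat_lit 2052) (nat_lit 0) (XT.nd (nat_lit 234) (nat_lit 912) (nat_lit 0) (XT.nd (nat_lit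 78) (nat_lit 0) (nat_lit 0) (XT.lf (nat_lit 76) (nat_lit 748291817) (nat_lit 0) (nat_lit 3516062998) (nat_lit 1064) (nat_lit 5030232499) (nat_lit 220) (nat_lit 5) (nat_lit 219) (nat_lit 5) (nat_lit 233) (nat_lit 5) (nat_lit 289) (nat_lit 282) (nat_lit 209)) (XT.nd (nat_lit 78) (nat_lit 0) (nat_lit 76) (XT.lf (nat_lit 76) (nat_lit 5267749744) (nat_lit 0) (nat_lit 116439808) (nat_lit 1064) (nat_lit 4031491964) (nat_lit 220) (nat_lit 5) (nat_lit 219) (nat_lit 5) (nat_lit 233) (nat_lit 5) (nat_lit 290) (nat_lit 282) (nat_lit 208)) (XT.lf (nat_lit 76) (nat_lit 335378853) (nat_lit 0) (nat_lit 6206977409) (nat_lit 1064) (nat_lit 2997956130) (nat_lit 221) (nat_lit 5) (nat_lit 220) (nat_lit 5) (nat_lit 234) (nat_lit 5) (nat_lit 291) (nat_lit 282) (nat_lit 207)))) (XT.nd (nat_lit 156) (nat_lit 988) (nat_lit 0) (XT.nd (nat_lit 78) (nat_lit 0) (nat_lit 76) (XT.lf (nat_lit 76) (nat_lit 5016239367) (nat_lit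 0) (nat_lit 2731732614) (nat_lit 1064) (nat_lit 1920373711) (nat_lit 221) (nat_lit 5) (nat_lit 220) (nat_lit 5) (nat_lit 234) (nat_lit 5) (nat_lit 292) (nat_lit 282) (nat_lit 206)) (XT.lf (nat_lit 76) (nat_lit 8102890) (nat_lit 0) (nat_lit 8960528983) (nat_lit 1064) (nat_lit 832265163) (nat_lit 222) (nat_lit 5) (nat_lit 221) (nat_lit 5) (nat_lit 235) (nat_lit 5) (nat_lit 293) (nat_lit 282) (nat_lit 205))) (XT.nd (nat_lit 78) (nat_lit 0) (nat_lit 0) (XT.lf (nat_lit 0) (nat_lit 328322507) (nat_lit 1064) (nat_lit 5084440850) (nat_lit 1140) (nat_lit 4523255244) (nat_lit 207) (nat_lit 5) (nat_lit 221) (nat_lit 5) (nat_lit 222) (nat_lit 5) (nat_lit 294) (nat_lit 282) (nat_lit 204)) (XT.lf (nat_lit 0) (nat_lit 1478821608) (nat_lit 1064) (nat_lit 264069589) (nat_lit 1140) (nat_lit 8332940404) (nat_lit 207) (nat_lit 5) (nat_lit 221) (nat_lit 5) (nat_lit 222) (nat_lit 5) (nat_lit 295) (nat_lit 282) (nat_lit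 203))))) (XT.nd (nat_lit 234) (nat_lit 2128) (nat_lit 0) (XT.nd (nat_lit 78) (nat_lit 0) (nat_lit 0) (XT.lf (nat_lit 0) (nat_lit 2702468517) (nat_lit 1064) (nat_lit 5465741000) (nat_lit 1140) (nat_lit 2050508977) (nat_lit 208) (nat_lit 5) (nat_lit 222) (nat_lit 5) (nat_lit 223) (nat_lit 5) (nat_lit 296) (nat_lit 282) (nat_lit 202)) (XT.nd (nat_lit 78) (nat_lit 0) (nat_lit 0) (XT.lf (nat_lit 0) (nat_lit 3956082433) (nat_lit 1064) (nat_lit 478229937) (nat_lit 1140) (nat_lit 5931819262) (nat_lit 208) (nat_lit 5) (nat_lit 222) (nat_lit 5) (nat_lit 223) (nat_lit 5) (nat_lit 297) (nat_lit 282) (nat_lit 201)) (XT.lf (nat_lit 76) (nat_lit 4730750192) (nat_lit 0) (nat_lit 536115132) (nat_lit 1140) (nat_lit 5250551300) (nat_lit 209) (nat_lit 5) (nat_lit 208) (nat_lit 5) (nat_lit 223) (nat_lit 5) (nat_lit 298) (nat_lit 282) (nat_lit 200)))) (XT.nd (nat_lit 156) (nat_lit 1140) (nat_lit 0) (XT.nd (nat_lit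 78) (nat_lit 1064) (nat_lit 0) (XT.lf (nat_lit 0) (nat_lit 6629985761) (nat_lit 1064) (nat_lit 621896963) (nat_lit 76) (nat_lit 3421002242) (nat_lit 209) (nat_lit 5) (nat_lit 223) (nat_lit 5) (nat_lit 210) (nat_lit 5) (nat_lit 299) (nat_lit 282) (nat_lit 199)) (XT.lf (nat_lit 0) (nat_lit 4764990340) (nat_lit 1064) (nat_lit 3295553110) (nat_lit 1140) (nat_lit 2771711794) (nat_lit 195) (nat_lit 5) (nat_lit 209) (nat_lit 5) (nat_lit 210) (nat_lit 5) (nat_lit 300) (nat_lit 282) (nat_lit 198))) (XT.nd (nat_lit 78) (nat_lit 1140) (nat_lit 0) (XT.lf (nat_lit 0) (nat_lit 9523840772) (nat_lit 1140) (nat_lit 698629590) (nat_lit 76) (nat_lit 774274781) (nat_lit 195) (nat_lit 5) (nat_lit 210) (nat_lit 5) (nat_lit 196) (nat_lit 5) (nat_lit 301) (nat_lit 282) (nat_lit 197)) (XT.lf (nat_lit 0) (nat_lit 4873051563) (nat_lit 1140) (nat_lit 6214144894) (nat_lit 1216) (nat_lit 77320731) (nat_lit 180) (nat_lit 5)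 (nat_lit 195) (nat_lit 5) (nat_lit 196) (nat_lit 5) (nat_lit 302) (nat_lit 282) (nat_lit 196))))))))
noncomputable def xc161 : XT := (XT.nd (nat_lit 2028) (nat_lit 3572) (nat_lit 0) (XT.nd (nat_lit 1014) (nat_lit 2888) (nat_lit 0) (XT.nd (nat_lit 468) (nat_lit 1596) (nat_lit 0) (XT.nd (nat_lit 234) (nat_lit 1140) (nat_lit 0) (XT.nd (nat_lit 78) (nat_lit 608) (nat_lit 0) (XT.lf (nat_lit 0) (nat_lit 1317628878) (nat_lit 1216) (nat_lit 744814491) (nat_lit 76) (nat_lit 9274995990) (nat_lit 179) (nat_lit 5) (nat_lit 195) (nat_lit 5) (nat_lit 180) (nat_lit 5) (nat_lit 303) (nat_lit 282) (nat_lit 195)) (XT.nd (nat_lit 78) (nat_lit 0) (nat_lit 0) (XT.lf (nat_lit 0) (nat_lit 2800753169) (nat_lit 684) (nat_lit 6490790238) (nat_lit 76) (nat_lit 2222575912) (nat_lit 171) (nat_lit 5) (nat_lit 180) (nat_lit 5) (nat_lit 172) (nat_lit 5) (nat_lit 304) (nat_lit 282) (nat_lit 194)) (XT.lf (nat_lit 0) (nat_lit 4334454350)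 (nat_lit 684) (nat_lit 757251584) (nat_lit 76) (nat_lit 6604239885) (nat_lit 171) (nat_lit 5) (nat_lit 180) (nat_lit 5) (nat_lit 172) (nat_lit 5) (nat_lit 305) (nat_lit 282) (nat_lit 193)))) (XT.nd (nat_lit 78) (nat_lit 532) (nat_lit 0) (XT.lf (nat_lit 0) (nat_lit 5230289210) (nat_lit 608) (nat_lit 712860211) (nat_lit 684) (nat_lit 5939236013) (nat_lit 163) (nat_lit 5) (nat_lit 171) (nat_lit 5) (nat_lit 172) (nat_lit 5) (nat_lit 306) (nat_lit 282) (nat_lit 192)) (XT.nd (nat_lit 78) (nat_lit 532) (nat_lit 0) (XT.lf (nat_lit 0) (nat_lit 7623475172) (nat_lit 684) (nat_lit 718319441) (nat_lit 76) (nat_lit 3731949523) (nat_lit 163) (nat_lit 5) (nat_lit 172) (nat_lit 5) (nat_lit 164) (nat_lit 5) (nat_lit 307) (nat_lit 282) (nat_lit 191)) (XT.lf (nat_lit 0) (nat_lit 5473282507) (nat_lit 532) (nat_lit 3920351081) (nat_lit 608) (nat_lit 2876053532) (nat_lit 156) (nat_lit 5) (nat_lit 163) (nat_lit 5) (nat_lit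 164) (nat_lit 5) (nat_lit 308) (nat_lit 282) (nat_lit 190))))) (XT.nd (nat_lit 234) (nat_lit 988) (nat_lit 0) (XT.nd (nat_lit 78) (nat_lit 608) (nat_lit 0) (XT.lf (nat_lit 0) (nat_lit 11210467435) (nat_lit 608) (nat_lit 632457174) (nat_lit 76) (nat_lit 628802108) (nat_lit 156) (nat_lit 5) (nat_lit 164) (nat_lit 5) (nat_lit 157) (nat_lit 5) (nat_lit 309) (nat_lit 282) (nat_lit 189)) (XT.nd (nat_lit 78) (nat_lit 0) (nat_lit 0) (XT.lf (nat_lit 0) (nat_lit 469868934) (nat_lit 608) (nat_lit 6911780189) (nat_lit 76) (nat_lit 5295814417) (nat_lit 148) (nat_lit 5) (nat_lit 156) (nat_lit 5) (nat_lit 149) (nat_lit 5) (nat_lit 310) (nat_lit 282) (nat_lit 188)) (XT.lf (nat_lit 0) (nat_lit 2214924658) (nat_lit 608) (nat_lit 552975773) (nat_lit 76) (nat_lit 10121500376) (nat_lit 148) (nat_lit 5) (nat_lit 156) (nat_lit 5) (nat_lit 149) (nat_lit 5) (nat_lit 311) (nat_lit 282) (nat_lit 187)))) (XT.nd (nat_lit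 156) (nat_lit 532) (nat_lit 0) (XT.nd (nat_lit 78) (nat_lit 0) (nat_lit 0) (XT.lf (nat_lit 0) (nat_lit 4072028435) (nat_lit 532) (nat_lit 7030007512) (nat_lit 76) (nat_lit 2003891963) (nat_lit 142) (nat_lit 5) (nat_lit 149) (nat_lit 5) (nat_lit 143) (nat_lit 5) (nat_lit 312) (nat_lit 282) (nat_lit 186)) (XT.lf (nat_lit 0) (nat_lit 5999685893) (nat_lit 532) (nat_lit 460987485) (nat_lit 76) (nat_lit 6867854179) (nat_lit 142) (nat_lit 5) (nat_lit 149) (nat_lit 5) (nat_lit 143) (nat_lit 5) (nat_lit 313) (nat_lit 282) (nat_lit 185))) (XT.nd (nat_lit 78) (nat_lit 0) (nat_lit 0) (XT.lf (nat_lit 0) (nat_lit 6411017956) (nat_lit 532) (nat_lit 1618108303) (nat_lit 608) (nat_lit 5527381648) (nat_lit 135) (nat_lit 5) (nat_lit 142) (nat_lit 5) (nat_lit 143) (nat_lit 5) (nat_lit 314) (nat_lit 282) (nat_lit 184)) (XT.lf (nat_lit 0) (nat_lit 10139185691) (nat_lit 608) (nat_lit 344516814) (nat_lit 76) (nat_lit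 3307053776) (nat_lit 135) (nat_lit 5) (nat_lit 143) (nat_lit 5) (nat_lit 136) (nat_lit 5) (nat_lit 315) (nat_lit 282) (nat_lit 183)))))) (XT.nd (nat_lit 468) (nat_lit 1520) (nat_lit 0) (XT.nd (nat_lit 234) (nat_lit 380) (nat_lit 0) (XT.nd (nat_lit 78) (nat_lit 532) (nat_lit 0) (XT.lf (nat_lit 0) (nat_lit 6757369810) (nat_lit 456) (nat_lit 5619302245) (nat_lit 532) (nat_lit 1653456383) (nat_lit 129) (nat_lit 5) (nat_lit 135) (nat_lit 5) (nat_lit 136) (nat_lit 5) (nat_lit 316) (nat_lit 282) (nat_lit 182)) (XT.nd (nat_lit 78) (nat_lit 456) (nat_lit 0) (XT.lf (nat_lit 0) (nat_lit 383495219) (nat_lit 532) (nat_lit 220247215) (nat_lit 76) (nat_lit 13673237904) (nat_lit 128) (nat_lit 5) (nat_lit 135) (nat_lit 5) (nat_lit 129) (nat_lit 5) (nat_lit 317) (nat_lit 282) (nat_lit 181)) (XT.lf (nat_lit 0) (nat_lit 2545475729) (nat_lit 532) (nat_lit 7425471088) (nat_lit 76) (nat_lit 4556903639) (nat_lit 122)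 (nat_lit 5) (nat_lit 129) (nat_lit 5) (nat_lit 123) (nat_lit 5) (nat_lit 318) (nat_lit 282) (nat_lit 180)))) (XT.nd (nat_lit 78) (nat_lit 380) (nat_lit 0) (XT.lf (nat_lit 0) (nat_lit 4764575058) (nat_lit 532) (nat_lit 161835080) (nat_lit 76) (nat_lit 9860086603) (nat_lit 122) (nat_lit 5) (nat_lit 129) (nat_lit 5) (nat_lit 123) (nat_lit 5) (nat_lit 319) (nat_lit 282) (nat_lit 179)) (XT.nd (nat_lit 78) (nat_lit 0) (nat_lit 0) (XT.lf (nat_lit 0) (nat_lit 7109602411) (nat_lit 456) (nat_lit 7607792866) (nat_lit 76) (nat_lit 333743813) (nat_lit 117) (nat_lit 5) (nat_lit 123) (nat_lit 5) (nat_lit 118) (nat_lit 5) (nat_lit 320) (nat_lit 282) (nat_lit 178)) (XT.lf (nat_lit 0) (nat_lit 9560157250) (nat_lit 456) (nat_lit 111035753) (nat_lit 76) (nat_lit 5651489228) (nat_lit 117) (nat_lit 5) (nat_lit 123) (nat_lit 5) (nat_lit 118) (nat_lit 5) (nat_lit 321) (nat_lit 282) (nat_lit 177))))) (XT.nd (nat_lit 234)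 (nat_lit 684) (nat_lit 0) (XT.nd (nat_lit 78) (nat_lit 456) (nat_lit 0) (XT.lf (nat_lit 0) (nat_lit 7743700510) (nat_lit 380) (nat_lit 4400159516) (nat_lit 456) (nat_lit 3456739034) (nat_lit 112) (nat_lit 5) (nat_lit 117) (nat_lit 5) (nat_lit 118) (nat_lit 5) (nat_lit 322) (nat_lit 282) (nat_lit 176)) (XT.nd (nat_lit 78) (nat_lit 456) (nat_lit 0) (XT.lf (nat_lit 0) (nat_lit 14801519579) (nat_lit 456) (nat_lit 78642018) (nat_lit 76) (nat_lit 1006814282) (nat_lit 112) (nat_lit 5) (nat_lit 118) (nat_lit 5) (nat_lit 113) (nat_lit 5) (nat_lit 323) (nat_lit 282) (nat_lit 175)) (XT.lf (nat_lit 0) (nat_lit 1438111387) (nat_lit 456) (nat_lit 8164545792) (nat_lit 76) (nat_lit 6575681679) (nat_lit 106) (nat_lit 5) (nat_lit 112) (nat_lit 5) (nat_lit 107) (nat_lit 5) (nat_lit 324) (nat_lit 282) (nat_lit 174)))) (XT.nd (nat_lit 156) (nat_lit 304) (nat_lit 0) (XT.nd (nat_lit 78) (nat_lit 380) (nat_lit 0) (XT.lf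 (nat_lit 0) (nat_lit 4002309007) (nat_lit 456) (nat_lit 156423452) (nat_lit 76) (nat_lit 12319800178) (nat_lit 106) (nat_lit 5) (nat_lit 112) (nat_lit 5) (nat_lit 107) (nat_lit 5) (nat_lit 325) (nat_lit 282) (nat_lit 173)) (XT.lf (nat_lit 0) (nat_lit 6723614680) (nat_lit 456) (nat_lit 8565152987) (nat_lit 76) (nat_lit 1496573188) (nat_lit 101) (nat_lit 5) (nat_lit 107) (nat_lit 5) (nat_lit 102) (nat_lit 5) (nat_lit 326) (nat_lit 282) (nat_lit 172))) (XT.nd (nat_lit 78) (nat_lit 304) (nat_lit 0) (XT.lf (nat_lit 0) (nat_lit 9555873909) (nat_lit 456) (nat_lit 308745884) (nat_lit 76) (nat_lit 7235867773) (nat_lit 101) (nat_lit 5) (nat_lit 107) (nat_lit 5) (nat_lit 102) (nat_lit 5) (nat_lit 327) (nat_lit 282) (nat_lit 171)) (XT.lf (nat_lit 0) (nat_lit 8341076323) (nat_lit 304) (nat_lit 4199139662) (nat_lit 380) (nat_lit 4882872520) (nat_lit 97) (nat_lit 5) (nat_lit 101) (nat_lit 5) (nat_lit 102) (nat_lit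 5) (nat_lit 328) (nat_lit 282) (nat_lit 170))))))) (XT.nd (nat_lit 1014) (nat_lit 1596) (nat_lit 0) (XT.nd (nat_lit 468) (nat_lit 912) (nat_lit 0) (XT.nd (nat_lit 234) (nat_lit 608) (nat_lit 0) (XT.nd (nat_lit 78) (nat_lit 456) (nat_lit 0) (XT.lf (nat_lit 0) (nat_lit 15620081212) (nat_lit 380) (nat_lit 531545821) (nat_lit 76) (nat_lit 1603573545) (nat_lit 97) (nat_lit 5) (nat_lit 102) (nat_lit 5) (nat_lit 98) (nat_lit 5) (nat_lit 329) (nat_lit 282) (nat_lit 169)) (XT.nd (nat_lit 78) (nat_lit 0) (nat_lit 0) (XT.lf (nat_lit 0) (nat_lit 792202391) (nat_lit 456) (nat_lit 9721102681) (nat_lit 76) (nat_lit 7580461673) (nat_lit 91) (nat_lit 5) (nat_lit 97) (nat_lit 5) (nat_lit 92) (nat_lit 5) (nat_lit 330) (nat_lit 282) (nat_lit 168)) (XT.lf (nat_lit 0) (nat_lit 3757412501) (nat_lit 456) (nat_lit 925452769) (nat_lit 76) (nat_lit 13759212758) (nat_lit 91) (nat_lit 5) (nat_lit 97) (nat_lit 5) (nat_lit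 92) (nat_lit 5) (nat_lit 331) (nat_lit 282) (nat_lit 167)))) (XT.nd (nat_lit 78) (nat_lit 304) (nat_lit 0) (XT.lf (nat_lit 0) (nat_lit 6892548120) (nat_lit 380) (nat_lit 10532996276) (nat_lit 76) (nat_lit 1372876632) (nat_lit 87) (nat_lit 5) (nat_lit 92) (nat_lit 5) (nat_lit 88) (nat_lit 5) (nat_lit 332) (nat_lit 282) (nat_lit 166)) (XT.nd (nat_lit 78) (nat_lit 304) (nat_lit 0) (XT.lf (nat_lit 0) (nat_lit 10165619557) (nat_lit 380) (nat_lit 1477135307) (nat_lit 76) (nat_lit 7521394123) (nat_lit 87) (nat_lit 5) (nat_lit 92) (nat_lit 5) (nat_lit 88) (nat_lit 5) (nat_lit 333) (nat_lit 282) (nat_lit 165)) (XT.lf (nat_lit 0) (nat_lit 7990298378) (nat_lit 304) (nat_lit 5611818572) (nat_lit 380) (nat_lit 5936785618) (nat_lit 83) (nat_lit 5) (nat_lit 87) (nat_lit 5) (nat_lit 88) (nat_lit 5) (nat_lit 334) (nat_lit 282) (nat_lit 164))))) (XT.nd (nat_lit 234) (nat_lit 532) (nat_lit 0) (XT.nd (nat_lit 78)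 (nat_lit 380) (nat_lit 0) (XT.lf (nat_lit 0) (nat_lit 17151108868) (nat_lit 380) (nat_lit 2174506722) (nat_lit 76) (nat_lit 599011660) (nat_lit 83) (nat_lit 5) (nat_lit 88) (nat_lit 5) (nat_lit 84) (nat_lit 5) (nat_lit 335) (nat_lit 282) (nat_lit 163)) (XT.nd (nat_lit 78) (nat_lit 0) (nat_lit 0) (XT.lf (nat_lit 0) (nat_lit 593445050) (nat_lit 380) (nat_lit 12767226682) (nat_lit 76) (nat_lit 6957574400) (nat_lit 78) (nat_lit 5) (nat_lit 83) (nat_lit 5) (nat_lit 79) (nat_lit 5) (nat_lit 336) (nat_lit 282) (nat_lit 162)) (XT.lf (nat_lit 0) (nat_lit 4016804740) (nat_lit 380) (nat_lit 3153585128) (nat_lit 76) (nat_lit 13552135516) (nat_lit 78) (nat_lit 5) (nat_lit 83) (nat_lit 5) (nat_lit 79) (nat_lit 5) (nat_lit 337) (nat_lit 282) (nat_lit 161)))) (XT.nd (nat_lit 156) (nat_lit 228) (nat_lit 0) (XT.nd (nat_lit 78) (nat_lit 0) (nat_lit 0) (XT.lf (nat_lit 0) (nat_lit 6867149093) (nat_lit 304) (nat_lit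 731005682) (nat_lit 380) (nat_lit 13539128868) (nat_lit 74) (nat_lit 5) (nat_lit 78) (nat_lit 5) (nat_lit 79) (nat_lit 5) (nat_lit 338) (nat_lit 282) (nat_lit 160)) (XT.lf (nat_lit 0) (nat_lit 11365235470) (nat_lit 380) (nat_lit 4382873804) (nat_lit 76) (nat_lit 5814035712) (nat_lit 74) (nat_lit 5) (nat_lit 79) (nat_lit 5) (nat_lit 75) (nat_lit 5) (nat_lit 339) (nat_lit 282) (nat_lit 159))) (XT.nd (nat_lit 78) (nat_lit 0) (nat_lit 0) (XT.lf (nat_lit 0) (nat_lit 5893775336) (nat_lit 228) (nat_lit 9405154659) (nat_lit 304) (nat_lit 6699222913) (nat_lit 71) (nat_lit 5) (nat_lit 74) (nat_lit 5) (nat_lit 75) (nat_lit 5) (nat_lit 340) (nat_lit 282) (nat_lit 158)) (XT.lf (nat_lit 0) (nat_lit 16553715098) (nat_lit 228) (nat_lit 2831044796) (nat_lit 304) (nat_lit 3061465959) (nat_lit 71) (nat_lit 5) (nat_lit 74) (nat_lit 5) (nat_lit 75) (nat_lit 5) (nat_lit 341) (nat_lit 282) (nat_lit 157)))))) (XT.nd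 (nat_lit 546) (nat_lit 684) (nat_lit 0) (XT.nd (nat_lit 234) (nat_lit 304) (nat_lit 0) (XT.nd (nat_lit 78) (nat_lit 228) (nat_lit 0) (XT.lf (nat_lit 0) (nat_lit 745590121) (nat_lit 380) (nat_lit 18248703987) (nat_lit 76) (nat_lit 3911051008) (nat_lit 66) (nat_lit 5) (nat_lit 71) (nat_lit 5) (nat_lit 67) (nat_lit 5) (nat_lit 342) (nat_lit 282) (nat_lit 156)) (XT.nd (nat_lit 78) (nat_lit 228) (nat_lit 0) (XT.lf (nat_lit 0) (nat_lit 4683608617) (nat_lit 380) (nat_lit 7807065358) (nat_lit 76) (nat_lit 10884313939) (nat_lit 66) (nat_lit 5) (nat_lit 71) (nat_lit 5) (nat_lit 67) (nat_lit 5) (nat_lit 343) (nat_lit 282) (nat_lit 155)) (XT.lf (nat_lit 0) (nat_lit 2991894459) (nat_lit 228) (nat_lit 5767080778) (nat_lit 304) (nat_lit 15099176106) (nat_lit 63) (nat_lit 5) (nat_lit 66) (nat_lit 5) (nat_lit 67) (nat_lit 5) (nat_lit 344) (nat_lit 282) (nat_lit 154)))) (XT.nd (nat_lit 156) (nat_lit 76) (nat_lit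 0) (XT.nd (nat_lit 78) (nat_lit 228) (nat_lit 0) (XT.lf (nat_lit 0) (nat_lit 13037896889) (nat_lit 304) (nat_lit 10104912625) (nat_lit 76) (nat_lit 1210568692) (nat_lit 63) (nat_lit 5) (nat_lit 67) (nat_lit 5) (nat_lit 64) (nat_lit 5) (nat_lit 345) (nat_lit 282) (nat_lit 153)) (XT.lf (nat_lit 0) (nat_lit 926252288) (nat_lit 228) (nat_lit 16575756739) (nat_lit 304) (nat_lit 7359755300) (nat_lit 60) (nat_lit 5) (nat_lit 63) (nat_lit 5) (nat_lit 64) (nat_lit 5) (nat_lit 346) (nat_lit 282) (nat_lit 152))) (XT.nd (nat_lit 78) (nat_lit 76) (nat_lit 0) (XT.lf (nat_lit 0) (nat_lit 12481635770) (nat_lit 228) (nat_lit 9711402083) (nat_lit 304) (nat_lit 3189581310) (nat_lit 60) (nat_lit 5) (nat_lit 63) (nat_lit 5) (nat_lit 64) (nat_lit 5) (nat_lit 347) (nat_lit 282) (nat_lit 151)) (XT.lf (nat_lit 0) (nat_lit 1075245202) (nat_lit 304) (nat_lit 1559684301) (nat_lit 76) (nat_lit 23284124112) (nat_lit 59) (nat_lit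 5) (nat_lit 63) (nat_lit 5) (nat_lit 60) (nat_lit 5) (nat_lit 348) (nat_lit 282) (nat_lit 150))))) (XT.nd (nat_lit 234) (nat_lit 228) (nat_lit 0) (XT.nd (nat_lit 78) (nat_lit 228) (nat_lit 0) (XT.lf (nat_lit 0) (nat_lit 5540067469) (nat_lit 304) (nat_lit 16236329781) (nat_lit 76) (nat_lit 4690158039) (nat_lit 56) (nat_lit 5) (nat_lit 60) (nat_lit 5) (nat_lit 57) (nat_lit 5) (nat_lit 349) (nat_lit 282) (nat_lit 149)) (XT.nd (nat_lit 78) (nat_lit 228) (nat_lit 0) (XT.lf (nat_lit 0) (nat_lit 10172291110) (nat_lit 304) (nat_lit 4663775608) (nat_lit 76) (nat_lit 12193417753) (nat_lit 56) (nat_lit 5) (nat_lit 60) (nat_lit 5) (nat_lit 57) (nat_lit 5) (nat_lit 350) (nat_lit 282) (nat_lit 148)) (XT.lf (nat_lit 0) (nat_lit 7387167227) (nat_lit 228) (nat_lit 7619035469) (nat_lit 304) (nat_lit 12601223173) (nat_lit 53) (nat_lit 5) (nat_lit 56) (nat_lit 5) (nat_lit 57) (nat_lit 5) (nat_lit 351) (nat_lit 282)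 (nat_lit 147)))) (XT.nd (nat_lit 156) (nat_lit 76) (nat_lit 0) (XT.nd (nat_lit 78) (nat_lit 152) (nat_lit 0) (XT.lf (nat_lit 0) (nat_lit 19882429816) (nat_lit 228) (nat_lit 141626336) (nat_lit 304) (nat_lit 8177487425) (nat_lit 53) (nat_lit 5) (nat_lit 56) (nat_lit 5) (nat_lit 57) (nat_lit 5) (nat_lit 352) (nat_lit 282) (nat_lit 146)) (XT.lf (nat_lit 0) (nat_lit 3930451874) (nat_lit 152) (nat_lit 21364471799) (nat_lit 228) (nat_lit 3515492426) (nat_lit 51) (nat_lit 5) (nat_lit 53) (nat_lit 5) (nat_lit 54) (nat_lit 5) (nat_lit 353) (nat_lit 282) (nat_lit 145))) (XT.nd (nat_lit 78) (nat_lit 0) (nat_lit 0) (XT.lf (nat_lit 0) (nat_lit 1339554567) (nat_lit 228) (nat_lit 12744273807) (nat_lit 76) (nat_lit 15351011962) (nat_lit 50) (nat_lit 5) (nat_lit 53) (nat_lit 5) (nat_lit 51) (nat_lit 5) (nat_lit 354) (nat_lit 282) (nat_lit 144)) (XT.lf (nat_lit 0) (nat_lit 6261879500) (nat_lit 228) (nat_lit 291628344)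 (nat_lit 76) (nat_lit 23523681874) (nat_lit 50) (nat_lit 5) (nat_lit 53) (nat_lit 5) (nat_lit 51) (nat_lit 5) (nat_lit 355) (nat_lit 282) (nat_lit 143))))))))
noncomputable def xc162 : XT := (XT.nd (nat_lit 2028) (nat_lit 836) (nat_lit 0) (XT.nd (nat_lit 1014) (nat_lit 684) (nat_lit 0) (XT.nd (nat_lit 468) (nat_lit 532) (nat_lit 0) (XT.nd (nat_lit 234) (nat_lit 304) (nat_lit 0) (XT.nd (nat_lit 78) (nat_lit 152) (nat_lit 0) (XT.lf (nat_lit 0) (nat_lit 11459888384) (nat_lit 304) (nat_lit 17976218781) (nat_lit 76) (nat_lit 1298866998) (nat_lit 47) (nat_lit 5) (nat_lit 51) (nat_lit 5) (nat_lit 48) (nat_lit 5) (nat_lit 356) (nat_lit 282) (nat_lit 142)) (XT.nd (nat_lit 78) (nat_lit 152) (nat_lit 0) (XT.lf (nat_lit 0) (nat_lit 16874268642) (nat_lit 304) (nat_lit 5282707301) (nat_lit 76) (nat_lit 9253708125) (nat_lit 47) (nat_lit 5) (nat_lit 51) (nat_lit 5) (nat_lit 48) (nat_lit 5) (nat_lit 357) (nat_lit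 282) (nat_lit 141)) (XT.lf (nat_lit 0) (nat_lit 7934778790) (nat_lit 152) (nat_lit 14585362706) (nat_lit 228) (nat_lit 9584456658) (nat_lit 45) (nat_lit 5) (nat_lit 47) (nat_lit 5) (nat_lit 48) (nat_lit 5) (nat_lit 358) (nat_lit 282) (nat_lit 140)))) (XT.nd (nat_lit 78) (nat_lit 304) (nat_lit 0) (XT.lf (nat_lit 0) (nat_lit 21645527322) (nat_lit 152) (nat_lit 6736094474) (nat_lit 228) (nat_lit 4436325512) (nat_lit 45) (nat_lit 5) (nat_lit 47) (nat_lit 5) (nat_lit 48) (nat_lit 5) (nat_lit 359) (nat_lit 282) (nat_lit 139)) (XT.nd (nat_lit 78) (nat_lit 0) (nat_lit 0) (XT.lf (nat_lit 0) (nat_lit 877105857) (nat_lit 304) (nat_lit 31326328333) (nat_lit 76) (nat_lit 1348184458) (nat_lit 41) (nat_lit 5) (nat_lit 45) (nat_lit 5) (nat_lit 42) (nat_lit 5) (nat_lit 360) (nat_lit 282) (nat_lit 138)) (XT.lf (nat_lit 0) (nat_lit 6434478921) (nat_lit 304) (nat_lit 18173111613) (nat_lit 76) (nat_lit 9693184932)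 (nat_lit 41) (nat_lit 5) (nat_lit 45) (nat_lit 5) (nat_lit 42) (nat_lit 5) (nat_lit 361) (nat_lit 282) (nat_lit 137))))) (XT.nd (nat_lit 234) (nat_lit 380) (nat_lit 0) (XT.nd (nat_lit 78) (nat_lit 152) (nat_lit 0) (XT.lf (nat_lit 0) (nat_lit 12151848844) (nat_lit 304) (nat_lit 4636382479) (nat_lit 76) (nat_lit 18284381467) (nat_lit 41) (nat_lit 5) (nat_lit 45) (nat_lit 5) (nat_lit 42) (nat_lit 5) (nat_lit 362) (nat_lit 282) (nat_lit 136)) (XT.nd (nat_lit 78) (nat_lit 0) (nat_lit 0) (XT.lf (nat_lit 0) (nat_lit 9480689682) (nat_lit 152) (nat_lit 8644655893) (nat_lit 228) (nat_lit 17739725439) (nat_lit 39) (nat_lit 5) (nat_lit 41) (nat_lit 5) (nat_lit 42) (nat_lit 5) (nat_lit 363) (nat_lit 282) (nat_lit 135)) (XT.lf (nat_lit 0) (nat_lit 24105659558) (nat_lit 152) (nat_lit 212765266) (nat_lit 228) (nat_lit 12361670671) (nat_lit 39) (nat_lit 5) (nat_lit 41) (nat_lit 5) (nat_lit 42) (nat_lit 5) (nat_lit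 364) (nat_lit 282) (nat_lit 134)))) (XT.nd (nat_lit 156) (nat_lit 228) (nat_lit 0) (XT.nd (nat_lit 78) (nat_lit 0) (nat_lit 0) (XT.lf (nat_lit 0) (nat_lit 1588876315) (nat_lit 152) (nat_lit 29198839721) (nat_lit 228) (nat_lit 6729145810) (nat_lit 37) (nat_lit 5) (nat_lit 39) (nat_lit 5) (nat_lit 40) (nat_lit 5) (nat_lit 365) (nat_lit 282) (nat_lit 133)) (XT.lf (nat_lit 0) (nat_lit 16422308579) (nat_lit 152) (nat_lit 21151631346) (nat_lit 228) (nat_lit 801109262) (nat_lit 37) (nat_lit 5) (nat_lit 39) (nat_lit 5) (nat_lit 40) (nat_lit 5) (nat_lit 366) (nat_lit 282) (nat_lit 132))) (XT.nd (nat_lit 78) (nat_lit 152) (nat_lit 0) (XT.lf (nat_lit 0) (nat_lit 5195161822) (nat_lit 228) (nat_lit 7619447360) (nat_lit 76) (nat_lit 26443029338) (nat_lit 36) (nat_lit 5) (nat_lit 39) (nat_lit 5) (nat_lit 37) (nat_lit 5) (nat_lit 367) (nat_lit 282) (nat_lit 131)) (XT.lf (nat_lit 0) (nat_lit 7267815387) (nat_lit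 152) (nat_lit 4151352836) (nat_lit 228) (nat_lit 28745384206) (nat_lit 34) (nat_lit 5) (nat_lit 36) (nat_lit 5) (nat_lit 37) (nat_lit 5) (nat_lit 368) (nat_lit 282) (nat_lit 130)))))) (XT.nd (nat_lit 468) (nat_lit 304) (nat_lit 0) (XT.nd (nat_lit 234) (nat_lit 228) (nat_lit 0) (XT.nd (nat_lit 78) (nat_lit 152) (nat_lit 0) (XT.lf (nat_lit 0) (nat_lit 17947593095) (nat_lit 228) (nat_lit 18395071088) (nat_lit 76) (nat_lit 4752481838) (nat_lit 34) (nat_lit 5) (nat_lit 37) (nat_lit 5) (nat_lit 35) (nat_lit 5) (nat_lit 369) (nat_lit 282) (nat_lit 129)) (XT.nd (nat_lit 78) (nat_lit 152) (nat_lit 0) (XT.lf (nat_lit 0) (nat_lit 24707269847) (nat_lit 228) (nat_lit 3509129042) (nat_lit 76) (nat_lit 13836199677) (nat_lit 34) (nat_lit 5) (nat_lit 37) (nat_lit 5) (nat_lit 35) (nat_lit 5) (nat_lit 370) (nat_lit 282) (nat_lit 128)) (XT.lf (nat_lit 0) (nat_lit 12049123368) (nat_lit 152) (nat_lit 19730899828) (nat_lit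 228) (nat_lit 11255445932) (nat_lit 32) (nat_lit 5) (nat_lit 34) (nat_lit 5) (nat_lit 35) (nat_lit 5) (nat_lit 371) (nat_lit 282) (nat_lit 127)))) (XT.nd (nat_lit 78) (nat_lit 228) (nat_lit 0) (XT.lf (nat_lit 0) (nat_lit 28136759419) (nat_lit 152) (nat_lit 10958169703) (nat_lit 228) (nat_lit 4952000526) (nat_lit 32) (nat_lit 5) (nat_lit 34) (nat_lit 5) (nat_lit 35) (nat_lit 5) (nat_lit 372) (nat_lit 282) (nat_lit 126)) (XT.nd (nat_lit 78) (nat_lit 152) (nat_lit 0) (XT.lf (nat_lit 0) (nat_lit 1505125099) (nat_lit 228) (nat_lit 405654433) (nat_lit 76) (nat_lit 43177673808) (nat_lit 31) (nat_lit 5) (nat_lit 34) (nat_lit 5) (nat_lit 32) (nat_lit 5) (nat_lit 373) (nat_lit 282) (nat_lit 125)) (XT.lf (nat_lit 0) (nat_lit 8276415313) (nat_lit 228) (nat_lit 30413817334) (nat_lit 76) (nat_lit 7462922461) (nat_lit 29) (nat_lit 5) (nat_lit 32) (nat_lit 5) (nat_lit 30) (nat_lit 5) (nat_lit 374) (nat_lit 282)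 (nat_lit 124))))) (XT.nd (nat_lit 234) (nat_lit 152) (nat_lit 0) (XT.nd (nat_lit 78) (nat_lit 152) (nat_lit 0) (XT.lf (nat_lit 0) (nat_lit 15268726522) (nat_lit 228) (nat_lit 14900543899) (nat_lit 76) (nat_lit 17079993655) (nat_lit 29) (nat_lit 5) (nat_lit 32) (nat_lit 5) (nat_lit 30) (nat_lit 5) (nat_lit 375) (nat_lit 282) (nat_lit 123)) (XT.nd (nat_lit 78) (nat_lit 0) (nat_lit 0) (XT.lf (nat_lit 0) (nat_lit 1090766940) (nat_lit 152) (nat_lit 21385502727) (nat_lit 228) (nat_lit 25901825303) (nat_lit 27) (nat_lit 5) (nat_lit 29) (nat_lit 5) (nat_lit 30) (nat_lit 5) (nat_lit 376) (nat_lit 282) (nat_lit 122)) (XT.lf (nat_lit 0) (nat_lit 17858702817) (nat_lit 152) (nat_lit 12186844044) (nat_lit 228) (nat_lit 19490881161) (nat_lit 27) (nat_lit 5) (nat_lit 29) (nat_lit 5) (nat_lit 30) (nat_lit 5) (nat_lit 377) (nat_lit 282) (nat_lit 121)))) (XT.nd (nat_lit 156) (nat_lit 76) (nat_lit 0) (XT.nd (nat_lit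 78) (nat_lit 76) (nat_lit 0) (XT.lf (nat_lit 0) (nat_lit 35121365285) (nat_lit 152) (nat_lit 2715722985) (nat_lit 228) (nat_lit 12892569610) (nat_lit 27) (nat_lit 5) (nat_lit 29) (nat_lit 5) (nat_lit 30) (nat_lit 5) (nat_lit 378) (nat_lit 282) (nat_lit 120)) (XT.lf (nat_lit 0) (nat_lit 884637878) (nat_lit 76) (nat_lit 45049203485) (nat_lit 152) (nat_lit 6022701628) (nat_lit 26) (nat_lit 5) (nat_lit 27) (nat_lit 5) (nat_lit 28) (nat_lit 4) (nat_lit 379) (nat_lit 282) (nat_lit 119))) (XT.nd (nat_lit 78) (nat_lit 0) (nat_lit 0) (XT.lf (nat_lit 0) (nat_lit 1214075956) (nat_lit 152) (nat_lit 35069963525) (nat_lit 76) (nat_lit 16930452628) (nat_lit 25) (nat_lit 5) (nat_lit 27) (nat_lit 5) (nat_lit 26) (nat_lit 5) (nat_lit 380) (nat_lit 282) (nat_lit 118)) (XT.lf (nat_lit 0) (nat_lit 8542347775) (nat_lit 152) (nat_lit 18655550467) (nat_lit 76) (nat_lit 27310631426) (nat_lit 25) (nat_lit 5) (nat_lit 27)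 (nat_lit 5) (nat_lit 26) (nat_lit 5) (nat_lit 381) (nat_lit 282) (nat_lit 117))))))) (XT.nd (nat_lit 1014) (nat_lit 304) (nat_lit 0) (XT.nd (nat_lit 468) (nat_lit 304) (nat_lit 0) (XT.nd (nat_lit 234) (nat_lit 76) (nat_lit 0) (XT.nd (nat_lit 78) (nat_lit 152) (nat_lit 0) (XT.lf (nat_lit 0) (nat_lit 16086041773) (nat_lit 152) (nat_lit 1756429356) (nat_lit 76) (nat_lit 37999052067) (nat_lit 25) (nat_lit 5) (nat_lit 27) (nat_lit 5) (nat_lit 26) (nat_lit 5) (nat_lit 382) (nat_lit 282) (nat_lit 116)) (XT.nd (nat_lit 78) (nat_lit 0) (nat_lit 0) (XT.lf (nat_lit 0) (nat_lit 15953475805) (nat_lit 152) (nat_lit 8051628293) (nat_lit 228) (nat_lit 33204932710) (nat_lit 23) (nat_lit 5) (nat_lit 25) (nat_lit 5) (nat_lit 26) (nat_lit 5) (nat_lit 383) (nat_lit 282) (nat_lit 115)) (XT.lf (nat_lit 0) (nat_lit 32194918374) (nat_lit 228) (nat_lit 24415632487) (nat_lit 76) (nat_lit 2008061508) (nat_lit 23) (nat_lit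 5) (nat_lit 26) (nat_lit 5) (nat_lit 24) (nat_lit 4) (nat_lit 384) (nat_lit 282) (nat_lit 114)))) (XT.nd (nat_lit 78) (nat_lit 76) (nat_lit 0) (XT.lf (nat_lit 0) (nat_lit 40705996773) (nat_lit 228) (nat_lit 7156500531) (nat_lit 76) (nat_lit 12204682689) (nat_lit 23) (nat_lit 5) (nat_lit 26) (nat_lit 5) (nat_lit 24) (nat_lit 4) (nat_lit 385) (nat_lit 282) (nat_lit 113)) (XT.nd (nat_lit 78) (nat_lit 0) (nat_lit 0) (XT.lf (nat_lit 0) (nat_lit 10824538569) (nat_lit 76) (nat_lit 38747892499) (nat_lit 152) (nat_lit 11983774705) (nat_lit 22) (nat_lit 5) (nat_lit 23) (nat_lit 5) (nat_lit 24) (nat_lit 4) (nat_lit 386) (nat_lit 282) (nat_lit 112)) (XT.lf (nat_lit 0) (nat_lit 29484687074) (nat_lit 76) (nat_lit 29288459226) (nat_lit 152) (nat_lit 4314709169) (nat_lit 22) (nat_lit 5) (nat_lit 23) (nat_lit 5) (nat_lit 24) (nat_lit 4) (nat_lit 387) (nat_lit 282) (nat_lit 111))))) (XT.nd (nat_lit 234) (nat_lit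 76) (nat_lit 0) (XT.nd (nat_lit 78) (nat_lit 152) (nat_lit 0) (XT.lf (nat_lit 0) (nat_lit 3510580456) (nat_lit 152) (nat_lit 16002168149) (nat_lit 76) (nat_lit 45151791138) (nat_lit 21) (nat_lit 5) (nat_lit 23) (nat_lit 5) (nat_lit 22) (nat_lit 5) (nat_lit 388) (nat_lit 282) (nat_lit 110)) (XT.nd (nat_lit 78) (nat_lit 0) (nat_lit 0) (XT.lf (nat_lit 0) (nat_lit 2118790543) (nat_lit 152) (nat_lit 9381694859) (nat_lit 228) (nat_lit 54786261836) (nat_lit 19) (nat_lit 5) (nat_lit 21) (nat_lit 5) (nat_lit 22) (nat_lit 5) (nat_lit 389) (nat_lit 282) (nat_lit 109)) (XT.lf (nat_lit 0) (nat_lit 19899632550) (nat_lit 228) (nat_lit 46859808599) (nat_lit 76) (nat_lit 1193095038) (nat_lit 19) (nat_lit 5) (nat_lit 22) (nat_lit 5) (nat_lit 20) (nat_lit 4) (nat_lit 390) (nat_lit 282) (nat_lit 108)))) (XT.nd (nat_lit 156) (nat_lit 76) (nat_lit 0) (XT.nd (nat_lit 78) (nat_lit 0) (nat_lit 0) (XT.lf (nat_lit 0) (nat_lit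 28639981746) (nat_lit 228) (nat_lit 29131825810) (nat_lit 76) (nat_lit 11893815953) (nat_lit 19) (nat_lit 5) (nat_lit 22) (nat_lit 5) (nat_lit 20) (nat_lit 4) (nat_lit 391) (nat_lit 282) (nat_lit 107)) (XT.lf (nat_lit 0) (nat_lit 37638987598) (nat_lit 228) (nat_lit 10878335269) (nat_lit 76) (nat_lit 22912888689) (nat_lit 19) (nat_lit 5) (nat_lit 22) (nat_lit 5) (nat_lit 20) (nat_lit 4) (nat_lit 392) (nat_lit 282) (nat_lit 106))) (XT.nd (nat_lit 78) (nat_lit 0) (nat_lit 0) (XT.lf (nat_lit 0) (nat_lit 8074168791) (nat_lit 76) (nat_lit 38907958373) (nat_lit 152) (nat_lit 26263386620) (nat_lit 18) (nat_lit 5) (nat_lit 19) (nat_lit 5) (nat_lit 20) (nat_lit 4) (nat_lit 393) (nat_lit 282) (nat_lit 105)) (XT.lf (nat_lit 0) (nat_lit 27812156138) (nat_lit 76) (nat_lit 28899846309) (nat_lit 152) (nat_lit 18400080792) (nat_lit 18) (nat_lit 5) (nat_lit 19) (nat_lit 5) (nat_lit 20) (nat_lit 4) (nat_lit 394)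 (nat_lit 282) (nat_lit 104)))))) (XT.nd (nat_lit 31902) (nat_lit 0) (nat_lit 15428) (XT.nd (nat_lit 234) (nat_lit 76) (nat_lit 0) (XT.nd (nat_lit 78) (nat_lit 228) (nat_lit 0) (XT.lf (nat_lit 0) (nat_lit 48136373353) (nat_lit 76) (nat_lit 18594091578) (nat_lit 152) (nat_lit 10304285482) (nat_lit 18) (nat_lit 5) (nat_lit 19) (nat_lit 5) (nat_lit 20) (nat_lit 4) (nat_lit 395) (nat_lit 282) (nat_lit 103)) (XT.nd (nat_lit 78) (nat_lit 228) (nat_lit 0) (XT.lf (nat_lit 0) (nat_lit 69064579462) (nat_lit 76) (nat_lit 7981689151) (nat_lit 152) (nat_lit 1968926692) (nat_lit 18) (nat_lit 5) (nat_lit 19) (nat_lit 5) (nat_lit 20) (nat_lit 4) (nat_lit 396) (nat_lit 282) (nat_lit 102)) (XT.lf (nat_lit 0) (nat_lit 6607207458) (nat_lit 228) (nat_lit 71394986510) (nat_lit 76) (nat_lit 3047357986) (nat_lit 15) (nat_lit 5) (nat_lit 18) (nat_lit 5) (nat_lit 16) (nat_lit 4) (nat_lit 397) (nat_lit 282) (nat_lit 101))))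 (XT.nd (nat_lit 156) (nat_lit 76) (nat_lit 0) (XT.nd (nat_lit 78) (nat_lit 0) (nat_lit 0) (XT.lf (nat_lit 0) (nat_lit 15578418561) (nat_lit 228) (nat_lit 53195210757) (nat_lit 76) (nat_lit 14365405374) (nat_lit 15) (nat_lit 5) (nat_lit 18) (nat_lit 5) (nat_lit 16) (nat_lit 4) (nat_lit 398) (nat_lit 282) (nat_lit 100)) (XT.lf (nat_lit 0) (nat_lit 24815720560) (nat_lit 228) (nat_lit 34454927294) (nat_lit 76) (nat_lit 26020646596) (nat_lit 15) (nat_lit 5) (nat_lit 18) (nat_lit 5) (nat_lit 16) (nat_lit 4) (nat_lit 399) (nat_lit 282) (nat_lit 99))) (XT.nd (nat_lit 78) (nat_lit 76) (nat_lit 0) (XT.lf (nat_lit 0) (nat_lit 34327184886) (nat_lit 228) (nat_lit 15157761116) (nat_lit 76) (nat_lit 38023265844) (nat_lit 15) (nat_lit 5) (nat_lit 18) (nat_lit 5) (nat_lit 16) (nat_lit 4) (nat_lit 400) (nat_lit 282) (nat_lit 98)) (XT.lf (nat_lit 0) (nat_lit 4806950291) (nat_lit 76) (nat_lit 39360379583) (nat_lit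 152) (nat_lit 45623007897) (nat_lit 14) (nat_lit 5) (nat_lit 15) (nat_lit 5) (nat_lit 16) (nat_lit 4) (nat_lit 401) (nat_lit 282) (nat_lit 97))))) (XT.nd (nat_lit 234) (nat_lit 0) (nat_lit 76) (XT.nd (nat_lit 78) (nat_lit 988) (nat_lit 0) (XT.lf (nat_lit 0) (nat_lit 3875548156) (nat_lit 988) (nat_lit 247171337) (nat_lit 988) (nat_lit 247171337) (nat_lit 230) (nat_lit 3) (nat_lit 243) (nat_lit 3) (nat_lit 243) (nat_lit 5) (nat_lit 283) (nat_lit 283) (nat_lit 214)) (XT.nd (nat_lit 78) (nat_lit 988) (nat_lit 0) (XT.lf (nat_lit 76) (nat_lit 3523991164) (nat_lit 0) (nat_lit 5279007399) (nat_lit 988) (nat_lit 38404717) (nat_lit 231) (nat_lit 5) (nat_lit 230) (nat_lit 3) (nat_lit 243) (nat_lit 5) (nat_lit 284) (nat_lit 283) (nat_lit 213)) (XT.lf (nat_lit 0) (nat_lit 891300178) (nat_lit 988) (nat_lit 1301282680) (nat_lit 1064) (nat_lit 6754194795) (nat_lit 217) (nat_lit 5) (nat_lit 230) (nat_lit 3) (nat_lit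 231) (nat_lit 5) (nat_lit 285) (nat_lit 283) (nat_lit 212)))) (XT.nd (nat_lit 156) (nat_lit 0) (nat_lit 0) (XT.nd (nat_lit 78) (nat_lit 0) (nat_lit 0) (XT.lf (nat_lit 0) (nat_lit 1850914569) (nat_lit 988) (nat_lit 6193198571) (nat_lit 1064) (nat_lit 1011156728) (nat_lit 218) (nat_lit 5) (nat_lit 231) (nat_lit 5) (nat_lit 232) (nat_lit 5) (nat_lit 286) (nat_lit 283) (nat_lit 211)) (XT.lf (nat_lit 0) (nat_lit 2840544651) (nat_lit 988) (nat_lit 2031208946) (nat_lit 1064) (nat_lit 4295276650) (nat_lit 218) (nat_lit 5) (nat_lit 231) (nat_lit 5) (nat_lit 232) (nat_lit 5) (nat_lit 287) (nat_lit 283) (nat_lit 210))) (XT.nd (nat_lit 78) (nat_lit 0) (nat_lit 76) (XT.lf (nat_lit 76) (nat_lit 2280977263) (nat_lit 0) (nat_lit 1568043600) (nat_lit 1064) (nat_lit 5433496612) (nat_lit 219) (nat_lit 5) (nat_lit 218) (nat_lit 5) (nat_lit 232) (nat_lit 5) (nat_lit 288) (nat_lit 283) (nat_lit 209)) (XT.lf (nat_lit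 0) (nat_lit 4894230772) (nat_lit 988) (nat_lit 2674644753) (nat_lit 1064) (nat_lit 1832446748) (nat_lit 219) (nat_lit 5) (nat_lit 232) (nat_lit 5) (nat_lit 233) (nat_lit 5) (nat_lit 289) (nat_lit 283) (nat_lit 208))))))))
noncomputable def xc163 : XT := (XT.nd (nat_lit 2028) (nat_lit 4864) (nat_lit 0) (XT.nd (nat_lit 1014) (nat_lit 3420) (nat_lit 0) (XT.nd (nat_lit 468) (nat_lit 2052) (nat_lit 0) (XT.nd (nat_lit 234) (nat_lit 912) (nat_lit 0) (XT.nd (nat_lit 78) (nat_lit 0) (nat_lit 0) (XT.lf (nat_lit 76) (nat_lit 1781769541) (nat_lit 0) (nat_lit 4190736480) (nat_lit 1064) (nat_lit 3551179876) (nat_lit 220) (nat_lit 5) (nat_lit 219) (nat_lit 5) (nat_lit 233) (nat_lit 5) (nat_lit 290) (nat_lit 283) (nat_lit 207)) (XT.nd (nat_lit 78) (nat_lit 0) (nat_lit 76) (XT.lf (nat_lit 76) (nat_lit 6407363760) (nat_lit 0) (nat_lit 672546199) (nat_lit 1064) (nat_lit 2569951676) (nat_lit 220) (nat_lit 5) (nat_lit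 219) (nat_lit 5) (nat_lit 233) (nat_lit 5) (nat_lit 291) (nat_lit 283) (nat_lit 206)) (XT.lf (nat_lit 76) (nat_lit 1370475263) (nat_lit 0) (nat_lit 6862357053) (nat_lit 1064) (nat_lit 1546664759) (nat_lit 221) (nat_lit 5) (nat_lit 220) (nat_lit 5) (nat_lit 234) (nat_lit 5) (nat_lit 292) (nat_lit 283) (nat_lit 205)))) (XT.nd (nat_lit 78) (nat_lit 988) (nat_lit 0) (XT.lf (nat_lit 76) (nat_lit 6161906202) (nat_lit 0) (nat_lit 3269189759) (nat_lit 1064) (nat_lit 481645063) (nat_lit 221) (nat_lit 5) (nat_lit 220) (nat_lit 5) (nat_lit 234) (nat_lit 5) (nat_lit 293) (nat_lit 283) (nat_lit 204)) (XT.nd (nat_lit 78) (nat_lit 0) (nat_lit 0) (XT.lf (nat_lit 0) (nat_lit 589657284) (nat_lit 1064) (nat_lit 9012896617) (nat_lit 1140) (nat_lit 447700408) (nat_lit 207) (nat_lit 5) (nat_lit 221) (nat_lit 5) (nat_lit 222) (nat_lit 5) (nat_lit 294) (nat_lit 283) (nat_lit 203)) (XT.lf (nat_lit 0) (nat_lit 1726679656)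 (nat_lit 1064) (nat_lit 4202565236) (nat_lit 1140) (nat_lit 4261245679) (nat_lit 207) (nat_lit 5) (nat_lit 221) (nat_lit 5) (nat_lit 222) (nat_lit 5) (nat_lit 295) (nat_lit 283) (nat_lit 202))))) (XT.nd (nat_lit 234) (nat_lit 2052) (nat_lit 0) (XT.nd (nat_lit 78) (nat_lit 0) (nat_lit 76) (XT.lf (nat_lit 76) (nat_lit 746862731) (nat_lit 0) (nat_lit 2131568335) (nat_lit 1140) (nat_lit 7457121670) (nat_lit 208) (nat_lit 5) (nat_lit 207) (nat_lit 5) (nat_lit 222) (nat_lit 5) (nat_lit 296) (nat_lit 283) (nat_lit 201)) (XT.nd (nat_lit 78) (nat_lit 0) (nat_lit 0) (XT.lf (nat_lit 0) (nat_lit 4098789375) (nat_lit 1064) (nat_lit 4590772865) (nat_lit 1140) (nat_lit 1794419172) (nat_lit 208) (nat_lit 5) (nat_lit 222) (nat_lit 5) (nat_lit 223) (nat_lit 5) (nat_lit 297) (nat_lit 283) (nat_lit 200)) (XT.lf (nat_lit 76) (nat_lit 526374594) (nat_lit 0) (nat_lit 4830388789) (nat_lit 1140) (nat_lit 5280104638) (nat_lit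 209) (nat_lit 5) (nat_lit 208) (nat_lit 5) (nat_lit 223) (nat_lit 5) (nat_lit 298) (nat_lit 283) (nat_lit 199)))) (XT.nd (nat_lit 156) (nat_lit 1140) (nat_lit 0) (XT.nd (nat_lit 78) (nat_lit 988) (nat_lit 0) (XT.lf (nat_lit 76) (nat_lit 5871463645) (nat_lit 0) (nat_lit 802754884) (nat_lit 1140) (nat_lit 4119504638) (nat_lit 209) (nat_lit 5) (nat_lit 208) (nat_lit 5) (nat_lit 223) (nat_lit 5) (nat_lit 299) (nat_lit 283) (nat_lit 198)) (XT.lf (nat_lit 0) (nat_lit 376913101) (nat_lit 1064) (nat_lit 7666215492) (nat_lit 1140) (nat_lit 2911830635) (nat_lit 195) (nat_lit 5) (nat_lit 209) (nat_lit 5) (nat_lit 210) (nat_lit 5) (nat_lit 300) (nat_lit 283) (nat_lit 197))) (XT.nd (nat_lit 78) (nat_lit 1140) (nat_lit 0) (XT.lf (nat_lit 0) (nat_lit 5908149032) (nat_lit 1064) (nat_lit 3579184701) (nat_lit 1140) (nat_lit 1632704037) (nat_lit 195) (nat_lit 5) (nat_lit 209) (nat_lit 5) (nat_lit 210) (nat_lit 5)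 (nat_lit 301) (nat_lit 283) (nat_lit 196)) (XT.lf (nat_lit 0) (nat_lit 295072543) (nat_lit 1140) (nat_lit 10666055700) (nat_lit 1216) (nat_lit 329383823) (nat_lit 180) (nat_lit 5) (nat_lit 195) (nat_lit 5) (nat_lit 196) (nat_lit 5) (nat_lit 302) (nat_lit 283) (nat_lit 195)))))) (XT.nd (nat_lit 468) (nat_lit 1596) (nat_lit 0) (XT.nd (nat_lit 234) (nat_lit 1140) (nat_lit 0) (XT.nd (nat_lit 78) (nat_lit 608) (nat_lit 0) (XT.lf (nat_lit 0) (nat_lit 1059443680) (nat_lit 1216) (nat_lit 5456295988) (nat_lit 76) (nat_lit 4948113012) (nat_lit 179) (nat_lit 5) (nat_lit 195) (nat_lit 5) (nat_lit 180) (nat_lit 5) (nat_lit 303) (nat_lit 283) (nat_lit 194)) (XT.nd (nat_lit 78) (nat_lit 0) (nat_lit 0) (XT.lf (nat_lit 0) (nat_lit 230690298) (nat_lit 608) (nat_lit 2233083006) (nat_lit 684) (nat_lit 9179137284) (nat_lit 171) (nat_lit 5) (nat_lit 179) (nat_lit 5) (nat_lit 180) (nat_lit 5) (nat_lit 304) (nat_lit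 283) (nat_lit 193)) (XT.lf (nat_lit 0) (nat_lit 3965519127) (nat_lit 684) (nat_lit 5667100507) (nat_lit 76) (nat_lit 2193089811) (nat_lit 171) (nat_lit 5) (nat_lit 180) (nat_lit 5) (nat_lit 172) (nat_lit 5) (nat_lit 305) (nat_lit 283) (nat_lit 192)))) (XT.nd (nat_lit 78) (nat_lit 532) (nat_lit 0) (XT.lf (nat_lit 0) (nat_lit 212936944) (nat_lit 608) (nat_lit 5302863317) (nat_lit 684) (nat_lit 6498114514) (nat_lit 163) (nat_lit 5) (nat_lit 171) (nat_lit 5) (nat_lit 172) (nat_lit 5) (nat_lit 306) (nat_lit 283) (nat_lit 191)) (XT.nd (nat_lit 78) (nat_lit 532) (nat_lit 0) (XT.lf (nat_lit 0) (nat_lit 6366255160) (nat_lit 608) (nat_lit 783304314) (nat_lit 684) (nat_lit 5057123910) (nat_lit 163) (nat_lit 5) (nat_lit 171) (nat_lit 5) (nat_lit 172) (nat_lit 5) (nat_lit 307) (nat_lit 283) (nat_lit 190)) (XT.lf (nat_lit 0) (nat_lit 247189944) (nat_lit 532) (nat_lit 8605078237) (nat_lit 608) (nat_lit 3552394212)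 (nat_lit 156) (nat_lit 5) (nat_lit 163) (nat_lit 5) (nat_lit 164) (nat_lit 5) (nat_lit 308) (nat_lit 283) (nat_lit 189))))) (XT.nd (nat_lit 234) (nat_lit 988) (nat_lit 0) (XT.nd (nat_lit 78) (nat_lit 608) (nat_lit 0) (XT.lf (nat_lit 0) (nat_lit 6610086626) (nat_lit 532) (nat_lit 4043358273) (nat_lit 608) (nat_lit 1953738975) (nat_lit 156) (nat_lit 5) (nat_lit 163) (nat_lit 5) (nat_lit 164) (nat_lit 5) (nat_lit 309) (nat_lit 283) (nat_lit 188)) (XT.nd (nat_lit 78) (nat_lit 76) (nat_lit 0) (XT.lf (nat_lit 0) (nat_lit 329019939) (nat_lit 532) (nat_lit 12170390694) (nat_lit 608) (nat_lit 316671738) (nat_lit 149) (nat_lit 5) (nat_lit 156) (nat_lit 5) (nat_lit 157) (nat_lit 5) (nat_lit 310) (nat_lit 283) (nat_lit 187)) (XT.lf (nat_lit 0) (nat_lit 1425425658) (nat_lit 608) (nat_lit 6134768139) (nat_lit 76) (nat_lit 5468202433) (nat_lit 148) (nat_lit 5) (nat_lit 156) (nat_lit 5) (nat_lit 149) (nat_lit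 5) (nat_lit 311) (nat_lit 283) (nat_lit 186)))) (XT.nd (nat_lit 156) (nat_lit 532) (nat_lit 0) (XT.nd (nat_lit 78) (nat_lit 0) (nat_lit 0) (XT.lf (nat_lit 0) (nat_lit 393814305) (nat_lit 456) (nat_lit 2805383150) (nat_lit 532) (nat_lit 10048236650) (nat_lit 142) (nat_lit 5) (nat_lit 148) (nat_lit 5) (nat_lit 149) (nat_lit 5) (nat_lit 312) (nat_lit 283) (nat_lit 185)) (XT.lf (nat_lit 0) (nat_lit 5091181725) (nat_lit 532) (nat_lit 6267084555) (nat_lit 76) (nat_lit 2112848164) (nat_lit 142) (nat_lit 5) (nat_lit 149) (nat_lit 5) (nat_lit 143) (nat_lit 5) (nat_lit 313) (nat_lit 283) (nat_lit 184))) (XT.nd (nat_lit 78) (nat_lit 0) (nat_lit 0) (XT.lf (nat_lit 0) (nat_lit 480008994) (nat_lit 532) (nat_lit 6575148059) (nat_lit 608) (nat_lit 6645911884) (nat_lit 135) (nat_lit 5) (nat_lit 142) (nat_lit 5) (nat_lit 143) (nat_lit 5) (nat_lit 314) (nat_lit 283) (nat_lit 183)) (XT.lf (nat_lit 0) (nat_lit 7539538685)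 (nat_lit 532) (nat_lit 1584961996) (nat_lit 608) (nat_lit 4812047998) (nat_lit 135) (nat_lit 5) (nat_lit 142) (nat_lit 5) (nat_lit 143) (nat_lit 5) (nat_lit 315) (nat_lit 283) (nat_lit 182))))))) (XT.nd (nat_lit 1014) (nat_lit 1976) (nat_lit 0) (XT.nd (nat_lit 468) (nat_lit 1520) (nat_lit 0) (XT.nd (nat_lit 234) (nat_lit 380) (nat_lit 0) (XT.nd (nat_lit 78) (nat_lit 532) (nat_lit 0) (XT.lf (nat_lit 0) (nat_lit 590712874) (nat_lit 456) (nat_lit 10688701326) (nat_lit 532) (nat_lit 2898993428) (nat_lit 129) (nat_lit 5) (nat_lit 135) (nat_lit 5) (nat_lit 136) (nat_lit 5) (nat_lit 316) (nat_lit 283) (nat_lit 181)) (XT.nd (nat_lit 78) (nat_lit 532) (nat_lit 0) (XT.lf (nat_lit 0) (nat_lit 7884971924) (nat_lit 456) (nat_lit 5678079790) (nat_lit 532) (nat_lit 862567266) (nat_lit 129) (nat_lit 5) (nat_lit 135) (nat_lit 5) (nat_lit 136) (nat_lit 5) (nat_lit 317) (nat_lit 283) (nat_lit 180)) (XT.lf (nat_lit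 0) (nat_lit 701608113) (nat_lit 456) (nat_lit 500225343) (nat_lit 532) (nat_lit 13478345527) (nat_lit 122) (nat_lit 5) (nat_lit 128) (nat_lit 5) (nat_lit 129) (nat_lit 5) (nat_lit 318) (nat_lit 283) (nat_lit 179)))) (XT.nd (nat_lit 78) (nat_lit 380) (nat_lit 0) (XT.lf (nat_lit 0) (nat_lit 3408489167) (nat_lit 532) (nat_lit 6719144067) (nat_lit 76) (nat_lit 4811573878) (nat_lit 122) (nat_lit 5) (nat_lit 129) (nat_lit 5) (nat_lit 123) (nat_lit 5) (nat_lit 319) (nat_lit 283) (nat_lit 178)) (XT.nd (nat_lit 78) (nat_lit 0) (nat_lit 0) (XT.lf (nat_lit 0) (nat_lit 749974823) (nat_lit 380) (nat_lit 4928483758) (nat_lit 456) (nat_lit 9527650905) (nat_lit 117) (nat_lit 5) (nat_lit 122) (nat_lit 5) (nat_lit 123) (nat_lit 5) (nat_lit 320) (nat_lit 283) (nat_lit 177)) (XT.lf (nat_lit 0) (nat_lit 8074344276) (nat_lit 456) (nat_lit 6920884240) (nat_lit 76) (nat_lit 484072230) (nat_lit 117) (nat_lit 5) (nat_lit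 123) (nat_lit 5) (nat_lit 118) (nat_lit 5) (nat_lit 321) (nat_lit 283) (nat_lit 176))))) (XT.nd (nat_lit 234) (nat_lit 760) (nat_lit 0) (XT.nd (nat_lit 78) (nat_lit 380) (nat_lit 0) (XT.lf (nat_lit 0) (nat_lit 789527476) (nat_lit 380) (nat_lit 9794590700) (nat_lit 456) (nat_lit 5175325076) (nat_lit 112) (nat_lit 5) (nat_lit 117) (nat_lit 5) (nat_lit 118) (nat_lit 5) (nat_lit 322) (nat_lit 283) (nat_lit 175)) (XT.nd (nat_lit 78) (nat_lit 380) (nat_lit 0) (XT.lf (nat_lit 0) (nat_lit 8855788639) (nat_lit 380) (nat_lit 4369161414) (nat_lit 456) (nat_lit 2821382431) (nat_lit 112) (nat_lit 5) (nat_lit 117) (nat_lit 5) (nat_lit 118) (nat_lit 5) (nat_lit 323) (nat_lit 283) (nat_lit 174)) (XT.lf (nat_lit 0) (nat_lit 809053033) (nat_lit 380) (nat_lit 15141707799) (nat_lit 456) (nat_lit 390909890) (nat_lit 107) (nat_lit 5) (nat_lit 112) (nat_lit 5) (nat_lit 113) (nat_lit 5) (nat_lit 324) (nat_lit 283) (nat_lit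 173)))) (XT.nd (nat_lit 156) (nat_lit 304) (nat_lit 0) (XT.nd (nat_lit 78) (nat_lit 380) (nat_lit 0) (XT.lf (nat_lit 0) (nat_lit 2174190219) (nat_lit 456) (nat_lit 7529280840) (nat_lit 76) (nat_lit 6938714880) (nat_lit 106) (nat_lit 5) (nat_lit 112) (nat_lit 5) (nat_lit 107) (nat_lit 5) (nat_lit 325) (nat_lit 283) (nat_lit 172)) (XT.lf (nat_lit 0) (nat_lit 707249217) (nat_lit 380) (nat_lit 4094680476) (nat_lit 456) (nat_lit 12149878188) (nat_lit 101) (nat_lit 5) (nat_lit 106) (nat_lit 5) (nat_lit 107) (nat_lit 5) (nat_lit 326) (nat_lit 283) (nat_lit 171))) (XT.nd (nat_lit 78) (nat_lit 304) (nat_lit 0) (XT.lf (nat_lit 0) (nat_lit 7588392655) (nat_lit 456) (nat_lit 7957185840) (nat_lit 76) (nat_lit 1722756526) (nat_lit 101) (nat_lit 5) (nat_lit 107) (nat_lit 5) (nat_lit 102) (nat_lit 5) (nat_lit 327) (nat_lit 283) (nat_lit 170)) (XT.lf (nat_lit 0) (nat_lit 532104863) (nat_lit 304) (nat_lit 9959317010)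 (nat_lit 380) (nat_lit 7101959824) (nat_lit 97) (nat_lit 5) (nat_lit 101) (nat_lit 5) (nat_lit 102) (nat_lit 5) (nat_lit 328) (nat_lit 283) (nat_lit 169)))))) (XT.nd (nat_lit 546) (nat_lit 912) (nat_lit 0) (XT.nd (nat_lit 234) (nat_lit 608) (nat_lit 0) (XT.nd (nat_lit 78) (nat_lit 456) (nat_lit 0) (XT.lf (nat_lit 0) (nat_lit 9422805808) (nat_lit 304) (nat_lit 4126616146) (nat_lit 380) (nat_lit 4376733936) (nat_lit 97) (nat_lit 5) (nat_lit 101) (nat_lit 5) (nat_lit 102) (nat_lit 5) (nat_lit 329) (nat_lit 283) (nat_lit 168)) (XT.nd (nat_lit 78) (nat_lit 76) (nat_lit 0) (XT.lf (nat_lit 0) (nat_lit 282500388) (nat_lit 380) (nat_lit 16425313944) (nat_lit 456) (nat_lit 1560851560) (nat_lit 92) (nat_lit 5) (nat_lit 97) (nat_lit 5) (nat_lit 98) (nat_lit 5) (nat_lit 330) (nat_lit 283) (nat_lit 167)) (XT.lf (nat_lit 0) (nat_lit 1428867640) (nat_lit 456) (nat_lit 9183559643) (nat_lit 76) (nat_lit 8005184114)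 (nat_lit 91) (nat_lit 5) (nat_lit 97) (nat_lit 5) (nat_lit 92) (nat_lit 5) (nat_lit 331) (nat_lit 283) (nat_lit 166)))) (XT.nd (nat_lit 156) (nat_lit 304) (nat_lit 0) (XT.nd (nat_lit 78) (nat_lit 304) (nat_lit 0) (XT.lf (nat_lit 0) (nat_lit 4465182621) (nat_lit 456) (nat_lit 148190994) (nat_lit 76) (nat_lit 14363550879) (nat_lit 91) (nat_lit 5) (nat_lit 97) (nat_lit 5) (nat_lit 92) (nat_lit 5) (nat_lit 332) (nat_lit 283) (nat_lit 165)) (XT.lf (nat_lit 0) (nat_lit 7686738860) (nat_lit 380) (nat_lit 10035779357) (nat_lit 76) (nat_lit 1621685011) (nat_lit 87) (nat_lit 5) (nat_lit 92) (nat_lit 5) (nat_lit 88) (nat_lit 5) (nat_lit 333) (nat_lit 283) (nat_lit 164))) (XT.nd (nat_lit 78) (nat_lit 304) (nat_lit 0) (XT.lf (nat_lit 0) (nat_lit 11040893287) (nat_lit 380) (nat_lit 731928194) (nat_lit 76) (nat_lit 7948610781) (nat_lit 87) (nat_lit 5) (nat_lit 92) (nat_lit 5) (nat_lit 88) (nat_lit 5) (nat_lit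 334) (nat_lit 283) (nat_lit 163)) (XT.lf (nat_lit 0) (nat_lit 9011788098) (nat_lit 304) (nat_lit 5559601628) (nat_lit 380) (nat_lit 5536327095) (nat_lit 83) (nat_lit 5) (nat_lit 87) (nat_lit 5) (nat_lit 88) (nat_lit 5) (nat_lit 335) (nat_lit 283) (nat_lit 162))))) (XT.nd (nat_lit 234) (nat_lit 532) (nat_lit 0) (XT.nd (nat_lit 78) (nat_lit 380) (nat_lit 0) (XT.lf (nat_lit 0) (nat_lit 18212564014) (nat_lit 380) (nat_lit 1465942580) (nat_lit 76) (nat_lit 826950317) (nat_lit 83) (nat_lit 5) (nat_lit 88) (nat_lit 5) (nat_lit 84) (nat_lit 5) (nat_lit 336) (nat_lit 283) (nat_lit 161)) (XT.nd (nat_lit 78) (nat_lit 0) (nat_lit 0) (XT.lf (nat_lit 0) (nat_lit 1155413490) (nat_lit 380) (nat_lit 12372727743) (nat_lit 76) (nat_lit 7382854618) (nat_lit 78) (nat_lit 5) (nat_lit 83) (nat_lit 5) (nat_lit 79) (nat_lit 5) (nat_lit 337) (nat_lit 283) (nat_lit 160)) (XT.lf (nat_lit 0) (nat_lit 4665624503) (nat_lit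 380) (nat_lit 2493323032) (nat_lit 76) (nat_lit 14168945199) (nat_lit 78) (nat_lit 5) (nat_lit 83) (nat_lit 5) (nat_lit 79) (nat_lit 5) (nat_lit 338) (nat_lit 283) (nat_lit 159)))) (XT.nd (nat_lit 156) (nat_lit 228) (nat_lit 0) (XT.nd (nat_lit 78) (nat_lit 0) (nat_lit 0) (XT.lf (nat_lit 0) (nat_lit 7820632533) (nat_lit 304) (nat_lit 525579801) (nat_lit 380) (nat_lit 13409140854) (nat_lit 74) (nat_lit 5) (nat_lit 78) (nat_lit 5) (nat_lit 79) (nat_lit 5) (nat_lit 339) (nat_lit 283) (nat_lit 158)) (XT.lf (nat_lit 0) (nat_lit 12213278361) (nat_lit 380) (nat_lit 3775202305) (nat_lit 76) (nat_lit 6204883497) (nat_lit 74) (nat_lit 5) (nat_lit 79) (nat_lit 5) (nat_lit 75) (nat_lit 5) (nat_lit 340) (nat_lit 283) (nat_lit 157))) (XT.nd (nat_lit 78) (nat_lit 0) (nat_lit 0) (XT.lf (nat_lit 0) (nat_lit 6802499665) (nat_lit 228) (nat_lit 9454750143) (nat_lit 304) (nat_lit 6385447131) (nat_lit 71) (nat_lit 5)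 (nat_lit 74) (nat_lit 5) (nat_lit 75) (nat_lit 5) (nat_lit 341) (nat_lit 283) (nat_lit 156)) (XT.lf (nat_lit 0) (nat_lit 17760919822) (nat_lit 228) (nat_lit 2690190552) (nat_lit 304) (nat_lit 2653550259) (nat_lit 71) (nat_lit 5) (nat_lit 74) (nat_lit 5) (nat_lit 75) (nat_lit 5) (nat_lit 342) (nat_lit 283) (nat_lit 155))))))))
noncomputable def xc164 : XT := (XT.nd (nat_lit 2028) (nat_lit 1368) (nat_lit 0) (XT.nd (nat_lit 1014) (nat_lit 1064) (nat_lit 0) (XT.nd (nat_lit 468) (nat_lit 760) (nat_lit 0) (XT.nd (nat_lit 234) (nat_lit 228) (nat_lit 0) (XT.nd (nat_lit 78) (nat_lit 228) (nat_lit 0) (XT.lf (nat_lit 0) (nat_lit 1252774886) (nat_lit 380) (nat_lit 18069848971) (nat_lit 76) (nat_lit 4254952742) (nat_lit 66) (nat_lit 5) (nat_lit 71) (nat_lit 5) (nat_lit 67) (nat_lit 5) (nat_lit 343) (nat_lit 283) (nat_lit 154)) (XT.nd (nat_lit 78) (nat_lit 228) (nat_lit 0) (XT.lf (nat_lit 0) (nat_lit 5294813051)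 (nat_lit 380) (nat_lit 7336116023) (nat_lit 76) (nat_lit 11430814429) (nat_lit 66) (nat_lit 5) (nat_lit 71) (nat_lit 5) (nat_lit 67) (nat_lit 5) (nat_lit 344) (nat_lit 283) (nat_lit 153)) (XT.lf (nat_lit 0) (nat_lit 3779899243) (nat_lit 228) (nat_lit 5705543816) (nat_lit 304) (nat_lit 15074179573) (nat_lit 63) (nat_lit 5) (nat_lit 66) (nat_lit 5) (nat_lit 67) (nat_lit 5) (nat_lit 345) (nat_lit 283) (nat_lit 152)))) (XT.nd (nat_lit 78) (nat_lit 228) (nat_lit 0) (XT.lf (nat_lit 0) (nat_lit 13881415540) (nat_lit 304) (nat_lit 9718480811) (nat_lit 76) (nat_lit 1470160007) (nat_lit 63) (nat_lit 5) (nat_lit 67) (nat_lit 5) (nat_lit 64) (nat_lit 5) (nat_lit 346) (nat_lit 283) (nat_lit 151)) (XT.nd (nat_lit 78) (nat_lit 0) (nat_lit 0) (XT.lf (nat_lit 0) (nat_lit 1636858470) (nat_lit 228) (nat_lit 16835980076) (nat_lit 304) (nat_lit 7121064137) (nat_lit 60) (nat_lit 5) (nat_lit 63) (nat_lit 5) (nat_lit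 64) (nat_lit 5) (nat_lit 347) (nat_lit 283) (nat_lit 150)) (XT.lf (nat_lit 0) (nat_lit 13519015535) (nat_lit 228) (nat_lit 9772599131) (nat_lit 304) (nat_lit 2839167951) (nat_lit 60) (nat_lit 5) (nat_lit 63) (nat_lit 5) (nat_lit 64) (nat_lit 5) (nat_lit 348) (nat_lit 283) (nat_lit 149))))) (XT.nd (nat_lit 234) (nat_lit 456) (nat_lit 0) (XT.nd (nat_lit 78) (nat_lit 228) (nat_lit 0) (XT.lf (nat_lit 0) (nat_lit 1532158640) (nat_lit 304) (nat_lit 954088792) (nat_lit 76) (nat_lit 24197325590) (nat_lit 59) (nat_lit 5) (nat_lit 63) (nat_lit 5) (nat_lit 60) (nat_lit 5) (nat_lit 349) (nat_lit 283) (nat_lit 148)) (XT.nd (nat_lit 78) (nat_lit 0) (nat_lit 0) (XT.lf (nat_lit 0) (nat_lit 6126953405) (nat_lit 304) (nat_lit 16066758051) (nat_lit 76) (nat_lit 5053916559) (nat_lit 56) (nat_lit 5) (nat_lit 60) (nat_lit 5) (nat_lit 57) (nat_lit 5) (nat_lit 350) (nat_lit 283) (nat_lit 147)) (XT.lf (nat_lit 0) (nat_lit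 10885890826) (nat_lit 304) (nat_lit 4166153319) (nat_lit 76) (nat_lit 12775777352) (nat_lit 56) (nat_lit 5) (nat_lit 60) (nat_lit 5) (nat_lit 57) (nat_lit 5) (nat_lit 351) (nat_lit 283) (nat_lit 146)))) (XT.nd (nat_lit 156) (nat_lit 228) (nat_lit 0) (XT.nd (nat_lit 78) (nat_lit 0) (nat_lit 0) (XT.lf (nat_lit 0) (nat_lit 8240067452) (nat_lit 228) (nat_lit 7618924559) (nat_lit 304) (nat_lit 12564292539) (nat_lit 53) (nat_lit 5) (nat_lit 56) (nat_lit 5) (nat_lit 57) (nat_lit 5) (nat_lit 352) (nat_lit 283) (nat_lit 145)) (XT.lf (nat_lit 0) (nat_lit 21016386728) (nat_lit 304) (nat_lit 7944516902) (nat_lit 76) (nat_lit 74660320) (nat_lit 53) (nat_lit 5) (nat_lit 57) (nat_lit 5) (nat_lit 54) (nat_lit 5) (nat_lit 353) (nat_lit 283) (nat_lit 144))) (XT.nd (nat_lit 78) (nat_lit 76) (nat_lit 0) (XT.lf (nat_lit 0) (nat_lit 4665027893) (nat_lit 152) (nat_lit 21776235432) (nat_lit 228) (nat_lit 3221570918)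 (nat_lit 51) (nat_lit 5) (nat_lit 53) (nat_lit 5) (nat_lit 54) (nat_lit 5) (nat_lit 354) (nat_lit 283) (nat_lit 143)) (XT.lf (nat_lit 0) (nat_lit 1759928404) (nat_lit 228) (nat_lit 12520080025) (nat_lit 76) (nat_lit 16026217395) (nat_lit 50) (nat_lit 5) (nat_lit 53) (nat_lit 5) (nat_lit 51) (nat_lit 5) (nat_lit 355) (nat_lit 283) (nat_lit 142)))))) (XT.nd (nat_lit 468) (nat_lit 380) (nat_lit 0) (XT.nd (nat_lit 234) (nat_lit 456) (nat_lit 0) (XT.nd (nat_lit 78) (nat_lit 0) (nat_lit 0) (XT.lf (nat_lit 0) (nat_lit 294220412) (nat_lit 228) (nat_lit 6527457486) (nat_lit 304) (nat_lit 24146422547) (nat_lit 47) (nat_lit 5) (nat_lit 50) (nat_lit 5) (nat_lit 51) (nat_lit 5) (nat_lit 356) (nat_lit 283) (nat_lit 141)) (XT.nd (nat_lit 78) (nat_lit 0) (nat_lit 0) (XT.lf (nat_lit 0) (nat_lit 12169759158) (nat_lit 304) (nat_lit 17923369854) (nat_lit 76) (nat_lit 1552672633) (nat_lit 47) (nat_lit 5) (nat_lit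 51) (nat_lit 5) (nat_lit 48) (nat_lit 5) (nat_lit 357) (nat_lit 283) (nat_lit 140)) (XT.lf (nat_lit 0) (nat_lit 17735908471) (nat_lit 304) (nat_lit 4866299695) (nat_lit 76) (nat_lit 9739901529) (nat_lit 47) (nat_lit 5) (nat_lit 51) (nat_lit 5) (nat_lit 48) (nat_lit 5) (nat_lit 358) (nat_lit 283) (nat_lit 139)))) (XT.nd (nat_lit 78) (nat_lit 304) (nat_lit 0) (XT.lf (nat_lit 0) (nat_lit 8742074815) (nat_lit 152) (nat_lit 14804202903) (nat_lit 228) (nat_lit 9510716653) (nat_lit 45) (nat_lit 5) (nat_lit 47) (nat_lit 5) (nat_lit 48) (nat_lit 5) (nat_lit 359) (nat_lit 283) (nat_lit 138)) (XT.nd (nat_lit 78) (nat_lit 304) (nat_lit 0) (XT.lf (nat_lit 0) (nat_lit 22847565628) (nat_lit 152) (nat_lit 6725827128) (nat_lit 228) (nat_lit 4218664108) (nat_lit 45) (nat_lit 5) (nat_lit 47) (nat_lit 5) (nat_lit 48) (nat_lit 5) (nat_lit 360) (nat_lit 283) (nat_lit 137)) (XT.lf (nat_lit 0) (nat_lit 1244703743) (nat_lit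 304) (nat_lit 31703559817) (nat_lit 76) (nat_lit 1599458495) (nat_lit 41) (nat_lit 5) (nat_lit 45) (nat_lit 5) (nat_lit 42) (nat_lit 5) (nat_lit 361) (nat_lit 283) (nat_lit 136))))) (XT.nd (nat_lit 234) (nat_lit 228) (nat_lit 0) (XT.nd (nat_lit 78) (nat_lit 152) (nat_lit 0) (XT.lf (nat_lit 0) (nat_lit 6958857667) (nat_lit 304) (nat_lit 18172131791) (nat_lit 76) (nat_lit 10188668348) (nat_lit 41) (nat_lit 5) (nat_lit 45) (nat_lit 5) (nat_lit 42) (nat_lit 5) (nat_lit 362) (nat_lit 283) (nat_lit 135)) (XT.nd (nat_lit 78) (nat_lit 152) (nat_lit 0) (XT.lf (nat_lit 0) (nat_lit 12838097881) (nat_lit 304) (nat_lit 4245208739) (nat_lit 76) (nat_lit 19031638996) (nat_lit 41) (nat_lit 5) (nat_lit 45) (nat_lit 5) (nat_lit 42) (nat_lit 5) (nat_lit 363) (nat_lit 283) (nat_lit 134)) (XT.lf (nat_lit 0) (nat_lit 10290176909) (nat_lit 152) (nat_lit 8696300151) (nat_lit 228) (nat_lit 17944835873) (nat_lit 39) (nat_lit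 5) (nat_lit 41) (nat_lit 5) (nat_lit 42) (nat_lit 5) (nat_lit 364) (nat_lit 283) (nat_lit 133)))) (XT.nd (nat_lit 156) (nat_lit 76) (nat_lit 0) (XT.nd (nat_lit 78) (nat_lit 152) (nat_lit 0) (XT.lf (nat_lit 0) (nat_lit 25338602680) (nat_lit 152) (nat_lit 17502186) (nat_lit 228) (nat_lit 12414966103) (nat_lit 39) (nat_lit 5) (nat_lit 41) (nat_lit 5) (nat_lit 42) (nat_lit 5) (nat_lit 365) (nat_lit 283) (nat_lit 132)) (XT.lf (nat_lit 0) (nat_lit 2148733786) (nat_lit 152) (nat_lit 29868571831) (nat_lit 228) (nat_lit 6615705117) (nat_lit 37) (nat_lit 5) (nat_lit 39) (nat_lit 5) (nat_lit 40) (nat_lit 5) (nat_lit 366) (nat_lit 283) (nat_lit 131))) (XT.nd (nat_lit 78) (nat_lit 76) (nat_lit 0) (XT.lf (nat_lit 0) (nat_lit 17412250828) (nat_lit 152) (nat_lit 21585953994) (nat_lit 228) (nat_lit 519011406) (nat_lit 37) (nat_lit 5) (nat_lit 39) (nat_lit 5) (nat_lit 40) (nat_lit 5) (nat_lit 367) (nat_lit 283)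 (nat_lit 130)) (XT.lf (nat_lit 0) (nat_lit 5642431641) (nat_lit 228) (nat_lit 7359278638) (nat_lit 76) (nat_lit 27424751847) (nat_lit 36) (nat_lit 5) (nat_lit 39) (nat_lit 5) (nat_lit 37) (nat_lit 5) (nat_lit 368) (nat_lit 283) (nat_lit 129))))))) (XT.nd (nat_lit 1014) (nat_lit 532) (nat_lit 0) (XT.nd (nat_lit 468) (nat_lit 304) (nat_lit 0) (XT.nd (nat_lit 234) (nat_lit 380) (nat_lit 0) (XT.nd (nat_lit 78) (nat_lit 0) (nat_lit 0) (XT.lf (nat_lit 0) (nat_lit 7969810303) (nat_lit 152) (nat_lit 4079512240) (nat_lit 228) (nat_lit 29311380731) (nat_lit 34) (nat_lit 5) (nat_lit 36) (nat_lit 5) (nat_lit 37) (nat_lit 5) (nat_lit 369) (nat_lit 283) (nat_lit 128)) (XT.nd (nat_lit 78) (nat_lit 0) (nat_lit 0) (XT.lf (nat_lit 0) (nat_lit 18767056819) (nat_lit 228) (nat_lit 18470361622) (nat_lit 76) (nat_lit 5081997145) (nat_lit 34) (nat_lit 5) (nat_lit 37) (nat_lit 5) (nat_lit 35) (nat_lit 5) (nat_lit 370)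 (nat_lit 283) (nat_lit 127)) (XT.lf (nat_lit 0) (nat_lit 25721338361) (nat_lit 228) (nat_lit 3151721749) (nat_lit 76) (nat_lit 14432781640) (nat_lit 34) (nat_lit 5) (nat_lit 37) (nat_lit 5) (nat_lit 35) (nat_lit 5) (nat_lit 371) (nat_lit 283) (nat_lit 126)))) (XT.nd (nat_lit 78) (nat_lit 228) (nat_lit 0) (XT.lf (nat_lit 0) (nat_lit 12868742143) (nat_lit 152) (nat_lit 20133989038) (nat_lit 228) (nat_lit 11315577889) (nat_lit 32) (nat_lit 5) (nat_lit 34) (nat_lit 5) (nat_lit 35) (nat_lit 5) (nat_lit 372) (nat_lit 283) (nat_lit 125)) (XT.nd (nat_lit 78) (nat_lit 228) (nat_lit 0) (XT.lf (nat_lit 0) (nat_lit 29425663245) (nat_lit 152) (nat_lit 11103577139) (nat_lit 228) (nat_lit 4831112560) (nat_lit 32) (nat_lit 5) (nat_lit 34) (nat_lit 5) (nat_lit 35) (nat_lit 5) (nat_lit 373) (nat_lit 283) (nat_lit 124)) (XT.lf (nat_lit 0) (nat_lit 19642271) (nat_lit 152) (nat_lit 1787320618) (nat_lit 228) (nat_lit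 44626310914) (nat_lit 29) (nat_lit 5) (nat_lit 31) (nat_lit 5) (nat_lit 32) (nat_lit 5) (nat_lit 374) (nat_lit 283) (nat_lit 123))))) (XT.nd (nat_lit 234) (nat_lit 152) (nat_lit 0) (XT.nd (nat_lit 78) (nat_lit 152) (nat_lit 0) (XT.lf (nat_lit 0) (nat_lit 8779619132) (nat_lit 228) (nat_lit 30887436189) (nat_lit 76) (nat_lit 7862918347) (nat_lit 29) (nat_lit 5) (nat_lit 32) (nat_lit 5) (nat_lit 30) (nat_lit 5) (nat_lit 375) (nat_lit 283) (nat_lit 122)) (XT.nd (nat_lit 78) (nat_lit 152) (nat_lit 0) (XT.lf (nat_lit 0) (nat_lit 15974275074) (nat_lit 228) (nat_lit 14921545007) (nat_lit 76) (nat_lit 17763372311) (nat_lit 29) (nat_lit 5) (nat_lit 32) (nat_lit 5) (nat_lit 30) (nat_lit 5) (nat_lit 376) (nat_lit 283) (nat_lit 121)) (XT.lf (nat_lit 0) (nat_lit 1545328538) (nat_lit 152) (nat_lit 21849562594) (nat_lit 228) (nat_lit 26427095323) (nat_lit 27) (nat_lit 5) (nat_lit 29) (nat_lit 5) (nat_lit 30)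 (nat_lit 5) (nat_lit 377) (nat_lit 283) (nat_lit 120)))) (XT.nd (nat_lit 156) (nat_lit 152) (nat_lit 0) (XT.nd (nat_lit 78) (nat_lit 0) (nat_lit 0) (XT.lf (nat_lit 0) (nat_lit 18804015930) (nat_lit 152) (nat_lit 12380114205) (nat_lit 228) (nat_lit 19831156393) (nat_lit 27) (nat_lit 5) (nat_lit 29) (nat_lit 5) (nat_lit 30) (nat_lit 5) (nat_lit 378) (nat_lit 283) (nat_lit 119)) (XT.lf (nat_lit 0) (nat_lit 36572629572) (nat_lit 152) (nat_lit 2629878985) (nat_lit 228) (nat_lit 13042015433) (nat_lit 27) (nat_lit 5) (nat_lit 29) (nat_lit 5) (nat_lit 30) (nat_lit 5) (nat_lit 379) (nat_lit 283) (nat_lit 118))) (XT.nd (nat_lit 78) (nat_lit 76) (nat_lit 0) (XT.lf (nat_lit 0) (nat_lit 1310264268) (nat_lit 76) (nat_lit 46230589752) (nat_lit 152) (nat_lit 5967404273) (nat_lit 26) (nat_lit 5) (nat_lit 27) (nat_lit 5) (nat_lit 28) (nat_lit 4) (nat_lit 380) (nat_lit 283) (nat_lit 117)) (XT.lf (nat_lit 0) (nat_lit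 1475132812) (nat_lit 152) (nat_lit 35730023721) (nat_lit 76) (nat_lit 17598926614) (nat_lit 25) (nat_lit 5) (nat_lit 27) (nat_lit 5) (nat_lit 26) (nat_lit 5) (nat_lit 381) (nat_lit 283) (nat_lit 116)))))) (XT.nd (nat_lit 546) (nat_lit 304) (nat_lit 0) (XT.nd (nat_lit 234) (nat_lit 76) (nat_lit 0) (XT.nd (nat_lit 78) (nat_lit 152) (nat_lit 0) (XT.lf (nat_lit 0) (nat_lit 9016710031) (nat_lit 152) (nat_lit 18834596875) (nat_lit 76) (nat_lit 28285834260) (nat_lit 25) (nat_lit 5) (nat_lit 27) (nat_lit 5) (nat_lit 26) (nat_lit 5) (nat_lit 382) (nat_lit 283) (nat_lit 115)) (XT.nd (nat_lit 78) (nat_lit 152) (nat_lit 0) (XT.lf (nat_lit 0) (nat_lit 16780362660) (nat_lit 152) (nat_lit 1439588153) (nat_lit 76) (nat_lit 39290367212) (nat_lit 25) (nat_lit 5) (nat_lit 27) (nat_lit 5) (nat_lit 26) (nat_lit 5) (nat_lit 383) (nat_lit 283) (nat_lit 114)) (XT.lf (nat_lit 0) (nat_lit 16797991280) (nat_lit 152) (nat_lit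 8136355762) (nat_lit 228) (nat_lit 33985622370) (nat_lit 23) (nat_lit 5) (nat_lit 25) (nat_lit 5) (nat_lit 26) (nat_lit 5) (nat_lit 384) (nat_lit 283) (nat_lit 113)))) (XT.nd (nat_lit 156) (nat_lit 76) (nat_lit 0) (XT.nd (nat_lit 78) (nat_lit 0) (nat_lit 0) (XT.lf (nat_lit 0) (nat_lit 33365229309) (nat_lit 228) (nat_lit 24788128415) (nat_lit 76) (nat_lit 2217586100) (nat_lit 23) (nat_lit 5) (nat_lit 26) (nat_lit 5) (nat_lit 24) (nat_lit 4) (nat_lit 385) (nat_lit 283) (nat_lit 112)) (XT.lf (nat_lit 0) (nat_lit 42125684816) (nat_lit 228) (nat_lit 7021707153) (nat_lit 76) (nat_lit 12715757875) (nat_lit 23) (nat_lit 5) (nat_lit 26) (nat_lit 5) (nat_lit 24) (nat_lit 4) (nat_lit 386) (nat_lit 283) (nat_lit 111))) (XT.nd (nat_lit 78) (nat_lit 0) (nat_lit 0) (XT.lf (nat_lit 0) (nat_lit 11495336763) (nat_lit 76) (nat_lit 39760320146) (nat_lit 152) (nat_lit 12141265776) (nat_lit 22) (nat_lit 5) (nat_lit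 23) (nat_lit 5) (nat_lit 24) (nat_lit 4) (nat_lit 387) (nat_lit 283) (nat_lit 110)) (XT.lf (nat_lit 0) (nat_lit 30705210247) (nat_lit 76) (nat_lit 30021473073) (nat_lit 152) (nat_lit 4248012414) (nat_lit 22) (nat_lit 5) (nat_lit 23) (nat_lit 5) (nat_lit 24) (nat_lit 4) (nat_lit 388) (nat_lit 283) (nat_lit 109))))) (XT.nd (nat_lit 234) (nat_lit 76) (nat_lit 0) (XT.nd (nat_lit 78) (nat_lit 152) (nat_lit 0) (XT.lf (nat_lit 0) (nat_lit 3802607259) (nat_lit 152) (nat_lit 16152240415) (nat_lit 76) (nat_lit 46643946746) (nat_lit 21) (nat_lit 5) (nat_lit 23) (nat_lit 5) (nat_lit 22) (nat_lit 5) (nat_lit 389) (nat_lit 283) (nat_lit 108)) (XT.nd (nat_lit 78) (nat_lit 0) (nat_lit 0) (XT.lf (nat_lit 0) (nat_lit 2509111814) (nat_lit 152) (nat_lit 9520800394) (nat_lit 228) (nat_lit 56239827181) (nat_lit 19) (nat_lit 5) (nat_lit 21) (nat_lit 5) (nat_lit 22) (nat_lit 5) (nat_lit 390) (nat_lit 283) (nat_lit 107))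 (XT.lf (nat_lit 0) (nat_lit 20676990997) (nat_lit 228) (nat_lit 47944244109) (nat_lit 76) (nat_lit 1364390452) (nat_lit 19) (nat_lit 5) (nat_lit 22) (nat_lit 5) (nat_lit 20) (nat_lit 4) (nat_lit 391) (nat_lit 283) (nat_lit 106)))) (XT.nd (nat_lit 156) (nat_lit 76) (nat_lit 0) (XT.nd (nat_lit 78) (nat_lit 0) (nat_lit 0) (XT.lf (nat_lit 0) (nat_lit 29674297189) (nat_lit 228) (nat_lit 29693781800) (nat_lit 76) (nat_lit 12382186319) (nat_lit 19) (nat_lit 5) (nat_lit 22) (nat_lit 5) (nat_lit 20) (nat_lit 4) (nat_lit 392) (nat_lit 283) (nat_lit 105)) (XT.lf (nat_lit 0) (nat_lit 38938172751) (nat_lit 228) (nat_lit 10901773886) (nat_lit 76) (nat_lit 23727999512) (nat_lit 19) (nat_lit 5) (nat_lit 22) (nat_lit 5) (nat_lit 20) (nat_lit 4) (nat_lit 393) (nat_lit 283) (nat_lit 104))) (XT.nd (nat_lit 78) (nat_lit 0) (nat_lit 0) (XT.lf (nat_lit 0) (nat_lit 8616335576) (nat_lit 76) (nat_lit 39943202244) (nat_lit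 152) (nat_lit 26878233762) (nat_lit 18) (nat_lit 5) (nat_lit 19) (nat_lit 5) (nat_lit 20) (nat_lit 4) (nat_lit 394) (nat_lit 283) (nat_lit 103)) (XT.lf (nat_lit 0) (nat_lit 28937726376) (nat_lit 76) (nat_lit 29638691329) (nat_lit 152) (nat_lit 18784069180) (nat_lit 18) (nat_lit 5) (nat_lit 19) (nat_lit 5) (nat_lit 20) (nat_lit 4) (nat_lit 395) (nat_lit 283) (nat_lit 102))))))))
noncomputable def xc165 : XT := (XT.nd (nat_lit 33540) (nat_lit 0) (nat_lit 5852) (XT.nd (nat_lit 32526) (nat_lit 0) (nat_lit 12464) (XT.nd (nat_lit 31980) (nat_lit 0) (nat_lit 15352) (XT.nd (nat_lit 234) (nat_lit 0) (nat_lit 0) (XT.nd (nat_lit 78) (nat_lit 228) (nat_lit 0) (XT.lf (nat_lit 0) (nat_lit 49863188393) (nat_lit 76) (nat_lit 19027496491) (nat_lit 152) (nat_lit 10450293623) (nat_lit 18) (nat_lit 5) (nat_lit 19) (nat_lit 5) (nat_lit 20) (nat_lit 4) (nat_lit 396) (nat_lit 283) (nat_lit 101)) (XT.nd (nat_lit 78)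 (nat_lit 228) (nat_lit 0) (XT.lf (nat_lit 0) (nat_lit 71411006010) (nat_lit 76) (nat_lit 8100345812) (nat_lit 152) (nat_lit 1869625150) (nat_lit 18) (nat_lit 5) (nat_lit 19) (nat_lit 5) (nat_lit 20) (nat_lit 4) (nat_lit 397) (nat_lit 283) (nat_lit 100)) (XT.lf (nat_lit 0) (nat_lit 6959990795) (nat_lit 228) (nat_lit 73258423516) (nat_lit 76) (nat_lit 3257927487) (nat_lit 15) (nat_lit 5) (nat_lit 18) (nat_lit 5) (nat_lit 16) (nat_lit 4) (nat_lit 398) (nat_lit 283) (nat_lit 99)))) (XT.nd (nat_lit 78) (nat_lit 0) (nat_lit 0) (XT.lf (nat_lit 0) (nat_lit 16195836275) (nat_lit 228) (nat_lit 54520763594) (nat_lit 76) (nat_lit 14912045945) (nat_lit 15) (nat_lit 5) (nat_lit 18) (nat_lit 5) (nat_lit 16) (nat_lit 4) (nat_lit 399) (nat_lit 283) (nat_lit 98)) (XT.nd (nat_lit 31590) (nat_lit 0) (nat_lit 15352) (XT.lf (nat_lit 0) (nat_lit 25705886505) (nat_lit 228) (nat_lit 35226144544) (nat_lit 76) (nat_lit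 26913575129) (nat_lit 15) (nat_lit 5) (nat_lit 18) (nat_lit 5) (nat_lit 16) (nat_lit 4) (nat_lit 400) (nat_lit 283) (nat_lit 97)) (XT.lf (nat_lit 0) (nat_lit 204032433) (nat_lit 0) (nat_lit 204032433) (nat_lit 988) (nat_lit 4064498507) (nat_lit 217) (nat_lit 5) (nat_lit 217) (nat_lit 3) (nat_lit 230) (nat_lit 3) (nat_lit 284) (nat_lit 284) (nat_lit 212))))) (XT.nd (nat_lit 234) (nat_lit 0) (nat_lit 76) (XT.nd (nat_lit 78) (nat_lit 0) (nat_lit 0) (XT.lf (nat_lit 0) (nat_lit 1724052700) (nat_lit 988) (nat_lit 4526599223) (nat_lit 1064) (nat_lit 2800494576) (nat_lit 217) (nat_lit 5) (nat_lit 230) (nat_lit 3) (nat_lit 231) (nat_lit 5) (nat_lit 285) (nat_lit 284) (nat_lit 211)) (XT.nd (nat_lit 78) (nat_lit 0) (nat_lit 76) (XT.lf (nat_lit 0) (nat_lit 2629532060) (nat_lit 988) (nat_lit 418034741) (nat_lit 1064) (nat_lit 6113720700) (nat_lit 217) (nat_lit 5) (nat_lit 230) (nat_lit 3) (nat_lit 231) (nat_lit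 5) (nat_lit 286) (nat_lit 284) (nat_lit 210)) (XT.lf (nat_lit 0) (nat_lit 3569585782) (nat_lit 988) (nat_lit 5405884545) (nat_lit 1064) (nat_lit 299088860) (nat_lit 218) (nat_lit 5) (nat_lit 231) (nat_lit 5) (nat_lit 232) (nat_lit 5) (nat_lit 287) (nat_lit 284) (nat_lit 209)))) (XT.nd (nat_lit 156) (nat_lit 0) (nat_lit 76) (XT.nd (nat_lit 78) (nat_lit 0) (nat_lit 0) (XT.lf (nat_lit 0) (nat_lit 4540463686) (nat_lit 988) (nat_lit 1147378241) (nat_lit 1064) (nat_lit 3703355755) (nat_lit 218) (nat_lit 5) (nat_lit 231) (nat_lit 5) (nat_lit 232) (nat_lit 5) (nat_lit 288) (nat_lit 284) (nat_lit 208)) (XT.lf (nat_lit 76) (nat_lit 3284911133) (nat_lit 0) (nat_lit 2256245518) (nat_lit 1064) (nat_lit 3970203975) (nat_lit 219) (nat_lit 5) (nat_lit 218) (nat_lit 5) (nat_lit 232) (nat_lit 5) (nat_lit 289) (nat_lit 284) (nat_lit 207))) (XT.nd (nat_lit 78) (nat_lit 0) (nat_lit 0) (XT.lf (nat_lit 0) (nat_lit 6565816855)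 (nat_lit 988) (nat_lit 1792456762) (nat_lit 1064) (nat_lit 1277081066) (nat_lit 219) (nat_lit 5) (nat_lit 232) (nat_lit 5) (nat_lit 233) (nat_lit 5) (nat_lit 290) (nat_lit 284) (nat_lit 206)) (XT.lf (nat_lit 76) (nat_lit 2788214399) (nat_lit 0) (nat_lit 4852976242) (nat_lit 1064) (nat_lit 2121322023) (nat_lit 220) (nat_lit 5) (nat_lit 219) (nat_lit 5) (nat_lit 233) (nat_lit 5) (nat_lit 291) (nat_lit 284) (nat_lit 205)))))) (XT.nd (nat_lit 468) (nat_lit 2052) (nat_lit 0) (XT.nd (nat_lit 234) (nat_lit 0) (nat_lit 76) (XT.nd (nat_lit 78) (nat_lit 988) (nat_lit 0) (XT.lf (nat_lit 76) (nat_lit 7524819403) (nat_lit 0) (nat_lit 1213613524) (nat_lit 1064) (nat_lit 1155406295) (nat_lit 220) (nat_lit 5) (nat_lit 219) (nat_lit 5) (nat_lit 233) (nat_lit 5) (nat_lit 292) (nat_lit 284) (nat_lit 204)) (XT.nd (nat_lit 78) (nat_lit 1064) (nat_lit 0) (XT.lf (nat_lit 76) (nat_lit 2377783360) (nat_lit 0) (nat_lit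 7510465791) (nat_lit 1064) (nat_lit 140307557) (nat_lit 221) (nat_lit 5) (nat_lit 220) (nat_lit 5) (nat_lit 234) (nat_lit 5) (nat_lit 293) (nat_lit 284) (nat_lit 203)) (XT.lf (nat_lit 0) (nat_lit 896507164) (nat_lit 1064) (nat_lit 2891062630) (nat_lit 1140) (nat_lit 6379255531) (nat_lit 206) (nat_lit 5) (nat_lit 220) (nat_lit 5) (nat_lit 221) (nat_lit 5) (nat_lit 294) (nat_lit 284) (nat_lit 202)))) (XT.nd (nat_lit 78) (nat_lit 0) (nat_lit 0) (XT.lf (nat_lit 0) (nat_lit 1955412511) (nat_lit 1064) (nat_lit 8279003090) (nat_lit 1140) (nat_lit 75007903) (nat_lit 207) (nat_lit 5) (nat_lit 221) (nat_lit 5) (nat_lit 222) (nat_lit 5) (nat_lit 295) (nat_lit 284) (nat_lit 201)) (XT.nd (nat_lit 78) (nat_lit 0) (nat_lit 0) (XT.lf (nat_lit 0) (nat_lit 3087281510) (nat_lit 1064) (nat_lit 3353612654) (nat_lit 1140) (nat_lit 4014205848) (nat_lit 207) (nat_lit 5) (nat_lit 221) (nat_lit 5) (nat_lit 222) (nat_lit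 5) (nat_lit 296) (nat_lit 284) (nat_lit 200)) (XT.lf (nat_lit 76) (nat_lit 1734739039) (nat_lit 0) (nat_lit 2510006684) (nat_lit 1140) (nat_lit 6360687138) (nat_lit 208) (nat_lit 5) (nat_lit 207) (nat_lit 5) (nat_lit 222) (nat_lit 5) (nat_lit 297) (nat_lit 284) (nat_lit 199))))) (XT.nd (nat_lit 234) (nat_lit 2204) (nat_lit 0) (XT.nd (nat_lit 78) (nat_lit 0) (nat_lit 0) (XT.lf (nat_lit 0) (nat_lit 5461499311) (nat_lit 1064) (nat_lit 3749195114) (nat_lit 1140) (nat_lit 1548878503) (nat_lit 208) (nat_lit 5) (nat_lit 222) (nat_lit 5) (nat_lit 223) (nat_lit 5) (nat_lit 298) (nat_lit 284) (nat_lit 198)) (XT.nd (nat_lit 78) (nat_lit 0) (nat_lit 0) (XT.lf (nat_lit 76) (nat_lit 1511865780) (nat_lit 0) (nat_lit 5218558995) (nat_lit 1140) (nat_lit 4187475544) (nat_lit 209) (nat_lit 5) (nat_lit 208) (nat_lit 5) (nat_lit 223) (nat_lit 5) (nat_lit 299) (nat_lit 284) (nat_lit 197)) (XT.lf (nat_lit 76) (nat_lit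 6989063814) (nat_lit 0) (nat_lit 1063010872) (nat_lit 1140) (nat_lit 3028495376) (nat_lit 209) (nat_lit 5) (nat_lit 208) (nat_lit 5) (nat_lit 223) (nat_lit 5) (nat_lit 300) (nat_lit 284) (nat_lit 196)))) (XT.nd (nat_lit 156) (nat_lit 1216) (nat_lit 0) (XT.nd (nat_lit 78) (nat_lit 0) (nat_lit 0) (XT.lf (nat_lit 0) (nat_lit 1359297176) (nat_lit 1064) (nat_lit 8075585450) (nat_lit 1140) (nat_lit 1812623311) (nat_lit 195) (nat_lit 5) (nat_lit 209) (nat_lit 5) (nat_lit 210) (nat_lit 5) (nat_lit 301) (nat_lit 284) (nat_lit 195)) (XT.lf (nat_lit 0) (nat_lit 7028186398) (nat_lit 1064) (nat_lit 3860718973) (nat_lit 1140) (nat_lit 529682980) (nat_lit 195) (nat_lit 5) (nat_lit 209) (nat_lit 5) (nat_lit 210) (nat_lit 5) (nat_lit 302) (nat_lit 284) (nat_lit 194))) (XT.nd (nat_lit 78) (nat_lit 0) (nat_lit 0) (XT.lf (nat_lit 0) (nat_lit 771752973) (nat_lit 1216) (nat_lit 10328693858) (nat_lit 76) (nat_lit 494293008)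 (nat_lit 179) (nat_lit 5) (nat_lit 195) (nat_lit 5) (nat_lit 180) (nat_lit 5) (nat_lit 303) (nat_lit 284) (nat_lit 193)) (XT.lf (nat_lit 0) (nat_lit 2163458082) (nat_lit 1216) (nat_lit 4655569697) (nat_lit 76) (nat_lit 4955162399) (nat_lit 179) (nat_lit 5) (nat_lit 195) (nat_lit 5) (nat_lit 180) (nat_lit 5) (nat_lit 304) (nat_lit 284) (nat_lit 192))))))) (XT.nd (nat_lit 1014) (nat_lit 2812) (nat_lit 0) (XT.nd (nat_lit 468) (nat_lit 2052) (nat_lit 0) (XT.nd (nat_lit 234) (nat_lit 532) (nat_lit 0) (XT.nd (nat_lit 78) (nat_lit 608) (nat_lit 0) (XT.lf (nat_lit 0) (nat_lit 1192571127) (nat_lit 608) (nat_lit 2395296096) (nat_lit 684) (nat_lit 8371455211) (nat_lit 171) (nat_lit 5) (nat_lit 179) (nat_lit 5) (nat_lit 180) (nat_lit 5) (nat_lit 305) (nat_lit 284) (nat_lit 191)) (XT.nd (nat_lit 78) (nat_lit 608) (nat_lit 0) (XT.lf (nat_lit 0) (nat_lit 5103188974) (nat_lit 684) (nat_lit 4877161182) (nat_lit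 76) (nat_lit 2168239299) (nat_lit 171) (nat_lit 5) (nat_lit 180) (nat_lit 5) (nat_lit 172) (nat_lit 5) (nat_lit 306) (nat_lit 284) (nat_lit 190)) (XT.lf (nat_lit 0) (nat_lit 1169866095) (nat_lit 608) (nat_lit 5509578631) (nat_lit 684) (nat_lit 5663650975) (nat_lit 163) (nat_lit 5) (nat_lit 171) (nat_lit 5) (nat_lit 172) (nat_lit 5) (nat_lit 307) (nat_lit 284) (nat_lit 189)))) (XT.nd (nat_lit 78) (nat_lit 532) (nat_lit 0) (XT.lf (nat_lit 0) (nat_lit 7480098196) (nat_lit 608) (nat_lit 853045593) (nat_lit 684) (nat_lit 4209413380) (nat_lit 163) (nat_lit 5) (nat_lit 171) (nat_lit 5) (nat_lit 172) (nat_lit 5) (nat_lit 308) (nat_lit 284) (nat_lit 188)) (XT.nd (nat_lit 78) (nat_lit 0) (nat_lit 0) (XT.lf (nat_lit 0) (nat_lit 1198882967) (nat_lit 532) (nat_lit 8868470059) (nat_lit 608) (nat_lit 2679746463) (nat_lit 156) (nat_lit 5) (nat_lit 163) (nat_lit 5) (nat_lit 164) (nat_lit 5) (nat_lit 309) (nat_lit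 284) (nat_lit 187)) (XT.lf (nat_lit 0) (nat_lit 7725163326) (nat_lit 532) (nat_lit 4169745890) (nat_lit 608) (nat_lit 1061652528) (nat_lit 156) (nat_lit 5) (nat_lit 163) (nat_lit 5) (nat_lit 164) (nat_lit 5) (nat_lit 310) (nat_lit 284) (nat_lit 186))))) (XT.nd (nat_lit 234) (nat_lit 988) (nat_lit 0) (XT.nd (nat_lit 78) (nat_lit 456) (nat_lit 0) (XT.lf (nat_lit 0) (nat_lit 594232370) (nat_lit 608) (nat_lit 11902844326) (nat_lit 76) (nat_lit 675047048) (nat_lit 148) (nat_lit 5) (nat_lit 156) (nat_lit 5) (nat_lit 149) (nat_lit 5) (nat_lit 311) (nat_lit 284) (nat_lit 185)) (XT.nd (nat_lit 78) (nat_lit 456) (nat_lit 0) (XT.lf (nat_lit 0) (nat_lit 2355605392) (nat_lit 608) (nat_lit 5390952332) (nat_lit 76) (nat_lit 5644986354) (nat_lit 148) (nat_lit 5) (nat_lit 156) (nat_lit 5) (nat_lit 149) (nat_lit 5) (nat_lit 312) (nat_lit 284) (nat_lit 184)) (XT.lf (nat_lit 0) (nat_lit 1324390929) (nat_lit 456)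 (nat_lit 2841184021) (nat_lit 532) (nat_lit 9452120101) (nat_lit 142) (nat_lit 5) (nat_lit 148) (nat_lit 5) (nat_lit 149) (nat_lit 5) (nat_lit 313) (nat_lit 284) (nat_lit 183)))) (XT.nd (nat_lit 156) (nat_lit 456) (nat_lit 0) (XT.nd (nat_lit 78) (nat_lit 532) (nat_lit 0) (XT.lf (nat_lit 0) (nat_lit 6089418579) (nat_lit 532) (nat_lit 5537175344) (nat_lit 76) (nat_lit 2222269467) (nat_lit 142) (nat_lit 5) (nat_lit 149) (nat_lit 5) (nat_lit 143) (nat_lit 5) (nat_lit 314) (nat_lit 284) (nat_lit 182)) (XT.lf (nat_lit 0) (nat_lit 1403331779) (nat_lit 532) (nat_lit 6693092252) (nat_lit 608) (nat_lit 5989798852) (nat_lit 135) (nat_lit 5) (nat_lit 142) (nat_lit 5) (nat_lit 143) (nat_lit 5) (nat_lit 315) (nat_lit 284) (nat_lit 181))) (XT.nd (nat_lit 78) (nat_lit 456) (nat_lit 0) (XT.lf (nat_lit 0) (nat_lit 8648173890) (nat_lit 532) (nat_lit 1555510615) (nat_lit 608) (nat_lit 4125836246) (nat_lit 135) (nat_lit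 5) (nat_lit 142) (nat_lit 5) (nat_lit 143) (nat_lit 5) (nat_lit 316) (nat_lit 284) (nat_lit 180)) (XT.lf (nat_lit 0) (nat_lit 1506376998) (nat_lit 456) (nat_lit 10902758947) (nat_lit 532) (nat_lit 2169950795) (nat_lit 129) (nat_lit 5) (nat_lit 135) (nat_lit 5) (nat_lit 136) (nat_lit 5) (nat_lit 317) (nat_lit 284) (nat_lit 179)))))) (XT.nd (nat_lit 546) (nat_lit 1520) (nat_lit 0) (XT.nd (nat_lit 234) (nat_lit 760) (nat_lit 0) (XT.nd (nat_lit 78) (nat_lit 532) (nat_lit 0) (XT.lf (nat_lit 0) (nat_lit 8993310148) (nat_lit 456) (nat_lit 5744923719) (nat_lit 532) (nat_lit 96199201) (nat_lit 129) (nat_lit 5) (nat_lit 135) (nat_lit 5) (nat_lit 136) (nat_lit 5) (nat_lit 318) (nat_lit 284) (nat_lit 178)) (XT.nd (nat_lit 78) (nat_lit 0) (nat_lit 0) (XT.lf (nat_lit 0) (nat_lit 1602077223) (nat_lit 456) (nat_lit 398425475) (nat_lit 532) (nat_lit 13096349458) (nat_lit 122) (nat_lit 5) (nat_lit 128) (nat_lit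 5) (nat_lit 129) (nat_lit 5) (nat_lit 319) (nat_lit 284) (nat_lit 177)) (XT.lf (nat_lit 0) (nat_lit 4252236128) (nat_lit 532) (nat_lit 6044960868) (nat_lit 76) (nat_lit 5067112658) (nat_lit 122) (nat_lit 5) (nat_lit 129) (nat_lit 5) (nat_lit 123) (nat_lit 5) (nat_lit 320) (nat_lit 284) (nat_lit 176)))) (XT.nd (nat_lit 156) (nat_lit 380) (nat_lit 0) (XT.nd (nat_lit 78) (nat_lit 0) (nat_lit 0) (XT.lf (nat_lit 0) (nat_lit 1639645731) (nat_lit 380) (nat_lit 4937397816) (nat_lit 456) (nat_lit 9062597527) (nat_lit 117) (nat_lit 5) (nat_lit 122) (nat_lit 5) (nat_lit 123) (nat_lit 5) (nat_lit 321) (nat_lit 284) (nat_lit 175)) (XT.lf (nat_lit 0) (nat_lit 9024891875) (nat_lit 456) (nat_lit 6265901274) (nat_lit 76) (nat_lit 630855782) (nat_lit 117) (nat_lit 5) (nat_lit 123) (nat_lit 5) (nat_lit 118) (nat_lit 5) (nat_lit 322) (nat_lit 284) (nat_lit 174))) (XT.nd (nat_lit 78) (nat_lit 0) (nat_lit 0) (XT.lf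 (nat_lit 0) (nat_lit 1667365839) (nat_lit 380) (nat_lit 9930173191) (nat_lit 456) (nat_lit 4613052038) (nat_lit 112) (nat_lit 5) (nat_lit 117) (nat_lit 5) (nat_lit 118) (nat_lit 5) (nat_lit 323) (nat_lit 284) (nat_lit 173)) (XT.lf (nat_lit 0) (nat_lit 9950736607) (nat_lit 380) (nat_lit 4346590402) (nat_lit 456) (nat_lit 2209390128) (nat_lit 112) (nat_lit 5) (nat_lit 117) (nat_lit 5) (nat_lit 118) (nat_lit 5) (nat_lit 324) (nat_lit 284) (nat_lit 172))))) (XT.nd (nat_lit 234) (nat_lit 684) (nat_lit 0) (XT.nd (nat_lit 78) (nat_lit 380) (nat_lit 0) (XT.lf (nat_lit 0) (nat_lit 277972617) (nat_lit 456) (nat_lit 15140161432) (nat_lit 76) (nat_lit 1393026127) (nat_lit 106) (nat_lit 5) (nat_lit 112) (nat_lit 5) (nat_lit 107) (nat_lit 5) (nat_lit 325) (nat_lit 284) (nat_lit 171)) (XT.nd (nat_lit 78) (nat_lit 380) (nat_lit 0) (XT.lf (nat_lit 0) (nat_lit 2892574084) (nat_lit 456) (nat_lit 6925485097) (nat_lit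 76) (nat_lit 7303123618) (nat_lit 106) (nat_lit 5) (nat_lit 112) (nat_lit 5) (nat_lit 107) (nat_lit 5) (nat_lit 326) (nat_lit 284) (nat_lit 170)) (XT.lf (nat_lit 0) (nat_lit 1550006801) (nat_lit 380) (nat_lit 4038012063) (nat_lit 456) (nat_lit 11852427971) (nat_lit 101) (nat_lit 5) (nat_lit 106) (nat_lit 5) (nat_lit 107) (nat_lit 5) (nat_lit 327) (nat_lit 284) (nat_lit 169)))) (XT.nd (nat_lit 156) (nat_lit 380) (nat_lit 0) (XT.nd (nat_lit 78) (nat_lit 304) (nat_lit 0) (XT.lf (nat_lit 0) (nat_lit 8441051065) (nat_lit 456) (nat_lit 7380629725) (nat_lit 76) (nat_lit 1945318798) (nat_lit 101) (nat_lit 5) (nat_lit 107) (nat_lit 5) (nat_lit 102) (nat_lit 5) (nat_lit 328) (nat_lit 284) (nat_lit 168)) (XT.lf (nat_lit 0) (nat_lit 1355346840) (nat_lit 304) (nat_lit 10065380301) (nat_lit 380) (nat_lit 6681402347) (nat_lit 97) (nat_lit 5) (nat_lit 101) (nat_lit 5) (nat_lit 102) (nat_lit 5) (nat_lit 329) (nat_lit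 284) (nat_lit 167))) (XT.nd (nat_lit 78) (nat_lit 380) (nat_lit 0) (XT.lf (nat_lit 0) (nat_lit 10489255838) (nat_lit 304) (nat_lit 4063311505) (nat_lit 380) (nat_lit 3892874525) (nat_lit 97) (nat_lit 5) (nat_lit 101) (nat_lit 5) (nat_lit 102) (nat_lit 5) (nat_lit 330) (nat_lit 284) (nat_lit 166)) (XT.lf (nat_lit 0) (nat_lit 1083593698) (nat_lit 380) (nat_lit 16714104565) (nat_lit 456) (nat_lit 1000786746) (nat_lit 92) (nat_lit 5) (nat_lit 97) (nat_lit 5) (nat_lit 98) (nat_lit 5) (nat_lit 331) (nat_lit 284) (nat_lit 165))))))))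
noncomputable def xc166 : XT := (XT.nd (nat_lit 2028) (nat_lit 1672) (nat_lit 0) (XT.nd (nat_lit 1014) (nat_lit 1444) (nat_lit 0) (XT.nd (nat_lit 468) (nat_lit 1292) (nat_lit 0) (XT.nd (nat_lit 234) (nat_lit 304) (nat_lit 0) (XT.nd (nat_lit 78) (nat_lit 304) (nat_lit 0) (XT.lf (nat_lit 0) (nat_lit 2049449926) (nat_lit 456) (nat_lit 8677488415) (nat_lit 76) (nat_lit 8431321908) (nat_lit 91) (nat_lit 5) (nat_lit 97) (nat_lit 5) (nat_lit 92) (nat_lit 5) (nat_lit 332) (nat_lit 284) (nat_lit 164)) (XT.nd (nat_lit 78) (nat_lit 0) (nat_lit 0) (XT.lf (nat_lit 0) (nat_lit 618240992) (nat_lit 304) (nat_lit 4547729587) (nat_lit 380) (nat_lit 14362724634) (nat_lit 87) (nat_lit 5) (nat_lit 91) (nat_lit 5) (nat_lit 92) (nat_lit 5) (nat_lit 333) (nat_lit 284) (nat_lit 163)) (XT.lf (nat_lit 0) (nat_lit 8471035339) (nat_lit 380) (nat_lit 9570327327) (nat_lit 76) (nat_lit 1866039284) (nat_lit 87) (nat_lit 5) (nat_lit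 92) (nat_lit 5) (nat_lit 88) (nat_lit 5) (nat_lit 334) (nat_lit 284) (nat_lit 162)))) (XT.nd (nat_lit 78) (nat_lit 304) (nat_lit 0) (XT.lf (nat_lit 0) (nat_lit 11909687380) (nat_lit 380) (nat_lit 9686612) (nat_lit 76) (nat_lit 8377072719) (nat_lit 87) (nat_lit 5) (nat_lit 92) (nat_lit 5) (nat_lit 88) (nat_lit 5) (nat_lit 335) (nat_lit 284) (nat_lit 161)) (XT.nd (nat_lit 78) (nat_lit 0) (nat_lit 0) (XT.lf (nat_lit 0) (nat_lit 10019045096) (nat_lit 304) (nat_lit 5518479883) (nat_lit 380) (nat_lit 5157066648) (nat_lit 83) (nat_lit 5) (nat_lit 87) (nat_lit 5) (nat_lit 88) (nat_lit 5) (nat_lit 336) (nat_lit 284) (nat_lit 160)) (XT.lf (nat_lit 0) (nat_lit 19274467261) (nat_lit 380) (nat_lit 780540762) (nat_lit 76) (nat_lit 1049674094) (nat_lit 83) (nat_lit 5) (nat_lit 88) (nat_lit 5) (nat_lit 84) (nat_lit 5) (nat_lit 337) (nat_lit 284) (nat_lit 159))))) (XT.nd (nat_lit 234) (nat_lit 608) (nat_lit 0)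 (XT.nd (nat_lit 78) (nat_lit 304) (nat_lit 0) (XT.lf (nat_lit 0) (nat_lit 1703003681) (nat_lit 380) (nat_lit 12011026420) (nat_lit 76) (nat_lit 7808462215) (nat_lit 78) (nat_lit 5) (nat_lit 83) (nat_lit 5) (nat_lit 79) (nat_lit 5) (nat_lit 338) (nat_lit 284) (nat_lit 158)) (XT.nd (nat_lit 78) (nat_lit 304) (nat_lit 0) (XT.lf (nat_lit 0) (nat_lit 5303581380) (nat_lit 380) (nat_lit 1856585679) (nat_lit 76) (nat_lit 14792190214) (nat_lit 78) (nat_lit 5) (nat_lit 83) (nat_lit 5) (nat_lit 79) (nat_lit 5) (nat_lit 339) (nat_lit 284) (nat_lit 157)) (XT.lf (nat_lit 0) (nat_lit 8759812699) (nat_lit 304) (nat_lit 327042312) (nat_lit 380) (nat_lit 13306031086) (nat_lit 74) (nat_lit 5) (nat_lit 78) (nat_lit 5) (nat_lit 79) (nat_lit 5) (nat_lit 340) (nat_lit 284) (nat_lit 156)))) (XT.nd (nat_lit 156) (nat_lit 380) (nat_lit 0) (XT.nd (nat_lit 78) (nat_lit 228) (nat_lit 0) (XT.lf (nat_lit 0) (nat_lit 13057653737)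 (nat_lit 380) (nat_lit 3191731337) (nat_lit 76) (nat_lit 6595032938) (nat_lit 74) (nat_lit 5) (nat_lit 79) (nat_lit 5) (nat_lit 75) (nat_lit 5) (nat_lit 341) (nat_lit 284) (nat_lit 155)) (XT.lf (nat_lit 0) (nat_lit 7696471035) (nat_lit 228) (nat_lit 9519183338) (nat_lit 304) (nat_lit 6091806974) (nat_lit 71) (nat_lit 5) (nat_lit 74) (nat_lit 5) (nat_lit 75) (nat_lit 5) (nat_lit 342) (nat_lit 284) (nat_lit 154))) (XT.nd (nat_lit 78) (nat_lit 380) (nat_lit 0) (XT.lf (nat_lit 0) (nat_lit 18963549728) (nat_lit 228) (nat_lit 2558071696) (nat_lit 304) (nat_lit 2262085338) (nat_lit 71) (nat_lit 5) (nat_lit 74) (nat_lit 5) (nat_lit 75) (nat_lit 5) (nat_lit 343) (nat_lit 284) (nat_lit 153)) (XT.lf (nat_lit 0) (nat_lit 1747344711) (nat_lit 380) (nat_lit 17927321823) (nat_lit 76) (nat_lit 4596165472) (nat_lit 66) (nat_lit 5) (nat_lit 71) (nat_lit 5) (nat_lit 67) (nat_lit 5) (nat_lit 344) (nat_lit 284) (nat_lit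 152)))))) (XT.nd (nat_lit 468) (nat_lit 912) (nat_lit 0) (XT.nd (nat_lit 234) (nat_lit 304) (nat_lit 0) (XT.nd (nat_lit 78) (nat_lit 228) (nat_lit 0) (XT.lf (nat_lit 0) (nat_lit 5897333732) (nat_lit 380) (nat_lit 6891517351) (nat_lit 76) (nat_lit 11981082695) (nat_lit 66) (nat_lit 5) (nat_lit 71) (nat_lit 5) (nat_lit 67) (nat_lit 5) (nat_lit 345) (nat_lit 284) (nat_lit 151)) (XT.nd (nat_lit 78) (nat_lit 0) (nat_lit 0) (XT.lf (nat_lit 0) (nat_lit 4551461881) (nat_lit 228) (nat_lit 5655624839) (nat_lit 304) (nat_lit 15075870682) (nat_lit 63) (nat_lit 5) (nat_lit 66) (nat_lit 5) (nat_lit 67) (nat_lit 5) (nat_lit 346) (nat_lit 284) (nat_lit 150)) (XT.lf (nat_lit 0) (nat_lit 14724271188) (nat_lit 304) (nat_lit 9360040708) (nat_lit 76) (nat_lit 1724722206) (nat_lit 63) (nat_lit 5) (nat_lit 67) (nat_lit 5) (nat_lit 64) (nat_lit 5) (nat_lit 347) (nat_lit 284) (nat_lit 149)))) (XT.nd (nat_lit 78) (nat_lit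 76) (nat_lit 0) (XT.lf (nat_lit 0) (nat_lit 2329586255) (nat_lit 228) (nat_lit 17117617716) (nat_lit 304) (nat_lit 6901588491) (nat_lit 60) (nat_lit 5) (nat_lit 63) (nat_lit 5) (nat_lit 64) (nat_lit 5) (nat_lit 348) (nat_lit 284) (nat_lit 148)) (XT.nd (nat_lit 78) (nat_lit 76) (nat_lit 0) (XT.lf (nat_lit 0) (nat_lit 14549461760) (nat_lit 228) (nat_lit 9848843355) (nat_lit 304) (nat_lit 2503850203) (nat_lit 60) (nat_lit 5) (nat_lit 63) (nat_lit 5) (nat_lit 64) (nat_lit 5) (nat_lit 349) (nat_lit 284) (nat_lit 147)) (XT.lf (nat_lit 0) (nat_lit 1978402485) (nat_lit 304) (nat_lit 367775046) (nat_lit 76) (nat_lit 25125599732) (nat_lit 59) (nat_lit 5) (nat_lit 63) (nat_lit 5) (nat_lit 60) (nat_lit 5) (nat_lit 350) (nat_lit 284) (nat_lit 146))))) (XT.nd (nat_lit 234) (nat_lit 456) (nat_lit 0) (XT.nd (nat_lit 78) (nat_lit 228) (nat_lit 0) (XT.lf (nat_lit 0) (nat_lit 6707296942) (nat_lit 304) (nat_lit 15929794232)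 (nat_lit 76) (nat_lit 5415783635) (nat_lit 56) (nat_lit 5) (nat_lit 60) (nat_lit 5) (nat_lit 57) (nat_lit 5) (nat_lit 351) (nat_lit 284) (nat_lit 145)) (XT.nd (nat_lit 78) (nat_lit 228) (nat_lit 0) (XT.lf (nat_lit 0) (nat_lit 11597452924) (nat_lit 304) (nat_lit 3690199511) (nat_lit 76) (nat_lit 13363176478) (nat_lit 56) (nat_lit 5) (nat_lit 60) (nat_lit 5) (nat_lit 57) (nat_lit 5) (nat_lit 352) (nat_lit 284) (nat_lit 144)) (XT.lf (nat_lit 0) (nat_lit 9082316330) (nat_lit 228) (nat_lit 7631937602) (nat_lit 304) (nat_lit 12550074808) (nat_lit 53) (nat_lit 5) (nat_lit 56) (nat_lit 5) (nat_lit 57) (nat_lit 5) (nat_lit 353) (nat_lit 284) (nat_lit 143)))) (XT.nd (nat_lit 156) (nat_lit 304) (nat_lit 0) (XT.nd (nat_lit 78) (nat_lit 152) (nat_lit 0) (XT.lf (nat_lit 0) (nat_lit 22017329014) (nat_lit 304) (nat_lit 7595833810) (nat_lit 76) (nat_lit 282092795) (nat_lit 53) (nat_lit 5) (nat_lit 57) (nat_lit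 5) (nat_lit 54) (nat_lit 5) (nat_lit 354) (nat_lit 284) (nat_lit 142)) (XT.lf (nat_lit 0) (nat_lit 5386242244) (nat_lit 152) (nat_lit 22213507299) (nat_lit 228) (nat_lit 2941758170) (nat_lit 51) (nat_lit 5) (nat_lit 53) (nat_lit 5) (nat_lit 54) (nat_lit 5) (nat_lit 355) (nat_lit 284) (nat_lit 141))) (XT.nd (nat_lit 78) (nat_lit 228) (nat_lit 0) (XT.lf (nat_lit 0) (nat_lit 2171089156) (nat_lit 228) (nat_lit 12323977273) (nat_lit 76) (nat_lit 16709355765) (nat_lit 50) (nat_lit 5) (nat_lit 53) (nat_lit 5) (nat_lit 51) (nat_lit 5) (nat_lit 356) (nat_lit 284) (nat_lit 140)) (XT.lf (nat_lit 0) (nat_lit 869147225) (nat_lit 228) (nat_lit 6510547856) (nat_lit 304) (nat_lit 24506614829) (nat_lit 47) (nat_lit 5) (nat_lit 50) (nat_lit 5) (nat_lit 51) (nat_lit 5) (nat_lit 357) (nat_lit 284) (nat_lit 139))))))) (XT.nd (nat_lit 1014) (nat_lit 684) (nat_lit 0) (XT.nd (nat_lit 468) (nat_lit 532) (nat_lit 0) (XT.nd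 (nat_lit 234) (nat_lit 304) (nat_lit 0) (XT.nd (nat_lit 78) (nat_lit 152) (nat_lit 0) (XT.lf (nat_lit 0) (nat_lit 12879911904) (nat_lit 304) (nat_lit 17902926459) (nat_lit 76) (nat_lit 1801759763) (nat_lit 47) (nat_lit 5) (nat_lit 51) (nat_lit 5) (nat_lit 48) (nat_lit 5) (nat_lit 358) (nat_lit 284) (nat_lit 138)) (XT.nd (nat_lit 78) (nat_lit 152) (nat_lit 0) (XT.lf (nat_lit 0) (nat_lit 18602995405) (nat_lit 304) (nat_lit 4470400831) (nat_lit 76) (nat_lit 10228707265) (nat_lit 47) (nat_lit 5) (nat_lit 51) (nat_lit 5) (nat_lit 48) (nat_lit 5) (nat_lit 359) (nat_lit 284) (nat_lit 137)) (XT.lf (nat_lit 0) (nat_lit 9540912288) (nat_lit 152) (nat_lit 15042163767) (nat_lit 228) (nat_lit 9455503037) (nat_lit 45) (nat_lit 5) (nat_lit 47) (nat_lit 5) (nat_lit 48) (nat_lit 5) (nat_lit 360) (nat_lit 284) (nat_lit 136)))) (XT.nd (nat_lit 78) (nat_lit 304) (nat_lit 0) (XT.lf (nat_lit 0) (nat_lit 24053939421)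 (nat_lit 152) (nat_lit 6727441532) (nat_lit 228) (nat_lit 4014607414) (nat_lit 45) (nat_lit 5) (nat_lit 47) (nat_lit 5) (nat_lit 48) (nat_lit 5) (nat_lit 361) (nat_lit 284) (nat_lit 135)) (XT.nd (nat_lit 78) (nat_lit 0) (nat_lit 0) (XT.lf (nat_lit 0) (nat_lit 1603738427) (nat_lit 304) (nat_lit 32124401397) (nat_lit 76) (nat_lit 1846168335) (nat_lit 41) (nat_lit 5) (nat_lit 45) (nat_lit 5) (nat_lit 42) (nat_lit 5) (nat_lit 362) (nat_lit 284) (nat_lit 134)) (XT.lf (nat_lit 0) (nat_lit 7479947253) (nat_lit 304) (nat_lit 18202475148) (nat_lit 76) (nat_lit 10687266345) (nat_lit 41) (nat_lit 5) (nat_lit 45) (nat_lit 5) (nat_lit 42) (nat_lit 5) (nat_lit 363) (nat_lit 284) (nat_lit 133))))) (XT.nd (nat_lit 234) (nat_lit 380) (nat_lit 0) (XT.nd (nat_lit 78) (nat_lit 152) (nat_lit 0) (XT.lf (nat_lit 0) (nat_lit 13526467862) (nat_lit 304) (nat_lit 3872739179) (nat_lit 76) (nat_lit 19789906560) (nat_lit 41)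 (nat_lit 5) (nat_lit 45) (nat_lit 5) (nat_lit 42) (nat_lit 5) (nat_lit 364) (nat_lit 284) (nat_lit 132)) (XT.nd (nat_lit 78) (nat_lit 0) (nat_lit 0) (XT.lf (nat_lit 0) (nat_lit 11093807785) (nat_lit 152) (nat_lit 8761416303) (nat_lit 228) (nat_lit 18174875427) (nat_lit 39) (nat_lit 5) (nat_lit 41) (nat_lit 5) (nat_lit 42) (nat_lit 5) (nat_lit 365) (nat_lit 284) (nat_lit 131)) (XT.lf (nat_lit 0) (nat_lit 26408881330) (nat_lit 228) (nat_lit 12317699644) (nat_lit 76) (nat_lit 168686291) (nat_lit 39) (nat_lit 5) (nat_lit 42) (nat_lit 5) (nat_lit 40) (nat_lit 5) (nat_lit 366) (nat_lit 284) (nat_lit 130)))) (XT.nd (nat_lit 156) (nat_lit 228) (nat_lit 0) (XT.nd (nat_lit 78) (nat_lit 0) (nat_lit 0) (XT.lf (nat_lit 0) (nat_lit 2695985112) (nat_lit 152) (nat_lit 30570234526) (nat_lit 228) (nat_lit 6516961578) (nat_lit 37) (nat_lit 5) (nat_lit 39) (nat_lit 5) (nat_lit 40) (nat_lit 5) (nat_lit 367) (nat_lit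 284) (nat_lit 129)) (XT.lf (nat_lit 0) (nat_lit 18403345841) (nat_lit 152) (nat_lit 22044800129) (nat_lit 228) (nat_lit 246023794) (nat_lit 37) (nat_lit 5) (nat_lit 39) (nat_lit 5) (nat_lit 40) (nat_lit 5) (nat_lit 368) (nat_lit 284) (nat_lit 128))) (XT.nd (nat_lit 78) (nat_lit 152) (nat_lit 0) (XT.lf (nat_lit 0) (nat_lit 6086391142) (nat_lit 228) (nat_lit 7119361228) (nat_lit 76) (nat_lit 28425109285) (nat_lit 36) (nat_lit 5) (nat_lit 39) (nat_lit 5) (nat_lit 37) (nat_lit 5) (nat_lit 369) (nat_lit 284) (nat_lit 127)) (XT.lf (nat_lit 0) (nat_lit 8665083757) (nat_lit 152) (nat_lit 4016789508) (nat_lit 228) (nat_lit 29911369715) (nat_lit 34) (nat_lit 5) (nat_lit 36) (nat_lit 5) (nat_lit 37) (nat_lit 5) (nat_lit 370) (nat_lit 284) (nat_lit 126)))))) (XT.nd (nat_lit 546) (nat_lit 304) (nat_lit 0) (XT.nd (nat_lit 234) (nat_lit 228) (nat_lit 0) (XT.nd (nat_lit 78) (nat_lit 152) (nat_lit 0) (XT.lf (nat_lit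 0) (nat_lit 19594971842) (nat_lit 228) (nat_lit 18575267457) (nat_lit 76) (nat_lit 5410666741) (nat_lit 34) (nat_lit 5) (nat_lit 37) (nat_lit 5) (nat_lit 35) (nat_lit 5) (nat_lit 371) (nat_lit 284) (nat_lit 125)) (XT.nd (nat_lit 78) (nat_lit 152) (nat_lit 0) (XT.lf (nat_lit 0) (nat_lit 26750166200) (nat_lit 228) (nat_lit 2810152029) (nat_lit 76) (nat_lit 15036842450) (nat_lit 34) (nat_lit 5) (nat_lit 37) (nat_lit 5) (nat_lit 35) (nat_lit 5) (nat_lit 372) (nat_lit 284) (nat_lit 124)) (XT.lf (nat_lit 0) (nat_lit 13686650080) (nat_lit 152) (nat_lit 20560010986) (nat_lit 228) (nat_lit 11393445243) (nat_lit 32) (nat_lit 5) (nat_lit 34) (nat_lit 5) (nat_lit 35) (nat_lit 5) (nat_lit 373) (nat_lit 284) (nat_lit 123)))) (XT.nd (nat_lit 156) (nat_lit 0) (nat_lit 0) (XT.nd (nat_lit 78) (nat_lit 228) (nat_lit 0) (XT.lf (nat_lit 0) (nat_lit 30727700786) (nat_lit 152) (nat_lit 11263871129) (nat_lit 228) (nat_lit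 4722065371) (nat_lit 32) (nat_lit 5) (nat_lit 34) (nat_lit 5) (nat_lit 35) (nat_lit 5) (nat_lit 374) (nat_lit 284) (nat_lit 122)) (XT.lf (nat_lit 0) (nat_lit 440423694) (nat_lit 152) (nat_lit 1666558576) (nat_lit 228) (nat_lit 45711790430) (nat_lit 29) (nat_lit 5) (nat_lit 31) (nat_lit 5) (nat_lit 32) (nat_lit 5) (nat_lit 375) (nat_lit 284) (nat_lit 121))) (XT.nd (nat_lit 78) (nat_lit 0) (nat_lit 0) (XT.lf (nat_lit 0) (nat_lit 9283286111) (nat_lit 228) (nat_lit 31400452276) (nat_lit 76) (nat_lit 8264804778) (nat_lit 29) (nat_lit 5) (nat_lit 32) (nat_lit 5) (nat_lit 30) (nat_lit 5) (nat_lit 376) (nat_lit 284) (nat_lit 120)) (XT.lf (nat_lit 0) (nat_lit 16686783331) (nat_lit 228) (nat_lit 14967631164) (nat_lit 76) (nat_lit 18457437442) (nat_lit 29) (nat_lit 5) (nat_lit 32) (nat_lit 5) (nat_lit 30) (nat_lit 5) (nat_lit 377) (nat_lit 284) (nat_lit 119))))) (XT.nd (nat_lit 234) (nat_lit 152) (nat_lit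 0) (XT.nd (nat_lit 78) (nat_lit 0) (nat_lit 0) (XT.lf (nat_lit 0) (nat_lit 1989311722) (nat_lit 152) (nat_lit 22337733783) (nat_lit 228) (nat_lit 26982576919) (nat_lit 27) (nat_lit 5) (nat_lit 29) (nat_lit 5) (nat_lit 30) (nat_lit 5) (nat_lit 378) (nat_lit 284) (nat_lit 118)) (XT.nd (nat_lit 78) (nat_lit 0) (nat_lit 0) (XT.lf (nat_lit 0) (nat_lit 19754178474) (nat_lit 152) (nat_lit 12589075215) (nat_lit 228) (nat_lit 20195672382) (nat_lit 27) (nat_lit 5) (nat_lit 29) (nat_lit 5) (nat_lit 30) (nat_lit 5) (nat_lit 379) (nat_lit 284) (nat_lit 117)) (XT.lf (nat_lit 0) (nat_lit 38044606582) (nat_lit 152) (nat_lit 2551064271) (nat_lit 228) (nat_lit 13209568417) (nat_lit 27) (nat_lit 5) (nat_lit 29) (nat_lit 5) (nat_lit 30) (nat_lit 5) (nat_lit 380) (nat_lit 284) (nat_lit 116)))) (XT.nd (nat_lit 156) (nat_lit 0) (nat_lit 0) (XT.nd (nat_lit 78) (nat_lit 76) (nat_lit 0) (XT.lf (nat_lit 0) (nat_lit 1725750209)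 (nat_lit 76) (nat_lit 47457181461) (nat_lit 152) (nat_lit 5923994124) (nat_lit 26) (nat_lit 5) (nat_lit 27) (nat_lit 5) (nat_lit 28) (nat_lit 4) (nat_lit 381) (nat_lit 284) (nat_lit 115)) (XT.lf (nat_lit 0) (nat_lit 1731126430) (nat_lit 152) (nat_lit 36432390348) (nat_lit 76) (nat_lit 18278237996) (nat_lit 25) (nat_lit 5) (nat_lit 27) (nat_lit 5) (nat_lit 26) (nat_lit 5) (nat_lit 382) (nat_lit 284) (nat_lit 114))) (XT.nd (nat_lit 78) (nat_lit 0) (nat_lit 0) (XT.lf (nat_lit 0) (nat_lit 9492783792) (nat_lit 152) (nat_lit 19040863825) (nat_lit 76) (nat_lit 29281344805) (nat_lit 25) (nat_lit 5) (nat_lit 27) (nat_lit 5) (nat_lit 26) (nat_lit 5) (nat_lit 383) (nat_lit 284) (nat_lit 113)) (XT.lf (nat_lit 0) (nat_lit 17483358452) (nat_lit 152) (nat_lit 1134454481) (nat_lit 76) (nat_lit 40611734070) (nat_lit 25) (nat_lit 5) (nat_lit 27) (nat_lit 5) (nat_lit 26) (nat_lit 5) (nat_lit 384) (nat_lit 284) (nat_lit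 112))))))))
noncomputable def xc167 : XT := (XT.nd (nat_lit 33696) (nat_lit 0) (nat_lit 7752) (XT.nd (nat_lit 1014) (nat_lit 228) (nat_lit 0) (XT.nd (nat_lit 468) (nat_lit 228) (nat_lit 0) (XT.nd (nat_lit 234) (nat_lit 152) (nat_lit 0) (XT.nd (nat_lit 78) (nat_lit 0) (nat_lit 0) (XT.lf (nat_lit 0) (nat_lit 17646837419) (nat_lit 152) (nat_lit 8232627245) (nat_lit 228) (nat_lit 34802100909) (nat_lit 23) (nat_lit 5) (nat_lit 25) (nat_lit 5) (nat_lit 26) (nat_lit 5) (nat_lit 385) (nat_lit 284) (nat_lit 111)) (XT.nd (nat_lit 78) (nat_lit 0) (nat_lit 0) (XT.lf (nat_lit 0) (nat_lit 34558912537) (nat_lit 228) (nat_lit 25192463147) (nat_lit 76) (nat_lit 2424826989) (nat_lit 23) (nat_lit 5) (nat_lit 26) (nat_lit 5) (nat_lit 24) (nat_lit 4) (nat_lit 386) (nat_lit 284) (nat_lit 110)) (XT.lf (nat_lit 0) (nat_lit 43576568320) (nat_lit 228) (nat_lit 6902932037) (nat_lit 76) (nat_lit 13233845472) (nat_lit 23)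 (nat_lit 5) (nat_lit 26) (nat_lit 5) (nat_lit 24) (nat_lit 4) (nat_lit 387) (nat_lit 284) (nat_lit 109)))) (XT.nd (nat_lit 78) (nat_lit 76) (nat_lit 0) (XT.lf (nat_lit 0) (nat_lit 12166393527) (nat_lit 76) (nat_lit 40811731760) (nat_lit 152) (nat_lit 12315078477) (nat_lit 22) (nat_lit 5) (nat_lit 23) (nat_lit 5) (nat_lit 24) (nat_lit 4) (nat_lit 388) (nat_lit 284) (nat_lit 108)) (XT.nd (nat_lit 78) (nat_lit 76) (nat_lit 0) (XT.lf (nat_lit 0) (nat_lit 31943062341) (nat_lit 76) (nat_lit 30784837662) (nat_lit 152) (nat_lit 4190573881) (nat_lit 22) (nat_lit 5) (nat_lit 23) (nat_lit 5) (nat_lit 24) (nat_lit 4) (nat_lit 389) (nat_lit 284) (nat_lit 107)) (XT.lf (nat_lit 0) (nat_lit 4092676983) (nat_lit 152) (nat_lit 16325757785) (nat_lit 76) (nat_lit 48172968110) (nat_lit 21) (nat_lit 5) (nat_lit 23) (nat_lit 5) (nat_lit 22) (nat_lit 5) (nat_lit 390) (nat_lit 284) (nat_lit 106))))) (XT.nd (nat_lit 234)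 (nat_lit 76) (nat_lit 0) (XT.nd (nat_lit 78) (nat_lit 0) (nat_lit 0) (XT.lf (nat_lit 0) (nat_lit 2892385503) (nat_lit 152) (nat_lit 9672250299) (nat_lit 228) (nat_lit 57747907556) (nat_lit 19) (nat_lit 5) (nat_lit 21) (nat_lit 5) (nat_lit 22) (nat_lit 5) (nat_lit 391) (nat_lit 284) (nat_lit 105)) (XT.nd (nat_lit 78) (nat_lit 0) (nat_lit 0) (XT.lf (nat_lit 0) (nat_lit 21467316253) (nat_lit 228) (nat_lit 49079659991) (nat_lit 76) (nat_lit 1533046328) (nat_lit 19) (nat_lit 5) (nat_lit 22) (nat_lit 5) (nat_lit 20) (nat_lit 4) (nat_lit 392) (nat_lit 284) (nat_lit 104)) (XT.lf (nat_lit 0) (nat_lit 30729589722) (nat_lit 228) (nat_lit 30290506477) (nat_lit 76) (nat_lit 12877655949) (nat_lit 19) (nat_lit 5) (nat_lit 22) (nat_lit 5) (nat_lit 20) (nat_lit 4) (nat_lit 393) (nat_lit 284) (nat_lit 103)))) (XT.nd (nat_lit 156) (nat_lit 0) (nat_lit 0) (XT.nd (nat_lit 78) (nat_lit 76) (nat_lit 0) (XT.lf (nat_lit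 0) (nat_lit 40266573873) (nat_lit 228) (nat_lit 10943304017) (nat_lit 76) (nat_lit 24560231770) (nat_lit 19) (nat_lit 5) (nat_lit 22) (nat_lit 5) (nat_lit 20) (nat_lit 4) (nat_lit 394) (nat_lit 284) (nat_lit 102)) (XT.lf (nat_lit 0) (nat_lit 9157549482) (nat_lit 76) (nat_lit 41017080477) (nat_lit 152) (nat_lit 27521460352) (nat_lit 18) (nat_lit 5) (nat_lit 19) (nat_lit 5) (nat_lit 20) (nat_lit 4) (nat_lit 395) (nat_lit 284) (nat_lit 101))) (XT.nd (nat_lit 78) (nat_lit 0) (nat_lit 0) (XT.lf (nat_lit 0) (nat_lit 30080347332) (nat_lit 76) (nat_lit 30407058055) (nat_lit 152) (nat_lit 19189221913) (nat_lit 18) (nat_lit 5) (nat_lit 19) (nat_lit 5) (nat_lit 20) (nat_lit 4) (nat_lit 396) (nat_lit 284) (nat_lit 100)) (XT.lf (nat_lit 0) (nat_lit 51625578379) (nat_lit 76) (nat_lit 19481045644) (nat_lit 152) (nat_lit 10610045788) (nat_lit 18) (nat_lit 5) (nat_lit 19) (nat_lit 5) (nat_lit 20) (nat_lit 4) (nat_lit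 397) (nat_lit 284) (nat_lit 99)))))) (XT.nd (nat_lit 32136) (nat_lit 0) (nat_lit 14440) (XT.nd (nat_lit 31824) (nat_lit 0) (nat_lit 15352) (XT.nd (nat_lit 78) (nat_lit 228) (nat_lit 0) (XT.lf (nat_lit 0) (nat_lit 73812068554) (nat_lit 76) (nat_lit 8229496243) (nat_lit 152) (nat_lit 1776435610) (nat_lit 18) (nat_lit 5) (nat_lit 19) (nat_lit 5) (nat_lit 20) (nat_lit 4) (nat_lit 398) (nat_lit 284) (nat_lit 98)) (XT.nd (nat_lit 78) (nat_lit 0) (nat_lit 0) (XT.lf (nat_lit 0) (nat_lit 7314484847) (nat_lit 228) (nat_lit 75193745653) (nat_lit 76) (nat_lit 3467974446) (nat_lit 15) (nat_lit 5) (nat_lit 18) (nat_lit 5) (nat_lit 16) (nat_lit 4) (nat_lit 399) (nat_lit 284) (nat_lit 97)) (XT.lf (nat_lit 0) (nat_lit 16823162168) (nat_lit 228) (nat_lit 55901599543) (nat_lit 76) (nat_lit 15468445318) (nat_lit 15) (nat_lit 5) (nat_lit 18) (nat_lit 5) (nat_lit 16) (nat_lit 4) (nat_lit 400) (nat_lit 284) (nat_lit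 96)))) (XT.nd (nat_lit 156) (nat_lit 0) (nat_lit 0) (XT.nd (nat_lit 78) (nat_lit 0) (nat_lit 0) (XT.lf (nat_lit 0) (nat_lit 640093046) (nat_lit 0) (nat_lit 640093046) (nat_lit 988) (nat_lit 3299483454) (nat_lit 217) (nat_lit 5) (nat_lit 217) (nat_lit 3) (nat_lit 230) (nat_lit 3) (nat_lit 285) (nat_lit 285) (nat_lit 210)) (XT.lf (nat_lit 0) (nat_lit 3437417850) (nat_lit 988) (nat_lit 3766973491) (nat_lit 1064) (nat_lit 2065965784) (nat_lit 217) (nat_lit 5) (nat_lit 230) (nat_lit 3) (nat_lit 231) (nat_lit 5) (nat_lit 286) (nat_lit 285) (nat_lit 209))) (XT.nd (nat_lit 78) (nat_lit 0) (nat_lit 0) (XT.lf (nat_lit 76) (nat_lit 447499958) (nat_lit 0) (nat_lit 3878465890) (nat_lit 1064) (nat_lit 5059231452) (nat_lit 218) (nat_lit 5) (nat_lit 217) (nat_lit 5) (nat_lit 231) (nat_lit 5) (nat_lit 287) (nat_lit 285) (nat_lit 208)) (XT.lf (nat_lit 76) (nat_lit 4848666132) (nat_lit 0) (nat_lit 399520176) (nat_lit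 1064) (nat_lit 4255131849) (nat_lit 218) (nat_lit 5) (nat_lit 217) (nat_lit 5) (nat_lit 231) (nat_lit 5) (nat_lit 288) (nat_lit 285) (nat_lit 207))))) (XT.nd (nat_lit 234) (nat_lit 988) (nat_lit 0) (XT.nd (nat_lit 78) (nat_lit 0) (nat_lit 0) (XT.lf (nat_lit 0) (nat_lit 6198689752) (nat_lit 988) (nat_lit 291266104) (nat_lit 1064) (nat_lit 3135052909) (nat_lit 218) (nat_lit 5) (nat_lit 231) (nat_lit 5) (nat_lit 232) (nat_lit 5) (nat_lit 289) (nat_lit 285) (nat_lit 206)) (XT.nd (nat_lit 78) (nat_lit 0) (nat_lit 76) (XT.lf (nat_lit 76) (nat_lit 4265261231) (nat_lit 0) (nat_lit 2928288252) (nat_lit 1064) (nat_lit 2556368690) (nat_lit 219) (nat_lit 5) (nat_lit 218) (nat_lit 5) (nat_lit 232) (nat_lit 5) (nat_lit 290) (nat_lit 285) (nat_lit 205)) (XT.lf (nat_lit 0) (nat_lit 8200023106) (nat_lit 988) (nat_lit 939050398) (nat_lit 1064) (nat_lit 740090373) (nat_lit 219) (nat_lit 5) (nat_lit 232) (nat_lit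 5) (nat_lit 233) (nat_lit 5) (nat_lit 291) (nat_lit 285) (nat_lit 204)))) (XT.nd (nat_lit 156) (nat_lit 0) (nat_lit 76) (XT.nd (nat_lit 78) (nat_lit 1064) (nat_lit 0) (XT.lf (nat_lit 76) (nat_lit 3770146976) (nat_lit 0) (nat_lit 5504284887) (nat_lit 1064) (nat_lit 736763692) (nat_lit 220) (nat_lit 5) (nat_lit 219) (nat_lit 5) (nat_lit 233) (nat_lit 5) (nat_lit 292) (nat_lit 285) (nat_lit 203)) (XT.lf (nat_lit 0) (nat_lit 211735040) (nat_lit 1064) (nat_lit 1527138448) (nat_lit 1140) (nat_lit 8408813306) (nat_lit 205) (nat_lit 5) (nat_lit 219) (nat_lit 5) (nat_lit 220) (nat_lit 5) (nat_lit 293) (nat_lit 285) (nat_lit 202))) (XT.nd (nat_lit 78) (nat_lit 0) (nat_lit 0) (XT.lf (nat_lit 0) (nat_lit 1200944997) (nat_lit 1064) (nat_lit 6939559332) (nat_lit 1140) (nat_lit 2146775034) (nat_lit 206) (nat_lit 5) (nat_lit 220) (nat_lit 5) (nat_lit 221) (nat_lit 5) (nat_lit 294) (nat_lit 285) (nat_lit 201))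 (XT.lf (nat_lit 0) (nat_lit 2226938047) (nat_lit 1064) (nat_lit 2065806127) (nat_lit 1140) (nat_lit 6138138607) (nat_lit 206) (nat_lit 5) (nat_lit 220) (nat_lit 5) (nat_lit 221) (nat_lit 5) (nat_lit 295) (nat_lit 285) (nat_lit 200))))))) (XT.nd (nat_lit 1014) (nat_lit 3496) (nat_lit 0) (XT.nd (nat_lit 468) (nat_lit 3268) (nat_lit 0) (XT.nd (nat_lit 234) (nat_lit 0) (nat_lit 152) (XT.nd (nat_lit 78) (nat_lit 0) (nat_lit 76) (XT.lf (nat_lit 76) (nat_lit 2995160502) (nat_lit 0) (nat_lit 292406205) (nat_lit 1140) (nat_lit 7291147143) (nat_lit 207) (nat_lit 5) (nat_lit 206) (nat_lit 5) (nat_lit 221) (nat_lit 5) (nat_lit 296) (nat_lit 285) (nat_lit 199)) (XT.nd (nat_lit 78) (nat_lit 0) (nat_lit 0) (XT.lf (nat_lit 0) (nat_lit 4413570861) (nat_lit 1064) (nat_lit 2535162178) (nat_lit 1140) (nat_lit 3781274308) (nat_lit 207) (nat_lit 5) (nat_lit 221) (nat_lit 5) (nat_lit 222) (nat_lit 5) (nat_lit 297) (nat_lit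 285) (nat_lit 198)) (XT.lf (nat_lit 76) (nat_lit 2696829685) (nat_lit 0) (nat_lit 2881745096) (nat_lit 1140) (nat_lit 5307141476) (nat_lit 208) (nat_lit 5) (nat_lit 207) (nat_lit 5) (nat_lit 222) (nat_lit 5) (nat_lit 298) (nat_lit 285) (nat_lit 197)))) (XT.nd (nat_lit 78) (nat_lit 0) (nat_lit 0) (XT.lf (nat_lit 0) (nat_lit 6793924039) (nat_lit 1064) (nat_lit 2938585910) (nat_lit 1140) (nat_lit 1313156864) (nat_lit 208) (nat_lit 5) (nat_lit 222) (nat_lit 5) (nat_lit 223) (nat_lit 5) (nat_lit 299) (nat_lit 285) (nat_lit 196)) (XT.nd (nat_lit 78) (nat_lit 0) (nat_lit 0) (XT.lf (nat_lit 76) (nat_lit 2471256958) (nat_lit 0) (nat_lit 5604410271) (nat_lit 1140) (nat_lit 3133881945) (nat_lit 209) (nat_lit 5) (nat_lit 208) (nat_lit 5) (nat_lit 223) (nat_lit 5) (nat_lit 300) (nat_lit 285) (nat_lit 195)) (XT.lf (nat_lit 76) (nat_lit 8086148548) (nat_lit 0) (nat_lit 1317517225) (nat_lit 1140) (nat_lit 1974478523)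 (nat_lit 209) (nat_lit 5) (nat_lit 208) (nat_lit 5) (nat_lit 223) (nat_lit 5) (nat_lit 301) (nat_lit 285) (nat_lit 194))))) (XT.nd (nat_lit 234) (nat_lit 1216) (nat_lit 0) (XT.nd (nat_lit 78) (nat_lit 1216) (nat_lit 0) (XT.lf (nat_lit 0) (nat_lit 2315408999) (nat_lit 1064) (nat_lit 8486939160) (nat_lit 1140) (nat_lit 748553294) (nat_lit 195) (nat_lit 5) (nat_lit 209) (nat_lit 5) (nat_lit 210) (nat_lit 5) (nat_lit 302) (nat_lit 285) (nat_lit 193)) (XT.nd (nat_lit 78) (nat_lit 1140) (nat_lit 0) (XT.lf (nat_lit 0) (nat_lit 529755889) (nat_lit 1140) (nat_lit 3605596465) (nat_lit 76) (nat_lit 7592599331) (nat_lit 194) (nat_lit 5) (nat_lit 209) (nat_lit 5) (nat_lit 195) (nat_lit 5) (nat_lit 303) (nat_lit 285) (nat_lit 192)) (XT.lf (nat_lit 0) (nat_lit 1835906622) (nat_lit 1216) (nat_lit 9702229265) (nat_lit 76) (nat_lit 371846066) (nat_lit 179) (nat_lit 5) (nat_lit 195) (nat_lit 5) (nat_lit 180) (nat_lit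 5) (nat_lit 304) (nat_lit 285) (nat_lit 191)))) (XT.nd (nat_lit 156) (nat_lit 608) (nat_lit 0) (XT.nd (nat_lit 78) (nat_lit 608) (nat_lit 0) (XT.lf (nat_lit 0) (nat_lit 3239042464) (nat_lit 1216) (nat_lit 3886182993) (nat_lit 76) (nat_lit 4970539861) (nat_lit 179) (nat_lit 5) (nat_lit 195) (nat_lit 5) (nat_lit 180) (nat_lit 5) (nat_lit 305) (nat_lit 285) (nat_lit 190)) (XT.lf (nat_lit 0) (nat_lit 2128489763) (nat_lit 608) (nat_lit 2556909527) (nat_lit 684) (nat_lit 7601714531) (nat_lit 171) (nat_lit 5) (nat_lit 179) (nat_lit 5) (nat_lit 180) (nat_lit 5) (nat_lit 306) (nat_lit 285) (nat_lit 189))) (XT.nd (nat_lit 78) (nat_lit 608) (nat_lit 0) (XT.lf (nat_lit 0) (nat_lit 6216511124) (nat_lit 684) (nat_lit 4118628869) (nat_lit 76) (nat_lit 2147846562) (nat_lit 171) (nat_lit 5) (nat_lit 180) (nat_lit 5) (nat_lit 172) (nat_lit 5) (nat_lit 307) (nat_lit 285) (nat_lit 188)) (XT.lf (nat_lit 0) (nat_lit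 2100938177) (nat_lit 608) (nat_lit 5719761281) (nat_lit 684) (nat_lit 4863245702) (nat_lit 163) (nat_lit 5) (nat_lit 171) (nat_lit 5) (nat_lit 172) (nat_lit 5) (nat_lit 308) (nat_lit 285) (nat_lit 187)))))) (XT.nd (nat_lit 546) (nat_lit 1900) (nat_lit 0) (XT.nd (nat_lit 234) (nat_lit 1064) (nat_lit 0) (XT.nd (nat_lit 78) (nat_lit 532) (nat_lit 0) (XT.lf (nat_lit 0) (nat_lit 8574380849) (nat_lit 608) (nat_lit 922224622) (nat_lit 684) (nat_lit 3393642575) (nat_lit 163) (nat_lit 5) (nat_lit 171) (nat_lit 5) (nat_lit 172) (nat_lit 5) (nat_lit 309) (nat_lit 285) (nat_lit 186)) (XT.nd (nat_lit 78) (nat_lit 0) (nat_lit 0) (XT.lf (nat_lit 0) (nat_lit 2124921399) (nat_lit 532) (nat_lit 9139462869) (nat_lit 608) (nat_lit 1837130491) (nat_lit 156) (nat_lit 5) (nat_lit 163) (nat_lit 5) (nat_lit 164) (nat_lit 5) (nat_lit 310) (nat_lit 285) (nat_lit 185)) (XT.lf (nat_lit 0) (nat_lit 8821065744) (nat_lit 532)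 (nat_lit 4299633129) (nat_lit 608) (nat_lit 197377477) (nat_lit 156) (nat_lit 5) (nat_lit 163) (nat_lit 5) (nat_lit 164) (nat_lit 5) (nat_lit 311) (nat_lit 285) (nat_lit 184)))) (XT.nd (nat_lit 156) (nat_lit 456) (nat_lit 0) (XT.nd (nat_lit 78) (nat_lit 0) (nat_lit 0) (XT.lf (nat_lit 0) (nat_lit 1473629208) (nat_lit 608) (nat_lit 11359095819) (nat_lit 76) (nat_lit 707665303) (nat_lit 148) (nat_lit 5) (nat_lit 156) (nat_lit 5) (nat_lit 149) (nat_lit 5) (nat_lit 312) (nat_lit 285) (nat_lit 183)) (XT.lf (nat_lit 0) (nat_lit 3262749154) (nat_lit 608) (nat_lit 4678084945) (nat_lit 76) (nat_lit 5826342588) (nat_lit 148) (nat_lit 5) (nat_lit 156) (nat_lit 5) (nat_lit 149) (nat_lit 5) (nat_lit 313) (nat_lit 285) (nat_lit 182))) (XT.nd (nat_lit 78) (nat_lit 0) (nat_lit 0) (XT.lf (nat_lit 0) (nat_lit 2230144145) (nat_lit 456) (nat_lit 2880835015) (nat_lit 532) (nat_lit 8889643881) (nat_lit 142) (nat_lit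 5) (nat_lit 148) (nat_lit 5) (nat_lit 149) (nat_lit 5) (nat_lit 314) (nat_lit 285) (nat_lit 181)) (XT.lf (nat_lit 0) (nat_lit 7069067299) (nat_lit 532) (nat_lit 4838061320) (nat_lit 76) (nat_lit 2332330762) (nat_lit 142) (nat_lit 5) (nat_lit 149) (nat_lit 5) (nat_lit 143) (nat_lit 5) (nat_lit 315) (nat_lit 285) (nat_lit 180))))) (XT.nd (nat_lit 234) (nat_lit 912) (nat_lit 0) (XT.nd (nat_lit 78) (nat_lit 456) (nat_lit 0) (XT.lf (nat_lit 0) (nat_lit 2302178377) (nat_lit 532) (nat_lit 6819127504) (nat_lit 608) (nat_lit 5363111078) (nat_lit 135) (nat_lit 5) (nat_lit 142) (nat_lit 5) (nat_lit 143) (nat_lit 5) (nat_lit 316) (nat_lit 285) (nat_lit 179)) (XT.nd (nat_lit 78) (nat_lit 456) (nat_lit 0) (XT.lf (nat_lit 0) (nat_lit 9739411965) (nat_lit 532) (nat_lit 1529595821) (nat_lit 608) (nat_lit 3466716440) (nat_lit 135) (nat_lit 5) (nat_lit 142) (nat_lit 5) (nat_lit 143) (nat_lit 5) (nat_lit 317) (nat_lit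 285) (nat_lit 178)) (XT.lf (nat_lit 0) (nat_lit 2397965459) (nat_lit 456) (nat_lit 11129357769) (nat_lit 532) (nat_lit 1465879335) (nat_lit 129) (nat_lit 5) (nat_lit 135) (nat_lit 5) (nat_lit 136) (nat_lit 5) (nat_lit 318) (nat_lit 285) (nat_lit 177)))) (XT.nd (nat_lit 156) (nat_lit 380) (nat_lit 0) (XT.nd (nat_lit 78) (nat_lit 456) (nat_lit 0) (XT.lf (nat_lit 0) (nat_lit 635043192) (nat_lit 532) (nat_lit 5178258317) (nat_lit 76) (nat_lit 9443398376) (nat_lit 128) (nat_lit 5) (nat_lit 135) (nat_lit 5) (nat_lit 129) (nat_lit 5) (nat_lit 319) (nat_lit 285) (nat_lit 176)) (XT.lf (nat_lit 0) (nat_lit 2479078051) (nat_lit 456) (nat_lit 300276789) (nat_lit 532) (nat_lit 12748033008) (nat_lit 122) (nat_lit 5) (nat_lit 128) (nat_lit 5) (nat_lit 129) (nat_lit 5) (nat_lit 320) (nat_lit 285) (nat_lit 175))) (XT.nd (nat_lit 78) (nat_lit 380) (nat_lit 0) (XT.lf (nat_lit 0) (nat_lit 5078730808) (nat_lit 532)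 (nat_lit 5400824237) (nat_lit 76) (nat_lit 5323934750) (nat_lit 122) (nat_lit 5) (nat_lit 129) (nat_lit 5) (nat_lit 123) (nat_lit 5) (nat_lit 321) (nat_lit 285) (nat_lit 174)) (XT.lf (nat_lit 0) (nat_lit 2506227565) (nat_lit 380) (nat_lit 4954555046) (nat_lit 456) (nat_lit 8626696299) (nat_lit 117) (nat_lit 5) (nat_lit 122) (nat_lit 5) (nat_lit 123) (nat_lit 5) (nat_lit 322) (nat_lit 285) (nat_lit 173))))))))
noncomputable def xc168 : XT := (XT.nd (nat_lit 2028) (nat_lit 2356) (nat_lit 0) (XT.nd (nat_lit 1014) (nat_lit 1824) (nat_lit 0) (XT.nd (nat_lit 468) (nat_lit 1064) (nat_lit 0) (XT.nd (nat_lit 234) (nat_lit 836) (nat_lit 0) (XT.nd (nat_lit 78) (nat_lit 380) (nat_lit 0) (XT.lf (nat_lit 0) (nat_lit 9963295593) (nat_lit 456) (nat_lit 5640786132) (nat_lit 76) (nat_lit 774450496) (nat_lit 117) (nat_lit 5) (nat_lit 123) (nat_lit 5) (nat_lit 118) (nat_lit 5) (nat_lit 323) (nat_lit 285) (nat_lit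 172)) (XT.nd (nat_lit 78) (nat_lit 0) (nat_lit 0) (XT.lf (nat_lit 0) (nat_lit 2522507502) (nat_lit 380) (nat_lit 10078907653) (nat_lit 456) (nat_lit 4075100127) (nat_lit 112) (nat_lit 5) (nat_lit 117) (nat_lit 5) (nat_lit 118) (nat_lit 5) (nat_lit 324) (nat_lit 285) (nat_lit 171)) (XT.lf (nat_lit 0) (nat_lit 11030929277) (nat_lit 380) (nat_lit 4332162159) (nat_lit 456) (nat_lit 1619027684) (nat_lit 112) (nat_lit 5) (nat_lit 117) (nat_lit 5) (nat_lit 118) (nat_lit 5) (nat_lit 325) (nat_lit 285) (nat_lit 170)))) (XT.nd (nat_lit 78) (nat_lit 380) (nat_lit 0) (XT.lf (nat_lit 0) (nat_lit 920445930) (nat_lit 456) (nat_lit 14788857373) (nat_lit 76) (nat_lit 1586513310) (nat_lit 106) (nat_lit 5) (nat_lit 112) (nat_lit 5) (nat_lit 107) (nat_lit 5) (nat_lit 326) (nat_lit 285) (nat_lit 169)) (XT.nd (nat_lit 78) (nat_lit 380) (nat_lit 0) (XT.lf (nat_lit 0) (nat_lit 3595015515) (nat_lit 456) (nat_lit 6351202173)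 (nat_lit 76) (nat_lit 7669495384) (nat_lit 106) (nat_lit 5) (nat_lit 112) (nat_lit 5) (nat_lit 107) (nat_lit 5) (nat_lit 327) (nat_lit 285) (nat_lit 168)) (XT.lf (nat_lit 0) (nat_lit 2370887351) (nat_lit 380) (nat_lit 3989948139) (nat_lit 456) (nat_lit 11584052688) (nat_lit 101) (nat_lit 5) (nat_lit 106) (nat_lit 5) (nat_lit 107) (nat_lit 5) (nat_lit 328) (nat_lit 285) (nat_lit 167))))) (XT.nd (nat_lit 234) (nat_lit 760) (nat_lit 0) (XT.nd (nat_lit 78) (nat_lit 304) (nat_lit 0) (XT.lf (nat_lit 0) (nat_lit 9283411290) (nat_lit 456) (nat_lit 6833576856) (nat_lit 76) (nat_lit 2164748751) (nat_lit 101) (nat_lit 5) (nat_lit 107) (nat_lit 5) (nat_lit 102) (nat_lit 5) (nat_lit 329) (nat_lit 285) (nat_lit 166)) (XT.nd (nat_lit 78) (nat_lit 0) (nat_lit 0) (XT.lf (nat_lit 0) (nat_lit 2156944968) (nat_lit 304) (nat_lit 10185688191) (nat_lit 380) (nat_lit 6284600312) (nat_lit 97) (nat_lit 5) (nat_lit 101)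 (nat_lit 5) (nat_lit 102) (nat_lit 5) (nat_lit 330) (nat_lit 285) (nat_lit 165)) (XT.lf (nat_lit 0) (nat_lit 11542708002) (nat_lit 304) (nat_lit 4008848210) (nat_lit 380) (nat_lit 3429812115) (nat_lit 97) (nat_lit 5) (nat_lit 101) (nat_lit 5) (nat_lit 102) (nat_lit 5) (nat_lit 331) (nat_lit 285) (nat_lit 164)))) (XT.nd (nat_lit 156) (nat_lit 304) (nat_lit 0) (XT.nd (nat_lit 78) (nat_lit 76) (nat_lit 0) (XT.lf (nat_lit 0) (nat_lit 1863220275) (nat_lit 380) (nat_lit 17023267547) (nat_lit 456) (nat_lit 458757976) (nat_lit 92) (nat_lit 5) (nat_lit 97) (nat_lit 5) (nat_lit 98) (nat_lit 5) (nat_lit 332) (nat_lit 285) (nat_lit 163)) (XT.lf (nat_lit 0) (nat_lit 2655486404) (nat_lit 456) (nat_lit 8201100826) (nat_lit 76) (nat_lit 8859567692) (nat_lit 91) (nat_lit 5) (nat_lit 97) (nat_lit 5) (nat_lit 92) (nat_lit 5) (nat_lit 333) (nat_lit 285) (nat_lit 162))) (XT.nd (nat_lit 78) (nat_lit 0) (nat_lit 0)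 (XT.lf (nat_lit 0) (nat_lit 1366277795) (nat_lit 304) (nat_lit 4490376416) (nat_lit 380) (nat_lit 14241329224) (nat_lit 87) (nat_lit 5) (nat_lit 91) (nat_lit 5) (nat_lit 92) (nat_lit 5) (nat_lit 334) (nat_lit 285) (nat_lit 161)) (XT.lf (nat_lit 0) (nat_lit 9247076394) (nat_lit 380) (nat_lit 9134913431) (nat_lit 76) (nat_lit 2106489991) (nat_lit 87) (nat_lit 5) (nat_lit 92) (nat_lit 5) (nat_lit 88) (nat_lit 5) (nat_lit 335) (nat_lit 285) (nat_lit 160)))))) (XT.nd (nat_lit 468) (nat_lit 836) (nat_lit 0) (XT.nd (nat_lit 234) (nat_lit 684) (nat_lit 0) (XT.nd (nat_lit 78) (nat_lit 0) (nat_lit 0) (XT.lf (nat_lit 0) (nat_lit 705264372) (nat_lit 304) (nat_lit 12075201793) (nat_lit 380) (nat_lit 8108996590) (nat_lit 83) (nat_lit 5) (nat_lit 87) (nat_lit 5) (nat_lit 88) (nat_lit 5) (nat_lit 336) (nat_lit 285) (nat_lit 159)) (XT.nd (nat_lit 78) (nat_lit 0) (nat_lit 0) (XT.lf (nat_lit 0) (nat_lit 11014218536)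 (nat_lit 304) (nat_lit 5488059358) (nat_lit 380) (nat_lit 4797733723) (nat_lit 83) (nat_lit 5) (nat_lit 87) (nat_lit 5) (nat_lit 88) (nat_lit 5) (nat_lit 337) (nat_lit 285) (nat_lit 158)) (XT.lf (nat_lit 0) (nat_lit 20338634286) (nat_lit 380) (nat_lit 116446291) (nat_lit 76) (nat_lit 1267718438) (nat_lit 83) (nat_lit 5) (nat_lit 88) (nat_lit 5) (nat_lit 84) (nat_lit 5) (nat_lit 338) (nat_lit 285) (nat_lit 157)))) (XT.nd (nat_lit 78) (nat_lit 304) (nat_lit 0) (XT.lf (nat_lit 0) (nat_lit 2237577425) (nat_lit 380) (nat_lit 11680544549) (nat_lit 76) (nat_lit 8235120604) (nat_lit 78) (nat_lit 5) (nat_lit 83) (nat_lit 5) (nat_lit 79) (nat_lit 5) (nat_lit 339) (nat_lit 285) (nat_lit 156)) (XT.nd (nat_lit 78) (nat_lit 304) (nat_lit 0) (XT.lf (nat_lit 0) (nat_lit 5932090408) (nat_lit 380) (nat_lit 1241591343) (nat_lit 76) (nat_lit 15422756428) (nat_lit 78) (nat_lit 5) (nat_lit 83) (nat_lit 5) (nat_lit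 79) (nat_lit 5) (nat_lit 340) (nat_lit 285) (nat_lit 155)) (XT.lf (nat_lit 0) (nat_lit 9686723576) (nat_lit 304) (nat_lit 134850674) (nat_lit 380) (nat_lit 13228839133) (nat_lit 74) (nat_lit 5) (nat_lit 78) (nat_lit 5) (nat_lit 79) (nat_lit 5) (nat_lit 341) (nat_lit 285) (nat_lit 154))))) (XT.nd (nat_lit 234) (nat_lit 608) (nat_lit 0) (XT.nd (nat_lit 78) (nat_lit 228) (nat_lit 0) (XT.lf (nat_lit 0) (nat_lit 13899922538) (nat_lit 380) (nat_lit 2630751222) (nat_lit 76) (nat_lit 6985176258) (nat_lit 74) (nat_lit 5) (nat_lit 79) (nat_lit 5) (nat_lit 75) (nat_lit 5) (nat_lit 342) (nat_lit 285) (nat_lit 153)) (XT.nd (nat_lit 78) (nat_lit 0) (nat_lit 0) (XT.lf (nat_lit 0) (nat_lit 8577658671) (nat_lit 228) (nat_lit 9598133040) (nat_lit 304) (nat_lit 5817210282) (nat_lit 71) (nat_lit 5) (nat_lit 74) (nat_lit 5) (nat_lit 75) (nat_lit 5) (nat_lit 343) (nat_lit 285) (nat_lit 152)) (XT.lf (nat_lit 0) (nat_lit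 20163809137) (nat_lit 228) (nat_lit 2434206276) (nat_lit 304) (nat_lit 1885917897) (nat_lit 71) (nat_lit 5) (nat_lit 74) (nat_lit 5) (nat_lit 75) (nat_lit 5) (nat_lit 344) (nat_lit 285) (nat_lit 151)))) (XT.nd (nat_lit 156) (nat_lit 228) (nat_lit 0) (XT.nd (nat_lit 78) (nat_lit 0) (nat_lit 0) (XT.lf (nat_lit 0) (nat_lit 2230518731) (nat_lit 380) (nat_lit 17819818999) (nat_lit 76) (nat_lit 4935355129) (nat_lit 66) (nat_lit 5) (nat_lit 71) (nat_lit 5) (nat_lit 67) (nat_lit 5) (nat_lit 345) (nat_lit 285) (nat_lit 150)) (XT.lf (nat_lit 0) (nat_lit 6492461200) (nat_lit 380) (nat_lit 6471736193) (nat_lit 76) (nat_lit 12535956624) (nat_lit 66) (nat_lit 5) (nat_lit 71) (nat_lit 5) (nat_lit 67) (nat_lit 5) (nat_lit 346) (nat_lit 285) (nat_lit 149))) (XT.nd (nat_lit 78) (nat_lit 0) (nat_lit 0) (XT.lf (nat_lit 0) (nat_lit 5308389998) (nat_lit 228) (nat_lit 5616899493) (nat_lit 304) (nat_lit 15103475035)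 (nat_lit 63) (nat_lit 5) (nat_lit 66) (nat_lit 5) (nat_lit 67) (nat_lit 5) (nat_lit 347) (nat_lit 285) (nat_lit 148)) (XT.lf (nat_lit 0) (nat_lit 15567934644) (nat_lit 304) (nat_lit 9028159748) (nat_lit 76) (nat_lit 1974840155) (nat_lit 63) (nat_lit 5) (nat_lit 67) (nat_lit 5) (nat_lit 64) (nat_lit 5) (nat_lit 348) (nat_lit 285) (nat_lit 147))))))) (XT.nd (nat_lit 1014) (nat_lit 988) (nat_lit 0) (XT.nd (nat_lit 468) (nat_lit 608) (nat_lit 0) (XT.nd (nat_lit 234) (nat_lit 228) (nat_lit 0) (XT.nd (nat_lit 78) (nat_lit 304) (nat_lit 0) (XT.lf (nat_lit 0) (nat_lit 3006149336) (nat_lit 228) (nat_lit 17420530957) (nat_lit 304) (nat_lit 6700390721) (nat_lit 60) (nat_lit 5) (nat_lit 63) (nat_lit 5) (nat_lit 64) (nat_lit 5) (nat_lit 349) (nat_lit 285) (nat_lit 146)) (XT.nd (nat_lit 78) (nat_lit 304) (nat_lit 0) (XT.lf (nat_lit 0) (nat_lit 15574950946) (nat_lit 228) (nat_lit 9939827791) (nat_lit 304) (nat_lit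 2182610928) (nat_lit 60) (nat_lit 5) (nat_lit 63) (nat_lit 5) (nat_lit 64) (nat_lit 5) (nat_lit 350) (nat_lit 285) (nat_lit 145)) (XT.lf (nat_lit 0) (nat_lit 204825123) (nat_lit 228) (nat_lit 2212199769) (nat_lit 304) (nat_lit 25867249910) (nat_lit 56) (nat_lit 5) (nat_lit 59) (nat_lit 5) (nat_lit 60) (nat_lit 5) (nat_lit 351) (nat_lit 285) (nat_lit 144)))) (XT.nd (nat_lit 78) (nat_lit 228) (nat_lit 0) (XT.lf (nat_lit 0) (nat_lit 7282288057) (nat_lit 304) (nat_lit 15824252712) (nat_lit 76) (nat_lit 5776437537) (nat_lit 56) (nat_lit 5) (nat_lit 60) (nat_lit 5) (nat_lit 57) (nat_lit 5) (nat_lit 352) (nat_lit 285) (nat_lit 143)) (XT.nd (nat_lit 78) (nat_lit 228) (nat_lit 0) (XT.lf (nat_lit 0) (nat_lit 12308262150) (nat_lit 304) (nat_lit 3234463411) (nat_lit 76) (nat_lit 13956479921) (nat_lit 56) (nat_lit 5) (nat_lit 60) (nat_lit 5) (nat_lit 57) (nat_lit 5) (nat_lit 353) (nat_lit 285) (nat_lit 142))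 (XT.lf (nat_lit 0) (nat_lit 9915674551) (nat_lit 228) (nat_lit 7657714758) (nat_lit 304) (nat_lit 12557883955) (nat_lit 53) (nat_lit 5) (nat_lit 56) (nat_lit 5) (nat_lit 57) (nat_lit 5) (nat_lit 354) (nat_lit 285) (nat_lit 141))))) (XT.nd (nat_lit 234) (nat_lit 380) (nat_lit 0) (XT.nd (nat_lit 78) (nat_lit 228) (nat_lit 0) (XT.lf (nat_lit 0) (nat_lit 23027034184) (nat_lit 304) (nat_lit 7270387494) (nat_lit 76) (nat_lit 483969345) (nat_lit 53) (nat_lit 5) (nat_lit 57) (nat_lit 5) (nat_lit 54) (nat_lit 5) (nat_lit 355) (nat_lit 285) (nat_lit 140)) (XT.nd (nat_lit 78) (nat_lit 76) (nat_lit 0) (XT.lf (nat_lit 0) (nat_lit 6095726123) (nat_lit 152) (nat_lit 22676297479) (nat_lit 228) (nat_lit 2675161378) (nat_lit 51) (nat_lit 5) (nat_lit 53) (nat_lit 5) (nat_lit 54) (nat_lit 5) (nat_lit 356) (nat_lit 285) (nat_lit 139)) (XT.lf (nat_lit 0) (nat_lit 2574013233) (nat_lit 228) (nat_lit 12154809652) (nat_lit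 76) (nat_lit 17401372461) (nat_lit 50) (nat_lit 5) (nat_lit 53) (nat_lit 5) (nat_lit 51) (nat_lit 5) (nat_lit 357) (nat_lit 285) (nat_lit 138)))) (XT.nd (nat_lit 156) (nat_lit 152) (nat_lit 0) (XT.nd (nat_lit 78) (nat_lit 0) (nat_lit 0) (XT.lf (nat_lit 0) (nat_lit 1428825375) (nat_lit 228) (nat_lit 6505342703) (nat_lit 304) (nat_lit 24898519472) (nat_lit 47) (nat_lit 5) (nat_lit 50) (nat_lit 5) (nat_lit 51) (nat_lit 5) (nat_lit 358) (nat_lit 285) (nat_lit 137)) (XT.lf (nat_lit 0) (nat_lit 13591561378) (nat_lit 304) (nat_lit 17913909539) (nat_lit 76) (nat_lit 2046694780) (nat_lit 47) (nat_lit 5) (nat_lit 51) (nat_lit 5) (nat_lit 48) (nat_lit 5) (nat_lit 359) (nat_lit 285) (nat_lit 136))) (XT.nd (nat_lit 78) (nat_lit 152) (nat_lit 0) (XT.lf (nat_lit 0) (nat_lit 19476864022) (nat_lit 304) (nat_lit 4093731580) (nat_lit 76) (nat_lit 10720891031) (nat_lit 47) (nat_lit 5) (nat_lit 51) (nat_lit 5) (nat_lit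 48) (nat_lit 5) (nat_lit 360) (nat_lit 285) (nat_lit 135)) (XT.lf (nat_lit 0) (nat_lit 10332913273) (nat_lit 152) (nat_lit 15299098184) (nat_lit 228) (nat_lit 9418181121) (nat_lit 45) (nat_lit 5) (nat_lit 47) (nat_lit 5) (nat_lit 48) (nat_lit 5) (nat_lit 361) (nat_lit 285) (nat_lit 134)))))) (XT.nd (nat_lit 546) (nat_lit 380) (nat_lit 0) (XT.nd (nat_lit 234) (nat_lit 304) (nat_lit 0) (XT.nd (nat_lit 78) (nat_lit 304) (nat_lit 0) (XT.lf (nat_lit 0) (nat_lit 25266599949) (nat_lit 152) (nat_lit 6740594393) (nat_lit 228) (nat_lit 3823407765) (nat_lit 45) (nat_lit 5) (nat_lit 47) (nat_lit 5) (nat_lit 48) (nat_lit 5) (nat_lit 362) (nat_lit 285) (nat_lit 133)) (XT.nd (nat_lit 78) (nat_lit 0) (nat_lit 0) (XT.lf (nat_lit 0) (nat_lit 1955077625) (nat_lit 304) (nat_lit 32588307616) (nat_lit 76) (nat_lit 2088871780) (nat_lit 41) (nat_lit 5) (nat_lit 45) (nat_lit 5) (nat_lit 42) (nat_lit 5) (nat_lit 363) (nat_lit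 285) (nat_lit 132)) (XT.lf (nat_lit 0) (nat_lit 7998740860) (nat_lit 304) (nat_lit 18263281614) (nat_lit 76) (nat_lit 11189746854) (nat_lit 41) (nat_lit 5) (nat_lit 45) (nat_lit 5) (nat_lit 42) (nat_lit 5) (nat_lit 364) (nat_lit 285) (nat_lit 131)))) (XT.nd (nat_lit 156) (nat_lit 152) (nat_lit 0) (XT.nd (nat_lit 78) (nat_lit 152) (nat_lit 0) (XT.lf (nat_lit 0) (nat_lit 14218082470) (nat_lit 304) (nat_lit 3517787579) (nat_lit 76) (nat_lit 20560169309) (nat_lit 41) (nat_lit 5) (nat_lit 45) (nat_lit 5) (nat_lit 42) (nat_lit 5) (nat_lit 365) (nat_lit 285) (nat_lit 130)) (XT.lf (nat_lit 0) (nat_lit 11893136835) (nat_lit 152) (nat_lit 8839724102) (nat_lit 228) (nat_lit 18429514166) (nat_lit 39) (nat_lit 5) (nat_lit 41) (nat_lit 5) (nat_lit 42) (nat_lit 5) (nat_lit 366) (nat_lit 285) (nat_lit 129))) (XT.nd (nat_lit 78) (nat_lit 152) (nat_lit 0) (XT.lf (nat_lit 0) (nat_lit 27476637077) (nat_lit 228) (nat_lit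 12227649707) (nat_lit 76) (nat_lit 349410718) (nat_lit 39) (nat_lit 5) (nat_lit 42) (nat_lit 5) (nat_lit 40) (nat_lit 5) (nat_lit 367) (nat_lit 285) (nat_lit 128)) (XT.lf (nat_lit 0) (nat_lit 3231939896) (nat_lit 152) (nat_lit 31304106140) (nat_lit 228) (nat_lit 6432317072) (nat_lit 37) (nat_lit 5) (nat_lit 39) (nat_lit 5) (nat_lit 40) (nat_lit 5) (nat_lit 368) (nat_lit 285) (nat_lit 127))))) (XT.nd (nat_lit 234) (nat_lit 152) (nat_lit 0) (XT.nd (nat_lit 78) (nat_lit 152) (nat_lit 0) (XT.lf (nat_lit 0) (nat_lit 18226299) (nat_lit 228) (nat_lit 22509835316) (nat_lit 76) (nat_lit 19378856479) (nat_lit 36) (nat_lit 5) (nat_lit 39) (nat_lit 5) (nat_lit 37) (nat_lit 5) (nat_lit 369) (nat_lit 285) (nat_lit 126)) (XT.nd (nat_lit 78) (nat_lit 152) (nat_lit 0) (XT.lf (nat_lit 0) (nat_lit 6527901297) (nat_lit 228) (nat_lit 6898692116) (nat_lit 76) (nat_lit 29445281626) (nat_lit 36) (nat_lit 5) (nat_lit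 39) (nat_lit 5) (nat_lit 37) (nat_lit 5) (nat_lit 370) (nat_lit 285) (nat_lit 125)) (XT.lf (nat_lit 0) (nat_lit 9355028865) (nat_lit 152) (nat_lit 3962811057) (nat_lit 228) (nat_lit 30545394341) (nat_lit 34) (nat_lit 5) (nat_lit 36) (nat_lit 5) (nat_lit 37) (nat_lit 5) (nat_lit 371) (nat_lit 285) (nat_lit 124)))) (XT.nd (nat_lit 156) (nat_lit 152) (nat_lit 0) (XT.nd (nat_lit 78) (nat_lit 0) (nat_lit 0) (XT.lf (nat_lit 0) (nat_lit 20432517782) (nat_lit 228) (nat_lit 18709106672) (nat_lit 76) (nat_lit 5739081269) (nat_lit 34) (nat_lit 5) (nat_lit 37) (nat_lit 5) (nat_lit 35) (nat_lit 5) (nat_lit 372) (nat_lit 285) (nat_lit 123)) (XT.lf (nat_lit 0) (nat_lit 27795095249) (nat_lit 228) (nat_lit 2483370368) (nat_lit 76) (nat_lit 15649204545) (nat_lit 34) (nat_lit 5) (nat_lit 37) (nat_lit 5) (nat_lit 35) (nat_lit 5) (nat_lit 373) (nat_lit 285) (nat_lit 122))) (XT.nd (nat_lit 78) (nat_lit 0) (nat_lit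 0) (XT.lf (nat_lit 0) (nat_lit 14504305548) (nat_lit 152) (nat_lit 21009031389) (nat_lit 228) (nat_lit 11488665527) (nat_lit 32) (nat_lit 5) (nat_lit 34) (nat_lit 5) (nat_lit 35) (nat_lit 5) (nat_lit 374) (nat_lit 285) (nat_lit 121)) (XT.lf (nat_lit 0) (nat_lit 32044731775) (nat_lit 152) (nat_lit 11438894131) (nat_lit 228) (nat_lit 4624326291) (nat_lit 32) (nat_lit 5) (nat_lit 34) (nat_lit 5) (nat_lit 35) (nat_lit 5) (nat_lit 375) (nat_lit 285) (nat_lit 120))))))))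
noncomputable def xc169 : XT := (XT.nd (nat_lit 33696) (nat_lit 0) (nat_lit 10108) (XT.nd (nat_lit 1014) (nat_lit 608) (nat_lit 0) (XT.nd (nat_lit 468) (nat_lit 304) (nat_lit 0) (XT.nd (nat_lit 234) (nat_lit 152) (nat_lit 0) (XT.nd (nat_lit 78) (nat_lit 0) (nat_lit 0) (XT.lf (nat_lit 0) (nat_lit 849707810) (nat_lit 152) (nat_lit 1552183893) (nat_lit 228) (nat_lit 46844375351) (nat_lit 29) (nat_lit 5) (nat_lit 31) (nat_lit 5) (nat_lit 32) (nat_lit 5) (nat_lit 376) (nat_lit 285) (nat_lit 119)) (XT.nd (nat_lit 78) (nat_lit 0) (nat_lit 0) (XT.lf (nat_lit 0) (nat_lit 9788270135) (nat_lit 228) (nat_lit 31952601579) (nat_lit 76) (nat_lit 8669218786) (nat_lit 29) (nat_lit 5) (nat_lit 32) (nat_lit 5) (nat_lit 30) (nat_lit 5) (nat_lit 377) (nat_lit 285) (nat_lit 118)) (XT.lf (nat_lit 0) (nat_lit 17407275608) (nat_lit 228) (nat_lit 15038151103) (nat_lit 76) (nat_lit 19163073056) (nat_lit 29) (nat_lit 5)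 (nat_lit 32) (nat_lit 5) (nat_lit 30) (nat_lit 5) (nat_lit 378) (nat_lit 285) (nat_lit 117)))) (XT.nd (nat_lit 78) (nat_lit 0) (nat_lit 0) (XT.lf (nat_lit 0) (nat_lit 2423789197) (nat_lit 152) (nat_lit 22850154713) (nat_lit 228) (nat_lit 27568346747) (nat_lit 27) (nat_lit 5) (nat_lit 29) (nat_lit 5) (nat_lit 30) (nat_lit 5) (nat_lit 379) (nat_lit 285) (nat_lit 116)) (XT.nd (nat_lit 78) (nat_lit 0) (nat_lit 0) (XT.lf (nat_lit 0) (nat_lit 20710685501) (nat_lit 152) (nat_lit 12813629914) (nat_lit 228) (nat_lit 20584350826) (nat_lit 27) (nat_lit 5) (nat_lit 29) (nat_lit 5) (nat_lit 30) (nat_lit 5) (nat_lit 380) (nat_lit 285) (nat_lit 115)) (XT.lf (nat_lit 0) (nat_lit 39539227957) (nat_lit 152) (nat_lit 2478938377) (nat_lit 228) (nat_lit 13394989715) (nat_lit 27) (nat_lit 5) (nat_lit 29) (nat_lit 5) (nat_lit 30) (nat_lit 5) (nat_lit 381) (nat_lit 285) (nat_lit 114))))) (XT.nd (nat_lit 234) (nat_lit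 152) (nat_lit 0) (XT.nd (nat_lit 78) (nat_lit 76) (nat_lit 0) (XT.lf (nat_lit 0) (nat_lit 2132106571) (nat_lit 76) (nat_lit 48729774288) (nat_lit 152) (nat_lit 5892050193) (nat_lit 26) (nat_lit 5) (nat_lit 27) (nat_lit 5) (nat_lit 28) (nat_lit 4) (nat_lit 382) (nat_lit 285) (nat_lit 113)) (XT.nd (nat_lit 78) (nat_lit 0) (nat_lit 0) (XT.lf (nat_lit 0) (nat_lit 1982645136) (nat_lit 152) (nat_lit 37177040743) (nat_lit 76) (nat_lit 18969240978) (nat_lit 25) (nat_lit 5) (nat_lit 27) (nat_lit 5) (nat_lit 26) (nat_lit 5) (nat_lit 383) (nat_lit 285) (nat_lit 112)) (XT.lf (nat_lit 0) (nat_lit 9971339065) (nat_lit 152) (nat_lit 19273913705) (nat_lit 76) (nat_lit 30298285967) (nat_lit 25) (nat_lit 5) (nat_lit 27) (nat_lit 5) (nat_lit 26) (nat_lit 5) (nat_lit 384) (nat_lit 285) (nat_lit 111)))) (XT.nd (nat_lit 156) (nat_lit 0) (nat_lit 0) (XT.nd (nat_lit 78) (nat_lit 152) (nat_lit 0) (XT.lf (nat_lit 0) (nat_lit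 18195987128) (nat_lit 152) (nat_lit 840161868) (nat_lit 76) (nat_lit 41964552906) (nat_lit 25) (nat_lit 5) (nat_lit 27) (nat_lit 5) (nat_lit 26) (nat_lit 5) (nat_lit 385) (nat_lit 285) (nat_lit 110)) (XT.lf (nat_lit 0) (nat_lit 18501349905) (nat_lit 152) (nat_lit 8340272298) (nat_lit 228) (nat_lit 35654732009) (nat_lit 23) (nat_lit 5) (nat_lit 25) (nat_lit 5) (nat_lit 26) (nat_lit 5) (nat_lit 386) (nat_lit 285) (nat_lit 109))) (XT.nd (nat_lit 78) (nat_lit 0) (nat_lit 0) (XT.lf (nat_lit 0) (nat_lit 35777342982) (nat_lit 228) (nat_lit 25628405653) (nat_lit 76) (nat_lit 2630207585) (nat_lit 23) (nat_lit 5) (nat_lit 26) (nat_lit 5) (nat_lit 24) (nat_lit 4) (nat_lit 387) (nat_lit 285) (nat_lit 108)) (XT.lf (nat_lit 0) (nat_lit 45060237281) (nat_lit 228) (nat_lit 6799504087) (nat_lit 76) (nat_lit 13759633445) (nat_lit 23) (nat_lit 5) (nat_lit 26) (nat_lit 5) (nat_lit 24) (nat_lit 4) (nat_lit 388) (nat_lit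 285) (nat_lit 107)))))) (XT.nd (nat_lit 468) (nat_lit 304) (nat_lit 0) (XT.nd (nat_lit 234) (nat_lit 152) (nat_lit 0) (XT.nd (nat_lit 78) (nat_lit 76) (nat_lit 0) (XT.lf (nat_lit 0) (nat_lit 12838856970) (nat_lit 76) (nat_lit 41902802545) (nat_lit 152) (nat_lit 12505036749) (nat_lit 22) (nat_lit 5) (nat_lit 23) (nat_lit 5) (nat_lit 24) (nat_lit 4) (nat_lit 389) (nat_lit 285) (nat_lit 106)) (XT.nd (nat_lit 78) (nat_lit 76) (nat_lit 0) (XT.lf (nat_lit 0) (nat_lit 33199870365) (nat_lit 76) (nat_lit 31578983601) (nat_lit 152) (nat_lit 4142024998) (nat_lit 22) (nat_lit 5) (nat_lit 23) (nat_lit 5) (nat_lit 24) (nat_lit 4) (nat_lit 390) (nat_lit 285) (nat_lit 105)) (XT.lf (nat_lit 0) (nat_lit 4381346166) (nat_lit 152) (nat_lit 16522336209) (nat_lit 76) (nat_lit 49740414635) (nat_lit 21) (nat_lit 5) (nat_lit 23) (nat_lit 5) (nat_lit 22) (nat_lit 5) (nat_lit 391) (nat_lit 285) (nat_lit 104)))) (XT.nd (nat_lit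 78) (nat_lit 0) (nat_lit 0) (XT.lf (nat_lit 0) (nat_lit 3269476924) (nat_lit 152) (nat_lit 9835945844) (nat_lit 228) (nat_lit 59311512243) (nat_lit 19) (nat_lit 5) (nat_lit 21) (nat_lit 5) (nat_lit 22) (nat_lit 5) (nat_lit 392) (nat_lit 285) (nat_lit 103)) (XT.nd (nat_lit 78) (nat_lit 0) (nat_lit 0) (XT.lf (nat_lit 0) (nat_lit 22271591679) (nat_lit 228) (nat_lit 50266526706) (nat_lit 76) (nat_lit 1699429990) (nat_lit 19) (nat_lit 5) (nat_lit 22) (nat_lit 5) (nat_lit 20) (nat_lit 4) (nat_lit 393) (nat_lit 285) (nat_lit 102)) (XT.lf (nat_lit 0) (nat_lit 31807065704) (nat_lit 228) (nat_lit 30922014792) (nat_lit 76) (nat_lit 13380871329) (nat_lit 19) (nat_lit 5) (nat_lit 22) (nat_lit 5) (nat_lit 20) (nat_lit 4) (nat_lit 394) (nat_lit 285) (nat_lit 101))))) (XT.nd (nat_lit 234) (nat_lit 228) (nat_lit 0) (XT.nd (nat_lit 78) (nat_lit 76) (nat_lit 0) (XT.lf (nat_lit 0) (nat_lit 41625627681) (nat_lit 228)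 (nat_lit 11002470246) (nat_lit 76) (nat_lit 25410519987) (nat_lit 19) (nat_lit 5) (nat_lit 22) (nat_lit 5) (nat_lit 20) (nat_lit 4) (nat_lit 395) (nat_lit 285) (nat_lit 100)) (XT.nd (nat_lit 78) (nat_lit 0) (nat_lit 0) (XT.lf (nat_lit 0) (nat_lit 9698770301) (nat_lit 76) (nat_lit 42130317150) (nat_lit 152) (nat_lit 28193347519) (nat_lit 18) (nat_lit 5) (nat_lit 19) (nat_lit 5) (nat_lit 20) (nat_lit 4) (nat_lit 396) (nat_lit 285) (nat_lit 99)) (XT.lf (nat_lit 0) (nat_lit 31241490115) (nat_lit 76) (nat_lit 31205409853) (nat_lit 152) (nat_lit 19615620276) (nat_lit 18) (nat_lit 5) (nat_lit 19) (nat_lit 5) (nat_lit 20) (nat_lit 4) (nat_lit 397) (nat_lit 285) (nat_lit 98)))) (XT.nd (nat_lit 156) (nat_lit 228) (nat_lit 0) (XT.nd (nat_lit 78) (nat_lit 0) (nat_lit 0) (XT.lf (nat_lit 0) (nat_lit 53425542199) (nat_lit 76) (nat_lit 19954933379) (nat_lit 152) (nat_lit 10783416779) (nat_lit 18) (nat_lit 5)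 (nat_lit 19) (nat_lit 5) (nat_lit 20) (nat_lit 4) (nat_lit 398) (nat_lit 285) (nat_lit 97)) (XT.lf (nat_lit 0) (nat_lit 76270310678) (nat_lit 76) (nat_lit 8369057213) (nat_lit 152) (nat_lit 1689019568) (nat_lit 18) (nat_lit 5) (nat_lit 19) (nat_lit 5) (nat_lit 20) (nat_lit 4) (nat_lit 399) (nat_lit 285) (nat_lit 96))) (XT.nd (nat_lit 31746) (nat_lit 0) (nat_lit 15352) (XT.lf (nat_lit 0) (nat_lit 7671250270) (nat_lit 228) (nat_lit 77202192043) (nat_lit 76) (nat_lit 3677875811) (nat_lit 15) (nat_lit 5) (nat_lit 18) (nat_lit 5) (nat_lit 16) (nat_lit 4) (nat_lit 400) (nat_lit 285) (nat_lit 95)) (XT.lf (nat_lit 0) (nat_lit 1064555184) (nat_lit 0) (nat_lit 1064555184) (nat_lit 988) (nat_lit 2562432509) (nat_lit 217) (nat_lit 5) (nat_lit 217) (nat_lit 3) (nat_lit 230) (nat_lit 3) (nat_lit 286) (nat_lit 286) (nat_lit 208))))))) (XT.nd (nat_lit 1014) (nat_lit 4332) (nat_lit 0) (XT.nd (nat_lit 468) (nat_lit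 912) (nat_lit 0) (XT.nd (nat_lit 234) (nat_lit 0) (nat_lit 76) (XT.nd (nat_lit 78) (nat_lit 0) (nat_lit 0) (XT.lf (nat_lit 0) (nat_lit 5106798816) (nat_lit 988) (nat_lit 3035959971) (nat_lit 1064) (nat_lit 1356388880) (nat_lit 217) (nat_lit 5) (nat_lit 230) (nat_lit 3) (nat_lit 231) (nat_lit 5) (nat_lit 287) (nat_lit 286) (nat_lit 207)) (XT.nd (nat_lit 78) (nat_lit 0) (nat_lit 0) (XT.lf (nat_lit 76) (nat_lit 1296672949) (nat_lit 0) (nat_lit 4687744848) (nat_lit 1064) (nat_lit 3634210749) (nat_lit 218) (nat_lit 5) (nat_lit 217) (nat_lit 5) (nat_lit 231) (nat_lit 5) (nat_lit 288) (nat_lit 286) (nat_lit 206)) (XT.lf (nat_lit 76) (nat_lit 5805531933) (nat_lit 0) (nat_lit 1084248482) (nat_lit 1064) (nat_lit 2851914303) (nat_lit 218) (nat_lit 5) (nat_lit 217) (nat_lit 5) (nat_lit 231) (nat_lit 5) (nat_lit 289) (nat_lit 286) (nat_lit 205)))) (XT.nd (nat_lit 78) (nat_lit 0) (nat_lit 0) (XT.lf (nat_lit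 76) (nat_lit 550144430) (nat_lit 0) (nat_lit 7274436770) (nat_lit 1064) (nat_lit 2043845412) (nat_lit 219) (nat_lit 5) (nat_lit 218) (nat_lit 5) (nat_lit 232) (nat_lit 5) (nat_lit 290) (nat_lit 286) (nat_lit 204)) (XT.nd (nat_lit 78) (nat_lit 0) (nat_lit 76) (XT.lf (nat_lit 76) (nat_lit 5224402746) (nat_lit 0) (nat_lit 3585799797) (nat_lit 1064) (nat_lit 1188115455) (nat_lit 219) (nat_lit 5) (nat_lit 218) (nat_lit 5) (nat_lit 232) (nat_lit 5) (nat_lit 291) (nat_lit 286) (nat_lit 203)) (XT.lf (nat_lit 0) (nat_lit 9800752563) (nat_lit 988) (nat_lit 112117689) (nat_lit 1064) (nat_lit 220014713) (nat_lit 219) (nat_lit 5) (nat_lit 232) (nat_lit 5) (nat_lit 233) (nat_lit 5) (nat_lit 292) (nat_lit 286) (nat_lit 202))))) (XT.nd (nat_lit 234) (nat_lit 0) (nat_lit 76) (XT.nd (nat_lit 78) (nat_lit 0) (nat_lit 0) (XT.lf (nat_lit 0) (nat_lit 594369775) (nat_lit 1064) (nat_lit 5545730687) (nat_lit 1140) (nat_lit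 4129600486) (nat_lit 205) (nat_lit 5) (nat_lit 219) (nat_lit 5) (nat_lit 220) (nat_lit 5) (nat_lit 293) (nat_lit 286) (nat_lit 201)) (XT.nd (nat_lit 78) (nat_lit 0) (nat_lit 76) (XT.lf (nat_lit 0) (nat_lit 1517531904) (nat_lit 1064) (nat_lit 723190796) (nat_lit 1140) (nat_lit 8170570121) (nat_lit 205) (nat_lit 5) (nat_lit 219) (nat_lit 5) (nat_lit 220) (nat_lit 5) (nat_lit 294) (nat_lit 286) (nat_lit 200)) (XT.lf (nat_lit 0) (nat_lit 2502541957) (nat_lit 1064) (nat_lit 6262320499) (nat_lit 1140) (nat_lit 1791280626) (nat_lit 206) (nat_lit 5) (nat_lit 220) (nat_lit 5) (nat_lit 221) (nat_lit 5) (nat_lit 295) (nat_lit 286) (nat_lit 199)))) (XT.nd (nat_lit 156) (nat_lit 0) (nat_lit 76) (XT.nd (nat_lit 78) (nat_lit 0) (nat_lit 0) (XT.lf (nat_lit 0) (nat_lit 3522453577) (nat_lit 1064) (nat_lit 1268143793) (nat_lit 1140) (nat_lit 5914615135) (nat_lit 206) (nat_lit 5) (nat_lit 220) (nat_lit 5) (nat_lit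 221) (nat_lit 5) (nat_lit 296) (nat_lit 286) (nat_lit 198)) (XT.lf (nat_lit 76) (nat_lit 3936224025) (nat_lit 0) (nat_lit 651071816) (nat_lit 1140) (nat_lit 6271061372) (nat_lit 207) (nat_lit 5) (nat_lit 206) (nat_lit 5) (nat_lit 221) (nat_lit 5) (nat_lit 297) (nat_lit 286) (nat_lit 197))) (XT.nd (nat_lit 78) (nat_lit 0) (nat_lit 0) (XT.lf (nat_lit 0) (nat_lit 5708831136) (nat_lit 1064) (nat_lit 1744915925) (nat_lit 1140) (nat_lit 3561638999) (nat_lit 207) (nat_lit 5) (nat_lit 221) (nat_lit 5) (nat_lit 222) (nat_lit 5) (nat_lit 298) (nat_lit 286) (nat_lit 196)) (XT.lf (nat_lit 76) (nat_lit 3635542545) (nat_lit 0) (nat_lit 3247618895) (nat_lit 1140) (nat_lit 4293421160) (nat_lit 208) (nat_lit 5) (nat_lit 207) (nat_lit 5) (nat_lit 222) (nat_lit 5) (nat_lit 299) (nat_lit 286) (nat_lit 195)))))) (XT.nd (nat_lit 546) (nat_lit 2356) (nat_lit 0) (XT.nd (nat_lit 234) (nat_lit 2204) (nat_lit 0) (XT.nd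 (nat_lit 78) (nat_lit 0) (nat_lit 0) (XT.lf (nat_lit 0) (nat_lit 8099240251) (nat_lit 1064) (nat_lit 2156647288) (nat_lit 1140) (nat_lit 1086562320) (nat_lit 208) (nat_lit 5) (nat_lit 222) (nat_lit 5) (nat_lit 223) (nat_lit 5) (nat_lit 300) (nat_lit 286) (nat_lit 194)) (XT.nd (nat_lit 78) (nat_lit 0) (nat_lit 0) (XT.lf (nat_lit 76) (nat_lit 3406960511) (nat_lit 0) (nat_lit 5988674643) (nat_lit 1140) (nat_lit 2116372467) (nat_lit 209) (nat_lit 5) (nat_lit 208) (nat_lit 5) (nat_lit 223) (nat_lit 5) (nat_lit 301) (nat_lit 286) (nat_lit 193)) (XT.lf (nat_lit 76) (nat_lit 9165204698) (nat_lit 0) (nat_lit 1566879697) (nat_lit 1140) (nat_lit 954561485) (nat_lit 209) (nat_lit 5) (nat_lit 208) (nat_lit 5) (nat_lit 223) (nat_lit 5) (nat_lit 302) (nat_lit 286) (nat_lit 192)))) (XT.nd (nat_lit 156) (nat_lit 1140) (nat_lit 0) (XT.nd (nat_lit 78) (nat_lit 0) (nat_lit 0) (XT.lf (nat_lit 0) (nat_lit 277708351)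 (nat_lit 1140) (nat_lit 8620414584) (nat_lit 76) (nat_lit 2967147662) (nat_lit 194) (nat_lit 5) (nat_lit 209) (nat_lit 5) (nat_lit 195) (nat_lit 5) (nat_lit 303) (nat_lit 286) (nat_lit 191)) (XT.lf (nat_lit 0) (nat_lit 1549214647) (nat_lit 1140) (nat_lit 2854802005) (nat_lit 76) (nat_lit 7644336456) (nat_lit 194) (nat_lit 5) (nat_lit 209) (nat_lit 5) (nat_lit 195) (nat_lit 5) (nat_lit 304) (nat_lit 286) (nat_lit 190))) (XT.nd (nat_lit 78) (nat_lit 0) (nat_lit 0) (XT.lf (nat_lit 0) (nat_lit 2872227160) (nat_lit 1216) (nat_lit 9110719643) (nat_lit 76) (nat_lit 253605904) (nat_lit 179) (nat_lit 5) (nat_lit 195) (nat_lit 5) (nat_lit 180) (nat_lit 5) (nat_lit 305) (nat_lit 286) (nat_lit 189)) (XT.lf (nat_lit 0) (nat_lit 4288877175) (nat_lit 1216) (nat_lit 3145898095) (nat_lit 76) (nat_lit 4994029315) (nat_lit 179) (nat_lit 5) (nat_lit 195) (nat_lit 5) (nat_lit 180) (nat_lit 5) (nat_lit 306) (nat_lit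 286) (nat_lit 188))))) (XT.nd (nat_lit 234) (nat_lit 1140) (nat_lit 0) (XT.nd (nat_lit 78) (nat_lit 608) (nat_lit 0) (XT.lf (nat_lit 0) (nat_lit 3040814154) (nat_lit 608) (nat_lit 2718219082) (nat_lit 684) (nat_lit 6867484569) (nat_lit 171) (nat_lit 5) (nat_lit 179) (nat_lit 5) (nat_lit 180) (nat_lit 5) (nat_lit 307) (nat_lit 286) (nat_lit 187)) (XT.nd (nat_lit 78) (nat_lit 608) (nat_lit 0) (XT.lf (nat_lit 0) (nat_lit 7308112010) (nat_lit 684) (nat_lit 3389282514) (nat_lit 76) (nat_lit 2131746644) (nat_lit 171) (nat_lit 5) (nat_lit 180) (nat_lit 5) (nat_lit 172) (nat_lit 5) (nat_lit 308) (nat_lit 286) (nat_lit 186)) (XT.lf (nat_lit 0) (nat_lit 3008509727) (nat_lit 608) (nat_lit 5933672237) (nat_lit 684) (nat_lit 4094528309) (nat_lit 163) (nat_lit 5) (nat_lit 171) (nat_lit 5) (nat_lit 172) (nat_lit 5) (nat_lit 309) (nat_lit 286) (nat_lit 185)))) (XT.nd (nat_lit 156) (nat_lit 608) (nat_lit 0) (XT.nd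 (nat_lit 78) (nat_lit 532) (nat_lit 0) (XT.lf (nat_lit 0) (nat_lit 9651557328) (nat_lit 608) (nat_lit 990976912) (nat_lit 684) (nat_lit 2607476354) (nat_lit 163) (nat_lit 5) (nat_lit 171) (nat_lit 5) (nat_lit 172) (nat_lit 5) (nat_lit 310) (nat_lit 286) (nat_lit 184)) (XT.lf (nat_lit 0) (nat_lit 3027647214) (nat_lit 532) (nat_lit 9418301961) (nat_lit 608) (nat_lit 1022220496) (nat_lit 156) (nat_lit 5) (nat_lit 163) (nat_lit 5) (nat_lit 164) (nat_lit 5) (nat_lit 311) (nat_lit 286) (nat_lit 183))) (XT.nd (nat_lit 78) (nat_lit 532) (nat_lit 0) (XT.lf (nat_lit 0) (nat_lit 628868882) (nat_lit 608) (nat_lit 3797922515) (nat_lit 76) (nat_lit 9265020406) (nat_lit 155) (nat_lit 5) (nat_lit 163) (nat_lit 5) (nat_lit 156) (nat_lit 5) (nat_lit 312) (nat_lit 286) (nat_lit 182)) (XT.lf (nat_lit 0) (nat_lit 2329950317) (nat_lit 608) (nat_lit 10850746405) (nat_lit 76) (nat_lit 740552198) (nat_lit 148) (nat_lit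 5) (nat_lit 156) (nat_lit 5) (nat_lit 149) (nat_lit 5) (nat_lit 313) (nat_lit 286) (nat_lit 181))))))))
noncomputable def xc170 : XT := (XT.nd (nat_lit 2028) (nat_lit 2888) (nat_lit 0) (XT.nd (nat_lit 1014) (nat_lit 2508) (nat_lit 0) (XT.nd (nat_lit 468) (nat_lit 1292) (nat_lit 0) (XT.nd (nat_lit 234) (nat_lit 988) (nat_lit 0) (XT.nd (nat_lit 78) (nat_lit 456) (nat_lit 0) (XT.lf (nat_lit 0) (nat_lit 4149090107) (nat_lit 608) (nat_lit 3994036921) (nat_lit 76) (nat_lit 6012450279) (nat_lit 148) (nat_lit 5) (nat_lit 156) (nat_lit 5) (nat_lit 149) (nat_lit 5) (nat_lit 314) (nat_lit 286) (nat_lit 180)) (XT.nd (nat_lit 78) (nat_lit 0) (nat_lit 0) (XT.lf (nat_lit 0) (nat_lit 3113356780) (nat_lit 456) (nat_lit 2924292278) (nat_lit 532) (nat_lit 8358859521) (nat_lit 142) (nat_lit 5) (nat_lit 148) (nat_lit 5) (nat_lit 149) (nat_lit 5) (nat_lit 315) (nat_lit 286) (nat_lit 179)) (XT.lf (nat_lit 0) (nat_lit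 8032356362) (nat_lit 532) (nat_lit 4167641575) (nat_lit 76) (nat_lit 2443202949) (nat_lit 142) (nat_lit 5) (nat_lit 149) (nat_lit 5) (nat_lit 143) (nat_lit 5) (nat_lit 316) (nat_lit 286) (nat_lit 178)))) (XT.nd (nat_lit 78) (nat_lit 456) (nat_lit 0) (XT.lf (nat_lit 0) (nat_lit 3178809610) (nat_lit 532) (nat_lit 6953235201) (nat_lit 608) (nat_lit 4763912281) (nat_lit 135) (nat_lit 5) (nat_lit 142) (nat_lit 5) (nat_lit 143) (nat_lit 5) (nat_lit 317) (nat_lit 286) (nat_lit 177)) (XT.nd (nat_lit 78) (nat_lit 456) (nat_lit 0) (XT.lf (nat_lit 0) (nat_lit 10815638870) (nat_lit 532) (nat_lit 1507069979) (nat_lit 608) (nat_lit 2832764409) (nat_lit 135) (nat_lit 5) (nat_lit 142) (nat_lit 5) (nat_lit 143) (nat_lit 5) (nat_lit 318) (nat_lit 286) (nat_lit 176)) (XT.lf (nat_lit 0) (nat_lit 3267714915) (nat_lit 456) (nat_lit 11368522745) (nat_lit 532) (nat_lit 784839235) (nat_lit 129) (nat_lit 5) (nat_lit 135)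 (nat_lit 5) (nat_lit 136) (nat_lit 5) (nat_lit 319) (nat_lit 286) (nat_lit 175))))) (XT.nd (nat_lit 234) (nat_lit 760) (nat_lit 0) (XT.nd (nat_lit 78) (nat_lit 456) (nat_lit 0) (XT.lf (nat_lit 0) (nat_lit 1344258368) (nat_lit 532) (nat_lit 4544515839) (nat_lit 76) (nat_lit 9804140438) (nat_lit 128) (nat_lit 5) (nat_lit 135) (nat_lit 5) (nat_lit 129) (nat_lit 5) (nat_lit 320) (nat_lit 286) (nat_lit 174)) (XT.nd (nat_lit 78) (nat_lit 0) (nat_lit 0) (XT.lf (nat_lit 0) (nat_lit 3334804442) (nat_lit 456) (nat_lit 205503916) (nat_lit 532) (nat_lit 12431815376) (nat_lit 122) (nat_lit 5) (nat_lit 128) (nat_lit 5) (nat_lit 129) (nat_lit 5) (nat_lit 321) (nat_lit 286) (nat_lit 173)) (XT.lf (nat_lit 0) (nat_lit 5889899025) (nat_lit 532) (nat_lit 4784749749) (nat_lit 76) (nat_lit 5582445057) (nat_lit 122) (nat_lit 5) (nat_lit 129) (nat_lit 5) (nat_lit 123) (nat_lit 5) (nat_lit 322) (nat_lit 286) (nat_lit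 172)))) (XT.nd (nat_lit 156) (nat_lit 380) (nat_lit 0) (XT.nd (nat_lit 78) (nat_lit 0) (nat_lit 0) (XT.lf (nat_lit 0) (nat_lit 3351885183) (nat_lit 380) (nat_lit 4979744903) (nat_lit 456) (nat_lit 8218347453) (nat_lit 117) (nat_lit 5) (nat_lit 122) (nat_lit 5) (nat_lit 123) (nat_lit 5) (nat_lit 323) (nat_lit 286) (nat_lit 171)) (XT.lf (nat_lit 0) (nat_lit 10891525181) (nat_lit 456) (nat_lit 5043592353) (nat_lit 76) (nat_lit 915196538) (nat_lit 117) (nat_lit 5) (nat_lit 123) (nat_lit 5) (nat_lit 118) (nat_lit 5) (nat_lit 324) (nat_lit 286) (nat_lit 170))) (XT.nd (nat_lit 78) (nat_lit 0) (nat_lit 0) (XT.lf (nat_lit 0) (nat_lit 3357086194) (nat_lit 380) (nat_lit 10240667160) (nat_lit 456) (nat_lit 3559834540) (nat_lit 112) (nat_lit 5) (nat_lit 117) (nat_lit 5) (nat_lit 118) (nat_lit 5) (nat_lit 325) (nat_lit 286) (nat_lit 169)) (XT.lf (nat_lit 0) (nat_lit 12098656637) (nat_lit 380) (nat_lit 4325614672)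 (nat_lit 456) (nat_lit 1048648426) (nat_lit 112) (nat_lit 5) (nat_lit 117) (nat_lit 5) (nat_lit 118) (nat_lit 5) (nat_lit 326) (nat_lit 286) (nat_lit 168)))))) (XT.nd (nat_lit 468) (nat_lit 1368) (nat_lit 0) (XT.nd (nat_lit 234) (nat_lit 304) (nat_lit 0) (XT.nd (nat_lit 78) (nat_lit 380) (nat_lit 0) (XT.lf (nat_lit 0) (nat_lit 1545791549) (nat_lit 456) (nat_lit 14473253699) (nat_lit 76) (nat_lit 1777097115) (nat_lit 106) (nat_lit 5) (nat_lit 112) (nat_lit 5) (nat_lit 107) (nat_lit 5) (nat_lit 327) (nat_lit 286) (nat_lit 167)) (XT.nd (nat_lit 78) (nat_lit 380) (nat_lit 0) (XT.lf (nat_lit 0) (nat_lit 4283188545) (nat_lit 456) (nat_lit 5804583485) (nat_lit 76) (nat_lit 8038403940) (nat_lit 106) (nat_lit 5) (nat_lit 112) (nat_lit 5) (nat_lit 107) (nat_lit 5) (nat_lit 328) (nat_lit 286) (nat_lit 166)) (XT.lf (nat_lit 0) (nat_lit 3171941716) (nat_lit 380) (nat_lit 3950155315) (nat_lit 456) (nat_lit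 11343443321) (nat_lit 101) (nat_lit 5) (nat_lit 106) (nat_lit 5) (nat_lit 107) (nat_lit 5) (nat_lit 329) (nat_lit 286) (nat_lit 165)))) (XT.nd (nat_lit 78) (nat_lit 304) (nat_lit 0) (XT.lf (nat_lit 0) (nat_lit 10117223925) (nat_lit 456) (nat_lit 6314225824) (nat_lit 76) (nat_lit 2381515504) (nat_lit 101) (nat_lit 5) (nat_lit 107) (nat_lit 5) (nat_lit 102) (nat_lit 5) (nat_lit 330) (nat_lit 286) (nat_lit 164)) (XT.nd (nat_lit 78) (nat_lit 0) (nat_lit 0) (XT.lf (nat_lit 0) (nat_lit 2938910103) (nat_lit 304) (nat_lit 10320032972) (nat_lit 380) (nat_lit 5910178470) (nat_lit 97) (nat_lit 5) (nat_lit 101) (nat_lit 5) (nat_lit 102) (nat_lit 5) (nat_lit 331) (nat_lit 286) (nat_lit 163)) (XT.lf (nat_lit 0) (nat_lit 12585355053) (nat_lit 304) (nat_lit 3962874953) (nat_lit 380) (nat_lit 2986143516) (nat_lit 97) (nat_lit 5) (nat_lit 101) (nat_lit 5) (nat_lit 102) (nat_lit 5) (nat_lit 332) (nat_lit 286) (nat_lit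 162))))) (XT.nd (nat_lit 234) (nat_lit 608) (nat_lit 0) (XT.nd (nat_lit 78) (nat_lit 304) (nat_lit 0) (XT.lf (nat_lit 0) (nat_lit 65392078) (nat_lit 456) (nat_lit 17286689528) (nat_lit 76) (nat_lit 2557295565) (nat_lit 91) (nat_lit 5) (nat_lit 97) (nat_lit 5) (nat_lit 92) (nat_lit 5) (nat_lit 333) (nat_lit 286) (nat_lit 161)) (XT.nd (nat_lit 78) (nat_lit 304) (nat_lit 0) (XT.lf (nat_lit 0) (nat_lit 3248444408) (nat_lit 456) (nat_lit 7752711905) (nat_lit 76) (nat_lit 9290597562) (nat_lit 91) (nat_lit 5) (nat_lit 97) (nat_lit 5) (nat_lit 92) (nat_lit 5) (nat_lit 334) (nat_lit 286) (nat_lit 160)) (XT.lf (nat_lit 0) (nat_lit 2094880016) (nat_lit 304) (nat_lit 4442426704) (nat_lit 380) (nat_lit 14147994919) (nat_lit 87) (nat_lit 5) (nat_lit 91) (nat_lit 5) (nat_lit 92) (nat_lit 5) (nat_lit 335) (nat_lit 286) (nat_lit 159)))) (XT.nd (nat_lit 156) (nat_lit 304) (nat_lit 0) (XT.nd (nat_lit 78) (nat_lit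 304) (nat_lit 0) (XT.lf (nat_lit 0) (nat_lit 10016438912) (nat_lit 380) (nat_lit 8727912935) (nat_lit 76) (nat_lit 2343564914) (nat_lit 87) (nat_lit 5) (nat_lit 92) (nat_lit 5) (nat_lit 88) (nat_lit 5) (nat_lit 336) (nat_lit 286) (nat_lit 158)) (XT.lf (nat_lit 0) (nat_lit 1400793262) (nat_lit 304) (nat_lit 12247190933) (nat_lit 380) (nat_lit 7853193745) (nat_lit 83) (nat_lit 5) (nat_lit 87) (nat_lit 5) (nat_lit 88) (nat_lit 5) (nat_lit 337) (nat_lit 286) (nat_lit 157))) (XT.nd (nat_lit 78) (nat_lit 304) (nat_lit 0) (XT.lf (nat_lit 0) (nat_lit 11999374179) (nat_lit 304) (nat_lit 5467975979) (nat_lit 380) (nat_lit 4457129092) (nat_lit 83) (nat_lit 5) (nat_lit 87) (nat_lit 5) (nat_lit 88) (nat_lit 5) (nat_lit 338) (nat_lit 286) (nat_lit 156)) (XT.lf (nat_lit 0) (nat_lit 538615414) (nat_lit 304) (nat_lit 20873393865) (nat_lit 380) (nat_lit 948157229) (nat_lit 79) (nat_lit 5) (nat_lit 83) (nat_lit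 5) (nat_lit 84) (nat_lit 5) (nat_lit 339) (nat_lit 286) (nat_lit 155))))))) (XT.nd (nat_lit 1014) (nat_lit 1140) (nat_lit 0) (XT.nd (nat_lit 468) (nat_lit 1140) (nat_lit 0) (XT.nd (nat_lit 234) (nat_lit 228) (nat_lit 0) (XT.nd (nat_lit 78) (nat_lit 304) (nat_lit 0) (XT.lf (nat_lit 0) (nat_lit 2760434443) (nat_lit 380) (nat_lit 11379803695) (nat_lit 76) (nat_lit 8663533939) (nat_lit 78) (nat_lit 5) (nat_lit 83) (nat_lit 5) (nat_lit 79) (nat_lit 5) (nat_lit 340) (nat_lit 286) (nat_lit 154)) (XT.nd (nat_lit 78) (nat_lit 304) (nat_lit 0) (XT.lf (nat_lit 0) (nat_lit 6552509134) (nat_lit 380) (nat_lit 646647636) (nat_lit 76) (nat_lit 16061516516) (nat_lit 78) (nat_lit 5) (nat_lit 83) (nat_lit 5) (nat_lit 79) (nat_lit 5) (nat_lit 341) (nat_lit 286) (nat_lit 153)) (XT.lf (nat_lit 0) (nat_lit 10552303011) (nat_lit 380) (nat_lit 13125661410) (nat_lit 76) (nat_lit 50505755) (nat_lit 74) (nat_lit 5) (nat_lit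 79) (nat_lit 5) (nat_lit 75) (nat_lit 5) (nat_lit 342) (nat_lit 286) (nat_lit 152)))) (XT.nd (nat_lit 78) (nat_lit 228) (nat_lit 0) (XT.lf (nat_lit 0) (nat_lit 14741596611) (nat_lit 380) (nat_lit 2090640811) (nat_lit 76) (nat_lit 7375985512) (nat_lit 74) (nat_lit 5) (nat_lit 79) (nat_lit 5) (nat_lit 75) (nat_lit 5) (nat_lit 343) (nat_lit 286) (nat_lit 151)) (XT.nd (nat_lit 78) (nat_lit 0) (nat_lit 0) (XT.lf (nat_lit 0) (nat_lit 9447952429) (nat_lit 228) (nat_lit 9691312399) (nat_lit 304) (nat_lit 5560629502) (nat_lit 71) (nat_lit 5) (nat_lit 74) (nat_lit 5) (nat_lit 75) (nat_lit 5) (nat_lit 344) (nat_lit 286) (nat_lit 150)) (XT.lf (nat_lit 0) (nat_lit 21363834089) (nat_lit 228) (nat_lit 2318140589) (nat_lit 304) (nat_lit 1523954571) (nat_lit 71) (nat_lit 5) (nat_lit 74) (nat_lit 5) (nat_lit 75) (nat_lit 5) (nat_lit 345) (nat_lit 286) (nat_lit 149))))) (XT.nd (nat_lit 234) (nat_lit 532) (nat_lit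 0) (XT.nd (nat_lit 78) (nat_lit 228) (nat_lit 0) (XT.lf (nat_lit 0) (nat_lit 2703460949) (nat_lit 380) (nat_lit 17746135240) (nat_lit 76) (nat_lit 5273164762) (nat_lit 66) (nat_lit 5) (nat_lit 71) (nat_lit 5) (nat_lit 67) (nat_lit 5) (nat_lit 346) (nat_lit 286) (nat_lit 148)) (XT.nd (nat_lit 78) (nat_lit 228) (nat_lit 0) (XT.lf (nat_lit 0) (nat_lit 7081435672) (nat_lit 380) (nat_lit 6075326795) (nat_lit 76) (nat_lit 13096257633) (nat_lit 66) (nat_lit 5) (nat_lit 71) (nat_lit 5) (nat_lit 67) (nat_lit 5) (nat_lit 347) (nat_lit 286) (nat_lit 147)) (XT.lf (nat_lit 0) (nat_lit 6052413363) (nat_lit 228) (nat_lit 5588975061) (nat_lit 304) (nat_lit 15156285415) (nat_lit 63) (nat_lit 5) (nat_lit 66) (nat_lit 5) (nat_lit 67) (nat_lit 5) (nat_lit 348) (nat_lit 286) (nat_lit 146)))) (XT.nd (nat_lit 156) (nat_lit 304) (nat_lit 0) (XT.nd (nat_lit 78) (nat_lit 228) (nat_lit 0) (XT.lf (nat_lit 0) (nat_lit 16413835273)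 (nat_lit 304) (nat_lit 8721492822) (nat_lit 76) (nat_lit 2221074033) (nat_lit 63) (nat_lit 5) (nat_lit 67) (nat_lit 5) (nat_lit 64) (nat_lit 5) (nat_lit 349) (nat_lit 286) (nat_lit 145)) (XT.lf (nat_lit 0) (nat_lit 3668183655) (nat_lit 228) (nat_lit 17744621774) (nat_lit 304) (nat_lit 6516591975) (nat_lit 60) (nat_lit 5) (nat_lit 63) (nat_lit 5) (nat_lit 64) (nat_lit 5) (nat_lit 350) (nat_lit 286) (nat_lit 144))) (XT.nd (nat_lit 78) (nat_lit 304) (nat_lit 0) (XT.lf (nat_lit 0) (nat_lit 16597393493) (nat_lit 228) (nat_lit 10045279798) (nat_lit 304) (nat_lit 1874486861) (nat_lit 60) (nat_lit 5) (nat_lit 63) (nat_lit 5) (nat_lit 64) (nat_lit 5) (nat_lit 351) (nat_lit 286) (nat_lit 143)) (XT.lf (nat_lit 0) (nat_lit 768206608) (nat_lit 228) (nat_lit 2082328314) (nat_lit 304) (nat_lit 26271176416) (nat_lit 56) (nat_lit 5) (nat_lit 59) (nat_lit 5) (nat_lit 60) (nat_lit 5) (nat_lit 352) (nat_lit 286)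 (nat_lit 142)))))) (XT.nd (nat_lit 546) (nat_lit 456) (nat_lit 0) (XT.nd (nat_lit 234) (nat_lit 456) (nat_lit 0) (XT.nd (nat_lit 78) (nat_lit 228) (nat_lit 0) (XT.lf (nat_lit 0) (nat_lit 7853072853) (nat_lit 304) (nat_lit 15749036521) (nat_lit 76) (nat_lit 6136534691) (nat_lit 56) (nat_lit 5) (nat_lit 60) (nat_lit 5) (nat_lit 57) (nat_lit 5) (nat_lit 353) (nat_lit 286) (nat_lit 141)) (XT.nd (nat_lit 78) (nat_lit 228) (nat_lit 0) (XT.lf (nat_lit 0) (nat_lit 13019564532) (nat_lit 304) (nat_lit 2797571321) (nat_lit 76) (nat_lit 14556537452) (nat_lit 56) (nat_lit 5) (nat_lit 60) (nat_lit 5) (nat_lit 57) (nat_lit 5) (nat_lit 354) (nat_lit 286) (nat_lit 140)) (XT.lf (nat_lit 0) (nat_lit 10741836211) (nat_lit 228) (nat_lit 7695928648) (nat_lit 304) (nat_lit 12587091868) (nat_lit 53) (nat_lit 5) (nat_lit 56) (nat_lit 5) (nat_lit 57) (nat_lit 5) (nat_lit 355) (nat_lit 286) (nat_lit 139)))) (XT.nd (nat_lit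 156) (nat_lit 304) (nat_lit 0) (XT.nd (nat_lit 78) (nat_lit 152) (nat_lit 0) (XT.lf (nat_lit 0) (nat_lit 24046985845) (nat_lit 304) (nat_lit 6966940697) (nat_lit 76) (nat_lit 680799451) (nat_lit 53) (nat_lit 5) (nat_lit 57) (nat_lit 5) (nat_lit 54) (nat_lit 5) (nat_lit 356) (nat_lit 286) (nat_lit 138)) (XT.lf (nat_lit 0) (nat_lit 6795043010) (nat_lit 152) (nat_lit 23164659700) (nat_lit 228) (nat_lit 2420936496) (nat_lit 51) (nat_lit 5) (nat_lit 53) (nat_lit 5) (nat_lit 54) (nat_lit 5) (nat_lit 357) (nat_lit 286) (nat_lit 137))) (XT.nd (nat_lit 78) (nat_lit 228) (nat_lit 0) (XT.lf (nat_lit 0) (nat_lit 2969634425) (nat_lit 228) (nat_lit 12011501318) (nat_lit 76) (nat_lit 18103200630) (nat_lit 50) (nat_lit 5) (nat_lit 53) (nat_lit 5) (nat_lit 51) (nat_lit 5) (nat_lit 358) (nat_lit 286) (nat_lit 136)) (XT.lf (nat_lit 0) (nat_lit 1974662832) (nat_lit 228) (nat_lit 6511492155) (nat_lit 304) (nat_lit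 25321887722) (nat_lit 47) (nat_lit 5) (nat_lit 50) (nat_lit 5) (nat_lit 51) (nat_lit 5) (nat_lit 359) (nat_lit 286) (nat_lit 135))))) (XT.nd (nat_lit 234) (nat_lit 304) (nat_lit 0) (XT.nd (nat_lit 78) (nat_lit 152) (nat_lit 0) (XT.lf (nat_lit 0) (nat_lit 14305889534) (nat_lit 304) (nat_lit 17955422674) (nat_lit 76) (nat_lit 2288020426) (nat_lit 47) (nat_lit 5) (nat_lit 51) (nat_lit 5) (nat_lit 48) (nat_lit 5) (nat_lit 360) (nat_lit 286) (nat_lit 134)) (XT.nd (nat_lit 78) (nat_lit 152) (nat_lit 0) (XT.lf (nat_lit 0) (nat_lit 20358821704) (nat_lit 304) (nat_lit 3735083187) (nat_lit 76) (nat_lit 11217202037) (nat_lit 47) (nat_lit 5) (nat_lit 51) (nat_lit 5) (nat_lit 48) (nat_lit 5) (nat_lit 361) (nat_lit 286) (nat_lit 133)) (XT.lf (nat_lit 0) (nat_lit 11119640812) (nat_lit 152) (nat_lit 15574895999) (nat_lit 228) (nat_lit 9398165515) (nat_lit 45) (nat_lit 5) (nat_lit 47) (nat_lit 5) (nat_lit 48)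 (nat_lit 5) (nat_lit 362) (nat_lit 286) (nat_lit 132)))) (XT.nd (nat_lit 156) (nat_lit 0) (nat_lit 0) (XT.nd (nat_lit 78) (nat_lit 304) (nat_lit 0) (XT.lf (nat_lit 0) (nat_lit 26487452454) (nat_lit 152) (nat_lit 6764972293) (nat_lit 228) (nat_lit 3644361415) (nat_lit 45) (nat_lit 5) (nat_lit 47) (nat_lit 5) (nat_lit 48) (nat_lit 5) (nat_lit 363) (nat_lit 286) (nat_lit 131)) (XT.lf (nat_lit 0) (nat_lit 2299550525) (nat_lit 304) (nat_lit 33094823070) (nat_lit 76) (nat_lit 2328103485) (nat_lit 41) (nat_lit 5) (nat_lit 45) (nat_lit 5) (nat_lit 42) (nat_lit 5) (nat_lit 364) (nat_lit 286) (nat_lit 130))) (XT.nd (nat_lit 78) (nat_lit 0) (nat_lit 0) (XT.lf (nat_lit 0) (nat_lit 8516198786) (nat_lit 304) (nat_lit 18353768630) (nat_lit 76) (nat_lit 11696862126) (nat_lit 41) (nat_lit 5) (nat_lit 45) (nat_lit 5) (nat_lit 42) (nat_lit 5) (nat_lit 365) (nat_lit 286) (nat_lit 129)) (XT.lf (nat_lit 0) (nat_lit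 14914038246) (nat_lit 304) (nat_lit 3179232438) (nat_lit 76) (nat_lit 21343404356) (nat_lit 41) (nat_lit 5) (nat_lit 45) (nat_lit 5) (nat_lit 42) (nat_lit 5) (nat_lit 366) (nat_lit 286) (nat_lit 128))))))))
noncomputable def xc171 : XT := (XT.nd (nat_lit 2106) (nat_lit 76) (nat_lit 0) (XT.nd (nat_lit 1014) (nat_lit 760) (nat_lit 0) (XT.nd (nat_lit 468) (nat_lit 380) (nat_lit 0) (XT.nd (nat_lit 234) (nat_lit 228) (nat_lit 0) (XT.nd (nat_lit 78) (nat_lit 152) (nat_lit 0) (XT.lf (nat_lit 0) (nat_lit 12689665898) (nat_lit 152) (nat_lit 8930974181) (nat_lit 228) (nat_lit 18708474127) (nat_lit 39) (nat_lit 5) (nat_lit 41) (nat_lit 5) (nat_lit 42) (nat_lit 5) (nat_lit 367) (nat_lit 286) (nat_lit 127)) (XT.nd (nat_lit 78) (nat_lit 152) (nat_lit 0) (XT.lf (nat_lit 0) (nat_lit 28560611284) (nat_lit 228) (nat_lit 12161280097) (nat_lit 76) (nat_lit 525473055) (nat_lit 39) (nat_lit 5) (nat_lit 42) (nat_lit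 5) (nat_lit 40) (nat_lit 5) (nat_lit 368) (nat_lit 286) (nat_lit 126)) (XT.lf (nat_lit 0) (nat_lit 3757850144) (nat_lit 152) (nat_lit 32070512365) (nat_lit 228) (nat_lit 6361215179) (nat_lit 37) (nat_lit 5) (nat_lit 39) (nat_lit 5) (nat_lit 40) (nat_lit 5) (nat_lit 369) (nat_lit 286) (nat_lit 125)))) (XT.nd (nat_lit 78) (nat_lit 152) (nat_lit 0) (XT.lf (nat_lit 0) (nat_lit 270150195) (nat_lit 228) (nat_lit 22763528484) (nat_lit 76) (nat_lit 20122764952) (nat_lit 36) (nat_lit 5) (nat_lit 39) (nat_lit 5) (nat_lit 37) (nat_lit 5) (nat_lit 370) (nat_lit 286) (nat_lit 124)) (XT.nd (nat_lit 78) (nat_lit 152) (nat_lit 0) (XT.lf (nat_lit 0) (nat_lit 6967793780) (nat_lit 228) (nat_lit 6696330655) (nat_lit 76) (nat_lit 30486448597) (nat_lit 36) (nat_lit 5) (nat_lit 39) (nat_lit 5) (nat_lit 37) (nat_lit 5) (nat_lit 371) (nat_lit 286) (nat_lit 123)) (XT.lf (nat_lit 0) (nat_lit 10040988993) (nat_lit 152) (nat_lit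 3917229241) (nat_lit 228) (nat_lit 31213555148) (nat_lit 34) (nat_lit 5) (nat_lit 36) (nat_lit 5) (nat_lit 37) (nat_lit 5) (nat_lit 372) (nat_lit 286) (nat_lit 122))))) (XT.nd (nat_lit 234) (nat_lit 228) (nat_lit 0) (XT.nd (nat_lit 78) (nat_lit 152) (nat_lit 0) (XT.lf (nat_lit 0) (nat_lit 21280856483) (nat_lit 228) (nat_lit 18871267036) (nat_lit 76) (nat_lit 6067813728) (nat_lit 34) (nat_lit 5) (nat_lit 37) (nat_lit 5) (nat_lit 35) (nat_lit 5) (nat_lit 373) (nat_lit 286) (nat_lit 121)) (XT.nd (nat_lit 78) (nat_lit 152) (nat_lit 0) (XT.lf (nat_lit 0) (nat_lit 28857456036) (nat_lit 228) (nat_lit 2170383288) (nat_lit 76) (nat_lit 16270680701) (nat_lit 34) (nat_lit 5) (nat_lit 37) (nat_lit 5) (nat_lit 35) (nat_lit 5) (nat_lit 374) (nat_lit 286) (nat_lit 120)) (XT.lf (nat_lit 0) (nat_lit 15323124001) (nat_lit 152) (nat_lit 21481153659) (nat_lit 228) (nat_lit 11600897297) (nat_lit 32) (nat_lit 5) (nat_lit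 34) (nat_lit 5) (nat_lit 35) (nat_lit 5) (nat_lit 375) (nat_lit 286) (nat_lit 119)))) (XT.nd (nat_lit 156) (nat_lit 0) (nat_lit 0) (XT.nd (nat_lit 78) (nat_lit 228) (nat_lit 0) (XT.lf (nat_lit 0) (nat_lit 33378587599) (nat_lit 152) (nat_lit 11628518555) (nat_lit 228) (nat_lit 4537397637) (nat_lit 32) (nat_lit 5) (nat_lit 34) (nat_lit 5) (nat_lit 35) (nat_lit 5) (nat_lit 376) (nat_lit 286) (nat_lit 118)) (XT.lf (nat_lit 0) (nat_lit 1248534331) (nat_lit 152) (nat_lit 1443813563) (nat_lit 228) (nat_lit 48024644125) (nat_lit 29) (nat_lit 5) (nat_lit 31) (nat_lit 5) (nat_lit 32) (nat_lit 5) (nat_lit 377) (nat_lit 286) (nat_lit 117))) (XT.nd (nat_lit 78) (nat_lit 0) (nat_lit 0) (XT.lf (nat_lit 0) (nat_lit 10295402489) (nat_lit 228) (nat_lit 32543695165) (nat_lit 76) (nat_lit 9076783205) (nat_lit 29) (nat_lit 5) (nat_lit 32) (nat_lit 5) (nat_lit 30) (nat_lit 5) (nat_lit 378) (nat_lit 286) (nat_lit 116))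 (XT.lf (nat_lit 0) (nat_lit 18136760139) (nat_lit 228) (nat_lit 15132514606) (nat_lit 76) (nat_lit 19881157340) (nat_lit 29) (nat_lit 5) (nat_lit 32) (nat_lit 5) (nat_lit 30) (nat_lit 5) (nat_lit 379) (nat_lit 286) (nat_lit 115)))))) (XT.nd (nat_lit 546) (nat_lit 456) (nat_lit 0) (XT.nd (nat_lit 234) (nat_lit 152) (nat_lit 0) (XT.nd (nat_lit 78) (nat_lit 0) (nat_lit 0) (XT.lf (nat_lit 0) (nat_lit 2849786050) (nat_lit 152) (nat_lit 23387001532) (nat_lit 228) (nat_lit 28184531395) (nat_lit 27) (nat_lit 5) (nat_lit 29) (nat_lit 5) (nat_lit 30) (nat_lit 5) (nat_lit 380) (nat_lit 286) (nat_lit 114)) (XT.nd (nat_lit 78) (nat_lit 0) (nat_lit 0) (XT.lf (nat_lit 0) (nat_lit 21674999443) (nat_lit 152) (nat_lit 13053710829) (nat_lit 228) (nat_lit 20997157317) (nat_lit 27) (nat_lit 5) (nat_lit 29) (nat_lit 5) (nat_lit 30) (nat_lit 5) (nat_lit 381) (nat_lit 286) (nat_lit 113)) (XT.lf (nat_lit 0) (nat_lit 41058408073)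 (nat_lit 152) (nat_lit 2413182273) (nat_lit 228) (nat_lit 13598078209) (nat_lit 27) (nat_lit 5) (nat_lit 29) (nat_lit 5) (nat_lit 30) (nat_lit 5) (nat_lit 382) (nat_lit 286) (nat_lit 112)))) (XT.nd (nat_lit 156) (nat_lit 0) (nat_lit 0) (XT.nd (nat_lit 78) (nat_lit 76) (nat_lit 0) (XT.lf (nat_lit 0) (nat_lit 2530299060) (nat_lit 76) (nat_lit 50049219956) (nat_lit 152) (nat_lit 5871183501) (nat_lit 26) (nat_lit 5) (nat_lit 27) (nat_lit 5) (nat_lit 28) (nat_lit 4) (nat_lit 383) (nat_lit 286) (nat_lit 111)) (XT.lf (nat_lit 0) (nat_lit 2230252412) (nat_lit 152) (nat_lit 37964025717) (nat_lit 76) (nat_lit 19672785020) (nat_lit 25) (nat_lit 5) (nat_lit 27) (nat_lit 5) (nat_lit 26) (nat_lit 5) (nat_lit 384) (nat_lit 286) (nat_lit 110))) (XT.nd (nat_lit 78) (nat_lit 0) (nat_lit 0) (XT.lf (nat_lit 0) (nat_lit 10453127705) (nat_lit 152) (nat_lit 19533367769) (nat_lit 76) (nat_lit 31337784850) (nat_lit 25)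 (nat_lit 5) (nat_lit 27) (nat_lit 5) (nat_lit 26) (nat_lit 5) (nat_lit 385) (nat_lit 286) (nat_lit 109)) (XT.lf (nat_lit 0) (nat_lit 18919195352) (nat_lit 152) (nat_lit 555887746) (nat_lit 76) (nat_lit 43350237361) (nat_lit 25) (nat_lit 5) (nat_lit 27) (nat_lit 5) (nat_lit 26) (nat_lit 5) (nat_lit 386) (nat_lit 286) (nat_lit 108))))) (XT.nd (nat_lit 234) (nat_lit 304) (nat_lit 0) (XT.nd (nat_lit 78) (nat_lit 0) (nat_lit 0) (XT.lf (nat_lit 0) (nat_lit 19362835272) (nat_lit 152) (nat_lit 8459145032) (nat_lit 228) (nat_lit 36543931017) (nat_lit 23) (nat_lit 5) (nat_lit 25) (nat_lit 5) (nat_lit 26) (nat_lit 5) (nat_lit 387) (nat_lit 286) (nat_lit 107)) (XT.nd (nat_lit 78) (nat_lit 0) (nat_lit 0) (XT.lf (nat_lit 0) (nat_lit 37021898136) (nat_lit 228) (nat_lit 26095786064) (nat_lit 76) (nat_lit 2834135763) (nat_lit 23) (nat_lit 5) (nat_lit 26) (nat_lit 5) (nat_lit 24) (nat_lit 4) (nat_lit 388) (nat_lit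 286) (nat_lit 106)) (XT.lf (nat_lit 0) (nat_lit 46578291841) (nat_lit 228) (nat_lit 6710798182) (nat_lit 76) (nat_lit 14293802982) (nat_lit 23) (nat_lit 5) (nat_lit 26) (nat_lit 5) (nat_lit 24) (nat_lit 4) (nat_lit 389) (nat_lit 286) (nat_lit 105)))) (XT.nd (nat_lit 156) (nat_lit 228) (nat_lit 0) (XT.nd (nat_lit 78) (nat_lit 0) (nat_lit 0) (XT.lf (nat_lit 0) (nat_lit 13513844187) (nat_lit 76) (nat_lit 43034256338) (nat_lit 152) (nat_lit 12710997464) (nat_lit 22) (nat_lit 5) (nat_lit 23) (nat_lit 5) (nat_lit 24) (nat_lit 4) (nat_lit 390) (nat_lit 286) (nat_lit 104)) (XT.lf (nat_lit 0) (nat_lit 34477246580) (nat_lit 76) (nat_lit 32404381960) (nat_lit 152) (nat_lit 4102023236) (nat_lit 22) (nat_lit 5) (nat_lit 23) (nat_lit 5) (nat_lit 24) (nat_lit 4) (nat_lit 391) (nat_lit 286) (nat_lit 103))) (XT.nd (nat_lit 78) (nat_lit 152) (nat_lit 0) (XT.lf (nat_lit 0) (nat_lit 4669152725) (nat_lit 152) (nat_lit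 16741642539) (nat_lit 76) (nat_lit 51347866477) (nat_lit 21) (nat_lit 5) (nat_lit 23) (nat_lit 5) (nat_lit 22) (nat_lit 5) (nat_lit 392) (nat_lit 286) (nat_lit 102)) (XT.lf (nat_lit 0) (nat_lit 3641215540) (nat_lit 152) (nat_lit 10011812263) (nat_lit 228) (nat_lit 60931716750) (nat_lit 19) (nat_lit 5) (nat_lit 21) (nat_lit 5) (nat_lit 22) (nat_lit 5) (nat_lit 393) (nat_lit 286) (nat_lit 101))))))) (XT.nd (nat_lit 32838) (nat_lit 0) (nat_lit 12236) (XT.nd (nat_lit 32292) (nat_lit 0) (nat_lit 14136) (XT.nd (nat_lit 234) (nat_lit 76) (nat_lit 0) (XT.nd (nat_lit 78) (nat_lit 0) (nat_lit 0) (XT.lf (nat_lit 0) (nat_lit 23090796022) (nat_lit 228) (nat_lit 51505389615) (nat_lit 76) (nat_lit 1863894154) (nat_lit 19) (nat_lit 5) (nat_lit 22) (nat_lit 5) (nat_lit 20) (nat_lit 4) (nat_lit 394) (nat_lit 286) (nat_lit 100)) (XT.nd (nat_lit 78) (nat_lit 0) (nat_lit 0) (XT.lf (nat_lit 0) (nat_lit 32907934561)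 (nat_lit 228) (nat_lit 31588381166) (nat_lit 76) (nat_lit 13892473453) (nat_lit 19) (nat_lit 5) (nat_lit 22) (nat_lit 5) (nat_lit 20) (nat_lit 4) (nat_lit 395) (nat_lit 286) (nat_lit 99)) (XT.lf (nat_lit 0) (nat_lit 43016781838) (nat_lit 228) (nat_lit 11078860791) (nat_lit 76) (nat_lit 26279802561) (nat_lit 19) (nat_lit 5) (nat_lit 22) (nat_lit 5) (nat_lit 20) (nat_lit 4) (nat_lit 396) (nat_lit 286) (nat_lit 98)))) (XT.nd (nat_lit 78) (nat_lit 0) (nat_lit 0) (XT.lf (nat_lit 0) (nat_lit 10240929879) (nat_lit 76) (nat_lit 43283683030) (nat_lit 152) (nat_lit 28894217561) (nat_lit 18) (nat_lit 5) (nat_lit 19) (nat_lit 5) (nat_lit 20) (nat_lit 4) (nat_lit 397) (nat_lit 286) (nat_lit 97)) (XT.nd (nat_lit 78) (nat_lit 0) (nat_lit 0) (XT.lf (nat_lit 0) (nat_lit 32422614885) (nat_lit 76) (nat_lit 32034248232) (nat_lit 152) (nat_lit 20063379774) (nat_lit 18) (nat_lit 5) (nat_lit 19) (nat_lit 5) (nat_lit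 20) (nat_lit 4) (nat_lit 398) (nat_lit 286) (nat_lit 96)) (XT.lf (nat_lit 0) (nat_lit 55265085230) (nat_lit 76) (nat_lit 20449383403) (nat_lit 152) (nat_lit 10970308496) (nat_lit 18) (nat_lit 5) (nat_lit 19) (nat_lit 5) (nat_lit 20) (nat_lit 4) (nat_lit 399) (nat_lit 286) (nat_lit 95))))) (XT.nd (nat_lit 234) (nat_lit 988) (nat_lit 0) (XT.nd (nat_lit 78) (nat_lit 0) (nat_lit 0) (XT.lf (nat_lit 0) (nat_lit 1478487641) (nat_lit 0) (nat_lit 1478487641) (nat_lit 988) (nat_lit 1851261891) (nat_lit 217) (nat_lit 5) (nat_lit 217) (nat_lit 3) (nat_lit 230) (nat_lit 3) (nat_lit 287) (nat_lit 287) (nat_lit 206)) (XT.nd (nat_lit 78) (nat_lit 0) (nat_lit 0) (XT.lf (nat_lit 0) (nat_lit 6736351570) (nat_lit 988) (nat_lit 2331466403) (nat_lit 1064) (nat_lit 669815133) (nat_lit 217) (nat_lit 5) (nat_lit 230) (nat_lit 3) (nat_lit 231) (nat_lit 5) (nat_lit 288) (nat_lit 287) (nat_lit 205)) (XT.lf (nat_lit 76) (nat_lit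 2123345776) (nat_lit 0) (nat_lit 5481525447) (nat_lit 1064) (nat_lit 2256954059) (nat_lit 218) (nat_lit 5) (nat_lit 217) (nat_lit 5) (nat_lit 231) (nat_lit 5) (nat_lit 289) (nat_lit 287) (nat_lit 204)))) (XT.nd (nat_lit 156) (nat_lit 988) (nat_lit 0) (XT.nd (nat_lit 78) (nat_lit 0) (nat_lit 76) (XT.lf (nat_lit 76) (nat_lit 6744525696) (nat_lit 0) (nat_lit 1750900454) (nat_lit 1064) (nat_lit 1494478516) (nat_lit 218) (nat_lit 5) (nat_lit 217) (nat_lit 5) (nat_lit 231) (nat_lit 5) (nat_lit 290) (nat_lit 287) (nat_lit 203)) (XT.lf (nat_lit 76) (nat_lit 1373623207) (nat_lit 0) (nat_lit 8045740648) (nat_lit 1064) (nat_lit 702302234) (nat_lit 219) (nat_lit 5) (nat_lit 218) (nat_lit 5) (nat_lit 232) (nat_lit 5) (nat_lit 291) (nat_lit 287) (nat_lit 202))) (XT.nd (nat_lit 78) (nat_lit 0) (nat_lit 0) (XT.lf (nat_lit 0) (nat_lit 135542109) (nat_lit 1064) (nat_lit 4093424889) (nat_lit 1140) (nat_lit 6027694343)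 (nat_lit 204) (nat_lit 5) (nat_lit 218) (nat_lit 5) (nat_lit 219) (nat_lit 5) (nat_lit 292) (nat_lit 287) (nat_lit 201)) (XT.lf (nat_lit 76) (nat_lit 691846795) (nat_lit 0) (nat_lit 273664426) (nat_lit 1140) (nat_lit 9430589753) (nat_lit 205) (nat_lit 5) (nat_lit 204) (nat_lit 5) (nat_lit 219) (nat_lit 5) (nat_lit 293) (nat_lit 287) (nat_lit 200)))))) (XT.nd (nat_lit 546) (nat_lit 1976) (nat_lit 0) (XT.nd (nat_lit 234) (nat_lit 0) (nat_lit 76) (XT.nd (nat_lit 78) (nat_lit 0) (nat_lit 0) (XT.lf (nat_lit 0) (nat_lit 1873797774) (nat_lit 1064) (nat_lit 4887091146) (nat_lit 1140) (nat_lit 3777267544) (nat_lit 205) (nat_lit 5) (nat_lit 219) (nat_lit 5) (nat_lit 220) (nat_lit 5) (nat_lit 294) (nat_lit 287) (nat_lit 199)) (XT.nd (nat_lit 78) (nat_lit 0) (nat_lit 76) (XT.lf (nat_lit 76) (nat_lit 57211891) (nat_lit 0) (nat_lit 2731247292) (nat_lit 1140) (nat_lit 7896674846) (nat_lit 206) (nat_lit 5) (nat_lit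 205) (nat_lit 5) (nat_lit 220) (nat_lit 5) (nat_lit 295) (nat_lit 287) (nat_lit 198)) (XT.lf (nat_lit 0) (nat_lit 3770538010) (nat_lit 1064) (nat_lit 5615591553) (nat_lit 1140) (nat_lit 1449225228) (nat_lit 206) (nat_lit 5) (nat_lit 220) (nat_lit 5) (nat_lit 221) (nat_lit 5) (nat_lit 296) (nat_lit 287) (nat_lit 197)))) (XT.nd (nat_lit 156) (nat_lit 0) (nat_lit 76) (XT.nd (nat_lit 78) (nat_lit 0) (nat_lit 0) (XT.lf (nat_lit 0) (nat_lit 4786301742) (nat_lit 1064) (nat_lit 495898242) (nat_lit 1140) (nat_lit 5707787748) (nat_lit 206) (nat_lit 5) (nat_lit 220) (nat_lit 5) (nat_lit 221) (nat_lit 5) (nat_lit 297) (nat_lit 287) (nat_lit 196)) (XT.lf (nat_lit 76) (nat_lit 4856656593) (nat_lit 0) (nat_lit 1000412081) (nat_lit 1140) (nat_lit 5291486373) (nat_lit 207) (nat_lit 5) (nat_lit 206) (nat_lit 5) (nat_lit 221) (nat_lit 5) (nat_lit 298) (nat_lit 287) (nat_lit 195))) (XT.nd (nat_lit 78) (nat_lit 0)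 (nat_lit 0) (XT.lf (nat_lit 0) (nat_lit 6976196692) (nat_lit 1064) (nat_lit 980691514) (nat_lit 1140) (nat_lit 3354534415) (nat_lit 207) (nat_lit 5) (nat_lit 221) (nat_lit 5) (nat_lit 222) (nat_lit 5) (nat_lit 299) (nat_lit 287) (nat_lit 194)) (XT.lf (nat_lit 76) (nat_lit 4553175104) (nat_lit 0) (nat_lit 3608428973) (nat_lit 1140) (nat_lit 3316620476) (nat_lit 208) (nat_lit 5) (nat_lit 207) (nat_lit 5) (nat_lit 222) (nat_lit 5) (nat_lit 300) (nat_lit 287) (nat_lit 193))))) (XT.nd (nat_lit 234) (nat_lit 1064) (nat_lit 0) (XT.nd (nat_lit 78) (nat_lit 1140) (nat_lit 0) (XT.lf (nat_lit 0) (nat_lit 9380485430) (nat_lit 1064) (nat_lit 1401197589) (nat_lit 1140) (nat_lit 868438811) (nat_lit 208) (nat_lit 5) (nat_lit 222) (nat_lit 5) (nat_lit 223) (nat_lit 5) (nat_lit 301) (nat_lit 287) (nat_lit 192)) (XT.nd (nat_lit 78) (nat_lit 1140) (nat_lit 0) (XT.lf (nat_lit 76) (nat_lit 4321277766) (nat_lit 0) (nat_lit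 6372060082) (nat_lit 1140) (nat_lit 1132143841) (nat_lit 209) (nat_lit 5) (nat_lit 208) (nat_lit 5) (nat_lit 223) (nat_lit 5) (nat_lit 302) (nat_lit 287) (nat_lit 191)) (XT.lf (nat_lit 0) (nat_lit 33341792) (nat_lit 1140) (nat_lit 1777999064) (nat_lit 1216) (nat_lit 10194937156) (nat_lit 193) (nat_lit 5) (nat_lit 208) (nat_lit 5) (nat_lit 209) (nat_lit 5) (nat_lit 303) (nat_lit 287) (nat_lit 190)))) (XT.nd (nat_lit 156) (nat_lit 1140) (nat_lit 0) (XT.nd (nat_lit 78) (nat_lit 0) (nat_lit 0) (XT.lf (nat_lit 0) (nat_lit 1260375603) (nat_lit 1140) (nat_lit 8045082989) (nat_lit 76) (nat_lit 2885248640) (nat_lit 194) (nat_lit 5) (nat_lit 209) (nat_lit 5) (nat_lit 195) (nat_lit 5) (nat_lit 304) (nat_lit 287) (nat_lit 189)) (XT.lf (nat_lit 0) (nat_lit 2541648370) (nat_lit 1140) (nat_lit 2130791664) (nat_lit 76) (nat_lit 7707731159) (nat_lit 194) (nat_lit 5) (nat_lit 209) (nat_lit 5) (nat_lit 195) (nat_lit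 5) (nat_lit 305) (nat_lit 287) (nat_lit 188))) (XT.nd (nat_lit 78) (nat_lit 0) (nat_lit 0) (XT.lf (nat_lit 0) (nat_lit 3883309933) (nat_lit 1216) (nat_lit 8552128234) (nat_lit 76) (nat_lit 139246371) (nat_lit 179) (nat_lit 5) (nat_lit 195) (nat_lit 5) (nat_lit 180) (nat_lit 5) (nat_lit 306) (nat_lit 287) (nat_lit 187)) (XT.lf (nat_lit 0) (nat_lit 5315520148) (nat_lit 1216) (nat_lit 2432592515) (nat_lit 76) (nat_lit 5025434942) (nat_lit 179) (nat_lit 5) (nat_lit 195) (nat_lit 5) (nat_lit 180) (nat_lit 5) (nat_lit 307) (nat_lit 287) (nat_lit 186))))))))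
noncomputable def xc172 : XT := (XT.nd (nat_lit 2028) (nat_lit 3800) (nat_lit 0) (XT.nd (nat_lit 1014) (nat_lit 2432) (nat_lit 0) (XT.nd (nat_lit 468) (nat_lit 1976) (nat_lit 0) (XT.nd (nat_lit 234) (nat_lit 608) (nat_lit 0) (XT.nd (nat_lit 78) (nat_lit 608) (nat_lit 0) (XT.lf (nat_lit 0) (nat_lit 3931802645) (nat_lit 608) (nat_lit 2879511408) (nat_lit 684) (nat_lit 6166466596) (nat_lit 171) (nat_lit 5) (nat_lit 179) (nat_lit 5) (nat_lit 180) (nat_lit 5) (nat_lit 308) (nat_lit 287) (nat_lit 185)) (XT.nd (nat_lit 78) (nat_lit 608) (nat_lit 0) (XT.lf (nat_lit 0) (nat_lit 8380504161) (nat_lit 684) (nat_lit 2687016017) (nat_lit 76) (nat_lit 2119786785) (nat_lit 171) (nat_lit 5) (nat_lit 180) (nat_lit 5) (nat_lit 172) (nat_lit 5) (nat_lit 309) (nat_lit 287) (nat_lit 184)) (XT.lf (nat_lit 0) (nat_lit 3894828177) (nat_lit 608) (nat_lit 6151571289) (nat_lit 684) (nat_lit 3355252024) (nat_lit 163) (nat_lit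 5) (nat_lit 171) (nat_lit 5) (nat_lit 172) (nat_lit 5) (nat_lit 310) (nat_lit 287) (nat_lit 183)))) (XT.nd (nat_lit 78) (nat_lit 608) (nat_lit 0) (XT.lf (nat_lit 0) (nat_lit 10713980901) (nat_lit 608) (nat_lit 1059433291) (nat_lit 684) (nat_lit 1848698572) (nat_lit 163) (nat_lit 5) (nat_lit 171) (nat_lit 5) (nat_lit 172) (nat_lit 5) (nat_lit 311) (nat_lit 287) (nat_lit 182)) (XT.nd (nat_lit 78) (nat_lit 76) (nat_lit 0) (XT.lf (nat_lit 0) (nat_lit 3909294023) (nat_lit 532) (nat_lit 9705238997) (nat_lit 608) (nat_lit 232806133) (nat_lit 156) (nat_lit 5) (nat_lit 163) (nat_lit 5) (nat_lit 164) (nat_lit 5) (nat_lit 312) (nat_lit 287) (nat_lit 181)) (XT.lf (nat_lit 0) (nat_lit 1428393438) (nat_lit 608) (nat_lit 3127578754) (nat_lit 76) (nat_lit 9522213286) (nat_lit 155) (nat_lit 5) (nat_lit 163) (nat_lit 5) (nat_lit 156) (nat_lit 5) (nat_lit 313) (nat_lit 287) (nat_lit 180))))) (XT.nd (nat_lit 234)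 (nat_lit 988) (nat_lit 0) (XT.nd (nat_lit 78) (nat_lit 456) (nat_lit 0) (XT.lf (nat_lit 0) (nat_lit 3165342495) (nat_lit 608) (nat_lit 10375889602) (nat_lit 76) (nat_lit 773756543) (nat_lit 148) (nat_lit 5) (nat_lit 156) (nat_lit 5) (nat_lit 149) (nat_lit 5) (nat_lit 314) (nat_lit 287) (nat_lit 179)) (XT.nd (nat_lit 78) (nat_lit 456) (nat_lit 0) (XT.lf (nat_lit 0) (nat_lit 5016760546) (nat_lit 608) (nat_lit 3336790849) (nat_lit 76) (nat_lit 6203491535) (nat_lit 148) (nat_lit 5) (nat_lit 156) (nat_lit 5) (nat_lit 149) (nat_lit 5) (nat_lit 315) (nat_lit 287) (nat_lit 178)) (XT.lf (nat_lit 0) (nat_lit 3976206358) (nat_lit 456) (nat_lit 2971519785) (nat_lit 532) (nat_lit 7857929881) (nat_lit 142) (nat_lit 5) (nat_lit 148) (nat_lit 5) (nat_lit 149) (nat_lit 5) (nat_lit 316) (nat_lit 287) (nat_lit 177)))) (XT.nd (nat_lit 156) (nat_lit 456) (nat_lit 0) (XT.nd (nat_lit 78) (nat_lit 532) (nat_lit 0) (XT.lf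 (nat_lit 0) (nat_lit 8981421166) (nat_lit 532) (nat_lit 3523925810) (nat_lit 76) (nat_lit 2555053343) (nat_lit 142) (nat_lit 5) (nat_lit 149) (nat_lit 5) (nat_lit 143) (nat_lit 5) (nat_lit 317) (nat_lit 287) (nat_lit 176)) (XT.lf (nat_lit 0) (nat_lit 4035382195) (nat_lit 532) (nat_lit 7095411173) (nat_lit 608) (nat_lit 4190369918) (nat_lit 135) (nat_lit 5) (nat_lit 142) (nat_lit 5) (nat_lit 143) (nat_lit 5) (nat_lit 318) (nat_lit 287) (nat_lit 175))) (XT.nd (nat_lit 78) (nat_lit 456) (nat_lit 0) (XT.lf (nat_lit 0) (nat_lit 11879145217) (nat_lit 532) (nat_lit 1487795589) (nat_lit 608) (nat_lit 2222155369) (nat_lit 135) (nat_lit 5) (nat_lit 142) (nat_lit 5) (nat_lit 143) (nat_lit 5) (nat_lit 319) (nat_lit 287) (nat_lit 174)) (XT.lf (nat_lit 0) (nat_lit 4117759269) (nat_lit 456) (nat_lit 11620299742) (nat_lit 532) (nat_lit 124986845) (nat_lit 129) (nat_lit 5) (nat_lit 135) (nat_lit 5) (nat_lit 136)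 (nat_lit 5) (nat_lit 320) (nat_lit 287) (nat_lit 173)))))) (XT.nd (nat_lit 468) (nat_lit 1140) (nat_lit 0) (XT.nd (nat_lit 234) (nat_lit 760) (nat_lit 0) (XT.nd (nat_lit 78) (nat_lit 456) (nat_lit 0) (XT.lf (nat_lit 0) (nat_lit 2035131770) (nat_lit 532) (nat_lit 3937058093) (nat_lit 76) (nat_lit 10171259383) (nat_lit 128) (nat_lit 5) (nat_lit 135) (nat_lit 5) (nat_lit 129) (nat_lit 5) (nat_lit 321) (nat_lit 287) (nat_lit 172)) (XT.nd (nat_lit 78) (nat_lit 0) (nat_lit 0) (XT.lf (nat_lit 0) (nat_lit 4171349706) (nat_lit 456) (nat_lit 113845321) (nat_lit 532) (nat_lit 12146217078) (nat_lit 122) (nat_lit 5) (nat_lit 128) (nat_lit 5) (nat_lit 129) (nat_lit 5) (nat_lit 322) (nat_lit 287) (nat_lit 171)) (XT.lf (nat_lit 0) (nat_lit 6687584112) (nat_lit 532) (nat_lit 4194859105) (nat_lit 76) (nat_lit 5843039593) (nat_lit 122) (nat_lit 5) (nat_lit 129) (nat_lit 5) (nat_lit 123) (nat_lit 5) (nat_lit 323)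 (nat_lit 287) (nat_lit 170)))) (XT.nd (nat_lit 78) (nat_lit 380) (nat_lit 0) (XT.lf (nat_lit 0) (nat_lit 4178684354) (nat_lit 380) (nat_lit 5012776806) (nat_lit 456) (nat_lit 7836045266) (nat_lit 117) (nat_lit 5) (nat_lit 122) (nat_lit 5) (nat_lit 123) (nat_lit 5) (nat_lit 324) (nat_lit 287) (nat_lit 169)) (XT.nd (nat_lit 78) (nat_lit 380) (nat_lit 0) (XT.lf (nat_lit 0) (nat_lit 11811475500) (nat_lit 456) (nat_lit 4472478253) (nat_lit 76) (nat_lit 1053419261) (nat_lit 117) (nat_lit 5) (nat_lit 123) (nat_lit 5) (nat_lit 118) (nat_lit 5) (nat_lit 325) (nat_lit 287) (nat_lit 168)) (XT.lf (nat_lit 0) (nat_lit 4173138083) (nat_lit 380) (nat_lit 10415350911) (nat_lit 456) (nat_lit 3065707161) (nat_lit 112) (nat_lit 5) (nat_lit 117) (nat_lit 5) (nat_lit 118) (nat_lit 5) (nat_lit 326) (nat_lit 287) (nat_lit 167))))) (XT.nd (nat_lit 234) (nat_lit 684) (nat_lit 0) (XT.nd (nat_lit 78) (nat_lit 456) (nat_lit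 0) (XT.lf (nat_lit 0) (nat_lit 13156120514) (nat_lit 380) (nat_lit 4326707127) (nat_lit 456) (nat_lit 496688059) (nat_lit 112) (nat_lit 5) (nat_lit 117) (nat_lit 5) (nat_lit 118) (nat_lit 5) (nat_lit 327) (nat_lit 287) (nat_lit 166)) (XT.nd (nat_lit 78) (nat_lit 0) (nat_lit 0) (XT.lf (nat_lit 0) (nat_lit 2155585261) (nat_lit 456) (nat_lit 14191767084) (nat_lit 76) (nat_lit 1965190314) (nat_lit 106) (nat_lit 5) (nat_lit 112) (nat_lit 5) (nat_lit 107) (nat_lit 5) (nat_lit 328) (nat_lit 287) (nat_lit 165)) (XT.lf (nat_lit 0) (nat_lit 4958693877) (nat_lit 456) (nat_lit 5283881935) (nat_lit 76) (nat_lit 8410410705) (nat_lit 106) (nat_lit 5) (nat_lit 112) (nat_lit 5) (nat_lit 107) (nat_lit 5) (nat_lit 329) (nat_lit 287) (nat_lit 164)))) (XT.nd (nat_lit 156) (nat_lit 304) (nat_lit 0) (XT.nd (nat_lit 78) (nat_lit 0) (nat_lit 0) (XT.lf (nat_lit 0) (nat_lit 3955126875) (nat_lit 380) (nat_lit 3918324158)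 (nat_lit 456) (nat_lit 11129376796) (nat_lit 101) (nat_lit 5) (nat_lit 106) (nat_lit 5) (nat_lit 107) (nat_lit 5) (nat_lit 330) (nat_lit 287) (nat_lit 163)) (XT.lf (nat_lit 0) (nat_lit 10944173856) (nat_lit 456) (nat_lit 5820875393) (nat_lit 76) (nat_lit 2596069924) (nat_lit 101) (nat_lit 5) (nat_lit 107) (nat_lit 5) (nat_lit 102) (nat_lit 5) (nat_lit 331) (nat_lit 287) (nat_lit 162))) (XT.nd (nat_lit 78) (nat_lit 0) (nat_lit 0) (XT.lf (nat_lit 0) (nat_lit 3703160717) (nat_lit 304) (nat_lit 10468237162) (nat_lit 380) (nat_lit 5556840172) (nat_lit 97) (nat_lit 5) (nat_lit 101) (nat_lit 5) (nat_lit 102) (nat_lit 5) (nat_lit 332) (nat_lit 287) (nat_lit 161)) (XT.lf (nat_lit 0) (nat_lit 13619307269) (nat_lit 304) (nat_lit 3925065280) (nat_lit 380) (nat_lit 2560539810) (nat_lit 97) (nat_lit 5) (nat_lit 101) (nat_lit 5) (nat_lit 102) (nat_lit 5) (nat_lit 333) (nat_lit 287) (nat_lit 160))))))) (XT.nd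 (nat_lit 1014) (nat_lit 1824) (nat_lit 0) (XT.nd (nat_lit 468) (nat_lit 912) (nat_lit 0) (XT.nd (nat_lit 234) (nat_lit 304) (nat_lit 0) (XT.nd (nat_lit 78) (nat_lit 304) (nat_lit 0) (XT.lf (nat_lit 0) (nat_lit 565696959) (nat_lit 456) (nat_lit 17131094150) (nat_lit 76) (nat_lit 2794444372) (nat_lit 91) (nat_lit 5) (nat_lit 97) (nat_lit 5) (nat_lit 92) (nat_lit 5) (nat_lit 334) (nat_lit 287) (nat_lit 159)) (XT.nd (nat_lit 78) (nat_lit 304) (nat_lit 0) (XT.lf (nat_lit 0) (nat_lit 3829726010) (nat_lit 456) (nat_lit 7330733977) (nat_lit 76) (nat_lit 9725072712) (nat_lit 91) (nat_lit 5) (nat_lit 97) (nat_lit 5) (nat_lit 92) (nat_lit 5) (nat_lit 335) (nat_lit 287) (nat_lit 158)) (XT.lf (nat_lit 0) (nat_lit 2805868453) (nat_lit 304) (nat_lit 4403523991) (nat_lit 380) (nat_lit 14081743673) (nat_lit 87) (nat_lit 5) (nat_lit 91) (nat_lit 5) (nat_lit 92) (nat_lit 5) (nat_lit 336) (nat_lit 287) (nat_lit 157))))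 (XT.nd (nat_lit 78) (nat_lit 304) (nat_lit 0) (XT.lf (nat_lit 0) (nat_lit 10780642350) (nat_lit 380) (nat_lit 8347797360) (nat_lit 76) (nat_lit 2577770648) (nat_lit 87) (nat_lit 5) (nat_lit 92) (nat_lit 5) (nat_lit 88) (nat_lit 5) (nat_lit 337) (nat_lit 287) (nat_lit 156)) (XT.nd (nat_lit 78) (nat_lit 0) (nat_lit 0) (XT.lf (nat_lit 0) (nat_lit 2078476367) (nat_lit 304) (nat_lit 12435261846) (nat_lit 380) (nat_lit 7618365633) (nat_lit 83) (nat_lit 5) (nat_lit 87) (nat_lit 5) (nat_lit 88) (nat_lit 5) (nat_lit 338) (nat_lit 287) (nat_lit 155)) (XT.lf (nat_lit 0) (nat_lit 12976500362) (nat_lit 304) (nat_lit 5457894079) (nat_lit 380) (nat_lit 4134120707) (nat_lit 83) (nat_lit 5) (nat_lit 87) (nat_lit 5) (nat_lit 88) (nat_lit 5) (nat_lit 339) (nat_lit 287) (nat_lit 154))))) (XT.nd (nat_lit 234) (nat_lit 532) (nat_lit 0) (XT.nd (nat_lit 78) (nat_lit 76) (nat_lit 0) (XT.lf (nat_lit 0) (nat_lit 1177775224)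 (nat_lit 304) (nat_lit 21314328186) (nat_lit 380) (nat_lit 525340189) (nat_lit 79) (nat_lit 5) (nat_lit 83) (nat_lit 5) (nat_lit 84) (nat_lit 5) (nat_lit 340) (nat_lit 287) (nat_lit 153)) (XT.nd (nat_lit 78) (nat_lit 0) (nat_lit 0) (XT.lf (nat_lit 0) (nat_lit 3272816422) (nat_lit 380) (nat_lit 11107419701) (nat_lit 76) (nat_lit 9094388884) (nat_lit 78) (nat_lit 5) (nat_lit 83) (nat_lit 5) (nat_lit 79) (nat_lit 5) (nat_lit 341) (nat_lit 287) (nat_lit 152)) (XT.lf (nat_lit 0) (nat_lit 7166141638) (nat_lit 380) (nat_lit 70145993) (nat_lit 76) (nat_lit 16709331843) (nat_lit 78) (nat_lit 5) (nat_lit 83) (nat_lit 5) (nat_lit 79) (nat_lit 5) (nat_lit 342) (nat_lit 287) (nat_lit 151)))) (XT.nd (nat_lit 156) (nat_lit 228) (nat_lit 0) (XT.nd (nat_lit 78) (nat_lit 0) (nat_lit 0) (XT.lf (nat_lit 0) (nat_lit 11281179282) (nat_lit 380) (nat_lit 12918428390) (nat_lit 76) (nat_lit 227995651) (nat_lit 74) (nat_lit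 5) (nat_lit 79) (nat_lit 5) (nat_lit 75) (nat_lit 5) (nat_lit 343) (nat_lit 287) (nat_lit 150)) (XT.lf (nat_lit 0) (nat_lit 15584142743) (nat_lit 380) (nat_lit 1569862110) (nat_lit 76) (nat_lit 7768114324) (nat_lit 74) (nat_lit 5) (nat_lit 79) (nat_lit 5) (nat_lit 75) (nat_lit 5) (nat_lit 344) (nat_lit 287) (nat_lit 149))) (XT.nd (nat_lit 78) (nat_lit 0) (nat_lit 0) (XT.lf (nat_lit 0) (nat_lit 10309168359) (nat_lit 228) (nat_lit 9798467426) (nat_lit 304) (nat_lit 5321098034) (nat_lit 71) (nat_lit 5) (nat_lit 74) (nat_lit 5) (nat_lit 75) (nat_lit 5) (nat_lit 345) (nat_lit 287) (nat_lit 148)) (XT.lf (nat_lit 0) (nat_lit 22565698002) (nat_lit 228) (nat_lit 2209447578) (nat_lit 304) (nat_lit 1175158303) (nat_lit 71) (nat_lit 5) (nat_lit 74) (nat_lit 5) (nat_lit 75) (nat_lit 5) (nat_lit 346) (nat_lit 287) (nat_lit 147)))))) (XT.nd (nat_lit 546) (nat_lit 684) (nat_lit 0) (XT.nd (nat_lit 234) (nat_lit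 532) (nat_lit 0) (XT.nd (nat_lit 78) (nat_lit 228) (nat_lit 0) (XT.lf (nat_lit 0) (nat_lit 3167283842) (nat_lit 380) (nat_lit 17705158633) (nat_lit 76) (nat_lit 5610216316) (nat_lit 66) (nat_lit 5) (nat_lit 71) (nat_lit 5) (nat_lit 67) (nat_lit 5) (nat_lit 347) (nat_lit 287) (nat_lit 146)) (XT.nd (nat_lit 78) (nat_lit 228) (nat_lit 0) (XT.lf (nat_lit 0) (nat_lit 7665450650) (nat_lit 380) (nat_lit 5700925760) (nat_lit 76) (nat_lit 13662792558) (nat_lit 66) (nat_lit 5) (nat_lit 71) (nat_lit 5) (nat_lit 67) (nat_lit 5) (nat_lit 348) (nat_lit 287) (nat_lit 145)) (XT.lf (nat_lit 0) (nat_lit 6785189144) (nat_lit 228) (nat_lit 5571488862) (nat_lit 304) (nat_lit 15233658613) (nat_lit 63) (nat_lit 5) (nat_lit 66) (nat_lit 5) (nat_lit 67) (nat_lit 5) (nat_lit 349) (nat_lit 287) (nat_lit 144)))) (XT.nd (nat_lit 156) (nat_lit 304) (nat_lit 0) (XT.nd (nat_lit 78) (nat_lit 228) (nat_lit 0) (XT.lf (nat_lit 0)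 (nat_lit 17263364658) (nat_lit 304) (nat_lit 8438777424) (nat_lit 76) (nat_lit 2463961012) (nat_lit 63) (nat_lit 5) (nat_lit 67) (nat_lit 5) (nat_lit 64) (nat_lit 5) (nat_lit 350) (nat_lit 287) (nat_lit 143)) (XT.lf (nat_lit 0) (nat_lit 4317252483) (nat_lit 228) (nat_lit 18089831469) (nat_lit 304) (nat_lit 6349368963) (nat_lit 60) (nat_lit 5) (nat_lit 63) (nat_lit 5) (nat_lit 64) (nat_lit 5) (nat_lit 351) (nat_lit 287) (nat_lit 142))) (XT.nd (nat_lit 78) (nat_lit 304) (nat_lit 0) (XT.lf (nat_lit 0) (nat_lit 17618638908) (nat_lit 228) (nat_lit 10164959592) (nat_lit 304) (nat_lit 1578565377) (nat_lit 60) (nat_lit 5) (nat_lit 63) (nat_lit 5) (nat_lit 64) (nat_lit 5) (nat_lit 352) (nat_lit 287) (nat_lit 141)) (XT.lf (nat_lit 0) (nat_lit 1316501871) (nat_lit 228) (nat_lit 1959825547) (nat_lit 304) (nat_lit 26708580263) (nat_lit 56) (nat_lit 5) (nat_lit 59) (nat_lit 5) (nat_lit 60) (nat_lit 5) (nat_lit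 353) (nat_lit 287) (nat_lit 140))))) (XT.nd (nat_lit 234) (nat_lit 456) (nat_lit 0) (XT.nd (nat_lit 78) (nat_lit 228) (nat_lit 0) (XT.lf (nat_lit 0) (nat_lit 8420756803) (nat_lit 304) (nat_lit 15703132868) (nat_lit 76) (nat_lit 6496711445) (nat_lit 56) (nat_lit 5) (nat_lit 60) (nat_lit 5) (nat_lit 57) (nat_lit 5) (nat_lit 354) (nat_lit 287) (nat_lit 139)) (XT.nd (nat_lit 78) (nat_lit 228) (nat_lit 0) (XT.lf (nat_lit 0) (nat_lit 13732570658) (nat_lit 304) (nat_lit 2378222005) (nat_lit 76) (nat_lit 15164185724) (nat_lit 56) (nat_lit 5) (nat_lit 60) (nat_lit 5) (nat_lit 57) (nat_lit 5) (nat_lit 355) (nat_lit 287) (nat_lit 138)) (XT.lf (nat_lit 0) (nat_lit 11562433671) (nat_lit 228) (nat_lit 7746282845) (nat_lit 304) (nat_lit 12637125582) (nat_lit 53) (nat_lit 5) (nat_lit 56) (nat_lit 5) (nat_lit 57) (nat_lit 5) (nat_lit 356) (nat_lit 287) (nat_lit 137)))) (XT.nd (nat_lit 156) (nat_lit 304) (nat_lit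 0) (XT.nd (nat_lit 78) (nat_lit 152) (nat_lit 0) (XT.lf (nat_lit 0) (nat_lit 25078642037) (nat_lit 304) (nat_lit 6684330082) (nat_lit 76) (nat_lit 873069061) (nat_lit 53) (nat_lit 5) (nat_lit 57) (nat_lit 5) (nat_lit 54) (nat_lit 5) (nat_lit 357) (nat_lit 287) (nat_lit 136)) (XT.lf (nat_lit 0) (nat_lit 7485693343) (nat_lit 152) (nat_lit 23678690166) (nat_lit 228) (nat_lit 2178285373) (nat_lit 51) (nat_lit 5) (nat_lit 53) (nat_lit 5) (nat_lit 54) (nat_lit 5) (nat_lit 358) (nat_lit 287) (nat_lit 135))) (XT.nd (nat_lit 78) (nat_lit 228) (nat_lit 0) (XT.lf (nat_lit 0) (nat_lit 3358846745) (nat_lit 228) (nat_lit 11893052293) (nat_lit 76) (nat_lit 18815763135) (nat_lit 50) (nat_lit 5) (nat_lit 53) (nat_lit 5) (nat_lit 51) (nat_lit 5) (nat_lit 359) (nat_lit 287) (nat_lit 134)) (XT.lf (nat_lit 0) (nat_lit 2508002722) (nat_lit 228) (nat_lit 6528676085) (nat_lit 304) (nat_lit 25776532257) (nat_lit 47) (nat_lit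 5) (nat_lit 50) (nat_lit 5) (nat_lit 51) (nat_lit 5) (nat_lit 360) (nat_lit 287) (nat_lit 133))))))))
noncomputable def xc173 : XT := (XT.nd (nat_lit 2028) (nat_lit 532) (nat_lit 0) (XT.nd (nat_lit 1014) (nat_lit 684) (nat_lit 0) (XT.nd (nat_lit 468) (nat_lit 532) (nat_lit 0) (XT.nd (nat_lit 234) (nat_lit 304) (nat_lit 0) (XT.nd (nat_lit 78) (nat_lit 152) (nat_lit 0) (XT.lf (nat_lit 0) (nat_lit 15024048513) (nat_lit 304) (nat_lit 18026648130) (nat_lit 76) (nat_lit 2526257423) (nat_lit 47) (nat_lit 5) (nat_lit 51) (nat_lit 5) (nat_lit 48) (nat_lit 5) (nat_lit 361) (nat_lit 287) (nat_lit 132)) (XT.nd (nat_lit 78) (nat_lit 152) (nat_lit 0) (XT.lf (nat_lit 0) (nat_lit 21250151689) (nat_lit 304) (nat_lit 3393313135) (nat_lit 76) (nat_lit 11718374781) (nat_lit 47) (nat_lit 5) (nat_lit 51) (nat_lit 5) (nat_lit 48) (nat_lit 5) (nat_lit 362) (nat_lit 287) (nat_lit 131)) (XT.lf (nat_lit 0) (nat_lit 11902603343)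 (nat_lit 152) (nat_lit 15869482751) (nat_lit 228) (nat_lit 9394917682) (nat_lit 45) (nat_lit 5) (nat_lit 47) (nat_lit 5) (nat_lit 48) (nat_lit 5) (nat_lit 363) (nat_lit 287) (nat_lit 130)))) (XT.nd (nat_lit 78) (nat_lit 304) (nat_lit 0) (XT.lf (nat_lit 0) (nat_lit 27718360791) (nat_lit 152) (nat_lit 6800290269) (nat_lit 228) (nat_lit 3476806046) (nat_lit 45) (nat_lit 5) (nat_lit 47) (nat_lit 5) (nat_lit 48) (nat_lit 5) (nat_lit 364) (nat_lit 287) (nat_lit 129)) (XT.nd (nat_lit 78) (nat_lit 0) (nat_lit 0) (XT.lf (nat_lit 0) (nat_lit 2637950343) (nat_lit 304) (nat_lit 33643578993) (nat_lit 76) (nat_lit 2564376557) (nat_lit 41) (nat_lit 5) (nat_lit 45) (nat_lit 5) (nat_lit 42) (nat_lit 5) (nat_lit 365) (nat_lit 287) (nat_lit 128)) (XT.lf (nat_lit 0) (nat_lit 9033251062) (nat_lit 304) (nat_lit 18473227544) (nat_lit 76) (nat_lit 12209350482) (nat_lit 41) (nat_lit 5) (nat_lit 45) (nat_lit 5) (nat_lit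 42) (nat_lit 5) (nat_lit 366) (nat_lit 287) (nat_lit 127))))) (XT.nd (nat_lit 234) (nat_lit 380) (nat_lit 0) (XT.nd (nat_lit 78) (nat_lit 152) (nat_lit 0) (XT.lf (nat_lit 0) (nat_lit 15615407269) (nat_lit 304) (nat_lit 2856013154) (nat_lit 76) (nat_lit 22140582693) (nat_lit 41) (nat_lit 5) (nat_lit 45) (nat_lit 5) (nat_lit 42) (nat_lit 5) (nat_lit 367) (nat_lit 287) (nat_lit 126)) (XT.nd (nat_lit 78) (nat_lit 0) (nat_lit 0) (XT.lf (nat_lit 0) (nat_lit 13484848247) (nat_lit 152) (nat_lit 9034946724) (nat_lit 228) (nat_lit 19011527330) (nat_lit 39) (nat_lit 5) (nat_lit 41) (nat_lit 5) (nat_lit 42) (nat_lit 5) (nat_lit 368) (nat_lit 287) (nat_lit 125)) (XT.lf (nat_lit 0) (nat_lit 29662198305) (nat_lit 228) (nat_lit 12117786800) (nat_lit 76) (nat_lit 697312291) (nat_lit 39) (nat_lit 5) (nat_lit 42) (nat_lit 5) (nat_lit 40) (nat_lit 5) (nat_lit 369) (nat_lit 287) (nat_lit 124)))) (XT.nd (nat_lit 156)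 (nat_lit 152) (nat_lit 0) (XT.nd (nat_lit 78) (nat_lit 76) (nat_lit 0) (XT.lf (nat_lit 0) (nat_lit 4274914096) (nat_lit 152) (nat_lit 32869825437) (nat_lit 228) (nat_lit 6303139008) (nat_lit 37) (nat_lit 5) (nat_lit 39) (nat_lit 5) (nat_lit 40) (nat_lit 5) (nat_lit 370) (nat_lit 287) (nat_lit 123)) (XT.lf (nat_lit 0) (nat_lit 515201734) (nat_lit 228) (nat_lit 23049034120) (nat_lit 76) (nat_lit 20879660059) (nat_lit 36) (nat_lit 5) (nat_lit 39) (nat_lit 5) (nat_lit 37) (nat_lit 5) (nat_lit 371) (nat_lit 287) (nat_lit 122))) (XT.nd (nat_lit 78) (nat_lit 152) (nat_lit 0) (XT.lf (nat_lit 0) (nat_lit 7406873257) (nat_lit 228) (nat_lit 6511395120) (nat_lit 76) (nat_lit 31549791723) (nat_lit 36) (nat_lit 5) (nat_lit 39) (nat_lit 5) (nat_lit 37) (nat_lit 5) (nat_lit 372) (nat_lit 287) (nat_lit 121)) (XT.lf (nat_lit 0) (nat_lit 10724261514) (nat_lit 152) (nat_lit 3879721000) (nat_lit 228) (nat_lit 31916008534)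 (nat_lit 34) (nat_lit 5) (nat_lit 36) (nat_lit 5) (nat_lit 37) (nat_lit 5) (nat_lit 373) (nat_lit 287) (nat_lit 120)))))) (XT.nd (nat_lit 468) (nat_lit 304) (nat_lit 0) (XT.nd (nat_lit 234) (nat_lit 228) (nat_lit 0) (XT.nd (nat_lit 78) (nat_lit 152) (nat_lit 0) (XT.lf (nat_lit 0) (nat_lit 22141134537) (nat_lit 228) (nat_lit 19061202920) (nat_lit 76) (nat_lit 6397420975) (nat_lit 34) (nat_lit 5) (nat_lit 37) (nat_lit 5) (nat_lit 35) (nat_lit 5) (nat_lit 374) (nat_lit 287) (nat_lit 119)) (XT.nd (nat_lit 78) (nat_lit 152) (nat_lit 0) (XT.lf (nat_lit 0) (nat_lit 29938570357) (nat_lit 228) (nat_lit 1870250003) (nat_lit 76) (nat_lit 16902075719) (nat_lit 34) (nat_lit 5) (nat_lit 37) (nat_lit 5) (nat_lit 35) (nat_lit 5) (nat_lit 375) (nat_lit 287) (nat_lit 118)) (XT.lf (nat_lit 0) (nat_lit 16144481674) (nat_lit 152) (nat_lit 21976517978) (nat_lit 228) (nat_lit 11729838349) (nat_lit 32) (nat_lit 5) (nat_lit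 34) (nat_lit 5) (nat_lit 35) (nat_lit 5) (nat_lit 376) (nat_lit 287) (nat_lit 117)))) (XT.nd (nat_lit 78) (nat_lit 228) (nat_lit 0) (XT.lf (nat_lit 0) (nat_lit 34731075278) (nat_lit 152) (nat_lit 11832645674) (nat_lit 228) (nat_lit 4460814841) (nat_lit 32) (nat_lit 5) (nat_lit 34) (nat_lit 5) (nat_lit 35) (nat_lit 5) (nat_lit 377) (nat_lit 287) (nat_lit 116)) (XT.nd (nat_lit 78) (nat_lit 0) (nat_lit 0) (XT.lf (nat_lit 0) (nat_lit 1637894675) (nat_lit 152) (nat_lit 1341086074) (nat_lit 228) (nat_lit 49253240470) (nat_lit 29) (nat_lit 5) (nat_lit 31) (nat_lit 5) (nat_lit 32) (nat_lit 5) (nat_lit 378) (nat_lit 287) (nat_lit 115)) (XT.lf (nat_lit 0) (nat_lit 10805493945) (nat_lit 228) (nat_lit 33173616669) (nat_lit 76) (nat_lit 9488108150) (nat_lit 29) (nat_lit 5) (nat_lit 32) (nat_lit 5) (nat_lit 30) (nat_lit 5) (nat_lit 379) (nat_lit 287) (nat_lit 114))))) (XT.nd (nat_lit 234) (nat_lit 152) (nat_lit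 0) (XT.nd (nat_lit 78) (nat_lit 152) (nat_lit 0) (XT.lf (nat_lit 0) (nat_lit 18876231274) (nat_lit 228) (nat_lit 15250189704) (nat_lit 76) (nat_lit 20612564340) (nat_lit 29) (nat_lit 5) (nat_lit 32) (nat_lit 5) (nat_lit 30) (nat_lit 5) (nat_lit 380) (nat_lit 287) (nat_lit 113)) (XT.nd (nat_lit 78) (nat_lit 0) (nat_lit 0) (XT.lf (nat_lit 0) (nat_lit 3268282910) (nat_lit 152) (nat_lit 23948487323) (nat_lit 228) (nat_lit 28831306139) (nat_lit 27) (nat_lit 5) (nat_lit 29) (nat_lit 5) (nat_lit 30) (nat_lit 5) (nat_lit 381) (nat_lit 287) (nat_lit 112)) (XT.lf (nat_lit 0) (nat_lit 22648553579) (nat_lit 152) (nat_lit 13309279187) (nat_lit 228) (nat_lit 21434100000) (nat_lit 27) (nat_lit 5) (nat_lit 29) (nat_lit 5) (nat_lit 30) (nat_lit 5) (nat_lit 382) (nat_lit 287) (nat_lit 111)))) (XT.nd (nat_lit 156) (nat_lit 76) (nat_lit 0) (XT.nd (nat_lit 78) (nat_lit 76) (nat_lit 0) (XT.lf (nat_lit 0) (nat_lit 42604047843)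 (nat_lit 152) (nat_lit 2353497191) (nat_lit 228) (nat_lit 13818669063) (nat_lit 27) (nat_lit 5) (nat_lit 29) (nat_lit 5) (nat_lit 30) (nat_lit 5) (nat_lit 383) (nat_lit 287) (nat_lit 110)) (XT.lf (nat_lit 0) (nat_lit 2921251195) (nat_lit 76) (nat_lit 51416426066) (nat_lit 152) (nat_lit 5861035476) (nat_lit 26) (nat_lit 5) (nat_lit 27) (nat_lit 5) (nat_lit 28) (nat_lit 4) (nat_lit 384) (nat_lit 287) (nat_lit 109))) (XT.nd (nat_lit 78) (nat_lit 0) (nat_lit 0) (XT.lf (nat_lit 0) (nat_lit 2474488594) (nat_lit 152) (nat_lit 38793467511) (nat_lit 76) (nat_lit 20389716439) (nat_lit 25) (nat_lit 5) (nat_lit 27) (nat_lit 5) (nat_lit 26) (nat_lit 5) (nat_lit 385) (nat_lit 287) (nat_lit 108)) (XT.lf (nat_lit 0) (nat_lit 10938885235) (nat_lit 152) (nat_lit 19818903775) (nat_lit 76) (nat_lit 32400974578) (nat_lit 25) (nat_lit 5) (nat_lit 27) (nat_lit 5) (nat_lit 26) (nat_lit 5) (nat_lit 386) (nat_lit 287)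 (nat_lit 107))))))) (XT.nd (nat_lit 32916) (nat_lit 0) (nat_lit 14136) (XT.nd (nat_lit 468) (nat_lit 304) (nat_lit 0) (XT.nd (nat_lit 234) (nat_lit 76) (nat_lit 0) (XT.nd (nat_lit 78) (nat_lit 152) (nat_lit 0) (XT.lf (nat_lit 0) (nat_lit 19653920434) (nat_lit 152) (nat_lit 280850760) (nat_lit 76) (nat_lit 44770216504) (nat_lit 25) (nat_lit 5) (nat_lit 27) (nat_lit 5) (nat_lit 26) (nat_lit 5) (nat_lit 387) (nat_lit 287) (nat_lit 106)) (XT.nd (nat_lit 78) (nat_lit 0) (nat_lit 0) (XT.lf (nat_lit 0) (nat_lit 20232574011) (nat_lit 152) (nat_lit 8589123138) (nat_lit 228) (nat_lit 37470164159) (nat_lit 23) (nat_lit 5) (nat_lit 25) (nat_lit 5) (nat_lit 26) (nat_lit 5) (nat_lit 388) (nat_lit 287) (nat_lit 105)) (XT.lf (nat_lit 0) (nat_lit 38293960363) (nat_lit 228) (nat_lit 26594493599) (nat_lit 76) (nat_lit 3037005015) (nat_lit 23) (nat_lit 5) (nat_lit 26) (nat_lit 5) (nat_lit 24) (nat_lit 4) (nat_lit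 389) (nat_lit 287) (nat_lit 104)))) (XT.nd (nat_lit 78) (nat_lit 76) (nat_lit 0) (XT.lf (nat_lit 0) (nat_lit 48132344754) (nat_lit 228) (nat_lit 6636232762) (nat_lit 76) (nat_lit 14837029866) (nat_lit 23) (nat_lit 5) (nat_lit 26) (nat_lit 5) (nat_lit 24) (nat_lit 4) (nat_lit 390) (nat_lit 287) (nat_lit 103)) (XT.nd (nat_lit 78) (nat_lit 0) (nat_lit 0) (XT.lf (nat_lit 0) (nat_lit 14192444081) (nat_lit 76) (nat_lit 44206865437) (nat_lit 152) (nat_lit 12932849220) (nat_lit 22) (nat_lit 5) (nat_lit 23) (nat_lit 5) (nat_lit 24) (nat_lit 4) (nat_lit 391) (nat_lit 287) (nat_lit 102)) (XT.lf (nat_lit 0) (nat_lit 35776791714) (nat_lit 76) (nat_lit 33261543913) (nat_lit 152) (nat_lit 4070250761) (nat_lit 22) (nat_lit 5) (nat_lit 23) (nat_lit 5) (nat_lit 24) (nat_lit 4) (nat_lit 392) (nat_lit 287) (nat_lit 101))))) (XT.nd (nat_lit 234) (nat_lit 76) (nat_lit 0) (XT.nd (nat_lit 78) (nat_lit 152) (nat_lit 0)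 (XT.lf (nat_lit 0) (nat_lit 4956617423) (nat_lit 152) (nat_lit 16983392468) (nat_lit 76) (nat_lit 52996926660) (nat_lit 21) (nat_lit 5) (nat_lit 23) (nat_lit 5) (nat_lit 22) (nat_lit 5) (nat_lit 393) (nat_lit 287) (nat_lit 100)) (XT.nd (nat_lit 78) (nat_lit 0) (nat_lit 0) (XT.lf (nat_lit 0) (nat_lit 4008397437) (nat_lit 152) (nat_lit 10199797929) (nat_lit 228) (nat_lit 62609662728) (nat_lit 19) (nat_lit 5) (nat_lit 21) (nat_lit 5) (nat_lit 22) (nat_lit 5) (nat_lit 394) (nat_lit 287) (nat_lit 99)) (XT.lf (nat_lit 0) (nat_lit 23925905229) (nat_lit 228) (nat_lit 52796867741) (nat_lit 76) (nat_lit 2026777953) (nat_lit 19) (nat_lit 5) (nat_lit 22) (nat_lit 5) (nat_lit 20) (nat_lit 4) (nat_lit 395) (nat_lit 287) (nat_lit 98)))) (XT.nd (nat_lit 156) (nat_lit 76) (nat_lit 0) (XT.nd (nat_lit 78) (nat_lit 0) (nat_lit 0) (XT.lf (nat_lit 0) (nat_lit 34033410778) (nat_lit 228) (nat_lit 32289737880) (nat_lit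 76) (nat_lit 14413099089) (nat_lit 19) (nat_lit 5) (nat_lit 22) (nat_lit 5) (nat_lit 20) (nat_lit 4) (nat_lit 396) (nat_lit 287) (nat_lit 97)) (XT.lf (nat_lit 0) (nat_lit 44441497119) (nat_lit 228) (nat_lit 11172105526) (nat_lit 76) (nat_lit 27169023271) (nat_lit 19) (nat_lit 5) (nat_lit 22) (nat_lit 5) (nat_lit 20) (nat_lit 4) (nat_lit 397) (nat_lit 287) (nat_lit 96))) (XT.nd (nat_lit 78) (nat_lit 0) (nat_lit 0) (XT.lf (nat_lit 0) (nat_lit 10784934539) (nat_lit 76) (nat_lit 44477995543) (nat_lit 152) (nat_lit 29624433302) (nat_lit 18) (nat_lit 5) (nat_lit 19) (nat_lit 5) (nat_lit 20) (nat_lit 4) (nat_lit 398) (nat_lit 287) (nat_lit 95)) (XT.lf (nat_lit 0) (nat_lit 33625173685) (nat_lit 76) (nat_lit 32894112594) (nat_lit 152) (nat_lit 20532649336) (nat_lit 18) (nat_lit 5) (nat_lit 19) (nat_lit 5) (nat_lit 20) (nat_lit 4) (nat_lit 399) (nat_lit 287) (nat_lit 94)))))) (XT.nd (nat_lit 546) (nat_lit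 0) (nat_lit 76) (XT.nd (nat_lit 234) (nat_lit 988) (nat_lit 0) (XT.nd (nat_lit 78) (nat_lit 0) (nat_lit 0) (XT.lf (nat_lit 0) (nat_lit 1882909951) (nat_lit 0) (nat_lit 1882909951) (nat_lit 988) (nat_lit 1163993080) (nat_lit 217) (nat_lit 5) (nat_lit 217) (nat_lit 3) (nat_lit 230) (nat_lit 3) (nat_lit 288) (nat_lit 288) (nat_lit 204)) (XT.nd (nat_lit 78) (nat_lit 0) (nat_lit 0) (XT.lf (nat_lit 0) (nat_lit 8330042446) (nat_lit 988) (nat_lit 1651507135) (nat_lit 1064) (nat_lit 4392183) (nat_lit 217) (nat_lit 5) (nat_lit 230) (nat_lit 3) (nat_lit 231) (nat_lit 5) (nat_lit 289) (nat_lit 288) (nat_lit 203)) (XT.lf (nat_lit 76) (nat_lit 2929597416) (nat_lit 0) (nat_lit 6261626082) (nat_lit 1064) (nat_lit 923698395) (nat_lit 218) (nat_lit 5) (nat_lit 217) (nat_lit 5) (nat_lit 231) (nat_lit 5) (nat_lit 290) (nat_lit 288) (nat_lit 202)))) (XT.nd (nat_lit 156) (nat_lit 0) (nat_lit 0) (XT.nd (nat_lit 78)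 (nat_lit 988) (nat_lit 0) (XT.lf (nat_lit 76) (nat_lit 7667785026) (nat_lit 0) (nat_lit 2401150644) (nat_lit 1064) (nat_lit 179153370) (nat_lit 218) (nat_lit 5) (nat_lit 217) (nat_lit 5) (nat_lit 231) (nat_lit 5) (nat_lit 291) (nat_lit 288) (nat_lit 201)) (XT.lf (nat_lit 0) (nat_lit 587269602) (nat_lit 1064) (nat_lit 8215235243) (nat_lit 1140) (nat_lit 1582282840) (nat_lit 204) (nat_lit 5) (nat_lit 218) (nat_lit 5) (nat_lit 219) (nat_lit 5) (nat_lit 292) (nat_lit 288) (nat_lit 200))) (XT.nd (nat_lit 78) (nat_lit 0) (nat_lit 0) (XT.lf (nat_lit 0) (nat_lit 1398370823) (nat_lit 1064) (nat_lit 3450892258) (nat_lit 1140) (nat_lit 5675547622) (nat_lit 204) (nat_lit 5) (nat_lit 218) (nat_lit 5) (nat_lit 219) (nat_lit 5) (nat_lit 293) (nat_lit 288) (nat_lit 199)) (XT.lf (nat_lit 76) (nat_lit 1470434288) (nat_lit 0) (nat_lit 753426482) (nat_lit 1140) (nat_lit 8445506168) (nat_lit 205) (nat_lit 5) (nat_lit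 204) (nat_lit 5) (nat_lit 219) (nat_lit 5) (nat_lit 294) (nat_lit 288) (nat_lit 198))))) (XT.nd (nat_lit 234) (nat_lit 0) (nat_lit 76) (XT.nd (nat_lit 78) (nat_lit 0) (nat_lit 0) (XT.lf (nat_lit 0) (nat_lit 3119187790) (nat_lit 1064) (nat_lit 4256051452) (nat_lit 1140) (nat_lit 3441701646) (nat_lit 205) (nat_lit 5) (nat_lit 219) (nat_lit 5) (nat_lit 220) (nat_lit 5) (nat_lit 295) (nat_lit 288) (nat_lit 197)) (XT.nd (nat_lit 78) (nat_lit 0) (nat_lit 76) (XT.lf (nat_lit 76) (nat_lit 828956633) (nat_lit 0) (nat_lit 3205098195) (nat_lit 1140) (nat_lit 6935139054) (nat_lit 206) (nat_lit 5) (nat_lit 205) (nat_lit 5) (nat_lit 220) (nat_lit 5) (nat_lit 296) (nat_lit 288) (nat_lit 196)) (XT.lf (nat_lit 0) (nat_lit 5008095469) (nat_lit 1064) (nat_lit 4997370110) (nat_lit 1140) (nat_lit 1119628353) (nat_lit 206) (nat_lit 5) (nat_lit 220) (nat_lit 5) (nat_lit 221) (nat_lit 5) (nat_lit 297) (nat_lit 288) (nat_lit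 195)))) (XT.nd (nat_lit 156) (nat_lit 0) (nat_lit 76) (XT.nd (nat_lit 78) (nat_lit 0) (nat_lit 0) (XT.lf (nat_lit 76) (nat_lit 258035932) (nat_lit 0) (nat_lit 5766025862) (nat_lit 1140) (nat_lit 5261258437) (nat_lit 207) (nat_lit 5) (nat_lit 206) (nat_lit 5) (nat_lit 221) (nat_lit 5) (nat_lit 298) (nat_lit 288) (nat_lit 194)) (XT.lf (nat_lit 76) (nat_lit 5758644204) (nat_lit 0) (nat_lit 1341300219) (nat_lit 1140) (nat_lit 4349555274) (nat_lit 207) (nat_lit 5) (nat_lit 206) (nat_lit 5) (nat_lit 221) (nat_lit 5) (nat_lit 299) (nat_lit 288) (nat_lit 193))) (XT.nd (nat_lit 78) (nat_lit 0) (nat_lit 0) (XT.lf (nat_lit 0) (nat_lit 8218662554) (nat_lit 1064) (nat_lit 240414937) (nat_lit 1140) (nat_lit 3159238924) (nat_lit 207) (nat_lit 5) (nat_lit 221) (nat_lit 5) (nat_lit 222) (nat_lit 5) (nat_lit 300) (nat_lit 288) (nat_lit 192)) (XT.lf (nat_lit 76) (nat_lit 5451921628) (nat_lit 0) (nat_lit 3964944178)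 (nat_lit 1140) (nat_lit 2373981925) (nat_lit 208) (nat_lit 5) (nat_lit 207) (nat_lit 5) (nat_lit 222) (nat_lit 5) (nat_lit 301) (nat_lit 288) (nat_lit 191))))))))
noncomputable def xc174 : XT := (XT.nd (nat_lit 2028) (nat_lit 4256) (nat_lit 0) (XT.nd (nat_lit 1014) (nat_lit 3268) (nat_lit 0) (XT.nd (nat_lit 468) (nat_lit 1824) (nat_lit 0) (XT.nd (nat_lit 234) (nat_lit 1064) (nat_lit 0) (XT.nd (nat_lit 78) (nat_lit 1140) (nat_lit 0) (XT.lf (nat_lit 0) (nat_lit 10640567135) (nat_lit 1064) (nat_lit 670164313) (nat_lit 1140) (nat_lit 658163973) (nat_lit 208) (nat_lit 5) (nat_lit 222) (nat_lit 5) (nat_lit 223) (nat_lit 5) (nat_lit 302) (nat_lit 288) (nat_lit 190)) (XT.nd (nat_lit 78) (nat_lit 1140) (nat_lit 0) (XT.lf (nat_lit 76) (nat_lit 5216406193) (nat_lit 0) (nat_lit 6755252424) (nat_lit 1140) (nat_lit 178531759) (nat_lit 209) (nat_lit 5) (nat_lit 208) (nat_lit 5) (nat_lit 223) (nat_lit 5) (nat_lit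 303) (nat_lit 288) (nat_lit 189)) (XT.lf (nat_lit 0) (nat_lit 974444206) (nat_lit 1140) (nat_lit 1068181104) (nat_lit 1216) (nat_lit 10294384188) (nat_lit 193) (nat_lit 5) (nat_lit 208) (nat_lit 5) (nat_lit 209) (nat_lit 5) (nat_lit 304) (nat_lit 288) (nat_lit 188)))) (XT.nd (nat_lit 78) (nat_lit 1140) (nat_lit 0) (XT.lf (nat_lit 0) (nat_lit 2216592000) (nat_lit 1140) (nat_lit 7500363244) (nat_lit 76) (nat_lit 2810703779) (nat_lit 194) (nat_lit 5) (nat_lit 209) (nat_lit 5) (nat_lit 195) (nat_lit 5) (nat_lit 305) (nat_lit 288) (nat_lit 187)) (XT.nd (nat_lit 78) (nat_lit 1140) (nat_lit 0) (XT.lf (nat_lit 0) (nat_lit 3509553286) (nat_lit 1140) (nat_lit 1431538487) (nat_lit 76) (nat_lit 7782553074) (nat_lit 194) (nat_lit 5) (nat_lit 209) (nat_lit 5) (nat_lit 195) (nat_lit 5) (nat_lit 306) (nat_lit 288) (nat_lit 186)) (XT.lf (nat_lit 0) (nat_lit 4871631229) (nat_lit 1216) (nat_lit 8024534292) (nat_lit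 76) (nat_lit 28457498) (nat_lit 179) (nat_lit 5) (nat_lit 195) (nat_lit 5) (nat_lit 180) (nat_lit 5) (nat_lit 307) (nat_lit 288) (nat_lit 185))))) (XT.nd (nat_lit 234) (nat_lit 1216) (nat_lit 0) (XT.nd (nat_lit 78) (nat_lit 608) (nat_lit 0) (XT.lf (nat_lit 0) (nat_lit 6321414877) (nat_lit 1216) (nat_lit 1744252049) (nat_lit 76) (nat_lit 5064580258) (nat_lit 179) (nat_lit 5) (nat_lit 195) (nat_lit 5) (nat_lit 180) (nat_lit 5) (nat_lit 308) (nat_lit 288) (nat_lit 184)) (XT.nd (nat_lit 78) (nat_lit 0) (nat_lit 0) (XT.lf (nat_lit 0) (nat_lit 4803611062) (nat_lit 608) (nat_lit 3041064771) (nat_lit 684) (nat_lit 5496486035) (nat_lit 171) (nat_lit 5) (nat_lit 179) (nat_lit 5) (nat_lit 180) (nat_lit 5) (nat_lit 309) (nat_lit 288) (nat_lit 183)) (XT.lf (nat_lit 0) (nat_lit 9436093846) (nat_lit 684) (nat_lit 2009831256) (nat_lit 76) (nat_lit 2111825804) (nat_lit 171) (nat_lit 5) (nat_lit 180) (nat_lit 5)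 (nat_lit 172) (nat_lit 5) (nat_lit 310) (nat_lit 288) (nat_lit 182)))) (XT.nd (nat_lit 156) (nat_lit 608) (nat_lit 0) (XT.nd (nat_lit 78) (nat_lit 0) (nat_lit 0) (XT.lf (nat_lit 0) (nat_lit 4762038899) (nat_lit 608) (nat_lit 6373717527) (nat_lit 684) (nat_lit 2643286213) (nat_lit 163) (nat_lit 5) (nat_lit 171) (nat_lit 5) (nat_lit 172) (nat_lit 5) (nat_lit 311) (nat_lit 288) (nat_lit 181)) (XT.lf (nat_lit 0) (nat_lit 11763910888) (nat_lit 608) (nat_lit 1127720270) (nat_lit 684) (nat_lit 1115204800) (nat_lit 163) (nat_lit 5) (nat_lit 171) (nat_lit 5) (nat_lit 172) (nat_lit 5) (nat_lit 312) (nat_lit 288) (nat_lit 180))) (XT.nd (nat_lit 78) (nat_lit 0) (nat_lit 0) (XT.lf (nat_lit 0) (nat_lit 522809718) (nat_lit 608) (nat_lit 9472443186) (nat_lit 76) (nat_lit 4243905012) (nat_lit 155) (nat_lit 5) (nat_lit 163) (nat_lit 5) (nat_lit 156) (nat_lit 5) (nat_lit 313) (nat_lit 288) (nat_lit 179)) (XT.lf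 (nat_lit 0) (nat_lit 2207090740) (nat_lit 608) (nat_lit 2482145642) (nat_lit 76) (nat_lit 9788313530) (nat_lit 155) (nat_lit 5) (nat_lit 163) (nat_lit 5) (nat_lit 156) (nat_lit 5) (nat_lit 314) (nat_lit 288) (nat_lit 178)))))) (XT.nd (nat_lit 468) (nat_lit 1748) (nat_lit 0) (XT.nd (nat_lit 234) (nat_lit 532) (nat_lit 0) (XT.nd (nat_lit 78) (nat_lit 456) (nat_lit 0) (XT.lf (nat_lit 0) (nat_lit 3981853971) (nat_lit 608) (nat_lit 9932732134) (nat_lit 76) (nat_lit 807326276) (nat_lit 148) (nat_lit 5) (nat_lit 156) (nat_lit 5) (nat_lit 149) (nat_lit 5) (nat_lit 315) (nat_lit 288) (nat_lit 177)) (XT.nd (nat_lit 78) (nat_lit 456) (nat_lit 0) (XT.lf (nat_lit 0) (nat_lit 5867798508) (nat_lit 608) (nat_lit 2704434229) (nat_lit 76) (nat_lit 6399651656) (nat_lit 148) (nat_lit 5) (nat_lit 156) (nat_lit 5) (nat_lit 149) (nat_lit 5) (nat_lit 316) (nat_lit 288) (nat_lit 176)) (XT.lf (nat_lit 0) (nat_lit 4820771910)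 (nat_lit 456) (nat_lit 3022489056) (nat_lit 532) (nat_lit 7385122745) (nat_lit 142) (nat_lit 5) (nat_lit 148) (nat_lit 5) (nat_lit 149) (nat_lit 5) (nat_lit 317) (nat_lit 288) (nat_lit 175)))) (XT.nd (nat_lit 78) (nat_lit 532) (nat_lit 0) (XT.lf (nat_lit 0) (nat_lit 9918310416) (nat_lit 532) (nat_lit 2905027680) (nat_lit 76) (nat_lit 2668046075) (nat_lit 142) (nat_lit 5) (nat_lit 149) (nat_lit 5) (nat_lit 143) (nat_lit 5) (nat_lit 318) (nat_lit 288) (nat_lit 174)) (XT.nd (nat_lit 78) (nat_lit 0) (nat_lit 0) (XT.lf (nat_lit 0) (nat_lit 4873955488) (nat_lit 532) (nat_lit 7245665266) (nat_lit 608) (nat_lit 3640749003) (nat_lit 135) (nat_lit 5) (nat_lit 142) (nat_lit 5) (nat_lit 143) (nat_lit 5) (nat_lit 319) (nat_lit 288) (nat_lit 173)) (XT.lf (nat_lit 0) (nat_lit 12932132998) (nat_lit 532) (nat_lit 1471644755) (nat_lit 608) (nat_lit 1633157883) (nat_lit 135) (nat_lit 5) (nat_lit 142) (nat_lit 5)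 (nat_lit 143) (nat_lit 5) (nat_lit 320) (nat_lit 288) (nat_lit 172))))) (XT.nd (nat_lit 234) (nat_lit 760) (nat_lit 0) (XT.nd (nat_lit 78) (nat_lit 456) (nat_lit 0) (XT.lf (nat_lit 0) (nat_lit 505373380) (nat_lit 532) (nat_lit 11374278351) (nat_lit 76) (nat_lit 4439659675) (nat_lit 128) (nat_lit 5) (nat_lit 135) (nat_lit 5) (nat_lit 129) (nat_lit 5) (nat_lit 321) (nat_lit 288) (nat_lit 171)) (XT.nd (nat_lit 78) (nat_lit 456) (nat_lit 0) (XT.lf (nat_lit 0) (nat_lit 2709387392) (nat_lit 532) (nat_lit 3354073388) (nat_lit 76) (nat_lit 10545201700) (nat_lit 128) (nat_lit 5) (nat_lit 135) (nat_lit 5) (nat_lit 129) (nat_lit 5) (nat_lit 322) (nat_lit 288) (nat_lit 170)) (XT.lf (nat_lit 0) (nat_lit 4990713150) (nat_lit 456) (nat_lit 25052450) (nat_lit 532) (nat_lit 11889854453) (nat_lit 122) (nat_lit 5) (nat_lit 128) (nat_lit 5) (nat_lit 129) (nat_lit 5) (nat_lit 323) (nat_lit 288) (nat_lit 169)))) (XT.nd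 (nat_lit 156) (nat_lit 380) (nat_lit 0) (XT.nd (nat_lit 78) (nat_lit 380) (nat_lit 0) (XT.lf (nat_lit 0) (nat_lit 7473552493) (nat_lit 532) (nat_lit 3629373804) (nat_lit 76) (nat_lit 6106106427) (nat_lit 122) (nat_lit 5) (nat_lit 129) (nat_lit 5) (nat_lit 123) (nat_lit 5) (nat_lit 324) (nat_lit 288) (nat_lit 168)) (XT.lf (nat_lit 0) (nat_lit 4988598203) (nat_lit 380) (nat_lit 5053479232) (nat_lit 456) (nat_lit 7478372726) (nat_lit 117) (nat_lit 5) (nat_lit 122) (nat_lit 5) (nat_lit 123) (nat_lit 5) (nat_lit 325) (nat_lit 288) (nat_lit 167))) (XT.nd (nat_lit 78) (nat_lit 380) (nat_lit 0) (XT.lf (nat_lit 0) (nat_lit 12724971959) (nat_lit 456) (nat_lit 3925700701) (nat_lit 76) (nat_lit 1189430197) (nat_lit 117) (nat_lit 5) (nat_lit 123) (nat_lit 5) (nat_lit 118) (nat_lit 5) (nat_lit 326) (nat_lit 288) (nat_lit 166)) (XT.lf (nat_lit 0) (nat_lit 4972608126) (nat_lit 380) (nat_lit 10602883298) (nat_lit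 456) (nat_lit 2591251366) (nat_lit 112) (nat_lit 5) (nat_lit 117) (nat_lit 5) (nat_lit 118) (nat_lit 5) (nat_lit 327) (nat_lit 288) (nat_lit 165))))))) (XT.nd (nat_lit 1014) (nat_lit 2052) (nat_lit 0) (XT.nd (nat_lit 468) (nat_lit 1064) (nat_lit 0) (XT.nd (nat_lit 234) (nat_lit 684) (nat_lit 0) (XT.nd (nat_lit 78) (nat_lit 380) (nat_lit 0) (XT.lf (nat_lit 0) (nat_lit 37592275) (nat_lit 456) (nat_lit 4297247001) (nat_lit 76) (nat_lit 14167469043) (nat_lit 111) (nat_lit 5) (nat_lit 117) (nat_lit 5) (nat_lit 112) (nat_lit 5) (nat_lit 328) (nat_lit 288) (nat_lit 164)) (XT.nd (nat_lit 78) (nat_lit 0) (nat_lit 0) (XT.lf (nat_lit 0) (nat_lit 2751330174) (nat_lit 456) (nat_lit 13942919073) (nat_lit 76) (nat_lit 2151189370) (nat_lit 106) (nat_lit 5) (nat_lit 112) (nat_lit 5) (nat_lit 107) (nat_lit 5) (nat_lit 329) (nat_lit 288) (nat_lit 163)) (XT.lf (nat_lit 0) (nat_lit 5623063775) (nat_lit 456) (nat_lit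 4787445943) (nat_lit 76) (nat_lit 8786066080) (nat_lit 106) (nat_lit 5) (nat_lit 112) (nat_lit 5) (nat_lit 107) (nat_lit 5) (nat_lit 330) (nat_lit 288) (nat_lit 162)))) (XT.nd (nat_lit 78) (nat_lit 304) (nat_lit 0) (XT.lf (nat_lit 0) (nat_lit 4722312029) (nat_lit 380) (nat_lit 3894167956) (nat_lit 456) (nat_lit 10940711371) (nat_lit 101) (nat_lit 5) (nat_lit 106) (nat_lit 5) (nat_lit 107) (nat_lit 5) (nat_lit 331) (nat_lit 288) (nat_lit 161)) (XT.nd (nat_lit 78) (nat_lit 304) (nat_lit 0) (XT.lf (nat_lit 0) (nat_lit 11765885078) (nat_lit 456) (nat_lit 5351918654) (nat_lit 76) (nat_lit 2808845937) (nat_lit 101) (nat_lit 5) (nat_lit 107) (nat_lit 5) (nat_lit 102) (nat_lit 5) (nat_lit 332) (nat_lit 288) (nat_lit 160)) (XT.lf (nat_lit 0) (nat_lit 4451528903) (nat_lit 304) (nat_lit 10630152314) (nat_lit 380) (nat_lit 5223362841) (nat_lit 97) (nat_lit 5) (nat_lit 101) (nat_lit 5) (nat_lit 102) (nat_lit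 5) (nat_lit 333) (nat_lit 288) (nat_lit 159))))) (XT.nd (nat_lit 234) (nat_lit 608) (nat_lit 0) (XT.nd (nat_lit 78) (nat_lit 456) (nat_lit 0) (XT.lf (nat_lit 0) (nat_lit 14646598491) (nat_lit 304) (nat_lit 3895116303) (nat_lit 380) (nat_lit 2151741891) (nat_lit 97) (nat_lit 5) (nat_lit 101) (nat_lit 5) (nat_lit 102) (nat_lit 5) (nat_lit 334) (nat_lit 288) (nat_lit 158)) (XT.nd (nat_lit 78) (nat_lit 0) (nat_lit 0) (XT.lf (nat_lit 0) (nat_lit 1052404052) (nat_lit 456) (nat_lit 17009532524) (nat_lit 76) (nat_lit 3029498308) (nat_lit 91) (nat_lit 5) (nat_lit 97) (nat_lit 5) (nat_lit 92) (nat_lit 5) (nat_lit 335) (nat_lit 288) (nat_lit 157)) (XT.lf (nat_lit 0) (nat_lit 4400672338) (nat_lit 456) (nat_lit 6933671092) (nat_lit 76) (nat_lit 10163641015) (nat_lit 91) (nat_lit 5) (nat_lit 97) (nat_lit 5) (nat_lit 92) (nat_lit 5) (nat_lit 336) (nat_lit 288) (nat_lit 156)))) (XT.nd (nat_lit 156) (nat_lit 304)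 (nat_lit 0) (XT.nd (nat_lit 78) (nat_lit 0) (nat_lit 0) (XT.lf (nat_lit 0) (nat_lit 3500980540) (nat_lit 304) (nat_lit 4373337774) (nat_lit 380) (nat_lit 14041672566) (nat_lit 87) (nat_lit 5) (nat_lit 91) (nat_lit 5) (nat_lit 92) (nat_lit 5) (nat_lit 337) (nat_lit 288) (nat_lit 155)) (XT.lf (nat_lit 0) (nat_lit 11541153024) (nat_lit 380) (nat_lit 7993129043) (nat_lit 76) (nat_lit 2809594093) (nat_lit 87) (nat_lit 5) (nat_lit 92) (nat_lit 5) (nat_lit 88) (nat_lit 5) (nat_lit 338) (nat_lit 288) (nat_lit 154))) (XT.nd (nat_lit 78) (nat_lit 0) (nat_lit 0) (XT.lf (nat_lit 0) (nat_lit 2740000521) (nat_lit 304) (nat_lit 12639270013) (nat_lit 380) (nat_lit 7403496934) (nat_lit 83) (nat_lit 5) (nat_lit 87) (nat_lit 5) (nat_lit 88) (nat_lit 5) (nat_lit 339) (nat_lit 288) (nat_lit 153)) (XT.lf (nat_lit 0) (nat_lit 13947513686) (nat_lit 304) (nat_lit 5457504990) (nat_lit 380) (nat_lit 3827639797) (nat_lit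 83) (nat_lit 5) (nat_lit 87) (nat_lit 5) (nat_lit 88) (nat_lit 5) (nat_lit 340) (nat_lit 288) (nat_lit 152)))))) (XT.nd (nat_lit 546) (nat_lit 1140) (nat_lit 0) (XT.nd (nat_lit 234) (nat_lit 228) (nat_lit 0) (XT.nd (nat_lit 78) (nat_lit 380) (nat_lit 0) (XT.lf (nat_lit 0) (nat_lit 1800347002) (nat_lit 304) (nat_lit 21779125649) (nat_lit 380) (nat_lit 115742909) (nat_lit 79) (nat_lit 5) (nat_lit 83) (nat_lit 5) (nat_lit 84) (nat_lit 5) (nat_lit 341) (nat_lit 288) (nat_lit 151)) (XT.nd (nat_lit 78) (nat_lit 304) (nat_lit 0) (XT.lf (nat_lit 0) (nat_lit 3775910846) (nat_lit 380) (nat_lit 10862097562) (nat_lit 76) (nat_lit 9528356310) (nat_lit 78) (nat_lit 5) (nat_lit 83) (nat_lit 5) (nat_lit 79) (nat_lit 5) (nat_lit 342) (nat_lit 288) (nat_lit 150)) (XT.lf (nat_lit 0) (nat_lit 499184425) (nat_lit 304) (nat_lit 7279856365) (nat_lit 380) (nat_lit 16872668323) (nat_lit 74) (nat_lit 5) (nat_lit 78) (nat_lit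 5) (nat_lit 79) (nat_lit 5) (nat_lit 343) (nat_lit 288) (nat_lit 149)))) (XT.nd (nat_lit 156) (nat_lit 228) (nat_lit 0) (XT.nd (nat_lit 78) (nat_lit 0) (nat_lit 0) (XT.lf (nat_lit 0) (nat_lit 12008253723) (nat_lit 380) (nat_lit 12739478403) (nat_lit 76) (nat_lit 400708576) (nat_lit 74) (nat_lit 5) (nat_lit 79) (nat_lit 5) (nat_lit 75) (nat_lit 5) (nat_lit 344) (nat_lit 288) (nat_lit 148)) (XT.lf (nat_lit 0) (nat_lit 16428986503) (nat_lit 380) (nat_lit 1066955217) (nat_lit 76) (nat_lit 8162199555) (nat_lit 74) (nat_lit 5) (nat_lit 79) (nat_lit 5) (nat_lit 75) (nat_lit 5) (nat_lit 345) (nat_lit 288) (nat_lit 147))) (XT.nd (nat_lit 78) (nat_lit 0) (nat_lit 0) (XT.lf (nat_lit 0) (nat_lit 11163053982) (nat_lit 228) (nat_lit 9919375596) (nat_lit 304) (nat_lit 5097706796) (nat_lit 71) (nat_lit 5) (nat_lit 74) (nat_lit 5) (nat_lit 75) (nat_lit 5) (nat_lit 346) (nat_lit 288) (nat_lit 146)) (XT.lf (nat_lit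 0) (nat_lit 23771417071) (nat_lit 228) (nat_lit 2107725323) (nat_lit 304) (nat_lit 838544917) (nat_lit 71) (nat_lit 5) (nat_lit 74) (nat_lit 5) (nat_lit 75) (nat_lit 5) (nat_lit 347) (nat_lit 288) (nat_lit 145))))) (XT.nd (nat_lit 234) (nat_lit 532) (nat_lit 0) (XT.nd (nat_lit 78) (nat_lit 228) (nat_lit 0) (XT.lf (nat_lit 0) (nat_lit 3623051782) (nat_lit 380) (nat_lit 17695865976) (nat_lit 76) (nat_lit 5947112316) (nat_lit 66) (nat_lit 5) (nat_lit 71) (nat_lit 5) (nat_lit 67) (nat_lit 5) (nat_lit 348) (nat_lit 288) (nat_lit 144)) (XT.nd (nat_lit 78) (nat_lit 228) (nat_lit 0) (XT.lf (nat_lit 0) (nat_lit 8245656330) (nat_lit 380) (nat_lit 5347247303) (nat_lit 76) (nat_lit 14236355471) (nat_lit 66) (nat_lit 5) (nat_lit 71) (nat_lit 5) (nat_lit 67) (nat_lit 5) (nat_lit 349) (nat_lit 288) (nat_lit 143)) (XT.lf (nat_lit 0) (nat_lit 7508306869) (nat_lit 228) (nat_lit 5564106757) (nat_lit 304) (nat_lit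 15335012451) (nat_lit 63) (nat_lit 5) (nat_lit 66) (nat_lit 5) (nat_lit 67) (nat_lit 5) (nat_lit 350) (nat_lit 288) (nat_lit 142)))) (XT.nd (nat_lit 156) (nat_lit 304) (nat_lit 0) (XT.nd (nat_lit 78) (nat_lit 228) (nat_lit 0) (XT.lf (nat_lit 0) (nat_lit 18117880101) (nat_lit 304) (nat_lit 8178829065) (nat_lit 76) (nat_lit 2704016857) (nat_lit 63) (nat_lit 5) (nat_lit 67) (nat_lit 5) (nat_lit 64) (nat_lit 5) (nat_lit 351) (nat_lit 288) (nat_lit 141)) (XT.lf (nat_lit 0) (nat_lit 4954851232) (nat_lit 228) (nat_lit 18456139423) (nat_lit 304) (nat_lit 6197950916) (nat_lit 60) (nat_lit 5) (nat_lit 63) (nat_lit 5) (nat_lit 64) (nat_lit 5) (nat_lit 352) (nat_lit 288) (nat_lit 140))) (XT.nd (nat_lit 78) (nat_lit 304) (nat_lit 0) (XT.lf (nat_lit 0) (nat_lit 18640480769) (nat_lit 228) (nat_lit 10298658874) (nat_lit 304) (nat_lit 1293981449) (nat_lit 60) (nat_lit 5) (nat_lit 63) (nat_lit 5) (nat_lit 64) (nat_lit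 5) (nat_lit 353) (nat_lit 288) (nat_lit 139)) (XT.lf (nat_lit 0) (nat_lit 1851094546) (nat_lit 228) (nat_lit 1844265883) (nat_lit 304) (nat_lit 27179239644) (nat_lit 56) (nat_lit 5) (nat_lit 59) (nat_lit 5) (nat_lit 60) (nat_lit 5) (nat_lit 354) (nat_lit 288) (nat_lit 138))))))))
noncomputable def xc175 : XT := (XT.nd (nat_lit 2106) (nat_lit 836) (nat_lit 0) (XT.nd (nat_lit 1014) (nat_lit 912) (nat_lit 0) (XT.nd (nat_lit 468) (nat_lit 684) (nat_lit 0) (XT.nd (nat_lit 234) (nat_lit 228) (nat_lit 0) (XT.nd (nat_lit 78) (nat_lit 228) (nat_lit 0) (XT.lf (nat_lit 0) (nat_lit 8986407846) (nat_lit 304) (nat_lit 15685608935) (nat_lit 76) (nat_lit 6857585747) (nat_lit 56) (nat_lit 5) (nat_lit 60) (nat_lit 5) (nat_lit 57) (nat_lit 5) (nat_lit 355) (nat_lit 288) (nat_lit 137)) (XT.nd (nat_lit 78) (nat_lit 228) (nat_lit 0) (XT.lf (nat_lit 0) (nat_lit 14448458786) (nat_lit 304) (nat_lit 1975182337) (nat_lit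 76) (nat_lit 15780250091) (nat_lit 56) (nat_lit 5) (nat_lit 60) (nat_lit 5) (nat_lit 57) (nat_lit 5) (nat_lit 356) (nat_lit 288) (nat_lit 136)) (XT.lf (nat_lit 0) (nat_lit 12379042163) (nat_lit 228) (nat_lit 7808510465) (nat_lit 304) (nat_lit 12707464685) (nat_lit 53) (nat_lit 5) (nat_lit 56) (nat_lit 5) (nat_lit 57) (nat_lit 5) (nat_lit 357) (nat_lit 288) (nat_lit 135)))) (XT.nd (nat_lit 78) (nat_lit 228) (nat_lit 0) (XT.lf (nat_lit 0) (nat_lit 26123438489) (nat_lit 304) (nat_lit 6421462082) (nat_lit 76) (nat_lit 1061242117) (nat_lit 53) (nat_lit 5) (nat_lit 57) (nat_lit 5) (nat_lit 54) (nat_lit 5) (nat_lit 358) (nat_lit 288) (nat_lit 134)) (XT.nd (nat_lit 78) (nat_lit 76) (nat_lit 0) (XT.lf (nat_lit 0) (nat_lit 8169118930) (nat_lit 152) (nat_lit 24218526481) (nat_lit 228) (nat_lit 1946453033) (nat_lit 51) (nat_lit 5) (nat_lit 53) (nat_lit 5) (nat_lit 54) (nat_lit 5) (nat_lit 359) (nat_lit 288)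 (nat_lit 133)) (XT.lf (nat_lit 0) (nat_lit 3742507129) (nat_lit 228) (nat_lit 11798534535) (nat_lit 76) (nat_lit 19539974446) (nat_lit 50) (nat_lit 5) (nat_lit 53) (nat_lit 5) (nat_lit 51) (nat_lit 5) (nat_lit 360) (nat_lit 288) (nat_lit 132))))) (XT.nd (nat_lit 234) (nat_lit 456) (nat_lit 0) (XT.nd (nat_lit 78) (nat_lit 0) (nat_lit 0) (XT.lf (nat_lit 0) (nat_lit 3030127530) (nat_lit 228) (nat_lit 6556602693) (nat_lit 304) (nat_lit 26262325069) (nat_lit 47) (nat_lit 5) (nat_lit 50) (nat_lit 5) (nat_lit 51) (nat_lit 5) (nat_lit 361) (nat_lit 288) (nat_lit 131)) (XT.nd (nat_lit 78) (nat_lit 0) (nat_lit 0) (XT.lf (nat_lit 0) (nat_lit 15747163496) (nat_lit 304) (nat_lit 18126843159) (nat_lit 76) (nat_lit 2761906003) (nat_lit 47) (nat_lit 5) (nat_lit 51) (nat_lit 5) (nat_lit 48) (nat_lit 5) (nat_lit 362) (nat_lit 288) (nat_lit 130)) (XT.lf (nat_lit 0) (nat_lit 22152115974) (nat_lit 304) (nat_lit 3067341252)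 (nat_lit 76) (nat_lit 12225130740) (nat_lit 47) (nat_lit 5) (nat_lit 51) (nat_lit 5) (nat_lit 48) (nat_lit 5) (nat_lit 363) (nat_lit 288) (nat_lit 129)))) (XT.nd (nat_lit 156) (nat_lit 304) (nat_lit 0) (XT.nd (nat_lit 78) (nat_lit 0) (nat_lit 0) (XT.lf (nat_lit 0) (nat_lit 12683258885) (nat_lit 152) (nat_lit 16182818502) (nat_lit 228) (nat_lit 9407943647) (nat_lit 45) (nat_lit 5) (nat_lit 47) (nat_lit 5) (nat_lit 48) (nat_lit 5) (nat_lit 364) (nat_lit 288) (nat_lit 128)) (XT.lf (nat_lit 0) (nat_lit 28961151849) (nat_lit 152) (nat_lit 6846290500) (nat_lit 228) (nat_lit 3320118416) (nat_lit 45) (nat_lit 5) (nat_lit 47) (nat_lit 5) (nat_lit 48) (nat_lit 5) (nat_lit 365) (nat_lit 288) (nat_lit 127))) (XT.nd (nat_lit 78) (nat_lit 0) (nat_lit 0) (XT.lf (nat_lit 0) (nat_lit 2971036729) (nat_lit 304) (nat_lit 34234290106) (nat_lit 76) (nat_lit 2798184061) (nat_lit 41) (nat_lit 5) (nat_lit 45) (nat_lit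 5) (nat_lit 42) (nat_lit 5) (nat_lit 366) (nat_lit 288) (nat_lit 126)) (XT.lf (nat_lit 0) (nat_lit 9550799930) (nat_lit 304) (nat_lit 18621020238) (nat_lit 76) (nat_lit 12727937994) (nat_lit 41) (nat_lit 5) (nat_lit 45) (nat_lit 5) (nat_lit 42) (nat_lit 5) (nat_lit 367) (nat_lit 288) (nat_lit 125)))))) (XT.nd (nat_lit 546) (nat_lit 380) (nat_lit 0) (XT.nd (nat_lit 234) (nat_lit 380) (nat_lit 0) (XT.nd (nat_lit 78) (nat_lit 152) (nat_lit 0) (XT.lf (nat_lit 0) (nat_lit 16323239716) (nat_lit 304) (nat_lit 2547126429) (nat_lit 76) (nat_lit 22952671045) (nat_lit 41) (nat_lit 5) (nat_lit 45) (nat_lit 5) (nat_lit 42) (nat_lit 5) (nat_lit 368) (nat_lit 288) (nat_lit 124)) (XT.nd (nat_lit 78) (nat_lit 0) (nat_lit 0) (XT.lf (nat_lit 0) (nat_lit 14280092508) (nat_lit 152) (nat_lit 9151450229) (nat_lit 228) (nat_lit 19338493923) (nat_lit 39) (nat_lit 5) (nat_lit 41) (nat_lit 5) (nat_lit 42) (nat_lit 5) (nat_lit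 369) (nat_lit 288) (nat_lit 123)) (XT.lf (nat_lit 0) (nat_lit 30782782212) (nat_lit 228) (nat_lit 12096428614) (nat_lit 76) (nat_lit 865347359) (nat_lit 39) (nat_lit 5) (nat_lit 42) (nat_lit 5) (nat_lit 40) (nat_lit 5) (nat_lit 370) (nat_lit 288) (nat_lit 122)))) (XT.nd (nat_lit 156) (nat_lit 152) (nat_lit 0) (XT.nd (nat_lit 78) (nat_lit 76) (nat_lit 0) (XT.lf (nat_lit 0) (nat_lit 4784279861) (nat_lit 152) (nat_lit 33702463419) (nat_lit 228) (nat_lit 6257609156) (nat_lit 37) (nat_lit 5) (nat_lit 39) (nat_lit 5) (nat_lit 40) (nat_lit 5) (nat_lit 371) (nat_lit 288) (nat_lit 121)) (XT.lf (nat_lit 0) (nat_lit 754003090) (nat_lit 228) (nat_lit 23365917324) (nat_lit 76) (nat_lit 21650467014) (nat_lit 36) (nat_lit 5) (nat_lit 39) (nat_lit 5) (nat_lit 37) (nat_lit 5) (nat_lit 372) (nat_lit 288) (nat_lit 120))) (XT.nd (nat_lit 78) (nat_lit 152) (nat_lit 0) (XT.lf (nat_lit 0) (nat_lit 7845919555) (nat_lit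 228) (nat_lit 6343059479) (nat_lit 76) (nat_lit 32636496303) (nat_lit 36) (nat_lit 5) (nat_lit 39) (nat_lit 5) (nat_lit 37) (nat_lit 5) (nat_lit 373) (nat_lit 288) (nat_lit 119)) (XT.lf (nat_lit 0) (nat_lit 11406101389) (nat_lit 152) (nat_lit 3849986588) (nat_lit 228) (nat_lit 32652965396) (nat_lit 34) (nat_lit 5) (nat_lit 36) (nat_lit 5) (nat_lit 37) (nat_lit 5) (nat_lit 374) (nat_lit 288) (nat_lit 118))))) (XT.nd (nat_lit 234) (nat_lit 228) (nat_lit 0) (XT.nd (nat_lit 78) (nat_lit 152) (nat_lit 0) (XT.lf (nat_lit 0) (nat_lit 23014485699) (nat_lit 228) (nat_lit 19278432421) (nat_lit 76) (nat_lit 6728445154) (nat_lit 34) (nat_lit 5) (nat_lit 37) (nat_lit 5) (nat_lit 35) (nat_lit 5) (nat_lit 375) (nat_lit 288) (nat_lit 117)) (XT.nd (nat_lit 78) (nat_lit 152) (nat_lit 0) (XT.lf (nat_lit 0) (nat_lit 31039753804) (nat_lit 228) (nat_lit 1582079265) (nat_lit 76) (nat_lit 17544188040) (nat_lit 34) (nat_lit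 5) (nat_lit 37) (nat_lit 5) (nat_lit 35) (nat_lit 5) (nat_lit 376) (nat_lit 288) (nat_lit 116)) (XT.lf (nat_lit 0) (nat_lit 16969719086) (nat_lit 152) (nat_lit 22495300471) (nat_lit 228) (nat_lit 11875224057) (nat_lit 32) (nat_lit 5) (nat_lit 34) (nat_lit 5) (nat_lit 35) (nat_lit 5) (nat_lit 377) (nat_lit 288) (nat_lit 115)))) (XT.nd (nat_lit 156) (nat_lit 0) (nat_lit 0) (XT.nd (nat_lit 78) (nat_lit 228) (nat_lit 0) (XT.lf (nat_lit 0) (nat_lit 36103981286) (nat_lit 152) (nat_lit 12051204611) (nat_lit 228) (nat_lit 4394144682) (nat_lit 32) (nat_lit 5) (nat_lit 34) (nat_lit 5) (nat_lit 35) (nat_lit 5) (nat_lit 378) (nat_lit 288) (nat_lit 114)) (XT.lf (nat_lit 0) (nat_lit 2018735082) (nat_lit 152) (nat_lit 1243660163) (nat_lit 228) (nat_lit 50530872580) (nat_lit 29) (nat_lit 5) (nat_lit 31) (nat_lit 5) (nat_lit 32) (nat_lit 5) (nat_lit 379) (nat_lit 288) (nat_lit 113))) (XT.nd (nat_lit 78) (nat_lit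 0) (nat_lit 0) (XT.lf (nat_lit 0) (nat_lit 11319336755) (nat_lit 228) (nat_lit 33842319985) (nat_lit 76) (nat_lit 9903792443) (nat_lit 29) (nat_lit 5) (nat_lit 32) (nat_lit 5) (nat_lit 30) (nat_lit 5) (nat_lit 380) (nat_lit 288) (nat_lit 112)) (XT.lf (nat_lit 0) (nat_lit 19626671602) (nat_lit 228) (nat_lit 15390700070) (nat_lit 76) (nat_lit 21358165590) (nat_lit 29) (nat_lit 5) (nat_lit 32) (nat_lit 5) (nat_lit 30) (nat_lit 5) (nat_lit 381) (nat_lit 288) (nat_lit 111))))))) (XT.nd (nat_lit 1014) (nat_lit 228) (nat_lit 0) (XT.nd (nat_lit 468) (nat_lit 304) (nat_lit 0) (XT.nd (nat_lit 234) (nat_lit 152) (nat_lit 0) (XT.nd (nat_lit 78) (nat_lit 0) (nat_lit 0) (XT.lf (nat_lit 0) (nat_lit 3680218924) (nat_lit 152) (nat_lit 24534861393) (nat_lit 228) (nat_lit 29508893831) (nat_lit 27) (nat_lit 5) (nat_lit 29) (nat_lit 5) (nat_lit 30) (nat_lit 5) (nat_lit 382) (nat_lit 288) (nat_lit 110)) (XT.nd (nat_lit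 78) (nat_lit 0) (nat_lit 0) (XT.lf (nat_lit 0) (nat_lit 23632755359) (nat_lit 152) (nat_lit 13580324020) (nat_lit 228) (nat_lit 21895228348) (nat_lit 27) (nat_lit 5) (nat_lit 29) (nat_lit 5) (nat_lit 30) (nat_lit 5) (nat_lit 383) (nat_lit 288) (nat_lit 109)) (XT.lf (nat_lit 0) (nat_lit 44178038377) (nat_lit 152) (nat_lit 2299603521) (nat_lit 228) (nat_lit 14056632385) (nat_lit 27) (nat_lit 5) (nat_lit 29) (nat_lit 5) (nat_lit 30) (nat_lit 5) (nat_lit 384) (nat_lit 288) (nat_lit 108)))) (XT.nd (nat_lit 78) (nat_lit 76) (nat_lit 0) (XT.lf (nat_lit 0) (nat_lit 3305847128) (nat_lit 76) (nat_lit 52832356036) (nat_lit 152) (nat_lit 5861276446) (nat_lit 26) (nat_lit 5) (nat_lit 27) (nat_lit 5) (nat_lit 28) (nat_lit 4) (nat_lit 385) (nat_lit 288) (nat_lit 107)) (XT.nd (nat_lit 78) (nat_lit 0) (nat_lit 0) (XT.lf (nat_lit 0) (nat_lit 2715872473) (nat_lit 152) (nat_lit 39665557918) (nat_lit 76) (nat_lit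 21120879954) (nat_lit 25) (nat_lit 5) (nat_lit 27) (nat_lit 5) (nat_lit 26) (nat_lit 5) (nat_lit 386) (nat_lit 288) (nat_lit 106)) (XT.lf (nat_lit 0) (nat_lit 11429332590) (nat_lit 152) (nat_lit 20130253783) (nat_lit 76) (nat_lit 33488996069) (nat_lit 25) (nat_lit 5) (nat_lit 27) (nat_lit 5) (nat_lit 26) (nat_lit 5) (nat_lit 387) (nat_lit 288) (nat_lit 105))))) (XT.nd (nat_lit 234) (nat_lit 152) (nat_lit 0) (XT.nd (nat_lit 78) (nat_lit 152) (nat_lit 0) (XT.lf (nat_lit 0) (nat_lit 20401092220) (nat_lit 152) (nat_lit 14308220) (nat_lit 76) (nat_lit 46225936838) (nat_lit 25) (nat_lit 5) (nat_lit 27) (nat_lit 5) (nat_lit 26) (nat_lit 5) (nat_lit 388) (nat_lit 288) (nat_lit 104)) (XT.nd (nat_lit 78) (nat_lit 0) (nat_lit 0) (XT.lf (nat_lit 0) (nat_lit 21111823530) (nat_lit 152) (nat_lit 8730106998) (nat_lit 228) (nat_lit 38433947858) (nat_lit 23) (nat_lit 5) (nat_lit 25) (nat_lit 5) (nat_lit 26) (nat_lit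 5) (nat_lit 389) (nat_lit 288) (nat_lit 103)) (XT.lf (nat_lit 0) (nat_lit 39594919134) (nat_lit 228) (nat_lit 27124474654) (nat_lit 76) (nat_lit 3239195548) (nat_lit 23) (nat_lit 5) (nat_lit 26) (nat_lit 5) (nat_lit 24) (nat_lit 4) (nat_lit 390) (nat_lit 288) (nat_lit 102)))) (XT.nd (nat_lit 156) (nat_lit 76) (nat_lit 0) (XT.nd (nat_lit 78) (nat_lit 76) (nat_lit 0) (XT.lf (nat_lit 0) (nat_lit 49724023796) (nat_lit 228) (nat_lit 6575267557) (nat_lit 76) (nat_lit 15389985795) (nat_lit 23) (nat_lit 5) (nat_lit 26) (nat_lit 5) (nat_lit 24) (nat_lit 4) (nat_lit 391) (nat_lit 288) (nat_lit 101)) (XT.lf (nat_lit 0) (nat_lit 14875720059) (nat_lit 76) (nat_lit 45421450521) (nat_lit 152) (nat_lit 13170511229) (nat_lit 22) (nat_lit 5) (nat_lit 23) (nat_lit 5) (nat_lit 24) (nat_lit 4) (nat_lit 392) (nat_lit 288) (nat_lit 100))) (XT.nd (nat_lit 78) (nat_lit 76) (nat_lit 0) (XT.lf (nat_lit 0) (nat_lit 37100098044)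 (nat_lit 76) (nat_lit 34151020444) (nat_lit 152) (nat_lit 4046413169) (nat_lit 22) (nat_lit 5) (nat_lit 23) (nat_lit 5) (nat_lit 24) (nat_lit 4) (nat_lit 393) (nat_lit 288) (nat_lit 99)) (XT.lf (nat_lit 0) (nat_lit 5244245266) (nat_lit 152) (nat_lit 17247348624) (nat_lit 76) (nat_lit 54689223176) (nat_lit 21) (nat_lit 5) (nat_lit 23) (nat_lit 5) (nat_lit 22) (nat_lit 5) (nat_lit 394) (nat_lit 288) (nat_lit 98)))))) (XT.nd (nat_lit 32526) (nat_lit 0) (nat_lit 14060) (XT.nd (nat_lit 234) (nat_lit 76) (nat_lit 0) (XT.nd (nat_lit 78) (nat_lit 0) (nat_lit 0) (XT.lf (nat_lit 0) (nat_lit 4371787669) (nat_lit 152) (nat_lit 10399873588) (nat_lit 228) (nat_lit 64346558017) (nat_lit 19) (nat_lit 5) (nat_lit 21) (nat_lit 5) (nat_lit 22) (nat_lit 5) (nat_lit 395) (nat_lit 288) (nat_lit 97)) (XT.nd (nat_lit 78) (nat_lit 0) (nat_lit 0) (XT.lf (nat_lit 0) (nat_lit 24777894211) (nat_lit 228) (nat_lit 54141652685)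 (nat_lit 76) (nat_lit 2188407925) (nat_lit 19) (nat_lit 5) (nat_lit 22) (nat_lit 5) (nat_lit 20) (nat_lit 4) (nat_lit 396) (nat_lit 288) (nat_lit 96)) (XT.lf (nat_lit 0) (nat_lit 35184715845) (nat_lit 228) (nat_lit 33026273620) (nat_lit 76) (nat_lit 14943381996) (nat_lit 19) (nat_lit 5) (nat_lit 22) (nat_lit 5) (nat_lit 20) (nat_lit 4) (nat_lit 397) (nat_lit 288) (nat_lit 95)))) (XT.nd (nat_lit 32136) (nat_lit 0) (nat_lit 15124) (XT.nd (nat_lit 78) (nat_lit 76) (nat_lit 0) (XT.lf (nat_lit 0) (nat_lit 45901249550) (nat_lit 228) (nat_lit 11281874132) (nat_lit 76) (nat_lit 28079132741) (nat_lit 19) (nat_lit 5) (nat_lit 22) (nat_lit 5) (nat_lit 20) (nat_lit 4) (nat_lit 398) (nat_lit 288) (nat_lit 94)) (XT.lf (nat_lit 0) (nat_lit 11331667385) (nat_lit 76) (nat_lit 45714118822) (nat_lit 152) (nat_lit 30384397533) (nat_lit 18) (nat_lit 5) (nat_lit 19) (nat_lit 5) (nat_lit 20) (nat_lit 4) (nat_lit 399)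 (nat_lit 288) (nat_lit 93))) (XT.nd (nat_lit 78) (nat_lit 0) (nat_lit 0) (XT.lf (nat_lit 0) (nat_lit 2278795572) (nat_lit 0) (nat_lit 2278795572) (nat_lit 988) (nat_lit 498746346) (nat_lit 217) (nat_lit 5) (nat_lit 217) (nat_lit 3) (nat_lit 230) (nat_lit 3) (nat_lit 289) (nat_lit 289) (nat_lit 202)) (XT.lf (nat_lit 0) (nat_lit 9243539220) (nat_lit 0) (nat_lit 654411883) (nat_lit 988) (nat_lit 346075329) (nat_lit 217) (nat_lit 5) (nat_lit 217) (nat_lit 3) (nat_lit 230) (nat_lit 3) (nat_lit 290) (nat_lit 289) (nat_lit 201))))) (XT.nd (nat_lit 234) (nat_lit 0) (nat_lit 76) (XT.nd (nat_lit 78) (nat_lit 0) (nat_lit 0) (XT.lf (nat_lit 0) (nat_lit 361930727) (nat_lit 1064) (nat_lit 6664203110) (nat_lit 1140) (nat_lit 3351825607) (nat_lit 203) (nat_lit 5) (nat_lit 217) (nat_lit 5) (nat_lit 218) (nat_lit 5) (nat_lit 291) (nat_lit 289) (nat_lit 200)) (XT.nd (nat_lit 78) (nat_lit 0) (nat_lit 76) (XT.lf (nat_lit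 0) (nat_lit 1076135601) (nat_lit 1064) (nat_lit 1949594123) (nat_lit 1140) (nat_lit 7490355714) (nat_lit 203) (nat_lit 5) (nat_lit 217) (nat_lit 5) (nat_lit 218) (nat_lit 5) (nat_lit 292) (nat_lit 289) (nat_lit 199)) (XT.lf (nat_lit 0) (nat_lit 1826987157) (nat_lit 1064) (nat_lit 7718648244) (nat_lit 1140) (nat_lit 1112297391) (nat_lit 204) (nat_lit 5) (nat_lit 218) (nat_lit 5) (nat_lit 219) (nat_lit 5) (nat_lit 293) (nat_lit 289) (nat_lit 198)))) (XT.nd (nat_lit 156) (nat_lit 0) (nat_lit 76) (XT.nd (nat_lit 78) (nat_lit 0) (nat_lit 0) (XT.lf (nat_lit 0) (nat_lit 2626826285) (nat_lit 1064) (nat_lit 2833017030) (nat_lit 1140) (nat_lit 5343431591) (nat_lit 204) (nat_lit 5) (nat_lit 218) (nat_lit 5) (nat_lit 219) (nat_lit 5) (nat_lit 294) (nat_lit 289) (nat_lit 197)) (XT.lf (nat_lit 76) (nat_lit 2228876744) (nat_lit 0) (nat_lit 1220512379) (nat_lit 1140) (nat_lit 7503658536) (nat_lit 205) (nat_lit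 5) (nat_lit 204) (nat_lit 5) (nat_lit 219) (nat_lit 5) (nat_lit 295) (nat_lit 289) (nat_lit 196))) (XT.nd (nat_lit 78) (nat_lit 0) (nat_lit 0) (XT.lf (nat_lit 0) (nat_lit 4333675935) (nat_lit 1064) (nat_lit 3650720997) (nat_lit 1140) (nat_lit 3121836544) (nat_lit 205) (nat_lit 5) (nat_lit 219) (nat_lit 5) (nat_lit 220) (nat_lit 5) (nat_lit 296) (nat_lit 289) (nat_lit 195)) (XT.lf (nat_lit 76) (nat_lit 1579650938) (nat_lit 0) (nat_lit 3670667188) (nat_lit 1140) (nat_lit 6013552319) (nat_lit 206) (nat_lit 5) (nat_lit 205) (nat_lit 5) (nat_lit 220) (nat_lit 5) (nat_lit 297) (nat_lit 289) (nat_lit 194))))))))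
noncomputable def xc176 : XT := (XT.nd (nat_lit 2028) (nat_lit 4712) (nat_lit 0) (XT.nd (nat_lit 1014) (nat_lit 3268) (nat_lit 0) (XT.nd (nat_lit 468) (nat_lit 2660) (nat_lit 0) (XT.nd (nat_lit 234) (nat_lit 0) (nat_lit 76) (XT.nd (nat_lit 78) (nat_lit 0) (nat_lit 0) (XT.lf (nat_lit 0) (nat_lit 6218232119) (nat_lit 1064) (nat_lit 4405761202) (nat_lit 1140) (nat_lit 801559524) (nat_lit 206) (nat_lit 5) (nat_lit 220) (nat_lit 5) (nat_lit 221) (nat_lit 5) (nat_lit 298) (nat_lit 289) (nat_lit 193)) (XT.nd (nat_lit 78) (nat_lit 0) (nat_lit 0) (XT.lf (nat_lit 76) (nat_lit 1000037119) (nat_lit 0) (nat_lit 6240827779) (nat_lit 1140) (nat_lit 4350479016) (nat_lit 207) (nat_lit 5) (nat_lit 206) (nat_lit 5) (nat_lit 221) (nat_lit 5) (nat_lit 299) (nat_lit 289) (nat_lit 192)) (XT.lf (nat_lit 76) (nat_lit 6644277422) (nat_lit 0) (nat_lit 1674569461) (nat_lit 1140) (nat_lit 3442549530) (nat_lit 207) (nat_lit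 5) (nat_lit 206) (nat_lit 5) (nat_lit 221) (nat_lit 5) (nat_lit 300) (nat_lit 289) (nat_lit 191)))) (XT.nd (nat_lit 78) (nat_lit 0) (nat_lit 0) (XT.lf (nat_lit 76) (nat_lit 487397033) (nat_lit 0) (nat_lit 8956381761) (nat_lit 1140) (nat_lit 2492360372) (nat_lit 208) (nat_lit 5) (nat_lit 207) (nat_lit 5) (nat_lit 222) (nat_lit 5) (nat_lit 301) (nat_lit 289) (nat_lit 190)) (XT.nd (nat_lit 78) (nat_lit 0) (nat_lit 76) (XT.lf (nat_lit 76) (nat_lit 6333879946) (nat_lit 0) (nat_lit 4317903565) (nat_lit 1140) (nat_lit 1462887153) (nat_lit 208) (nat_lit 5) (nat_lit 207) (nat_lit 5) (nat_lit 222) (nat_lit 5) (nat_lit 302) (nat_lit 289) (nat_lit 189)) (XT.lf (nat_lit 76) (nat_lit 39187311) (nat_lit 0) (nat_lit 11843461174) (nat_lit 1140) (nat_lit 416336464) (nat_lit 209) (nat_lit 5) (nat_lit 208) (nat_lit 5) (nat_lit 223) (nat_lit 5) (nat_lit 303) (nat_lit 289) (nat_lit 188))))) (XT.nd (nat_lit 234) (nat_lit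 1672) (nat_lit 0) (XT.nd (nat_lit 78) (nat_lit 0) (nat_lit 0) (XT.lf (nat_lit 0) (nat_lit 732421143) (nat_lit 1140) (nat_lit 6399100037) (nat_lit 1216) (nat_lit 5354629048) (nat_lit 193) (nat_lit 5) (nat_lit 208) (nat_lit 5) (nat_lit 209) (nat_lit 5) (nat_lit 304) (nat_lit 289) (nat_lit 187)) (XT.nd (nat_lit 78) (nat_lit 0) (nat_lit 76) (XT.lf (nat_lit 0) (nat_lit 1889813983) (nat_lit 1140) (nat_lit 380876993) (nat_lit 1216) (nat_lit 10408662897) (nat_lit 193) (nat_lit 5) (nat_lit 208) (nat_lit 5) (nat_lit 209) (nat_lit 5) (nat_lit 305) (nat_lit 289) (nat_lit 186)) (XT.lf (nat_lit 0) (nat_lit 3148774678) (nat_lit 1140) (nat_lit 6984425669) (nat_lit 76) (nat_lit 2743170504) (nat_lit 194) (nat_lit 5) (nat_lit 209) (nat_lit 5) (nat_lit 195) (nat_lit 5) (nat_lit 306) (nat_lit 289) (nat_lit 185)))) (XT.nd (nat_lit 156) (nat_lit 608) (nat_lit 0) (XT.nd (nat_lit 78) (nat_lit 1140) (nat_lit 0) (XT.lf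 (nat_lit 0) (nat_lit 4455310678) (nat_lit 1140) (nat_lit 755117193) (nat_lit 76) (nat_lit 7868598221) (nat_lit 194) (nat_lit 5) (nat_lit 209) (nat_lit 5) (nat_lit 195) (nat_lit 5) (nat_lit 307) (nat_lit 289) (nat_lit 184)) (XT.lf (nat_lit 0) (nat_lit 5759702202) (nat_lit 1140) (nat_lit 80628867) (nat_lit 1216) (nat_lit 7446272584) (nat_lit 179) (nat_lit 5) (nat_lit 194) (nat_lit 5) (nat_lit 195) (nat_lit 5) (nat_lit 308) (nat_lit 289) (nat_lit 183))) (XT.nd (nat_lit 78) (nat_lit 608) (nat_lit 0) (XT.lf (nat_lit 0) (nat_lit 7308897953) (nat_lit 1216) (nat_lit 1078964151) (nat_lit 76) (nat_lit 5111307247) (nat_lit 179) (nat_lit 5) (nat_lit 195) (nat_lit 5) (nat_lit 180) (nat_lit 5) (nat_lit 309) (nat_lit 289) (nat_lit 182)) (XT.lf (nat_lit 0) (nat_lit 5658299408) (nat_lit 608) (nat_lit 3203149783) (nat_lit 684) (nat_lit 4855485095) (nat_lit 171) (nat_lit 5) (nat_lit 179) (nat_lit 5) (nat_lit 180)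 (nat_lit 5) (nat_lit 310) (nat_lit 289) (nat_lit 181)))))) (XT.nd (nat_lit 468) (nat_lit 1520) (nat_lit 0) (XT.nd (nat_lit 234) (nat_lit 1140) (nat_lit 0) (XT.nd (nat_lit 78) (nat_lit 608) (nat_lit 0) (XT.lf (nat_lit 0) (nat_lit 10477188312) (nat_lit 684) (nat_lit 1355831499) (nat_lit 76) (nat_lit 2107733519) (nat_lit 171) (nat_lit 5) (nat_lit 180) (nat_lit 5) (nat_lit 172) (nat_lit 5) (nat_lit 311) (nat_lit 289) (nat_lit 180)) (XT.nd (nat_lit 78) (nat_lit 0) (nat_lit 0) (XT.lf (nat_lit 0) (nat_lit 5612191872) (nat_lit 608) (nat_lit 6600369810) (nat_lit 684) (nat_lit 1956609335) (nat_lit 163) (nat_lit 5) (nat_lit 171) (nat_lit 5) (nat_lit 172) (nat_lit 5) (nat_lit 312) (nat_lit 289) (nat_lit 179)) (XT.lf (nat_lit 0) (nat_lit 12803519288) (nat_lit 608) (nat_lit 1195960380) (nat_lit 684) (nat_lit 404995444) (nat_lit 163) (nat_lit 5) (nat_lit 171) (nat_lit 5) (nat_lit 172) (nat_lit 5) (nat_lit 313)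 (nat_lit 289) (nat_lit 178)))) (XT.nd (nat_lit 78) (nat_lit 532) (nat_lit 0) (XT.lf (nat_lit 0) (nat_lit 1252907116) (nat_lit 608) (nat_lit 9038887865) (nat_lit 76) (nat_lit 4352225896) (nat_lit 155) (nat_lit 5) (nat_lit 163) (nat_lit 5) (nat_lit 156) (nat_lit 5) (nat_lit 314) (nat_lit 289) (nat_lit 177)) (XT.nd (nat_lit 78) (nat_lit 532) (nat_lit 0) (XT.lf (nat_lit 0) (nat_lit 2966908419) (nat_lit 608) (nat_lit 1859786113) (nat_lit 76) (nat_lit 10063519959) (nat_lit 155) (nat_lit 5) (nat_lit 163) (nat_lit 5) (nat_lit 156) (nat_lit 5) (nat_lit 315) (nat_lit 289) (nat_lit 176)) (XT.lf (nat_lit 0) (nat_lit 4781440799) (nat_lit 608) (nat_lit 9519587550) (nat_lit 76) (nat_lit 841308565) (nat_lit 148) (nat_lit 5) (nat_lit 156) (nat_lit 5) (nat_lit 149) (nat_lit 5) (nat_lit 316) (nat_lit 289) (nat_lit 175))))) (XT.nd (nat_lit 234) (nat_lit 1064) (nat_lit 0) (XT.nd (nat_lit 78) (nat_lit 456) (nat_lit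 0) (XT.lf (nat_lit 0) (nat_lit 6704154026) (nat_lit 608) (nat_lit 2095153131) (nat_lit 76) (nat_lit 6601119361) (nat_lit 148) (nat_lit 5) (nat_lit 156) (nat_lit 5) (nat_lit 149) (nat_lit 5) (nat_lit 317) (nat_lit 289) (nat_lit 174)) (XT.nd (nat_lit 78) (nat_lit 0) (nat_lit 0) (XT.lf (nat_lit 0) (nat_lit 5649040427) (nat_lit 456) (nat_lit 3077178882) (nat_lit 532) (nat_lit 6938804779) (nat_lit 142) (nat_lit 5) (nat_lit 148) (nat_lit 5) (nat_lit 149) (nat_lit 5) (nat_lit 318) (nat_lit 289) (nat_lit 173)) (XT.lf (nat_lit 0) (nat_lit 10844992176) (nat_lit 532) (nat_lit 2309158524) (nat_lit 76) (nat_lit 2782342459) (nat_lit 142) (nat_lit 5) (nat_lit 149) (nat_lit 5) (nat_lit 143) (nat_lit 5) (nat_lit 319) (nat_lit 289) (nat_lit 172)))) (XT.nd (nat_lit 156) (nat_lit 532) (nat_lit 0) (XT.nd (nat_lit 78) (nat_lit 0) (nat_lit 0) (XT.lf (nat_lit 0) (nat_lit 5696497865) (nat_lit 532) (nat_lit 7404020951)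 (nat_lit 608) (nat_lit 3113406281) (nat_lit 135) (nat_lit 5) (nat_lit 142) (nat_lit 5) (nat_lit 143) (nat_lit 5) (nat_lit 320) (nat_lit 289) (nat_lit 171)) (XT.lf (nat_lit 0) (nat_lit 13976721951) (nat_lit 532) (nat_lit 1458498687) (nat_lit 608) (nat_lit 1064128161) (nat_lit 135) (nat_lit 5) (nat_lit 142) (nat_lit 5) (nat_lit 143) (nat_lit 5) (nat_lit 321) (nat_lit 289) (nat_lit 170))) (XT.nd (nat_lit 78) (nat_lit 0) (nat_lit 0) (XT.lf (nat_lit 0) (nat_lit 1115876007) (nat_lit 532) (nat_lit 11034830538) (nat_lit 76) (nat_lit 4639649985) (nat_lit 128) (nat_lit 5) (nat_lit 135) (nat_lit 5) (nat_lit 129) (nat_lit 5) (nat_lit 322) (nat_lit 289) (nat_lit 169)) (XT.lf (nat_lit 0) (nat_lit 3368670398) (nat_lit 532) (nat_lit 2793844947) (nat_lit 76) (nat_lit 10926412625) (nat_lit 128) (nat_lit 5) (nat_lit 135) (nat_lit 5) (nat_lit 129) (nat_lit 5) (nat_lit 323) (nat_lit 289) (nat_lit 168))))))) (XT.nd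 (nat_lit 1014) (nat_lit 1900) (nat_lit 0) (XT.nd (nat_lit 468) (nat_lit 1520) (nat_lit 0) (XT.nd (nat_lit 234) (nat_lit 456) (nat_lit 0) (XT.nd (nat_lit 78) (nat_lit 380) (nat_lit 0) (XT.lf (nat_lit 0) (nat_lit 5734282619) (nat_lit 532) (nat_lit 11600910849) (nat_lit 76) (nat_lit 59918580) (nat_lit 122) (nat_lit 5) (nat_lit 129) (nat_lit 5) (nat_lit 123) (nat_lit 5) (nat_lit 324) (nat_lit 289) (nat_lit 167)) (XT.nd (nat_lit 78) (nat_lit 380) (nat_lit 0) (XT.lf (nat_lit 0) (nat_lit 8249498966) (nat_lit 532) (nat_lit 3086609176) (nat_lit 76) (nat_lit 6372026586) (nat_lit 122) (nat_lit 5) (nat_lit 129) (nat_lit 5) (nat_lit 123) (nat_lit 5) (nat_lit 325) (nat_lit 289) (nat_lit 166)) (XT.lf (nat_lit 0) (nat_lit 5783513307) (nat_lit 380) (nat_lit 5101698862) (nat_lit 456) (nat_lit 7143996507) (nat_lit 117) (nat_lit 5) (nat_lit 122) (nat_lit 5) (nat_lit 123) (nat_lit 5) (nat_lit 326) (nat_lit 289) (nat_lit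 165)))) (XT.nd (nat_lit 78) (nat_lit 456) (nat_lit 0) (XT.lf (nat_lit 0) (nat_lit 13633775689) (nat_lit 456) (nat_lit 3401609247) (nat_lit 76) (nat_lit 1323527995) (nat_lit 117) (nat_lit 5) (nat_lit 123) (nat_lit 5) (nat_lit 118) (nat_lit 5) (nat_lit 327) (nat_lit 289) (nat_lit 164)) (XT.nd (nat_lit 78) (nat_lit 76) (nat_lit 0) (XT.lf (nat_lit 0) (nat_lit 5757356076) (nat_lit 380) (nat_lit 10803213042) (nat_lit 456) (nat_lit 2135077124) (nat_lit 112) (nat_lit 5) (nat_lit 117) (nat_lit 5) (nat_lit 118) (nat_lit 5) (nat_lit 328) (nat_lit 289) (nat_lit 163)) (XT.lf (nat_lit 0) (nat_lit 546965908) (nat_lit 456) (nat_lit 3798459313) (nat_lit 76) (nat_lit 14696172930) (nat_lit 111) (nat_lit 5) (nat_lit 117) (nat_lit 5) (nat_lit 112) (nat_lit 5) (nat_lit 329) (nat_lit 289) (nat_lit 162))))) (XT.nd (nat_lit 234) (nat_lit 760) (nat_lit 0) (XT.nd (nat_lit 78) (nat_lit 380) (nat_lit 0) (XT.lf (nat_lit 0)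 (nat_lit 3334461421) (nat_lit 456) (nat_lit 13725330480) (nat_lit 76) (nat_lit 2335475589) (nat_lit 106) (nat_lit 5) (nat_lit 112) (nat_lit 5) (nat_lit 107) (nat_lit 5) (nat_lit 330) (nat_lit 289) (nat_lit 161)) (XT.nd (nat_lit 78) (nat_lit 380) (nat_lit 0) (XT.lf (nat_lit 0) (nat_lit 6277766700) (nat_lit 456) (nat_lit 4313713821) (nat_lit 76) (nat_lit 9165910722) (nat_lit 106) (nat_lit 5) (nat_lit 112) (nat_lit 5) (nat_lit 107) (nat_lit 5) (nat_lit 331) (nat_lit 289) (nat_lit 160)) (XT.lf (nat_lit 0) (nat_lit 5475284385) (nat_lit 380) (nat_lit 3877421569) (nat_lit 456) (nat_lit 10776382302) (nat_lit 101) (nat_lit 5) (nat_lit 106) (nat_lit 5) (nat_lit 107) (nat_lit 5) (nat_lit 332) (nat_lit 289) (nat_lit 159)))) (XT.nd (nat_lit 156) (nat_lit 456) (nat_lit 0) (XT.nd (nat_lit 78) (nat_lit 304) (nat_lit 0) (XT.lf (nat_lit 0) (nat_lit 12583925260) (nat_lit 456) (nat_lit 4905837510) (nat_lit 76) (nat_lit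 3020261768) (nat_lit 101) (nat_lit 5) (nat_lit 107) (nat_lit 5) (nat_lit 102) (nat_lit 5) (nat_lit 333) (nat_lit 289) (nat_lit 158)) (XT.lf (nat_lit 0) (nat_lit 5185766036) (nat_lit 304) (nat_lit 10805657917) (nat_lit 380) (nat_lit 4908593714) (nat_lit 97) (nat_lit 5) (nat_lit 101) (nat_lit 5) (nat_lit 102) (nat_lit 5) (nat_lit 334) (nat_lit 289) (nat_lit 157))) (XT.nd (nat_lit 78) (nat_lit 456) (nat_lit 0) (XT.lf (nat_lit 0) (nat_lit 15669191849) (nat_lit 304) (nat_lit 3872747495) (nat_lit 380) (nat_lit 1758556272) (nat_lit 97) (nat_lit 5) (nat_lit 101) (nat_lit 5) (nat_lit 102) (nat_lit 5) (nat_lit 335) (nat_lit 289) (nat_lit 156)) (XT.lf (nat_lit 0) (nat_lit 1526747579) (nat_lit 456) (nat_lit 16920804029) (nat_lit 76) (nat_lit 3262923182) (nat_lit 91) (nat_lit 5) (nat_lit 97) (nat_lit 5) (nat_lit 92) (nat_lit 5) (nat_lit 336) (nat_lit 289) (nat_lit 155)))))) (XT.nd (nat_lit 546) (nat_lit 912)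 (nat_lit 0) (XT.nd (nat_lit 234) (nat_lit 684) (nat_lit 0) (XT.nd (nat_lit 78) (nat_lit 304) (nat_lit 0) (XT.lf (nat_lit 0) (nat_lit 4962567659) (nat_lit 456) (nat_lit 6560113778) (nat_lit 76) (nat_lit 10606938521) (nat_lit 91) (nat_lit 5) (nat_lit 97) (nat_lit 5) (nat_lit 92) (nat_lit 5) (nat_lit 337) (nat_lit 289) (nat_lit 154)) (XT.nd (nat_lit 78) (nat_lit 0) (nat_lit 0) (XT.lf (nat_lit 0) (nat_lit 4181875761) (nat_lit 304) (nat_lit 4351562193) (nat_lit 380) (nat_lit 14026950061) (nat_lit 87) (nat_lit 5) (nat_lit 91) (nat_lit 5) (nat_lit 92) (nat_lit 5) (nat_lit 338) (nat_lit 289) (nat_lit 153)) (XT.lf (nat_lit 0) (nat_lit 12299388184) (nat_lit 380) (nat_lit 7662556021) (nat_lit 76) (nat_lit 3039503865) (nat_lit 87) (nat_lit 5) (nat_lit 92) (nat_lit 5) (nat_lit 88) (nat_lit 5) (nat_lit 339) (nat_lit 289) (nat_lit 152)))) (XT.nd (nat_lit 156) (nat_lit 380) (nat_lit 0) (XT.nd (nat_lit 78) (nat_lit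 0) (nat_lit 0) (XT.lf (nat_lit 0) (nat_lit 3386975597) (nat_lit 304) (nat_lit 12859102568) (nat_lit 380) (nat_lit 7207636278) (nat_lit 83) (nat_lit 5) (nat_lit 87) (nat_lit 5) (nat_lit 88) (nat_lit 5) (nat_lit 340) (nat_lit 289) (nat_lit 151)) (XT.lf (nat_lit 0) (nat_lit 14914264399) (nat_lit 304) (nat_lit 5466525727) (nat_lit 380) (nat_lit 3536677181) (nat_lit 83) (nat_lit 5) (nat_lit 87) (nat_lit 5) (nat_lit 88) (nat_lit 5) (nat_lit 341) (nat_lit 289) (nat_lit 150))) (XT.nd (nat_lit 78) (nat_lit 0) (nat_lit 0) (XT.lf (nat_lit 0) (nat_lit 276227559) (nat_lit 380) (nat_lit 21988874733) (nat_lit 76) (nat_lit 2128869124) (nat_lit 78) (nat_lit 5) (nat_lit 83) (nat_lit 5) (nat_lit 79) (nat_lit 5) (nat_lit 342) (nat_lit 289) (nat_lit 149)) (XT.lf (nat_lit 0) (nat_lit 4270854617) (nat_lit 380) (nat_lit 10642626593) (nat_lit 76) (nat_lit 9966092906) (nat_lit 78) (nat_lit 5) (nat_lit 83) (nat_lit 5) (nat_lit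 79) (nat_lit 5) (nat_lit 343) (nat_lit 289) (nat_lit 148))))) (XT.nd (nat_lit 234) (nat_lit 608) (nat_lit 0) (XT.nd (nat_lit 78) (nat_lit 0) (nat_lit 0) (XT.lf (nat_lit 0) (nat_lit 1054147443) (nat_lit 304) (nat_lit 7334005208) (nat_lit 380) (nat_lit 16991513624) (nat_lit 74) (nat_lit 5) (nat_lit 78) (nat_lit 5) (nat_lit 79) (nat_lit 5) (nat_lit 344) (nat_lit 289) (nat_lit 147)) (XT.nd (nat_lit 78) (nat_lit 0) (nat_lit 0) (XT.lf (nat_lit 0) (nat_lit 12734830924) (nat_lit 380) (nat_lit 12587679496) (nat_lit 76) (nat_lit 569081097) (nat_lit 74) (nat_lit 5) (nat_lit 79) (nat_lit 5) (nat_lit 75) (nat_lit 5) (nat_lit 345) (nat_lit 289) (nat_lit 146)) (XT.lf (nat_lit 0) (nat_lit 17277515894) (nat_lit 380) (nat_lit 580533525) (nat_lit 76) (nat_lit 8558862885) (nat_lit 74) (nat_lit 5) (nat_lit 79) (nat_lit 5) (nat_lit 75) (nat_lit 5) (nat_lit 346) (nat_lit 289) (nat_lit 145)))) (XT.nd (nat_lit 156) (nat_lit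 380) (nat_lit 0) (XT.nd (nat_lit 78) (nat_lit 0) (nat_lit 0) (XT.lf (nat_lit 0) (nat_lit 12011293300) (nat_lit 228) (nat_lit 10053844551) (nat_lit 304) (nat_lit 4889600975) (nat_lit 71) (nat_lit 5) (nat_lit 74) (nat_lit 5) (nat_lit 75) (nat_lit 5) (nat_lit 347) (nat_lit 289) (nat_lit 144)) (XT.lf (nat_lit 0) (nat_lit 24982955406) (nat_lit 228) (nat_lit 2012595614) (nat_lit 304) (nat_lit 513179881) (nat_lit 71) (nat_lit 5) (nat_lit 74) (nat_lit 5) (nat_lit 75) (nat_lit 5) (nat_lit 348) (nat_lit 289) (nat_lit 143))) (XT.nd (nat_lit 78) (nat_lit 0) (nat_lit 0) (XT.lf (nat_lit 0) (nat_lit 4071784268) (nat_lit 380) (nat_lit 17717318431) (nat_lit 76) (nat_lit 6284437469) (nat_lit 66) (nat_lit 5) (nat_lit 71) (nat_lit 5) (nat_lit 67) (nat_lit 5) (nat_lit 349) (nat_lit 289) (nat_lit 142)) (XT.lf (nat_lit 0) (nat_lit 8823162847) (nat_lit 380) (nat_lit 5013078777) (nat_lit 76) (nat_lit 14817729420) (nat_lit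 66) (nat_lit 5) (nat_lit 71) (nat_lit 5) (nat_lit 67) (nat_lit 5) (nat_lit 350) (nat_lit 289) (nat_lit 141))))))))
noncomputable def xc177 : XT := (XT.nd (nat_lit 2028) (nat_lit 1140) (nat_lit 0) (XT.nd (nat_lit 1014) (nat_lit 988) (nat_lit 0) (XT.nd (nat_lit 468) (nat_lit 684) (nat_lit 0) (XT.nd (nat_lit 234) (nat_lit 304) (nat_lit 0) (XT.nd (nat_lit 78) (nat_lit 228) (nat_lit 0) (XT.lf (nat_lit 0) (nat_lit 8223293138) (nat_lit 228) (nat_lit 5566521740) (nat_lit 304) (nat_lit 15459823010) (nat_lit 63) (nat_lit 5) (nat_lit 66) (nat_lit 5) (nat_lit 67) (nat_lit 5) (nat_lit 351) (nat_lit 289) (nat_lit 140)) (XT.nd (nat_lit 78) (nat_lit 228) (nat_lit 0) (XT.lf (nat_lit 0) (nat_lit 18978707958) (nat_lit 304) (nat_lit 7940536965) (nat_lit 76) (nat_lit 2941737432) (nat_lit 63) (nat_lit 5) (nat_lit 67) (nat_lit 5) (nat_lit 64) (nat_lit 5) (nat_lit 352) (nat_lit 289) (nat_lit 139)) (XT.lf (nat_lit 0)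 (nat_lit 5582412006) (nat_lit 228) (nat_lit 18843561950) (nat_lit 304) (nat_lit 6061616735) (nat_lit 60) (nat_lit 5) (nat_lit 63) (nat_lit 5) (nat_lit 64) (nat_lit 5) (nat_lit 353) (nat_lit 289) (nat_lit 138)))) (XT.nd (nat_lit 78) (nat_lit 304) (nat_lit 0) (XT.lf (nat_lit 0) (nat_lit 19664661441) (nat_lit 228) (nat_lit 10446199558) (nat_lit 304) (nat_lit 1019914768) (nat_lit 60) (nat_lit 5) (nat_lit 63) (nat_lit 5) (nat_lit 64) (nat_lit 5) (nat_lit 354) (nat_lit 289) (nat_lit 137)) (XT.nd (nat_lit 78) (nat_lit 0) (nat_lit 0) (XT.lf (nat_lit 0) (nat_lit 2373304372) (nat_lit 228) (nat_lit 1735248086) (nat_lit 304) (nat_lit 27682996486) (nat_lit 56) (nat_lit 5) (nat_lit 59) (nat_lit 5) (nat_lit 60) (nat_lit 5) (nat_lit 355) (nat_lit 289) (nat_lit 136)) (XT.lf (nat_lit 0) (nat_lit 9551059314) (nat_lit 304) (nat_lit 15695607952) (nat_lit 76) (nat_lit 7219758752) (nat_lit 56) (nat_lit 5) (nat_lit 60)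 (nat_lit 5) (nat_lit 57) (nat_lit 5) (nat_lit 356) (nat_lit 289) (nat_lit 135))))) (XT.nd (nat_lit 234) (nat_lit 456) (nat_lit 0) (XT.nd (nat_lit 78) (nat_lit 228) (nat_lit 0) (XT.lf (nat_lit 0) (nat_lit 15168377823) (nat_lit 304) (nat_lit 1587283195) (nat_lit 76) (nat_lit 16405546364) (nat_lit 56) (nat_lit 5) (nat_lit 60) (nat_lit 5) (nat_lit 57) (nat_lit 5) (nat_lit 357) (nat_lit 289) (nat_lit 134)) (XT.nd (nat_lit 78) (nat_lit 0) (nat_lit 0) (XT.lf (nat_lit 0) (nat_lit 13193184171) (nat_lit 228) (nat_lit 7882372844) (nat_lit 304) (nat_lit 12797638889) (nat_lit 53) (nat_lit 5) (nat_lit 56) (nat_lit 5) (nat_lit 57) (nat_lit 5) (nat_lit 358) (nat_lit 289) (nat_lit 133)) (XT.lf (nat_lit 0) (nat_lit 27182791744) (nat_lit 304) (nat_lit 6177308977) (nat_lit 76) (nat_lit 1245761994) (nat_lit 53) (nat_lit 5) (nat_lit 57) (nat_lit 5) (nat_lit 54) (nat_lit 5) (nat_lit 359) (nat_lit 289) (nat_lit 132))))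 (XT.nd (nat_lit 156) (nat_lit 228) (nat_lit 0) (XT.nd (nat_lit 78) (nat_lit 76) (nat_lit 0) (XT.lf (nat_lit 0) (nat_lit 8846707142) (nat_lit 152) (nat_lit 24784346683) (nat_lit 228) (nat_lit 1724725122) (nat_lit 51) (nat_lit 5) (nat_lit 53) (nat_lit 5) (nat_lit 54) (nat_lit 5) (nat_lit 360) (nat_lit 289) (nat_lit 131)) (XT.lf (nat_lit 0) (nat_lit 4121437996) (nat_lit 228) (nat_lit 11727088245) (nat_lit 76) (nat_lit 20276742458) (nat_lit 50) (nat_lit 5) (nat_lit 53) (nat_lit 5) (nat_lit 51) (nat_lit 5) (nat_lit 361) (nat_lit 289) (nat_lit 130))) (XT.nd (nat_lit 78) (nat_lit 0) (nat_lit 0) (XT.lf (nat_lit 0) (nat_lit 3542263070) (nat_lit 228) (nat_lit 6595007180) (nat_lit 304) (nat_lit 26779195524) (nat_lit 47) (nat_lit 5) (nat_lit 50) (nat_lit 5) (nat_lit 51) (nat_lit 5) (nat_lit 362) (nat_lit 289) (nat_lit 129)) (XT.lf (nat_lit 0) (nat_lit 16476335425) (nat_lit 304) (nat_lit 18255336535) (nat_lit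 76) (nat_lit 2995447373) (nat_lit 47) (nat_lit 5) (nat_lit 51) (nat_lit 5) (nat_lit 48) (nat_lit 5) (nat_lit 363) (nat_lit 289) (nat_lit 128)))))) (XT.nd (nat_lit 468) (nat_lit 532) (nat_lit 0) (XT.nd (nat_lit 234) (nat_lit 304) (nat_lit 0) (XT.nd (nat_lit 78) (nat_lit 152) (nat_lit 0) (XT.lf (nat_lit 0) (nat_lit 23065958118) (nat_lit 304) (nat_lit 2756146034) (nat_lit 76) (nat_lit 12738179992) (nat_lit 47) (nat_lit 5) (nat_lit 51) (nat_lit 5) (nat_lit 48) (nat_lit 5) (nat_lit 364) (nat_lit 289) (nat_lit 127)) (XT.nd (nat_lit 78) (nat_lit 0) (nat_lit 0) (XT.lf (nat_lit 0) (nat_lit 13463019014) (nat_lit 152) (nat_lit 16514896769) (nat_lit 228) (nat_lit 9436791849) (nat_lit 45) (nat_lit 5) (nat_lit 47) (nat_lit 5) (nat_lit 48) (nat_lit 5) (nat_lit 365) (nat_lit 289) (nat_lit 126)) (XT.lf (nat_lit 0) (nat_lit 30217619766) (nat_lit 152) (nat_lit 6902741072) (nat_lit 228) (nat_lit 3173712156) (nat_lit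 45) (nat_lit 5) (nat_lit 47) (nat_lit 5) (nat_lit 48) (nat_lit 5) (nat_lit 366) (nat_lit 289) (nat_lit 125)))) (XT.nd (nat_lit 78) (nat_lit 0) (nat_lit 0) (XT.lf (nat_lit 0) (nat_lit 3299538060) (nat_lit 304) (nat_lit 34866751689) (nat_lit 76) (nat_lit 3030000453) (nat_lit 41) (nat_lit 5) (nat_lit 45) (nat_lit 5) (nat_lit 42) (nat_lit 5) (nat_lit 367) (nat_lit 289) (nat_lit 124)) (XT.nd (nat_lit 78) (nat_lit 0) (nat_lit 0) (XT.lf (nat_lit 0) (nat_lit 10069722209) (nat_lit 304) (nat_lit 18796575971) (nat_lit 76) (nat_lit 13253340085) (nat_lit 41) (nat_lit 5) (nat_lit 45) (nat_lit 5) (nat_lit 42) (nat_lit 5) (nat_lit 368) (nat_lit 289) (nat_lit 123)) (XT.lf (nat_lit 0) (nat_lit 17038566306) (nat_lit 304) (nat_lit 2251622869) (nat_lit 76) (nat_lit 23780633654) (nat_lit 41) (nat_lit 5) (nat_lit 45) (nat_lit 5) (nat_lit 42) (nat_lit 5) (nat_lit 369) (nat_lit 289) (nat_lit 122))))) (XT.nd (nat_lit 234)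 (nat_lit 228) (nat_lit 0) (XT.nd (nat_lit 78) (nat_lit 152) (nat_lit 0) (XT.lf (nat_lit 0) (nat_lit 15076766388) (nat_lit 152) (nat_lit 9280320347) (nat_lit 228) (nat_lit 19689240477) (nat_lit 39) (nat_lit 5) (nat_lit 41) (nat_lit 5) (nat_lit 42) (nat_lit 5) (nat_lit 370) (nat_lit 289) (nat_lit 121)) (XT.nd (nat_lit 78) (nat_lit 152) (nat_lit 0) (XT.lf (nat_lit 0) (nat_lit 31923739482) (nat_lit 228) (nat_lit 12096524045) (nat_lit 76) (nat_lit 1029978436) (nat_lit 39) (nat_lit 5) (nat_lit 42) (nat_lit 5) (nat_lit 40) (nat_lit 5) (nat_lit 371) (nat_lit 289) (nat_lit 120)) (XT.lf (nat_lit 0) (nat_lit 5287048846) (nat_lit 152) (nat_lit 34568889588) (nat_lit 228) (nat_lit 6224181786) (nat_lit 37) (nat_lit 5) (nat_lit 39) (nat_lit 5) (nat_lit 40) (nat_lit 5) (nat_lit 372) (nat_lit 289) (nat_lit 119)))) (XT.nd (nat_lit 156) (nat_lit 152) (nat_lit 0) (XT.nd (nat_lit 78) (nat_lit 0) (nat_lit 0) (XT.lf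 (nat_lit 0) (nat_lit 987147553) (nat_lit 228) (nat_lit 23713809897) (nat_lit 76) (nat_lit 22436108043) (nat_lit 36) (nat_lit 5) (nat_lit 39) (nat_lit 5) (nat_lit 37) (nat_lit 5) (nat_lit 373) (nat_lit 289) (nat_lit 118)) (XT.lf (nat_lit 0) (nat_lit 8285689734) (nat_lit 228) (nat_lit 6190550344) (nat_lit 76) (nat_lit 33747753346) (nat_lit 36) (nat_lit 5) (nat_lit 39) (nat_lit 5) (nat_lit 37) (nat_lit 5) (nat_lit 374) (nat_lit 289) (nat_lit 117))) (XT.nd (nat_lit 78) (nat_lit 0) (nat_lit 0) (XT.lf (nat_lit 0) (nat_lit 12087724557) (nat_lit 152) (nat_lit 3827748376) (nat_lit 228) (nat_lit 33424689908) (nat_lit 34) (nat_lit 5) (nat_lit 36) (nat_lit 5) (nat_lit 37) (nat_lit 5) (nat_lit 375) (nat_lit 289) (nat_lit 116)) (XT.lf (nat_lit 0) (nat_lit 23902033218) (nat_lit 228) (nat_lit 19522534676) (nat_lit 76) (nat_lit 7061415061) (nat_lit 34) (nat_lit 5) (nat_lit 37) (nat_lit 5) (nat_lit 35) (nat_lit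 5) (nat_lit 376) (nat_lit 289) (nat_lit 115))))))) (XT.nd (nat_lit 1014) (nat_lit 304) (nat_lit 0) (XT.nd (nat_lit 468) (nat_lit 456) (nat_lit 0) (XT.nd (nat_lit 234) (nat_lit 228) (nat_lit 0) (XT.nd (nat_lit 78) (nat_lit 152) (nat_lit 0) (XT.lf (nat_lit 0) (nat_lit 32162318212) (nat_lit 228) (nat_lit 1305026383) (nat_lit 76) (nat_lit 18197811305) (nat_lit 34) (nat_lit 5) (nat_lit 37) (nat_lit 5) (nat_lit 35) (nat_lit 5) (nat_lit 377) (nat_lit 289) (nat_lit 114)) (XT.nd (nat_lit 78) (nat_lit 0) (nat_lit 0) (XT.lf (nat_lit 0) (nat_lit 17800144396) (nat_lit 152) (nat_lit 23037712462) (nat_lit 228) (nat_lit 12036825824) (nat_lit 32) (nat_lit 5) (nat_lit 34) (nat_lit 5) (nat_lit 35) (nat_lit 5) (nat_lit 378) (nat_lit 289) (nat_lit 113)) (XT.lf (nat_lit 0) (nat_lit 37499075227) (nat_lit 152) (nat_lit 12284151406) (nat_lit 228) (nat_lit 4336983629) (nat_lit 32) (nat_lit 5) (nat_lit 34) (nat_lit 5) (nat_lit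 35) (nat_lit 5) (nat_lit 379) (nat_lit 289) (nat_lit 112)))) (XT.nd (nat_lit 78) (nat_lit 0) (nat_lit 0) (XT.lf (nat_lit 0) (nat_lit 2391959559) (nat_lit 152) (nat_lit 1151213635) (nat_lit 228) (nat_lit 51858312468) (nat_lit 29) (nat_lit 5) (nat_lit 31) (nat_lit 5) (nat_lit 32) (nat_lit 5) (nat_lit 380) (nat_lit 289) (nat_lit 111)) (XT.nd (nat_lit 78) (nat_lit 0) (nat_lit 0) (XT.lf (nat_lit 0) (nat_lit 11837706556) (nat_lit 228) (nat_lit 34549827134) (nat_lit 76) (nat_lit 10324424973) (nat_lit 29) (nat_lit 5) (nat_lit 32) (nat_lit 5) (nat_lit 30) (nat_lit 5) (nat_lit 381) (nat_lit 289) (nat_lit 110)) (XT.lf (nat_lit 0) (nat_lit 20389053982) (nat_lit 228) (nat_lit 15553622576) (nat_lit 76) (nat_lit 22118831680) (nat_lit 29) (nat_lit 5) (nat_lit 32) (nat_lit 5) (nat_lit 30) (nat_lit 5) (nat_lit 382) (nat_lit 289) (nat_lit 109))))) (XT.nd (nat_lit 234) (nat_lit 304) (nat_lit 0) (XT.nd (nat_lit 78)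 (nat_lit 0) (nat_lit 0) (XT.lf (nat_lit 0) (nat_lit 4086494591) (nat_lit 152) (nat_lit 25146408648) (nat_lit 228) (nat_lit 30217563896) (nat_lit 27) (nat_lit 5) (nat_lit 29) (nat_lit 5) (nat_lit 30) (nat_lit 5) (nat_lit 383) (nat_lit 289) (nat_lit 108)) (XT.nd (nat_lit 78) (nat_lit 0) (nat_lit 0) (XT.lf (nat_lit 0) (nat_lit 24628989572) (nat_lit 152) (nat_lit 13866861327) (nat_lit 228) (nat_lit 22380632043) (nat_lit 27) (nat_lit 5) (nat_lit 29) (nat_lit 5) (nat_lit 30) (nat_lit 5) (nat_lit 384) (nat_lit 289) (nat_lit 107)) (XT.lf (nat_lit 0) (nat_lit 45782264531) (nat_lit 152) (nat_lit 2251239769) (nat_lit 228) (nat_lit 14311871983) (nat_lit 27) (nat_lit 5) (nat_lit 29) (nat_lit 5) (nat_lit 30) (nat_lit 5) (nat_lit 385) (nat_lit 289) (nat_lit 106)))) (XT.nd (nat_lit 156) (nat_lit 152) (nat_lit 0) (XT.nd (nat_lit 78) (nat_lit 76) (nat_lit 0) (XT.lf (nat_lit 0) (nat_lit 3684934312) (nat_lit 76)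 (nat_lit 54298029128) (nat_lit 152) (nat_lit 5871604235) (nat_lit 26) (nat_lit 5) (nat_lit 27) (nat_lit 5) (nat_lit 28) (nat_lit 4) (nat_lit 386) (nat_lit 289) (nat_lit 105)) (XT.lf (nat_lit 0) (nat_lit 2954902821) (nat_lit 152) (nat_lit 40580556592) (nat_lit 76) (nat_lit 21867120192) (nat_lit 25) (nat_lit 5) (nat_lit 27) (nat_lit 5) (nat_lit 26) (nat_lit 5) (nat_lit 387) (nat_lit 289) (nat_lit 104))) (XT.nd (nat_lit 78) (nat_lit 152) (nat_lit 0) (XT.lf (nat_lit 0) (nat_lit 11925177784) (nat_lit 152) (nat_lit 20467202112) (nat_lit 76) (nat_lit 34602999776) (nat_lit 25) (nat_lit 5) (nat_lit 27) (nat_lit 5) (nat_lit 26) (nat_lit 5) (nat_lit 388) (nat_lit 289) (nat_lit 103)) (XT.lf (nat_lit 0) (nat_lit 249311265) (nat_lit 152) (nat_lit 20914720172) (nat_lit 228) (nat_lit 47471949554) (nat_lit 23) (nat_lit 5) (nat_lit 25) (nat_lit 5) (nat_lit 26) (nat_lit 5) (nat_lit 389) (nat_lit 289) (nat_lit 102))))))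 (XT.nd (nat_lit 546) (nat_lit 0) (nat_lit 0) (XT.nd (nat_lit 234) (nat_lit 304) (nat_lit 0) (XT.nd (nat_lit 78) (nat_lit 0) (nat_lit 0) (XT.lf (nat_lit 0) (nat_lit 22001820990) (nat_lit 152) (nat_lit 8882018848) (nat_lit 228) (nat_lit 39435848162) (nat_lit 23) (nat_lit 5) (nat_lit 25) (nat_lit 5) (nat_lit 26) (nat_lit 5) (nat_lit 390) (nat_lit 289) (nat_lit 101)) (XT.nd (nat_lit 78) (nat_lit 0) (nat_lit 0) (XT.lf (nat_lit 0) (nat_lit 40926173211) (nat_lit 228) (nat_lit 27685731042) (nat_lit 76) (nat_lit 3441075330) (nat_lit 23) (nat_lit 5) (nat_lit 26) (nat_lit 5) (nat_lit 24) (nat_lit 4) (nat_lit 391) (nat_lit 289) (nat_lit 100)) (XT.lf (nat_lit 0) (nat_lit 51354974125) (nat_lit 228) (nat_lit 6527401456) (nat_lit 76) (nat_lit 15953339655) (nat_lit 23) (nat_lit 5) (nat_lit 26) (nat_lit 5) (nat_lit 24) (nat_lit 4) (nat_lit 392) (nat_lit 289) (nat_lit 99)))) (XT.nd (nat_lit 156) (nat_lit 228) (nat_lit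 0) (XT.nd (nat_lit 78) (nat_lit 0) (nat_lit 0) (XT.lf (nat_lit 0) (nat_lit 15564712611) (nat_lit 76) (nat_lit 46678880652) (nat_lit 152) (nat_lit 13423932280) (nat_lit 22) (nat_lit 5) (nat_lit 23) (nat_lit 5) (nat_lit 24) (nat_lit 4) (nat_lit 393) (nat_lit 289) (nat_lit 98)) (XT.lf (nat_lit 0) (nat_lit 38448752393) (nat_lit 76) (nat_lit 35073402141) (nat_lit 152) (nat_lit 4030238296) (nat_lit 22) (nat_lit 5) (nat_lit 23) (nat_lit 5) (nat_lit 24) (nat_lit 4) (nat_lit 394) (nat_lit 289) (nat_lit 97))) (XT.nd (nat_lit 78) (nat_lit 152) (nat_lit 0) (XT.lf (nat_lit 0) (nat_lit 5532526832) (nat_lit 152) (nat_lit 17533318787) (nat_lit 76) (nat_lit 56426411057) (nat_lit 21) (nat_lit 5) (nat_lit 23) (nat_lit 5) (nat_lit 22) (nat_lit 5) (nat_lit 395) (nat_lit 289) (nat_lit 96)) (XT.lf (nat_lit 0) (nat_lit 4732122474) (nat_lit 152) (nat_lit 10612031659) (nat_lit 228) (nat_lit 66143676792) (nat_lit 19) (nat_lit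 5) (nat_lit 21) (nat_lit 5) (nat_lit 22) (nat_lit 5) (nat_lit 396) (nat_lit 289) (nat_lit 95))))) (XT.nd (nat_lit 32370) (nat_lit 0) (nat_lit 13908) (XT.nd (nat_lit 78) (nat_lit 0) (nat_lit 0) (XT.lf (nat_lit 0) (nat_lit 25647738556) (nat_lit 228) (nat_lit 55540507705) (nat_lit 76) (nat_lit 2349098934) (nat_lit 19) (nat_lit 5) (nat_lit 22) (nat_lit 5) (nat_lit 20) (nat_lit 4) (nat_lit 397) (nat_lit 289) (nat_lit 94)) (XT.nd (nat_lit 32214) (nat_lit 0) (nat_lit 13908) (XT.lf (nat_lit 0) (nat_lit 36363080153) (nat_lit 228) (nat_lit 33798232159) (nat_lit 76) (nat_lit 15483954108) (nat_lit 19) (nat_lit 5) (nat_lit 22) (nat_lit 5) (nat_lit 20) (nat_lit 4) (nat_lit 398) (nat_lit 289) (nat_lit 93)) (XT.lf (nat_lit 0) (nat_lit 143411202) (nat_lit 1140) (nat_lit 2522215534) (nat_lit 1140) (nat_lit 2522215534) (nat_lit 202) (nat_lit 3) (nat_lit 217) (nat_lit 3) (nat_lit 217) (nat_lit 5) (nat_lit 290) (nat_lit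 290) (nat_lit 200)))) (XT.nd (nat_lit 156) (nat_lit 0) (nat_lit 76) (XT.nd (nat_lit 78) (nat_lit 0) (nat_lit 76) (XT.lf (nat_lit 0) (nat_lit 906994554) (nat_lit 1140) (nat_lit 379085907) (nat_lit 1140) (nat_lit 9225887064) (nat_lit 202) (nat_lit 3) (nat_lit 217) (nat_lit 3) (nat_lit 217) (nat_lit 5) (nat_lit 291) (nat_lit 290) (nat_lit 199)) (XT.lf (nat_lit 0) (nat_lit 1593237938) (nat_lit 1064) (nat_lit 6178357148) (nat_lit 1140) (nat_lit 2879354123) (nat_lit 203) (nat_lit 5) (nat_lit 217) (nat_lit 5) (nat_lit 218) (nat_lit 5) (nat_lit 292) (nat_lit 290) (nat_lit 198))) (XT.nd (nat_lit 78) (nat_lit 0) (nat_lit 76) (XT.lf (nat_lit 0) (nat_lit 2293321892) (nat_lit 1064) (nat_lit 1342283835) (nat_lit 1140) (nat_lit 7158730219) (nat_lit 203) (nat_lit 5) (nat_lit 217) (nat_lit 5) (nat_lit 218) (nat_lit 5) (nat_lit 293) (nat_lit 290) (nat_lit 197)) (XT.lf (nat_lit 0) (nat_lit 3033742730) (nat_lit 1064)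 (nat_lit 7249817404) (nat_lit 1140) (nat_lit 657916352) (nat_lit 204) (nat_lit 5) (nat_lit 218) (nat_lit 5) (nat_lit 219) (nat_lit 5) (nat_lit 294) (nat_lit 290) (nat_lit 196))))))))
noncomputable def xc178 : XT := (XT.nd (nat_lit 2028) (nat_lit 5168) (nat_lit 0) (XT.nd (nat_lit 1014) (nat_lit 3876) (nat_lit 0) (XT.nd (nat_lit 468) (nat_lit 836) (nat_lit 0) (XT.nd (nat_lit 234) (nat_lit 0) (nat_lit 76) (XT.nd (nat_lit 78) (nat_lit 0) (nat_lit 0) (XT.lf (nat_lit 0) (nat_lit 3824025208) (nat_lit 1064) (nat_lit 2238016971) (nat_lit 1140) (nat_lit 5030190887) (nat_lit 204) (nat_lit 5) (nat_lit 218) (nat_lit 5) (nat_lit 219) (nat_lit 5) (nat_lit 295) (nat_lit 290) (nat_lit 195)) (XT.nd (nat_lit 78) (nat_lit 0) (nat_lit 76) (XT.lf (nat_lit 76) (nat_lit 2969067042) (nat_lit 0) (nat_lit 1676095704) (nat_lit 1140) (nat_lit 6602165580) (nat_lit 205) (nat_lit 5) (nat_lit 204) (nat_lit 5) (nat_lit 219) (nat_lit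 5) (nat_lit 296) (nat_lit 290) (nat_lit 194)) (XT.lf (nat_lit 0) (nat_lit 5520253760) (nat_lit 1064) (nat_lit 3069308516) (nat_lit 1140) (nat_lit 2816664087) (nat_lit 205) (nat_lit 5) (nat_lit 219) (nat_lit 5) (nat_lit 220) (nat_lit 5) (nat_lit 297) (nat_lit 290) (nat_lit 193)))) (XT.nd (nat_lit 78) (nat_lit 0) (nat_lit 76) (XT.lf (nat_lit 76) (nat_lit 2311200713) (nat_lit 0) (nat_lit 4128997259) (nat_lit 1140) (nat_lit 5129163992) (nat_lit 206) (nat_lit 5) (nat_lit 205) (nat_lit 5) (nat_lit 220) (nat_lit 5) (nat_lit 298) (nat_lit 290) (nat_lit 192)) (XT.nd (nat_lit 78) (nat_lit 0) (nat_lit 0) (XT.lf (nat_lit 0) (nat_lit 7403830630) (nat_lit 1064) (nat_lit 3838970882) (nat_lit 1140) (nat_lit 494135220) (nat_lit 206) (nat_lit 5) (nat_lit 220) (nat_lit 5) (nat_lit 221) (nat_lit 5) (nat_lit 299) (nat_lit 290) (nat_lit 191)) (XT.lf (nat_lit 76) (nat_lit 1722148808) (nat_lit 0) (nat_lit 6712547986)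 (nat_lit 1140) (nat_lit 3473719209) (nat_lit 207) (nat_lit 5) (nat_lit 206) (nat_lit 5) (nat_lit 221) (nat_lit 5) (nat_lit 300) (nat_lit 290) (nat_lit 190))))) (XT.nd (nat_lit 234) (nat_lit 988) (nat_lit 0) (XT.nd (nat_lit 78) (nat_lit 0) (nat_lit 76) (XT.lf (nat_lit 76) (nat_lit 7515557760) (nat_lit 0) (nat_lit 2001015645) (nat_lit 1140) (nat_lit 2567889921) (nat_lit 207) (nat_lit 5) (nat_lit 206) (nat_lit 5) (nat_lit 221) (nat_lit 5) (nat_lit 301) (nat_lit 290) (nat_lit 189)) (XT.nd (nat_lit 78) (nat_lit 0) (nat_lit 0) (XT.lf (nat_lit 76) (nat_lit 1199495323) (nat_lit 0) (nat_lit 9452268419) (nat_lit 1140) (nat_lit 1613428048) (nat_lit 208) (nat_lit 5) (nat_lit 207) (nat_lit 5) (nat_lit 222) (nat_lit 5) (nat_lit 302) (nat_lit 290) (nat_lit 188)) (XT.lf (nat_lit 76) (nat_lit 7201057877) (nat_lit 0) (nat_lit 4668018542) (nat_lit 1140) (nat_lit 580848394) (nat_lit 208) (nat_lit 5) (nat_lit 207)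 (nat_lit 5) (nat_lit 222) (nat_lit 5) (nat_lit 303) (nat_lit 290) (nat_lit 187)))) (XT.nd (nat_lit 156) (nat_lit 0) (nat_lit 0) (XT.nd (nat_lit 78) (nat_lit 0) (nat_lit 0) (XT.lf (nat_lit 0) (nat_lit 465677842) (nat_lit 1140) (nat_lit 11904119880) (nat_lit 1216) (nat_lit 270514529) (nat_lit 193) (nat_lit 5) (nat_lit 208) (nat_lit 5) (nat_lit 209) (nat_lit 5) (nat_lit 304) (nat_lit 290) (nat_lit 186)) (XT.lf (nat_lit 0) (nat_lit 1614720428) (nat_lit 1140) (nat_lit 5892675422) (nat_lit 1216) (nat_lit 5326381690) (nat_lit 193) (nat_lit 5) (nat_lit 208) (nat_lit 5) (nat_lit 209) (nat_lit 5) (nat_lit 305) (nat_lit 290) (nat_lit 185))) (XT.nd (nat_lit 78) (nat_lit 0) (nat_lit 76) (XT.lf (nat_lit 76) (nat_lit 291439672) (nat_lit 0) (nat_lit 2493138819) (nat_lit 1216) (nat_lit 10248899919) (nat_lit 194) (nat_lit 5) (nat_lit 193) (nat_lit 5) (nat_lit 209) (nat_lit 5) (nat_lit 306) (nat_lit 290) (nat_lit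 184)) (XT.lf (nat_lit 0) (nat_lit 4059228980) (nat_lit 1140) (nat_lit 6495543440) (nat_lit 76) (nat_lit 2682328294) (nat_lit 194) (nat_lit 5) (nat_lit 209) (nat_lit 5) (nat_lit 195) (nat_lit 5) (nat_lit 307) (nat_lit 290) (nat_lit 183)))))) (XT.nd (nat_lit 468) (nat_lit 1596) (nat_lit 0) (XT.nd (nat_lit 234) (nat_lit 1216) (nat_lit 0) (XT.nd (nat_lit 78) (nat_lit 1140) (nat_lit 0) (XT.lf (nat_lit 0) (nat_lit 5381194331) (nat_lit 1140) (nat_lit 99697894) (nat_lit 76) (nat_lit 7965687891) (nat_lit 194) (nat_lit 5) (nat_lit 209) (nat_lit 5) (nat_lit 195) (nat_lit 5) (nat_lit 308) (nat_lit 290) (nat_lit 182)) (XT.nd (nat_lit 78) (nat_lit 0) (nat_lit 0) (XT.lf (nat_lit 0) (nat_lit 6603918310) (nat_lit 1140) (nat_lit 187226676) (nat_lit 1216) (nat_lit 6869769211) (nat_lit 179) (nat_lit 5) (nat_lit 194) (nat_lit 5) (nat_lit 195) (nat_lit 5) (nat_lit 309) (nat_lit 290) (nat_lit 181)) (XT.lf (nat_lit 0)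 (nat_lit 8280206206) (nat_lit 1216) (nat_lit 434911678) (nat_lit 76) (nat_lit 5165475555) (nat_lit 179) (nat_lit 5) (nat_lit 195) (nat_lit 5) (nat_lit 180) (nat_lit 5) (nat_lit 310) (nat_lit 290) (nat_lit 180)))) (XT.nd (nat_lit 78) (nat_lit 608) (nat_lit 0) (XT.lf (nat_lit 0) (nat_lit 6497838205) (nat_lit 608) (nat_lit 3366030089) (nat_lit 684) (nat_lit 4241515826) (nat_lit 171) (nat_lit 5) (nat_lit 179) (nat_lit 5) (nat_lit 180) (nat_lit 5) (nat_lit 311) (nat_lit 290) (nat_lit 179)) (XT.nd (nat_lit 78) (nat_lit 608) (nat_lit 0) (XT.lf (nat_lit 0) (nat_lit 11506002643) (nat_lit 684) (nat_lit 723215186) (nat_lit 76) (nat_lit 2107390203) (nat_lit 171) (nat_lit 5) (nat_lit 180) (nat_lit 5) (nat_lit 172) (nat_lit 5) (nat_lit 312) (nat_lit 290) (nat_lit 178)) (XT.lf (nat_lit 0) (nat_lit 6447247991) (nat_lit 608) (nat_lit 6831787217) (nat_lit 684) (nat_lit 1293302274) (nat_lit 163) (nat_lit 5) (nat_lit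 171) (nat_lit 5) (nat_lit 172) (nat_lit 5) (nat_lit 313) (nat_lit 290) (nat_lit 177))))) (XT.nd (nat_lit 234) (nat_lit 988) (nat_lit 0) (XT.nd (nat_lit 78) (nat_lit 532) (nat_lit 0) (XT.lf (nat_lit 0) (nat_lit 278292190) (nat_lit 684) (nat_lit 983170109) (nat_lit 76) (nat_lit 13553794668) (nat_lit 162) (nat_lit 5) (nat_lit 171) (nat_lit 5) (nat_lit 163) (nat_lit 5) (nat_lit 314) (nat_lit 290) (nat_lit 176)) (XT.nd (nat_lit 78) (nat_lit 0) (nat_lit 0) (XT.lf (nat_lit 0) (nat_lit 1963897200) (nat_lit 608) (nat_lit 8633526444) (nat_lit 76) (nat_lit 4464886870) (nat_lit 155) (nat_lit 5) (nat_lit 163) (nat_lit 5) (nat_lit 156) (nat_lit 5) (nat_lit 315) (nat_lit 290) (nat_lit 175)) (XT.lf (nat_lit 0) (nat_lit 3709704866) (nat_lit 608) (nat_lit 1258756340) (nat_lit 76) (nat_lit 10348041283) (nat_lit 155) (nat_lit 5) (nat_lit 163) (nat_lit 5) (nat_lit 156) (nat_lit 5) (nat_lit 316) (nat_lit 290) (nat_lit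 174)))) (XT.nd (nat_lit 156) (nat_lit 456) (nat_lit 0) (XT.nd (nat_lit 78) (nat_lit 0) (nat_lit 0) (XT.lf (nat_lit 0) (nat_lit 5565972919) (nat_lit 608) (nat_lit 9134870200) (nat_lit 76) (nat_lit 875749914) (nat_lit 148) (nat_lit 5) (nat_lit 156) (nat_lit 5) (nat_lit 149) (nat_lit 5) (nat_lit 317) (nat_lit 290) (nat_lit 173)) (XT.lf (nat_lit 0) (nat_lit 7527695051) (nat_lit 608) (nat_lit 1507226195) (nat_lit 76) (nat_lit 6808087013) (nat_lit 148) (nat_lit 5) (nat_lit 156) (nat_lit 5) (nat_lit 149) (nat_lit 5) (nat_lit 318) (nat_lit 290) (nat_lit 172))) (XT.nd (nat_lit 78) (nat_lit 0) (nat_lit 0) (XT.lf (nat_lit 0) (nat_lit 6462912958) (nat_lit 456) (nat_lit 3135575080) (nat_lit 532) (nat_lit 6517435838) (nat_lit 142) (nat_lit 5) (nat_lit 148) (nat_lit 5) (nat_lit 149) (nat_lit 5) (nat_lit 319) (nat_lit 290) (nat_lit 171)) (XT.lf (nat_lit 0) (nat_lit 11763359613) (nat_lit 532) (nat_lit 1734621434)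 (nat_lit 76) (nat_lit 2898101358) (nat_lit 142) (nat_lit 5) (nat_lit 149) (nat_lit 5) (nat_lit 143) (nat_lit 5) (nat_lit 320) (nat_lit 290) (nat_lit 170))))))) (XT.nd (nat_lit 1014) (nat_lit 2052) (nat_lit 0) (XT.nd (nat_lit 468) (nat_lit 1596) (nat_lit 0) (XT.nd (nat_lit 234) (nat_lit 456) (nat_lit 0) (XT.nd (nat_lit 78) (nat_lit 532) (nat_lit 0) (XT.lf (nat_lit 0) (nat_lit 6504892766) (nat_lit 532) (nat_lit 7570514967) (nat_lit 608) (nat_lit 2606784724) (nat_lit 135) (nat_lit 5) (nat_lit 142) (nat_lit 5) (nat_lit 143) (nat_lit 5) (nat_lit 321) (nat_lit 290) (nat_lit 169)) (XT.nd (nat_lit 78) (nat_lit 532) (nat_lit 0) (XT.lf (nat_lit 0) (nat_lit 15014955614) (nat_lit 532) (nat_lit 1448247228) (nat_lit 608) (nat_lit 513504680) (nat_lit 135) (nat_lit 5) (nat_lit 142) (nat_lit 5) (nat_lit 143) (nat_lit 5) (nat_lit 322) (nat_lit 290) (nat_lit 168)) (XT.lf (nat_lit 0) (nat_lit 1710518680) (nat_lit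 532) (nat_lit 10724272888) (nat_lit 76) (nat_lit 4841805382) (nat_lit 128) (nat_lit 5) (nat_lit 135) (nat_lit 5) (nat_lit 129) (nat_lit 5) (nat_lit 323) (nat_lit 290) (nat_lit 167)))) (XT.nd (nat_lit 78) (nat_lit 456) (nat_lit 0) (XT.lf (nat_lit 0) (nat_lit 4014552251) (nat_lit 532) (nat_lit 2254745182) (nat_lit 76) (nat_lit 11315336942) (nat_lit 128) (nat_lit 5) (nat_lit 135) (nat_lit 5) (nat_lit 129) (nat_lit 5) (nat_lit 324) (nat_lit 290) (nat_lit 166)) (XT.nd (nat_lit 78) (nat_lit 0) (nat_lit 0) (XT.lf (nat_lit 0) (nat_lit 6441980902) (nat_lit 532) (nat_lit 11316272308) (nat_lit 76) (nat_lit 142043288) (nat_lit 122) (nat_lit 5) (nat_lit 129) (nat_lit 5) (nat_lit 123) (nat_lit 5) (nat_lit 325) (nat_lit 290) (nat_lit 165)) (XT.lf (nat_lit 0) (nat_lit 9017051706) (nat_lit 532) (nat_lit 2564968746) (nat_lit 76) (nat_lit 6641174909) (nat_lit 122) (nat_lit 5) (nat_lit 129) (nat_lit 5) (nat_lit 123)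 (nat_lit 5) (nat_lit 326) (nat_lit 290) (nat_lit 164))))) (XT.nd (nat_lit 234) (nat_lit 836) (nat_lit 0) (XT.nd (nat_lit 78) (nat_lit 380) (nat_lit 0) (XT.lf (nat_lit 0) (nat_lit 6565235463) (nat_lit 380) (nat_lit 5157299788) (nat_lit 456) (nat_lit 6831662241) (nat_lit 117) (nat_lit 5) (nat_lit 122) (nat_lit 5) (nat_lit 123) (nat_lit 5) (nat_lit 327) (nat_lit 290) (nat_lit 163)) (XT.nd (nat_lit 78) (nat_lit 380) (nat_lit 0) (XT.lf (nat_lit 0) (nat_lit 14539588442) (nat_lit 456) (nat_lit 2898640581) (nat_lit 76) (nat_lit 1455999309) (nat_lit 117) (nat_lit 5) (nat_lit 123) (nat_lit 5) (nat_lit 118) (nat_lit 5) (nat_lit 328) (nat_lit 290) (nat_lit 162)) (XT.lf (nat_lit 0) (nat_lit 6529162163) (nat_lit 380) (nat_lit 11016312399) (nat_lit 456) (nat_lit 1695866376) (nat_lit 112) (nat_lit 5) (nat_lit 117) (nat_lit 5) (nat_lit 118) (nat_lit 5) (nat_lit 329) (nat_lit 290) (nat_lit 161)))) (XT.nd (nat_lit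 156) (nat_lit 380) (nat_lit 0) (XT.nd (nat_lit 78) (nat_lit 380) (nat_lit 0) (XT.lf (nat_lit 0) (nat_lit 1042445358) (nat_lit 456) (nat_lit 3320740836) (nat_lit 76) (nat_lit 15234786288) (nat_lit 111) (nat_lit 5) (nat_lit 117) (nat_lit 5) (nat_lit 112) (nat_lit 5) (nat_lit 330) (nat_lit 290) (nat_lit 160)) (XT.lf (nat_lit 0) (nat_lit 3906350614) (nat_lit 456) (nat_lit 13537716122) (nat_lit 76) (nat_lit 2518416225) (nat_lit 106) (nat_lit 5) (nat_lit 112) (nat_lit 5) (nat_lit 107) (nat_lit 5) (nat_lit 331) (nat_lit 290) (nat_lit 159))) (XT.nd (nat_lit 78) (nat_lit 380) (nat_lit 0) (XT.lf (nat_lit 0) (nat_lit 6924211692) (nat_lit 456) (nat_lit 3861208467) (nat_lit 76) (nat_lit 9550476750) (nat_lit 106) (nat_lit 5) (nat_lit 112) (nat_lit 5) (nat_lit 107) (nat_lit 5) (nat_lit 332) (nat_lit 290) (nat_lit 158)) (XT.lf (nat_lit 0) (nat_lit 6215754619) (nat_lit 380) (nat_lit 3867840336) (nat_lit 456) (nat_lit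 10635397771) (nat_lit 101) (nat_lit 5) (nat_lit 106) (nat_lit 5) (nat_lit 107) (nat_lit 5) (nat_lit 333) (nat_lit 290) (nat_lit 157)))))) (XT.nd (nat_lit 546) (nat_lit 988) (nat_lit 0) (XT.nd (nat_lit 234) (nat_lit 760) (nat_lit 0) (XT.nd (nat_lit 78) (nat_lit 304) (nat_lit 0) (XT.lf (nat_lit 0) (nat_lit 13399810094) (nat_lit 456) (nat_lit 4481197474) (nat_lit 76) (nat_lit 3230721118) (nat_lit 101) (nat_lit 5) (nat_lit 107) (nat_lit 5) (nat_lit 102) (nat_lit 5) (nat_lit 334) (nat_lit 290) (nat_lit 156)) (XT.nd (nat_lit 78) (nat_lit 0) (nat_lit 0) (XT.lf (nat_lit 0) (nat_lit 5907548146) (nat_lit 304) (nat_lit 10994660376) (nat_lit 380) (nat_lit 4611445821) (nat_lit 97) (nat_lit 5) (nat_lit 101) (nat_lit 5) (nat_lit 102) (nat_lit 5) (nat_lit 335) (nat_lit 290) (nat_lit 155)) (XT.lf (nat_lit 0) (nat_lit 16688985206) (nat_lit 304) (nat_lit 3857699553) (nat_lit 380) (nat_lit 1379851111) (nat_lit 97)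 (nat_lit 5) (nat_lit 101) (nat_lit 5) (nat_lit 102) (nat_lit 5) (nat_lit 336) (nat_lit 290) (nat_lit 154)))) (XT.nd (nat_lit 156) (nat_lit 304) (nat_lit 0) (XT.nd (nat_lit 78) (nat_lit 0) (nat_lit 0) (XT.lf (nat_lit 0) (nat_lit 1989904522) (nat_lit 456) (nat_lit 16863799561) (nat_lit 76) (nat_lit 3495168426) (nat_lit 91) (nat_lit 5) (nat_lit 97) (nat_lit 5) (nat_lit 92) (nat_lit 5) (nat_lit 337) (nat_lit 290) (nat_lit 153)) (XT.lf (nat_lit 0) (nat_lit 5516643248) (nat_lit 456) (nat_lit 6208734096) (nat_lit 76) (nat_lit 11055590900) (nat_lit 91) (nat_lit 5) (nat_lit 97) (nat_lit 5) (nat_lit 92) (nat_lit 5) (nat_lit 338) (nat_lit 290) (nat_lit 152))) (XT.nd (nat_lit 78) (nat_lit 0) (nat_lit 0) (XT.lf (nat_lit 0) (nat_lit 4850140786) (nat_lit 304) (nat_lit 4337914775) (nat_lit 380) (nat_lit 14036812497) (nat_lit 87) (nat_lit 5) (nat_lit 91) (nat_lit 5) (nat_lit 92) (nat_lit 5) (nat_lit 339) (nat_lit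 290) (nat_lit 151)) (XT.lf (nat_lit 0) (nat_lit 13056719881) (nat_lit 380) (nat_lit 7354807201) (nat_lit 76) (nat_lit 3267951635) (nat_lit 87) (nat_lit 5) (nat_lit 92) (nat_lit 5) (nat_lit 88) (nat_lit 5) (nat_lit 340) (nat_lit 290) (nat_lit 150))))) (XT.nd (nat_lit 234) (nat_lit 304) (nat_lit 0) (XT.nd (nat_lit 78) (nat_lit 380) (nat_lit 0) (XT.lf (nat_lit 0) (nat_lit 4020939528) (nat_lit 304) (nat_lit 13094677186) (nat_lit 380) (nat_lit 7029892735) (nat_lit 83) (nat_lit 5) (nat_lit 87) (nat_lit 5) (nat_lit 88) (nat_lit 5) (nat_lit 341) (nat_lit 290) (nat_lit 149)) (XT.nd (nat_lit 78) (nat_lit 380) (nat_lit 0) (XT.lf (nat_lit 0) (nat_lit 15878541517) (nat_lit 304) (nat_lit 5484697752) (nat_lit 380) (nat_lit 3260279796) (nat_lit 83) (nat_lit 5) (nat_lit 87) (nat_lit 5) (nat_lit 88) (nat_lit 5) (nat_lit 342) (nat_lit 290) (nat_lit 148)) (XT.lf (nat_lit 0) (nat_lit 655064332) (nat_lit 380) (nat_lit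 22119090591) (nat_lit 76) (nat_lit 2340197244) (nat_lit 78) (nat_lit 5) (nat_lit 83) (nat_lit 5) (nat_lit 79) (nat_lit 5) (nat_lit 343) (nat_lit 290) (nat_lit 147)))) (XT.nd (nat_lit 156) (nat_lit 0) (nat_lit 0) (XT.nd (nat_lit 78) (nat_lit 304) (nat_lit 0) (XT.lf (nat_lit 0) (nat_lit 4758737485) (nat_lit 380) (nat_lit 10447875892) (nat_lit 76) (nat_lit 10408242728) (nat_lit 78) (nat_lit 5) (nat_lit 83) (nat_lit 5) (nat_lit 79) (nat_lit 5) (nat_lit 344) (nat_lit 290) (nat_lit 146)) (XT.lf (nat_lit 0) (nat_lit 1594761861) (nat_lit 304) (nat_lit 7399206956) (nat_lit 380) (nat_lit 17136158883) (nat_lit 74) (nat_lit 5) (nat_lit 78) (nat_lit 5) (nat_lit 79) (nat_lit 5) (nat_lit 345) (nat_lit 290) (nat_lit 145))) (XT.nd (nat_lit 78) (nat_lit 0) (nat_lit 0) (XT.lf (nat_lit 0) (nat_lit 13462176625) (nat_lit 380) (nat_lit 12461979445) (nat_lit 76) (nat_lit 733529591) (nat_lit 74) (nat_lit 5) (nat_lit 79)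 (nat_lit 5) (nat_lit 75) (nat_lit 5) (nat_lit 346) (nat_lit 290) (nat_lit 144)) (XT.lf (nat_lit 0) (nat_lit 18131084840) (nat_lit 380) (nat_lit 109279205) (nat_lit 76) (nat_lit 8958712326) (nat_lit 74) (nat_lit 5) (nat_lit 79) (nat_lit 5) (nat_lit 75) (nat_lit 5) (nat_lit 347) (nat_lit 290) (nat_lit 143))))))))
noncomputable def xc179 : XT := (XT.nd (nat_lit 2106) (nat_lit 1292) (nat_lit 0) (XT.nd (nat_lit 1014) (nat_lit 1292) (nat_lit 0) (XT.nd (nat_lit 468) (nat_lit 760) (nat_lit 0) (XT.nd (nat_lit 234) (nat_lit 228) (nat_lit 0) (XT.nd (nat_lit 78) (nat_lit 380) (nat_lit 0) (XT.lf (nat_lit 0) (nat_lit 12855511539) (nat_lit 228) (nat_lit 10201710888) (nat_lit 304) (nat_lit 4695976981) (nat_lit 71) (nat_lit 5) (nat_lit 74) (nat_lit 5) (nat_lit 75) (nat_lit 5) (nat_lit 348) (nat_lit 290) (nat_lit 142)) (XT.nd (nat_lit 78) (nat_lit 380) (nat_lit 0) (XT.lf (nat_lit 0) (nat_lit 26202229933) (nat_lit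 228) (nat_lit 1923702609) (nat_lit 304) (nat_lit 198175255) (nat_lit 71) (nat_lit 5) (nat_lit 74) (nat_lit 5) (nat_lit 75) (nat_lit 5) (nat_lit 349) (nat_lit 290) (nat_lit 141)) (XT.lf (nat_lit 0) (nat_lit 4514458988) (nat_lit 380) (nat_lit 17768657455) (nat_lit 76) (nat_lit 6622760189) (nat_lit 66) (nat_lit 5) (nat_lit 71) (nat_lit 5) (nat_lit 67) (nat_lit 5) (nat_lit 350) (nat_lit 290) (nat_lit 140)))) (XT.nd (nat_lit 78) (nat_lit 228) (nat_lit 0) (XT.lf (nat_lit 0) (nat_lit 9399043355) (nat_lit 380) (nat_lit 4697276451) (nat_lit 76) (nat_lit 15407688095) (nat_lit 66) (nat_lit 5) (nat_lit 71) (nat_lit 5) (nat_lit 67) (nat_lit 5) (nat_lit 351) (nat_lit 290) (nat_lit 139)) (XT.nd (nat_lit 78) (nat_lit 0) (nat_lit 0) (XT.lf (nat_lit 0) (nat_lit 8931616085) (nat_lit 228) (nat_lit 5578452617) (nat_lit 304) (nat_lit 15607622022) (nat_lit 63) (nat_lit 5) (nat_lit 66) (nat_lit 5) (nat_lit 67) (nat_lit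 5) (nat_lit 352) (nat_lit 290) (nat_lit 138)) (XT.lf (nat_lit 0) (nat_lit 19847146823) (nat_lit 304) (nat_lit 7722859991) (nat_lit 76) (nat_lit 3177600141) (nat_lit 63) (nat_lit 5) (nat_lit 67) (nat_lit 5) (nat_lit 64) (nat_lit 5) (nat_lit 353) (nat_lit 290) (nat_lit 137))))) (XT.nd (nat_lit 234) (nat_lit 228) (nat_lit 0) (XT.nd (nat_lit 78) (nat_lit 304) (nat_lit 0) (XT.lf (nat_lit 0) (nat_lit 6201307910) (nat_lit 228) (nat_lit 19252151252) (nat_lit 304) (nat_lit 5939692301) (nat_lit 60) (nat_lit 5) (nat_lit 63) (nat_lit 5) (nat_lit 64) (nat_lit 5) (nat_lit 354) (nat_lit 290) (nat_lit 136)) (XT.nd (nat_lit 78) (nat_lit 304) (nat_lit 0) (XT.lf (nat_lit 0) (nat_lit 20692876569) (nat_lit 228) (nat_lit 10607432577) (nat_lit 304) (nat_lit 755587031) (nat_lit 60) (nat_lit 5) (nat_lit 63) (nat_lit 5) (nat_lit 64) (nat_lit 5) (nat_lit 355) (nat_lit 290) (nat_lit 135)) (XT.lf (nat_lit 0) (nat_lit 2884391325)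 (nat_lit 228) (nat_lit 1632393875) (nat_lit 304) (nat_lit 28219754317) (nat_lit 56) (nat_lit 5) (nat_lit 59) (nat_lit 5) (nat_lit 60) (nat_lit 5) (nat_lit 356) (nat_lit 290) (nat_lit 134)))) (XT.nd (nat_lit 156) (nat_lit 228) (nat_lit 0) (XT.nd (nat_lit 78) (nat_lit 0) (nat_lit 0) (XT.lf (nat_lit 0) (nat_lit 10115712718) (nat_lit 304) (nat_lit 15732345499) (nat_lit 76) (nat_lit 7583816339) (nat_lit 56) (nat_lit 5) (nat_lit 60) (nat_lit 5) (nat_lit 57) (nat_lit 5) (nat_lit 357) (nat_lit 290) (nat_lit 133)) (XT.lf (nat_lit 0) (nat_lit 15893450153) (nat_lit 304) (nat_lit 1213415582) (nat_lit 76) (nat_lit 17040882487) (nat_lit 56) (nat_lit 5) (nat_lit 60) (nat_lit 5) (nat_lit 57) (nat_lit 5) (nat_lit 358) (nat_lit 290) (nat_lit 132))) (XT.nd (nat_lit 78) (nat_lit 0) (nat_lit 0) (XT.lf (nat_lit 0) (nat_lit 14006333588) (nat_lit 228) (nat_lit 7967658304) (nat_lit 304) (nat_lit 12907225765) (nat_lit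 53) (nat_lit 5) (nat_lit 56) (nat_lit 5) (nat_lit 57) (nat_lit 5) (nat_lit 359) (nat_lit 290) (nat_lit 131)) (XT.lf (nat_lit 0) (nat_lit 28258102153) (nat_lit 304) (nat_lit 5950905212) (nat_lit 76) (nat_lit 1427052861) (nat_lit 53) (nat_lit 5) (nat_lit 57) (nat_lit 5) (nat_lit 54) (nat_lit 5) (nat_lit 360) (nat_lit 290) (nat_lit 130)))))) (XT.nd (nat_lit 546) (nat_lit 684) (nat_lit 0) (XT.nd (nat_lit 234) (nat_lit 152) (nat_lit 0) (XT.nd (nat_lit 78) (nat_lit 304) (nat_lit 0) (XT.lf (nat_lit 0) (nat_lit 9519794891) (nat_lit 152) (nat_lit 25376368371) (nat_lit 228) (nat_lit 1512425493) (nat_lit 51) (nat_lit 5) (nat_lit 53) (nat_lit 5) (nat_lit 54) (nat_lit 5) (nat_lit 361) (nat_lit 290) (nat_lit 129)) (XT.nd (nat_lit 78) (nat_lit 228) (nat_lit 0) (XT.lf (nat_lit 0) (nat_lit 4496429663) (nat_lit 228) (nat_lit 11677918401) (nat_lit 76) (nat_lit 21026970246) (nat_lit 50) (nat_lit 5) (nat_lit 53) (nat_lit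 5) (nat_lit 51) (nat_lit 5) (nat_lit 362) (nat_lit 290) (nat_lit 128)) (XT.lf (nat_lit 0) (nat_lit 4045582253) (nat_lit 228) (nat_lit 6643650501) (nat_lit 304) (nat_lit 27327128560) (nat_lit 47) (nat_lit 5) (nat_lit 50) (nat_lit 5) (nat_lit 51) (nat_lit 5) (nat_lit 363) (nat_lit 290) (nat_lit 127)))) (XT.nd (nat_lit 156) (nat_lit 152) (nat_lit 0) (XT.nd (nat_lit 78) (nat_lit 0) (nat_lit 0) (XT.lf (nat_lit 0) (nat_lit 17212643609) (nat_lit 304) (nat_lit 18411525315) (nat_lit 76) (nat_lit 3227345095) (nat_lit 47) (nat_lit 5) (nat_lit 51) (nat_lit 5) (nat_lit 48) (nat_lit 5) (nat_lit 364) (nat_lit 290) (nat_lit 126)) (XT.lf (nat_lit 0) (nat_lit 23992905911) (nat_lit 304) (nat_lit 2458761176) (nat_lit 76) (nat_lit 13258222772) (nat_lit 47) (nat_lit 5) (nat_lit 51) (nat_lit 5) (nat_lit 48) (nat_lit 5) (nat_lit 365) (nat_lit 290) (nat_lit 125))) (XT.nd (nat_lit 78) (nat_lit 0) (nat_lit 0) (XT.lf (nat_lit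 0) (nat_lit 14243252654) (nat_lit 152) (nat_lit 16865743533) (nat_lit 228) (nat_lit 9481051126) (nat_lit 45) (nat_lit 5) (nat_lit 47) (nat_lit 5) (nat_lit 48) (nat_lit 5) (nat_lit 366) (nat_lit 290) (nat_lit 124)) (XT.lf (nat_lit 0) (nat_lit 31489529981) (nat_lit 152) (nat_lit 6969434819) (nat_lit 228) (nat_lit 3037035677) (nat_lit 45) (nat_lit 5) (nat_lit 47) (nat_lit 5) (nat_lit 48) (nat_lit 5) (nat_lit 367) (nat_lit 290) (nat_lit 123))))) (XT.nd (nat_lit 234) (nat_lit 380) (nat_lit 0) (XT.nd (nat_lit 78) (nat_lit 0) (nat_lit 0) (XT.lf (nat_lit 0) (nat_lit 3624153601) (nat_lit 304) (nat_lit 35540836887) (nat_lit 76) (nat_lit 3260282944) (nat_lit 41) (nat_lit 5) (nat_lit 45) (nat_lit 5) (nat_lit 42) (nat_lit 5) (nat_lit 368) (nat_lit 290) (nat_lit 122)) (XT.nd (nat_lit 78) (nat_lit 0) (nat_lit 0) (XT.lf (nat_lit 0) (nat_lit 10590871544) (nat_lit 304) (nat_lit 18999388442) (nat_lit 76) (nat_lit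 13786263082) (nat_lit 41) (nat_lit 5) (nat_lit 45) (nat_lit 5) (nat_lit 42) (nat_lit 5) (nat_lit 369) (nat_lit 290) (nat_lit 121)) (XT.lf (nat_lit 0) (nat_lit 17762400644) (nat_lit 304) (nat_lit 1968603780) (nat_lit 76) (nat_lit 24625434016) (nat_lit 41) (nat_lit 5) (nat_lit 45) (nat_lit 5) (nat_lit 42) (nat_lit 5) (nat_lit 370) (nat_lit 290) (nat_lit 120)))) (XT.nd (nat_lit 156) (nat_lit 228) (nat_lit 0) (XT.nd (nat_lit 78) (nat_lit 0) (nat_lit 0) (XT.lf (nat_lit 0) (nat_lit 15876200216) (nat_lit 152) (nat_lit 9421418818) (nat_lit 228) (nat_lit 20063678401) (nat_lit 39) (nat_lit 5) (nat_lit 41) (nat_lit 5) (nat_lit 42) (nat_lit 5) (nat_lit 371) (nat_lit 290) (nat_lit 119)) (XT.lf (nat_lit 0) (nat_lit 33086441584) (nat_lit 228) (nat_lit 12117448396) (nat_lit 76) (nat_lit 1191588182) (nat_lit 39) (nat_lit 5) (nat_lit 42) (nat_lit 5) (nat_lit 40) (nat_lit 5) (nat_lit 372) (nat_lit 290) (nat_lit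 118))) (XT.nd (nat_lit 78) (nat_lit 76) (nat_lit 0) (XT.lf (nat_lit 0) (nat_lit 5784279021) (nat_lit 152) (nat_lit 35469611913) (nat_lit 228) (nat_lit 6202446834) (nat_lit 37) (nat_lit 5) (nat_lit 39) (nat_lit 5) (nat_lit 40) (nat_lit 5) (nat_lit 373) (nat_lit 290) (nat_lit 117)) (XT.lf (nat_lit 0) (nat_lit 1215201389) (nat_lit 228) (nat_lit 24092407768) (nat_lit 76) (nat_lit 23237504054) (nat_lit 36) (nat_lit 5) (nat_lit 39) (nat_lit 5) (nat_lit 37) (nat_lit 5) (nat_lit 374) (nat_lit 290) (nat_lit 116))))))) (XT.nd (nat_lit 1014) (nat_lit 532) (nat_lit 0) (XT.nd (nat_lit 468) (nat_lit 456) (nat_lit 0) (XT.nd (nat_lit 234) (nat_lit 152) (nat_lit 0) (XT.nd (nat_lit 78) (nat_lit 152) (nat_lit 0) (XT.lf (nat_lit 0) (nat_lit 8726920047) (nat_lit 228) (nat_lit 6053144111) (nat_lit 76) (nat_lit 34884761452) (nat_lit 36) (nat_lit 5) (nat_lit 39) (nat_lit 5) (nat_lit 37) (nat_lit 5) (nat_lit 375) (nat_lit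 290) (nat_lit 115)) (XT.nd (nat_lit 78) (nat_lit 0) (nat_lit 0) (XT.lf (nat_lit 0) (nat_lit 12770311167) (nat_lit 152) (nat_lit 3812749731) (nat_lit 228) (nat_lit 34231498426) (nat_lit 34) (nat_lit 5) (nat_lit 36) (nat_lit 5) (nat_lit 37) (nat_lit 5) (nat_lit 376) (nat_lit 290) (nat_lit 114)) (XT.lf (nat_lit 0) (nat_lit 24804892073) (nat_lit 228) (nat_lit 19793147358) (nat_lit 76) (nat_lit 7396847439) (nat_lit 34) (nat_lit 5) (nat_lit 37) (nat_lit 5) (nat_lit 35) (nat_lit 5) (nat_lit 377) (nat_lit 290) (nat_lit 113)))) (XT.nd (nat_lit 78) (nat_lit 152) (nat_lit 0) (XT.lf (nat_lit 0) (nat_lit 33307574029) (nat_lit 228) (nat_lit 1038290418) (nat_lit 76) (nat_lit 18863735863) (nat_lit 34) (nat_lit 5) (nat_lit 37) (nat_lit 5) (nat_lit 35) (nat_lit 5) (nat_lit 378) (nat_lit 290) (nat_lit 112)) (XT.nd (nat_lit 78) (nat_lit 0) (nat_lit 0) (XT.lf (nat_lit 0) (nat_lit 18637036594) (nat_lit 152) (nat_lit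 23603999814) (nat_lit 228) (nat_lit 12214449635) (nat_lit 32) (nat_lit 5) (nat_lit 34) (nat_lit 5) (nat_lit 35) (nat_lit 5) (nat_lit 379) (nat_lit 290) (nat_lit 111)) (XT.lf (nat_lit 0) (nat_lit 38918113373) (nat_lit 152) (nat_lit 12531468160) (nat_lit 228) (nat_lit 4288956280) (nat_lit 32) (nat_lit 5) (nat_lit 34) (nat_lit 5) (nat_lit 35) (nat_lit 5) (nat_lit 380) (nat_lit 290) (nat_lit 110))))) (XT.nd (nat_lit 234) (nat_lit 228) (nat_lit 0) (XT.nd (nat_lit 78) (nat_lit 0) (nat_lit 0) (XT.lf (nat_lit 0) (nat_lit 2758432669) (nat_lit 152) (nat_lit 1063442256) (nat_lit 228) (nat_lit 53236395437) (nat_lit 29) (nat_lit 5) (nat_lit 31) (nat_lit 5) (nat_lit 32) (nat_lit 5) (nat_lit 381) (nat_lit 290) (nat_lit 109)) (XT.nd (nat_lit 78) (nat_lit 0) (nat_lit 0) (XT.lf (nat_lit 0) (nat_lit 12361364191) (nat_lit 228) (nat_lit 35296226320) (nat_lit 76) (nat_lit 10750585997) (nat_lit 29) (nat_lit 5) (nat_lit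 32) (nat_lit 5) (nat_lit 30) (nat_lit 5) (nat_lit 382) (nat_lit 290) (nat_lit 108)) (XT.lf (nat_lit 0) (nat_lit 21164343503) (nat_lit 228) (nat_lit 15738585013) (nat_lit 76) (nat_lit 22895433790) (nat_lit 29) (nat_lit 5) (nat_lit 32) (nat_lit 5) (nat_lit 30) (nat_lit 5) (nat_lit 383) (nat_lit 290) (nat_lit 107)))) (XT.nd (nat_lit 156) (nat_lit 76) (nat_lit 0) (XT.nd (nat_lit 78) (nat_lit 0) (nat_lit 0) (XT.lf (nat_lit 0) (nat_lit 4487974432) (nat_lit 152) (nat_lit 25783449050) (nat_lit 228) (nat_lit 30957631439) (nat_lit 27) (nat_lit 5) (nat_lit 29) (nat_lit 5) (nat_lit 30) (nat_lit 5) (nat_lit 384) (nat_lit 290) (nat_lit 106)) (XT.lf (nat_lit 0) (nat_lit 25638621398) (nat_lit 152) (nat_lit 14168933324) (nat_lit 228) (nat_lit 22890439962) (nat_lit 27) (nat_lit 5) (nat_lit 29) (nat_lit 5) (nat_lit 30) (nat_lit 5) (nat_lit 385) (nat_lit 290) (nat_lit 105))) (XT.nd (nat_lit 78) (nat_lit 76) (nat_lit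 0) (XT.lf (nat_lit 0) (nat_lit 47418608330) (nat_lit 152) (nat_lit 2208161581) (nat_lit 228) (nat_lit 14584324218) (nat_lit 27) (nat_lit 5) (nat_lit 29) (nat_lit 5) (nat_lit 30) (nat_lit 5) (nat_lit 386) (nat_lit 290) (nat_lit 104)) (XT.lf (nat_lit 0) (nat_lit 4059326031) (nat_lit 76) (nat_lit 55814520582) (nat_lit 152) (nat_lit 5891742838) (nat_lit 26) (nat_lit 5) (nat_lit 27) (nat_lit 5) (nat_lit 28) (nat_lit 4) (nat_lit 387) (nat_lit 290) (nat_lit 103)))))) (XT.nd (nat_lit 546) (nat_lit 228) (nat_lit 0) (XT.nd (nat_lit 234) (nat_lit 76) (nat_lit 0) (XT.nd (nat_lit 78) (nat_lit 152) (nat_lit 0) (XT.lf (nat_lit 0) (nat_lit 3192059824) (nat_lit 152) (nat_lit 41538789518) (nat_lit 76) (nat_lit 22629283142) (nat_lit 25) (nat_lit 5) (nat_lit 27) (nat_lit 5) (nat_lit 26) (nat_lit 5) (nat_lit 388) (nat_lit 290) (nat_lit 102)) (XT.nd (nat_lit 78) (nat_lit 152) (nat_lit 0) (XT.lf (nat_lit 0) (nat_lit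 12427117505) (nat_lit 152) (nat_lit 20829583445) (nat_lit 76) (nat_lit 35744147385) (nat_lit 25) (nat_lit 5) (nat_lit 27) (nat_lit 5) (nat_lit 26) (nat_lit 5) (nat_lit 389) (nat_lit 290) (nat_lit 101)) (XT.lf (nat_lit 0) (nat_lit 505958326) (nat_lit 152) (nat_lit 21435374049) (nat_lit 228) (nat_lit 48749391408) (nat_lit 23) (nat_lit 5) (nat_lit 25) (nat_lit 5) (nat_lit 26) (nat_lit 5) (nat_lit 390) (nat_lit 290) (nat_lit 100)))) (XT.nd (nat_lit 156) (nat_lit 76) (nat_lit 0) (XT.nd (nat_lit 78) (nat_lit 0) (nat_lit 0) (XT.lf (nat_lit 0) (nat_lit 22903786030) (nat_lit 152) (nat_lit 9044802008) (nat_lit 228) (nat_lit 40476480274) (nat_lit 23) (nat_lit 5) (nat_lit 25) (nat_lit 5) (nat_lit 26) (nat_lit 5) (nat_lit 391) (nat_lit 290) (nat_lit 99)) (XT.lf (nat_lit 0) (nat_lit 42289132791) (nat_lit 228) (nat_lit 28278318383) (nat_lit 76) (nat_lit 3643001072) (nat_lit 23) (nat_lit 5) (nat_lit 26) (nat_lit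 5) (nat_lit 24) (nat_lit 4) (nat_lit 392) (nat_lit 290) (nat_lit 98))) (XT.nd (nat_lit 78) (nat_lit 76) (nat_lit 0) (XT.lf (nat_lit 0) (nat_lit 53026860614) (nat_lit 228) (nat_lit 6492170499) (nat_lit 76) (nat_lit 16527758759) (nat_lit 23) (nat_lit 5) (nat_lit 26) (nat_lit 5) (nat_lit 24) (nat_lit 4) (nat_lit 393) (nat_lit 290) (nat_lit 97)) (XT.lf (nat_lit 0) (nat_lit 16260441765) (nat_lit 76) (nat_lit 47980073366) (nat_lit 152) (nat_lit 13693089794) (nat_lit 22) (nat_lit 5) (nat_lit 23) (nat_lit 5) (nat_lit 24) (nat_lit 4) (nat_lit 394) (nat_lit 290) (nat_lit 96))))) (XT.nd (nat_lit 234) (nat_lit 0) (nat_lit 0) (XT.nd (nat_lit 78) (nat_lit 228) (nat_lit 0) (XT.lf (nat_lit 0) (nat_lit 39824339018) (nat_lit 76) (nat_lit 36029319054) (nat_lit 152) (nat_lit 4021475101) (nat_lit 22) (nat_lit 5) (nat_lit 23) (nat_lit 5) (nat_lit 24) (nat_lit 4) (nat_lit 395) (nat_lit 290) (nat_lit 95)) (XT.nd (nat_lit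 78) (nat_lit 152) (nat_lit 0) (XT.lf (nat_lit 0) (nat_lit 5821939539) (nat_lit 152) (nat_lit 17841154249) (nat_lit 76) (nat_lit 58210174437) (nat_lit 21) (nat_lit 5) (nat_lit 23) (nat_lit 5) (nat_lit 22) (nat_lit 5) (nat_lit 396) (nat_lit 290) (nat_lit 94)) (XT.lf (nat_lit 0) (nat_lit 5090111386) (nat_lit 152) (nat_lit 10836285589) (nat_lit 228) (nat_lit 68002359831) (nat_lit 19) (nat_lit 5) (nat_lit 21) (nat_lit 5) (nat_lit 22) (nat_lit 5) (nat_lit 397) (nat_lit 290) (nat_lit 93)))) (XT.nd (nat_lit 32370) (nat_lit 0) (nat_lit 13908) (XT.nd (nat_lit 32292) (nat_lit 0) (nat_lit 13908) (XT.lf (nat_lit 0) (nat_lit 26536416181) (nat_lit 228) (nat_lit 56994266946) (nat_lit 76) (nat_lit 2509155060) (nat_lit 19) (nat_lit 5) (nat_lit 22) (nat_lit 5) (nat_lit 20) (nat_lit 4) (nat_lit 398) (nat_lit 290) (nat_lit 92)) (XT.lf (nat_lit 0) (nat_lit 757663234) (nat_lit 1140) (nat_lit 2283324022) (nat_lit 1140)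 (nat_lit 2283324022) (nat_lit 202) (nat_lit 3) (nat_lit 217) (nat_lit 3) (nat_lit 217) (nat_lit 5) (nat_lit 291) (nat_lit 291) (nat_lit 198))) (XT.nd (nat_lit 78) (nat_lit 0) (nat_lit 76) (XT.lf (nat_lit 76) (nat_lit 224718777) (nat_lit 0) (nat_lit 1896014087) (nat_lit 1140) (nat_lit 8669312843) (nat_lit 203) (nat_lit 5) (nat_lit 202) (nat_lit 3) (nat_lit 217) (nat_lit 5) (nat_lit 292) (nat_lit 291) (nat_lit 197)) (XT.lf (nat_lit 0) (nat_lit 2791425584) (nat_lit 1064) (nat_lit 5717301929) (nat_lit 1140) (nat_lit 2425602546) (nat_lit 203) (nat_lit 5) (nat_lit 217) (nat_lit 5) (nat_lit 218) (nat_lit 5) (nat_lit 293) (nat_lit 291) (nat_lit 196))))))))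
noncomputable def xc180 : XT := (XT.nd (nat_lit 2028) (nat_lit 5624) (nat_lit 0) (XT.nd (nat_lit 1014) (nat_lit 3344) (nat_lit 0) (XT.nd (nat_lit 468) (nat_lit 836) (nat_lit 0) (XT.nd (nat_lit 234) (nat_lit 0) (nat_lit 76) (XT.nd (nat_lit 78) (nat_lit 0) (nat_lit 76) (XT.lf (nat_lit 0) (nat_lit 3479005536) (nat_lit 1064) (nat_lit 754973774) (nat_lit 1140) (nat_lit 6849091931) (nat_lit 203) (nat_lit 5) (nat_lit 217) (nat_lit 5) (nat_lit 218) (nat_lit 5) (nat_lit 294) (nat_lit 291) (nat_lit 195)) (XT.nd (nat_lit 78) (nat_lit 0) (nat_lit 0) (XT.lf (nat_lit 0) (nat_lit 4210574559) (nat_lit 1064) (nat_lit 6807126907) (nat_lit 1140) (nat_lit 217902725) (nat_lit 204) (nat_lit 5) (nat_lit 218) (nat_lit 5) (nat_lit 219) (nat_lit 5) (nat_lit 295) (nat_lit 291) (nat_lit 194)) (XT.lf (nat_lit 0) (nat_lit 4992939700) (nat_lit 1064) (nat_lit 1664201150) (nat_lit 1140) (nat_lit 4734736305) (nat_lit 204) (nat_lit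 5) (nat_lit 218) (nat_lit 5) (nat_lit 219) (nat_lit 5) (nat_lit 296) (nat_lit 291) (nat_lit 193)))) (XT.nd (nat_lit 78) (nat_lit 0) (nat_lit 76) (XT.lf (nat_lit 76) (nat_lit 3692811498) (nat_lit 0) (nat_lit 2121296055) (nat_lit 1140) (nat_lit 5738299440) (nat_lit 205) (nat_lit 5) (nat_lit 204) (nat_lit 5) (nat_lit 219) (nat_lit 5) (nat_lit 297) (nat_lit 291) (nat_lit 192)) (XT.nd (nat_lit 78) (nat_lit 0) (nat_lit 0) (XT.lf (nat_lit 0) (nat_lit 6681777620) (nat_lit 1064) (nat_lit 2510116106) (nat_lit 1140) (nat_lit 2525230789) (nat_lit 205) (nat_lit 5) (nat_lit 219) (nat_lit 5) (nat_lit 220) (nat_lit 5) (nat_lit 298) (nat_lit 291) (nat_lit 191)) (XT.lf (nat_lit 76) (nat_lit 3025423384) (nat_lit 0) (nat_lit 4581088550) (nat_lit 1140) (nat_lit 4279367598) (nat_lit 206) (nat_lit 5) (nat_lit 205) (nat_lit 5) (nat_lit 220) (nat_lit 5) (nat_lit 299) (nat_lit 291) (nat_lit 190))))) (XT.nd (nat_lit 234)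 (nat_lit 1064) (nat_lit 0) (XT.nd (nat_lit 78) (nat_lit 0) (nat_lit 0) (XT.lf (nat_lit 0) (nat_lit 8567647451) (nat_lit 1064) (nat_lit 3295300198) (nat_lit 1140) (nat_lit 196515983) (nat_lit 206) (nat_lit 5) (nat_lit 220) (nat_lit 5) (nat_lit 221) (nat_lit 5) (nat_lit 300) (nat_lit 291) (nat_lit 189)) (XT.nd (nat_lit 78) (nat_lit 0) (nat_lit 0) (XT.lf (nat_lit 76) (nat_lit 2426193870) (nat_lit 0) (nat_lit 7182088601) (nat_lit 1140) (nat_lit 2628478266) (nat_lit 207) (nat_lit 5) (nat_lit 206) (nat_lit 5) (nat_lit 221) (nat_lit 5) (nat_lit 301) (nat_lit 291) (nat_lit 188)) (XT.lf (nat_lit 76) (nat_lit 8374403713) (nat_lit 0) (nat_lit 2321399683) (nat_lit 1140) (nat_lit 1723128057) (nat_lit 207) (nat_lit 5) (nat_lit 206) (nat_lit 5) (nat_lit 221) (nat_lit 5) (nat_lit 302) (nat_lit 291) (nat_lit 187)))) (XT.nd (nat_lit 156) (nat_lit 0) (nat_lit 76) (XT.nd (nat_lit 78) (nat_lit 1140) (nat_lit 0) (XT.lf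 (nat_lit 76) (nat_lit 1892918563) (nat_lit 0) (nat_lit 9949989743) (nat_lit 1140) (nat_lit 762874216) (nat_lit 208) (nat_lit 5) (nat_lit 207) (nat_lit 5) (nat_lit 222) (nat_lit 5) (nat_lit 303) (nat_lit 291) (nat_lit 186)) (XT.lf (nat_lit 0) (nat_lit 269143146) (nat_lit 1140) (nat_lit 4744113931) (nat_lit 1216) (nat_lit 7783518339) (nat_lit 192) (nat_lit 5) (nat_lit 207) (nat_lit 5) (nat_lit 208) (nat_lit 5) (nat_lit 304) (nat_lit 291) (nat_lit 185))) (XT.nd (nat_lit 78) (nat_lit 0) (nat_lit 0) (XT.lf (nat_lit 0) (nat_lit 1314916770) (nat_lit 1140) (nat_lit 11583187539) (nat_lit 1216) (nat_lit 95245276) (nat_lit 193) (nat_lit 5) (nat_lit 208) (nat_lit 5) (nat_lit 209) (nat_lit 5) (nat_lit 305) (nat_lit 291) (nat_lit 184)) (XT.lf (nat_lit 0) (nat_lit 2474102422) (nat_lit 1140) (nat_lit 5411148949) (nat_lit 1216) (nat_lit 5308129754) (nat_lit 193) (nat_lit 5) (nat_lit 208) (nat_lit 5) (nat_lit 209)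 (nat_lit 5) (nat_lit 306) (nat_lit 291) (nat_lit 183)))))) (XT.nd (nat_lit 468) (nat_lit 1748) (nat_lit 0) (XT.nd (nat_lit 234) (nat_lit 608) (nat_lit 0) (XT.nd (nat_lit 78) (nat_lit 1064) (nat_lit 0) (XT.lf (nat_lit 76) (nat_lit 952035610) (nat_lit 0) (nat_lit 2709667002) (nat_lit 1216) (nat_lit 9737922518) (nat_lit 194) (nat_lit 5) (nat_lit 193) (nat_lit 5) (nat_lit 209) (nat_lit 5) (nat_lit 307) (nat_lit 291) (nat_lit 182)) (XT.nd (nat_lit 78) (nat_lit 1140) (nat_lit 0) (XT.lf (nat_lit 0) (nat_lit 4950155687) (nat_lit 1140) (nat_lit 6032086623) (nat_lit 76) (nat_lit 2627877486) (nat_lit 194) (nat_lit 5) (nat_lit 209) (nat_lit 5) (nat_lit 195) (nat_lit 5) (nat_lit 308) (nat_lit 291) (nat_lit 181)) (XT.lf (nat_lit 0) (nat_lit 547136431) (nat_lit 1140) (nat_lit 5747500554) (nat_lit 1216) (nat_lit 7531790577) (nat_lit 179) (nat_lit 5) (nat_lit 194) (nat_lit 5) (nat_lit 195) (nat_lit 5) (nat_lit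 309) (nat_lit 291) (nat_lit 180)))) (XT.nd (nat_lit 78) (nat_lit 608) (nat_lit 0) (XT.lf (nat_lit 0) (nat_lit 7434918357) (nat_lit 1140) (nat_lit 291042122) (nat_lit 1216) (nat_lit 6321887784) (nat_lit 179) (nat_lit 5) (nat_lit 194) (nat_lit 5) (nat_lit 195) (nat_lit 5) (nat_lit 310) (nat_lit 291) (nat_lit 179)) (XT.nd (nat_lit 78) (nat_lit 0) (nat_lit 0) (XT.lf (nat_lit 0) (nat_lit 193407081) (nat_lit 608) (nat_lit 9045935524) (nat_lit 684) (nat_lit 5035413793) (nat_lit 171) (nat_lit 5) (nat_lit 179) (nat_lit 5) (nat_lit 180) (nat_lit 5) (nat_lit 311) (nat_lit 291) (nat_lit 178)) (XT.lf (nat_lit 0) (nat_lit 7324114491) (nat_lit 608) (nat_lit 3529963026) (nat_lit 684) (nat_lit 3652733568) (nat_lit 171) (nat_lit 5) (nat_lit 179) (nat_lit 5) (nat_lit 180) (nat_lit 5) (nat_lit 312) (nat_lit 291) (nat_lit 177))))) (XT.nd (nat_lit 234) (nat_lit 1064) (nat_lit 0) (XT.nd (nat_lit 78) (nat_lit 684) (nat_lit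 0) (XT.lf (nat_lit 0) (nat_lit 12524666256) (nat_lit 684) (nat_lit 110270057) (nat_lit 76) (nat_lit 2110686071) (nat_lit 171) (nat_lit 5) (nat_lit 180) (nat_lit 5) (nat_lit 172) (nat_lit 5) (nat_lit 313) (nat_lit 291) (nat_lit 176)) (XT.nd (nat_lit 78) (nat_lit 76) (nat_lit 0) (XT.lf (nat_lit 0) (nat_lit 7269085039) (nat_lit 608) (nat_lit 7068229487) (nat_lit 684) (nat_lit 651542063) (nat_lit 163) (nat_lit 5) (nat_lit 171) (nat_lit 5) (nat_lit 172) (nat_lit 5) (nat_lit 314) (nat_lit 291) (nat_lit 175)) (XT.lf (nat_lit 0) (nat_lit 934484759) (nat_lit 684) (nat_lit 388850966) (nat_lit 76) (nat_lit 13916138877) (nat_lit 162) (nat_lit 5) (nat_lit 171) (nat_lit 5) (nat_lit 163) (nat_lit 5) (nat_lit 315) (nat_lit 291) (nat_lit 174)))) (XT.nd (nat_lit 156) (nat_lit 532) (nat_lit 0) (XT.nd (nat_lit 78) (nat_lit 0) (nat_lit 0) (XT.lf (nat_lit 0) (nat_lit 2657560907) (nat_lit 608) (nat_lit 8254839659) (nat_lit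 76) (nat_lit 4581955540) (nat_lit 155) (nat_lit 5) (nat_lit 163) (nat_lit 5) (nat_lit 156) (nat_lit 5) (nat_lit 316) (nat_lit 291) (nat_lit 173)) (XT.lf (nat_lit 0) (nat_lit 4437255033) (nat_lit 608) (nat_lit 677400021) (nat_lit 76) (nat_lit 10642096176) (nat_lit 155) (nat_lit 5) (nat_lit 163) (nat_lit 5) (nat_lit 156) (nat_lit 5) (nat_lit 317) (nat_lit 291) (nat_lit 172))) (XT.nd (nat_lit 78) (nat_lit 0) (nat_lit 0) (XT.lf (nat_lit 0) (nat_lit 6337239877) (nat_lit 608) (nat_lit 8777089578) (nat_lit 76) (nat_lit 910696266) (nat_lit 148) (nat_lit 5) (nat_lit 156) (nat_lit 5) (nat_lit 149) (nat_lit 5) (nat_lit 318) (nat_lit 291) (nat_lit 171)) (XT.lf (nat_lit 0) (nat_lit 8340213059) (nat_lit 608) (nat_lit 939018973) (nat_lit 76) (nat_lit 7020750842) (nat_lit 148) (nat_lit 5) (nat_lit 156) (nat_lit 5) (nat_lit 149) (nat_lit 5) (nat_lit 319) (nat_lit 291) (nat_lit 170))))))) (XT.nd (nat_lit 1014)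 (nat_lit 2432) (nat_lit 0) (XT.nd (nat_lit 468) (nat_lit 1672) (nat_lit 0) (XT.nd (nat_lit 234) (nat_lit 532) (nat_lit 0) (XT.nd (nat_lit 78) (nat_lit 532) (nat_lit 0) (XT.lf (nat_lit 0) (nat_lit 7264210394) (nat_lit 456) (nat_lit 3197670263) (nat_lit 532) (nat_lit 6119563603) (nat_lit 142) (nat_lit 5) (nat_lit 148) (nat_lit 5) (nat_lit 149) (nat_lit 5) (nat_lit 320) (nat_lit 291) (nat_lit 169)) (XT.nd (nat_lit 78) (nat_lit 532) (nat_lit 0) (XT.lf (nat_lit 0) (nat_lit 12675236434) (nat_lit 532) (nat_lit 1179805665) (nat_lit 76) (nat_lit 3015479524) (nat_lit 142) (nat_lit 5) (nat_lit 149) (nat_lit 5) (nat_lit 143) (nat_lit 5) (nat_lit 321) (nat_lit 291) (nat_lit 168)) (XT.lf (nat_lit 0) (nat_lit 7300944407) (nat_lit 532) (nat_lit 7745196998) (nat_lit 608) (nat_lit 2119408338) (nat_lit 135) (nat_lit 5) (nat_lit 142) (nat_lit 5) (nat_lit 143) (nat_lit 5) (nat_lit 322) (nat_lit 291) (nat_lit 167))))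 (XT.nd (nat_lit 78) (nat_lit 456) (nat_lit 0) (XT.lf (nat_lit 0) (nat_lit 19802791) (nat_lit 608) (nat_lit 1420785654) (nat_lit 76) (nat_lit 16028804297) (nat_lit 134) (nat_lit 5) (nat_lit 142) (nat_lit 5) (nat_lit 135) (nat_lit 5) (nat_lit 323) (nat_lit 291) (nat_lit 166)) (XT.nd (nat_lit 78) (nat_lit 0) (nat_lit 0) (XT.lf (nat_lit 0) (nat_lit 2290787387) (nat_lit 532) (nat_lit 10441229121) (nat_lit 76) (nat_lit 5046410940) (nat_lit 128) (nat_lit 5) (nat_lit 135) (nat_lit 5) (nat_lit 129) (nat_lit 5) (nat_lit 324) (nat_lit 291) (nat_lit 165)) (XT.lf (nat_lit 0) (nat_lit 4648535562) (nat_lit 532) (nat_lit 1735230300) (nat_lit 76) (nat_lit 11712419766) (nat_lit 128) (nat_lit 5) (nat_lit 135) (nat_lit 5) (nat_lit 129) (nat_lit 5) (nat_lit 325) (nat_lit 291) (nat_lit 164))))) (XT.nd (nat_lit 234) (nat_lit 836) (nat_lit 0) (XT.nd (nat_lit 78) (nat_lit 380) (nat_lit 0) (XT.lf (nat_lit 0) (nat_lit 7140160495)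 (nat_lit 532) (nat_lit 11059412220) (nat_lit 76) (nat_lit 222020631) (nat_lit 122) (nat_lit 5) (nat_lit 129) (nat_lit 5) (nat_lit 123) (nat_lit 5) (nat_lit 326) (nat_lit 291) (nat_lit 163)) (XT.nd (nat_lit 78) (nat_lit 380) (nat_lit 0) (XT.lf (nat_lit 0) (nat_lit 9777777010) (nat_lit 532) (nat_lit 2062938918) (nat_lit 76) (nat_lit 6913920879) (nat_lit 122) (nat_lit 5) (nat_lit 129) (nat_lit 5) (nat_lit 123) (nat_lit 5) (nat_lit 327) (nat_lit 291) (nat_lit 162)) (XT.lf (nat_lit 0) (nat_lit 7335495154) (nat_lit 380) (nat_lit 5220162773) (nat_lit 456) (nat_lit 6540190050) (nat_lit 117) (nat_lit 5) (nat_lit 122) (nat_lit 5) (nat_lit 123) (nat_lit 5) (nat_lit 328) (nat_lit 291) (nat_lit 161)))) (XT.nd (nat_lit 156) (nat_lit 456) (nat_lit 0) (XT.nd (nat_lit 78) (nat_lit 380) (nat_lit 0) (XT.lf (nat_lit 0) (nat_lit 15444057255) (nat_lit 456) (nat_lit 2415313302) (nat_lit 76) (nat_lit 1587119645) (nat_lit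 117) (nat_lit 5) (nat_lit 123) (nat_lit 5) (nat_lit 118) (nat_lit 5) (nat_lit 329) (nat_lit 291) (nat_lit 160)) (XT.lf (nat_lit 0) (nat_lit 7289732480) (nat_lit 380) (nat_lit 11242176420) (nat_lit 456) (nat_lit 1272368663) (nat_lit 112) (nat_lit 5) (nat_lit 117) (nat_lit 5) (nat_lit 118) (nat_lit 5) (nat_lit 330) (nat_lit 291) (nat_lit 159))) (XT.nd (nat_lit 78) (nat_lit 380) (nat_lit 0) (XT.lf (nat_lit 0) (nat_lit 1525288587) (nat_lit 456) (nat_lit 2862655212) (nat_lit 76) (nat_lit 15783948050) (nat_lit 111) (nat_lit 5) (nat_lit 117) (nat_lit 5) (nat_lit 112) (nat_lit 5) (nat_lit 331) (nat_lit 291) (nat_lit 158)) (XT.lf (nat_lit 0) (nat_lit 4468310056) (nat_lit 456) (nat_lit 13378879869) (nat_lit 76) (nat_lit 2700365514) (nat_lit 106) (nat_lit 5) (nat_lit 112) (nat_lit 5) (nat_lit 107) (nat_lit 5) (nat_lit 332) (nat_lit 291) (nat_lit 157)))))) (XT.nd (nat_lit 546) (nat_lit 1292) (nat_lit 0) (XT.nd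 (nat_lit 234) (nat_lit 760) (nat_lit 0) (XT.nd (nat_lit 78) (nat_lit 380) (nat_lit 0) (XT.lf (nat_lit 0) (nat_lit 7563752531) (nat_lit 456) (nat_lit 3428532355) (nat_lit 76) (nat_lit 9940288918) (nat_lit 106) (nat_lit 5) (nat_lit 112) (nat_lit 5) (nat_lit 107) (nat_lit 5) (nat_lit 333) (nat_lit 291) (nat_lit 156)) (XT.nd (nat_lit 78) (nat_lit 0) (nat_lit 0) (XT.lf (nat_lit 0) (nat_lit 6945362051) (nat_lit 380) (nat_lit 3865199064) (nat_lit 456) (nat_lit 10516835045) (nat_lit 101) (nat_lit 5) (nat_lit 106) (nat_lit 5) (nat_lit 107) (nat_lit 5) (nat_lit 334) (nat_lit 291) (nat_lit 155)) (XT.lf (nat_lit 0) (nat_lit 14215007409) (nat_lit 456) (nat_lit 4076642767) (nat_lit 76) (nat_lit 3440614282) (nat_lit 101) (nat_lit 5) (nat_lit 107) (nat_lit 5) (nat_lit 102) (nat_lit 5) (nat_lit 335) (nat_lit 291) (nat_lit 154)))) (XT.nd (nat_lit 156) (nat_lit 456) (nat_lit 0) (XT.nd (nat_lit 78) (nat_lit 0) (nat_lit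 0) (XT.lf (nat_lit 0) (nat_lit 6618481000) (nat_lit 304) (nat_lit 11197092064) (nat_lit 380) (nat_lit 4330894196) (nat_lit 97) (nat_lit 5) (nat_lit 101) (nat_lit 5) (nat_lit 102) (nat_lit 5) (nat_lit 336) (nat_lit 291) (nat_lit 153)) (XT.lf (nat_lit 0) (nat_lit 17707816325) (nat_lit 304) (nat_lit 3849733332) (nat_lit 380) (nat_lit 1014552470) (nat_lit 97) (nat_lit 5) (nat_lit 101) (nat_lit 5) (nat_lit 102) (nat_lit 5) (nat_lit 337) (nat_lit 291) (nat_lit 152))) (XT.nd (nat_lit 78) (nat_lit 0) (nat_lit 0) (XT.lf (nat_lit 0) (nat_lit 2442998317) (nat_lit 456) (nat_lit 16837496950) (nat_lit 76) (nat_lit 3726668356) (nat_lit 91) (nat_lit 5) (nat_lit 97) (nat_lit 5) (nat_lit 92) (nat_lit 5) (nat_lit 338) (nat_lit 291) (nat_lit 151)) (XT.lf (nat_lit 0) (nat_lit 6064081050) (nat_lit 456) (nat_lit 5878280975) (nat_lit 76) (nat_lit 11510214817) (nat_lit 91) (nat_lit 5) (nat_lit 97) (nat_lit 5) (nat_lit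 92) (nat_lit 5) (nat_lit 339) (nat_lit 291) (nat_lit 150))))) (XT.nd (nat_lit 234) (nat_lit 684) (nat_lit 0) (XT.nd (nat_lit 78) (nat_lit 304) (nat_lit 0) (XT.lf (nat_lit 0) (nat_lit 5507294319) (nat_lit 304) (nat_lit 4332135277) (nat_lit 380) (nat_lit 14070560791) (nat_lit 87) (nat_lit 5) (nat_lit 91) (nat_lit 5) (nat_lit 92) (nat_lit 5) (nat_lit 340) (nat_lit 291) (nat_lit 149)) (XT.nd (nat_lit 78) (nat_lit 304) (nat_lit 0) (XT.lf (nat_lit 0) (nat_lit 13814478647) (nat_lit 380) (nat_lit 7068687820) (nat_lit 76) (nat_lit 3495373400) (nat_lit 87) (nat_lit 5) (nat_lit 92) (nat_lit 5) (nat_lit 88) (nat_lit 5) (nat_lit 341) (nat_lit 291) (nat_lit 148)) (XT.lf (nat_lit 0) (nat_lit 4643363040) (nat_lit 304) (nat_lit 13345941049) (nat_lit 380) (nat_lit 6869432526) (nat_lit 83) (nat_lit 5) (nat_lit 87) (nat_lit 5) (nat_lit 88) (nat_lit 5) (nat_lit 342) (nat_lit 291) (nat_lit 147)))) (XT.nd (nat_lit 156)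 (nat_lit 304) (nat_lit 0) (XT.nd (nat_lit 78) (nat_lit 380) (nat_lit 0) (XT.lf (nat_lit 0) (nat_lit 16842077692) (nat_lit 304) (nat_lit 5511785818) (nat_lit 380) (nat_lit 2997547422) (nat_lit 83) (nat_lit 5) (nat_lit 87) (nat_lit 5) (nat_lit 88) (nat_lit 5) (nat_lit 343) (nat_lit 291) (nat_lit 146)) (XT.lf (nat_lit 0) (nat_lit 1023995126) (nat_lit 380) (nat_lit 22283605542) (nat_lit 76) (nat_lit 2549400282) (nat_lit 78) (nat_lit 5) (nat_lit 83) (nat_lit 5) (nat_lit 79) (nat_lit 5) (nat_lit 344) (nat_lit 291) (nat_lit 145))) (XT.nd (nat_lit 78) (nat_lit 304) (nat_lit 0) (XT.lf (nat_lit 0) (nat_lit 5240605302) (nat_lit 380) (nat_lit 10276790065) (nat_lit 76) (nat_lit 10855438672) (nat_lit 78) (nat_lit 5) (nat_lit 83) (nat_lit 5) (nat_lit 79) (nat_lit 5) (nat_lit 345) (nat_lit 291) (nat_lit 144)) (XT.lf (nat_lit 0) (nat_lit 2122376604) (nat_lit 304) (nat_lit 7475251967) (nat_lit 380) (nat_lit 17306101741)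 (nat_lit 74) (nat_lit 5) (nat_lit 78) (nat_lit 5) (nat_lit 79) (nat_lit 5) (nat_lit 346) (nat_lit 291) (nat_lit 143))))))))
noncomputable def xc181 : XT := (XT.nd (nat_lit 2028) (nat_lit 1368) (nat_lit 0) (XT.nd (nat_lit 1014) (nat_lit 1292) (nat_lit 0) (XT.nd (nat_lit 468) (nat_lit 760) (nat_lit 0) (XT.nd (nat_lit 234) (nat_lit 380) (nat_lit 0) (XT.nd (nat_lit 78) (nat_lit 228) (nat_lit 0) (XT.lf (nat_lit 0) (nat_lit 14191521020) (nat_lit 380) (nat_lit 12361401619) (nat_lit 76) (nat_lit 894451551) (nat_lit 74) (nat_lit 5) (nat_lit 79) (nat_lit 5) (nat_lit 75) (nat_lit 5) (nat_lit 347) (nat_lit 291) (nat_lit 142)) (XT.nd (nat_lit 78) (nat_lit 0) (nat_lit 0) (XT.lf (nat_lit 0) (nat_lit 354988165) (nat_lit 228) (nat_lit 18639440705) (nat_lit 304) (nat_lit 9010767866) (nat_lit 71) (nat_lit 5) (nat_lit 74) (nat_lit 5) (nat_lit 75) (nat_lit 5) (nat_lit 348) (nat_lit 291) (nat_lit 141)) (XT.lf (nat_lit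 0) (nat_lit 13697279666) (nat_lit 228) (nat_lit 10362839037) (nat_lit 304) (nat_lit 4516079570) (nat_lit 71) (nat_lit 5) (nat_lit 74) (nat_lit 5) (nat_lit 75) (nat_lit 5) (nat_lit 349) (nat_lit 291) (nat_lit 140)))) (XT.nd (nat_lit 78) (nat_lit 304) (nat_lit 0) (XT.lf (nat_lit 0) (nat_lit 105219128) (nat_lit 304) (nat_lit 1734429938) (nat_lit 76) (nat_lit 27324833429) (nat_lit 70) (nat_lit 5) (nat_lit 74) (nat_lit 5) (nat_lit 71) (nat_lit 5) (nat_lit 350) (nat_lit 291) (nat_lit 139)) (XT.nd (nat_lit 78) (nat_lit 0) (nat_lit 0) (XT.lf (nat_lit 0) (nat_lit 4952014721) (nat_lit 380) (nat_lit 17849100976) (nat_lit 76) (nat_lit 6962634056) (nat_lit 66) (nat_lit 5) (nat_lit 71) (nat_lit 5) (nat_lit 67) (nat_lit 5) (nat_lit 351) (nat_lit 291) (nat_lit 138)) (XT.lf (nat_lit 0) (nat_lit 9974336951) (nat_lit 380) (nat_lit 4398761538) (nat_lit 76) (nat_lit 16006997438) (nat_lit 66) (nat_lit 5) (nat_lit 71)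 (nat_lit 5) (nat_lit 67) (nat_lit 5) (nat_lit 352) (nat_lit 291) (nat_lit 137))))) (XT.nd (nat_lit 234) (nat_lit 304) (nat_lit 0) (XT.nd (nat_lit 78) (nat_lit 228) (nat_lit 0) (XT.lf (nat_lit 0) (nat_lit 9634689606) (nat_lit 228) (nat_lit 5599642773) (nat_lit 304) (nat_lit 15777994449) (nat_lit 63) (nat_lit 5) (nat_lit 66) (nat_lit 5) (nat_lit 67) (nat_lit 5) (nat_lit 353) (nat_lit 291) (nat_lit 136)) (XT.nd (nat_lit 78) (nat_lit 228) (nat_lit 0) (XT.lf (nat_lit 0) (nat_lit 20724470575) (nat_lit 304) (nat_lit 7524822836) (nat_lit 76) (nat_lit 3412065279) (nat_lit 63) (nat_lit 5) (nat_lit 67) (nat_lit 5) (nat_lit 64) (nat_lit 5) (nat_lit 354) (nat_lit 291) (nat_lit 135)) (XT.lf (nat_lit 0) (nat_lit 6812857132) (nat_lit 228) (nat_lit 19681994462) (nat_lit 304) (nat_lit 5831547943) (nat_lit 60) (nat_lit 5) (nat_lit 63) (nat_lit 5) (nat_lit 64) (nat_lit 5) (nat_lit 355) (nat_lit 291) (nat_lit 134))))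 (XT.nd (nat_lit 156) (nat_lit 0) (nat_lit 0) (XT.nd (nat_lit 78) (nat_lit 304) (nat_lit 0) (XT.lf (nat_lit 0) (nat_lit 21726779357) (nat_lit 228) (nat_lit 10782236790) (nat_lit 304) (nat_lit 500259373) (nat_lit 60) (nat_lit 5) (nat_lit 63) (nat_lit 5) (nat_lit 64) (nat_lit 5) (nat_lit 356) (nat_lit 291) (nat_lit 133)) (XT.lf (nat_lit 0) (nat_lit 3385559526) (nat_lit 228) (nat_lit 1535346600) (nat_lit 304) (nat_lit 28789476304) (nat_lit 56) (nat_lit 5) (nat_lit 59) (nat_lit 5) (nat_lit 60) (nat_lit 5) (nat_lit 357) (nat_lit 291) (nat_lit 132))) (XT.nd (nat_lit 78) (nat_lit 0) (nat_lit 0) (XT.lf (nat_lit 0) (nat_lit 10681340405) (nat_lit 304) (nat_lit 15795106050) (nat_lit 76) (nat_lit 7950330570) (nat_lit 56) (nat_lit 5) (nat_lit 60) (nat_lit 5) (nat_lit 57) (nat_lit 5) (nat_lit 358) (nat_lit 291) (nat_lit 131)) (XT.lf (nat_lit 0) (nat_lit 16624774343) (nat_lit 304) (nat_lit 852526968) (nat_lit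 76) (nat_lit 17687060166) (nat_lit 56) (nat_lit 5) (nat_lit 60) (nat_lit 5) (nat_lit 57) (nat_lit 5) (nat_lit 359) (nat_lit 291) (nat_lit 130)))))) (XT.nd (nat_lit 468) (nat_lit 608) (nat_lit 0) (XT.nd (nat_lit 234) (nat_lit 304) (nat_lit 0) (XT.nd (nat_lit 78) (nat_lit 152) (nat_lit 0) (XT.lf (nat_lit 0) (nat_lit 14819919667) (nat_lit 228) (nat_lit 8064181007) (nat_lit 304) (nat_lit 13035848618) (nat_lit 53) (nat_lit 5) (nat_lit 56) (nat_lit 5) (nat_lit 57) (nat_lit 5) (nat_lit 360) (nat_lit 291) (nat_lit 129)) (XT.nd (nat_lit 78) (nat_lit 152) (nat_lit 0) (XT.lf (nat_lit 0) (nat_lit 29350756761) (nat_lit 304) (nat_lit 5741343920) (nat_lit 76) (nat_lit 1605520971) (nat_lit 53) (nat_lit 5) (nat_lit 57) (nat_lit 5) (nat_lit 54) (nat_lit 5) (nat_lit 361) (nat_lit 291) (nat_lit 128)) (XT.lf (nat_lit 0) (nat_lit 10189672397) (nat_lit 152) (nat_lit 25994847930) (nat_lit 228) (nat_lit 1308913932) (nat_lit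 51) (nat_lit 5) (nat_lit 53) (nat_lit 5) (nat_lit 54) (nat_lit 5) (nat_lit 362) (nat_lit 291) (nat_lit 127)))) (XT.nd (nat_lit 78) (nat_lit 228) (nat_lit 0) (XT.lf (nat_lit 0) (nat_lit 4868242647) (nat_lit 228) (nat_lit 11650291497) (nat_lit 76) (nat_lit 21791557763) (nat_lit 50) (nat_lit 5) (nat_lit 53) (nat_lit 5) (nat_lit 51) (nat_lit 5) (nat_lit 363) (nat_lit 291) (nat_lit 126)) (XT.nd (nat_lit 78) (nat_lit 0) (nat_lit 0) (XT.lf (nat_lit 0) (nat_lit 4541208643) (nat_lit 228) (nat_lit 6702318208) (nat_lit 304) (nat_lit 27906163051) (nat_lit 47) (nat_lit 5) (nat_lit 50) (nat_lit 5) (nat_lit 51) (nat_lit 5) (nat_lit 364) (nat_lit 291) (nat_lit 125)) (XT.lf (nat_lit 0) (nat_lit 17957148208) (nat_lit 304) (nat_lit 18594871813) (nat_lit 76) (nat_lit 3458046400) (nat_lit 47) (nat_lit 5) (nat_lit 51) (nat_lit 5) (nat_lit 48) (nat_lit 5) (nat_lit 365) (nat_lit 291) (nat_lit 124))))) (XT.nd (nat_lit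 234) (nat_lit 456) (nat_lit 0) (XT.nd (nat_lit 78) (nat_lit 152) (nat_lit 0) (XT.lf (nat_lit 0) (nat_lit 24934173953) (nat_lit 304) (nat_lit 2174272302) (nat_lit 76) (nat_lit 13785950961) (nat_lit 47) (nat_lit 5) (nat_lit 51) (nat_lit 5) (nat_lit 48) (nat_lit 5) (nat_lit 366) (nat_lit 291) (nat_lit 123)) (XT.nd (nat_lit 78) (nat_lit 0) (nat_lit 0) (XT.lf (nat_lit 0) (nat_lit 15025289672) (nat_lit 152) (nat_lit 17235416339) (nat_lit 228) (nat_lit 9540348831) (nat_lit 45) (nat_lit 5) (nat_lit 47) (nat_lit 5) (nat_lit 48) (nat_lit 5) (nat_lit 367) (nat_lit 291) (nat_lit 122)) (XT.lf (nat_lit 0) (nat_lit 32778623102) (nat_lit 152) (nat_lit 7046188252) (nat_lit 228) (nat_lit 2909570215) (nat_lit 45) (nat_lit 5) (nat_lit 47) (nat_lit 5) (nat_lit 48) (nat_lit 5) (nat_lit 368) (nat_lit 291) (nat_lit 121)))) (XT.nd (nat_lit 156) (nat_lit 152) (nat_lit 0) (XT.nd (nat_lit 78) (nat_lit 0) (nat_lit 0) (XT.lf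 (nat_lit 0) (nat_lit 3945555557) (nat_lit 304) (nat_lit 36256494219) (nat_lit 76) (nat_lit 3489472786) (nat_lit 41) (nat_lit 5) (nat_lit 45) (nat_lit 5) (nat_lit 42) (nat_lit 5) (nat_lit 369) (nat_lit 291) (nat_lit 120)) (XT.lf (nat_lit 0) (nat_lit 11115080553) (nat_lit 304) (nat_lit 19229013032) (nat_lit 76) (nat_lit 14327405686) (nat_lit 41) (nat_lit 5) (nat_lit 45) (nat_lit 5) (nat_lit 42) (nat_lit 5) (nat_lit 370) (nat_lit 291) (nat_lit 119))) (XT.nd (nat_lit 78) (nat_lit 152) (nat_lit 0) (XT.lf (nat_lit 0) (nat_lit 18495741462) (nat_lit 304) (nat_lit 1697218143) (nat_lit 76) (nat_lit 25488036563) (nat_lit 41) (nat_lit 5) (nat_lit 45) (nat_lit 5) (nat_lit 42) (nat_lit 5) (nat_lit 371) (nat_lit 291) (nat_lit 118)) (XT.lf (nat_lit 0) (nat_lit 16679690328) (nat_lit 152) (nat_lit 9574632464) (nat_lit 228) (nat_lit 20461762483) (nat_lit 39) (nat_lit 5) (nat_lit 41) (nat_lit 5) (nat_lit 42) (nat_lit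 5) (nat_lit 372) (nat_lit 291) (nat_lit 117))))))) (XT.nd (nat_lit 1014) (nat_lit 456) (nat_lit 0) (XT.nd (nat_lit 468) (nat_lit 532) (nat_lit 0) (XT.nd (nat_lit 234) (nat_lit 152) (nat_lit 0) (XT.nd (nat_lit 78) (nat_lit 228) (nat_lit 0) (XT.lf (nat_lit 0) (nat_lit 34272257489) (nat_lit 228) (nat_lit 12158631033) (nat_lit 76) (nat_lit 1350542910) (nat_lit 39) (nat_lit 5) (nat_lit 42) (nat_lit 5) (nat_lit 40) (nat_lit 5) (nat_lit 373) (nat_lit 291) (nat_lit 116)) (XT.nd (nat_lit 78) (nat_lit 76) (nat_lit 0) (XT.lf (nat_lit 0) (nat_lit 6276988003) (nat_lit 152) (nat_lit 36405182632) (nat_lit 228) (nat_lit 6192026314) (nat_lit 37) (nat_lit 5) (nat_lit 39) (nat_lit 5) (nat_lit 40) (nat_lit 5) (nat_lit 374) (nat_lit 291) (nat_lit 115)) (XT.lf (nat_lit 0) (nat_lit 1438705607) (nat_lit 228) (nat_lit 24501468599) (nat_lit 76) (nat_lit 24055576268) (nat_lit 36) (nat_lit 5) (nat_lit 39) (nat_lit 5) (nat_lit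 37) (nat_lit 5) (nat_lit 375) (nat_lit 291) (nat_lit 114)))) (XT.nd (nat_lit 78) (nat_lit 152) (nat_lit 0) (XT.lf (nat_lit 0) (nat_lit 9170327820) (nat_lit 228) (nat_lit 5930164258) (nat_lit 76) (nat_lit 36048728657) (nat_lit 36) (nat_lit 5) (nat_lit 39) (nat_lit 5) (nat_lit 37) (nat_lit 5) (nat_lit 376) (nat_lit 291) (nat_lit 113)) (XT.nd (nat_lit 78) (nat_lit 0) (nat_lit 0) (XT.lf (nat_lit 0) (nat_lit 13455008657) (nat_lit 152) (nat_lit 3804753963) (nat_lit 228) (nat_lit 35073758508) (nat_lit 34) (nat_lit 5) (nat_lit 36) (nat_lit 5) (nat_lit 37) (nat_lit 5) (nat_lit 377) (nat_lit 291) (nat_lit 112)) (XT.lf (nat_lit 0) (nat_lit 25724171136) (nat_lit 228) (nat_lit 20089964346) (nat_lit 76) (nat_lit 7735248221) (nat_lit 34) (nat_lit 5) (nat_lit 37) (nat_lit 5) (nat_lit 35) (nat_lit 5) (nat_lit 378) (nat_lit 291) (nat_lit 111))))) (XT.nd (nat_lit 234) (nat_lit 380) (nat_lit 0) (XT.nd (nat_lit 78)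 (nat_lit 152) (nat_lit 0) (XT.lf (nat_lit 0) (nat_lit 34476832610) (nat_lit 228) (nat_lit 781111526) (nat_lit 76) (nat_lit 19542750229) (nat_lit 34) (nat_lit 5) (nat_lit 37) (nat_lit 5) (nat_lit 35) (nat_lit 5) (nat_lit 379) (nat_lit 291) (nat_lit 110)) (XT.nd (nat_lit 78) (nat_lit 0) (nat_lit 0) (XT.lf (nat_lit 0) (nat_lit 19481648556) (nat_lit 152) (nat_lit 24194442344) (nat_lit 228) (nat_lit 12407934717) (nat_lit 32) (nat_lit 5) (nat_lit 34) (nat_lit 5) (nat_lit 35) (nat_lit 5) (nat_lit 380) (nat_lit 291) (nat_lit 109)) (XT.lf (nat_lit 0) (nat_lit 40362842079) (nat_lit 152) (nat_lit 12793162240) (nat_lit 228) (nat_lit 4249713894) (nat_lit 32) (nat_lit 5) (nat_lit 34) (nat_lit 5) (nat_lit 35) (nat_lit 5) (nat_lit 381) (nat_lit 291) (nat_lit 108)))) (XT.nd (nat_lit 156) (nat_lit 152) (nat_lit 0) (XT.nd (nat_lit 78) (nat_lit 0) (nat_lit 0) (XT.lf (nat_lit 0) (nat_lit 3118982164) (nat_lit 152)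 (nat_lit 980058702) (nat_lit 228) (nat_lit 54666019673) (nat_lit 29) (nat_lit 5) (nat_lit 31) (nat_lit 5) (nat_lit 32) (nat_lit 5) (nat_lit 382) (nat_lit 291) (nat_lit 107)) (XT.lf (nat_lit 0) (nat_lit 12891057448) (nat_lit 228) (nat_lit 36081670158) (nat_lit 76) (nat_lit 11182848392) (nat_lit 29) (nat_lit 5) (nat_lit 32) (nat_lit 5) (nat_lit 30) (nat_lit 5) (nat_lit 383) (nat_lit 291) (nat_lit 106))) (XT.nd (nat_lit 78) (nat_lit 152) (nat_lit 0) (XT.lf (nat_lit 0) (nat_lit 21953499372) (nat_lit 228) (nat_lit 15945263970) (nat_lit 76) (nat_lit 23688845169) (nat_lit 29) (nat_lit 5) (nat_lit 32) (nat_lit 5) (nat_lit 30) (nat_lit 5) (nat_lit 384) (nat_lit 291) (nat_lit 105)) (XT.lf (nat_lit 0) (nat_lit 4885489527) (nat_lit 152) (nat_lit 26446337141) (nat_lit 228) (nat_lit 31729456458) (nat_lit 27) (nat_lit 5) (nat_lit 29) (nat_lit 5) (nat_lit 30) (nat_lit 5) (nat_lit 385) (nat_lit 291) (nat_lit 104))))))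 (XT.nd (nat_lit 546) (nat_lit 152) (nat_lit 0) (XT.nd (nat_lit 234) (nat_lit 228) (nat_lit 0) (XT.nd (nat_lit 78) (nat_lit 76) (nat_lit 0) (XT.lf (nat_lit 0) (nat_lit 26662999324) (nat_lit 152) (nat_lit 14486607750) (nat_lit 228) (nat_lit 23424819253) (nat_lit 27) (nat_lit 5) (nat_lit 29) (nat_lit 5) (nat_lit 30) (nat_lit 5) (nat_lit 386) (nat_lit 291) (nat_lit 103)) (XT.nd (nat_lit 78) (nat_lit 76) (nat_lit 0) (XT.lf (nat_lit 0) (nat_lit 49088952292) (nat_lit 152) (nat_lit 2170140823) (nat_lit 228) (nat_lit 14873956946) (nat_lit 27) (nat_lit 5) (nat_lit 29) (nat_lit 5) (nat_lit 30) (nat_lit 5) (nat_lit 387) (nat_lit 291) (nat_lit 102)) (XT.lf (nat_lit 0) (nat_lit 4429803794) (nat_lit 76) (nat_lit 57382961836) (nat_lit 152) (nat_lit 5921441184) (nat_lit 26) (nat_lit 5) (nat_lit 27) (nat_lit 5) (nat_lit 28) (nat_lit 4) (nat_lit 388) (nat_lit 291) (nat_lit 101)))) (XT.nd (nat_lit 156) (nat_lit 152)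 (nat_lit 0) (XT.nd (nat_lit 78) (nat_lit 0) (nat_lit 0) (XT.lf (nat_lit 0) (nat_lit 3427806461) (nat_lit 152) (nat_lit 42540647641) (nat_lit 76) (nat_lit 23408217573) (nat_lit 25) (nat_lit 5) (nat_lit 27) (nat_lit 5) (nat_lit 26) (nat_lit 5) (nat_lit 389) (nat_lit 291) (nat_lit 100)) (XT.lf (nat_lit 0) (nat_lit 12935838643) (nat_lit 152) (nat_lit 21217281082) (nat_lit 76) (nat_lit 36913613493) (nat_lit 25) (nat_lit 5) (nat_lit 27) (nat_lit 5) (nat_lit 26) (nat_lit 5) (nat_lit 390) (nat_lit 291) (nat_lit 99))) (XT.nd (nat_lit 78) (nat_lit 0) (nat_lit 0) (XT.lf (nat_lit 0) (nat_lit 756001552) (nat_lit 152) (nat_lit 21977777595) (nat_lit 228) (nat_lit 50073578652) (nat_lit 23) (nat_lit 5) (nat_lit 25) (nat_lit 5) (nat_lit 26) (nat_lit 5) (nat_lit 391) (nat_lit 291) (nat_lit 98)) (XT.lf (nat_lit 0) (nat_lit 23818923374) (nat_lit 152) (nat_lit 9218420169) (nat_lit 228) (nat_lit 41556508180) (nat_lit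 23) (nat_lit 5) (nat_lit 25) (nat_lit 5) (nat_lit 26) (nat_lit 5) (nat_lit 392) (nat_lit 291) (nat_lit 97))))) (XT.nd (nat_lit 234) (nat_lit 76) (nat_lit 0) (XT.nd (nat_lit 78) (nat_lit 76) (nat_lit 0) (XT.lf (nat_lit 0) (nat_lit 43685221596) (nat_lit 228) (nat_lit 28902344634) (nat_lit 76) (nat_lit 3845319176) (nat_lit 23) (nat_lit 5) (nat_lit 26) (nat_lit 5) (nat_lit 24) (nat_lit 4) (nat_lit 393) (nat_lit 291) (nat_lit 96)) (XT.nd (nat_lit 78) (nat_lit 76) (nat_lit 0) (XT.lf (nat_lit 0) (nat_lit 54741370142) (nat_lit 228) (nat_lit 6469146002) (nat_lit 76) (nat_lit 17113910039) (nat_lit 23) (nat_lit 5) (nat_lit 26) (nat_lit 5) (nat_lit 24) (nat_lit 4) (nat_lit 394) (nat_lit 291) (nat_lit 95)) (XT.lf (nat_lit 0) (nat_lit 16963909438) (nat_lit 76) (nat_lit 49325994838) (nat_lit 152) (nat_lit 13977988950) (nat_lit 22) (nat_lit 5) (nat_lit 23) (nat_lit 5) (nat_lit 24) (nat_lit 4) (nat_lit 395) (nat_lit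 291) (nat_lit 94)))) (XT.nd (nat_lit 32526) (nat_lit 0) (nat_lit 13756) (XT.nd (nat_lit 78) (nat_lit 76) (nat_lit 0) (XT.lf (nat_lit 0) (nat_lit 41228442412) (nat_lit 76) (nat_lit 37019440636) (nat_lit 152) (nat_lit 4019892618) (nat_lit 22) (nat_lit 5) (nat_lit 23) (nat_lit 5) (nat_lit 24) (nat_lit 4) (nat_lit 396) (nat_lit 291) (nat_lit 93)) (XT.lf (nat_lit 0) (nat_lit 6112948844) (nat_lit 152) (nat_lit 18170748287) (nat_lit 76) (nat_lit 60042228608) (nat_lit 21) (nat_lit 5) (nat_lit 23) (nat_lit 5) (nat_lit 22) (nat_lit 5) (nat_lit 397) (nat_lit 291) (nat_lit 92))) (XT.nd (nat_lit 78) (nat_lit 0) (nat_lit 0) (XT.lf (nat_lit 0) (nat_lit 1355329218) (nat_lit 1140) (nat_lit 2055322680) (nat_lit 1140) (nat_lit 2055322680) (nat_lit 202) (nat_lit 3) (nat_lit 217) (nat_lit 3) (nat_lit 217) (nat_lit 5) (nat_lit 292) (nat_lit 292) (nat_lit 196)) (XT.lf (nat_lit 76) (nat_lit 818648720) (nat_lit 0) (nat_lit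 2487731297) (nat_lit 1140) (nat_lit 7772118044) (nat_lit 203) (nat_lit 5) (nat_lit 202) (nat_lit 3) (nat_lit 217) (nat_lit 5) (nat_lit 293) (nat_lit 292) (nat_lit 195))))))))
noncomputable def xc182 : XT := (XT.nd (nat_lit 2028) (nat_lit 5320) (nat_lit 0) (XT.nd (nat_lit 1014) (nat_lit 3344) (nat_lit 0) (XT.nd (nat_lit 468) (nat_lit 836) (nat_lit 0) (XT.nd (nat_lit 234) (nat_lit 0) (nat_lit 76) (XT.nd (nat_lit 78) (nat_lit 0) (nat_lit 0) (XT.lf (nat_lit 0) (nat_lit 3959521738) (nat_lit 1064) (nat_lit 5279521398) (nat_lit 1140) (nat_lit 1989244220) (nat_lit 203) (nat_lit 5) (nat_lit 217) (nat_lit 5) (nat_lit 218) (nat_lit 5) (nat_lit 294) (nat_lit 292) (nat_lit 194)) (XT.nd (nat_lit 78) (nat_lit 0) (nat_lit 0) (XT.lf (nat_lit 0) (nat_lit 4636145980) (nat_lit 1064) (nat_lit 186069989) (nat_lit 1140) (nat_lit 6560267210) (nat_lit 203) (nat_lit 5) (nat_lit 217) (nat_lit 5) (nat_lit 218) (nat_lit 5)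 (nat_lit 295) (nat_lit 292) (nat_lit 193)) (XT.lf (nat_lit 76) (nat_lit 5149351465) (nat_lit 0) (nat_lit 213077627) (nat_lit 1140) (nat_lit 6178023620) (nat_lit 204) (nat_lit 5) (nat_lit 203) (nat_lit 5) (nat_lit 218) (nat_lit 5) (nat_lit 296) (nat_lit 292) (nat_lit 192)))) (XT.nd (nat_lit 78) (nat_lit 0) (nat_lit 0) (XT.lf (nat_lit 0) (nat_lit 6136406593) (nat_lit 1064) (nat_lit 1109964370) (nat_lit 1140) (nat_lit 4456040994) (nat_lit 204) (nat_lit 5) (nat_lit 218) (nat_lit 5) (nat_lit 219) (nat_lit 5) (nat_lit 297) (nat_lit 292) (nat_lit 191)) (XT.nd (nat_lit 78) (nat_lit 0) (nat_lit 76) (XT.lf (nat_lit 76) (nat_lit 4401835492) (nat_lit 0) (nat_lit 2557182537) (nat_lit 1140) (nat_lit 4909476506) (nat_lit 205) (nat_lit 5) (nat_lit 204) (nat_lit 5) (nat_lit 219) (nat_lit 5) (nat_lit 298) (nat_lit 292) (nat_lit 190)) (XT.lf (nat_lit 0) (nat_lit 7820977530) (nat_lit 1064) (nat_lit 1971533580) (nat_lit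 1140) (nat_lit 2246634597) (nat_lit 205) (nat_lit 5) (nat_lit 219) (nat_lit 5) (nat_lit 220) (nat_lit 5) (nat_lit 299) (nat_lit 292) (nat_lit 189))))) (XT.nd (nat_lit 234) (nat_lit 988) (nat_lit 0) (XT.nd (nat_lit 78) (nat_lit 0) (nat_lit 0) (XT.lf (nat_lit 76) (nat_lit 3724053604) (nat_lit 0) (nat_lit 5027901330) (nat_lit 1140) (nat_lit 3461692151) (nat_lit 206) (nat_lit 5) (nat_lit 205) (nat_lit 5) (nat_lit 220) (nat_lit 5) (nat_lit 300) (nat_lit 292) (nat_lit 188)) (XT.nd (nat_lit 78) (nat_lit 0) (nat_lit 76) (XT.lf (nat_lit 76) (nat_lit 9619294936) (nat_lit 0) (nat_lit 93929203) (nat_lit 1140) (nat_lit 2680113194) (nat_lit 206) (nat_lit 5) (nat_lit 205) (nat_lit 5) (nat_lit 220) (nat_lit 5) (nat_lit 301) (nat_lit 292) (nat_lit 187)) (XT.lf (nat_lit 76) (nat_lit 3113910968) (nat_lit 0) (nat_lit 7650321714) (nat_lit 1140) (nat_lit 1812382554) (nat_lit 207) (nat_lit 5) (nat_lit 206) (nat_lit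 5) (nat_lit 221) (nat_lit 5) (nat_lit 302) (nat_lit 292) (nat_lit 186)))) (XT.nd (nat_lit 156) (nat_lit 0) (nat_lit 0) (XT.nd (nat_lit 78) (nat_lit 1064) (nat_lit 0) (XT.lf (nat_lit 76) (nat_lit 9222656487) (nat_lit 0) (nat_lit 2636449881) (nat_lit 1140) (nat_lit 905938345) (nat_lit 207) (nat_lit 5) (nat_lit 206) (nat_lit 5) (nat_lit 221) (nat_lit 5) (nat_lit 303) (nat_lit 292) (nat_lit 185)) (XT.lf (nat_lit 0) (nat_lit 60390549) (nat_lit 1140) (nat_lit 10389349058) (nat_lit 1216) (nat_lit 2508404473) (nat_lit 192) (nat_lit 5) (nat_lit 207) (nat_lit 5) (nat_lit 208) (nat_lit 5) (nat_lit 304) (nat_lit 292) (nat_lit 184))) (XT.nd (nat_lit 78) (nat_lit 0) (nat_lit 0) (XT.lf (nat_lit 0) (nat_lit 1083836835) (nat_lit 1140) (nat_lit 4267653261) (nat_lit 1216) (nat_lit 7803908471) (nat_lit 192) (nat_lit 5) (nat_lit 207) (nat_lit 5) (nat_lit 208) (nat_lit 5) (nat_lit 305) (nat_lit 292) (nat_lit 183))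 (XT.lf (nat_lit 76) (nat_lit 2066175130) (nat_lit 0) (nat_lit 76242794) (nat_lit 1216) (nat_lit 11216040510) (nat_lit 193) (nat_lit 5) (nat_lit 192) (nat_lit 5) (nat_lit 208) (nat_lit 5) (nat_lit 306) (nat_lit 292) (nat_lit 182)))))) (XT.nd (nat_lit 468) (nat_lit 1748) (nat_lit 0) (XT.nd (nat_lit 234) (nat_lit 1672) (nat_lit 0) (XT.nd (nat_lit 78) (nat_lit 0) (nat_lit 0) (XT.lf (nat_lit 0) (nat_lit 3312714581) (nat_lit 1140) (nat_lit 4952966181) (nat_lit 1216) (nat_lit 5299550678) (nat_lit 193) (nat_lit 5) (nat_lit 208) (nat_lit 5) (nat_lit 209) (nat_lit 5) (nat_lit 307) (nat_lit 292) (nat_lit 181)) (XT.nd (nat_lit 78) (nat_lit 0) (nat_lit 76) (XT.lf (nat_lit 76) (nat_lit 1595030412) (nat_lit 0) (nat_lit 2924554917) (nat_lit 1216) (nat_lit 9258597852) (nat_lit 194) (nat_lit 5) (nat_lit 193) (nat_lit 5) (nat_lit 209) (nat_lit 5) (nat_lit 308) (nat_lit 292) (nat_lit 180)) (XT.lf (nat_lit 0) (nat_lit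 5823657847) (nat_lit 1140) (nat_lit 5592516541) (nat_lit 76) (nat_lit 2579538151) (nat_lit 194) (nat_lit 5) (nat_lit 209) (nat_lit 5) (nat_lit 195) (nat_lit 5) (nat_lit 309) (nat_lit 292) (nat_lit 179)))) (XT.nd (nat_lit 78) (nat_lit 608) (nat_lit 0) (XT.lf (nat_lit 0) (nat_lit 1177999551) (nat_lit 1140) (nat_lit 6015264062) (nat_lit 1216) (nat_lit 7025730214) (nat_lit 179) (nat_lit 5) (nat_lit 194) (nat_lit 5) (nat_lit 195) (nat_lit 5) (nat_lit 310) (nat_lit 292) (nat_lit 178)) (XT.nd (nat_lit 78) (nat_lit 608) (nat_lit 0) (XT.lf (nat_lit 0) (nat_lit 8254518360) (nat_lit 1140) (nat_lit 392335028) (nat_lit 1216) (nat_lit 5800851135) (nat_lit 179) (nat_lit 5) (nat_lit 194) (nat_lit 5) (nat_lit 195) (nat_lit 5) (nat_lit 311) (nat_lit 292) (nat_lit 177)) (XT.lf (nat_lit 0) (nat_lit 812161856) (nat_lit 608) (nat_lit 9378432069) (nat_lit 684) (nat_lit 4491303651) (nat_lit 171) (nat_lit 5) (nat_lit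 179) (nat_lit 5) (nat_lit 180) (nat_lit 5) (nat_lit 312) (nat_lit 292) (nat_lit 176))))) (XT.nd (nat_lit 234) (nat_lit 1140) (nat_lit 0) (XT.nd (nat_lit 78) (nat_lit 608) (nat_lit 0) (XT.lf (nat_lit 0) (nat_lit 8138937500) (nat_lit 608) (nat_lit 3695200247) (nat_lit 684) (nat_lit 3087390763) (nat_lit 171) (nat_lit 5) (nat_lit 179) (nat_lit 5) (nat_lit 180) (nat_lit 5) (nat_lit 313) (nat_lit 292) (nat_lit 175)) (XT.nd (nat_lit 78) (nat_lit 0) (nat_lit 0) (XT.lf (nat_lit 0) (nat_lit 494277537) (nat_lit 608) (nat_lit 13045702828) (nat_lit 684) (nat_lit 1627994565) (nat_lit 163) (nat_lit 5) (nat_lit 171) (nat_lit 5) (nat_lit 172) (nat_lit 5) (nat_lit 314) (nat_lit 292) (nat_lit 174)) (XT.lf (nat_lit 0) (nat_lit 8079503343) (nat_lit 608) (nat_lit 7309957448) (nat_lit 684) (nat_lit 29595931) (nat_lit 163) (nat_lit 5) (nat_lit 171) (nat_lit 5) (nat_lit 172) (nat_lit 5) (nat_lit 315) (nat_lit 292) (nat_lit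 173)))) (XT.nd (nat_lit 156) (nat_lit 532) (nat_lit 0) (XT.nd (nat_lit 78) (nat_lit 0) (nat_lit 0) (XT.lf (nat_lit 0) (nat_lit 191219645) (nat_lit 532) (nat_lit 1383792695) (nat_lit 608) (nat_lit 14102513146) (nat_lit 155) (nat_lit 5) (nat_lit 162) (nat_lit 5) (nat_lit 163) (nat_lit 5) (nat_lit 316) (nat_lit 292) (nat_lit 172)) (XT.lf (nat_lit 0) (nat_lit 3335597463) (nat_lit 608) (nat_lit 7901398433) (nat_lit 76) (nat_lit 4703505132) (nat_lit 155) (nat_lit 5) (nat_lit 163) (nat_lit 5) (nat_lit 156) (nat_lit 5) (nat_lit 317) (nat_lit 292) (nat_lit 171))) (XT.nd (nat_lit 78) (nat_lit 532) (nat_lit 0) (XT.lf (nat_lit 0) (nat_lit 5151255916) (nat_lit 608) (nat_lit 114142977) (nat_lit 76) (nat_lit 10945913358) (nat_lit 155) (nat_lit 5) (nat_lit 163) (nat_lit 5) (nat_lit 156) (nat_lit 5) (nat_lit 318) (nat_lit 292) (nat_lit 170)) (XT.lf (nat_lit 0) (nat_lit 7096956254) (nat_lit 608) (nat_lit 8444844977)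 (nat_lit 76) (nat_lit 946193095) (nat_lit 148) (nat_lit 5) (nat_lit 156) (nat_lit 5) (nat_lit 149) (nat_lit 5) (nat_lit 319) (nat_lit 292) (nat_lit 169))))))) (XT.nd (nat_lit 1014) (nat_lit 2508) (nat_lit 0) (XT.nd (nat_lit 468) (nat_lit 1292) (nat_lit 0) (XT.nd (nat_lit 234) (nat_lit 1064) (nat_lit 0) (XT.nd (nat_lit 78) (nat_lit 456) (nat_lit 0) (XT.lf (nat_lit 0) (nat_lit 9143428363) (nat_lit 608) (nat_lit 388978582) (nat_lit 76) (nat_lit 7239311173) (nat_lit 148) (nat_lit 5) (nat_lit 156) (nat_lit 5) (nat_lit 149) (nat_lit 5) (nat_lit 320) (nat_lit 292) (nat_lit 168)) (XT.nd (nat_lit 78) (nat_lit 0) (nat_lit 0) (XT.lf (nat_lit 0) (nat_lit 8054678931) (nat_lit 456) (nat_lit 3263463629) (nat_lit 532) (nat_lit 5743818520) (nat_lit 142) (nat_lit 5) (nat_lit 148) (nat_lit 5) (nat_lit 149) (nat_lit 5) (nat_lit 321) (nat_lit 292) (nat_lit 167)) (XT.lf (nat_lit 0) (nat_lit 13582382047) (nat_lit 532)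 (nat_lit 643181349) (nat_lit 76) (nat_lit 3134631934) (nat_lit 142) (nat_lit 5) (nat_lit 149) (nat_lit 5) (nat_lit 143) (nat_lit 5) (nat_lit 322) (nat_lit 292) (nat_lit 166)))) (XT.nd (nat_lit 78) (nat_lit 532) (nat_lit 0) (XT.lf (nat_lit 0) (nat_lit 8086383201) (nat_lit 532) (nat_lit 7928129384) (nat_lit 608) (nat_lit 1649877261) (nat_lit 135) (nat_lit 5) (nat_lit 142) (nat_lit 5) (nat_lit 143) (nat_lit 5) (nat_lit 323) (nat_lit 292) (nat_lit 165)) (XT.nd (nat_lit 78) (nat_lit 456) (nat_lit 0) (XT.lf (nat_lit 0) (nat_lit 527882666) (nat_lit 608) (nat_lit 902814816) (nat_lit 76) (nat_lit 16546971093) (nat_lit 134) (nat_lit 5) (nat_lit 142) (nat_lit 5) (nat_lit 135) (nat_lit 5) (nat_lit 324) (nat_lit 292) (nat_lit 164)) (XT.lf (nat_lit 0) (nat_lit 2858100080) (nat_lit 532) (nat_lit 10184410424) (nat_lit 76) (nat_lit 5253747652) (nat_lit 128) (nat_lit 5) (nat_lit 135) (nat_lit 5) (nat_lit 129) (nat_lit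 5) (nat_lit 325) (nat_lit 292) (nat_lit 163))))) (XT.nd (nat_lit 234) (nat_lit 836) (nat_lit 0) (XT.nd (nat_lit 78) (nat_lit 456) (nat_lit 0) (XT.lf (nat_lit 0) (nat_lit 5272058689) (nat_lit 532) (nat_lit 1233835200) (nat_lit 76) (nat_lit 12118107294) (nat_lit 128) (nat_lit 5) (nat_lit 135) (nat_lit 5) (nat_lit 129) (nat_lit 5) (nat_lit 326) (nat_lit 292) (nat_lit 162)) (XT.nd (nat_lit 78) (nat_lit 0) (nat_lit 0) (XT.lf (nat_lit 0) (nat_lit 7830300993) (nat_lit 532) (nat_lit 10829079158) (nat_lit 76) (nat_lit 300050883) (nat_lit 122) (nat_lit 5) (nat_lit 129) (nat_lit 5) (nat_lit 123) (nat_lit 5) (nat_lit 327) (nat_lit 292) (nat_lit 161)) (XT.lf (nat_lit 0) (nat_lit 10533183799) (nat_lit 532) (nat_lit 1579083951) (nat_lit 76) (nat_lit 7190629411) (nat_lit 122) (nat_lit 5) (nat_lit 129) (nat_lit 5) (nat_lit 123) (nat_lit 5) (nat_lit 328) (nat_lit 292) (nat_lit 160)))) (XT.nd (nat_lit 156) (nat_lit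 456) (nat_lit 0) (XT.nd (nat_lit 78) (nat_lit 0) (nat_lit 0) (XT.lf (nat_lit 0) (nat_lit 8095952720) (nat_lit 380) (nat_lit 5290184559) (nat_lit 456) (nat_lit 6268470351) (nat_lit 117) (nat_lit 5) (nat_lit 122) (nat_lit 5) (nat_lit 123) (nat_lit 5) (nat_lit 329) (nat_lit 292) (nat_lit 159)) (XT.lf (nat_lit 0) (nat_lit 16348778878) (nat_lit 456) (nat_lit 1950222983) (nat_lit 76) (nat_lit 1717154156) (nat_lit 117) (nat_lit 5) (nat_lit 123) (nat_lit 5) (nat_lit 118) (nat_lit 5) (nat_lit 330) (nat_lit 292) (nat_lit 158))) (XT.nd (nat_lit 78) (nat_lit 76) (nat_lit 0) (XT.lf (nat_lit 0) (nat_lit 8040704077) (nat_lit 380) (nat_lit 11480822285) (nat_lit 456) (nat_lit 863397011) (nat_lit 112) (nat_lit 5) (nat_lit 117) (nat_lit 5) (nat_lit 118) (nat_lit 5) (nat_lit 331) (nat_lit 292) (nat_lit 157)) (XT.lf (nat_lit 0) (nat_lit 1996695155) (nat_lit 456) (nat_lit 2422841732) (nat_lit 76) (nat_lit 16344296704)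 (nat_lit 111) (nat_lit 5) (nat_lit 117) (nat_lit 5) (nat_lit 112) (nat_lit 5) (nat_lit 332) (nat_lit 292) (nat_lit 156)))))) (XT.nd (nat_lit 546) (nat_lit 988) (nat_lit 0) (XT.nd (nat_lit 234) (nat_lit 760) (nat_lit 0) (XT.nd (nat_lit 78) (nat_lit 380) (nat_lit 0) (XT.lf (nat_lit 0) (nat_lit 5021596725) (nat_lit 456) (nat_lit 13247709988) (nat_lit 76) (nat_lit 2881665670) (nat_lit 106) (nat_lit 5) (nat_lit 112) (nat_lit 5) (nat_lit 107) (nat_lit 5) (nat_lit 333) (nat_lit 292) (nat_lit 155)) (XT.nd (nat_lit 78) (nat_lit 380) (nat_lit 0) (XT.lf (nat_lit 0) (nat_lit 8197691678) (nat_lit 456) (nat_lit 3014362814) (nat_lit 76) (nat_lit 10335865732) (nat_lit 106) (nat_lit 5) (nat_lit 112) (nat_lit 5) (nat_lit 107) (nat_lit 5) (nat_lit 334) (nat_lit 292) (nat_lit 154)) (XT.lf (nat_lit 0) (nat_lit 7665679547) (nat_lit 380) (nat_lit 3869291070) (nat_lit 456) (nat_lit 10419836883) (nat_lit 101) (nat_lit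 5) (nat_lit 106) (nat_lit 5) (nat_lit 107) (nat_lit 5) (nat_lit 335) (nat_lit 292) (nat_lit 153)))) (XT.nd (nat_lit 156) (nat_lit 456) (nat_lit 0) (XT.nd (nat_lit 78) (nat_lit 304) (nat_lit 0) (XT.lf (nat_lit 0) (nat_lit 15030941100) (nat_lit 456) (nat_lit 3690891686) (nat_lit 76) (nat_lit 3650319213) (nat_lit 101) (nat_lit 5) (nat_lit 107) (nat_lit 5) (nat_lit 102) (nat_lit 5) (nat_lit 336) (nat_lit 292) (nat_lit 152)) (XT.lf (nat_lit 0) (nat_lit 7320104908) (nat_lit 304) (nat_lit 11412910449) (nat_lit 380) (nat_lit 4065972309) (nat_lit 97) (nat_lit 5) (nat_lit 101) (nat_lit 5) (nat_lit 102) (nat_lit 5) (nat_lit 337) (nat_lit 292) (nat_lit 151))) (XT.nd (nat_lit 78) (nat_lit 456) (nat_lit 0) (XT.lf (nat_lit 0) (nat_lit 18727467784) (nat_lit 304) (nat_lit 3848628850) (nat_lit 380) (nat_lit 661640780) (nat_lit 97) (nat_lit 5) (nat_lit 101) (nat_lit 5) (nat_lit 102) (nat_lit 5) (nat_lit 338) (nat_lit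 292) (nat_lit 150)) (XT.lf (nat_lit 0) (nat_lit 2887102348) (nat_lit 456) (nat_lit 16840956670) (nat_lit 76) (nat_lit 3957843349) (nat_lit 91) (nat_lit 5) (nat_lit 97) (nat_lit 5) (nat_lit 92) (nat_lit 5) (nat_lit 339) (nat_lit 292) (nat_lit 149))))) (XT.nd (nat_lit 234) (nat_lit 684) (nat_lit 0) (XT.nd (nat_lit 78) (nat_lit 304) (nat_lit 0) (XT.lf (nat_lit 0) (nat_lit 6606017152) (nat_lit 456) (nat_lit 5567575823) (nat_lit 76) (nat_lit 11971419264) (nat_lit 91) (nat_lit 5) (nat_lit 97) (nat_lit 5) (nat_lit 92) (nat_lit 5) (nat_lit 340) (nat_lit 292) (nat_lit 148)) (XT.nd (nat_lit 78) (nat_lit 0) (nat_lit 0) (XT.lf (nat_lit 0) (nat_lit 6154791694) (nat_lit 304) (nat_lit 4333984583) (nat_lit 380) (nat_lit 14127557358) (nat_lit 87) (nat_lit 5) (nat_lit 91) (nat_lit 5) (nat_lit 92) (nat_lit 5) (nat_lit 341) (nat_lit 292) (nat_lit 147)) (XT.lf (nat_lit 0) (nat_lit 14573956996) (nat_lit 380) (nat_lit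 6803075161) (nat_lit 76) (nat_lit 3722190692) (nat_lit 87) (nat_lit 5) (nat_lit 92) (nat_lit 5) (nat_lit 88) (nat_lit 5) (nat_lit 342) (nat_lit 292) (nat_lit 146)))) (XT.nd (nat_lit 156) (nat_lit 380) (nat_lit 0) (XT.nd (nat_lit 78) (nat_lit 0) (nat_lit 0) (XT.lf (nat_lit 0) (nat_lit 5255654154) (nat_lit 304) (nat_lit 13612869895) (nat_lit 380) (nat_lit 6725475922) (nat_lit 83) (nat_lit 5) (nat_lit 87) (nat_lit 5) (nat_lit 88) (nat_lit 5) (nat_lit 343) (nat_lit 292) (nat_lit 145)) (XT.lf (nat_lit 0) (nat_lit 17806553831) (nat_lit 304) (nat_lit 5547576883) (nat_lit 380) (nat_lit 2747629593) (nat_lit 83) (nat_lit 5) (nat_lit 87) (nat_lit 5) (nat_lit 88) (nat_lit 5) (nat_lit 344) (nat_lit 292) (nat_lit 144))) (XT.nd (nat_lit 78) (nat_lit 0) (nat_lit 0) (XT.lf (nat_lit 0) (nat_lit 1383943807) (nat_lit 380) (nat_lit 22481703899) (nat_lit 76) (nat_lit 2756900409) (nat_lit 78) (nat_lit 5) (nat_lit 83)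 (nat_lit 5) (nat_lit 79) (nat_lit 5) (nat_lit 345) (nat_lit 292) (nat_lit 143)) (XT.lf (nat_lit 0) (nat_lit 5717463100) (nat_lit 380) (nat_lit 10128385214) (nat_lit 76) (nat_lit 11308303888) (nat_lit 78) (nat_lit 5) (nat_lit 83) (nat_lit 5) (nat_lit 79) (nat_lit 5) (nat_lit 346) (nat_lit 292) (nat_lit 142))))))))
noncomputable def xc183 : XT := (XT.nd (nat_lit 2106) (nat_lit 1292) (nat_lit 0) (XT.nd (nat_lit 1014) (nat_lit 1292) (nat_lit 0) (XT.nd (nat_lit 468) (nat_lit 760) (nat_lit 0) (XT.nd (nat_lit 234) (nat_lit 380) (nat_lit 0) (XT.nd (nat_lit 78) (nat_lit 228) (nat_lit 0) (XT.lf (nat_lit 0) (nat_lit 2638278920) (nat_lit 304) (nat_lit 7561955376) (nat_lit 380) (nat_lit 17500898039) (nat_lit 74) (nat_lit 5) (nat_lit 78) (nat_lit 5) (nat_lit 79) (nat_lit 5) (nat_lit 347) (nat_lit 292) (nat_lit 141)) (XT.nd (nat_lit 78) (nat_lit 228) (nat_lit 0) (XT.lf (nat_lit 0) (nat_lit 14924061915) (nat_lit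 380) (nat_lit 12285041095) (nat_lit 76) (nat_lit 1052226819) (nat_lit 74) (nat_lit 5) (nat_lit 79) (nat_lit 5) (nat_lit 75) (nat_lit 5) (nat_lit 348) (nat_lit 292) (nat_lit 140)) (XT.lf (nat_lit 0) (nat_lit 808456044) (nat_lit 228) (nat_lit 19057921812) (nat_lit 304) (nat_lit 8969657193) (nat_lit 71) (nat_lit 5) (nat_lit 74) (nat_lit 5) (nat_lit 75) (nat_lit 5) (nat_lit 349) (nat_lit 292) (nat_lit 139)))) (XT.nd (nat_lit 78) (nat_lit 380) (nat_lit 0) (XT.lf (nat_lit 0) (nat_lit 14538118671) (nat_lit 228) (nat_lit 10537120214) (nat_lit 304) (nat_lit 4349199133) (nat_lit 71) (nat_lit 5) (nat_lit 74) (nat_lit 5) (nat_lit 75) (nat_lit 5) (nat_lit 350) (nat_lit 292) (nat_lit 138)) (XT.nd (nat_lit 78) (nat_lit 304) (nat_lit 0) (XT.lf (nat_lit 0) (nat_lit 396203504) (nat_lit 304) (nat_lit 1363103300) (nat_lit 76) (nat_lit 28271242788) (nat_lit 70) (nat_lit 5) (nat_lit 74) (nat_lit 5) (nat_lit 71) (nat_lit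 5) (nat_lit 351) (nat_lit 292) (nat_lit 137)) (XT.lf (nat_lit 0) (nat_lit 5385354090) (nat_lit 380) (nat_lit 17957939824) (nat_lit 76) (nat_lit 7304599194) (nat_lit 66) (nat_lit 5) (nat_lit 71) (nat_lit 5) (nat_lit 67) (nat_lit 5) (nat_lit 352) (nat_lit 292) (nat_lit 136))))) (XT.nd (nat_lit 234) (nat_lit 532) (nat_lit 0) (XT.nd (nat_lit 78) (nat_lit 228) (nat_lit 0) (XT.lf (nat_lit 0) (nat_lit 10550051455) (nat_lit 380) (nat_lit 4116516441) (nat_lit 76) (nat_lit 16616417183) (nat_lit 66) (nat_lit 5) (nat_lit 71) (nat_lit 5) (nat_lit 67) (nat_lit 5) (nat_lit 353) (nat_lit 292) (nat_lit 135)) (XT.nd (nat_lit 78) (nat_lit 0) (nat_lit 0) (XT.lf (nat_lit 0) (nat_lit 10333877375) (nat_lit 228) (nat_lit 5629859012) (nat_lit 304) (nat_lit 15970576216) (nat_lit 63) (nat_lit 5) (nat_lit 66) (nat_lit 5) (nat_lit 67) (nat_lit 5) (nat_lit 354) (nat_lit 292) (nat_lit 134)) (XT.lf (nat_lit 0) (nat_lit 21611931289)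 (nat_lit 304) (nat_lit 7345512421) (nat_lit 76) (nat_lit 3645577330) (nat_lit 63) (nat_lit 5) (nat_lit 67) (nat_lit 5) (nat_lit 64) (nat_lit 5) (nat_lit 355) (nat_lit 292) (nat_lit 133)))) (XT.nd (nat_lit 156) (nat_lit 304) (nat_lit 0) (XT.nd (nat_lit 78) (nat_lit 0) (nat_lit 0) (XT.lf (nat_lit 0) (nat_lit 7418326817) (nat_lit 228) (nat_lit 20133212777) (nat_lit 304) (nat_lit 5736596063) (nat_lit 60) (nat_lit 5) (nat_lit 63) (nat_lit 5) (nat_lit 64) (nat_lit 5) (nat_lit 356) (nat_lit 292) (nat_lit 132)) (XT.lf (nat_lit 0) (nat_lit 22767984651) (nat_lit 228) (nat_lit 10970517953) (nat_lit 304) (nat_lit 253229951) (nat_lit 60) (nat_lit 5) (nat_lit 63) (nat_lit 5) (nat_lit 64) (nat_lit 5) (nat_lit 357) (nat_lit 292) (nat_lit 131))) (XT.nd (nat_lit 78) (nat_lit 0) (nat_lit 0) (XT.lf (nat_lit 0) (nat_lit 3877960944) (nat_lit 228) (nat_lit 1443770000) (nat_lit 304) (nat_lit 29392183458) (nat_lit 56)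 (nat_lit 5) (nat_lit 59) (nat_lit 5) (nat_lit 60) (nat_lit 5) (nat_lit 358) (nat_lit 292) (nat_lit 130)) (XT.lf (nat_lit 0) (nat_lit 11248888079) (nat_lit 304) (nat_lit 15883239735) (nat_lit 76) (nat_lit 8319861074) (nat_lit 56) (nat_lit 5) (nat_lit 60) (nat_lit 5) (nat_lit 57) (nat_lit 5) (nat_lit 359) (nat_lit 292) (nat_lit 129)))))) (XT.nd (nat_lit 546) (nat_lit 608) (nat_lit 0) (XT.nd (nat_lit 234) (nat_lit 456) (nat_lit 0) (XT.nd (nat_lit 78) (nat_lit 228) (nat_lit 0) (XT.lf (nat_lit 0) (nat_lit 17363427730) (nat_lit 304) (nat_lit 503617828) (nat_lit 76) (nat_lit 18344876424) (nat_lit 56) (nat_lit 5) (nat_lit 60) (nat_lit 5) (nat_lit 57) (nat_lit 5) (nat_lit 360) (nat_lit 292) (nat_lit 128)) (XT.nd (nat_lit 78) (nat_lit 0) (nat_lit 0) (XT.lf (nat_lit 0) (nat_lit 15635330784) (nat_lit 228) (nat_lit 8171779879) (nat_lit 304) (nat_lit 13183174505) (nat_lit 53) (nat_lit 5) (nat_lit 56) (nat_lit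 5) (nat_lit 57) (nat_lit 5) (nat_lit 361) (nat_lit 292) (nat_lit 127)) (XT.lf (nat_lit 0) (nat_lit 30462132083) (nat_lit 304) (nat_lit 5547773654) (nat_lit 76) (nat_lit 1781555885) (nat_lit 53) (nat_lit 5) (nat_lit 57) (nat_lit 5) (nat_lit 54) (nat_lit 5) (nat_lit 362) (nat_lit 292) (nat_lit 126)))) (XT.nd (nat_lit 156) (nat_lit 228) (nat_lit 0) (XT.nd (nat_lit 78) (nat_lit 76) (nat_lit 0) (XT.lf (nat_lit 0) (nat_lit 10857586774) (nat_lit 152) (nat_lit 26640079840) (nat_lit 228) (nat_lit 1113584002) (nat_lit 51) (nat_lit 5) (nat_lit 53) (nat_lit 5) (nat_lit 54) (nat_lit 5) (nat_lit 363) (nat_lit 292) (nat_lit 125)) (XT.lf (nat_lit 0) (nat_lit 5237609838) (nat_lit 228) (nat_lit 11643532492) (nat_lit 76) (nat_lit 22571403477) (nat_lit 50) (nat_lit 5) (nat_lit 53) (nat_lit 5) (nat_lit 51) (nat_lit 5) (nat_lit 364) (nat_lit 292) (nat_lit 124))) (XT.nd (nat_lit 78) (nat_lit 0) (nat_lit 0) (XT.lf (nat_lit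 0) (nat_lit 5030219831) (nat_lit 228) (nat_lit 6770819362) (nat_lit 304) (nat_lit 28516390297) (nat_lit 47) (nat_lit 5) (nat_lit 50) (nat_lit 5) (nat_lit 51) (nat_lit 5) (nat_lit 365) (nat_lit 292) (nat_lit 123)) (XT.lf (nat_lit 0) (nat_lit 18710892620) (nat_lit 304) (nat_lit 18804900773) (nat_lit 76) (nat_lit 3687983429) (nat_lit 47) (nat_lit 5) (nat_lit 51) (nat_lit 5) (nat_lit 48) (nat_lit 5) (nat_lit 366) (nat_lit 292) (nat_lit 122))))) (XT.nd (nat_lit 234) (nat_lit 456) (nat_lit 0) (XT.nd (nat_lit 78) (nat_lit 152) (nat_lit 0) (XT.lf (nat_lit 0) (nat_lit 25890966129) (nat_lit 304) (nat_lit 1901813875) (nat_lit 76) (nat_lit 14322049526) (nat_lit 47) (nat_lit 5) (nat_lit 51) (nat_lit 5) (nat_lit 48) (nat_lit 5) (nat_lit 367) (nat_lit 292) (nat_lit 121)) (XT.nd (nat_lit 78) (nat_lit 0) (nat_lit 0) (XT.lf (nat_lit 0) (nat_lit 15810424306) (nat_lit 152) (nat_lit 17624003479) (nat_lit 228) (nat_lit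 9614349070) (nat_lit 45) (nat_lit 5) (nat_lit 47) (nat_lit 5) (nat_lit 48) (nat_lit 5) (nat_lit 368) (nat_lit 292) (nat_lit 120)) (XT.lf (nat_lit 0) (nat_lit 34086618633) (nat_lit 152) (nat_lit 7132840549) (nat_lit 228) (nat_lit 2790827975) (nat_lit 45) (nat_lit 5) (nat_lit 47) (nat_lit 5) (nat_lit 48) (nat_lit 5) (nat_lit 369) (nat_lit 292) (nat_lit 119)))) (XT.nd (nat_lit 156) (nat_lit 152) (nat_lit 0) (XT.nd (nat_lit 78) (nat_lit 0) (nat_lit 0) (XT.lf (nat_lit 0) (nat_lit 4264391022) (nat_lit 304) (nat_lit 37013745295) (nat_lit 76) (nat_lit 3717996495) (nat_lit 41) (nat_lit 5) (nat_lit 45) (nat_lit 5) (nat_lit 42) (nat_lit 5) (nat_lit 370) (nat_lit 292) (nat_lit 118)) (XT.lf (nat_lit 0) (nat_lit 11643162871) (nat_lit 304) (nat_lit 19485064248) (nat_lit 76) (nat_lit 14877460406) (nat_lit 41) (nat_lit 5) (nat_lit 45) (nat_lit 5) (nat_lit 42) (nat_lit 5) (nat_lit 371) (nat_lit 292) (nat_lit 117)))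 (XT.nd (nat_lit 78) (nat_lit 152) (nat_lit 0) (XT.lf (nat_lit 0) (nat_lit 19239574775) (nat_lit 304) (nat_lit 1436659759) (nat_lit 76) (nat_lit 26369408290) (nat_lit 41) (nat_lit 5) (nat_lit 45) (nat_lit 5) (nat_lit 42) (nat_lit 5) (nat_lit 372) (nat_lit 292) (nat_lit 116)) (XT.lf (nat_lit 0) (nat_lit 17488502290) (nat_lit 152) (nat_lit 9739872268) (nat_lit 228) (nat_lit 20883489549) (nat_lit 39) (nat_lit 5) (nat_lit 41) (nat_lit 5) (nat_lit 42) (nat_lit 5) (nat_lit 373) (nat_lit 292) (nat_lit 115))))))) (XT.nd (nat_lit 1014) (nat_lit 380) (nat_lit 0) (XT.nd (nat_lit 468) (nat_lit 532) (nat_lit 0) (XT.nd (nat_lit 234) (nat_lit 152) (nat_lit 0) (XT.nd (nat_lit 78) (nat_lit 228) (nat_lit 0) (XT.lf (nat_lit 0) (nat_lit 35482556100) (nat_lit 228) (nat_lit 12219552831) (nat_lit 76) (nat_lit 1507193688) (nat_lit 39) (nat_lit 5) (nat_lit 42) (nat_lit 5) (nat_lit 40) (nat_lit 5) (nat_lit 374) (nat_lit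 292) (nat_lit 114)) (XT.nd (nat_lit 78) (nat_lit 76) (nat_lit 0) (XT.lf (nat_lit 0) (nat_lit 6766155981) (nat_lit 152) (nat_lit 37376197911) (nat_lit 228) (nat_lit 6192572733) (nat_lit 37) (nat_lit 5) (nat_lit 39) (nat_lit 5) (nat_lit 40) (nat_lit 5) (nat_lit 375) (nat_lit 292) (nat_lit 113)) (XT.lf (nat_lit 0) (nat_lit 1658177620) (nat_lit 228) (nat_lit 24940809573) (nat_lit 76) (nat_lit 24891247791) (nat_lit 36) (nat_lit 5) (nat_lit 39) (nat_lit 5) (nat_lit 37) (nat_lit 5) (nat_lit 376) (nat_lit 292) (nat_lit 112)))) (XT.nd (nat_lit 78) (nat_lit 152) (nat_lit 0) (XT.lf (nat_lit 0) (nat_lit 9616613232) (nat_lit 228) (nat_lit 5820978812) (nat_lit 76) (nat_lit 37240874239) (nat_lit 36) (nat_lit 5) (nat_lit 39) (nat_lit 5) (nat_lit 37) (nat_lit 5) (nat_lit 377) (nat_lit 292) (nat_lit 111)) (XT.nd (nat_lit 78) (nat_lit 0) (nat_lit 0) (XT.lf (nat_lit 0) (nat_lit 14142934679) (nat_lit 152) (nat_lit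 3803543335) (nat_lit 228) (nat_lit 35951888059) (nat_lit 34) (nat_lit 5) (nat_lit 36) (nat_lit 5) (nat_lit 37) (nat_lit 5) (nat_lit 378) (nat_lit 292) (nat_lit 110)) (XT.lf (nat_lit 0) (nat_lit 26660975260) (nat_lit 228) (nat_lit 20412733562) (nat_lit 76) (nat_lit 8077113716) (nat_lit 34) (nat_lit 5) (nat_lit 37) (nat_lit 5) (nat_lit 35) (nat_lit 5) (nat_lit 379) (nat_lit 292) (nat_lit 109))))) (XT.nd (nat_lit 234) (nat_lit 380) (nat_lit 0) (XT.nd (nat_lit 78) (nat_lit 152) (nat_lit 0) (XT.lf (nat_lit 0) (nat_lit 35671408452) (nat_lit 228) (nat_lit 532768451) (nat_lit 76) (nat_lit 20235642492) (nat_lit 34) (nat_lit 5) (nat_lit 37) (nat_lit 5) (nat_lit 35) (nat_lit 5) (nat_lit 380) (nat_lit 292) (nat_lit 108)) (XT.nd (nat_lit 78) (nat_lit 0) (nat_lit 0) (XT.lf (nat_lit 0) (nat_lit 20335209958) (nat_lit 152) (nat_lit 24809353318) (nat_lit 228) (nat_lit 12617152298) (nat_lit 32) (nat_lit 5) (nat_lit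 34) (nat_lit 5) (nat_lit 35) (nat_lit 5) (nat_lit 381) (nat_lit 292) (nat_lit 107)) (XT.lf (nat_lit 0) (nat_lit 41835001076) (nat_lit 152) (nat_lit 13069265557) (nat_lit 228) (nat_lit 4218933019) (nat_lit 32) (nat_lit 5) (nat_lit 34) (nat_lit 5) (nat_lit 35) (nat_lit 5) (nat_lit 382) (nat_lit 292) (nat_lit 106)))) (XT.nd (nat_lit 156) (nat_lit 152) (nat_lit 0) (XT.nd (nat_lit 78) (nat_lit 0) (nat_lit 0) (XT.lf (nat_lit 0) (nat_lit 3474401488) (nat_lit 152) (nat_lit 900791578) (nat_lit 228) (nat_lit 56148145963) (nat_lit 29) (nat_lit 5) (nat_lit 31) (nat_lit 5) (nat_lit 32) (nat_lit 5) (nat_lit 383) (nat_lit 292) (nat_lit 105)) (XT.lf (nat_lit 0) (nat_lit 13427522730) (nat_lit 228) (nat_lit 36906374055) (nat_lit 76) (nat_lit 11621778858) (nat_lit 29) (nat_lit 5) (nat_lit 32) (nat_lit 5) (nat_lit 30) (nat_lit 5) (nat_lit 384) (nat_lit 292) (nat_lit 104))) (XT.nd (nat_lit 78) (nat_lit 152) (nat_lit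 0) (XT.lf (nat_lit 0) (nat_lit 22757476740) (nat_lit 228) (nat_lit 16173382852) (nat_lit 76) (nat_lit 24499942576) (nat_lit 29) (nat_lit 5) (nat_lit 32) (nat_lit 5) (nat_lit 30) (nat_lit 5) (nat_lit 385) (nat_lit 292) (nat_lit 103)) (XT.lf (nat_lit 0) (nat_lit 5279839926) (nat_lit 152) (nat_lit 27135461649) (nat_lit 228) (nat_lit 32533443154) (nat_lit 27) (nat_lit 5) (nat_lit 29) (nat_lit 5) (nat_lit 30) (nat_lit 5) (nat_lit 386) (nat_lit 292) (nat_lit 102)))))) (XT.nd (nat_lit 546) (nat_lit 76) (nat_lit 0) (XT.nd (nat_lit 234) (nat_lit 228) (nat_lit 0) (XT.nd (nat_lit 78) (nat_lit 76) (nat_lit 0) (XT.lf (nat_lit 0) (nat_lit 27703457956) (nat_lit 152) (nat_lit 14819977239) (nat_lit 228) (nat_lit 23983974512) (nat_lit 27) (nat_lit 5) (nat_lit 29) (nat_lit 5) (nat_lit 30) (nat_lit 5) (nat_lit 387) (nat_lit 292) (nat_lit 101)) (XT.nd (nat_lit 78) (nat_lit 76) (nat_lit 0) (XT.lf (nat_lit 0) (nat_lit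 50795182660) (nat_lit 152) (nat_lit 2136964714) (nat_lit 228) (nat_lit 15180768550) (nat_lit 27) (nat_lit 5) (nat_lit 29) (nat_lit 5) (nat_lit 30) (nat_lit 5) (nat_lit 388) (nat_lit 292) (nat_lit 100)) (XT.lf (nat_lit 0) (nat_lit 4797119609) (nat_lit 76) (nat_lit 59004540838) (nat_lit 152) (nat_lit 5960471978) (nat_lit 26) (nat_lit 5) (nat_lit 27) (nat_lit 5) (nat_lit 28) (nat_lit 4) (nat_lit 389) (nat_lit 292) (nat_lit 99)))) (XT.nd (nat_lit 156) (nat_lit 152) (nat_lit 0) (XT.nd (nat_lit 78) (nat_lit 0) (nat_lit 0) (XT.lf (nat_lit 0) (nat_lit 3662589794) (nat_lit 152) (nat_lit 43586585646) (nat_lit 76) (nat_lit 24204776418) (nat_lit 25) (nat_lit 5) (nat_lit 27) (nat_lit 5) (nat_lit 26) (nat_lit 5) (nat_lit 390) (nat_lit 292) (nat_lit 98)) (XT.lf (nat_lit 0) (nat_lit 13452019763) (nat_lit 152) (nat_lit 21630225316) (nat_lit 76) (nat_lit 38112587255) (nat_lit 25) (nat_lit 5) (nat_lit 27) (nat_lit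 5) (nat_lit 26) (nat_lit 5) (nat_lit 391) (nat_lit 292) (nat_lit 97))) (XT.nd (nat_lit 78) (nat_lit 0) (nat_lit 0) (XT.lf (nat_lit 0) (nat_lit 1000063893) (nat_lit 152) (nat_lit 22542231410) (nat_lit 228) (nat_lit 51445430184) (nat_lit 23) (nat_lit 5) (nat_lit 25) (nat_lit 5) (nat_lit 26) (nat_lit 5) (nat_lit 392) (nat_lit 292) (nat_lit 96)) (XT.lf (nat_lit 0) (nat_lit 24748425342) (nat_lit 152) (nat_lit 9402856742) (nat_lit 228) (nat_lit 42676644369) (nat_lit 23) (nat_lit 5) (nat_lit 25) (nat_lit 5) (nat_lit 26) (nat_lit 5) (nat_lit 393) (nat_lit 292) (nat_lit 95))))) (XT.nd (nat_lit 234) (nat_lit 0) (nat_lit 0) (XT.nd (nat_lit 78) (nat_lit 76) (nat_lit 0) (XT.lf (nat_lit 0) (nat_lit 45115878933) (nat_lit 228) (nat_lit 29557968747) (nat_lit 76) (nat_lit 4048366632) (nat_lit 23) (nat_lit 5) (nat_lit 26) (nat_lit 5) (nat_lit 24) (nat_lit 4) (nat_lit 394) (nat_lit 292) (nat_lit 94)) (XT.nd (nat_lit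 78) (nat_lit 76) (nat_lit 0) (XT.lf (nat_lit 0) (nat_lit 56500213857) (nat_lit 228) (nat_lit 6457932784) (nat_lit 76) (nat_lit 17712461204) (nat_lit 23) (nat_lit 5) (nat_lit 26) (nat_lit 5) (nat_lit 24) (nat_lit 4) (nat_lit 395) (nat_lit 292) (nat_lit 93)) (XT.lf (nat_lit 0) (nat_lit 17676101696) (nat_lit 76) (nat_lit 50717660130) (nat_lit 152) (nat_lit 14278661884) (nat_lit 22) (nat_lit 5) (nat_lit 23) (nat_lit 5) (nat_lit 24) (nat_lit 4) (nat_lit 396) (nat_lit 292) (nat_lit 92)))) (XT.nd (nat_lit 32604) (nat_lit 0) (nat_lit 13680) (XT.nd (nat_lit 32526) (nat_lit 0) (nat_lit 13680) (XT.lf (nat_lit 0) (nat_lit 42662650029) (nat_lit 76) (nat_lit 38044475745) (nat_lit 152) (nat_lit 4025278975) (nat_lit 22) (nat_lit 5) (nat_lit 23) (nat_lit 5) (nat_lit 24) (nat_lit 4) (nat_lit 397) (nat_lit 292) (nat_lit 91)) (XT.lf (nat_lit 0) (nat_lit 1937921499) (nat_lit 1140) (nat_lit 1837501672) (nat_lit 1140)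 (nat_lit 1837501672) (nat_lit 202) (nat_lit 3) (nat_lit 217) (nat_lit 3) (nat_lit 217) (nat_lit 5) (nat_lit 293) (nat_lit 293) (nat_lit 194))) (XT.nd (nat_lit 78) (nat_lit 0) (nat_lit 76) (XT.lf (nat_lit 76) (nat_lit 1396689546) (nat_lit 0) (nat_lit 3066498203) (nat_lit 1140) (nat_lit 6914439673) (nat_lit 203) (nat_lit 5) (nat_lit 202) (nat_lit 3) (nat_lit 217) (nat_lit 5) (nat_lit 294) (nat_lit 293) (nat_lit 193)) (XT.lf (nat_lit 0) (nat_lit 5100414456) (nat_lit 1064) (nat_lit 4863583741) (nat_lit 1140) (nat_lit 1569021082) (nat_lit 203) (nat_lit 5) (nat_lit 217) (nat_lit 5) (nat_lit 218) (nat_lit 5) (nat_lit 295) (nat_lit 293) (nat_lit 192))))))))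
noncomputable def xc184 : XT := (XT.nd (nat_lit 2028) (nat_lit 5168) (nat_lit 0) (XT.nd (nat_lit 1014) (nat_lit 3800) (nat_lit 0) (XT.nd (nat_lit 468) (nat_lit 836) (nat_lit 0) (XT.nd (nat_lit 234) (nat_lit 0) (nat_lit 76) (XT.nd (nat_lit 78) (nat_lit 0) (nat_lit 0) (XT.lf (nat_lit 76) (nat_lit 373226337) (nat_lit 0) (nat_lit 5397928659) (nat_lit 1140) (nat_lit 5921513788) (nat_lit 204) (nat_lit 5) (nat_lit 203) (nat_lit 5) (nat_lit 218) (nat_lit 5) (nat_lit 296) (nat_lit 293) (nat_lit 191)) (XT.nd (nat_lit 78) (nat_lit 0) (nat_lit 76) (XT.lf (nat_lit 76) (nat_lit 5855960823) (nat_lit 0) (nat_lit 636082480) (nat_lit 1140) (nat_lit 5364190699) (nat_lit 204) (nat_lit 5) (nat_lit 203) (nat_lit 5) (nat_lit 218) (nat_lit 5) (nat_lit 297) (nat_lit 293) (nat_lit 190)) (XT.lf (nat_lit 0) (nat_lit 7257136271) (nat_lit 1064) (nat_lit 573781904) (nat_lit 1140) (nat_lit 4193136871) (nat_lit 204) (nat_lit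 5) (nat_lit 218) (nat_lit 5) (nat_lit 219) (nat_lit 5) (nat_lit 298) (nat_lit 293) (nat_lit 189)))) (XT.nd (nat_lit 78) (nat_lit 0) (nat_lit 76) (XT.lf (nat_lit 76) (nat_lit 5097788803) (nat_lit 0) (nat_lit 2984777078) (nat_lit 1140) (nat_lit 4113248767) (nat_lit 205) (nat_lit 5) (nat_lit 204) (nat_lit 5) (nat_lit 219) (nat_lit 5) (nat_lit 299) (nat_lit 293) (nat_lit 188)) (XT.nd (nat_lit 78) (nat_lit 0) (nat_lit 0) (XT.lf (nat_lit 0) (nat_lit 8940465543) (nat_lit 1064) (nat_lit 1452033148) (nat_lit 1140) (nat_lit 1980021838) (nat_lit 205) (nat_lit 5) (nat_lit 219) (nat_lit 5) (nat_lit 220) (nat_lit 5) (nat_lit 300) (nat_lit 293) (nat_lit 187)) (XT.lf (nat_lit 76) (nat_lit 4408748648) (nat_lit 0) (nat_lit 5470358809) (nat_lit 1140) (nat_lit 2673793953) (nat_lit 206) (nat_lit 5) (nat_lit 205) (nat_lit 5) (nat_lit 220) (nat_lit 5) (nat_lit 301) (nat_lit 293) (nat_lit 186))))) (XT.nd (nat_lit 234)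 (nat_lit 988) (nat_lit 0) (XT.nd (nat_lit 78) (nat_lit 0) (nat_lit 76) (XT.lf (nat_lit 76) (nat_lit 10464158673) (nat_lit 0) (nat_lit 379873719) (nat_lit 1140) (nat_lit 1894740898) (nat_lit 206) (nat_lit 5) (nat_lit 205) (nat_lit 5) (nat_lit 220) (nat_lit 5) (nat_lit 302) (nat_lit 293) (nat_lit 185)) (XT.nd (nat_lit 78) (nat_lit 0) (nat_lit 0) (XT.lf (nat_lit 76) (nat_lit 3786960008) (nat_lit 0) (nat_lit 8118091762) (nat_lit 1140) (nat_lit 1023177765) (nat_lit 207) (nat_lit 5) (nat_lit 206) (nat_lit 5) (nat_lit 221) (nat_lit 5) (nat_lit 303) (nat_lit 293) (nat_lit 184)) (XT.lf (nat_lit 76) (nat_lit 10062085415) (nat_lit 0) (nat_lit 2946864151) (nat_lit 1140) (nat_lit 114110412) (nat_lit 207) (nat_lit 5) (nat_lit 206) (nat_lit 5) (nat_lit 221) (nat_lit 5) (nat_lit 304) (nat_lit 293) (nat_lit 183)))) (XT.nd (nat_lit 156) (nat_lit 0) (nat_lit 0) (XT.nd (nat_lit 78) (nat_lit 0) (nat_lit 0) (XT.lf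 (nat_lit 0) (nat_lit 845327891) (nat_lit 1140) (nat_lit 10100268279) (nat_lit 1216) (nat_lit 2376748434) (nat_lit 192) (nat_lit 5) (nat_lit 207) (nat_lit 5) (nat_lit 208) (nat_lit 5) (nat_lit 305) (nat_lit 293) (nat_lit 182)) (XT.lf (nat_lit 0) (nat_lit 1876668081) (nat_lit 1140) (nat_lit 3812419508) (nat_lit 1216) (nat_lit 7837144004) (nat_lit 192) (nat_lit 5) (nat_lit 207) (nat_lit 5) (nat_lit 208) (nat_lit 5) (nat_lit 306) (nat_lit 293) (nat_lit 181))) (XT.nd (nat_lit 78) (nat_lit 0) (nat_lit 76) (XT.lf (nat_lit 76) (nat_lit 2705705466) (nat_lit 0) (nat_lit 244707723) (nat_lit 1216) (nat_lit 10785497563) (nat_lit 193) (nat_lit 5) (nat_lit 192) (nat_lit 5) (nat_lit 208) (nat_lit 5) (nat_lit 307) (nat_lit 293) (nat_lit 180)) (XT.lf (nat_lit 0) (nat_lit 4132606044) (nat_lit 1140) (nat_lit 4516658158) (nat_lit 1216) (nat_lit 5300347954) (nat_lit 193) (nat_lit 5) (nat_lit 208) (nat_lit 5) (nat_lit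 209) (nat_lit 5) (nat_lit 308) (nat_lit 293) (nat_lit 179)))))) (XT.nd (nat_lit 468) (nat_lit 2204) (nat_lit 0) (XT.nd (nat_lit 234) (nat_lit 608) (nat_lit 0) (XT.nd (nat_lit 78) (nat_lit 1064) (nat_lit 0) (XT.lf (nat_lit 76) (nat_lit 2222044049) (nat_lit 0) (nat_lit 3138220404) (nat_lit 1216) (nat_lit 8809178540) (nat_lit 194) (nat_lit 5) (nat_lit 193) (nat_lit 5) (nat_lit 209) (nat_lit 5) (nat_lit 309) (nat_lit 293) (nat_lit 178)) (XT.nd (nat_lit 78) (nat_lit 1140) (nat_lit 0) (XT.lf (nat_lit 0) (nat_lit 6681747250) (nat_lit 1140) (nat_lit 5175380471) (nat_lit 76) (nat_lit 2537049039) (nat_lit 194) (nat_lit 5) (nat_lit 209) (nat_lit 5) (nat_lit 195) (nat_lit 5) (nat_lit 310) (nat_lit 293) (nat_lit 177)) (XT.lf (nat_lit 0) (nat_lit 1792516677) (nat_lit 1140) (nat_lit 6285587655) (nat_lit 1216) (nat_lit 6546508642) (nat_lit 179) (nat_lit 5) (nat_lit 194) (nat_lit 5) (nat_lit 195) (nat_lit 5) (nat_lit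 311) (nat_lit 293) (nat_lit 176)))) (XT.nd (nat_lit 78) (nat_lit 608) (nat_lit 0) (XT.lf (nat_lit 0) (nat_lit 9064461813) (nat_lit 1140) (nat_lit 491353304) (nat_lit 1216) (nat_lit 5304980088) (nat_lit 179) (nat_lit 5) (nat_lit 194) (nat_lit 5) (nat_lit 195) (nat_lit 5) (nat_lit 312) (nat_lit 293) (nat_lit 175)) (XT.nd (nat_lit 78) (nat_lit 0) (nat_lit 0) (XT.lf (nat_lit 0) (nat_lit 1414293289) (nat_lit 608) (nat_lit 9717395060) (nat_lit 684) (nat_lit 3970775953) (nat_lit 171) (nat_lit 5) (nat_lit 179) (nat_lit 5) (nat_lit 180) (nat_lit 5) (nat_lit 313) (nat_lit 293) (nat_lit 174)) (XT.lf (nat_lit 0) (nat_lit 8944044050) (nat_lit 608) (nat_lit 3861988321) (nat_lit 684) (nat_lit 2543831119) (nat_lit 171) (nat_lit 5) (nat_lit 179) (nat_lit 5) (nat_lit 180) (nat_lit 5) (nat_lit 314) (nat_lit 293) (nat_lit 173))))) (XT.nd (nat_lit 234) (nat_lit 988) (nat_lit 0) (XT.nd (nat_lit 78) (nat_lit 608) (nat_lit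 0) (XT.lf (nat_lit 0) (nat_lit 1084198826) (nat_lit 608) (nat_lit 13465890492) (nat_lit 684) (nat_lit 1054026253) (nat_lit 163) (nat_lit 5) (nat_lit 171) (nat_lit 5) (nat_lit 172) (nat_lit 5) (nat_lit 315) (nat_lit 293) (nat_lit 172)) (XT.nd (nat_lit 78) (nat_lit 532) (nat_lit 0) (XT.lf (nat_lit 0) (nat_lit 562979892) (nat_lit 684) (nat_lit 6988568547) (nat_lit 76) (nat_lit 8311566241) (nat_lit 162) (nat_lit 5) (nat_lit 171) (nat_lit 5) (nat_lit 163) (nat_lit 5) (nat_lit 316) (nat_lit 293) (nat_lit 171)) (XT.lf (nat_lit 0) (nat_lit 762237792) (nat_lit 532) (nat_lit 1441059578) (nat_lit 608) (nat_lit 13926407821) (nat_lit 155) (nat_lit 5) (nat_lit 162) (nat_lit 5) (nat_lit 163) (nat_lit 5) (nat_lit 317) (nat_lit 293) (nat_lit 170)))) (XT.nd (nat_lit 156) (nat_lit 456) (nat_lit 0) (XT.nd (nat_lit 78) (nat_lit 532) (nat_lit 0) (XT.lf (nat_lit 0) (nat_lit 3999629690) (nat_lit 608) (nat_lit 7571858789)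 (nat_lit 76) (nat_lit 4829614458) (nat_lit 155) (nat_lit 5) (nat_lit 163) (nat_lit 5) (nat_lit 156) (nat_lit 5) (nat_lit 318) (nat_lit 293) (nat_lit 169)) (XT.lf (nat_lit 0) (nat_lit 441119789) (nat_lit 532) (nat_lit 5416452275) (nat_lit 608) (nat_lit 10822852227) (nat_lit 148) (nat_lit 5) (nat_lit 155) (nat_lit 5) (nat_lit 156) (nat_lit 5) (nat_lit 319) (nat_lit 293) (nat_lit 168))) (XT.nd (nat_lit 78) (nat_lit 456) (nat_lit 0) (XT.lf (nat_lit 0) (nat_lit 7846766799) (nat_lit 608) (nat_lit 8136820462) (nat_lit 76) (nat_lit 982285495) (nat_lit 148) (nat_lit 5) (nat_lit 156) (nat_lit 5) (nat_lit 149) (nat_lit 5) (nat_lit 320) (nat_lit 293) (nat_lit 167)) (XT.lf (nat_lit 0) (nat_lit 147244618) (nat_lit 456) (nat_lit 9793165940) (nat_lit 532) (nat_lit 7318143438) (nat_lit 142) (nat_lit 5) (nat_lit 148) (nat_lit 5) (nat_lit 149) (nat_lit 5) (nat_lit 321) (nat_lit 293) (nat_lit 166))))))) (XT.nd (nat_lit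 1014) (nat_lit 2432) (nat_lit 0) (XT.nd (nat_lit 468) (nat_lit 1672) (nat_lit 0) (XT.nd (nat_lit 234) (nat_lit 532) (nat_lit 0) (XT.nd (nat_lit 78) (nat_lit 532) (nat_lit 0) (XT.lf (nat_lit 0) (nat_lit 8835995259) (nat_lit 456) (nat_lit 3332960768) (nat_lit 532) (nat_lit 5388909028) (nat_lit 142) (nat_lit 5) (nat_lit 148) (nat_lit 5) (nat_lit 149) (nat_lit 5) (nat_lit 322) (nat_lit 293) (nat_lit 165)) (XT.nd (nat_lit 78) (nat_lit 532) (nat_lit 0) (XT.lf (nat_lit 0) (nat_lit 14486496473) (nat_lit 532) (nat_lit 123294505) (nat_lit 76) (nat_lit 3255712107) (nat_lit 142) (nat_lit 5) (nat_lit 149) (nat_lit 5) (nat_lit 143) (nat_lit 5) (nat_lit 323) (nat_lit 293) (nat_lit 164)) (XT.lf (nat_lit 0) (nat_lit 8862870881) (nat_lit 532) (nat_lit 8119386853) (nat_lit 608) (nat_lit 1196863138) (nat_lit 135) (nat_lit 5) (nat_lit 142) (nat_lit 5) (nat_lit 143) (nat_lit 5) (nat_lit 324) (nat_lit 293) (nat_lit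 163)))) (XT.nd (nat_lit 78) (nat_lit 456) (nat_lit 0) (XT.lf (nat_lit 0) (nat_lit 1022073178) (nat_lit 608) (nat_lit 401485265) (nat_lit 76) (nat_lit 17078541566) (nat_lit 134) (nat_lit 5) (nat_lit 142) (nat_lit 5) (nat_lit 135) (nat_lit 5) (nat_lit 325) (nat_lit 293) (nat_lit 162)) (XT.nd (nat_lit 78) (nat_lit 0) (nat_lit 0) (XT.lf (nat_lit 0) (nat_lit 3413811102) (nat_lit 532) (nat_lit 9952610689) (nat_lit 76) (nat_lit 5464093029) (nat_lit 128) (nat_lit 5) (nat_lit 135) (nat_lit 5) (nat_lit 129) (nat_lit 5) (nat_lit 326) (nat_lit 293) (nat_lit 161)) (XT.lf (nat_lit 0) (nat_lit 5886500080) (nat_lit 532) (nat_lit 749168655) (nat_lit 76) (nat_lit 12532847549) (nat_lit 128) (nat_lit 5) (nat_lit 135) (nat_lit 5) (nat_lit 129) (nat_lit 5) (nat_lit 327) (nat_lit 293) (nat_lit 160))))) (XT.nd (nat_lit 234) (nat_lit 836) (nat_lit 0) (XT.nd (nat_lit 78) (nat_lit 380) (nat_lit 0) (XT.lf (nat_lit 0) (nat_lit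 8513825050) (nat_lit 532) (nat_lit 10624103830) (nat_lit 76) (nat_lit 376325134) (nat_lit 122) (nat_lit 5) (nat_lit 129) (nat_lit 5) (nat_lit 123) (nat_lit 5) (nat_lit 328) (nat_lit 293) (nat_lit 159)) (XT.nd (nat_lit 78) (nat_lit 380) (nat_lit 0) (XT.lf (nat_lit 0) (nat_lit 11284727884) (nat_lit 532) (nat_lit 1112041225) (nat_lit 76) (nat_lit 7471661618) (nat_lit 122) (nat_lit 5) (nat_lit 129) (nat_lit 5) (nat_lit 123) (nat_lit 5) (nat_lit 329) (nat_lit 293) (nat_lit 158)) (XT.lf (nat_lit 0) (nat_lit 8848203260) (nat_lit 380) (nat_lit 5367277221) (nat_lit 456) (nat_lit 6015459892) (nat_lit 117) (nat_lit 5) (nat_lit 122) (nat_lit 5) (nat_lit 123) (nat_lit 5) (nat_lit 330) (nat_lit 293) (nat_lit 157)))) (XT.nd (nat_lit 156) (nat_lit 456) (nat_lit 0) (XT.nd (nat_lit 78) (nat_lit 380) (nat_lit 0) (XT.lf (nat_lit 0) (nat_lit 17255303989) (nat_lit 456) (nat_lit 1502037508) (nat_lit 76) (nat_lit 1846358405)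 (nat_lit 117) (nat_lit 5) (nat_lit 123) (nat_lit 5) (nat_lit 118) (nat_lit 5) (nat_lit 331) (nat_lit 293) (nat_lit 156)) (XT.lf (nat_lit 0) (nat_lit 8783649794) (nat_lit 380) (nat_lit 11732288684) (nat_lit 456) (nat_lit 467824029) (nat_lit 112) (nat_lit 5) (nat_lit 117) (nat_lit 5) (nat_lit 118) (nat_lit 5) (nat_lit 332) (nat_lit 293) (nat_lit 155))) (XT.nd (nat_lit 78) (nat_lit 380) (nat_lit 0) (XT.lf (nat_lit 0) (nat_lit 2457809989) (nat_lit 456) (nat_lit 2000010784) (nat_lit 76) (nat_lit 16916471409) (nat_lit 111) (nat_lit 5) (nat_lit 117) (nat_lit 5) (nat_lit 112) (nat_lit 5) (nat_lit 333) (nat_lit 293) (nat_lit 154)) (XT.lf (nat_lit 0) (nat_lit 5567416055) (nat_lit 456) (nat_lit 13143174771) (nat_lit 76) (nat_lit 3062647821) (nat_lit 106) (nat_lit 5) (nat_lit 112) (nat_lit 5) (nat_lit 107) (nat_lit 5) (nat_lit 334) (nat_lit 293) (nat_lit 153)))))) (XT.nd (nat_lit 546) (nat_lit 1292) (nat_lit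 0) (XT.nd (nat_lit 234) (nat_lit 760) (nat_lit 0) (XT.nd (nat_lit 78) (nat_lit 380) (nat_lit 0) (XT.lf (nat_lit 0) (nat_lit 8827284009) (nat_lit 456) (nat_lit 2617447565) (nat_lit 76) (nat_lit 10737720521) (nat_lit 106) (nat_lit 5) (nat_lit 112) (nat_lit 5) (nat_lit 107) (nat_lit 5) (nat_lit 335) (nat_lit 293) (nat_lit 152)) (XT.nd (nat_lit 78) (nat_lit 0) (nat_lit 0) (XT.lf (nat_lit 0) (nat_lit 8378218163) (nat_lit 380) (nat_lit 3879927285) (nat_lit 456) (nat_lit 10343608148) (nat_lit 101) (nat_lit 5) (nat_lit 106) (nat_lit 5) (nat_lit 107) (nat_lit 5) (nat_lit 336) (nat_lit 293) (nat_lit 151)) (XT.lf (nat_lit 0) (nat_lit 15848994858) (nat_lit 456) (nat_lit 3322732242) (nat_lit 76) (nat_lit 3860202531) (nat_lit 101) (nat_lit 5) (nat_lit 107) (nat_lit 5) (nat_lit 102) (nat_lit 5) (nat_lit 337) (nat_lit 293) (nat_lit 150)))) (XT.nd (nat_lit 156) (nat_lit 456) (nat_lit 0) (XT.nd (nat_lit 78) (nat_lit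 0) (nat_lit 0) (XT.lf (nat_lit 0) (nat_lit 8013899288) (nat_lit 304) (nat_lit 11642097295) (nat_lit 380) (nat_lit 3815768697) (nat_lit 97) (nat_lit 5) (nat_lit 101) (nat_lit 5) (nat_lit 102) (nat_lit 5) (nat_lit 338) (nat_lit 293) (nat_lit 149)) (XT.lf (nat_lit 0) (nat_lit 19749671654) (nat_lit 304) (nat_lit 3854184348) (nat_lit 380) (nat_lit 320147497) (nat_lit 97) (nat_lit 5) (nat_lit 101) (nat_lit 5) (nat_lit 102) (nat_lit 5) (nat_lit 339) (nat_lit 293) (nat_lit 148))) (XT.nd (nat_lit 78) (nat_lit 0) (nat_lit 0) (XT.lf (nat_lit 0) (nat_lit 3323243255) (nat_lit 456) (nat_lit 16873317816) (nat_lit 76) (nat_lit 4189100981) (nat_lit 91) (nat_lit 5) (nat_lit 97) (nat_lit 5) (nat_lit 92) (nat_lit 5) (nat_lit 340) (nat_lit 293) (nat_lit 147)) (XT.lf (nat_lit 0) (nat_lit 7143545081) (nat_lit 456) (nat_lit 5275508385) (nat_lit 76) (nat_lit 12439806825) (nat_lit 91) (nat_lit 5) (nat_lit 97) (nat_lit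 5) (nat_lit 92) (nat_lit 5) (nat_lit 341) (nat_lit 293) (nat_lit 146))))) (XT.nd (nat_lit 234) (nat_lit 684) (nat_lit 0) (XT.nd (nat_lit 78) (nat_lit 304) (nat_lit 0) (XT.lf (nat_lit 0) (nat_lit 6794029229) (nat_lit 304) (nat_lit 4343243678) (nat_lit 380) (nat_lit 14207223218) (nat_lit 87) (nat_lit 5) (nat_lit 91) (nat_lit 5) (nat_lit 92) (nat_lit 5) (nat_lit 342) (nat_lit 293) (nat_lit 145)) (XT.nd (nat_lit 78) (nat_lit 304) (nat_lit 0) (XT.lf (nat_lit 0) (nat_lit 15336412760) (nat_lit 380) (nat_lit 6556914523) (nat_lit 76) (nat_lit 3948811724) (nat_lit 87) (nat_lit 5) (nat_lit 92) (nat_lit 5) (nat_lit 88) (nat_lit 5) (nat_lit 343) (nat_lit 293) (nat_lit 144)) (XT.lf (nat_lit 0) (nat_lit 5859162427) (nat_lit 304) (nat_lit 13895467147) (nat_lit 380) (nat_lit 6597294324) (nat_lit 83) (nat_lit 5) (nat_lit 87) (nat_lit 5) (nat_lit 88) (nat_lit 5) (nat_lit 344) (nat_lit 293) (nat_lit 143)))) (XT.nd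 (nat_lit 156) (nat_lit 304) (nat_lit 0) (XT.nd (nat_lit 78) (nat_lit 380) (nat_lit 0) (XT.lf (nat_lit 0) (nat_lit 18773603502) (nat_lit 304) (nat_lit 5591879097) (nat_lit 380) (nat_lit 2509722678) (nat_lit 83) (nat_lit 5) (nat_lit 87) (nat_lit 5) (nat_lit 88) (nat_lit 5) (nat_lit 345) (nat_lit 293) (nat_lit 142)) (XT.lf (nat_lit 0) (nat_lit 1735791868) (nat_lit 380) (nat_lit 22712748655) (nat_lit 76) (nat_lit 2963104563) (nat_lit 78) (nat_lit 5) (nat_lit 83) (nat_lit 5) (nat_lit 79) (nat_lit 5) (nat_lit 346) (nat_lit 293) (nat_lit 141))) (XT.nd (nat_lit 78) (nat_lit 304) (nat_lit 0) (XT.lf (nat_lit 0) (nat_lit 6190278009) (nat_lit 380) (nat_lit 10001745158) (nat_lit 76) (nat_lit 11767453143) (nat_lit 78) (nat_lit 5) (nat_lit 83) (nat_lit 5) (nat_lit 79) (nat_lit 5) (nat_lit 347) (nat_lit 293) (nat_lit 140)) (XT.lf (nat_lit 0) (nat_lit 3143698394) (nat_lit 304) (nat_lit 7659156058) (nat_lit 380)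 (nat_lit 17720159352) (nat_lit 74) (nat_lit 5) (nat_lit 78) (nat_lit 5) (nat_lit 79) (nat_lit 5) (nat_lit 348) (nat_lit 293) (nat_lit 139))))))))
noncomputable def xc185 : XT := (XT.nd (nat_lit 2028) (nat_lit 1292) (nat_lit 0) (XT.nd (nat_lit 1014) (nat_lit 1292) (nat_lit 0) (XT.nd (nat_lit 468) (nat_lit 760) (nat_lit 0) (XT.nd (nat_lit 234) (nat_lit 380) (nat_lit 0) (XT.nd (nat_lit 78) (nat_lit 228) (nat_lit 0) (XT.lf (nat_lit 0) (nat_lit 15660967733) (nat_lit 380) (nat_lit 12232061012) (nat_lit 76) (nat_lit 1207218754) (nat_lit 74) (nat_lit 5) (nat_lit 79) (nat_lit 5) (nat_lit 75) (nat_lit 5) (nat_lit 349) (nat_lit 293) (nat_lit 138)) (XT.nd (nat_lit 78) (nat_lit 0) (nat_lit 0) (XT.lf (nat_lit 0) (nat_lit 1250108381) (nat_lit 228) (nat_lit 19497034229) (nat_lit 304) (nat_lit 8945190768) (nat_lit 71) (nat_lit 5) (nat_lit 74) (nat_lit 5) (nat_lit 75) (nat_lit 5) (nat_lit 350) (nat_lit 293) (nat_lit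 137)) (XT.lf (nat_lit 0) (nat_lit 15379503645) (nat_lit 228) (nat_lit 10724471454) (nat_lit 304) (nat_lit 4194669146) (nat_lit 71) (nat_lit 5) (nat_lit 74) (nat_lit 5) (nat_lit 75) (nat_lit 5) (nat_lit 351) (nat_lit 293) (nat_lit 136)))) (XT.nd (nat_lit 78) (nat_lit 304) (nat_lit 0) (XT.lf (nat_lit 0) (nat_lit 679394919) (nat_lit 304) (nat_lit 1004939432) (nat_lit 76) (nat_lit 29238773377) (nat_lit 70) (nat_lit 5) (nat_lit 74) (nat_lit 5) (nat_lit 71) (nat_lit 5) (nat_lit 352) (nat_lit 293) (nat_lit 135)) (XT.nd (nat_lit 78) (nat_lit 0) (nat_lit 0) (XT.lf (nat_lit 0) (nat_lit 5815346165) (nat_lit 380) (nat_lit 18094534385) (nat_lit 76) (nat_lit 7649183599) (nat_lit 66) (nat_lit 5) (nat_lit 71) (nat_lit 5) (nat_lit 67) (nat_lit 5) (nat_lit 353) (nat_lit 293) (nat_lit 134)) (XT.lf (nat_lit 0) (nat_lit 11127166059) (nat_lit 380) (nat_lit 3849581222) (nat_lit 76) (nat_lit 17236702347) (nat_lit 66)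 (nat_lit 5) (nat_lit 71) (nat_lit 5) (nat_lit 67) (nat_lit 5) (nat_lit 354) (nat_lit 293) (nat_lit 133))))) (XT.nd (nat_lit 234) (nat_lit 304) (nat_lit 0) (XT.nd (nat_lit 78) (nat_lit 228) (nat_lit 0) (XT.lf (nat_lit 0) (nat_lit 11030496656) (nat_lit 228) (nat_lit 5668890475) (nat_lit 304) (nat_lit 16185052097) (nat_lit 63) (nat_lit 5) (nat_lit 66) (nat_lit 5) (nat_lit 67) (nat_lit 5) (nat_lit 355) (nat_lit 293) (nat_lit 132)) (XT.nd (nat_lit 78) (nat_lit 228) (nat_lit 0) (XT.lf (nat_lit 0) (nat_lit 22510762031) (nat_lit 304) (nat_lit 7184074514) (nat_lit 76) (nat_lit 3878566191) (nat_lit 63) (nat_lit 5) (nat_lit 67) (nat_lit 5) (nat_lit 64) (nat_lit 5) (nat_lit 356) (nat_lit 293) (nat_lit 131)) (XT.lf (nat_lit 0) (nat_lit 8018936732) (nat_lit 228) (nat_lit 20605960674) (nat_lit 304) (nat_lit 5654288893) (nat_lit 60) (nat_lit 5) (nat_lit 63) (nat_lit 5) (nat_lit 64) (nat_lit 5) (nat_lit 357) (nat_lit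 293) (nat_lit 130)))) (XT.nd (nat_lit 156) (nat_lit 0) (nat_lit 0) (XT.nd (nat_lit 78) (nat_lit 304) (nat_lit 0) (XT.lf (nat_lit 0) (nat_lit 23818072842) (nat_lit 228) (nat_lit 11172207777) (nat_lit 304) (nat_lit 13831654) (nat_lit 60) (nat_lit 5) (nat_lit 63) (nat_lit 5) (nat_lit 64) (nat_lit 5) (nat_lit 358) (nat_lit 293) (nat_lit 129)) (XT.lf (nat_lit 0) (nat_lit 4362698898) (nat_lit 228) (nat_lit 1357347029) (nat_lit 304) (nat_lit 30027952982) (nat_lit 56) (nat_lit 5) (nat_lit 59) (nat_lit 5) (nat_lit 60) (nat_lit 5) (nat_lit 359) (nat_lit 293) (nat_lit 128))) (XT.nd (nat_lit 78) (nat_lit 0) (nat_lit 0) (XT.lf (nat_lit 0) (nat_lit 11819277204) (nat_lit 304) (nat_lit 15996159307) (nat_lit 76) (nat_lit 8692956375) (nat_lit 56) (nat_lit 5) (nat_lit 60) (nat_lit 5) (nat_lit 57) (nat_lit 5) (nat_lit 360) (nat_lit 293) (nat_lit 127)) (XT.lf (nat_lit 0) (nat_lit 18110468895) (nat_lit 304) (nat_lit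 165738383) (nat_lit 76) (nat_lit 19015125114) (nat_lit 56) (nat_lit 5) (nat_lit 60) (nat_lit 5) (nat_lit 57) (nat_lit 5) (nat_lit 361) (nat_lit 293) (nat_lit 126)))))) (XT.nd (nat_lit 468) (nat_lit 608) (nat_lit 0) (XT.nd (nat_lit 234) (nat_lit 304) (nat_lit 0) (XT.nd (nat_lit 78) (nat_lit 152) (nat_lit 0) (XT.lf (nat_lit 0) (nat_lit 16453918022) (nat_lit 228) (nat_lit 8290317611) (nat_lit 304) (nat_lit 13348912391) (nat_lit 53) (nat_lit 5) (nat_lit 56) (nat_lit 5) (nat_lit 57) (nat_lit 5) (nat_lit 362) (nat_lit 293) (nat_lit 125)) (XT.nd (nat_lit 78) (nat_lit 152) (nat_lit 0) (XT.lf (nat_lit 0) (nat_lit 31593596780) (nat_lit 304) (nat_lit 5369395304) (nat_lit 76) (nat_lit 1955531626) (nat_lit 53) (nat_lit 5) (nat_lit 57) (nat_lit 5) (nat_lit 54) (nat_lit 5) (nat_lit 363) (nat_lit 293) (nat_lit 124)) (XT.lf (nat_lit 0) (nat_lit 11524745431) (nat_lit 152) (nat_lit 27312396074) (nat_lit 228) (nat_lit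 925861022) (nat_lit 51) (nat_lit 5) (nat_lit 53) (nat_lit 5) (nat_lit 54) (nat_lit 5) (nat_lit 364) (nat_lit 293) (nat_lit 123)))) (XT.nd (nat_lit 78) (nat_lit 228) (nat_lit 0) (XT.lf (nat_lit 0) (nat_lit 5605238568) (nat_lit 228) (nat_lit 11657021942) (nat_lit 76) (nat_lit 23367405965) (nat_lit 50) (nat_lit 5) (nat_lit 53) (nat_lit 5) (nat_lit 51) (nat_lit 5) (nat_lit 365) (nat_lit 293) (nat_lit 122)) (XT.nd (nat_lit 78) (nat_lit 0) (nat_lit 0) (XT.lf (nat_lit 0) (nat_lit 5513650632) (nat_lit 228) (nat_lit 6848985518) (nat_lit 304) (nat_lit 29157952658) (nat_lit 47) (nat_lit 5) (nat_lit 50) (nat_lit 5) (nat_lit 51) (nat_lit 5) (nat_lit 366) (nat_lit 293) (nat_lit 121)) (XT.lf (nat_lit 0) (nat_lit 19474905765) (nat_lit 304) (nat_lit 19041196732) (nat_lit 76) (nat_lit 3917574423) (nat_lit 47) (nat_lit 5) (nat_lit 51) (nat_lit 5) (nat_lit 48) (nat_lit 5) (nat_lit 367) (nat_lit 293) (nat_lit 120)))))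 (XT.nd (nat_lit 234) (nat_lit 456) (nat_lit 0) (XT.nd (nat_lit 78) (nat_lit 152) (nat_lit 0) (XT.lf (nat_lit 0) (nat_lit 26864477993) (nat_lit 304) (nat_lit 1640566287) (nat_lit 76) (nat_lit 14867197896) (nat_lit 47) (nat_lit 5) (nat_lit 51) (nat_lit 5) (nat_lit 48) (nat_lit 5) (nat_lit 368) (nat_lit 293) (nat_lit 119)) (XT.nd (nat_lit 78) (nat_lit 0) (nat_lit 0) (XT.lf (nat_lit 0) (nat_lit 16599918431) (nat_lit 152) (nat_lit 18031623243) (nat_lit 228) (nat_lit 9702751051) (nat_lit 45) (nat_lit 5) (nat_lit 47) (nat_lit 5) (nat_lit 48) (nat_lit 5) (nat_lit 369) (nat_lit 293) (nat_lit 118)) (XT.lf (nat_lit 0) (nat_lit 35415218547) (nat_lit 152) (nat_lit 7229252620) (nat_lit 228) (nat_lit 2680350396) (nat_lit 45) (nat_lit 5) (nat_lit 47) (nat_lit 5) (nat_lit 48) (nat_lit 5) (nat_lit 370) (nat_lit 293) (nat_lit 117)))) (XT.nd (nat_lit 156) (nat_lit 152) (nat_lit 0) (XT.nd (nat_lit 78) (nat_lit 0)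 (nat_lit 0) (XT.lf (nat_lit 0) (nat_lit 4581283822) (nat_lit 304) (nat_lit 37812682726) (nat_lit 76) (nat_lit 3946267021) (nat_lit 41) (nat_lit 5) (nat_lit 45) (nat_lit 5) (nat_lit 42) (nat_lit 5) (nat_lit 371) (nat_lit 293) (nat_lit 116)) (XT.lf (nat_lit 0) (nat_lit 12175915106) (nat_lit 304) (nat_lit 19767213333) (nat_lit 76) (nat_lit 15437114927) (nat_lit 41) (nat_lit 5) (nat_lit 45) (nat_lit 5) (nat_lit 42) (nat_lit 5) (nat_lit 372) (nat_lit 293) (nat_lit 115))) (XT.nd (nat_lit 78) (nat_lit 152) (nat_lit 0) (XT.lf (nat_lit 0) (nat_lit 19994875949) (nat_lit 304) (nat_lit 1186164560) (nat_lit 76) (nat_lit 27270520354) (nat_lit 41) (nat_lit 5) (nat_lit 45) (nat_lit 5) (nat_lit 42) (nat_lit 5) (nat_lit 373) (nat_lit 293) (nat_lit 114)) (XT.lf (nat_lit 0) (nat_lit 18303873969) (nat_lit 152) (nat_lit 9917072518) (nat_lit 228) (nat_lit 21328897234) (nat_lit 39) (nat_lit 5) (nat_lit 41) (nat_lit 5)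 (nat_lit 42) (nat_lit 5) (nat_lit 374) (nat_lit 293) (nat_lit 113))))))) (XT.nd (nat_lit 1014) (nat_lit 380) (nat_lit 0) (XT.nd (nat_lit 468) (nat_lit 532) (nat_lit 0) (XT.nd (nat_lit 234) (nat_lit 152) (nat_lit 0) (XT.nd (nat_lit 78) (nat_lit 228) (nat_lit 0) (XT.lf (nat_lit 0) (nat_lit 36718708612) (nat_lit 228) (nat_lit 12299743776) (nat_lit 76) (nat_lit 1661877396) (nat_lit 39) (nat_lit 5) (nat_lit 42) (nat_lit 5) (nat_lit 40) (nat_lit 5) (nat_lit 375) (nat_lit 293) (nat_lit 112)) (XT.nd (nat_lit 78) (nat_lit 76) (nat_lit 0) (XT.lf (nat_lit 0) (nat_lit 7252728499) (nat_lit 152) (nat_lit 38383297591) (nat_lit 228) (nat_lit 6203767607) (nat_lit 37) (nat_lit 5) (nat_lit 39) (nat_lit 5) (nat_lit 40) (nat_lit 5) (nat_lit 376) (nat_lit 293) (nat_lit 111)) (XT.lf (nat_lit 0) (nat_lit 1874112830) (nat_lit 228) (nat_lit 25410305343) (nat_lit 76) (nat_lit 25745445150) (nat_lit 36) (nat_lit 5) (nat_lit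 39) (nat_lit 5) (nat_lit 37) (nat_lit 5) (nat_lit 377) (nat_lit 293) (nat_lit 110)))) (XT.nd (nat_lit 78) (nat_lit 152) (nat_lit 0) (XT.lf (nat_lit 0) (nat_lit 10066461029) (nat_lit 228) (nat_lit 5724997966) (nat_lit 76) (nat_lit 38462430491) (nat_lit 36) (nat_lit 5) (nat_lit 39) (nat_lit 5) (nat_lit 37) (nat_lit 5) (nat_lit 378) (nat_lit 293) (nat_lit 109)) (XT.nd (nat_lit 78) (nat_lit 0) (nat_lit 0) (XT.lf (nat_lit 0) (nat_lit 14835179889) (nat_lit 152) (nat_lit 3808918136) (nat_lit 228) (nat_lit 36866354586) (nat_lit 34) (nat_lit 5) (nat_lit 36) (nat_lit 5) (nat_lit 37) (nat_lit 5) (nat_lit 379) (nat_lit 293) (nat_lit 108)) (XT.lf (nat_lit 0) (nat_lit 27616407299) (nat_lit 228) (nat_lit 20761254967) (nat_lit 76) (nat_lit 8422931744) (nat_lit 34) (nat_lit 5) (nat_lit 37) (nat_lit 5) (nat_lit 35) (nat_lit 5) (nat_lit 380) (nat_lit 293) (nat_lit 107))))) (XT.nd (nat_lit 234) (nat_lit 380) (nat_lit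 0) (XT.nd (nat_lit 78) (nat_lit 152) (nat_lit 0) (XT.lf (nat_lit 0) (nat_lit 36892621367) (nat_lit 228) (nat_lit 292576162) (nat_lit 76) (nat_lit 20943201686) (nat_lit 34) (nat_lit 5) (nat_lit 37) (nat_lit 5) (nat_lit 35) (nat_lit 5) (nat_lit 381) (nat_lit 293) (nat_lit 106)) (XT.nd (nat_lit 78) (nat_lit 0) (nat_lit 0) (XT.lf (nat_lit 0) (nat_lit 21198930077) (nat_lit 152) (nat_lit 25449079015) (nat_lit 228) (nat_lit 12842004448) (nat_lit 32) (nat_lit 5) (nat_lit 34) (nat_lit 5) (nat_lit 35) (nat_lit 5) (nat_lit 382) (nat_lit 293) (nat_lit 105)) (XT.lf (nat_lit 0) (nat_lit 43336326661) (nat_lit 152) (nat_lit 13359833909) (nat_lit 228) (nat_lit 4196314195) (nat_lit 32) (nat_lit 5) (nat_lit 34) (nat_lit 5) (nat_lit 35) (nat_lit 5) (nat_lit 383) (nat_lit 293) (nat_lit 104)))) (XT.nd (nat_lit 156) (nat_lit 152) (nat_lit 0) (XT.nd (nat_lit 78) (nat_lit 0) (nat_lit 0) (XT.lf (nat_lit 0) (nat_lit 3825452138)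 (nat_lit 152) (nat_lit 825384478) (nat_lit 228) (nat_lit 57683797525) (nat_lit 29) (nat_lit 5) (nat_lit 31) (nat_lit 5) (nat_lit 32) (nat_lit 5) (nat_lit 384) (nat_lit 293) (nat_lit 103)) (XT.lf (nat_lit 0) (nat_lit 13971486651) (nat_lit 228) (nat_lit 37770614756) (nat_lit 76) (nat_lit 12067939071) (nat_lit 29) (nat_lit 5) (nat_lit 32) (nat_lit 5) (nat_lit 30) (nat_lit 5) (nat_lit 385) (nat_lit 293) (nat_lit 102))) (XT.nd (nat_lit 78) (nat_lit 152) (nat_lit 0) (XT.lf (nat_lit 0) (nat_lit 23577228459) (nat_lit 228) (nat_lit 16422710046) (nat_lit 76) (nat_lit 25329607695) (nat_lit 29) (nat_lit 5) (nat_lit 32) (nat_lit 5) (nat_lit 30) (nat_lit 5) (nat_lit 386) (nat_lit 293) (nat_lit 101)) (XT.lf (nat_lit 0) (nat_lit 5671796923) (nat_lit 152) (nat_lit 27851245165) (nat_lit 228) (nat_lit 33370039343) (nat_lit 27) (nat_lit 5) (nat_lit 29) (nat_lit 5) (nat_lit 30) (nat_lit 5) (nat_lit 387) (nat_lit 293)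 (nat_lit 100)))))) (XT.nd (nat_lit 546) (nat_lit 76) (nat_lit 0) (XT.nd (nat_lit 234) (nat_lit 228) (nat_lit 0) (XT.nd (nat_lit 78) (nat_lit 76) (nat_lit 0) (XT.lf (nat_lit 0) (nat_lit 28761320723) (nat_lit 152) (nat_lit 15169158757) (nat_lit 228) (nat_lit 24568147044) (nat_lit 27) (nat_lit 5) (nat_lit 29) (nat_lit 5) (nat_lit 30) (nat_lit 5) (nat_lit 388) (nat_lit 293) (nat_lit 99)) (XT.nd (nat_lit 78) (nat_lit 76) (nat_lit 0) (XT.lf (nat_lit 0) (nat_lit 52539192536) (nat_lit 152) (nat_lit 2108435015) (nat_lit 228) (nat_lit 15504787039) (nat_lit 27) (nat_lit 5) (nat_lit 29) (nat_lit 5) (nat_lit 30) (nat_lit 5) (nat_lit 389) (nat_lit 293) (nat_lit 98)) (XT.lf (nat_lit 0) (nat_lit 5161998134) (nat_lit 76) (nat_lit 60680502445) (nat_lit 152) (nat_lit 6008630617) (nat_lit 26) (nat_lit 5) (nat_lit 27) (nat_lit 5) (nat_lit 28) (nat_lit 4) (nat_lit 390) (nat_lit 293) (nat_lit 97)))) (XT.nd (nat_lit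 156) (nat_lit 152) (nat_lit 0) (XT.nd (nat_lit 78) (nat_lit 0) (nat_lit 0) (XT.lf (nat_lit 0) (nat_lit 3896842207) (nat_lit 152) (nat_lit 44677120887) (nat_lit 76) (nat_lit 25019818115) (nat_lit 25) (nat_lit 5) (nat_lit 27) (nat_lit 5) (nat_lit 26) (nat_lit 5) (nat_lit 391) (nat_lit 293) (nat_lit 96)) (XT.lf (nat_lit 0) (nat_lit 13976332511) (nat_lit 152) (nat_lit 22068391951) (nat_lit 76) (nat_lit 39342274003) (nat_lit 25) (nat_lit 5) (nat_lit 27) (nat_lit 5) (nat_lit 26) (nat_lit 5) (nat_lit 392) (nat_lit 293) (nat_lit 95))) (XT.nd (nat_lit 78) (nat_lit 0) (nat_lit 0) (XT.lf (nat_lit 0) (nat_lit 1238739854) (nat_lit 152) (nat_lit 23129065311) (nat_lit 228) (nat_lit 52865920220) (nat_lit 23) (nat_lit 5) (nat_lit 25) (nat_lit 5) (nat_lit 26) (nat_lit 5) (nat_lit 393) (nat_lit 293) (nat_lit 94)) (XT.lf (nat_lit 0) (nat_lit 25693474262) (nat_lit 152) (nat_lit 9598114249) (nat_lit 228) (nat_lit 43837649652)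 (nat_lit 23) (nat_lit 5) (nat_lit 25) (nat_lit 5) (nat_lit 26) (nat_lit 5) (nat_lit 394) (nat_lit 293) (nat_lit 93))))) (XT.nd (nat_lit 32760) (nat_lit 0) (nat_lit 13680) (XT.nd (nat_lit 78) (nat_lit 76) (nat_lit 0) (XT.lf (nat_lit 0) (nat_lit 46582561719) (nat_lit 228) (nat_lit 30245399461) (nat_lit 76) (nat_lit 4252471868) (nat_lit 23) (nat_lit 5) (nat_lit 26) (nat_lit 5) (nat_lit 24) (nat_lit 4) (nat_lit 395) (nat_lit 293) (nat_lit 92)) (XT.nd (nat_lit 78) (nat_lit 76) (nat_lit 0) (XT.lf (nat_lit 0) (nat_lit 58305129417) (nat_lit 228) (nat_lit 6458167517) (nat_lit 76) (nat_lit 18324081873) (nat_lit 23) (nat_lit 5) (nat_lit 26) (nat_lit 5) (nat_lit 24) (nat_lit 4) (nat_lit 396) (nat_lit 293) (nat_lit 91)) (XT.lf (nat_lit 0) (nat_lit 18397990906) (nat_lit 76) (nat_lit 52156133516) (nat_lit 152) (nat_lit 14595166963) (nat_lit 22) (nat_lit 5) (nat_lit 23) (nat_lit 5) (nat_lit 24) (nat_lit 4) (nat_lit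 397) (nat_lit 293) (nat_lit 90)))) (XT.nd (nat_lit 156) (nat_lit 0) (nat_lit 76) (XT.nd (nat_lit 78) (nat_lit 0) (nat_lit 0) (XT.lf (nat_lit 0) (nat_lit 2506882411) (nat_lit 1140) (nat_lit 1629189368) (nat_lit 1140) (nat_lit 1629189368) (nat_lit 202) (nat_lit 3) (nat_lit 217) (nat_lit 3) (nat_lit 217) (nat_lit 5) (nat_lit 294) (nat_lit 294) (nat_lit 192)) (XT.lf (nat_lit 76) (nat_lit 1960299502) (nat_lit 0) (nat_lit 3633688707) (nat_lit 1140) (nat_lit 6093649739) (nat_lit 203) (nat_lit 5) (nat_lit 202) (nat_lit 3) (nat_lit 217) (nat_lit 5) (nat_lit 295) (nat_lit 294) (nat_lit 191))) (XT.nd (nat_lit 78) (nat_lit 0) (nat_lit 0) (XT.lf (nat_lit 0) (nat_lit 6216860828) (nat_lit 1064) (nat_lit 4468136460) (nat_lit 1140) (nat_lit 1163739500) (nat_lit 203) (nat_lit 5) (nat_lit 217) (nat_lit 5) (nat_lit 218) (nat_lit 5) (nat_lit 296) (nat_lit 294) (nat_lit 190)) (XT.lf (nat_lit 76) (nat_lit 920470520)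 (nat_lit 0) (nat_lit 5964344698) (nat_lit 1140) (nat_lit 5129087717) (nat_lit 204) (nat_lit 5) (nat_lit 203) (nat_lit 5) (nat_lit 218) (nat_lit 5) (nat_lit 297) (nat_lit 294) (nat_lit 189))))))))
noncomputable def xc186 : XT := (XT.nd (nat_lit 2028) (nat_lit 5168) (nat_lit 0) (XT.nd (nat_lit 1014) (nat_lit 3724) (nat_lit 0) (XT.nd (nat_lit 468) (nat_lit 912) (nat_lit 0) (XT.nd (nat_lit 234) (nat_lit 0) (nat_lit 152) (XT.nd (nat_lit 78) (nat_lit 0) (nat_lit 76) (XT.lf (nat_lit 76) (nat_lit 6552074010) (nat_lit 0) (nat_lit 1047862216) (nat_lit 1140) (nat_lit 4583299445) (nat_lit 204) (nat_lit 5) (nat_lit 203) (nat_lit 5) (nat_lit 218) (nat_lit 5) (nat_lit 298) (nat_lit 294) (nat_lit 188)) (XT.nd (nat_lit 78) (nat_lit 0) (nat_lit 0) (XT.lf (nat_lit 0) (nat_lit 8357721016) (nat_lit 1064) (nat_lit 54204526) (nat_lit 1140) (nat_lit 3945111245) (nat_lit 204) (nat_lit 5) (nat_lit 218) (nat_lit 5) (nat_lit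 219) (nat_lit 5) (nat_lit 299) (nat_lit 294) (nat_lit 187)) (XT.lf (nat_lit 76) (nat_lit 5782250648) (nat_lit 0) (nat_lit 3405057562) (nat_lit 1140) (nat_lit 3347295646) (nat_lit 205) (nat_lit 5) (nat_lit 204) (nat_lit 5) (nat_lit 219) (nat_lit 5) (nat_lit 300) (nat_lit 294) (nat_lit 186)))) (XT.nd (nat_lit 78) (nat_lit 0) (nat_lit 0) (XT.lf (nat_lit 0) (nat_lit 10042743687) (nat_lit 1064) (nat_lit 950164375) (nat_lit 1140) (nat_lit 1724584339) (nat_lit 205) (nat_lit 5) (nat_lit 219) (nat_lit 5) (nat_lit 220) (nat_lit 5) (nat_lit 301) (nat_lit 294) (nat_lit 185)) (XT.nd (nat_lit 78) (nat_lit 0) (nat_lit 0) (XT.lf (nat_lit 76) (nat_lit 5081093524) (nat_lit 0) (nat_lit 5909349807) (nat_lit 1140) (nat_lit 1913448847) (nat_lit 206) (nat_lit 5) (nat_lit 205) (nat_lit 5) (nat_lit 220) (nat_lit 5) (nat_lit 302) (nat_lit 294) (nat_lit 184)) (XT.lf (nat_lit 76) (nat_lit 11302435294) (nat_lit 0) (nat_lit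 658143944) (nat_lit 1140) (nat_lit 1135506499) (nat_lit 206) (nat_lit 5) (nat_lit 205) (nat_lit 5) (nat_lit 220) (nat_lit 5) (nat_lit 303) (nat_lit 294) (nat_lit 183))))) (XT.nd (nat_lit 234) (nat_lit 0) (nat_lit 76) (XT.nd (nat_lit 78) (nat_lit 1140) (nat_lit 0) (XT.lf (nat_lit 76) (nat_lit 4446927287) (nat_lit 0) (nat_lit 8586217789) (nat_lit 1140) (nat_lit 258721560) (nat_lit 207) (nat_lit 5) (nat_lit 206) (nat_lit 5) (nat_lit 221) (nat_lit 5) (nat_lit 304) (nat_lit 294) (nat_lit 182)) (XT.nd (nat_lit 78) (nat_lit 0) (nat_lit 76) (XT.lf (nat_lit 0) (nat_lit 641687225) (nat_lit 1140) (nat_lit 2605145082) (nat_lit 1216) (nat_lit 10246226096) (nat_lit 191) (nat_lit 5) (nat_lit 206) (nat_lit 5) (nat_lit 207) (nat_lit 5) (nat_lit 305) (nat_lit 294) (nat_lit 181)) (XT.lf (nat_lit 0) (nat_lit 1608858739) (nat_lit 1140) (nat_lit 9837001230) (nat_lit 1216) (nat_lit 2253020090) (nat_lit 192) (nat_lit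 5) (nat_lit 207) (nat_lit 5) (nat_lit 208) (nat_lit 5) (nat_lit 306) (nat_lit 294) (nat_lit 180)))) (XT.nd (nat_lit 156) (nat_lit 0) (nat_lit 76) (XT.nd (nat_lit 78) (nat_lit 0) (nat_lit 0) (XT.lf (nat_lit 0) (nat_lit 2649639008) (nat_lit 1140) (nat_lit 3377010445) (nat_lit 1216) (nat_lit 7882908036) (nat_lit 192) (nat_lit 5) (nat_lit 207) (nat_lit 5) (nat_lit 208) (nat_lit 5) (nat_lit 307) (nat_lit 294) (nat_lit 179)) (XT.lf (nat_lit 76) (nat_lit 3331268262) (nat_lit 0) (nat_lit 408687324) (nat_lit 1216) (nat_lit 10386068652) (nat_lit 193) (nat_lit 5) (nat_lit 192) (nat_lit 5) (nat_lit 208) (nat_lit 5) (nat_lit 308) (nat_lit 294) (nat_lit 178))) (XT.nd (nat_lit 78) (nat_lit 0) (nat_lit 0) (XT.lf (nat_lit 0) (nat_lit 4935734028) (nat_lit 1140) (nat_lit 4100836376) (nat_lit 1216) (nat_lit 5310249859) (nat_lit 193) (nat_lit 5) (nat_lit 208) (nat_lit 5) (nat_lit 209) (nat_lit 5) (nat_lit 309) (nat_lit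 294) (nat_lit 177)) (XT.lf (nat_lit 76) (nat_lit 2834621784) (nat_lit 0) (nat_lit 3351067025) (nat_lit 1216) (nat_lit 8388019597) (nat_lit 194) (nat_lit 5) (nat_lit 193) (nat_lit 5) (nat_lit 209) (nat_lit 5) (nat_lit 310) (nat_lit 294) (nat_lit 176)))))) (XT.nd (nat_lit 468) (nat_lit 1596) (nat_lit 0) (XT.nd (nat_lit 234) (nat_lit 1216) (nat_lit 0) (XT.nd (nat_lit 78) (nat_lit 1140) (nat_lit 0) (XT.lf (nat_lit 0) (nat_lit 7526350548) (nat_lit 1140) (nat_lit 4779306636) (nat_lit 76) (nat_lit 2500166584) (nat_lit 194) (nat_lit 5) (nat_lit 209) (nat_lit 5) (nat_lit 195) (nat_lit 5) (nat_lit 311) (nat_lit 294) (nat_lit 175)) (XT.nd (nat_lit 78) (nat_lit 0) (nat_lit 0) (XT.lf (nat_lit 0) (nat_lit 2392222179) (nat_lit 1140) (nat_lit 6558862299) (nat_lit 1216) (nat_lit 6092518871) (nat_lit 179) (nat_lit 5) (nat_lit 194) (nat_lit 5) (nat_lit 195) (nat_lit 5) (nat_lit 312) (nat_lit 294) (nat_lit 174))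 (XT.lf (nat_lit 0) (nat_lit 9866424796) (nat_lit 1140) (nat_lit 588333723) (nat_lit 1216) (nat_lit 4832687714) (nat_lit 179) (nat_lit 5) (nat_lit 194) (nat_lit 5) (nat_lit 195) (nat_lit 5) (nat_lit 313) (nat_lit 294) (nat_lit 173)))) (XT.nd (nat_lit 78) (nat_lit 608) (nat_lit 0) (XT.lf (nat_lit 0) (nat_lit 2001322501) (nat_lit 608) (nat_lit 10063219890) (nat_lit 684) (nat_lit 3472247419) (nat_lit 171) (nat_lit 5) (nat_lit 179) (nat_lit 5) (nat_lit 180) (nat_lit 5) (nat_lit 314) (nat_lit 294) (nat_lit 172)) (XT.nd (nat_lit 78) (nat_lit 608) (nat_lit 0) (XT.lf (nat_lit 0) (nat_lit 9741103637) (nat_lit 608) (nat_lit 4030569308) (nat_lit 684) (nat_lit 2020484099) (nat_lit 171) (nat_lit 5) (nat_lit 179) (nat_lit 5) (nat_lit 180) (nat_lit 5) (nat_lit 315) (nat_lit 294) (nat_lit 171)) (XT.lf (nat_lit 0) (nat_lit 1658805066) (nat_lit 608) (nat_lit 13897029596) (nat_lit 684) (nat_lit 498590627) (nat_lit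 163) (nat_lit 5) (nat_lit 171) (nat_lit 5) (nat_lit 172) (nat_lit 5) (nat_lit 316) (nat_lit 294) (nat_lit 170))))) (XT.nd (nat_lit 234) (nat_lit 988) (nat_lit 0) (XT.nd (nat_lit 78) (nat_lit 532) (nat_lit 0) (XT.lf (nat_lit 0) (nat_lit 1138705044) (nat_lit 684) (nat_lit 6660117955) (nat_lit 76) (nat_lit 8522725856) (nat_lit 162) (nat_lit 5) (nat_lit 171) (nat_lit 5) (nat_lit 163) (nat_lit 5) (nat_lit 317) (nat_lit 294) (nat_lit 169)) (XT.nd (nat_lit 78) (nat_lit 0) (nat_lit 0) (XT.lf (nat_lit 0) (nat_lit 1317937010) (nat_lit 532) (nat_lit 1499140175) (nat_lit 608) (nat_lit 13779414761) (nat_lit 155) (nat_lit 5) (nat_lit 162) (nat_lit 5) (nat_lit 163) (nat_lit 5) (nat_lit 318) (nat_lit 294) (nat_lit 168)) (XT.lf (nat_lit 0) (nat_lit 4651209025) (nat_lit 608) (nat_lit 7264957057) (nat_lit 76) (nat_lit 4960367886) (nat_lit 155) (nat_lit 5) (nat_lit 163) (nat_lit 5) (nat_lit 156) (nat_lit 5) (nat_lit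 319) (nat_lit 294) (nat_lit 167)))) (XT.nd (nat_lit 156) (nat_lit 456) (nat_lit 0) (XT.nd (nat_lit 78) (nat_lit 0) (nat_lit 0) (XT.lf (nat_lit 0) (nat_lit 983175020) (nat_lit 532) (nat_lit 5571314791) (nat_lit 608) (nat_lit 10610076207) (nat_lit 148) (nat_lit 5) (nat_lit 155) (nat_lit 5) (nat_lit 156) (nat_lit 5) (nat_lit 320) (nat_lit 294) (nat_lit 166)) (XT.lf (nat_lit 0) (nat_lit 8588251298) (nat_lit 608) (nat_lit 7851780138) (nat_lit 76) (nat_lit 1019018277) (nat_lit 148) (nat_lit 5) (nat_lit 156) (nat_lit 5) (nat_lit 149) (nat_lit 5) (nat_lit 321) (nat_lit 294) (nat_lit 165))) (XT.nd (nat_lit 78) (nat_lit 0) (nat_lit 0) (XT.lf (nat_lit 0) (nat_lit 675619199) (nat_lit 456) (nat_lit 10059381531) (nat_lit 532) (nat_lit 7025819734) (nat_lit 142) (nat_lit 5) (nat_lit 148) (nat_lit 5) (nat_lit 149) (nat_lit 5) (nat_lit 322) (nat_lit 294) (nat_lit 164)) (XT.lf (nat_lit 0) (nat_lit 9609771468) (nat_lit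 456) (nat_lit 3406173486) (nat_lit 532) (nat_lit 5053617069) (nat_lit 142) (nat_lit 5) (nat_lit 148) (nat_lit 5) (nat_lit 149) (nat_lit 5) (nat_lit 323) (nat_lit 294) (nat_lit 163))))))) (XT.nd (nat_lit 1014) (nat_lit 2432) (nat_lit 0) (XT.nd (nat_lit 468) (nat_lit 1216) (nat_lit 0) (XT.nd (nat_lit 234) (nat_lit 456) (nat_lit 0) (XT.nd (nat_lit 78) (nat_lit 532) (nat_lit 0) (XT.lf (nat_lit 0) (nat_lit 388825052) (nat_lit 532) (nat_lit 15004137565) (nat_lit 608) (nat_lit 2993784980) (nat_lit 135) (nat_lit 5) (nat_lit 142) (nat_lit 5) (nat_lit 143) (nat_lit 5) (nat_lit 324) (nat_lit 294) (nat_lit 162)) (XT.nd (nat_lit 78) (nat_lit 532) (nat_lit 0) (XT.lf (nat_lit 0) (nat_lit 9632005367) (nat_lit 532) (nat_lit 8319056297) (nat_lit 608) (nat_lit 759104747) (nat_lit 135) (nat_lit 5) (nat_lit 142) (nat_lit 5) (nat_lit 143) (nat_lit 5) (nat_lit 325) (nat_lit 294) (nat_lit 161)) (XT.lf (nat_lit 0) (nat_lit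 86233778) (nat_lit 456) (nat_lit 1418225079) (nat_lit 532) (nat_lit 17538635903) (nat_lit 128) (nat_lit 5) (nat_lit 134) (nat_lit 5) (nat_lit 135) (nat_lit 5) (nat_lit 326) (nat_lit 294) (nat_lit 160)))) (XT.nd (nat_lit 78) (nat_lit 456) (nat_lit 0) (XT.lf (nat_lit 0) (nat_lit 3959215367) (nat_lit 532) (nat_lit 9744702019) (nat_lit 76) (nat_lit 5677721680) (nat_lit 128) (nat_lit 5) (nat_lit 135) (nat_lit 5) (nat_lit 129) (nat_lit 5) (nat_lit 327) (nat_lit 294) (nat_lit 159)) (XT.nd (nat_lit 78) (nat_lit 456) (nat_lit 0) (XT.lf (nat_lit 0) (nat_lit 6493182395) (nat_lit 532) (nat_lit 279908773) (nat_lit 76) (nat_lit 12957091093) (nat_lit 128) (nat_lit 5) (nat_lit 135) (nat_lit 5) (nat_lit 129) (nat_lit 5) (nat_lit 328) (nat_lit 294) (nat_lit 158)) (XT.lf (nat_lit 0) (nat_lit 9192102492) (nat_lit 532) (nat_lit 10443394668) (nat_lit 76) (nat_lit 451025883) (nat_lit 122) (nat_lit 5) (nat_lit 129) (nat_lit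 5) (nat_lit 123) (nat_lit 5) (nat_lit 329) (nat_lit 294) (nat_lit 157))))) (XT.nd (nat_lit 234) (nat_lit 836) (nat_lit 0) (XT.nd (nat_lit 78) (nat_lit 380) (nat_lit 0) (XT.lf (nat_lit 0) (nat_lit 12033816021) (nat_lit 532) (nat_lit 660516755) (nat_lit 76) (nat_lit 7757375540) (nat_lit 122) (nat_lit 5) (nat_lit 129) (nat_lit 5) (nat_lit 123) (nat_lit 5) (nat_lit 330) (nat_lit 294) (nat_lit 156)) (XT.nd (nat_lit 78) (nat_lit 0) (nat_lit 0) (XT.lf (nat_lit 0) (nat_lit 9593781282) (nat_lit 380) (nat_lit 5451367577) (nat_lit 456) (nat_lit 5780178031) (nat_lit 117) (nat_lit 5) (nat_lit 122) (nat_lit 5) (nat_lit 123) (nat_lit 5) (nat_lit 331) (nat_lit 294) (nat_lit 155)) (XT.lf (nat_lit 0) (nat_lit 18165141208) (nat_lit 456) (nat_lit 1069492671) (nat_lit 76) (nat_lit 1974979079) (nat_lit 117) (nat_lit 5) (nat_lit 123) (nat_lit 5) (nat_lit 118) (nat_lit 5) (nat_lit 332) (nat_lit 294) (nat_lit 154))))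 (XT.nd (nat_lit 156) (nat_lit 380) (nat_lit 0) (XT.nd (nat_lit 78) (nat_lit 76) (nat_lit 0) (XT.lf (nat_lit 0) (nat_lit 9520082839) (nat_lit 380) (nat_lit 11996635261) (nat_lit 456) (nat_lit 84578242) (nat_lit 112) (nat_lit 5) (nat_lit 117) (nat_lit 5) (nat_lit 118) (nat_lit 5) (nat_lit 333) (nat_lit 294) (nat_lit 153)) (XT.lf (nat_lit 0) (nat_lit 2909726943) (nat_lit 456) (nat_lit 1592939564) (nat_lit 76) (nat_lit 17501113071) (nat_lit 111) (nat_lit 5) (nat_lit 117) (nat_lit 5) (nat_lit 112) (nat_lit 5) (nat_lit 334) (nat_lit 294) (nat_lit 152))) (XT.nd (nat_lit 78) (nat_lit 0) (nat_lit 0) (XT.lf (nat_lit 0) (nat_lit 6106925508) (nat_lit 456) (nat_lit 13064318429) (nat_lit 76) (nat_lit 3243632902) (nat_lit 106) (nat_lit 5) (nat_lit 112) (nat_lit 5) (nat_lit 107) (nat_lit 5) (nat_lit 335) (nat_lit 294) (nat_lit 151)) (XT.lf (nat_lit 0) (nat_lit 9453740365) (nat_lit 456) (nat_lit 2236600521) (nat_lit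 76) (nat_lit 11146362473) (nat_lit 106) (nat_lit 5) (nat_lit 112) (nat_lit 5) (nat_lit 107) (nat_lit 5) (nat_lit 336) (nat_lit 294) (nat_lit 150)))))) (XT.nd (nat_lit 546) (nat_lit 988) (nat_lit 0) (XT.nd (nat_lit 234) (nat_lit 760) (nat_lit 0) (XT.nd (nat_lit 78) (nat_lit 304) (nat_lit 0) (XT.lf (nat_lit 0) (nat_lit 9084431547) (nat_lit 380) (nat_lit 3896935418) (nat_lit 456) (nat_lit 10287412630) (nat_lit 101) (nat_lit 5) (nat_lit 106) (nat_lit 5) (nat_lit 107) (nat_lit 5) (nat_lit 337) (nat_lit 294) (nat_lit 149)) (XT.nd (nat_lit 78) (nat_lit 304) (nat_lit 0) (XT.lf (nat_lit 0) (nat_lit 16670515721) (nat_lit 456) (nat_lit 2971018041) (nat_lit 76) (nat_lit 4070620485) (nat_lit 101) (nat_lit 5) (nat_lit 107) (nat_lit 5) (nat_lit 102) (nat_lit 5) (nat_lit 338) (nat_lit 294) (nat_lit 148)) (XT.lf (nat_lit 0) (nat_lit 8701286982) (nat_lit 304) (nat_lit 11884657916) (nat_lit 380) (nat_lit 3579423791)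 (nat_lit 97) (nat_lit 5) (nat_lit 101) (nat_lit 5) (nat_lit 102) (nat_lit 5) (nat_lit 339) (nat_lit 294) (nat_lit 147)))) (XT.nd (nat_lit 156) (nat_lit 304) (nat_lit 0) (XT.nd (nat_lit 78) (nat_lit 380) (nat_lit 0) (XT.lf (nat_lit 0) (nat_lit 10636361) (nat_lit 380) (nat_lit 3855471647) (nat_lit 76) (nat_lit 20765370187) (nat_lit 96) (nat_lit 5) (nat_lit 101) (nat_lit 5) (nat_lit 97) (nat_lit 5) (nat_lit 340) (nat_lit 294) (nat_lit 146)) (XT.lf (nat_lit 0) (nat_lit 3752404061) (nat_lit 456) (nat_lit 16933794328) (nat_lit 76) (nat_lit 4420837101) (nat_lit 91) (nat_lit 5) (nat_lit 97) (nat_lit 5) (nat_lit 92) (nat_lit 5) (nat_lit 341) (nat_lit 294) (nat_lit 145))) (XT.nd (nat_lit 78) (nat_lit 304) (nat_lit 0) (XT.lf (nat_lit 0) (nat_lit 7677718918) (nat_lit 456) (nat_lit 5001032838) (nat_lit 76) (nat_lit 12915974903) (nat_lit 91) (nat_lit 5) (nat_lit 97) (nat_lit 5) (nat_lit 92) (nat_lit 5) (nat_lit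 342) (nat_lit 294) (nat_lit 144)) (XT.lf (nat_lit 0) (nat_lit 7426348347) (nat_lit 304) (nat_lit 4359712690) (nat_lit 380) (nat_lit 14309035295) (nat_lit 87) (nat_lit 5) (nat_lit 91) (nat_lit 5) (nat_lit 92) (nat_lit 5) (nat_lit 343) (nat_lit 294) (nat_lit 143))))) (XT.nd (nat_lit 234) (nat_lit 684) (nat_lit 0) (XT.nd (nat_lit 78) (nat_lit 304) (nat_lit 0) (XT.lf (nat_lit 0) (nat_lit 16103072260) (nat_lit 380) (nat_lit 6329215424) (nat_lit 76) (nat_lit 4175632482) (nat_lit 87) (nat_lit 5) (nat_lit 92) (nat_lit 5) (nat_lit 88) (nat_lit 5) (nat_lit 344) (nat_lit 294) (nat_lit 142)) (XT.nd (nat_lit 78) (nat_lit 0) (nat_lit 0) (XT.lf (nat_lit 0) (nat_lit 6455182986) (nat_lit 304) (nat_lit 14193763111) (nat_lit 380) (nat_lit 6484207520) (nat_lit 83) (nat_lit 5) (nat_lit 87) (nat_lit 5) (nat_lit 88) (nat_lit 5) (nat_lit 345) (nat_lit 294) (nat_lit 141)) (XT.lf (nat_lit 0) (nat_lit 19744817128) (nat_lit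 304) (nat_lit 5644520858) (nat_lit 380) (nat_lit 2283067142) (nat_lit 83) (nat_lit 5) (nat_lit 87) (nat_lit 5) (nat_lit 88) (nat_lit 5) (nat_lit 346) (nat_lit 294) (nat_lit 140)))) (XT.nd (nat_lit 156) (nat_lit 304) (nat_lit 0) (XT.nd (nat_lit 78) (nat_lit 0) (nat_lit 0) (XT.lf (nat_lit 0) (nat_lit 2080381174) (nat_lit 380) (nat_lit 22976178092) (nat_lit 76) (nat_lit 3168405600) (nat_lit 78) (nat_lit 5) (nat_lit 83) (nat_lit 5) (nat_lit 79) (nat_lit 5) (nat_lit 347) (nat_lit 294) (nat_lit 139)) (XT.lf (nat_lit 0) (nat_lit 6659982029) (nat_lit 380) (nat_lit 9896017879) (nat_lit 76) (nat_lit 12233494116) (nat_lit 78) (nat_lit 5) (nat_lit 83) (nat_lit 5) (nat_lit 79) (nat_lit 5) (nat_lit 348) (nat_lit 294) (nat_lit 138))) (XT.nd (nat_lit 78) (nat_lit 0) (nat_lit 0) (XT.lf (nat_lit 0) (nat_lit 3639810748) (nat_lit 304) (nat_lit 7766715659) (nat_lit 380) (nat_lit 17963550703) (nat_lit 74) (nat_lit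 5) (nat_lit 78) (nat_lit 5) (nat_lit 79) (nat_lit 5) (nat_lit 349) (nat_lit 294) (nat_lit 137)) (XT.lf (nat_lit 0) (nat_lit 16403380384) (nat_lit 380) (nat_lit 12201689149) (nat_lit 76) (nat_lit 1359775340) (nat_lit 74) (nat_lit 5) (nat_lit 79) (nat_lit 5) (nat_lit 75) (nat_lit 5) (nat_lit 350) (nat_lit 294) (nat_lit 136))))))))
noncomputable def xc187 : XT := (XT.nd (nat_lit 2106) (nat_lit 1064) (nat_lit 0) (XT.nd (nat_lit 1014) (nat_lit 1216) (nat_lit 0) (XT.nd (nat_lit 468) (nat_lit 760) (nat_lit 0) (XT.nd (nat_lit 234) (nat_lit 532) (nat_lit 0) (XT.nd (nat_lit 78) (nat_lit 76) (nat_lit 0) (XT.lf (nat_lit 0) (nat_lit 1681049898) (nat_lit 228) (nat_lit 19956933250) (nat_lit 304) (nat_lit 8936841675) (nat_lit 71) (nat_lit 5) (nat_lit 74) (nat_lit 5) (nat_lit 75) (nat_lit 5) (nat_lit 351) (nat_lit 294) (nat_lit 135)) (XT.nd (nat_lit 78) (nat_lit 76) (nat_lit 0) (XT.lf (nat_lit 0) (nat_lit 16222867653)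 (nat_lit 228) (nat_lit 10924834718) (nat_lit 304) (nat_lit 4051863767) (nat_lit 71) (nat_lit 5) (nat_lit 74) (nat_lit 5) (nat_lit 75) (nat_lit 5) (nat_lit 352) (nat_lit 294) (nat_lit 134)) (XT.lf (nat_lit 0) (nat_lit 955508041) (nat_lit 304) (nat_lit 658938151) (nat_lit 76) (nat_lit 30228476218) (nat_lit 70) (nat_lit 5) (nat_lit 74) (nat_lit 5) (nat_lit 71) (nat_lit 5) (nat_lit 353) (nat_lit 294) (nat_lit 133)))) (XT.nd (nat_lit 78) (nat_lit 228) (nat_lit 0) (XT.lf (nat_lit 0) (nat_lit 6242828938) (nat_lit 380) (nat_lit 18258311472) (nat_lit 76) (nat_lit 7996904397) (nat_lit 66) (nat_lit 5) (nat_lit 71) (nat_lit 5) (nat_lit 67) (nat_lit 5) (nat_lit 354) (nat_lit 294) (nat_lit 132)) (XT.nd (nat_lit 78) (nat_lit 228) (nat_lit 0) (XT.lf (nat_lit 0) (nat_lit 11706633845) (nat_lit 380) (nat_lit 3597050266) (nat_lit 76) (nat_lit 17868604671) (nat_lit 66) (nat_lit 5) (nat_lit 71) (nat_lit 5) (nat_lit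 67) (nat_lit 5) (nat_lit 355) (nat_lit 294) (nat_lit 131)) (XT.lf (nat_lit 0) (nat_lit 11725821925) (nat_lit 228) (nat_lit 5716547623) (nat_lit 304) (nat_lit 16421153753) (nat_lit 63) (nat_lit 5) (nat_lit 66) (nat_lit 5) (nat_lit 67) (nat_lit 5) (nat_lit 356) (nat_lit 294) (nat_lit 130))))) (XT.nd (nat_lit 234) (nat_lit 456) (nat_lit 0) (XT.nd (nat_lit 78) (nat_lit 304) (nat_lit 0) (XT.lf (nat_lit 0) (nat_lit 23422179532) (nat_lit 304) (nat_lit 7039710539) (nat_lit 76) (nat_lit 4111448336) (nat_lit 63) (nat_lit 5) (nat_lit 67) (nat_lit 5) (nat_lit 64) (nat_lit 5) (nat_lit 357) (nat_lit 294) (nat_lit 129)) (XT.nd (nat_lit 78) (nat_lit 76) (nat_lit 0) (XT.lf (nat_lit 0) (nat_lit 8615862748) (nat_lit 228) (nat_lit 21100425208) (nat_lit 304) (nat_lit 5584116399) (nat_lit 60) (nat_lit 5) (nat_lit 63) (nat_lit 5) (nat_lit 64) (nat_lit 5) (nat_lit 358) (nat_lit 294) (nat_lit 128)) (XT.lf (nat_lit 0)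 (nat_lit 214304968) (nat_lit 304) (nat_lit 11170794024) (nat_lit 76) (nat_lit 24662124556) (nat_lit 59) (nat_lit 5) (nat_lit 63) (nat_lit 5) (nat_lit 60) (nat_lit 5) (nat_lit 359) (nat_lit 294) (nat_lit 127)))) (XT.nd (nat_lit 156) (nat_lit 228) (nat_lit 0) (XT.nd (nat_lit 78) (nat_lit 0) (nat_lit 0) (XT.lf (nat_lit 0) (nat_lit 4840831374) (nat_lit 228) (nat_lit 1275778750) (nat_lit 304) (nat_lit 30696916768) (nat_lit 56) (nat_lit 5) (nat_lit 59) (nat_lit 5) (nat_lit 60) (nat_lit 5) (nat_lit 360) (nat_lit 294) (nat_lit 126)) (XT.lf (nat_lit 0) (nat_lit 12393407299) (nat_lit 304) (nat_lit 16133337309) (nat_lit 76) (nat_lit 9070155161) (nat_lit 56) (nat_lit 5) (nat_lit 60) (nat_lit 5) (nat_lit 57) (nat_lit 5) (nat_lit 361) (nat_lit 294) (nat_lit 125))) (XT.nd (nat_lit 78) (nat_lit 0) (nat_lit 0) (XT.lf (nat_lit 0) (nat_lit 165238897) (nat_lit 228) (nat_lit 18703289508) (nat_lit 304) (nat_lit 19534947857)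 (nat_lit 53) (nat_lit 5) (nat_lit 56) (nat_lit 5) (nat_lit 57) (nat_lit 5) (nat_lit 362) (nat_lit 294) (nat_lit 124)) (XT.lf (nat_lit 0) (nat_lit 17276998579) (nat_lit 228) (nat_lit 8419679732) (nat_lit 304) (nat_lit 13532811425) (nat_lit 53) (nat_lit 5) (nat_lit 56) (nat_lit 5) (nat_lit 57) (nat_lit 5) (nat_lit 363) (nat_lit 294) (nat_lit 123)))))) (XT.nd (nat_lit 546) (nat_lit 608) (nat_lit 0) (XT.nd (nat_lit 234) (nat_lit 380) (nat_lit 0) (XT.nd (nat_lit 78) (nat_lit 228) (nat_lit 0) (XT.lf (nat_lit 0) (nat_lit 32746514246) (nat_lit 304) (nat_lit 5205459198) (nat_lit 76) (nat_lit 2127807779) (nat_lit 53) (nat_lit 5) (nat_lit 57) (nat_lit 5) (nat_lit 54) (nat_lit 5) (nat_lit 364) (nat_lit 294) (nat_lit 122)) (XT.nd (nat_lit 78) (nat_lit 76) (nat_lit 0) (XT.lf (nat_lit 0) (nat_lit 12192319309) (nat_lit 152) (nat_lit 28012165580) (nat_lit 228) (nat_lit 745200147) (nat_lit 51) (nat_lit 5) (nat_lit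 53) (nat_lit 5) (nat_lit 54) (nat_lit 5) (nat_lit 365) (nat_lit 294) (nat_lit 121)) (XT.lf (nat_lit 0) (nat_lit 5971812574) (nat_lit 228) (nat_lit 11690193319) (nat_lit 76) (nat_lit 24180465456) (nat_lit 50) (nat_lit 5) (nat_lit 53) (nat_lit 5) (nat_lit 51) (nat_lit 5) (nat_lit 366) (nat_lit 294) (nat_lit 120)))) (XT.nd (nat_lit 156) (nat_lit 152) (nat_lit 0) (XT.nd (nat_lit 78) (nat_lit 0) (nat_lit 0) (XT.lf (nat_lit 0) (nat_lit 5992496106) (nat_lit 228) (nat_lit 6936669783) (nat_lit 304) (nat_lit 29831042310) (nat_lit 47) (nat_lit 5) (nat_lit 50) (nat_lit 5) (nat_lit 51) (nat_lit 5) (nat_lit 367) (nat_lit 294) (nat_lit 119)) (XT.lf (nat_lit 0) (nat_lit 20250204277) (nat_lit 304) (nat_lit 19303401562) (nat_lit 76) (nat_lit 4147224844) (nat_lit 47) (nat_lit 5) (nat_lit 51) (nat_lit 5) (nat_lit 48) (nat_lit 5) (nat_lit 368) (nat_lit 294) (nat_lit 118))) (XT.nd (nat_lit 78) (nat_lit 152) (nat_lit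 0) (XT.lf (nat_lit 0) (nat_lit 27855899070) (nat_lit 304) (nat_lit 1389753109) (nat_lit 76) (nat_lit 15422071298) (nat_lit 47) (nat_lit 5) (nat_lit 51) (nat_lit 5) (nat_lit 48) (nat_lit 5) (nat_lit 369) (nat_lit 294) (nat_lit 117)) (XT.lf (nat_lit 0) (nat_lit 17395004678) (nat_lit 152) (nat_lit 18458423255) (nat_lit 228) (nat_lit 9805287545) (nat_lit 45) (nat_lit 5) (nat_lit 47) (nat_lit 5) (nat_lit 48) (nat_lit 5) (nat_lit 370) (nat_lit 294) (nat_lit 116))))) (XT.nd (nat_lit 234) (nat_lit 304) (nat_lit 0) (XT.nd (nat_lit 78) (nat_lit 304) (nat_lit 0) (XT.lf (nat_lit 0) (nat_lit 36766110730) (nat_lit 152) (nat_lit 7335306232) (nat_lit 228) (nat_lit 2577706503) (nat_lit 45) (nat_lit 5) (nat_lit 47) (nat_lit 5) (nat_lit 48) (nat_lit 5) (nat_lit 371) (nat_lit 294) (nat_lit 115)) (XT.nd (nat_lit 78) (nat_lit 0) (nat_lit 0) (XT.lf (nat_lit 0) (nat_lit 4896836268) (nat_lit 304) (nat_lit 38653468215)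 (nat_lit 76) (nat_lit 4174684846) (nat_lit 41) (nat_lit 5) (nat_lit 45) (nat_lit 5) (nat_lit 42) (nat_lit 5) (nat_lit 372) (nat_lit 294) (nat_lit 114)) (XT.lf (nat_lit 0) (nat_lit 12714118705) (nat_lit 304) (nat_lit 20075186051) (nat_lit 76) (nat_lit 16007053438) (nat_lit 41) (nat_lit 5) (nat_lit 45) (nat_lit 5) (nat_lit 42) (nat_lit 5) (nat_lit 373) (nat_lit 294) (nat_lit 113)))) (XT.nd (nat_lit 156) (nat_lit 152) (nat_lit 0) (XT.nd (nat_lit 78) (nat_lit 152) (nat_lit 0) (XT.lf (nat_lit 0) (nat_lit 20762611690) (nat_lit 304) (nat_lit 945008057) (nat_lit 76) (nat_lit 28192349618) (nat_lit 41) (nat_lit 5) (nat_lit 45) (nat_lit 5) (nat_lit 42) (nat_lit 5) (nat_lit 374) (nat_lit 294) (nat_lit 112)) (XT.lf (nat_lit 0) (nat_lit 19127018476) (nat_lit 152) (nat_lit 10106190012) (nat_lit 228) (nat_lit 21798062858) (nat_lit 39) (nat_lit 5) (nat_lit 41) (nat_lit 5) (nat_lit 42) (nat_lit 5) (nat_lit 375)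 (nat_lit 294) (nat_lit 111))) (XT.nd (nat_lit 78) (nat_lit 152) (nat_lit 0) (XT.lf (nat_lit 0) (nat_lit 37982090804) (nat_lit 228) (nat_lit 12398780732) (nat_lit 76) (nat_lit 1814917709) (nat_lit 39) (nat_lit 5) (nat_lit 42) (nat_lit 5) (nat_lit 40) (nat_lit 5) (nat_lit 376) (nat_lit 294) (nat_lit 110)) (XT.lf (nat_lit 0) (nat_lit 7737619091) (nat_lit 152) (nat_lit 39427165020) (nat_lit 228) (nat_lit 6225320067) (nat_lit 37) (nat_lit 5) (nat_lit 39) (nat_lit 5) (nat_lit 40) (nat_lit 5) (nat_lit 377) (nat_lit 294) (nat_lit 109))))))) (XT.nd (nat_lit 1014) (nat_lit 304) (nat_lit 0) (XT.nd (nat_lit 468) (nat_lit 380) (nat_lit 0) (XT.nd (nat_lit 234) (nat_lit 152) (nat_lit 0) (XT.nd (nat_lit 78) (nat_lit 152) (nat_lit 0) (XT.lf (nat_lit 0) (nat_lit 2086986118) (nat_lit 228) (nat_lit 25909886143) (nat_lit 76) (nat_lit 26619099790) (nat_lit 36) (nat_lit 5) (nat_lit 39) (nat_lit 5) (nat_lit 37) (nat_lit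 5) (nat_lit 378) (nat_lit 294) (nat_lit 108)) (XT.nd (nat_lit 78) (nat_lit 152) (nat_lit 0) (XT.lf (nat_lit 0) (nat_lit 10520542144) (nat_lit 228) (nat_lit 5641671827) (nat_lit 76) (nat_lit 39714644460) (nat_lit 36) (nat_lit 5) (nat_lit 39) (nat_lit 5) (nat_lit 37) (nat_lit 5) (nat_lit 379) (nat_lit 294) (nat_lit 107)) (XT.lf (nat_lit 0) (nat_lit 15532810617) (nat_lit 152) (nat_lit 3820695814) (nat_lit 228) (nat_lit 37817674551) (nat_lit 34) (nat_lit 5) (nat_lit 36) (nat_lit 5) (nat_lit 37) (nat_lit 5) (nat_lit 380) (nat_lit 294) (nat_lit 106)))) (XT.nd (nat_lit 78) (nat_lit 152) (nat_lit 0) (XT.lf (nat_lit 0) (nat_lit 28591570063) (nat_lit 228) (nat_lit 21135378691) (nat_lit 76) (nat_lit 8773182726) (nat_lit 34) (nat_lit 5) (nat_lit 37) (nat_lit 5) (nat_lit 35) (nat_lit 5) (nat_lit 381) (nat_lit 294) (nat_lit 105)) (XT.nd (nat_lit 78) (nat_lit 152) (nat_lit 0) (XT.lf (nat_lit 0) (nat_lit 38141798595)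 (nat_lit 228) (nat_lit 59883617) (nat_lit 76) (nat_lit 21666219124) (nat_lit 34) (nat_lit 5) (nat_lit 37) (nat_lit 5) (nat_lit 35) (nat_lit 5) (nat_lit 382) (nat_lit 294) (nat_lit 104)) (XT.lf (nat_lit 0) (nat_lit 22074000458) (nat_lit 152) (nat_lit 26113998361) (nat_lit 228) (nat_lit 13082423014) (nat_lit 32) (nat_lit 5) (nat_lit 34) (nat_lit 5) (nat_lit 35) (nat_lit 5) (nat_lit 383) (nat_lit 294) (nat_lit 103))))) (XT.nd (nat_lit 234) (nat_lit 152) (nat_lit 0) (XT.nd (nat_lit 78) (nat_lit 228) (nat_lit 0) (XT.lf (nat_lit 0) (nat_lit 44868554790) (nat_lit 152) (nat_lit 13664946379) (nat_lit 228) (nat_lit 4181580740) (nat_lit 32) (nat_lit 5) (nat_lit 34) (nat_lit 5) (nat_lit 35) (nat_lit 5) (nat_lit 384) (nat_lit 294) (nat_lit 102)) (XT.nd (nat_lit 78) (nat_lit 0) (nat_lit 0) (XT.lf (nat_lit 0) (nat_lit 4172865910) (nat_lit 152) (nat_lit 753595114) (nat_lit 228) (nat_lit 59274059950) (nat_lit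 29) (nat_lit 5) (nat_lit 31) (nat_lit 5) (nat_lit 32) (nat_lit 5) (nat_lit 385) (nat_lit 294) (nat_lit 101)) (XT.lf (nat_lit 0) (nat_lit 14523667577) (nat_lit 228) (nat_lit 38674729031) (nat_lit 76) (nat_lit 12521886798) (nat_lit 29) (nat_lit 5) (nat_lit 32) (nat_lit 5) (nat_lit 30) (nat_lit 5) (nat_lit 386) (nat_lit 294) (nat_lit 100)))) (XT.nd (nat_lit 156) (nat_lit 0) (nat_lit 0) (XT.nd (nat_lit 78) (nat_lit 152) (nat_lit 0) (XT.lf (nat_lit 0) (nat_lit 24413706795) (nat_lit 228) (nat_lit 16693057204) (nat_lit 76) (nat_lit 26178728504) (nat_lit 29) (nat_lit 5) (nat_lit 32) (nat_lit 5) (nat_lit 30) (nat_lit 5) (nat_lit 387) (nat_lit 294) (nat_lit 99)) (XT.lf (nat_lit 0) (nat_lit 6062105227) (nat_lit 152) (nat_lit 28594143880) (nat_lit 228) (nat_lit 34239735957) (nat_lit 27) (nat_lit 5) (nat_lit 29) (nat_lit 5) (nat_lit 30) (nat_lit 5) (nat_lit 388) (nat_lit 294) (nat_lit 98))) (XT.nd (nat_lit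 78) (nat_lit 0) (nat_lit 0) (XT.lf (nat_lit 0) (nat_lit 29837902478) (nat_lit 152) (nat_lit 15534293092) (nat_lit 228) (nat_lit 25177614206) (nat_lit 27) (nat_lit 5) (nat_lit 29) (nat_lit 5) (nat_lit 30) (nat_lit 5) (nat_lit 389) (nat_lit 294) (nat_lit 97)) (XT.lf (nat_lit 0) (nat_lit 54322884946) (nat_lit 152) (nat_lit 2084367262) (nat_lit 228) (nat_lit 15846069243) (nat_lit 27) (nat_lit 5) (nat_lit 29) (nat_lit 5) (nat_lit 30) (nat_lit 5) (nat_lit 390) (nat_lit 294) (nat_lit 96)))))) (XT.nd (nat_lit 33228) (nat_lit 0) (nat_lit 13604) (XT.nd (nat_lit 234) (nat_lit 152) (nat_lit 0) (XT.nd (nat_lit 78) (nat_lit 76) (nat_lit 0) (XT.lf (nat_lit 0) (nat_lit 5525138723) (nat_lit 76) (nat_lit 62412148908) (nat_lit 152) (nat_lit 6065734177) (nat_lit 26) (nat_lit 5) (nat_lit 27) (nat_lit 5) (nat_lit 28) (nat_lit 4) (nat_lit 391) (nat_lit 294) (nat_lit 95)) (XT.nd (nat_lit 78) (nat_lit 0) (nat_lit 0) (XT.lf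 (nat_lit 0) (nat_lit 4130982574) (nat_lit 152) (nat_lit 45812832451) (nat_lit 76) (nat_lit 25854207931) (nat_lit 25) (nat_lit 5) (nat_lit 27) (nat_lit 5) (nat_lit 26) (nat_lit 5) (nat_lit 392) (nat_lit 294) (nat_lit 94)) (XT.lf (nat_lit 0) (nat_lit 14509442973) (nat_lit 152) (nat_lit 22531800930) (nat_lit 76) (nat_lit 40603896856) (nat_lit 25) (nat_lit 5) (nat_lit 27) (nat_lit 5) (nat_lit 26) (nat_lit 5) (nat_lit 393) (nat_lit 294) (nat_lit 93)))) (XT.nd (nat_lit 156) (nat_lit 0) (nat_lit 0) (XT.nd (nat_lit 78) (nat_lit 0) (nat_lit 0) (XT.lf (nat_lit 0) (nat_lit 1472597351) (nat_lit 152) (nat_lit 23738638051) (nat_lit 228) (nat_lit 54336078362) (nat_lit 23) (nat_lit 5) (nat_lit 25) (nat_lit 5) (nat_lit 26) (nat_lit 5) (nat_lit 394) (nat_lit 294) (nat_lit 92)) (XT.lf (nat_lit 0) (nat_lit 26655244802) (nat_lit 152) (nat_lit 9804213775) (nat_lit 228) (nat_lit 45040333059) (nat_lit 23) (nat_lit 5)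 (nat_lit 25) (nat_lit 5) (nat_lit 26) (nat_lit 5) (nat_lit 395) (nat_lit 294) (nat_lit 91))) (XT.nd (nat_lit 32760) (nat_lit 0) (nat_lit 13604) (XT.lf (nat_lit 0) (nat_lit 48086746477) (nat_lit 228) (nat_lit 30964894212) (nat_lit 76) (nat_lit 4457955570) (nat_lit 23) (nat_lit 5) (nat_lit 26) (nat_lit 5) (nat_lit 24) (nat_lit 4) (nat_lit 396) (nat_lit 294) (nat_lit 90)) (XT.lf (nat_lit 0) (nat_lit 3063588805) (nat_lit 1140) (nat_lit 1429750077) (nat_lit 1140) (nat_lit 1429750077) (nat_lit 202) (nat_lit 3) (nat_lit 217) (nat_lit 3) (nat_lit 217) (nat_lit 5) (nat_lit 295) (nat_lit 295) (nat_lit 190))))) (XT.nd (nat_lit 234) (nat_lit 0) (nat_lit 76) (XT.nd (nat_lit 78) (nat_lit 0) (nat_lit 76) (XT.lf (nat_lit 76) (nat_lit 2510869511) (nat_lit 0) (nat_lit 4190616757) (nat_lit 1140) (nat_lit 5307260321) (nat_lit 203) (nat_lit 5) (nat_lit 202) (nat_lit 3) (nat_lit 217) (nat_lit 5) (nat_lit 296) (nat_lit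 295) (nat_lit 189)) (XT.nd (nat_lit 78) (nat_lit 0) (nat_lit 0) (XT.lf (nat_lit 0) (nat_lit 7311495543) (nat_lit 1064) (nat_lit 4091901741) (nat_lit 1140) (nat_lit 772266339) (nat_lit 203) (nat_lit 5) (nat_lit 217) (nat_lit 5) (nat_lit 218) (nat_lit 5) (nat_lit 297) (nat_lit 295) (nat_lit 188)) (XT.lf (nat_lit 76) (nat_lit 1453360715) (nat_lit 0) (nat_lit 6524534516) (nat_lit 1140) (nat_lit 4368574936) (nat_lit 204) (nat_lit 5) (nat_lit 203) (nat_lit 5) (nat_lit 218) (nat_lit 5) (nat_lit 298) (nat_lit 295) (nat_lit 187)))) (XT.nd (nat_lit 156) (nat_lit 0) (nat_lit 76) (XT.nd (nat_lit 78) (nat_lit 0) (nat_lit 76) (XT.lf (nat_lit 76) (nat_lit 7239195531) (nat_lit 0) (nat_lit 1449452914) (nat_lit 1140) (nat_lit 3833045600) (nat_lit 204) (nat_lit 5) (nat_lit 203) (nat_lit 5) (nat_lit 218) (nat_lit 5) (nat_lit 299) (nat_lit 295) (nat_lit 186)) (XT.lf (nat_lit 76) (nat_lit 459104975) (nat_lit 0) (nat_lit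 8985951139) (nat_lit 1140) (nat_lit 3256411856) (nat_lit 205) (nat_lit 5) (nat_lit 204) (nat_lit 5) (nat_lit 219) (nat_lit 5) (nat_lit 300) (nat_lit 295) (nat_lit 185))) (XT.nd (nat_lit 78) (nat_lit 0) (nat_lit 76) (XT.lf (nat_lit 76) (nat_lit 6456734455) (nat_lit 0) (nat_lit 3818960794) (nat_lit 1140) (nat_lit 2609416293) (nat_lit 205) (nat_lit 5) (nat_lit 204) (nat_lit 5) (nat_lit 219) (nat_lit 5) (nat_lit 301) (nat_lit 295) (nat_lit 184)) (XT.lf (nat_lit 0) (nat_lit 11130211481) (nat_lit 1064) (nat_lit 464549439) (nat_lit 1140) (nat_lit 1479556714) (nat_lit 205) (nat_lit 5) (nat_lit 219) (nat_lit 5) (nat_lit 220) (nat_lit 5) (nat_lit 302) (nat_lit 295) (nat_lit 183))))))))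
noncomputable def xc188 : XT := (XT.nd (nat_lit 2028) (nat_lit 4712) (nat_lit 0) (XT.nd (nat_lit 1014) (nat_lit 3268) (nat_lit 0) (XT.nd (nat_lit 468) (nat_lit 1520) (nat_lit 0) (XT.nd (nat_lit 234) (nat_lit 0) (nat_lit 0) (XT.nd (nat_lit 78) (nat_lit 1064) (nat_lit 0) (XT.lf (nat_lit 76) (nat_lit 5742605806) (nat_lit 0) (nat_lit 6345731284) (nat_lit 1140) (nat_lit 1178544909) (nat_lit 206) (nat_lit 5) (nat_lit 205) (nat_lit 5) (nat_lit 220) (nat_lit 5) (nat_lit 303) (nat_lit 295) (nat_lit 182)) (XT.nd (nat_lit 78) (nat_lit 1064) (nat_lit 0) (XT.lf (nat_lit 76) (nat_lit 12135760272) (nat_lit 0) (nat_lit 929442614) (nat_lit 1140) (nat_lit 400341205) (nat_lit 206) (nat_lit 5) (nat_lit 205) (nat_lit 5) (nat_lit 220) (nat_lit 5) (nat_lit 304) (nat_lit 295) (nat_lit 181)) (XT.lf (nat_lit 0) (nat_lit 473597852) (nat_lit 1140) (nat_lit 8577115337) (nat_lit 1216) (nat_lit 4616950112) (nat_lit 191) (nat_lit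 5) (nat_lit 206) (nat_lit 5) (nat_lit 207) (nat_lit 5) (nat_lit 305) (nat_lit 295) (nat_lit 180)))) (XT.nd (nat_lit 78) (nat_lit 0) (nat_lit 76) (XT.lf (nat_lit 0) (nat_lit 1374414553) (nat_lit 1140) (nat_lit 2168143518) (nat_lit 1216) (nat_lit 10332926857) (nat_lit 191) (nat_lit 5) (nat_lit 206) (nat_lit 5) (nat_lit 207) (nat_lit 5) (nat_lit 306) (nat_lit 295) (nat_lit 179)) (XT.nd (nat_lit 78) (nat_lit 0) (nat_lit 0) (XT.lf (nat_lit 0) (nat_lit 2352921476) (nat_lit 1140) (nat_lit 9598342676) (nat_lit 1216) (nat_lit 2136775462) (nat_lit 192) (nat_lit 5) (nat_lit 207) (nat_lit 5) (nat_lit 208) (nat_lit 5) (nat_lit 307) (nat_lit 295) (nat_lit 178)) (XT.lf (nat_lit 0) (nat_lit 3404659222) (nat_lit 1140) (nat_lit 2960098826) (nat_lit 1216) (nat_lit 7940914470) (nat_lit 192) (nat_lit 5) (nat_lit 207) (nat_lit 5) (nat_lit 208) (nat_lit 5) (nat_lit 308) (nat_lit 295) (nat_lit 177))))) (XT.nd (nat_lit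 234) (nat_lit 1596) (nat_lit 0) (XT.nd (nat_lit 78) (nat_lit 0) (nat_lit 76) (XT.lf (nat_lit 76) (nat_lit 3944347635) (nat_lit 0) (nat_lit 568594629) (nat_lit 1216) (nat_lit 10016159677) (nat_lit 193) (nat_lit 5) (nat_lit 192) (nat_lit 5) (nat_lit 208) (nat_lit 5) (nat_lit 309) (nat_lit 295) (nat_lit 176)) (XT.nd (nat_lit 78) (nat_lit 0) (nat_lit 0) (XT.lf (nat_lit 0) (nat_lit 5723969875) (nat_lit 1140) (nat_lit 3704188051) (nat_lit 1216) (nat_lit 5329008261) (nat_lit 193) (nat_lit 5) (nat_lit 208) (nat_lit 5) (nat_lit 209) (nat_lit 5) (nat_lit 310) (nat_lit 295) (nat_lit 175)) (XT.lf (nat_lit 76) (nat_lit 3434239017) (nat_lit 0) (nat_lit 3563485178) (nat_lit 1216) (nat_lit 7993572619) (nat_lit 194) (nat_lit 5) (nat_lit 193) (nat_lit 5) (nat_lit 209) (nat_lit 5) (nat_lit 311) (nat_lit 295) (nat_lit 174)))) (XT.nd (nat_lit 156) (nat_lit 608) (nat_lit 0) (XT.nd (nat_lit 78) (nat_lit 1140) (nat_lit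 0) (XT.lf (nat_lit 0) (nat_lit 8359315048) (nat_lit 1140) (nat_lit 4402999484) (nat_lit 76) (nat_lit 2468663969) (nat_lit 194) (nat_lit 5) (nat_lit 209) (nat_lit 5) (nat_lit 195) (nat_lit 5) (nat_lit 312) (nat_lit 295) (nat_lit 173)) (XT.lf (nat_lit 0) (nat_lit 2978580231) (nat_lit 1140) (nat_lit 6835472654) (nat_lit 1216) (nat_lit 5662244169) (nat_lit 179) (nat_lit 5) (nat_lit 194) (nat_lit 5) (nat_lit 195) (nat_lit 5) (nat_lit 313) (nat_lit 295) (nat_lit 172))) (XT.nd (nat_lit 78) (nat_lit 608) (nat_lit 0) (XT.lf (nat_lit 0) (nat_lit 10662020828) (nat_lit 1140) (nat_lit 683502653) (nat_lit 1216) (nat_lit 4382473910) (nat_lit 179) (nat_lit 5) (nat_lit 194) (nat_lit 5) (nat_lit 195) (nat_lit 5) (nat_lit 314) (nat_lit 295) (nat_lit 171)) (XT.lf (nat_lit 0) (nat_lit 2574700297) (nat_lit 608) (nat_lit 10416302251) (nat_lit 684) (nat_lit 2994218770) (nat_lit 171) (nat_lit 5) (nat_lit 179) (nat_lit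 5) (nat_lit 180) (nat_lit 5) (nat_lit 315) (nat_lit 295) (nat_lit 170)))))) (XT.nd (nat_lit 468) (nat_lit 1520) (nat_lit 0) (XT.nd (nat_lit 234) (nat_lit 1064) (nat_lit 0) (XT.nd (nat_lit 78) (nat_lit 684) (nat_lit 0) (XT.lf (nat_lit 0) (nat_lit 10531723271) (nat_lit 608) (nat_lit 4201181304) (nat_lit 684) (nat_lit 1515859718) (nat_lit 171) (nat_lit 5) (nat_lit 179) (nat_lit 5) (nat_lit 180) (nat_lit 5) (nat_lit 316) (nat_lit 295) (nat_lit 169)) (XT.nd (nat_lit 78) (nat_lit 0) (nat_lit 0) (XT.lf (nat_lit 0) (nat_lit 39031817) (nat_lit 684) (nat_lit 14300117679) (nat_lit 76) (nat_lit 2180105905) (nat_lit 162) (nat_lit 5) (nat_lit 171) (nat_lit 5) (nat_lit 163) (nat_lit 5) (nat_lit 317) (nat_lit 295) (nat_lit 168)) (XT.lf (nat_lit 0) (nat_lit 1699622492) (nat_lit 684) (nat_lit 6352703425) (nat_lit 76) (nat_lit 8742412371) (nat_lit 162) (nat_lit 5) (nat_lit 171) (nat_lit 5) (nat_lit 163) (nat_lit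 5) (nat_lit 318) (nat_lit 295) (nat_lit 167)))) (XT.nd (nat_lit 78) (nat_lit 532) (nat_lit 0) (XT.lf (nat_lit 0) (nat_lit 1859720463) (nat_lit 532) (nat_lit 1558110808) (nat_lit 608) (nat_lit 13660432896) (nat_lit 155) (nat_lit 5) (nat_lit 162) (nat_lit 5) (nat_lit 163) (nat_lit 5) (nat_lit 319) (nat_lit 295) (nat_lit 166)) (XT.nd (nat_lit 78) (nat_lit 532) (nat_lit 0) (XT.lf (nat_lit 0) (nat_lit 5291820274) (nat_lit 608) (nat_lit 6979505358) (nat_lit 76) (nat_lit 5095855324) (nat_lit 155) (nat_lit 5) (nat_lit 163) (nat_lit 5) (nat_lit 156) (nat_lit 5) (nat_lit 320) (nat_lit 295) (nat_lit 165)) (XT.lf (nat_lit 0) (nat_lit 1511135383) (nat_lit 532) (nat_lit 5731261236) (nat_lit 608) (nat_lit 10421769399) (nat_lit 148) (nat_lit 5) (nat_lit 155) (nat_lit 5) (nat_lit 156) (nat_lit 5) (nat_lit 321) (nat_lit 295) (nat_lit 164))))) (XT.nd (nat_lit 234) (nat_lit 1064) (nat_lit 0) (XT.nd (nat_lit 78) (nat_lit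 456) (nat_lit 0) (XT.lf (nat_lit 0) (nat_lit 9322929183) (nat_lit 608) (nat_lit 7588563688) (nat_lit 76) (nat_lit 1056436046) (nat_lit 148) (nat_lit 5) (nat_lit 156) (nat_lit 5) (nat_lit 149) (nat_lit 5) (nat_lit 322) (nat_lit 295) (nat_lit 163)) (XT.nd (nat_lit 78) (nat_lit 0) (nat_lit 0) (XT.lf (nat_lit 0) (nat_lit 1189767728) (nat_lit 456) (nat_lit 10335166758) (nat_lit 532) (nat_lit 6754109637) (nat_lit 142) (nat_lit 5) (nat_lit 148) (nat_lit 5) (nat_lit 149) (nat_lit 5) (nat_lit 323) (nat_lit 295) (nat_lit 162)) (XT.lf (nat_lit 0) (nat_lit 10377559712) (nat_lit 456) (nat_lit 3483119644) (nat_lit 532) (nat_lit 4736793844) (nat_lit 142) (nat_lit 5) (nat_lit 148) (nat_lit 5) (nat_lit 149) (nat_lit 5) (nat_lit 324) (nat_lit 295) (nat_lit 161)))) (XT.nd (nat_lit 156) (nat_lit 532) (nat_lit 0) (XT.nd (nat_lit 78) (nat_lit 0) (nat_lit 0) (XT.lf (nat_lit 0) (nat_lit 889080444) (nat_lit 532) (nat_lit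 15411628525) (nat_lit 608) (nat_lit 2623730291) (nat_lit 135) (nat_lit 5) (nat_lit 142) (nat_lit 5) (nat_lit 143) (nat_lit 5) (nat_lit 325) (nat_lit 295) (nat_lit 160)) (XT.lf (nat_lit 0) (nat_lit 10395325372) (nat_lit 532) (nat_lit 8527236562) (nat_lit 608) (nat_lit 335403871) (nat_lit 135) (nat_lit 5) (nat_lit 142) (nat_lit 5) (nat_lit 143) (nat_lit 5) (nat_lit 326) (nat_lit 295) (nat_lit 159))) (XT.nd (nat_lit 78) (nat_lit 0) (nat_lit 0) (XT.lf (nat_lit 0) (nat_lit 567653534) (nat_lit 456) (nat_lit 1411553283) (nat_lit 532) (nat_lit 17621805467) (nat_lit 128) (nat_lit 5) (nat_lit 134) (nat_lit 5) (nat_lit 135) (nat_lit 5) (nat_lit 327) (nat_lit 295) (nat_lit 158)) (XT.lf (nat_lit 0) (nat_lit 4495552327) (nat_lit 532) (nat_lit 9559630514) (nat_lit 76) (nat_lit 5894905871) (nat_lit 128) (nat_lit 5) (nat_lit 135) (nat_lit 5) (nat_lit 129) (nat_lit 5) (nat_lit 328) (nat_lit 295) (nat_lit 157)))))))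 (XT.nd (nat_lit 1014) (nat_lit 2280) (nat_lit 0) (XT.nd (nat_lit 468) (nat_lit 1140) (nat_lit 0) (XT.nd (nat_lit 234) (nat_lit 836) (nat_lit 0) (XT.nd (nat_lit 78) (nat_lit 0) (nat_lit 0) (XT.lf (nat_lit 0) (nat_lit 178688158) (nat_lit 456) (nat_lit 6916405911) (nat_lit 532) (nat_lit 13214321231) (nat_lit 122) (nat_lit 5) (nat_lit 128) (nat_lit 5) (nat_lit 129) (nat_lit 5) (nat_lit 329) (nat_lit 295) (nat_lit 156)) (XT.nd (nat_lit 78) (nat_lit 0) (nat_lit 0) (XT.lf (nat_lit 0) (nat_lit 9866454208) (nat_lit 532) (nat_lit 10285933687) (nat_lit 76) (nat_lit 524327604) (nat_lit 122) (nat_lit 5) (nat_lit 129) (nat_lit 5) (nat_lit 123) (nat_lit 5) (nat_lit 330) (nat_lit 295) (nat_lit 155)) (XT.lf (nat_lit 0) (nat_lit 12781809765) (nat_lit 532) (nat_lit 223280975) (nat_lit 76) (nat_lit 8048126849) (nat_lit 122) (nat_lit 5) (nat_lit 129) (nat_lit 5) (nat_lit 123) (nat_lit 5) (nat_lit 331) (nat_lit 295)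 (nat_lit 154)))) (XT.nd (nat_lit 78) (nat_lit 456) (nat_lit 0) (XT.lf (nat_lit 0) (nat_lit 10334165109) (nat_lit 380) (nat_lit 5542396623) (nat_lit 456) (nat_lit 5561703215) (nat_lit 117) (nat_lit 5) (nat_lit 122) (nat_lit 5) (nat_lit 123) (nat_lit 5) (nat_lit 332) (nat_lit 295) (nat_lit 153)) (XT.nd (nat_lit 78) (nat_lit 456) (nat_lit 0) (XT.lf (nat_lit 0) (nat_lit 19079760916) (nat_lit 456) (nat_lit 651388025) (nat_lit 76) (nat_lit 2103254676) (nat_lit 117) (nat_lit 5) (nat_lit 123) (nat_lit 5) (nat_lit 118) (nat_lit 5) (nat_lit 333) (nat_lit 295) (nat_lit 152)) (XT.lf (nat_lit 0) (nat_lit 281751975) (nat_lit 456) (nat_lit 11989344982) (nat_lit 76) (nat_lit 9966864010) (nat_lit 111) (nat_lit 5) (nat_lit 117) (nat_lit 5) (nat_lit 112) (nat_lit 5) (nat_lit 334) (nat_lit 295) (nat_lit 151))))) (XT.nd (nat_lit 234) (nat_lit 760) (nat_lit 0) (XT.nd (nat_lit 78) (nat_lit 380) (nat_lit 0) (XT.lf (nat_lit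 0) (nat_lit 3353492176) (nat_lit 456) (nat_lit 1200468025) (nat_lit 76) (nat_lit 18098865400) (nat_lit 111) (nat_lit 5) (nat_lit 117) (nat_lit 5) (nat_lit 112) (nat_lit 5) (nat_lit 335) (nat_lit 295) (nat_lit 150)) (XT.nd (nat_lit 78) (nat_lit 0) (nat_lit 0) (XT.lf (nat_lit 0) (nat_lit 6641237968) (nat_lit 456) (nat_lit 13010257233) (nat_lit 76) (nat_lit 3424932508) (nat_lit 106) (nat_lit 5) (nat_lit 112) (nat_lit 5) (nat_lit 107) (nat_lit 5) (nat_lit 336) (nat_lit 295) (nat_lit 149)) (XT.lf (nat_lit 0) (nat_lit 10078230921) (nat_lit 456) (nat_lit 1870697810) (nat_lit 76) (nat_lit 11562297637) (nat_lit 106) (nat_lit 5) (nat_lit 112) (nat_lit 5) (nat_lit 107) (nat_lit 5) (nat_lit 337) (nat_lit 295) (nat_lit 148)))) (XT.nd (nat_lit 156) (nat_lit 380) (nat_lit 0) (XT.nd (nat_lit 78) (nat_lit 0) (nat_lit 0) (XT.lf (nat_lit 0) (nat_lit 9785720115) (nat_lit 380) (nat_lit 3920159170) (nat_lit 456) (nat_lit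 10250570062) (nat_lit 101) (nat_lit 5) (nat_lit 106) (nat_lit 5) (nat_lit 107) (nat_lit 5) (nat_lit 338) (nat_lit 295) (nat_lit 147)) (XT.lf (nat_lit 0) (nat_lit 17496817466) (nat_lit 456) (nat_lit 2634664401) (nat_lit 76) (nat_lit 4281919869) (nat_lit 101) (nat_lit 5) (nat_lit 107) (nat_lit 5) (nat_lit 102) (nat_lit 5) (nat_lit 339) (nat_lit 295) (nat_lit 146))) (XT.nd (nat_lit 78) (nat_lit 76) (nat_lit 0) (XT.lf (nat_lit 0) (nat_lit 9383638359) (nat_lit 304) (nat_lit 12140620504) (nat_lit 380) (nat_lit 3356126924) (nat_lit 97) (nat_lit 5) (nat_lit 101) (nat_lit 5) (nat_lit 102) (nat_lit 5) (nat_lit 340) (nat_lit 295) (nat_lit 145)) (XT.lf (nat_lit 0) (nat_lit 325738783) (nat_lit 380) (nat_lit 3555526053) (nat_lit 76) (nat_lit 21479410790) (nat_lit 96) (nat_lit 5) (nat_lit 101) (nat_lit 5) (nat_lit 97) (nat_lit 5) (nat_lit 341) (nat_lit 295) (nat_lit 144)))))) (XT.nd (nat_lit 546) (nat_lit 912)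 (nat_lit 0) (XT.nd (nat_lit 234) (nat_lit 684) (nat_lit 0) (XT.nd (nat_lit 78) (nat_lit 304) (nat_lit 0) (XT.lf (nat_lit 0) (nat_lit 4175527139) (nat_lit 456) (nat_lit 17021671461) (nat_lit 76) (nat_lit 4653436849) (nat_lit 91) (nat_lit 5) (nat_lit 97) (nat_lit 5) (nat_lit 92) (nat_lit 5) (nat_lit 342) (nat_lit 295) (nat_lit 143)) (XT.nd (nat_lit 78) (nat_lit 304) (nat_lit 0) (XT.lf (nat_lit 0) (nat_lit 8209556267) (nat_lit 456) (nat_lit 4743164117) (nat_lit 76) (nat_lit 13400516903) (nat_lit 91) (nat_lit 5) (nat_lit 97) (nat_lit 5) (nat_lit 92) (nat_lit 5) (nat_lit 343) (nat_lit 295) (nat_lit 142)) (XT.lf (nat_lit 0) (nat_lit 8053039487) (nat_lit 304) (nat_lit 4383209982) (nat_lit 380) (nat_lit 14432523887) (nat_lit 87) (nat_lit 5) (nat_lit 91) (nat_lit 5) (nat_lit 92) (nat_lit 5) (nat_lit 344) (nat_lit 295) (nat_lit 141)))) (XT.nd (nat_lit 156) (nat_lit 380) (nat_lit 0) (XT.nd (nat_lit 78) (nat_lit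 304) (nat_lit 0) (XT.lf (nat_lit 0) (nat_lit 16875133337) (nat_lit 380) (nat_lit 6119048024) (nat_lit 76) (nat_lit 4403037762) (nat_lit 87) (nat_lit 5) (nat_lit 92) (nat_lit 5) (nat_lit 88) (nat_lit 5) (nat_lit 345) (nat_lit 295) (nat_lit 140)) (XT.lf (nat_lit 0) (nat_lit 7044960340) (nat_lit 304) (nat_lit 14507814245) (nat_lit 380) (nat_lit 6385581108) (nat_lit 83) (nat_lit 5) (nat_lit 87) (nat_lit 5) (nat_lit 88) (nat_lit 5) (nat_lit 346) (nat_lit 295) (nat_lit 139))) (XT.nd (nat_lit 78) (nat_lit 380) (nat_lit 0) (XT.lf (nat_lit 0) (nat_lit 20721745977) (nat_lit 304) (nat_lit 5705349921) (nat_lit 380) (nat_lit 2066944945) (nat_lit 83) (nat_lit 5) (nat_lit 87) (nat_lit 5) (nat_lit 88) (nat_lit 5) (nat_lit 347) (nat_lit 295) (nat_lit 138)) (XT.lf (nat_lit 0) (nat_lit 2418516569) (nat_lit 380) (nat_lit 23271502625) (nat_lit 76) (nat_lit 3373183380) (nat_lit 78) (nat_lit 5) (nat_lit 83) (nat_lit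 5) (nat_lit 79) (nat_lit 5) (nat_lit 348) (nat_lit 295) (nat_lit 137))))) (XT.nd (nat_lit 234) (nat_lit 608) (nat_lit 0) (XT.nd (nat_lit 78) (nat_lit 304) (nat_lit 0) (XT.lf (nat_lit 0) (nat_lit 7127474655) (nat_lit 380) (nat_lit 9810412192) (nat_lit 76) (nat_lit 12707028659) (nat_lit 78) (nat_lit 5) (nat_lit 83) (nat_lit 5) (nat_lit 79) (nat_lit 5) (nat_lit 349) (nat_lit 295) (nat_lit 136)) (XT.nd (nat_lit 78) (nat_lit 0) (nat_lit 0) (XT.lf (nat_lit 0) (nat_lit 4127741428) (nat_lit 304) (nat_lit 7884517694) (nat_lit 380) (nat_lit 18230788424) (nat_lit 74) (nat_lit 5) (nat_lit 78) (nat_lit 5) (nat_lit 79) (nat_lit 5) (nat_lit 350) (nat_lit 295) (nat_lit 135)) (XT.lf (nat_lit 0) (nat_lit 17152418000) (nat_lit 380) (nat_lit 12193214709) (nat_lit 76) (nat_lit 1510230231) (nat_lit 74) (nat_lit 5) (nat_lit 79) (nat_lit 5) (nat_lit 75) (nat_lit 5) (nat_lit 351) (nat_lit 295) (nat_lit 134)))) (XT.nd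 (nat_lit 156) (nat_lit 380) (nat_lit 0) (XT.nd (nat_lit 78) (nat_lit 0) (nat_lit 0) (XT.lf (nat_lit 0) (nat_lit 2102334694) (nat_lit 228) (nat_lit 20437805442) (nat_lit 304) (nat_lit 8944126097) (nat_lit 71) (nat_lit 5) (nat_lit 74) (nat_lit 5) (nat_lit 75) (nat_lit 5) (nat_lit 352) (nat_lit 295) (nat_lit 133)) (XT.lf (nat_lit 0) (nat_lit 17069605429) (nat_lit 228) (nat_lit 11138176065) (nat_lit 304) (nat_lit 3920195575) (nat_lit 71) (nat_lit 5) (nat_lit 74) (nat_lit 5) (nat_lit 75) (nat_lit 5) (nat_lit 353) (nat_lit 295) (nat_lit 132))) (XT.nd (nat_lit 78) (nat_lit 304) (nat_lit 0) (XT.lf (nat_lit 0) (nat_lit 1225224536) (nat_lit 304) (nat_lit 324149349) (nat_lit 76) (nat_lit 31241409909) (nat_lit 70) (nat_lit 5) (nat_lit 74) (nat_lit 5) (nat_lit 71) (nat_lit 5) (nat_lit 354) (nat_lit 295) (nat_lit 131)) (XT.lf (nat_lit 0) (nat_lit 6668611674) (nat_lit 380) (nat_lit 18448761406) (nat_lit 76)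 (nat_lit 8348269056) (nat_lit 66) (nat_lit 5) (nat_lit 71) (nat_lit 5) (nat_lit 67) (nat_lit 5) (nat_lit 355) (nat_lit 295) (nat_lit 130))))))))
noncomputable def xc189 : XT := (XT.nd (nat_lit 2028) (nat_lit 836) (nat_lit 0) (XT.nd (nat_lit 1014) (nat_lit 988) (nat_lit 0) (XT.nd (nat_lit 468) (nat_lit 684) (nat_lit 0) (XT.nd (nat_lit 234) (nat_lit 532) (nat_lit 0) (XT.nd (nat_lit 78) (nat_lit 228) (nat_lit 0) (XT.lf (nat_lit 0) (nat_lit 12289384188) (nat_lit 380) (nat_lit 3358069143) (nat_lit 76) (nat_lit 18512874003) (nat_lit 66) (nat_lit 5) (nat_lit 71) (nat_lit 5) (nat_lit 67) (nat_lit 5) (nat_lit 356) (nat_lit 295) (nat_lit 129)) (XT.nd (nat_lit 78) (nat_lit 0) (nat_lit 0) (XT.lf (nat_lit 0) (nat_lit 12421088306) (nat_lit 228) (nat_lit 5772661297) (nat_lit 304) (nat_lit 16678657905) (nat_lit 63) (nat_lit 5) (nat_lit 66) (nat_lit 5) (nat_lit 67) (nat_lit 5) (nat_lit 357) (nat_lit 295) (nat_lit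 128)) (XT.lf (nat_lit 0) (nat_lit 24347386760) (nat_lit 304) (nat_lit 6911674587) (nat_lit 76) (nat_lit 4344627924) (nat_lit 63) (nat_lit 5) (nat_lit 67) (nat_lit 5) (nat_lit 64) (nat_lit 5) (nat_lit 358) (nat_lit 295) (nat_lit 127)))) (XT.nd (nat_lit 78) (nat_lit 304) (nat_lit 0) (XT.lf (nat_lit 0) (nat_lit 9210240142) (nat_lit 228) (nat_lit 21616825384) (nat_lit 304) (nat_lit 5525604297) (nat_lit 60) (nat_lit 5) (nat_lit 63) (nat_lit 5) (nat_lit 64) (nat_lit 5) (nat_lit 359) (nat_lit 295) (nat_lit 126)) (XT.nd (nat_lit 78) (nat_lit 228) (nat_lit 0) (XT.lf (nat_lit 0) (nat_lit 435903849) (nat_lit 304) (nat_lit 11175359223) (nat_lit 76) (nat_lit 25510763740) (nat_lit 59) (nat_lit 5) (nat_lit 63) (nat_lit 5) (nat_lit 60) (nat_lit 5) (nat_lit 360) (nat_lit 295) (nat_lit 125)) (XT.lf (nat_lit 0) (nat_lit 5313374166) (nat_lit 228) (nat_lit 1198783293) (nat_lit 304) (nat_lit 31399260029) (nat_lit 56)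 (nat_lit 5) (nat_lit 59) (nat_lit 5) (nat_lit 60) (nat_lit 5) (nat_lit 361) (nat_lit 295) (nat_lit 124))))) (XT.nd (nat_lit 234) (nat_lit 456) (nat_lit 0) (XT.nd (nat_lit 78) (nat_lit 228) (nat_lit 0) (XT.lf (nat_lit 0) (nat_lit 12972158127) (nat_lit 304) (nat_lit 16294303423) (nat_lit 76) (nat_lit 9451987494) (nat_lit 56) (nat_lit 5) (nat_lit 60) (nat_lit 5) (nat_lit 57) (nat_lit 5) (nat_lit 362) (nat_lit 295) (nat_lit 123)) (XT.nd (nat_lit 78) (nat_lit 0) (nat_lit 0) (XT.lf (nat_lit 0) (nat_lit 490063070) (nat_lit 228) (nat_lit 19148516924) (nat_lit 304) (nat_lit 19910735771) (nat_lit 53) (nat_lit 5) (nat_lit 56) (nat_lit 5) (nat_lit 57) (nat_lit 5) (nat_lit 363) (nat_lit 295) (nat_lit 122)) (XT.lf (nat_lit 0) (nat_lit 18105859027) (nat_lit 228) (nat_lit 8559773746) (nat_lit 304) (nat_lit 13734659339) (nat_lit 53) (nat_lit 5) (nat_lit 56) (nat_lit 5) (nat_lit 57) (nat_lit 5) (nat_lit 364) (nat_lit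 295) (nat_lit 121)))) (XT.nd (nat_lit 156) (nat_lit 304) (nat_lit 0) (XT.nd (nat_lit 78) (nat_lit 152) (nat_lit 0) (XT.lf (nat_lit 0) (nat_lit 33922245108) (nat_lit 304) (nat_lit 5055262369) (nat_lit 76) (nat_lit 2298730525) (nat_lit 53) (nat_lit 5) (nat_lit 57) (nat_lit 5) (nat_lit 54) (nat_lit 5) (nat_lit 365) (nat_lit 295) (nat_lit 120)) (XT.lf (nat_lit 0) (nat_lit 12861445958) (nat_lit 152) (nat_lit 28739793837) (nat_lit 228) (nat_lit 571084566) (nat_lit 51) (nat_lit 5) (nat_lit 53) (nat_lit 5) (nat_lit 54) (nat_lit 5) (nat_lit 366) (nat_lit 295) (nat_lit 119))) (XT.nd (nat_lit 78) (nat_lit 228) (nat_lit 0) (XT.lf (nat_lit 0) (nat_lit 6337993861) (nat_lit 228) (nat_lit 11742530486) (nat_lit 76) (nat_lit 25011485331) (nat_lit 50) (nat_lit 5) (nat_lit 53) (nat_lit 5) (nat_lit 51) (nat_lit 5) (nat_lit 367) (nat_lit 295) (nat_lit 118)) (XT.lf (nat_lit 0) (nat_lit 6467714438) (nat_lit 228) (nat_lit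 7033745935) (nat_lit 304) (nat_lit 30535900124) (nat_lit 47) (nat_lit 5) (nat_lit 50) (nat_lit 5) (nat_lit 51) (nat_lit 5) (nat_lit 368) (nat_lit 295) (nat_lit 117)))))) (XT.nd (nat_lit 468) (nat_lit 532) (nat_lit 0) (XT.nd (nat_lit 234) (nat_lit 304) (nat_lit 0) (XT.nd (nat_lit 78) (nat_lit 152) (nat_lit 0) (XT.lf (nat_lit 0) (nat_lit 21037794616) (nat_lit 304) (nat_lit 19591212185) (nat_lit 76) (nat_lit 4377328449) (nat_lit 47) (nat_lit 5) (nat_lit 51) (nat_lit 5) (nat_lit 48) (nat_lit 5) (nat_lit 369) (nat_lit 295) (nat_lit 116)) (XT.nd (nat_lit 78) (nat_lit 152) (nat_lit 0) (XT.lf (nat_lit 0) (nat_lit 28866415082) (nat_lit 304) (nat_lit 1148638494) (nat_lit 76) (nat_lit 15987342039) (nat_lit 47) (nat_lit 5) (nat_lit 51) (nat_lit 5) (nat_lit 48) (nat_lit 5) (nat_lit 370) (nat_lit 295) (nat_lit 115)) (XT.lf (nat_lit 0) (nat_lit 18196889407) (nat_lit 152) (nat_lit 18904579869) (nat_lit 228) (nat_lit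 9921723449) (nat_lit 45) (nat_lit 5) (nat_lit 47) (nat_lit 5) (nat_lit 48) (nat_lit 5) (nat_lit 371) (nat_lit 295) (nat_lit 114)))) (XT.nd (nat_lit 78) (nat_lit 304) (nat_lit 0) (XT.lf (nat_lit 0) (nat_lit 38140972293) (nat_lit 152) (nat_lit 7450903202) (nat_lit 228) (nat_lit 2482491365) (nat_lit 45) (nat_lit 5) (nat_lit 47) (nat_lit 5) (nat_lit 48) (nat_lit 5) (nat_lit 372) (nat_lit 295) (nat_lit 113)) (XT.nd (nat_lit 78) (nat_lit 0) (nat_lit 0) (XT.lf (nat_lit 0) (nat_lit 5211630818) (nat_lit 304) (nat_lit 39536330823) (nat_lit 76) (nat_lit 4403639045) (nat_lit 41) (nat_lit 5) (nat_lit 45) (nat_lit 5) (nat_lit 42) (nat_lit 5) (nat_lit 373) (nat_lit 295) (nat_lit 112)) (XT.lf (nat_lit 0) (nat_lit 13258541745) (nat_lit 304) (nat_lit 20408760623) (nat_lit 76) (nat_lit 16587957909) (nat_lit 41) (nat_lit 5) (nat_lit 45) (nat_lit 5) (nat_lit 42) (nat_lit 5) (nat_lit 374) (nat_lit 295) (nat_lit 111)))))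 (XT.nd (nat_lit 234) (nat_lit 380) (nat_lit 0) (XT.nd (nat_lit 78) (nat_lit 152) (nat_lit 0) (XT.lf (nat_lit 0) (nat_lit 21543741961) (nat_lit 304) (nat_lit 712502951) (nat_lit 76) (nat_lit 29135880172) (nat_lit 41) (nat_lit 5) (nat_lit 45) (nat_lit 5) (nat_lit 42) (nat_lit 5) (nat_lit 375) (nat_lit 295) (nat_lit 110)) (XT.nd (nat_lit 78) (nat_lit 0) (nat_lit 0) (XT.lf (nat_lit 0) (nat_lit 19959126973) (nat_lit 152) (nat_lit 10307203329) (nat_lit 228) (nat_lit 22291102404) (nat_lit 39) (nat_lit 5) (nat_lit 41) (nat_lit 5) (nat_lit 42) (nat_lit 5) (nat_lit 376) (nat_lit 295) (nat_lit 109)) (XT.lf (nat_lit 0) (nat_lit 39274085278) (nat_lit 228) (nat_lit 12516285338) (nat_lit 76) (nat_lit 1966626048) (nat_lit 39) (nat_lit 5) (nat_lit 42) (nat_lit 5) (nat_lit 40) (nat_lit 5) (nat_lit 377) (nat_lit 295) (nat_lit 108)))) (XT.nd (nat_lit 156) (nat_lit 152) (nat_lit 0) (XT.nd (nat_lit 78) (nat_lit 76)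 (nat_lit 0) (XT.lf (nat_lit 0) (nat_lit 8221711785) (nat_lit 152) (nat_lit 40508526960) (nat_lit 228) (nat_lit 6256965549) (nat_lit 37) (nat_lit 5) (nat_lit 39) (nat_lit 5) (nat_lit 40) (nat_lit 5) (nat_lit 378) (nat_lit 295) (nat_lit 107)) (XT.lf (nat_lit 0) (nat_lit 2297253259) (nat_lit 228) (nat_lit 26439536050) (nat_lit 76) (nat_lit 27513149535) (nat_lit 36) (nat_lit 5) (nat_lit 39) (nat_lit 5) (nat_lit 37) (nat_lit 5) (nat_lit 379) (nat_lit 295) (nat_lit 106))) (XT.nd (nat_lit 78) (nat_lit 152) (nat_lit 0) (XT.lf (nat_lit 0) (nat_lit 10979515260) (nat_lit 228) (nat_lit 5570488314) (nat_lit 76) (nat_lit 40998779669) (nat_lit 36) (nat_lit 5) (nat_lit 39) (nat_lit 5) (nat_lit 37) (nat_lit 5) (nat_lit 380) (nat_lit 295) (nat_lit 105)) (XT.lf (nat_lit 0) (nat_lit 16236871411) (nat_lit 152) (nat_lit 3838710160) (nat_lit 228) (nat_lit 38806412845) (nat_lit 34) (nat_lit 5) (nat_lit 36) (nat_lit 5)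 (nat_lit 37) (nat_lit 5) (nat_lit 381) (nat_lit 295) (nat_lit 104))))))) (XT.nd (nat_lit 1014) (nat_lit 152) (nat_lit 0) (XT.nd (nat_lit 468) (nat_lit 304) (nat_lit 0) (XT.nd (nat_lit 234) (nat_lit 228) (nat_lit 0) (XT.nd (nat_lit 78) (nat_lit 152) (nat_lit 0) (XT.lf (nat_lit 0) (nat_lit 29587568220) (nat_lit 228) (nat_lit 21535003323) (nat_lit 76) (nat_lit 9128340719) (nat_lit 34) (nat_lit 5) (nat_lit 37) (nat_lit 5) (nat_lit 35) (nat_lit 5) (nat_lit 382) (nat_lit 295) (nat_lit 103)) (XT.nd (nat_lit 78) (nat_lit 0) (nat_lit 0) (XT.lf (nat_lit 0) (nat_lit 169230647) (nat_lit 152) (nat_lit 39252672980) (nat_lit 228) (nat_lit 22237885790) (nat_lit 32) (nat_lit 5) (nat_lit 34) (nat_lit 5) (nat_lit 35) (nat_lit 5) (nat_lit 383) (nat_lit 295) (nat_lit 102)) (XT.lf (nat_lit 0) (nat_lit 22961597490) (nat_lit 152) (nat_lit 26804522635) (nat_lit 228) (nat_lit 13338368636) (nat_lit 32) (nat_lit 5) (nat_lit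 34) (nat_lit 5) (nat_lit 35) (nat_lit 5) (nat_lit 384) (nat_lit 295) (nat_lit 101)))) (XT.nd (nat_lit 78) (nat_lit 228) (nat_lit 0) (XT.lf (nat_lit 0) (nat_lit 46433424072) (nat_lit 152) (nat_lit 13984704793) (nat_lit 228) (nat_lit 4174477610) (nat_lit 32) (nat_lit 5) (nat_lit 34) (nat_lit 5) (nat_lit 35) (nat_lit 5) (nat_lit 385) (nat_lit 295) (nat_lit 100)) (XT.nd (nat_lit 78) (nat_lit 0) (nat_lit 0) (XT.lf (nat_lit 0) (nat_lit 4517347021) (nat_lit 152) (nat_lit 685194487) (nat_lit 228) (nat_lit 60920081257) (nat_lit 29) (nat_lit 5) (nat_lit 31) (nat_lit 5) (nat_lit 32) (nat_lit 5) (nat_lit 386) (nat_lit 295) (nat_lit 99)) (XT.lf (nat_lit 0) (nat_lit 15084777102) (nat_lit 228) (nat_lit 39619112511) (nat_lit 76) (nat_lit 12984176973) (nat_lit 29) (nat_lit 5) (nat_lit 32) (nat_lit 5) (nat_lit 30) (nat_lit 5) (nat_lit 387) (nat_lit 295) (nat_lit 98))))) (XT.nd (nat_lit 234) (nat_lit 152) (nat_lit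 0) (XT.nd (nat_lit 78) (nat_lit 152) (nat_lit 0) (XT.lf (nat_lit 0) (nat_lit 25267865084) (nat_lit 228) (nat_lit 16984277667) (nat_lit 76) (nat_lit 27048200622) (nat_lit 29) (nat_lit 5) (nat_lit 32) (nat_lit 5) (nat_lit 30) (nat_lit 5) (nat_lit 388) (nat_lit 295) (nat_lit 97)) (XT.nd (nat_lit 78) (nat_lit 0) (nat_lit 0) (XT.lf (nat_lit 0) (nat_lit 6451485017) (nat_lit 152) (nat_lit 29364647393) (nat_lit 228) (nat_lit 35143066628) (nat_lit 27) (nat_lit 5) (nat_lit 29) (nat_lit 5) (nat_lit 30) (nat_lit 5) (nat_lit 389) (nat_lit 295) (nat_lit 96)) (XT.lf (nat_lit 0) (nat_lit 30934512011) (nat_lit 152) (nat_lit 15915544406) (nat_lit 228) (nat_lit 25812688838) (nat_lit 27) (nat_lit 5) (nat_lit 29) (nat_lit 5) (nat_lit 30) (nat_lit 5) (nat_lit 390) (nat_lit 295) (nat_lit 95)))) (XT.nd (nat_lit 156) (nat_lit 76) (nat_lit 0) (XT.nd (nat_lit 78) (nat_lit 76) (nat_lit 0) (XT.lf (nat_lit 0) (nat_lit 56148175824)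 (nat_lit 152) (nat_lit 2064590048) (nat_lit 228) (nat_lit 16204700065) (nat_lit 27) (nat_lit 5) (nat_lit 29) (nat_lit 5) (nat_lit 30) (nat_lit 5) (nat_lit 391) (nat_lit 295) (nat_lit 94)) (XT.lf (nat_lit 0) (nat_lit 5887217368) (nat_lit 76) (nat_lit 64200840446) (nat_lit 152) (nat_lit 6131620464) (nat_lit 26) (nat_lit 5) (nat_lit 27) (nat_lit 5) (nat_lit 28) (nat_lit 4) (nat_lit 392) (nat_lit 295) (nat_lit 93))) (XT.nd (nat_lit 78) (nat_lit 0) (nat_lit 0) (XT.lf (nat_lit 0) (nat_lit 4365417379) (nat_lit 152) (nat_lit 46994360357) (nat_lit 76) (nat_lit 26708819250) (nat_lit 25) (nat_lit 5) (nat_lit 27) (nat_lit 5) (nat_lit 26) (nat_lit 5) (nat_lit 393) (nat_lit 295) (nat_lit 92)) (XT.lf (nat_lit 0) (nat_lit 15052012987) (nat_lit 152) (nat_lit 23020515087) (nat_lit 76) (nat_lit 41898698307) (nat_lit 25) (nat_lit 5) (nat_lit 27) (nat_lit 5) (nat_lit 26) (nat_lit 5) (nat_lit 394) (nat_lit 295) (nat_lit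 91)))))) (XT.nd (nat_lit 33306) (nat_lit 0) (nat_lit 12692) (XT.nd (nat_lit 32994) (nat_lit 0) (nat_lit 13604) (XT.nd (nat_lit 78) (nat_lit 0) (nat_lit 0) (XT.lf (nat_lit 0) (nat_lit 1702179458) (nat_lit 152) (nat_lit 24371337094) (nat_lit 228) (nat_lit 55856989759) (nat_lit 23) (nat_lit 5) (nat_lit 25) (nat_lit 5) (nat_lit 26) (nat_lit 5) (nat_lit 395) (nat_lit 295) (nat_lit 90)) (XT.nd (nat_lit 32838) (nat_lit 0) (nat_lit 13604) (XT.lf (nat_lit 0) (nat_lit 27634906210) (nat_lit 152) (nat_lit 10021194461) (nat_lit 228) (nat_lit 46285551834) (nat_lit 23) (nat_lit 5) (nat_lit 25) (nat_lit 5) (nat_lit 26) (nat_lit 5) (nat_lit 396) (nat_lit 295) (nat_lit 89)) (XT.lf (nat_lit 0) (nat_lit 3609356326) (nat_lit 1140) (nat_lit 1238581902) (nat_lit 1140) (nat_lit 1238581902) (nat_lit 202) (nat_lit 3) (nat_lit 217) (nat_lit 3) (nat_lit 217) (nat_lit 5) (nat_lit 296) (nat_lit 296) (nat_lit 188)))) (XT.nd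 (nat_lit 156) (nat_lit 0) (nat_lit 76) (XT.nd (nat_lit 78) (nat_lit 0) (nat_lit 76) (XT.lf (nat_lit 76) (nat_lit 3049727525) (nat_lit 0) (nat_lit 4738540358) (nat_lit 1140) (nat_lit 4552915203) (nat_lit 203) (nat_lit 5) (nat_lit 202) (nat_lit 3) (nat_lit 217) (nat_lit 5) (nat_lit 297) (nat_lit 296) (nat_lit 187)) (XT.lf (nat_lit 0) (nat_lit 8386838986) (nat_lit 1064) (nat_lit 3733672072) (nat_lit 1140) (nat_lit 393525245) (nat_lit 203) (nat_lit 5) (nat_lit 217) (nat_lit 5) (nat_lit 218) (nat_lit 5) (nat_lit 298) (nat_lit 296) (nat_lit 186))) (XT.nd (nat_lit 78) (nat_lit 0) (nat_lit 0) (XT.lf (nat_lit 76) (nat_lit 1973232702) (nat_lit 0) (nat_lit 7079644175) (nat_lit 1140) (nat_lit 3637736234) (nat_lit 204) (nat_lit 5) (nat_lit 203) (nat_lit 5) (nat_lit 218) (nat_lit 5) (nat_lit 299) (nat_lit 296) (nat_lit 185)) (XT.lf (nat_lit 76) (nat_lit 7918770587) (nat_lit 0) (nat_lit 1841842932) (nat_lit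 1140) (nat_lit 3111244784) (nat_lit 204) (nat_lit 5) (nat_lit 203) (nat_lit 5) (nat_lit 218) (nat_lit 5) (nat_lit 300) (nat_lit 296) (nat_lit 184))))) (XT.nd (nat_lit 234) (nat_lit 1064) (nat_lit 0) (XT.nd (nat_lit 78) (nat_lit 0) (nat_lit 0) (XT.lf (nat_lit 76) (nat_lit 959301705) (nat_lit 0) (nat_lit 9558201038) (nat_lit 1140) (nat_lit 2540222443) (nat_lit 205) (nat_lit 5) (nat_lit 204) (nat_lit 5) (nat_lit 219) (nat_lit 5) (nat_lit 301) (nat_lit 296) (nat_lit 183)) (XT.nd (nat_lit 78) (nat_lit 0) (nat_lit 76) (XT.lf (nat_lit 76) (nat_lit 7122692392) (nat_lit 0) (nat_lit 4227385312) (nat_lit 1140) (nat_lit 1897522307) (nat_lit 205) (nat_lit 5) (nat_lit 204) (nat_lit 5) (nat_lit 219) (nat_lit 5) (nat_lit 302) (nat_lit 296) (nat_lit 182)) (XT.lf (nat_lit 76) (nat_lit 6243188) (nat_lit 0) (nat_lit 12198989869) (nat_lit 1140) (nat_lit 1238030618) (nat_lit 206) (nat_lit 5) (nat_lit 205) (nat_lit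 5) (nat_lit 220) (nat_lit 5) (nat_lit 303) (nat_lit 296) (nat_lit 181)))) (XT.nd (nat_lit 156) (nat_lit 0) (nat_lit 76) (XT.nd (nat_lit 78) (nat_lit 1140) (nat_lit 0) (XT.lf (nat_lit 76) (nat_lit 6394740212) (nat_lit 0) (nat_lit 6780330749) (nat_lit 1140) (nat_lit 467075539) (nat_lit 206) (nat_lit 5) (nat_lit 205) (nat_lit 5) (nat_lit 220) (nat_lit 5) (nat_lit 304) (nat_lit 296) (nat_lit 180)) (XT.lf (nat_lit 0) (nat_lit 306619735) (nat_lit 1140) (nat_lit 884724002) (nat_lit 1216) (nat_lit 12655996923) (nat_lit 190) (nat_lit 5) (nat_lit 205) (nat_lit 5) (nat_lit 206) (nat_lit 5) (nat_lit 305) (nat_lit 296) (nat_lit 179))) (XT.nd (nat_lit 78) (nat_lit 0) (nat_lit 0) (XT.lf (nat_lit 0) (nat_lit 1180501624) (nat_lit 1140) (nat_lit 8334277422) (nat_lit 1216) (nat_lit 4541200341) (nat_lit 191) (nat_lit 5) (nat_lit 206) (nat_lit 5) (nat_lit 207) (nat_lit 5) (nat_lit 306) (nat_lit 296) (nat_lit 178))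 (XT.lf (nat_lit 0) (nat_lit 2088167219) (nat_lit 1140) (nat_lit 1747603964) (nat_lit 1216) (nat_lit 10434896921) (nat_lit 191) (nat_lit 5) (nat_lit 206) (nat_lit 5) (nat_lit 207) (nat_lit 5) (nat_lit 307) (nat_lit 296) (nat_lit 177))))))))
noncomputable def xc190 : XT := (XT.nd (nat_lit 2028) (nat_lit 4332) (nat_lit 0) (XT.nd (nat_lit 1014) (nat_lit 2888) (nat_lit 0) (XT.nd (nat_lit 468) (nat_lit 2812) (nat_lit 0) (XT.nd (nat_lit 234) (nat_lit 0) (nat_lit 76) (XT.nd (nat_lit 78) (nat_lit 0) (nat_lit 0) (XT.lf (nat_lit 0) (nat_lit 3079364503) (nat_lit 1140) (nat_lit 9383164867) (nat_lit 1216) (nat_lit 2027596388) (nat_lit 192) (nat_lit 5) (nat_lit 207) (nat_lit 5) (nat_lit 208) (nat_lit 5) (nat_lit 308) (nat_lit 296) (nat_lit 176)) (XT.nd (nat_lit 78) (nat_lit 0) (nat_lit 0) (XT.lf (nat_lit 0) (nat_lit 4143551797) (nat_lit 1140) (nat_lit 2560427918) (nat_lit 1216) (nat_lit 8010906625) (nat_lit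 192) (nat_lit 5) (nat_lit 207) (nat_lit 5) (nat_lit 208) (nat_lit 5) (nat_lit 309) (nat_lit 296) (nat_lit 175)) (XT.lf (nat_lit 76) (nat_lit 4546362978) (nat_lit 0) (nat_lit 724823630) (nat_lit 1216) (nat_lit 9674273807) (nat_lit 193) (nat_lit 5) (nat_lit 192) (nat_lit 5) (nat_lit 208) (nat_lit 5) (nat_lit 310) (nat_lit 296) (nat_lit 174)))) (XT.nd (nat_lit 78) (nat_lit 0) (nat_lit 0) (XT.lf (nat_lit 0) (nat_lit 6499104774) (nat_lit 1140) (nat_lit 3325471656) (nat_lit 1216) (nat_lit 5356397508) (nat_lit 193) (nat_lit 5) (nat_lit 208) (nat_lit 5) (nat_lit 209) (nat_lit 5) (nat_lit 311) (nat_lit 296) (nat_lit 173)) (XT.nd (nat_lit 78) (nat_lit 0) (nat_lit 76) (XT.lf (nat_lit 76) (nat_lit 4022305851) (nat_lit 0) (nat_lit 3775853154) (nat_lit 1216) (nat_lit 7624380301) (nat_lit 194) (nat_lit 5) (nat_lit 193) (nat_lit 5) (nat_lit 209) (nat_lit 5) (nat_lit 312) (nat_lit 296) (nat_lit 172)) (XT.lf (nat_lit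 0) (nat_lit 9182414213) (nat_lit 1140) (nat_lit 4045235240) (nat_lit 76) (nat_lit 2442330248) (nat_lit 194) (nat_lit 5) (nat_lit 209) (nat_lit 5) (nat_lit 195) (nat_lit 5) (nat_lit 313) (nat_lit 296) (nat_lit 171))))) (XT.nd (nat_lit 234) (nat_lit 1216) (nat_lit 0) (XT.nd (nat_lit 78) (nat_lit 608) (nat_lit 0) (XT.lf (nat_lit 0) (nat_lit 3552989374) (nat_lit 1140) (nat_lit 7115797919) (nat_lit 1216) (nat_lit 5254252819) (nat_lit 179) (nat_lit 5) (nat_lit 194) (nat_lit 5) (nat_lit 195) (nat_lit 5) (nat_lit 314) (nat_lit 296) (nat_lit 170)) (XT.nd (nat_lit 78) (nat_lit 608) (nat_lit 0) (XT.lf (nat_lit 0) (nat_lit 11452805468) (nat_lit 1140) (nat_lit 777076747) (nat_lit 1216) (nat_lit 3952920288) (nat_lit 179) (nat_lit 5) (nat_lit 194) (nat_lit 5) (nat_lit 195) (nat_lit 5) (nat_lit 315) (nat_lit 296) (nat_lit 169)) (XT.lf (nat_lit 0) (nat_lit 3135811719) (nat_lit 608) (nat_lit 10777038811) (nat_lit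 684) (nat_lit 2535269698) (nat_lit 171) (nat_lit 5) (nat_lit 179) (nat_lit 5) (nat_lit 180) (nat_lit 5) (nat_lit 316) (nat_lit 296) (nat_lit 168)))) (XT.nd (nat_lit 156) (nat_lit 532) (nat_lit 0) (XT.nd (nat_lit 78) (nat_lit 684) (nat_lit 0) (XT.lf (nat_lit 0) (nat_lit 11317452069) (nat_lit 608) (nat_lit 4374058969) (nat_lit 684) (nat_lit 1028543630) (nat_lit 171) (nat_lit 5) (nat_lit 179) (nat_lit 5) (nat_lit 180) (nat_lit 5) (nat_lit 317) (nat_lit 296) (nat_lit 167)) (XT.lf (nat_lit 0) (nat_lit 551616652) (nat_lit 684) (nat_lit 14236676482) (nat_lit 76) (nat_lit 2210562227) (nat_lit 162) (nat_lit 5) (nat_lit 171) (nat_lit 5) (nat_lit 163) (nat_lit 5) (nat_lit 318) (nat_lit 296) (nat_lit 166))) (XT.nd (nat_lit 78) (nat_lit 532) (nat_lit 0) (XT.lf (nat_lit 0) (nat_lit 2247129498) (nat_lit 684) (nat_lit 6065182851) (nat_lit 76) (nat_lit 8970755756) (nat_lit 162) (nat_lit 5) (nat_lit 171) (nat_lit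 5) (nat_lit 163) (nat_lit 5) (nat_lit 319) (nat_lit 296) (nat_lit 165)) (XT.lf (nat_lit 0) (nat_lit 2388926482) (nat_lit 532) (nat_lit 1618047108) (nat_lit 608) (nat_lit 13568441464) (nat_lit 155) (nat_lit 5) (nat_lit 162) (nat_lit 5) (nat_lit 163) (nat_lit 5) (nat_lit 320) (nat_lit 296) (nat_lit 164)))))) (XT.nd (nat_lit 468) (nat_lit 1368) (nat_lit 0) (XT.nd (nat_lit 234) (nat_lit 988) (nat_lit 0) (XT.nd (nat_lit 78) (nat_lit 532) (nat_lit 0) (XT.lf (nat_lit 0) (nat_lit 5922886107) (nat_lit 608) (nat_lit 6714387351) (nat_lit 76) (nat_lit 5236172214) (nat_lit 155) (nat_lit 5) (nat_lit 163) (nat_lit 5) (nat_lit 156) (nat_lit 5) (nat_lit 321) (nat_lit 296) (nat_lit 163)) (XT.nd (nat_lit 78) (nat_lit 0) (nat_lit 0) (XT.lf (nat_lit 0) (nat_lit 2026320620) (nat_lit 532) (nat_lit 5896418981) (nat_lit 608) (nat_lit 10256894822) (nat_lit 148) (nat_lit 5) (nat_lit 155) (nat_lit 5) (nat_lit 156) (nat_lit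 5) (nat_lit 322) (nat_lit 296) (nat_lit 162)) (XT.lf (nat_lit 0) (nat_lit 10052263911) (nat_lit 608) (nat_lit 7346082175) (nat_lit 76) (nat_lit 1094583291) (nat_lit 148) (nat_lit 5) (nat_lit 156) (nat_lit 5) (nat_lit 149) (nat_lit 5) (nat_lit 323) (nat_lit 296) (nat_lit 161)))) (XT.nd (nat_lit 78) (nat_lit 532) (nat_lit 0) (XT.lf (nat_lit 0) (nat_lit 1690989983) (nat_lit 456) (nat_lit 10620717832) (nat_lit 532) (nat_lit 6501944832) (nat_lit 142) (nat_lit 5) (nat_lit 148) (nat_lit 5) (nat_lit 149) (nat_lit 5) (nat_lit 324) (nat_lit 296) (nat_lit 160)) (XT.nd (nat_lit 78) (nat_lit 532) (nat_lit 0) (XT.lf (nat_lit 0) (nat_lit 11140856623) (nat_lit 456) (nat_lit 3563823011) (nat_lit 532) (nat_lit 4437355820) (nat_lit 142) (nat_lit 5) (nat_lit 148) (nat_lit 5) (nat_lit 149) (nat_lit 5) (nat_lit 325) (nat_lit 296) (nat_lit 159)) (XT.lf (nat_lit 0) (nat_lit 1376296395) (nat_lit 532) (nat_lit 15833791533)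 (nat_lit 608) (nat_lit 2268972279) (nat_lit 135) (nat_lit 5) (nat_lit 142) (nat_lit 5) (nat_lit 143) (nat_lit 5) (nat_lit 326) (nat_lit 296) (nat_lit 158))))) (XT.nd (nat_lit 234) (nat_lit 836) (nat_lit 0) (XT.nd (nat_lit 78) (nat_lit 456) (nat_lit 0) (XT.lf (nat_lit 0) (nat_lit 73907687) (nat_lit 608) (nat_lit 8669384262) (nat_lit 76) (nat_lit 11079660772) (nat_lit 134) (nat_lit 5) (nat_lit 142) (nat_lit 5) (nat_lit 135) (nat_lit 5) (nat_lit 327) (nat_lit 296) (nat_lit 157)) (XT.nd (nat_lit 78) (nat_lit 0) (nat_lit 0) (XT.lf (nat_lit 0) (nat_lit 1036028924) (nat_lit 456) (nat_lit 1407506680) (nat_lit 532) (nat_lit 17732899528) (nat_lit 128) (nat_lit 5) (nat_lit 134) (nat_lit 5) (nat_lit 135) (nat_lit 5) (nat_lit 328) (nat_lit 296) (nat_lit 156)) (XT.lf (nat_lit 0) (nat_lit 5024009714) (nat_lit 532) (nat_lit 9396412299) (nat_lit 76) (nat_lit 6115916060) (nat_lit 128) (nat_lit 5) (nat_lit 135)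 (nat_lit 5) (nat_lit 129) (nat_lit 5) (nat_lit 329) (nat_lit 296) (nat_lit 155)))) (XT.nd (nat_lit 156) (nat_lit 380) (nat_lit 0) (XT.nd (nat_lit 78) (nat_lit 0) (nat_lit 0) (XT.lf (nat_lit 0) (nat_lit 629644099) (nat_lit 456) (nat_lit 7064713133) (nat_lit 532) (nat_lit 13212315618) (nat_lit 122) (nat_lit 5) (nat_lit 128) (nat_lit 5) (nat_lit 129) (nat_lit 5) (nat_lit 330) (nat_lit 296) (nat_lit 154)) (XT.lf (nat_lit 0) (nat_lit 10538155857) (nat_lit 532) (nat_lit 10150772588) (nat_lit 76) (nat_lit 596397280) (nat_lit 122) (nat_lit 5) (nat_lit 129) (nat_lit 5) (nat_lit 123) (nat_lit 5) (nat_lit 331) (nat_lit 296) (nat_lit 153))) (XT.nd (nat_lit 78) (nat_lit 0) (nat_lit 0) (XT.lf (nat_lit 0) (nat_lit 204832280) (nat_lit 380) (nat_lit 13327165822) (nat_lit 456) (nat_lit 8141406229) (nat_lit 117) (nat_lit 5) (nat_lit 122) (nat_lit 5) (nat_lit 123) (nat_lit 5) (nat_lit 332) (nat_lit 296) (nat_lit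 152)) (XT.lf (nat_lit 0) (nat_lit 11070781058) (nat_lit 380) (nat_lit 5640319024) (nat_lit 456) (nat_lit 5359169679) (nat_lit 117) (nat_lit 5) (nat_lit 122) (nat_lit 5) (nat_lit 123) (nat_lit 5) (nat_lit 333) (nat_lit 296) (nat_lit 151))))))) (XT.nd (nat_lit 1014) (nat_lit 2052) (nat_lit 0) (XT.nd (nat_lit 468) (nat_lit 1064) (nat_lit 0) (XT.nd (nat_lit 234) (nat_lit 760) (nat_lit 0) (XT.nd (nat_lit 78) (nat_lit 456) (nat_lit 0) (XT.lf (nat_lit 0) (nat_lit 20000598905) (nat_lit 456) (nat_lit 246582955) (nat_lit 76) (nat_lit 2231416154) (nat_lit 117) (nat_lit 5) (nat_lit 123) (nat_lit 5) (nat_lit 118) (nat_lit 5) (nat_lit 334) (nat_lit 296) (nat_lit 150)) (XT.nd (nat_lit 78) (nat_lit 0) (nat_lit 0) (XT.lf (nat_lit 0) (nat_lit 636295237) (nat_lit 456) (nat_lit 11921588704) (nat_lit 76) (nat_lit 10336470839) (nat_lit 111) (nat_lit 5) (nat_lit 117) (nat_lit 5) (nat_lit 112) (nat_lit 5) (nat_lit 335)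 (nat_lit 296) (nat_lit 149)) (XT.lf (nat_lit 0) (nat_lit 3790107332) (nat_lit 456) (nat_lit 821495049) (nat_lit 76) (nat_lit 18710375934) (nat_lit 111) (nat_lit 5) (nat_lit 117) (nat_lit 5) (nat_lit 112) (nat_lit 5) (nat_lit 336) (nat_lit 296) (nat_lit 148)))) (XT.nd (nat_lit 78) (nat_lit 380) (nat_lit 0) (XT.lf (nat_lit 0) (nat_lit 7171424957) (nat_lit 456) (nat_lit 12980175895) (nat_lit 76) (nat_lit 3606849696) (nat_lit 106) (nat_lit 5) (nat_lit 112) (nat_lit 5) (nat_lit 107) (nat_lit 5) (nat_lit 337) (nat_lit 296) (nat_lit 147)) (XT.nd (nat_lit 78) (nat_lit 380) (nat_lit 0) (XT.lf (nat_lit 0) (nat_lit 10701888382) (nat_lit 456) (nat_lit 1518674031) (nat_lit 76) (nat_lit 11986029880) (nat_lit 106) (nat_lit 5) (nat_lit 112) (nat_lit 5) (nat_lit 107) (nat_lit 5) (nat_lit 338) (nat_lit 296) (nat_lit 146)) (XT.lf (nat_lit 0) (nat_lit 10483435013) (nat_lit 380) (nat_lit 3949457497) (nat_lit 456)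 (nat_lit 10232453318) (nat_lit 101) (nat_lit 5) (nat_lit 106) (nat_lit 5) (nat_lit 107) (nat_lit 5) (nat_lit 339) (nat_lit 296) (nat_lit 145))))) (XT.nd (nat_lit 234) (nat_lit 684) (nat_lit 0) (XT.nd (nat_lit 78) (nat_lit 380) (nat_lit 0) (XT.lf (nat_lit 0) (nat_lit 18329183837) (nat_lit 456) (nat_lit 2312644684) (nat_lit 76) (nat_lit 4494438893) (nat_lit 101) (nat_lit 5) (nat_lit 107) (nat_lit 5) (nat_lit 102) (nat_lit 5) (nat_lit 340) (nat_lit 296) (nat_lit 144)) (XT.nd (nat_lit 78) (nat_lit 76) (nat_lit 0) (XT.lf (nat_lit 0) (nat_lit 10062275202) (nat_lit 304) (nat_lit 12410035509) (nat_lit 380) (nat_lit 3145113512) (nat_lit 97) (nat_lit 5) (nat_lit 101) (nat_lit 5) (nat_lit 102) (nat_lit 5) (nat_lit 341) (nat_lit 296) (nat_lit 143)) (XT.lf (nat_lit 0) (nat_lit 632224426) (nat_lit 380) (nat_lit 3270439791) (nat_lit 76) (nat_lit 22209644274) (nat_lit 96) (nat_lit 5) (nat_lit 101) (nat_lit 5)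 (nat_lit 97) (nat_lit 5) (nat_lit 342) (nat_lit 296) (nat_lit 142)))) (XT.nd (nat_lit 156) (nat_lit 304) (nat_lit 0) (XT.nd (nat_lit 78) (nat_lit 0) (nat_lit 0) (XT.lf (nat_lit 0) (nat_lit 4593517013) (nat_lit 456) (nat_lit 17136302472) (nat_lit 76) (nat_lit 4887275636) (nat_lit 91) (nat_lit 5) (nat_lit 97) (nat_lit 5) (nat_lit 92) (nat_lit 5) (nat_lit 343) (nat_lit 296) (nat_lit 141)) (XT.lf (nat_lit 0) (nat_lit 8740041072) (nat_lit 456) (nat_lit 4500974447) (nat_lit 76) (nat_lit 13894023363) (nat_lit 91) (nat_lit 5) (nat_lit 97) (nat_lit 5) (nat_lit 92) (nat_lit 5) (nat_lit 344) (nat_lit 296) (nat_lit 140))) (XT.nd (nat_lit 78) (nat_lit 0) (nat_lit 0) (XT.lf (nat_lit 0) (nat_lit 8675345809) (nat_lit 304) (nat_lit 4413571313) (nat_lit 380) (nat_lit 14577270301) (nat_lit 87) (nat_lit 5) (nat_lit 91) (nat_lit 5) (nat_lit 92) (nat_lit 5) (nat_lit 345) (nat_lit 296) (nat_lit 139)) (XT.lf (nat_lit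 0) (nat_lit 17653768250) (nat_lit 380) (nat_lit 5925539755) (nat_lit 76) (nat_lit 4631402159) (nat_lit 87) (nat_lit 5) (nat_lit 92) (nat_lit 5) (nat_lit 88) (nat_lit 5) (nat_lit 346) (nat_lit 296) (nat_lit 138)))))) (XT.nd (nat_lit 546) (nat_lit 836) (nat_lit 0) (XT.nd (nat_lit 234) (nat_lit 532) (nat_lit 0) (XT.nd (nat_lit 78) (nat_lit 380) (nat_lit 0) (XT.lf (nat_lit 0) (nat_lit 7629692000) (nat_lit 304) (nat_lit 14837702495) (nat_lit 380) (nat_lit 6300824065) (nat_lit 83) (nat_lit 5) (nat_lit 87) (nat_lit 5) (nat_lit 88) (nat_lit 5) (nat_lit 347) (nat_lit 296) (nat_lit 137)) (XT.nd (nat_lit 78) (nat_lit 380) (nat_lit 0) (XT.lf (nat_lit 0) (nat_lit 21705905977) (nat_lit 304) (nat_lit 5774232577) (nat_lit 380) (nat_lit 1860677102) (nat_lit 83) (nat_lit 5) (nat_lit 87) (nat_lit 5) (nat_lit 88) (nat_lit 5) (nat_lit 348) (nat_lit 296) (nat_lit 136)) (XT.lf (nat_lit 0) (nat_lit 2750968343) (nat_lit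 380) (nat_lit 23598301857) (nat_lit 76) (nat_lit 3577805793) (nat_lit 78) (nat_lit 5) (nat_lit 83) (nat_lit 5) (nat_lit 79) (nat_lit 5) (nat_lit 349) (nat_lit 296) (nat_lit 135)))) (XT.nd (nat_lit 156) (nat_lit 228) (nat_lit 0) (XT.nd (nat_lit 78) (nat_lit 304) (nat_lit 0) (XT.lf (nat_lit 0) (nat_lit 7593625377) (nat_lit 380) (nat_lit 9744194609) (nat_lit 76) (nat_lit 13188653997) (nat_lit 78) (nat_lit 5) (nat_lit 83) (nat_lit 5) (nat_lit 79) (nat_lit 5) (nat_lit 350) (nat_lit 296) (nat_lit 134)) (XT.lf (nat_lit 0) (nat_lit 4608569013) (nat_lit 304) (nat_lit 8012466709) (nat_lit 380) (nat_lit 18521638177) (nat_lit 74) (nat_lit 5) (nat_lit 78) (nat_lit 5) (nat_lit 79) (nat_lit 5) (nat_lit 351) (nat_lit 296) (nat_lit 133))) (XT.nd (nat_lit 78) (nat_lit 228) (nat_lit 0) (XT.lf (nat_lit 0) (nat_lit 17909177554) (nat_lit 380) (nat_lit 12205985310) (nat_lit 76) (nat_lit 1658903742) (nat_lit 74) (nat_lit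 5) (nat_lit 79) (nat_lit 5) (nat_lit 75) (nat_lit 5) (nat_lit 352) (nat_lit 296) (nat_lit 132)) (XT.lf (nat_lit 0) (nat_lit 2514969538) (nat_lit 228) (nat_lit 20939868057) (nat_lit 304) (nat_lit 8966601234) (nat_lit 71) (nat_lit 5) (nat_lit 74) (nat_lit 5) (nat_lit 75) (nat_lit 5) (nat_lit 353) (nat_lit 296) (nat_lit 131))))) (XT.nd (nat_lit 234) (nat_lit 456) (nat_lit 0) (XT.nd (nat_lit 78) (nat_lit 380) (nat_lit 0) (XT.lf (nat_lit 0) (nat_lit 17921076896) (nat_lit 228) (nat_lit 11364484893) (nat_lit 304) (nat_lit 3799113436) (nat_lit 71) (nat_lit 5) (nat_lit 74) (nat_lit 5) (nat_lit 75) (nat_lit 5) (nat_lit 354) (nat_lit 296) (nat_lit 130)) (XT.nd (nat_lit 78) (nat_lit 0) (nat_lit 0) (XT.lf (nat_lit 0) (nat_lit 336667) (nat_lit 304) (nat_lit 1488861766) (nat_lit 380) (nat_lit 32278308789) (nat_lit 66) (nat_lit 5) (nat_lit 70) (nat_lit 5) (nat_lit 71) (nat_lit 5) (nat_lit 355) (nat_lit 296) (nat_lit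 129)) (XT.lf (nat_lit 0) (nat_lit 7093477139) (nat_lit 380) (nat_lit 18665435286) (nat_lit 76) (nat_lit 8703776537) (nat_lit 66) (nat_lit 5) (nat_lit 71) (nat_lit 5) (nat_lit 67) (nat_lit 5) (nat_lit 356) (nat_lit 296) (nat_lit 128)))) (XT.nd (nat_lit 156) (nat_lit 228) (nat_lit 0) (XT.nd (nat_lit 78) (nat_lit 228) (nat_lit 0) (XT.lf (nat_lit 0) (nat_lit 12876325049) (nat_lit 380) (nat_lit 3131831642) (nat_lit 76) (nat_lit 19170259649) (nat_lit 66) (nat_lit 5) (nat_lit 71) (nat_lit 5) (nat_lit 67) (nat_lit 5) (nat_lit 357) (nat_lit 296) (nat_lit 127)) (XT.lf (nat_lit 0) (nat_lit 13117494848) (nat_lit 228) (nat_lit 5837081822) (nat_lit 304) (nat_lit 16957384631) (nat_lit 63) (nat_lit 5) (nat_lit 66) (nat_lit 5) (nat_lit 67) (nat_lit 5) (nat_lit 358) (nat_lit 296) (nat_lit 126))) (XT.nd (nat_lit 78) (nat_lit 228) (nat_lit 0) (XT.lf (nat_lit 0) (nat_lit 25287575393) (nat_lit 304) (nat_lit 6799270588)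 (nat_lit 76) (nat_lit 4578497857) (nat_lit 63) (nat_lit 5) (nat_lit 67) (nat_lit 5) (nat_lit 64) (nat_lit 5) (nat_lit 359) (nat_lit 296) (nat_lit 125)) (XT.lf (nat_lit 0) (nat_lit 9803166737) (nat_lit 228) (nat_lit 22155411605) (nat_lit 304) (nat_lit 5478312201) (nat_lit 60) (nat_lit 5) (nat_lit 63) (nat_lit 5) (nat_lit 64) (nat_lit 5) (nat_lit 360) (nat_lit 296) (nat_lit 124))))))))
noncomputable def xc191 : XT := (XT.nd (nat_lit 2106) (nat_lit 456) (nat_lit 0) (XT.nd (nat_lit 1014) (nat_lit 1216) (nat_lit 0) (XT.nd (nat_lit 468) (nat_lit 608) (nat_lit 0) (XT.nd (nat_lit 234) (nat_lit 228) (nat_lit 0) (XT.nd (nat_lit 78) (nat_lit 228) (nat_lit 0) (XT.lf (nat_lit 0) (nat_lit 651799075) (nat_lit 304) (nat_lit 11199036795) (nat_lit 76) (nat_lit 26378617943) (nat_lit 59) (nat_lit 5) (nat_lit 63) (nat_lit 5) (nat_lit 60) (nat_lit 5) (nat_lit 361) (nat_lit 296) (nat_lit 123)) (XT.nd (nat_lit 78) (nat_lit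 0) (nat_lit 0) (XT.lf (nat_lit 0) (nat_lit 5781303859) (nat_lit 228) (nat_lit 1126094875) (nat_lit 304) (nat_lit 32135220070) (nat_lit 56) (nat_lit 5) (nat_lit 59) (nat_lit 5) (nat_lit 60) (nat_lit 5) (nat_lit 362) (nat_lit 296) (nat_lit 122)) (XT.lf (nat_lit 0) (nat_lit 13556391782) (nat_lit 304) (nat_lit 16478641993) (nat_lit 76) (nat_lit 9838975980) (nat_lit 56) (nat_lit 5) (nat_lit 60) (nat_lit 5) (nat_lit 57) (nat_lit 5) (nat_lit 363) (nat_lit 296) (nat_lit 121)))) (XT.nd (nat_lit 78) (nat_lit 0) (nat_lit 0) (XT.lf (nat_lit 0) (nat_lit 806270293) (nat_lit 228) (nat_lit 19613752648) (nat_lit 304) (nat_lit 20309867136) (nat_lit 53) (nat_lit 5) (nat_lit 56) (nat_lit 5) (nat_lit 57) (nat_lit 5) (nat_lit 364) (nat_lit 296) (nat_lit 120)) (XT.nd (nat_lit 78) (nat_lit 0) (nat_lit 0) (XT.lf (nat_lit 0) (nat_lit 18941758421) (nat_lit 228) (nat_lit 8710528332) (nat_lit 304) (nat_lit 13954280956) (nat_lit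 53) (nat_lit 5) (nat_lit 56) (nat_lit 5) (nat_lit 57) (nat_lit 5) (nat_lit 365) (nat_lit 296) (nat_lit 119)) (XT.lf (nat_lit 0) (nat_lit 35122149650) (nat_lit 304) (nat_lit 4918145987) (nat_lit 76) (nat_lit 2468633635) (nat_lit 53) (nat_lit 5) (nat_lit 57) (nat_lit 5) (nat_lit 54) (nat_lit 5) (nat_lit 366) (nat_lit 296) (nat_lit 118))))) (XT.nd (nat_lit 234) (nat_lit 152) (nat_lit 0) (XT.nd (nat_lit 78) (nat_lit 304) (nat_lit 0) (XT.lf (nat_lit 0) (nat_lit 13533232469) (nat_lit 152) (nat_lit 29495722490) (nat_lit 228) (nat_lit 403023790) (nat_lit 51) (nat_lit 5) (nat_lit 53) (nat_lit 5) (nat_lit 54) (nat_lit 5) (nat_lit 367) (nat_lit 296) (nat_lit 117)) (XT.nd (nat_lit 78) (nat_lit 228) (nat_lit 0) (XT.lf (nat_lit 0) (nat_lit 6704424477) (nat_lit 228) (nat_lit 11813565349) (nat_lit 76) (nat_lit 25861373591) (nat_lit 50) (nat_lit 5) (nat_lit 53) (nat_lit 5) (nat_lit 51) (nat_lit 5) (nat_lit 368)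 (nat_lit 296) (nat_lit 116)) (XT.lf (nat_lit 0) (nat_lit 6940229658) (nat_lit 228) (nat_lit 7140107599) (nat_lit 304) (nat_lit 31272814667) (nat_lit 47) (nat_lit 5) (nat_lit 50) (nat_lit 5) (nat_lit 51) (nat_lit 5) (nat_lit 369) (nat_lit 296) (nat_lit 115)))) (XT.nd (nat_lit 156) (nat_lit 152) (nat_lit 0) (XT.nd (nat_lit 78) (nat_lit 0) (nat_lit 0) (XT.lf (nat_lit 0) (nat_lit 21838675096) (nat_lit 304) (nat_lit 19904378446) (nat_lit 76) (nat_lit 4608268303) (nat_lit 47) (nat_lit 5) (nat_lit 51) (nat_lit 5) (nat_lit 48) (nat_lit 5) (nat_lit 370) (nat_lit 296) (nat_lit 114)) (XT.lf (nat_lit 0) (nat_lit 29897210098) (nat_lit 304) (nat_lit 916524732) (nat_lit 76) (nat_lit 16563680747) (nat_lit 47) (nat_lit 5) (nat_lit 51) (nat_lit 5) (nat_lit 48) (nat_lit 5) (nat_lit 371) (nat_lit 296) (nat_lit 113))) (XT.nd (nat_lit 78) (nat_lit 0) (nat_lit 0) (XT.lf (nat_lit 0) (nat_lit 19006755547) (nat_lit 152)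 (nat_lit 19370297636) (nat_lit 228) (nat_lit 10051854440) (nat_lit 45) (nat_lit 5) (nat_lit 47) (nat_lit 5) (nat_lit 48) (nat_lit 5) (nat_lit 372) (nat_lit 296) (nat_lit 112)) (XT.lf (nat_lit 0) (nat_lit 39541472779) (nat_lit 152) (nat_lit 7575964639) (nat_lit 228) (nat_lit 2394324638) (nat_lit 45) (nat_lit 5) (nat_lit 47) (nat_lit 5) (nat_lit 48) (nat_lit 5) (nat_lit 373) (nat_lit 296) (nat_lit 111)))))) (XT.nd (nat_lit 546) (nat_lit 532) (nat_lit 0) (XT.nd (nat_lit 234) (nat_lit 380) (nat_lit 0) (XT.nd (nat_lit 78) (nat_lit 0) (nat_lit 0) (XT.lf (nat_lit 0) (nat_lit 5526231664) (nat_lit 304) (nat_lit 40461565399) (nat_lit 76) (nat_lit 4633508282) (nat_lit 41) (nat_lit 5) (nat_lit 45) (nat_lit 5) (nat_lit 42) (nat_lit 5) (nat_lit 374) (nat_lit 296) (nat_lit 110)) (XT.nd (nat_lit 78) (nat_lit 0) (nat_lit 0) (XT.lf (nat_lit 0) (nat_lit 13809940639) (nat_lit 304) (nat_lit 20767765822) (nat_lit 76)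 (nat_lit 17180509331) (nat_lit 41) (nat_lit 5) (nat_lit 45) (nat_lit 5) (nat_lit 42) (nat_lit 5) (nat_lit 375) (nat_lit 296) (nat_lit 109)) (XT.lf (nat_lit 0) (nat_lit 22339221833) (nat_lit 304) (nat_lit 487996855) (nat_lit 76) (nat_lit 30102104815) (nat_lit 41) (nat_lit 5) (nat_lit 45) (nat_lit 5) (nat_lit 42) (nat_lit 5) (nat_lit 376) (nat_lit 296) (nat_lit 108)))) (XT.nd (nat_lit 156) (nat_lit 228) (nat_lit 0) (XT.nd (nat_lit 78) (nat_lit 0) (nat_lit 0) (XT.lf (nat_lit 0) (nat_lit 20801371366) (nat_lit 152) (nat_lit 10520112158) (nat_lit 228) (nat_lit 22808169588) (nat_lit 39) (nat_lit 5) (nat_lit 41) (nat_lit 5) (nat_lit 42) (nat_lit 5) (nat_lit 377) (nat_lit 296) (nat_lit 107)) (XT.lf (nat_lit 0) (nat_lit 40596083640) (nat_lit 228) (nat_lit 12651922059) (nat_lit 76) (nat_lit 2117302470) (nat_lit 39) (nat_lit 5) (nat_lit 42) (nat_lit 5) (nat_lit 40) (nat_lit 5) (nat_lit 378) (nat_lit 296)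 (nat_lit 106))) (XT.nd (nat_lit 78) (nat_lit 76) (nat_lit 0) (XT.lf (nat_lit 0) (nat_lit 8705863489) (nat_lit 152) (nat_lit 41628153576) (nat_lit 228) (nat_lit 6298464582) (nat_lit 37) (nat_lit 5) (nat_lit 39) (nat_lit 5) (nat_lit 40) (nat_lit 5) (nat_lit 379) (nat_lit 296) (nat_lit 105)) (XT.lf (nat_lit 0) (nat_lit 2505352266) (nat_lit 228) (nat_lit 26999291386) (nat_lit 76) (nat_lit 28428540017) (nat_lit 36) (nat_lit 5) (nat_lit 39) (nat_lit 5) (nat_lit 37) (nat_lit 5) (nat_lit 380) (nat_lit 296) (nat_lit 104))))) (XT.nd (nat_lit 234) (nat_lit 380) (nat_lit 0) (XT.nd (nat_lit 78) (nat_lit 152) (nat_lit 0) (XT.lf (nat_lit 0) (nat_lit 11444028300) (nat_lit 228) (nat_lit 5510971172) (nat_lit 76) (nat_lit 42316117812) (nat_lit 36) (nat_lit 5) (nat_lit 39) (nat_lit 5) (nat_lit 37) (nat_lit 5) (nat_lit 381) (nat_lit 296) (nat_lit 103)) (XT.nd (nat_lit 78) (nat_lit 0) (nat_lit 0) (XT.lf (nat_lit 0)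 (nat_lit 16948387464) (nat_lit 152) (nat_lit 3862810546) (nat_lit 228) (nat_lit 39833182342) (nat_lit 34) (nat_lit 5) (nat_lit 36) (nat_lit 5) (nat_lit 37) (nat_lit 5) (nat_lit 382) (nat_lit 296) (nat_lit 102)) (XT.lf (nat_lit 0) (nat_lit 30605510147) (nat_lit 228) (nat_lit 21960074322) (nat_lit 76) (nat_lit 9488874428) (nat_lit 34) (nat_lit 5) (nat_lit 37) (nat_lit 5) (nat_lit 35) (nat_lit 5) (nat_lit 383) (nat_lit 296) (nat_lit 101)))) (XT.nd (nat_lit 156) (nat_lit 228) (nat_lit 0) (XT.nd (nat_lit 78) (nat_lit 0) (nat_lit 0) (XT.lf (nat_lit 0) (nat_lit 393120205) (nat_lit 152) (nat_lit 40340063192) (nat_lit 228) (nat_lit 22772471812) (nat_lit 32) (nat_lit 5) (nat_lit 34) (nat_lit 5) (nat_lit 35) (nat_lit 5) (nat_lit 384) (nat_lit 296) (nat_lit 100)) (XT.lf (nat_lit 0) (nat_lit 23862884870) (nat_lit 152) (nat_lit 27521095229) (nat_lit 228) (nat_lit 13609829838) (nat_lit 32) (nat_lit 5) (nat_lit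 34) (nat_lit 5) (nat_lit 35) (nat_lit 5) (nat_lit 385) (nat_lit 296) (nat_lit 99))) (XT.nd (nat_lit 78) (nat_lit 228) (nat_lit 0) (XT.lf (nat_lit 0) (nat_lit 48032678693) (nat_lit 152) (nat_lit 14319233233) (nat_lit 228) (nat_lit 4174770330) (nat_lit 32) (nat_lit 5) (nat_lit 34) (nat_lit 5) (nat_lit 35) (nat_lit 5) (nat_lit 386) (nat_lit 296) (nat_lit 98)) (XT.lf (nat_lit 0) (nat_lit 4859574128) (nat_lit 152) (nat_lit 619966099) (nat_lit 228) (nat_lit 62623072053) (nat_lit 29) (nat_lit 5) (nat_lit 31) (nat_lit 5) (nat_lit 32) (nat_lit 5) (nat_lit 387) (nat_lit 296) (nat_lit 97))))))) (XT.nd (nat_lit 33852) (nat_lit 0) (nat_lit 12692) (XT.nd (nat_lit 468) (nat_lit 228) (nat_lit 0) (XT.nd (nat_lit 234) (nat_lit 76) (nat_lit 0) (XT.nd (nat_lit 78) (nat_lit 152) (nat_lit 0) (XT.lf (nat_lit 0) (nat_lit 15655521468) (nat_lit 228) (nat_lit 40604218650) (nat_lit 76) (nat_lit 13455362731) (nat_lit 29)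 (nat_lit 5) (nat_lit 32) (nat_lit 5) (nat_lit 30) (nat_lit 5) (nat_lit 388) (nat_lit 296) (nat_lit 96)) (XT.nd (nat_lit 78) (nat_lit 152) (nat_lit 0) (XT.lf (nat_lit 0) (nat_lit 26140659340) (nat_lit 228) (nat_lit 17296264991) (nat_lit 76) (nat_lit 27938928630) (nat_lit 29) (nat_lit 5) (nat_lit 32) (nat_lit 5) (nat_lit 30) (nat_lit 5) (nat_lit 389) (nat_lit 296) (nat_lit 95)) (XT.lf (nat_lit 0) (nat_lit 6840633897) (nat_lit 152) (nat_lit 30163278583) (nat_lit 228) (nat_lit 36080607371) (nat_lit 27) (nat_lit 5) (nat_lit 29) (nat_lit 5) (nat_lit 30) (nat_lit 5) (nat_lit 390) (nat_lit 296) (nat_lit 94)))) (XT.nd (nat_lit 78) (nat_lit 76) (nat_lit 0) (XT.lf (nat_lit 0) (nat_lit 32052454488) (nat_lit 152) (nat_lit 16313099833) (nat_lit 228) (nat_lit 26473718770) (nat_lit 27) (nat_lit 5) (nat_lit 29) (nat_lit 5) (nat_lit 30) (nat_lit 5) (nat_lit 391) (nat_lit 296) (nat_lit 93)) (XT.nd (nat_lit 78) (nat_lit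 76) (nat_lit 0) (XT.lf (nat_lit 0) (nat_lit 58016996940) (nat_lit 152) (nat_lit 2048944347) (nat_lit 228) (nat_lit 16580791811) (nat_lit 27) (nat_lit 5) (nat_lit 29) (nat_lit 5) (nat_lit 30) (nat_lit 5) (nat_lit 392) (nat_lit 296) (nat_lit 92)) (XT.lf (nat_lit 0) (nat_lit 6248888545) (nat_lit 76) (nat_lit 66047995899) (nat_lit 152) (nat_lit 6206147137) (nat_lit 26) (nat_lit 5) (nat_lit 27) (nat_lit 5) (nat_lit 28) (nat_lit 4) (nat_lit 393) (nat_lit 296) (nat_lit 91))))) (XT.nd (nat_lit 33072) (nat_lit 0) (nat_lit 13604) (XT.nd (nat_lit 78) (nat_lit 152) (nat_lit 0) (XT.lf (nat_lit 0) (nat_lit 4600541769) (nat_lit 152) (nat_lit 48222404885) (nat_lit 76) (nat_lit 27584534841) (nat_lit 25) (nat_lit 5) (nat_lit 27) (nat_lit 5) (nat_lit 26) (nat_lit 5) (nat_lit 394) (nat_lit 296) (nat_lit 90)) (XT.nd (nat_lit 78) (nat_lit 152) (nat_lit 0) (XT.lf (nat_lit 0) (nat_lit 15604701405) (nat_lit 152) (nat_lit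 23534639003) (nat_lit 76) (nat_lit 43227941794) (nat_lit 25) (nat_lit 5) (nat_lit 27) (nat_lit 5) (nat_lit 26) (nat_lit 5) (nat_lit 395) (nat_lit 296) (nat_lit 89)) (XT.lf (nat_lit 0) (nat_lit 1928006069) (nat_lit 152) (nat_lit 25027578443) (nat_lit 228) (nat_lit 57429795358) (nat_lit 23) (nat_lit 5) (nat_lit 25) (nat_lit 5) (nat_lit 26) (nat_lit 5) (nat_lit 396) (nat_lit 296) (nat_lit 88)))) (XT.nd (nat_lit 156) (nat_lit 0) (nat_lit 76) (XT.nd (nat_lit 78) (nat_lit 0) (nat_lit 0) (XT.lf (nat_lit 0) (nat_lit 4145443460) (nat_lit 1140) (nat_lit 1055114723) (nat_lit 1140) (nat_lit 1055114723) (nat_lit 202) (nat_lit 3) (nat_lit 217) (nat_lit 3) (nat_lit 217) (nat_lit 5) (nat_lit 297) (nat_lit 297) (nat_lit 186)) (XT.lf (nat_lit 76) (nat_lit 3578142651) (nat_lit 0) (nat_lit 5278665367) (nat_lit 1140) (nat_lit 3828381980) (nat_lit 203) (nat_lit 5) (nat_lit 202) (nat_lit 3) (nat_lit 217) (nat_lit 5)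 (nat_lit 298) (nat_lit 297) (nat_lit 185))) (XT.nd (nat_lit 78) (nat_lit 0) (nat_lit 0) (XT.lf (nat_lit 0) (nat_lit 9445304911) (nat_lit 1064) (nat_lit 3392306118) (nat_lit 1140) (nat_lit 26493144) (nat_lit 203) (nat_lit 5) (nat_lit 217) (nat_lit 5) (nat_lit 218) (nat_lit 5) (nat_lit 299) (nat_lit 297) (nat_lit 184)) (XT.lf (nat_lit 76) (nat_lit 2481360936) (nat_lit 0) (nat_lit 7630777607) (nat_lit 1140) (nat_lit 2934448725) (nat_lit 204) (nat_lit 5) (nat_lit 203) (nat_lit 5) (nat_lit 218) (nat_lit 5) (nat_lit 300) (nat_lit 297) (nat_lit 183)))))) (XT.nd (nat_lit 546) (nat_lit 0) (nat_lit 76) (XT.nd (nat_lit 234) (nat_lit 988) (nat_lit 0) (XT.nd (nat_lit 78) (nat_lit 0) (nat_lit 76) (XT.lf (nat_lit 76) (nat_lit 8592189289) (nat_lit 0) (nat_lit 2225975994) (nat_lit 1140) (nat_lit 2415825238) (nat_lit 204) (nat_lit 5) (nat_lit 203) (nat_lit 5) (nat_lit 218) (nat_lit 5) (nat_lit 301) (nat_lit 297)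 (nat_lit 182)) (XT.nd (nat_lit 78) (nat_lit 0) (nat_lit 0) (XT.lf (nat_lit 76) (nat_lit 1446581633) (nat_lit 0) (nat_lit 10130243858) (nat_lit 1140) (nat_lit 1849267490) (nat_lit 205) (nat_lit 5) (nat_lit 204) (nat_lit 5) (nat_lit 219) (nat_lit 5) (nat_lit 302) (nat_lit 297) (nat_lit 181)) (XT.lf (nat_lit 76) (nat_lit 7781519647) (nat_lit 0) (nat_lit 4631194045) (nat_lit 1140) (nat_lit 1209630863) (nat_lit 205) (nat_lit 5) (nat_lit 204) (nat_lit 5) (nat_lit 219) (nat_lit 5) (nat_lit 303) (nat_lit 297) (nat_lit 180)))) (XT.nd (nat_lit 156) (nat_lit 0) (nat_lit 0) (XT.nd (nat_lit 78) (nat_lit 1140) (nat_lit 0) (XT.lf (nat_lit 76) (nat_lit 472310321) (nat_lit 0) (nat_lit 12802073669) (nat_lit 1140) (nat_lit 550098025) (nat_lit 206) (nat_lit 5) (nat_lit 205) (nat_lit 5) (nat_lit 220) (nat_lit 5) (nat_lit 304) (nat_lit 297) (nat_lit 179)) (XT.lf (nat_lit 0) (nat_lit 218518121) (nat_lit 1140) (nat_lit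 6993223813) (nat_lit 1216) (nat_lit 6818168214) (nat_lit 190) (nat_lit 5) (nat_lit 205) (nat_lit 5) (nat_lit 206) (nat_lit 5) (nat_lit 305) (nat_lit 297) (nat_lit 178))) (XT.nd (nat_lit 78) (nat_lit 0) (nat_lit 76) (XT.lf (nat_lit 0) (nat_lit 985933057) (nat_lit 1140) (nat_lit 457886933) (nat_lit 1216) (nat_lit 12797931685) (nat_lit 190) (nat_lit 5) (nat_lit 205) (nat_lit 5) (nat_lit 206) (nat_lit 5) (nat_lit 306) (nat_lit 297) (nat_lit 177)) (XT.lf (nat_lit 0) (nat_lit 1868848934) (nat_lit 1140) (nat_lit 8112865104) (nat_lit 1216) (nat_lit 4475477379) (nat_lit 191) (nat_lit 5) (nat_lit 206) (nat_lit 5) (nat_lit 207) (nat_lit 5) (nat_lit 307) (nat_lit 297) (nat_lit 176))))) (XT.nd (nat_lit 234) (nat_lit 0) (nat_lit 76) (XT.nd (nat_lit 78) (nat_lit 0) (nat_lit 76) (XT.lf (nat_lit 0) (nat_lit 2784727053) (nat_lit 1140) (nat_lit 1342322724) (nat_lit 1216) (nat_lit 10551867156) (nat_lit 191) (nat_lit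 5) (nat_lit 206) (nat_lit 5) (nat_lit 207) (nat_lit 5) (nat_lit 308) (nat_lit 297) (nat_lit 175)) (XT.nd (nat_lit 78) (nat_lit 0) (nat_lit 0) (XT.lf (nat_lit 0) (nat_lit 3789952038) (nat_lit 1140) (nat_lit 9190413334) (nat_lit 1216) (nat_lit 1925089058) (nat_lit 192) (nat_lit 5) (nat_lit 207) (nat_lit 5) (nat_lit 208) (nat_lit 5) (nat_lit 309) (nat_lit 297) (nat_lit 174)) (XT.lf (nat_lit 0) (nat_lit 4868058934) (nat_lit 1140) (nat_lit 2176807280) (nat_lit 1216) (nat_lit 8092655939) (nat_lit 192) (nat_lit 5) (nat_lit 207) (nat_lit 5) (nat_lit 208) (nat_lit 5) (nat_lit 310) (nat_lit 297) (nat_lit 173)))) (XT.nd (nat_lit 156) (nat_lit 0) (nat_lit 76) (XT.nd (nat_lit 78) (nat_lit 0) (nat_lit 76) (XT.lf (nat_lit 76) (nat_lit 5138673289) (nat_lit 0) (nat_lit 877750506) (nat_lit 1216) (nat_lit 9359006064) (nat_lit 193) (nat_lit 5) (nat_lit 192) (nat_lit 5) (nat_lit 208) (nat_lit 5) (nat_lit 311) (nat_lit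 297) (nat_lit 172)) (XT.lf (nat_lit 0) (nat_lit 7262855185) (nat_lit 1140) (nat_lit 2963512706) (nat_lit 1216) (nat_lit 5392213383) (nat_lit 193) (nat_lit 5) (nat_lit 208) (nat_lit 5) (nat_lit 209) (nat_lit 5) (nat_lit 312) (nat_lit 297) (nat_lit 171))) (XT.nd (nat_lit 78) (nat_lit 0) (nat_lit 76) (XT.lf (nat_lit 76) (nat_lit 4600171428) (nat_lit 0) (nat_lit 3988538137) (nat_lit 1216) (nat_lit 7279071276) (nat_lit 194) (nat_lit 5) (nat_lit 193) (nat_lit 5) (nat_lit 209) (nat_lit 5) (nat_lit 313) (nat_lit 297) (nat_lit 170)) (XT.lf (nat_lit 0) (nat_lit 9997352860) (nat_lit 1140) (nat_lit 3704857706) (nat_lit 76) (nat_lit 2420969521) (nat_lit 194) (nat_lit 5) (nat_lit 209) (nat_lit 5) (nat_lit 195) (nat_lit 5) (nat_lit 314) (nat_lit 297) (nat_lit 169))))))))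
noncomputable def xc192 : XT := (XT.nd (nat_lit 2028) (nat_lit 3648) (nat_lit 0) (XT.nd (nat_lit 1014) (nat_lit 2584) (nat_lit 0) (XT.nd (nat_lit 468) (nat_lit 2052) (nat_lit 0) (XT.nd (nat_lit 234) (nat_lit 684) (nat_lit 0) (XT.nd (nat_lit 78) (nat_lit 608) (nat_lit 0) (XT.lf (nat_lit 0) (nat_lit 4116786837) (nat_lit 1140) (nat_lit 7400212648) (nat_lit 1216) (nat_lit 4867193180) (nat_lit 179) (nat_lit 5) (nat_lit 194) (nat_lit 5) (nat_lit 195) (nat_lit 5) (nat_lit 315) (nat_lit 297) (nat_lit 168)) (XT.nd (nat_lit 78) (nat_lit 608) (nat_lit 0) (XT.lf (nat_lit 0) (nat_lit 12240280682) (nat_lit 1140) (nat_lit 869263604) (nat_lit 1216) (nat_lit 3542685350) (nat_lit 179) (nat_lit 5) (nat_lit 194) (nat_lit 5) (nat_lit 195) (nat_lit 5) (nat_lit 316) (nat_lit 297) (nat_lit 167)) (XT.lf (nat_lit 0) (nat_lit 3685980342) (nat_lit 608) (nat_lit 11145827864) (nat_lit 684) (nat_lit 2094054120) (nat_lit 171)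 (nat_lit 5) (nat_lit 179) (nat_lit 5) (nat_lit 180) (nat_lit 5) (nat_lit 317) (nat_lit 297) (nat_lit 166)))) (XT.nd (nat_lit 78) (nat_lit 684) (nat_lit 0) (XT.lf (nat_lit 0) (nat_lit 12099785604) (nat_lit 608) (nat_lit 4549434028) (nat_lit 684) (nat_lit 557192494) (nat_lit 171) (nat_lit 5) (nat_lit 179) (nat_lit 5) (nat_lit 180) (nat_lit 5) (nat_lit 318) (nat_lit 297) (nat_lit 165)) (XT.nd (nat_lit 78) (nat_lit 0) (nat_lit 0) (XT.lf (nat_lit 0) (nat_lit 1050221783) (nat_lit 684) (nat_lit 14199600392) (nat_lit 76) (nat_lit 2243938331) (nat_lit 162) (nat_lit 5) (nat_lit 171) (nat_lit 5) (nat_lit 163) (nat_lit 5) (nat_lit 319) (nat_lit 297) (nat_lit 164)) (XT.lf (nat_lit 0) (nat_lit 2782559530) (nat_lit 684) (nat_lit 5796481652) (nat_lit 76) (nat_lit 9207897106) (nat_lit 162) (nat_lit 5) (nat_lit 171) (nat_lit 5) (nat_lit 163) (nat_lit 5) (nat_lit 320) (nat_lit 297) (nat_lit 163))))) (XT.nd (nat_lit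 234) (nat_lit 988) (nat_lit 0) (XT.nd (nat_lit 78) (nat_lit 532) (nat_lit 0) (XT.lf (nat_lit 0) (nat_lit 2906832758) (nat_lit 532) (nat_lit 1679024166) (nat_lit 608) (nat_lit 13502495915) (nat_lit 155) (nat_lit 5) (nat_lit 162) (nat_lit 5) (nat_lit 163) (nat_lit 5) (nat_lit 321) (nat_lit 297) (nat_lit 162)) (XT.nd (nat_lit 78) (nat_lit 532) (nat_lit 0) (XT.lf (nat_lit 0) (nat_lit 6545771319) (nat_lit 608) (nat_lit 6468554227) (nat_lit 76) (nat_lit 5381419535) (nat_lit 155) (nat_lit 5) (nat_lit 163) (nat_lit 5) (nat_lit 156) (nat_lit 5) (nat_lit 322) (nat_lit 297) (nat_lit 161)) (XT.lf (nat_lit 0) (nat_lit 2529990035) (nat_lit 532) (nat_lit 6066920664) (nat_lit 608) (nat_lit 10114486049) (nat_lit 148) (nat_lit 5) (nat_lit 155) (nat_lit 5) (nat_lit 156) (nat_lit 5) (nat_lit 323) (nat_lit 297) (nat_lit 160)))) (XT.nd (nat_lit 156) (nat_lit 532) (nat_lit 0) (XT.nd (nat_lit 78) (nat_lit 456) (nat_lit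 0) (XT.lf (nat_lit 0) (nat_lit 10777667113) (nat_lit 608) (nat_lit 7123314086) (nat_lit 76) (nat_lit 1133504457) (nat_lit 148) (nat_lit 5) (nat_lit 156) (nat_lit 5) (nat_lit 149) (nat_lit 5) (nat_lit 324) (nat_lit 297) (nat_lit 159)) (XT.lf (nat_lit 0) (nat_lit 2180525624) (nat_lit 456) (nat_lit 10916242064) (nat_lit 532) (nat_lit 6268321780) (nat_lit 142) (nat_lit 5) (nat_lit 148) (nat_lit 5) (nat_lit 149) (nat_lit 5) (nat_lit 325) (nat_lit 297) (nat_lit 158))) (XT.nd (nat_lit 78) (nat_lit 532) (nat_lit 0) (XT.lf (nat_lit 0) (nat_lit 11901107508) (nat_lit 456) (nat_lit 3648313135) (nat_lit 532) (nat_lit 4154280964) (nat_lit 142) (nat_lit 5) (nat_lit 148) (nat_lit 5) (nat_lit 149) (nat_lit 5) (nat_lit 326) (nat_lit 297) (nat_lit 157)) (XT.lf (nat_lit 0) (nat_lit 1851691742) (nat_lit 532) (nat_lit 16270926262) (nat_lit 608) (nat_lit 1928454474) (nat_lit 135) (nat_lit 5) (nat_lit 142) (nat_lit 5)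 (nat_lit 143) (nat_lit 5) (nat_lit 327) (nat_lit 297) (nat_lit 156)))))) (XT.nd (nat_lit 468) (nat_lit 1216) (nat_lit 0) (XT.nd (nat_lit 234) (nat_lit 836) (nat_lit 0) (XT.nd (nat_lit 78) (nat_lit 456) (nat_lit 0) (XT.lf (nat_lit 0) (nat_lit 465070520) (nat_lit 608) (nat_lit 8499816856) (nat_lit 76) (nat_lit 11440639983) (nat_lit 134) (nat_lit 5) (nat_lit 142) (nat_lit 5) (nat_lit 135) (nat_lit 5) (nat_lit 328) (nat_lit 297) (nat_lit 155)) (XT.nd (nat_lit 78) (nat_lit 0) (nat_lit 0) (XT.lf (nat_lit 0) (nat_lit 1492546481) (nat_lit 456) (nat_lit 1406001838) (nat_lit 532) (nat_lit 17871296069) (nat_lit 128) (nat_lit 5) (nat_lit 134) (nat_lit 5) (nat_lit 135) (nat_lit 5) (nat_lit 329) (nat_lit 297) (nat_lit 154)) (XT.lf (nat_lit 0) (nat_lit 5545727099) (nat_lit 532) (nat_lit 9254129787) (nat_lit 76) (nat_lit 6341021417) (nat_lit 128) (nat_lit 5) (nat_lit 135) (nat_lit 5) (nat_lit 129) (nat_lit 5)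 (nat_lit 330) (nat_lit 297) (nat_lit 153)))) (XT.nd (nat_lit 78) (nat_lit 380) (nat_lit 0) (XT.lf (nat_lit 0) (nat_lit 1068549725) (nat_lit 456) (nat_lit 7220867031) (nat_lit 532) (nat_lit 13233121649) (nat_lit 122) (nat_lit 5) (nat_lit 128) (nat_lit 5) (nat_lit 129) (nat_lit 5) (nat_lit 331) (nat_lit 297) (nat_lit 152)) (XT.nd (nat_lit 78) (nat_lit 380) (nat_lit 0) (XT.lf (nat_lit 0) (nat_lit 11208441378) (nat_lit 532) (nat_lit 10037029096) (nat_lit 76) (nat_lit 667394908) (nat_lit 122) (nat_lit 5) (nat_lit 129) (nat_lit 5) (nat_lit 123) (nat_lit 5) (nat_lit 332) (nat_lit 297) (nat_lit 151)) (XT.lf (nat_lit 0) (nat_lit 625143264) (nat_lit 380) (nat_lit 13660622062) (nat_lit 456) (nat_lit 8027022559) (nat_lit 117) (nat_lit 5) (nat_lit 122) (nat_lit 5) (nat_lit 123) (nat_lit 5) (nat_lit 333) (nat_lit 297) (nat_lit 150))))) (XT.nd (nat_lit 234) (nat_lit 760) (nat_lit 0) (XT.nd (nat_lit 78) (nat_lit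 456) (nat_lit 0) (XT.lf (nat_lit 0) (nat_lit 11805007418) (nat_lit 380) (nat_lit 5745102639) (nat_lit 456) (nat_lit 5171764325) (nat_lit 117) (nat_lit 5) (nat_lit 122) (nat_lit 5) (nat_lit 123) (nat_lit 5) (nat_lit 334) (nat_lit 297) (nat_lit 149)) (XT.nd (nat_lit 78) (nat_lit 76) (nat_lit 0) (XT.lf (nat_lit 0) (nat_lit 148912856) (nat_lit 380) (nat_lit 20781578441) (nat_lit 456) (nat_lit 2212206130) (nat_lit 112) (nat_lit 5) (nat_lit 117) (nat_lit 5) (nat_lit 118) (nat_lit 5) (nat_lit 335) (nat_lit 297) (nat_lit 148)) (XT.lf (nat_lit 0) (nat_lit 981607775) (nat_lit 456) (nat_lit 11876336349) (nat_lit 76) (nat_lit 10713113093) (nat_lit 111) (nat_lit 5) (nat_lit 117) (nat_lit 5) (nat_lit 112) (nat_lit 5) (nat_lit 336) (nat_lit 297) (nat_lit 147)))) (XT.nd (nat_lit 156) (nat_lit 380) (nat_lit 0) (XT.nd (nat_lit 78) (nat_lit 380) (nat_lit 0) (XT.lf (nat_lit 0) (nat_lit 4220532572) (nat_lit 456) (nat_lit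 454974836) (nat_lit 76) (nat_lit 19336297045) (nat_lit 111) (nat_lit 5) (nat_lit 117) (nat_lit 5) (nat_lit 112) (nat_lit 5) (nat_lit 337) (nat_lit 297) (nat_lit 146)) (XT.lf (nat_lit 0) (nat_lit 7698519680) (nat_lit 456) (nat_lit 12973324168) (nat_lit 76) (nat_lit 3789679763) (nat_lit 106) (nat_lit 5) (nat_lit 112) (nat_lit 5) (nat_lit 107) (nat_lit 5) (nat_lit 338) (nat_lit 297) (nat_lit 145))) (XT.nd (nat_lit 78) (nat_lit 380) (nat_lit 0) (XT.lf (nat_lit 0) (nat_lit 11325811028) (nat_lit 456) (nat_lit 1179518714) (nat_lit 76) (nat_lit 12418061821) (nat_lit 106) (nat_lit 5) (nat_lit 112) (nat_lit 5) (nat_lit 107) (nat_lit 5) (nat_lit 339) (nat_lit 297) (nat_lit 144)) (XT.lf (nat_lit 0) (nat_lit 11178881880) (nat_lit 380) (nat_lit 3984703925) (nat_lit 456) (nat_lit 10232485786) (nat_lit 101) (nat_lit 5) (nat_lit 106) (nat_lit 5) (nat_lit 107) (nat_lit 5) (nat_lit 340) (nat_lit 297) (nat_lit 143)))))))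 (XT.nd (nat_lit 1014) (nat_lit 1596) (nat_lit 0) (XT.nd (nat_lit 468) (nat_lit 988) (nat_lit 0) (XT.nd (nat_lit 234) (nat_lit 684) (nat_lit 0) (XT.nd (nat_lit 78) (nat_lit 380) (nat_lit 0) (XT.lf (nat_lit 0) (nat_lit 19168871631) (nat_lit 456) (nat_lit 2003986840) (nat_lit 76) (nat_lit 4708508019) (nat_lit 101) (nat_lit 5) (nat_lit 107) (nat_lit 5) (nat_lit 102) (nat_lit 5) (nat_lit 341) (nat_lit 297) (nat_lit 142)) (XT.nd (nat_lit 78) (nat_lit 76) (nat_lit 0) (XT.lf (nat_lit 0) (nat_lit 10738474395) (nat_lit 304) (nat_lit 12692975080) (nat_lit 380) (nat_lit 2945662393) (nat_lit 97) (nat_lit 5) (nat_lit 101) (nat_lit 5) (nat_lit 102) (nat_lit 5) (nat_lit 342) (nat_lit 297) (nat_lit 141)) (XT.lf (nat_lit 0) (nat_lit 930872072) (nat_lit 380) (nat_lit 2999289110) (nat_lit 76) (nat_lit 22956856556) (nat_lit 96) (nat_lit 5) (nat_lit 101) (nat_lit 5) (nat_lit 97) (nat_lit 5) (nat_lit 343) (nat_lit 297)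 (nat_lit 140)))) (XT.nd (nat_lit 78) (nat_lit 304) (nat_lit 0) (XT.lf (nat_lit 0) (nat_lit 5007243025) (nat_lit 456) (nat_lit 17277105533) (nat_lit 76) (nat_lit 5122720073) (nat_lit 91) (nat_lit 5) (nat_lit 97) (nat_lit 5) (nat_lit 92) (nat_lit 5) (nat_lit 344) (nat_lit 297) (nat_lit 139)) (XT.nd (nat_lit 78) (nat_lit 304) (nat_lit 0) (XT.lf (nat_lit 0) (nat_lit 9270126286) (nat_lit 456) (nat_lit 4273590074) (nat_lit 76) (nat_lit 14397083062) (nat_lit 91) (nat_lit 5) (nat_lit 97) (nat_lit 5) (nat_lit 92) (nat_lit 5) (nat_lit 345) (nat_lit 297) (nat_lit 138)) (XT.lf (nat_lit 0) (nat_lit 9294466715) (nat_lit 304) (nat_lit 4450649044) (nat_lit 380) (nat_lit 14742904649) (nat_lit 87) (nat_lit 5) (nat_lit 91) (nat_lit 5) (nat_lit 92) (nat_lit 5) (nat_lit 346) (nat_lit 297) (nat_lit 137))))) (XT.nd (nat_lit 234) (nat_lit 684) (nat_lit 0) (XT.nd (nat_lit 78) (nat_lit 304) (nat_lit 0) (XT.lf (nat_lit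 0) (nat_lit 18440126431) (nat_lit 380) (nat_lit 5747872157) (nat_lit 76) (nat_lit 4861091008) (nat_lit 87) (nat_lit 5) (nat_lit 92) (nat_lit 5) (nat_lit 88) (nat_lit 5) (nat_lit 347) (nat_lit 297) (nat_lit 136)) (XT.nd (nat_lit 78) (nat_lit 0) (nat_lit 0) (XT.lf (nat_lit 0) (nat_lit 8210531906) (nat_lit 304) (nat_lit 15183534694) (nat_lit 380) (nat_lit 6229386465) (nat_lit 83) (nat_lit 5) (nat_lit 87) (nat_lit 5) (nat_lit 88) (nat_lit 5) (nat_lit 348) (nat_lit 297) (nat_lit 135)) (XT.lf (nat_lit 0) (nat_lit 22698781356) (nat_lit 304) (nat_lit 5851052879) (nat_lit 380) (nat_lit 1663621375) (nat_lit 83) (nat_lit 5) (nat_lit 87) (nat_lit 5) (nat_lit 88) (nat_lit 5) (nat_lit 349) (nat_lit 297) (nat_lit 134)))) (XT.nd (nat_lit 156) (nat_lit 304) (nat_lit 0) (XT.nd (nat_lit 78) (nat_lit 0) (nat_lit 0) (XT.lf (nat_lit 0) (nat_lit 3078474561) (nat_lit 380) (nat_lit 23956221836) (nat_lit 76) (nat_lit 3782629751)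 (nat_lit 78) (nat_lit 5) (nat_lit 83) (nat_lit 5) (nat_lit 79) (nat_lit 5) (nat_lit 350) (nat_lit 297) (nat_lit 133)) (XT.lf (nat_lit 0) (nat_lit 8059276049) (nat_lit 380) (nat_lit 9696686393) (nat_lit 76) (nat_lit 13678963893) (nat_lit 78) (nat_lit 5) (nat_lit 83) (nat_lit 5) (nat_lit 79) (nat_lit 5) (nat_lit 351) (nat_lit 297) (nat_lit 132))) (XT.nd (nat_lit 78) (nat_lit 0) (nat_lit 0) (XT.lf (nat_lit 0) (nat_lit 5083328431) (nat_lit 304) (nat_lit 8150487504) (nat_lit 380) (nat_lit 18835913112) (nat_lit 74) (nat_lit 5) (nat_lit 78) (nat_lit 5) (nat_lit 79) (nat_lit 5) (nat_lit 352) (nat_lit 297) (nat_lit 131)) (XT.lf (nat_lit 0) (nat_lit 18674737370) (nat_lit 380) (nat_lit 12239404156) (nat_lit 76) (nat_lit 1806103792) (nat_lit 74) (nat_lit 5) (nat_lit 79) (nat_lit 5) (nat_lit 75) (nat_lit 5) (nat_lit 353) (nat_lit 297) (nat_lit 130)))))) (XT.nd (nat_lit 546) (nat_lit 760) (nat_lit 0) (XT.nd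 (nat_lit 234) (nat_lit 228) (nat_lit 0) (XT.nd (nat_lit 78) (nat_lit 380) (nat_lit 0) (XT.lf (nat_lit 0) (nat_lit 2919916978) (nat_lit 228) (nat_lit 21463368512) (nat_lit 304) (nat_lit 9003863343) (nat_lit 71) (nat_lit 5) (nat_lit 74) (nat_lit 5) (nat_lit 75) (nat_lit 5) (nat_lit 354) (nat_lit 297) (nat_lit 129)) (XT.nd (nat_lit 78) (nat_lit 380) (nat_lit 0) (XT.lf (nat_lit 0) (nat_lit 18778610516) (nat_lit 228) (nat_lit 11603773239) (nat_lit 304) (nat_lit 3688100502) (nat_lit 71) (nat_lit 5) (nat_lit 74) (nat_lit 5) (nat_lit 75) (nat_lit 5) (nat_lit 355) (nat_lit 297) (nat_lit 128)) (XT.lf (nat_lit 0) (nat_lit 321635522) (nat_lit 304) (nat_lit 1429498204) (nat_lit 380) (nat_lit 33022707898) (nat_lit 66) (nat_lit 5) (nat_lit 70) (nat_lit 5) (nat_lit 71) (nat_lit 5) (nat_lit 356) (nat_lit 297) (nat_lit 127)))) (XT.nd (nat_lit 156) (nat_lit 228) (nat_lit 0) (XT.nd (nat_lit 78) (nat_lit 0) (nat_lit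 0) (XT.lf (nat_lit 0) (nat_lit 7518183720) (nat_lit 380) (nat_lit 18907942446) (nat_lit 76) (nat_lit 9063918403) (nat_lit 66) (nat_lit 5) (nat_lit 71) (nat_lit 5) (nat_lit 67) (nat_lit 5) (nat_lit 357) (nat_lit 297) (nat_lit 126)) (XT.lf (nat_lit 0) (nat_lit 13468345157) (nat_lit 380) (nat_lit 2917576982) (nat_lit 76) (nat_lit 19841511681) (nat_lit 66) (nat_lit 5) (nat_lit 71) (nat_lit 5) (nat_lit 67) (nat_lit 5) (nat_lit 358) (nat_lit 297) (nat_lit 125))) (XT.nd (nat_lit 78) (nat_lit 0) (nat_lit 0) (XT.lf (nat_lit 0) (nat_lit 13816207640) (nat_lit 228) (nat_lit 5909678193) (nat_lit 304) (nat_lit 17257195800) (nat_lit 63) (nat_lit 5) (nat_lit 66) (nat_lit 5) (nat_lit 67) (nat_lit 5) (nat_lit 359) (nat_lit 297) (nat_lit 124)) (XT.lf (nat_lit 0) (nat_lit 26243928199) (nat_lit 304) (nat_lit 6701849671) (nat_lit 76) (nat_lit 4813440778) (nat_lit 63) (nat_lit 5) (nat_lit 67) (nat_lit 5) (nat_lit 64)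 (nat_lit 5) (nat_lit 360) (nat_lit 297) (nat_lit 123))))) (XT.nd (nat_lit 234) (nat_lit 228) (nat_lit 0) (XT.nd (nat_lit 78) (nat_lit 304) (nat_lit 0) (XT.lf (nat_lit 0) (nat_lit 10395705881) (nat_lit 228) (nat_lit 22716465186) (nat_lit 304) (nat_lit 5441831870) (nat_lit 60) (nat_lit 5) (nat_lit 63) (nat_lit 5) (nat_lit 64) (nat_lit 5) (nat_lit 361) (nat_lit 297) (nat_lit 122)) (XT.nd (nat_lit 78) (nat_lit 228) (nat_lit 0) (XT.lf (nat_lit 0) (nat_lit 862528568) (nat_lit 304) (nat_lit 11241310844) (nat_lit 76) (nat_lit 27266622058) (nat_lit 59) (nat_lit 5) (nat_lit 63) (nat_lit 5) (nat_lit 60) (nat_lit 5) (nat_lit 362) (nat_lit 297) (nat_lit 121)) (XT.lf (nat_lit 0) (nat_lit 6245560646) (nat_lit 228) (nat_lit 1057462869) (nat_lit 304) (nat_lit 32905085174) (nat_lit 56) (nat_lit 5) (nat_lit 59) (nat_lit 5) (nat_lit 60) (nat_lit 5) (nat_lit 363) (nat_lit 297) (nat_lit 120)))) (XT.nd (nat_lit 156)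 (nat_lit 0) (nat_lit 0) (XT.nd (nat_lit 78) (nat_lit 228) (nat_lit 0) (XT.lf (nat_lit 0) (nat_lit 14146954694) (nat_lit 304) (nat_lit 16685989722) (nat_lit 76) (nat_lit 10231636881) (nat_lit 56) (nat_lit 5) (nat_lit 60) (nat_lit 5) (nat_lit 57) (nat_lit 5) (nat_lit 364) (nat_lit 297) (nat_lit 119)) (XT.lf (nat_lit 0) (nat_lit 1114656094) (nat_lit 228) (nat_lit 20099215105) (nat_lit 304) (nat_lit 20732349400) (nat_lit 53) (nat_lit 5) (nat_lit 56) (nat_lit 5) (nat_lit 57) (nat_lit 5) (nat_lit 365) (nat_lit 297) (nat_lit 118))) (XT.nd (nat_lit 78) (nat_lit 0) (nat_lit 0) (XT.lf (nat_lit 0) (nat_lit 19785931263) (nat_lit 228) (nat_lit 8871892608) (nat_lit 304) (nat_lit 14191536812) (nat_lit 53) (nat_lit 5) (nat_lit 56) (nat_lit 5) (nat_lit 57) (nat_lit 5) (nat_lit 366) (nat_lit 297) (nat_lit 117)) (XT.lf (nat_lit 0) (nat_lit 36347590169) (nat_lit 304) (nat_lit 4793492938) (nat_lit 76) (nat_lit 2637839401)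 (nat_lit 53) (nat_lit 5) (nat_lit 57) (nat_lit 5) (nat_lit 54) (nat_lit 5) (nat_lit 367) (nat_lit 297) (nat_lit 116))))))))
noncomputable def xc193 : XT := (XT.nd (nat_lit 2028) (nat_lit 152) (nat_lit 0) (XT.nd (nat_lit 1014) (nat_lit 760) (nat_lit 0) (XT.nd (nat_lit 468) (nat_lit 608) (nat_lit 0) (XT.nd (nat_lit 234) (nat_lit 152) (nat_lit 0) (XT.nd (nat_lit 78) (nat_lit 304) (nat_lit 0) (XT.lf (nat_lit 0) (nat_lit 14208758270) (nat_lit 152) (nat_lit 30280429058) (nat_lit 228) (nat_lit 240552045) (nat_lit 51) (nat_lit 5) (nat_lit 53) (nat_lit 5) (nat_lit 54) (nat_lit 5) (nat_lit 368) (nat_lit 297) (nat_lit 115)) (XT.nd (nat_lit 78) (nat_lit 228) (nat_lit 0) (XT.lf (nat_lit 0) (nat_lit 7071728198) (nat_lit 228) (nat_lit 11902875644) (nat_lit 76) (nat_lit 26731044283) (nat_lit 50) (nat_lit 5) (nat_lit 53) (nat_lit 5) (nat_lit 51) (nat_lit 5) (nat_lit 369) (nat_lit 297) (nat_lit 114)) (XT.lf (nat_lit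 0) (nat_lit 7410934226) (nat_lit 228) (nat_lit 7255667493) (nat_lit 304) (nat_lit 32042121304) (nat_lit 47) (nat_lit 5) (nat_lit 50) (nat_lit 5) (nat_lit 51) (nat_lit 5) (nat_lit 370) (nat_lit 297) (nat_lit 113)))) (XT.nd (nat_lit 78) (nat_lit 152) (nat_lit 0) (XT.lf (nat_lit 0) (nat_lit 22653837838) (nat_lit 304) (nat_lit 20242701142) (nat_lit 76) (nat_lit 4840417758) (nat_lit 47) (nat_lit 5) (nat_lit 51) (nat_lit 5) (nat_lit 48) (nat_lit 5) (nat_lit 371) (nat_lit 297) (nat_lit 112)) (XT.nd (nat_lit 78) (nat_lit 152) (nat_lit 0) (XT.lf (nat_lit 0) (nat_lit 30949468623) (nat_lit 304) (nat_lit 692749932) (nat_lit 76) (nat_lit 17151757583) (nat_lit 47) (nat_lit 5) (nat_lit 51) (nat_lit 5) (nat_lit 48) (nat_lit 5) (nat_lit 372) (nat_lit 297) (nat_lit 111)) (XT.lf (nat_lit 0) (nat_lit 19825765318) (nat_lit 152) (nat_lit 19855808838) (nat_lit 228) (nat_lit 10195505735) (nat_lit 45) (nat_lit 5) (nat_lit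 47) (nat_lit 5) (nat_lit 48) (nat_lit 5) (nat_lit 373) (nat_lit 297) (nat_lit 110))))) (XT.nd (nat_lit 234) (nat_lit 304) (nat_lit 0) (XT.nd (nat_lit 78) (nat_lit 304) (nat_lit 0) (XT.lf (nat_lit 0) (nat_lit 40969277258) (nat_lit 152) (nat_lit 7710430251) (nat_lit 228) (nat_lit 2312849195) (nat_lit 45) (nat_lit 5) (nat_lit 47) (nat_lit 5) (nat_lit 48) (nat_lit 5) (nat_lit 374) (nat_lit 297) (nat_lit 109)) (XT.nd (nat_lit 78) (nat_lit 0) (nat_lit 0) (XT.lf (nat_lit 0) (nat_lit 5841186227) (nat_lit 304) (nat_lit 41429531177) (nat_lit 76) (nat_lit 4864661768) (nat_lit 41) (nat_lit 5) (nat_lit 45) (nat_lit 5) (nat_lit 42) (nat_lit 5) (nat_lit 375) (nat_lit 297) (nat_lit 108)) (XT.lf (nat_lit 0) (nat_lit 14369061783) (nat_lit 304) (nat_lit 21152079201) (nat_lit 76) (nat_lit 17785388919) (nat_lit 41) (nat_lit 5) (nat_lit 45) (nat_lit 5) (nat_lit 42) (nat_lit 5) (nat_lit 376) (nat_lit 297) (nat_lit 107))))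 (XT.nd (nat_lit 156) (nat_lit 152) (nat_lit 0) (XT.nd (nat_lit 78) (nat_lit 152) (nat_lit 0) (XT.lf (nat_lit 0) (nat_lit 23150003270) (nat_lit 304) (nat_lit 270870163) (nat_lit 76) (nat_lit 31092026511) (nat_lit 41) (nat_lit 5) (nat_lit 45) (nat_lit 5) (nat_lit 42) (nat_lit 5) (nat_lit 377) (nat_lit 297) (nat_lit 106)) (XT.lf (nat_lit 0) (nat_lit 21654906884) (nat_lit 152) (nat_lit 10744936683) (nat_lit 228) (nat_lit 23349455030) (nat_lit 39) (nat_lit 5) (nat_lit 41) (nat_lit 5) (nat_lit 42) (nat_lit 5) (nat_lit 378) (nat_lit 297) (nat_lit 105))) (XT.nd (nat_lit 78) (nat_lit 152) (nat_lit 0) (XT.lf (nat_lit 0) (nat_lit 41949488634) (nat_lit 228) (nat_lit 12805396359) (nat_lit 76) (nat_lit 2267236512) (nat_lit 39) (nat_lit 5) (nat_lit 42) (nat_lit 5) (nat_lit 40) (nat_lit 5) (nat_lit 379) (nat_lit 297) (nat_lit 104)) (XT.lf (nat_lit 0) (nat_lit 9190906252) (nat_lit 152) (nat_lit 42786858498) (nat_lit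 228) (nat_lit 6349601633) (nat_lit 37) (nat_lit 5) (nat_lit 39) (nat_lit 5) (nat_lit 40) (nat_lit 5) (nat_lit 380) (nat_lit 297) (nat_lit 103)))))) (XT.nd (nat_lit 468) (nat_lit 380) (nat_lit 0) (XT.nd (nat_lit 234) (nat_lit 152) (nat_lit 0) (XT.nd (nat_lit 78) (nat_lit 152) (nat_lit 0) (XT.lf (nat_lit 0) (nat_lit 2711704661) (nat_lit 228) (nat_lit 27589239262) (nat_lit 76) (nat_lit 29366226075) (nat_lit 36) (nat_lit 5) (nat_lit 39) (nat_lit 5) (nat_lit 37) (nat_lit 5) (nat_lit 381) (nat_lit 297) (nat_lit 102)) (XT.nd (nat_lit 78) (nat_lit 152) (nat_lit 0) (XT.lf (nat_lit 0) (nat_lit 11914719855) (nat_lit 228) (nat_lit 5462678108) (nat_lit 76) (nat_lit 43667960431) (nat_lit 36) (nat_lit 5) (nat_lit 39) (nat_lit 5) (nat_lit 37) (nat_lit 5) (nat_lit 382) (nat_lit 297) (nat_lit 101)) (XT.lf (nat_lit 0) (nat_lit 17668366952) (nat_lit 152) (nat_lit 3892861213) (nat_lit 228) (nat_lit 40898643560) (nat_lit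 34) (nat_lit 5) (nat_lit 36) (nat_lit 5) (nat_lit 37) (nat_lit 5) (nat_lit 383) (nat_lit 297) (nat_lit 100)))) (XT.nd (nat_lit 78) (nat_lit 152) (nat_lit 0) (XT.lf (nat_lit 0) (nat_lit 31646509723) (nat_lit 228) (nat_lit 22410582555) (nat_lit 76) (nat_lit 9855248162) (nat_lit 34) (nat_lit 5) (nat_lit 37) (nat_lit 5) (nat_lit 35) (nat_lit 5) (nat_lit 384) (nat_lit 297) (nat_lit 99)) (XT.nd (nat_lit 78) (nat_lit 0) (nat_lit 0) (XT.lf (nat_lit 0) (nat_lit 611165710) (nat_lit 152) (nat_lit 41465252384) (nat_lit 228) (nat_lit 23330704358) (nat_lit 32) (nat_lit 5) (nat_lit 34) (nat_lit 5) (nat_lit 35) (nat_lit 5) (nat_lit 385) (nat_lit 297) (nat_lit 98)) (XT.lf (nat_lit 0) (nat_lit 24779015978) (nat_lit 152) (nat_lit 28264191480) (nat_lit 228) (nat_lit 13896822201) (nat_lit 32) (nat_lit 5) (nat_lit 34) (nat_lit 5) (nat_lit 35) (nat_lit 5) (nat_lit 386) (nat_lit 297) (nat_lit 97))))) (XT.nd (nat_lit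 234) (nat_lit 152) (nat_lit 0) (XT.nd (nat_lit 78) (nat_lit 228) (nat_lit 0) (XT.lf (nat_lit 0) (nat_lit 49668071250) (nat_lit 152) (nat_lit 14668677603) (nat_lit 228) (nat_lit 4182243990) (nat_lit 32) (nat_lit 5) (nat_lit 34) (nat_lit 5) (nat_lit 35) (nat_lit 5) (nat_lit 387) (nat_lit 297) (nat_lit 96)) (XT.nd (nat_lit 78) (nat_lit 0) (nat_lit 0) (XT.lf (nat_lit 0) (nat_lit 5200202239) (nat_lit 152) (nat_lit 557705226) (nat_lit 228) (nat_lit 64384305791) (nat_lit 29) (nat_lit 5) (nat_lit 31) (nat_lit 5) (nat_lit 32) (nat_lit 5) (nat_lit 388) (nat_lit 297) (nat_lit 95)) (XT.lf (nat_lit 0) (nat_lit 16236602941) (nat_lit 228) (nat_lit 41630557825) (nat_lit 76) (nat_lit 13935996419) (nat_lit 29) (nat_lit 5) (nat_lit 32) (nat_lit 5) (nat_lit 30) (nat_lit 5) (nat_lit 389) (nat_lit 297) (nat_lit 94)))) (XT.nd (nat_lit 156) (nat_lit 0) (nat_lit 0) (XT.nd (nat_lit 78) (nat_lit 152) (nat_lit 0) (XT.lf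 (nat_lit 0) (nat_lit 27033049828) (nat_lit 228) (nat_lit 17628951596) (nat_lit 76) (nat_lit 28851827368) (nat_lit 29) (nat_lit 5) (nat_lit 32) (nat_lit 5) (nat_lit 30) (nat_lit 5) (nat_lit 390) (nat_lit 297) (nat_lit 93)) (XT.lf (nat_lit 0) (nat_lit 7230228755) (nat_lit 152) (nat_lit 30990593538) (nat_lit 228) (nat_lit 37052976336) (nat_lit 27) (nat_lit 5) (nat_lit 29) (nat_lit 5) (nat_lit 30) (nat_lit 5) (nat_lit 391) (nat_lit 297) (nat_lit 92))) (XT.nd (nat_lit 78) (nat_lit 0) (nat_lit 0) (XT.lf (nat_lit 0) (nat_lit 33193033794) (nat_lit 152) (nat_lit 16727169136) (nat_lit 228) (nat_lit 27161086395) (nat_lit 27) (nat_lit 5) (nat_lit 29) (nat_lit 5) (nat_lit 30) (nat_lit 5) (nat_lit 392) (nat_lit 297) (nat_lit 91)) (XT.lf (nat_lit 0) (nat_lit 59931298761) (nat_lit 152) (nat_lit 2037282879) (nat_lit 228) (nat_lit 16974483586) (nat_lit 27) (nat_lit 5) (nat_lit 29) (nat_lit 5) (nat_lit 30) (nat_lit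 5) (nat_lit 393) (nat_lit 297) (nat_lit 90))))))) (XT.nd (nat_lit 33930) (nat_lit 0) (nat_lit 10412) (XT.nd (nat_lit 33384) (nat_lit 0) (nat_lit 12540) (XT.nd (nat_lit 33150) (nat_lit 0) (nat_lit 13452) (XT.nd (nat_lit 78) (nat_lit 76) (nat_lit 0) (XT.lf (nat_lit 0) (nat_lit 6610786962) (nat_lit 76) (nat_lit 67955093463) (nat_lit 152) (nat_lit 6289190877) (nat_lit 26) (nat_lit 5) (nat_lit 27) (nat_lit 5) (nat_lit 28) (nat_lit 4) (nat_lit 394) (nat_lit 297) (nat_lit 89)) (XT.nd (nat_lit 78) (nat_lit 0) (nat_lit 0) (XT.lf (nat_lit 0) (nat_lit 4836740574) (nat_lit 152) (nat_lit 49497726025) (nat_lit 76) (nat_lit 28482248108) (nat_lit 25) (nat_lit 5) (nat_lit 27) (nat_lit 5) (nat_lit 26) (nat_lit 5) (nat_lit 395) (nat_lit 297) (nat_lit 88)) (XT.lf (nat_lit 0) (nat_lit 16168165313) (nat_lit 152) (nat_lit 24074317972) (nat_lit 76) (nat_lit 44592913273) (nat_lit 25) (nat_lit 5) (nat_lit 27) (nat_lit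 5) (nat_lit 26) (nat_lit 5) (nat_lit 396) (nat_lit 297) (nat_lit 87)))) (XT.nd (nat_lit 78) (nat_lit 0) (nat_lit 0) (XT.lf (nat_lit 0) (nat_lit 4673055367) (nat_lit 1140) (nat_lit 878808284) (nat_lit 1140) (nat_lit 878808284) (nat_lit 202) (nat_lit 3) (nat_lit 217) (nat_lit 3) (nat_lit 217) (nat_lit 5) (nat_lit 298) (nat_lit 298) (nat_lit 184)) (XT.nd (nat_lit 78) (nat_lit 0) (nat_lit 0) (XT.lf (nat_lit 76) (nat_lit 4097329045) (nat_lit 0) (nat_lit 5812149090) (nat_lit 1140) (nat_lit 3131544610) (nat_lit 203) (nat_lit 5) (nat_lit 202) (nat_lit 3) (nat_lit 217) (nat_lit 5) (nat_lit 299) (nat_lit 298) (nat_lit 183)) (XT.lf (nat_lit 76) (nat_lit 10156074266) (nat_lit 0) (nat_lit 336366804) (nat_lit 1140) (nat_lit 2733591388) (nat_lit 203) (nat_lit 5) (nat_lit 202) (nat_lit 3) (nat_lit 217) (nat_lit 5) (nat_lit 300) (nat_lit 298) (nat_lit 182))))) (XT.nd (nat_lit 234) (nat_lit 988) (nat_lit 0) (XT.nd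 (nat_lit 78) (nat_lit 0) (nat_lit 0) (XT.lf (nat_lit 76) (nat_lit 2978962526) (nat_lit 0) (nat_lit 8178999745) (nat_lit 1140) (nat_lit 2256698799) (nat_lit 204) (nat_lit 5) (nat_lit 203) (nat_lit 5) (nat_lit 218) (nat_lit 5) (nat_lit 301) (nat_lit 298) (nat_lit 181)) (XT.nd (nat_lit 78) (nat_lit 0) (nat_lit 76) (XT.lf (nat_lit 76) (nat_lit 9260790659) (nat_lit 0) (nat_lit 2602754118) (nat_lit 1140) (nat_lit 1744820978) (nat_lit 204) (nat_lit 5) (nat_lit 203) (nat_lit 5) (nat_lit 218) (nat_lit 5) (nat_lit 302) (nat_lit 298) (nat_lit 180)) (XT.lf (nat_lit 76) (nat_lit 1922160133) (nat_lit 0) (nat_lit 10703070761) (nat_lit 1140) (nat_lit 1181622104) (nat_lit 205) (nat_lit 5) (nat_lit 204) (nat_lit 5) (nat_lit 219) (nat_lit 5) (nat_lit 303) (nat_lit 298) (nat_lit 179)))) (XT.nd (nat_lit 156) (nat_lit 0) (nat_lit 0) (XT.nd (nat_lit 78) (nat_lit 1064) (nat_lit 0) (XT.lf (nat_lit 76) (nat_lit 8434558490)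 (nat_lit 0) (nat_lit 5031216844) (nat_lit 1140) (nat_lit 543858225) (nat_lit 205) (nat_lit 5) (nat_lit 204) (nat_lit 5) (nat_lit 219) (nat_lit 5) (nat_lit 304) (nat_lit 298) (nat_lit 178)) (XT.lf (nat_lit 0) (nat_lit 114570188) (nat_lit 1140) (nat_lit 13293911540) (nat_lit 1216) (nat_lit 809888936) (nat_lit 190) (nat_lit 5) (nat_lit 205) (nat_lit 5) (nat_lit 206) (nat_lit 5) (nat_lit 305) (nat_lit 298) (nat_lit 177))) (XT.nd (nat_lit 78) (nat_lit 0) (nat_lit 0) (XT.lf (nat_lit 0) (nat_lit 875670489) (nat_lit 1140) (nat_lit 6762846945) (nat_lit 1216) (nat_lit 6791892731) (nat_lit 190) (nat_lit 5) (nat_lit 205) (nat_lit 5) (nat_lit 206) (nat_lit 5) (nat_lit 306) (nat_lit 298) (nat_lit 176)) (XT.lf (nat_lit 0) (nat_lit 1647158451) (nat_lit 1140) (nat_lit 44270548) (nat_lit 1216) (nat_lit 12957772034) (nat_lit 190) (nat_lit 5) (nat_lit 205) (nat_lit 5) (nat_lit 206) (nat_lit 5) (nat_lit 307) (nat_lit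 298) (nat_lit 175)))))) (XT.nd (nat_lit 546) (nat_lit 2204) (nat_lit 0) (XT.nd (nat_lit 234) (nat_lit 0) (nat_lit 76) (XT.nd (nat_lit 78) (nat_lit 0) (nat_lit 0) (XT.lf (nat_lit 0) (nat_lit 2540365681) (nat_lit 1140) (nat_lit 7911873039) (nat_lit 1216) (nat_lit 4419375999) (nat_lit 191) (nat_lit 5) (nat_lit 206) (nat_lit 5) (nat_lit 207) (nat_lit 5) (nat_lit 308) (nat_lit 298) (nat_lit 174)) (XT.nd (nat_lit 78) (nat_lit 0) (nat_lit 76) (XT.lf (nat_lit 0) (nat_lit 3465794378) (nat_lit 1140) (nat_lit 951157436) (nat_lit 1216) (nat_lit 10683602102) (nat_lit 191) (nat_lit 5) (nat_lit 206) (nat_lit 5) (nat_lit 207) (nat_lit 5) (nat_lit 309) (nat_lit 298) (nat_lit 173)) (XT.lf (nat_lit 0) (nat_lit 4486369612) (nat_lit 1140) (nat_lit 9019102943) (nat_lit 1216) (nat_lit 1828882617) (nat_lit 192) (nat_lit 5) (nat_lit 207) (nat_lit 5) (nat_lit 208) (nat_lit 5) (nat_lit 310) (nat_lit 298) (nat_lit 172))))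 (XT.nd (nat_lit 156) (nat_lit 0) (nat_lit 76) (XT.nd (nat_lit 78) (nat_lit 0) (nat_lit 0) (XT.lf (nat_lit 0) (nat_lit 5579847316) (nat_lit 1140) (nat_lit 1808108789) (nat_lit 1216) (nat_lit 8185960751) (nat_lit 192) (nat_lit 5) (nat_lit 207) (nat_lit 5) (nat_lit 208) (nat_lit 5) (nat_lit 311) (nat_lit 298) (nat_lit 171)) (XT.lf (nat_lit 76) (nat_lit 5722581269) (nat_lit 0) (nat_lit 1027734796) (nat_lit 1216) (nat_lit 9069038234) (nat_lit 193) (nat_lit 5) (nat_lit 192) (nat_lit 5) (nat_lit 208) (nat_lit 5) (nat_lit 312) (nat_lit 298) (nat_lit 170))) (XT.nd (nat_lit 78) (nat_lit 0) (nat_lit 0) (XT.lf (nat_lit 0) (nat_lit 8016867967) (nat_lit 1140) (nat_lit 2617199783) (nat_lit 1216) (nat_lit 5436272131) (nat_lit 193) (nat_lit 5) (nat_lit 208) (nat_lit 5) (nat_lit 209) (nat_lit 5) (nat_lit 313) (nat_lit 298) (nat_lit 169)) (XT.lf (nat_lit 76) (nat_lit 5169128030) (nat_lit 0) (nat_lit 4201897164)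 (nat_lit 1216) (nat_lit 6956355250) (nat_lit 194) (nat_lit 5) (nat_lit 193) (nat_lit 5) (nat_lit 209) (nat_lit 5) (nat_lit 314) (nat_lit 298) (nat_lit 168))))) (XT.nd (nat_lit 234) (nat_lit 1292) (nat_lit 0) (XT.nd (nat_lit 78) (nat_lit 1140) (nat_lit 0) (XT.lf (nat_lit 0) (nat_lit 10805772098) (nat_lit 1140) (nat_lit 3380774300) (nat_lit 76) (nat_lit 2404400158) (nat_lit 194) (nat_lit 5) (nat_lit 209) (nat_lit 5) (nat_lit 195) (nat_lit 5) (nat_lit 315) (nat_lit 298) (nat_lit 167)) (XT.nd (nat_lit 78) (nat_lit 0) (nat_lit 0) (XT.lf (nat_lit 0) (nat_lit 4671252627) (nat_lit 1140) (nat_lit 7689087527) (nat_lit 1216) (nat_lit 4499789027) (nat_lit 179) (nat_lit 5) (nat_lit 194) (nat_lit 5) (nat_lit 195) (nat_lit 5) (nat_lit 316) (nat_lit 298) (nat_lit 166)) (XT.lf (nat_lit 0) (nat_lit 13025898991) (nat_lit 1140) (nat_lit 960262386) (nat_lit 1216) (nat_lit 3150499941) (nat_lit 179) (nat_lit 5) (nat_lit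 194) (nat_lit 5) (nat_lit 195) (nat_lit 5) (nat_lit 317) (nat_lit 298) (nat_lit 165)))) (XT.nd (nat_lit 156) (nat_lit 684) (nat_lit 0) (XT.nd (nat_lit 78) (nat_lit 0) (nat_lit 0) (XT.lf (nat_lit 0) (nat_lit 4226472347) (nat_lit 608) (nat_lit 11523069972) (nat_lit 684) (nat_lit 1669295699) (nat_lit 171) (nat_lit 5) (nat_lit 179) (nat_lit 5) (nat_lit 180) (nat_lit 5) (nat_lit 318) (nat_lit 298) (nat_lit 164)) (XT.lf (nat_lit 0) (nat_lit 12880170041) (nat_lit 608) (nat_lit 4727535760) (nat_lit 684) (nat_lit 100529585) (nat_lit 171) (nat_lit 5) (nat_lit 179) (nat_lit 5) (nat_lit 180) (nat_lit 5) (nat_lit 319) (nat_lit 298) (nat_lit 163))) (XT.nd (nat_lit 78) (nat_lit 0) (nat_lit 0) (XT.lf (nat_lit 0) (nat_lit 1536113046) (nat_lit 684) (nat_lit 14188057642) (nat_lit 76) (nat_lit 2280206653) (nat_lit 162) (nat_lit 5) (nat_lit 171) (nat_lit 5) (nat_lit 163) (nat_lit 5) (nat_lit 320) (nat_lit 298) (nat_lit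 162)) (XT.lf (nat_lit 0) (nat_lit 3307186422) (nat_lit 684) (nat_lit 5545588954) (nat_lit 76) (nat_lit 9453988555) (nat_lit 162) (nat_lit 5) (nat_lit 171) (nat_lit 5) (nat_lit 163) (nat_lit 5) (nat_lit 321) (nat_lit 298) (nat_lit 161))))))))
noncomputable def xc194 : XT := (XT.nd (nat_lit 2028) (nat_lit 3192) (nat_lit 0) (XT.nd (nat_lit 1014) (nat_lit 2280) (nat_lit 0) (XT.nd (nat_lit 468) (nat_lit 1900) (nat_lit 0) (XT.nd (nat_lit 234) (nat_lit 456) (nat_lit 0) (XT.nd (nat_lit 78) (nat_lit 532) (nat_lit 0) (XT.lf (nat_lit 0) (nat_lit 3414660308) (nat_lit 532) (nat_lit 1741116678) (nat_lit 608) (nat_lit 13461724066) (nat_lit 155) (nat_lit 5) (nat_lit 162) (nat_lit 5) (nat_lit 163) (nat_lit 5) (nat_lit 322) (nat_lit 298) (nat_lit 160)) (XT.nd (nat_lit 78) (nat_lit 532) (nat_lit 0) (XT.lf (nat_lit 0) (nat_lit 7161786865) (nat_lit 608) (nat_lit 6241020936) (nat_lit 76) (nat_lit 5531703817) (nat_lit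 155) (nat_lit 5) (nat_lit 163) (nat_lit 5) (nat_lit 156) (nat_lit 5) (nat_lit 323) (nat_lit 298) (nat_lit 159)) (XT.lf (nat_lit 0) (nat_lit 3023346420) (nat_lit 532) (nat_lit 6242904260) (nat_lit 608) (nat_lit 9993643490) (nat_lit 148) (nat_lit 5) (nat_lit 155) (nat_lit 5) (nat_lit 156) (nat_lit 5) (nat_lit 324) (nat_lit 298) (nat_lit 158)))) (XT.nd (nat_lit 78) (nat_lit 456) (nat_lit 0) (XT.lf (nat_lit 0) (nat_lit 11500502531) (nat_lit 608) (nat_lit 6919301608) (nat_lit 76) (nat_lit 1173244030) (nat_lit 148) (nat_lit 5) (nat_lit 156) (nat_lit 5) (nat_lit 149) (nat_lit 5) (nat_lit 325) (nat_lit 298) (nat_lit 157)) (XT.nd (nat_lit 78) (nat_lit 0) (nat_lit 0) (XT.lf (nat_lit 0) (nat_lit 2659558078) (nat_lit 456) (nat_lit 11221957902) (nat_lit 532) (nat_lit 6052298102) (nat_lit 142) (nat_lit 5) (nat_lit 148) (nat_lit 5) (nat_lit 149) (nat_lit 5) (nat_lit 326) (nat_lit 298) (nat_lit 156)) (XT.lf (nat_lit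 0) (nat_lit 12659710331) (nat_lit 456) (nat_lit 3736625225) (nat_lit 532) (nat_lit 3886605187) (nat_lit 142) (nat_lit 5) (nat_lit 148) (nat_lit 5) (nat_lit 149) (nat_lit 5) (nat_lit 327) (nat_lit 298) (nat_lit 155))))) (XT.nd (nat_lit 234) (nat_lit 836) (nat_lit 0) (XT.nd (nat_lit 78) (nat_lit 532) (nat_lit 0) (XT.lf (nat_lit 0) (nat_lit 2316429463) (nat_lit 532) (nat_lit 16723349445) (nat_lit 608) (nat_lit 1601175698) (nat_lit 135) (nat_lit 5) (nat_lit 142) (nat_lit 5) (nat_lit 143) (nat_lit 5) (nat_lit 328) (nat_lit 298) (nat_lit 154)) (XT.nd (nat_lit 78) (nat_lit 456) (nat_lit 0) (XT.lf (nat_lit 0) (nat_lit 845641169) (nat_lit 608) (nat_lit 8349826034) (nat_lit 76) (nat_lit 11810807422) (nat_lit 134) (nat_lit 5) (nat_lit 142) (nat_lit 5) (nat_lit 135) (nat_lit 5) (nat_lit 329) (nat_lit 298) (nat_lit 153)) (XT.lf (nat_lit 0) (nat_lit 1938337759) (nat_lit 456) (nat_lit 1406962134) (nat_lit 532)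 (nat_lit 18036438208) (nat_lit 128) (nat_lit 5) (nat_lit 134) (nat_lit 5) (nat_lit 135) (nat_lit 5) (nat_lit 330) (nat_lit 298) (nat_lit 152)))) (XT.nd (nat_lit 156) (nat_lit 380) (nat_lit 0) (XT.nd (nat_lit 78) (nat_lit 456) (nat_lit 0) (XT.lf (nat_lit 0) (nat_lit 6061799256) (nat_lit 532) (nat_lit 9131928173) (nat_lit 76) (nat_lit 6570490325) (nat_lit 128) (nat_lit 5) (nat_lit 135) (nat_lit 5) (nat_lit 129) (nat_lit 5) (nat_lit 331) (nat_lit 298) (nat_lit 151)) (XT.lf (nat_lit 0) (nat_lit 1496511867) (nat_lit 456) (nat_lit 7384907976) (nat_lit 532) (nat_lit 13276110740) (nat_lit 122) (nat_lit 5) (nat_lit 128) (nat_lit 5) (nat_lit 129) (nat_lit 5) (nat_lit 332) (nat_lit 298) (nat_lit 150))) (XT.nd (nat_lit 78) (nat_lit 380) (nat_lit 0) (XT.lf (nat_lit 0) (nat_lit 11878506332) (nat_lit 532) (nat_lit 9943883517) (nat_lit 76) (nat_lit 737473981) (nat_lit 122) (nat_lit 5) (nat_lit 129) (nat_lit 5)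 (nat_lit 123) (nat_lit 5) (nat_lit 333) (nat_lit 298) (nat_lit 149)) (XT.lf (nat_lit 0) (nat_lit 1034288754) (nat_lit 380) (nat_lit 14007891252) (nat_lit 456) (nat_lit 7929793970) (nat_lit 117) (nat_lit 5) (nat_lit 122) (nat_lit 5) (nat_lit 123) (nat_lit 5) (nat_lit 334) (nat_lit 298) (nat_lit 148)))))) (XT.nd (nat_lit 468) (nat_lit 1444) (nat_lit 0) (XT.nd (nat_lit 234) (nat_lit 380) (nat_lit 0) (XT.nd (nat_lit 78) (nat_lit 456) (nat_lit 0) (XT.lf (nat_lit 0) (nat_lit 12538178215) (nat_lit 380) (nat_lit 5856728075) (nat_lit 456) (nat_lit 4998723793) (nat_lit 117) (nat_lit 5) (nat_lit 122) (nat_lit 5) (nat_lit 123) (nat_lit 5) (nat_lit 335) (nat_lit 298) (nat_lit 147)) (XT.nd (nat_lit 78) (nat_lit 76) (nat_lit 0) (XT.lf (nat_lit 0) (nat_lit 537910366) (nat_lit 380) (nat_lit 21333781021) (nat_lit 456) (nat_lit 1955546905) (nat_lit 112) (nat_lit 5) (nat_lit 117) (nat_lit 5) (nat_lit 118) (nat_lit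 5) (nat_lit 336) (nat_lit 298) (nat_lit 146)) (XT.lf (nat_lit 0) (nat_lit 1318553115) (nat_lit 456) (nat_lit 11852854533) (nat_lit 76) (nat_lit 11097234479) (nat_lit 111) (nat_lit 5) (nat_lit 117) (nat_lit 5) (nat_lit 112) (nat_lit 5) (nat_lit 337) (nat_lit 298) (nat_lit 145)))) (XT.nd (nat_lit 78) (nat_lit 380) (nat_lit 0) (XT.lf (nat_lit 0) (nat_lit 4645689429) (nat_lit 456) (nat_lit 99913492) (nat_lit 76) (nat_lit 19977286921) (nat_lit 111) (nat_lit 5) (nat_lit 117) (nat_lit 5) (nat_lit 112) (nat_lit 5) (nat_lit 338) (nat_lit 298) (nat_lit 144)) (XT.nd (nat_lit 78) (nat_lit 0) (nat_lit 0) (XT.lf (nat_lit 0) (nat_lit 8223519925) (nat_lit 456) (nat_lit 12989013663) (nat_lit 76) (nat_lit 3973710977) (nat_lit 106) (nat_lit 5) (nat_lit 112) (nat_lit 5) (nat_lit 107) (nat_lit 5) (nat_lit 339) (nat_lit 298) (nat_lit 143)) (XT.lf (nat_lit 0) (nat_lit 11951065606) (nat_lit 456) (nat_lit 852272984) (nat_lit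 76) (nat_lit 12858895735) (nat_lit 106) (nat_lit 5) (nat_lit 112) (nat_lit 5) (nat_lit 107) (nat_lit 5) (nat_lit 340) (nat_lit 298) (nat_lit 142))))) (XT.nd (nat_lit 234) (nat_lit 760) (nat_lit 0) (XT.nd (nat_lit 78) (nat_lit 304) (nat_lit 0) (XT.lf (nat_lit 0) (nat_lit 11873324420) (nat_lit 380) (nat_lit 4025785907) (nat_lit 456) (nat_lit 10250138905) (nat_lit 101) (nat_lit 5) (nat_lit 106) (nat_lit 5) (nat_lit 107) (nat_lit 5) (nat_lit 341) (nat_lit 298) (nat_lit 141)) (XT.nd (nat_lit 78) (nat_lit 304) (nat_lit 0) (XT.lf (nat_lit 0) (nat_lit 20017113649) (nat_lit 456) (nat_lit 1707770142) (nat_lit 76) (nat_lit 4924450749) (nat_lit 101) (nat_lit 5) (nat_lit 107) (nat_lit 5) (nat_lit 102) (nat_lit 5) (nat_lit 342) (nat_lit 298) (nat_lit 140)) (XT.lf (nat_lit 0) (nat_lit 11413471437) (nat_lit 304) (nat_lit 12989532553) (nat_lit 380) (nat_lit 2757093322) (nat_lit 97) (nat_lit 5) (nat_lit 101) (nat_lit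 5) (nat_lit 102) (nat_lit 5) (nat_lit 343) (nat_lit 298) (nat_lit 139)))) (XT.nd (nat_lit 156) (nat_lit 304) (nat_lit 0) (XT.nd (nat_lit 78) (nat_lit 380) (nat_lit 0) (XT.lf (nat_lit 0) (nat_lit 1222424318) (nat_lit 380) (nat_lit 2741201167) (nat_lit 76) (nat_lit 23721839897) (nat_lit 96) (nat_lit 5) (nat_lit 101) (nat_lit 5) (nat_lit 97) (nat_lit 5) (nat_lit 344) (nat_lit 298) (nat_lit 138)) (XT.lf (nat_lit 0) (nat_lit 5417541852) (nat_lit 456) (nat_lit 17443560829) (nat_lit 76) (nat_lit 5360128858) (nat_lit 91) (nat_lit 5) (nat_lit 97) (nat_lit 5) (nat_lit 92) (nat_lit 5) (nat_lit 345) (nat_lit 298) (nat_lit 137))) (XT.nd (nat_lit 78) (nat_lit 304) (nat_lit 0) (XT.lf (nat_lit 0) (nat_lit 9800736421) (nat_lit 456) (nat_lit 4060188194) (nat_lit 76) (nat_lit 14910284081) (nat_lit 91) (nat_lit 5) (nat_lit 97) (nat_lit 5) (nat_lit 92) (nat_lit 5) (nat_lit 346) (nat_lit 298) (nat_lit 136)) (XT.lf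 (nat_lit 0) (nat_lit 9911561185) (nat_lit 304) (nat_lit 4494311405) (nat_lit 380) (nat_lit 14929103786) (nat_lit 87) (nat_lit 5) (nat_lit 91) (nat_lit 5) (nat_lit 92) (nat_lit 5) (nat_lit 347) (nat_lit 298) (nat_lit 135))))))) (XT.nd (nat_lit 1014) (nat_lit 1368) (nat_lit 0) (XT.nd (nat_lit 468) (nat_lit 836) (nat_lit 0) (XT.nd (nat_lit 234) (nat_lit 684) (nat_lit 0) (XT.nd (nat_lit 78) (nat_lit 304) (nat_lit 0) (XT.lf (nat_lit 0) (nat_lit 19235337137) (nat_lit 380) (nat_lit 5585277884) (nat_lit 76) (nat_lit 5092461286) (nat_lit 87) (nat_lit 5) (nat_lit 92) (nat_lit 5) (nat_lit 88) (nat_lit 5) (nat_lit 348) (nat_lit 298) (nat_lit 134)) (XT.nd (nat_lit 78) (nat_lit 0) (nat_lit 0) (XT.lf (nat_lit 0) (nat_lit 8788593688) (nat_lit 304) (nat_lit 15545442021) (nat_lit 380) (nat_lit 6170757340) (nat_lit 83) (nat_lit 5) (nat_lit 87) (nat_lit 5) (nat_lit 88) (nat_lit 5) (nat_lit 349) (nat_lit 298) (nat_lit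 133)) (XT.lf (nat_lit 0) (nat_lit 23701828122) (nat_lit 304) (nat_lit 5935711927) (nat_lit 380) (nat_lit 1475170095) (nat_lit 83) (nat_lit 5) (nat_lit 87) (nat_lit 5) (nat_lit 88) (nat_lit 5) (nat_lit 350) (nat_lit 298) (nat_lit 132)))) (XT.nd (nat_lit 78) (nat_lit 304) (nat_lit 0) (XT.lf (nat_lit 0) (nat_lit 3401743274) (nat_lit 380) (nat_lit 24344972516) (nat_lit 76) (nat_lit 3988002115) (nat_lit 78) (nat_lit 5) (nat_lit 83) (nat_lit 5) (nat_lit 79) (nat_lit 5) (nat_lit 351) (nat_lit 298) (nat_lit 131)) (XT.nd (nat_lit 78) (nat_lit 304) (nat_lit 0) (XT.lf (nat_lit 0) (nat_lit 8525243142) (nat_lit 380) (nat_lit 9667260795) (nat_lit 76) (nat_lit 14178549772) (nat_lit 78) (nat_lit 5) (nat_lit 83) (nat_lit 5) (nat_lit 79) (nat_lit 5) (nat_lit 352) (nat_lit 298) (nat_lit 130)) (XT.lf (nat_lit 0) (nat_lit 5553014021) (nat_lit 304) (nat_lit 8298524416) (nat_lit 380) (nat_lit 19173472163) (nat_lit 74)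 (nat_lit 5) (nat_lit 78) (nat_lit 5) (nat_lit 79) (nat_lit 5) (nat_lit 353) (nat_lit 298) (nat_lit 129))))) (XT.nd (nat_lit 234) (nat_lit 608) (nat_lit 0) (XT.nd (nat_lit 78) (nat_lit 228) (nat_lit 0) (XT.lf (nat_lit 0) (nat_lit 19450159517) (nat_lit 380) (nat_lit 12292927394) (nat_lit 76) (nat_lit 1952126795) (nat_lit 74) (nat_lit 5) (nat_lit 79) (nat_lit 5) (nat_lit 75) (nat_lit 5) (nat_lit 354) (nat_lit 298) (nat_lit 128)) (XT.nd (nat_lit 78) (nat_lit 0) (nat_lit 0) (XT.lf (nat_lit 0) (nat_lit 3318098287) (nat_lit 228) (nat_lit 22008583935) (nat_lit 304) (nat_lit 9055545905) (nat_lit 71) (nat_lit 5) (nat_lit 74) (nat_lit 5) (nat_lit 75) (nat_lit 5) (nat_lit 355) (nat_lit 298) (nat_lit 127)) (XT.lf (nat_lit 0) (nat_lit 19643506502) (nat_lit 228) (nat_lit 11856075143) (nat_lit 304) (nat_lit 3586672315) (nat_lit 71) (nat_lit 5) (nat_lit 74) (nat_lit 5) (nat_lit 75) (nat_lit 5) (nat_lit 356) (nat_lit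 298) (nat_lit 126)))) (XT.nd (nat_lit 156) (nat_lit 228) (nat_lit 0) (XT.nd (nat_lit 78) (nat_lit 0) (nat_lit 0) (XT.lf (nat_lit 0) (nat_lit 634130054) (nat_lit 304) (nat_lit 1374325449) (nat_lit 380) (nat_lit 33802294636) (nat_lit 66) (nat_lit 5) (nat_lit 70) (nat_lit 5) (nat_lit 71) (nat_lit 5) (nat_lit 357) (nat_lit 298) (nat_lit 125)) (XT.lf (nat_lit 0) (nat_lit 7943467442) (nat_lit 380) (nat_lit 19175948089) (nat_lit 76) (nat_lit 9429179879) (nat_lit 66) (nat_lit 5) (nat_lit 71) (nat_lit 5) (nat_lit 67) (nat_lit 5) (nat_lit 358) (nat_lit 298) (nat_lit 124))) (XT.nd (nat_lit 78) (nat_lit 228) (nat_lit 0) (XT.lf (nat_lit 0) (nat_lit 14066316103) (nat_lit 380) (nat_lit 2714587174) (nat_lit 76) (nat_lit 20527382200) (nat_lit 66) (nat_lit 5) (nat_lit 71) (nat_lit 5) (nat_lit 67) (nat_lit 5) (nat_lit 359) (nat_lit 298) (nat_lit 123)) (XT.lf (nat_lit 0) (nat_lit 14518362780) (nat_lit 228) (nat_lit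 5990337298) (nat_lit 304) (nat_lit 17577993615) (nat_lit 63) (nat_lit 5) (nat_lit 66) (nat_lit 5) (nat_lit 67) (nat_lit 5) (nat_lit 360) (nat_lit 298) (nat_lit 122)))))) (XT.nd (nat_lit 546) (nat_lit 608) (nat_lit 0) (XT.nd (nat_lit 234) (nat_lit 456) (nat_lit 0) (XT.nd (nat_lit 78) (nat_lit 304) (nat_lit 0) (XT.lf (nat_lit 0) (nat_lit 27217621334) (nat_lit 304) (nat_lit 6618807664) (nat_lit 76) (nat_lit 5049830038) (nat_lit 63) (nat_lit 5) (nat_lit 67) (nat_lit 5) (nat_lit 64) (nat_lit 5) (nat_lit 361) (nat_lit 298) (nat_lit 121)) (XT.nd (nat_lit 78) (nat_lit 76) (nat_lit 0) (XT.lf (nat_lit 0) (nat_lit 10988889285) (nat_lit 228) (nat_lit 23300297942) (nat_lit 304) (nat_lit 5415785575) (nat_lit 60) (nat_lit 5) (nat_lit 63) (nat_lit 5) (nat_lit 64) (nat_lit 5) (nat_lit 362) (nat_lit 298) (nat_lit 120)) (XT.lf (nat_lit 0) (nat_lit 1068605688) (nat_lit 304) (nat_lit 11301712527) (nat_lit 76) (nat_lit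 28175718444) (nat_lit 59) (nat_lit 5) (nat_lit 63) (nat_lit 5) (nat_lit 60) (nat_lit 5) (nat_lit 363) (nat_lit 298) (nat_lit 119)))) (XT.nd (nat_lit 156) (nat_lit 228) (nat_lit 0) (XT.nd (nat_lit 78) (nat_lit 0) (nat_lit 0) (XT.lf (nat_lit 0) (nat_lit 6707051013) (nat_lit 228) (nat_lit 992650934) (nat_lit 304) (nat_lit 33709193618) (nat_lit 56) (nat_lit 5) (nat_lit 59) (nat_lit 5) (nat_lit 60) (nat_lit 5) (nat_lit 364) (nat_lit 298) (nat_lit 118)) (XT.lf (nat_lit 0) (nat_lit 14744679537) (nat_lit 304) (nat_lit 16916033520) (nat_lit 76) (nat_lit 10630481191) (nat_lit 56) (nat_lit 5) (nat_lit 60) (nat_lit 5) (nat_lit 57) (nat_lit 5) (nat_lit 365) (nat_lit 298) (nat_lit 117))) (XT.nd (nat_lit 78) (nat_lit 0) (nat_lit 0) (XT.lf (nat_lit 0) (nat_lit 1415979358) (nat_lit 228) (nat_lit 20605151194) (nat_lit 304) (nat_lit 21178230005) (nat_lit 53) (nat_lit 5) (nat_lit 56) (nat_lit 5) (nat_lit 57) (nat_lit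 5) (nat_lit 366) (nat_lit 298) (nat_lit 116)) (XT.lf (nat_lit 0) (nat_lit 20639590348) (nat_lit 228) (nat_lit 9043835440) (nat_lit 304) (nat_lit 14446321871) (nat_lit 53) (nat_lit 5) (nat_lit 56) (nat_lit 5) (nat_lit 57) (nat_lit 5) (nat_lit 367) (nat_lit 298) (nat_lit 115))))) (XT.nd (nat_lit 234) (nat_lit 380) (nat_lit 0) (XT.nd (nat_lit 78) (nat_lit 228) (nat_lit 0) (XT.lf (nat_lit 0) (nat_lit 37599933257) (nat_lit 304) (nat_lit 4680725542) (nat_lit 76) (nat_lit 2806659527) (nat_lit 53) (nat_lit 5) (nat_lit 57) (nat_lit 5) (nat_lit 54) (nat_lit 5) (nat_lit 368) (nat_lit 298) (nat_lit 114)) (XT.nd (nat_lit 78) (nat_lit 76) (nat_lit 0) (XT.lf (nat_lit 0) (nat_lit 14889077788) (nat_lit 152) (nat_lit 31094426709) (nat_lit 228) (nat_lit 83226747) (nat_lit 51) (nat_lit 5) (nat_lit 53) (nat_lit 5) (nat_lit 54) (nat_lit 5) (nat_lit 369) (nat_lit 298) (nat_lit 113)) (XT.lf (nat_lit 0) (nat_lit 7440512137)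 (nat_lit 228) (nat_lit 12010082882) (nat_lit 76) (nat_lit 27621418900) (nat_lit 50) (nat_lit 5) (nat_lit 53) (nat_lit 5) (nat_lit 51) (nat_lit 5) (nat_lit 370) (nat_lit 298) (nat_lit 112)))) (XT.nd (nat_lit 156) (nat_lit 152) (nat_lit 0) (XT.nd (nat_lit 78) (nat_lit 0) (nat_lit 0) (XT.lf (nat_lit 0) (nat_lit 7880691491) (nat_lit 228) (nat_lit 7380356714) (nat_lit 304) (nat_lit 32844201417) (nat_lit 47) (nat_lit 5) (nat_lit 50) (nat_lit 5) (nat_lit 51) (nat_lit 5) (nat_lit 371) (nat_lit 298) (nat_lit 111)) (XT.lf (nat_lit 0) (nat_lit 23484270664) (nat_lit 304) (nat_lit 20606030194) (nat_lit 76) (nat_lit 5074141372) (nat_lit 47) (nat_lit 5) (nat_lit 51) (nat_lit 5) (nat_lit 48) (nat_lit 5) (nat_lit 372) (nat_lit 298) (nat_lit 110))) (XT.nd (nat_lit 78) (nat_lit 152) (nat_lit 0) (XT.lf (nat_lit 0) (nat_lit 32024377625) (nat_lit 304) (nat_lit 476685846) (nat_lit 76) (nat_lit 17752243399) (nat_lit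 47) (nat_lit 5) (nat_lit 51) (nat_lit 5) (nat_lit 48) (nat_lit 5) (nat_lit 373) (nat_lit 298) (nat_lit 109)) (XT.lf (nat_lit 0) (nat_lit 20655062836) (nat_lit 152) (nat_lit 20361373077) (nat_lit 228) (nat_lit 10352530925) (nat_lit 45) (nat_lit 5) (nat_lit 47) (nat_lit 5) (nat_lit 48) (nat_lit 5) (nat_lit 374) (nat_lit 298) (nat_lit 108))))))))
noncomputable def xc195 : XT := (XT.nd (nat_lit 35100) (nat_lit 0) (nat_lit 8208) (XT.nd (nat_lit 1014) (nat_lit 456) (nat_lit 0) (XT.nd (nat_lit 468) (nat_lit 532) (nat_lit 0) (XT.nd (nat_lit 234) (nat_lit 152) (nat_lit 0) (XT.nd (nat_lit 78) (nat_lit 304) (nat_lit 0) (XT.lf (nat_lit 0) (nat_lit 42426049323) (nat_lit 152) (nat_lit 7854257697) (nat_lit 228) (nat_lit 2237729833) (nat_lit 45) (nat_lit 5) (nat_lit 47) (nat_lit 5) (nat_lit 48) (nat_lit 5) (nat_lit 375) (nat_lit 298) (nat_lit 107)) (XT.nd (nat_lit 78) (nat_lit 0) (nat_lit 0) (XT.lf (nat_lit 0)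 (nat_lit 6157026595) (nat_lit 304) (nat_lit 42440650514) (nat_lit 76) (nat_lit 5097460173) (nat_lit 41) (nat_lit 5) (nat_lit 45) (nat_lit 5) (nat_lit 42) (nat_lit 5) (nat_lit 376) (nat_lit 298) (nat_lit 106)) (XT.lf (nat_lit 0) (nat_lit 14936643133) (nat_lit 304) (nat_lit 21561625462) (nat_lit 76) (nat_lit 18403279278) (nat_lit 41) (nat_lit 5) (nat_lit 45) (nat_lit 5) (nat_lit 42) (nat_lit 5) (nat_lit 377) (nat_lit 298) (nat_lit 105)))) (XT.nd (nat_lit 78) (nat_lit 152) (nat_lit 0) (XT.lf (nat_lit 0) (nat_lit 23977036860) (nat_lit 304) (nat_lit 60534020) (nat_lit 76) (nat_lit 32106659822) (nat_lit 41) (nat_lit 5) (nat_lit 45) (nat_lit 5) (nat_lit 42) (nat_lit 5) (nat_lit 378) (nat_lit 298) (nat_lit 104)) (XT.nd (nat_lit 78) (nat_lit 0) (nat_lit 0) (XT.lf (nat_lit 0) (nat_lit 22520874551) (nat_lit 152) (nat_lit 10981717021) (nat_lit 228) (nat_lit 23915185505) (nat_lit 39) (nat_lit 5) (nat_lit 41)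 (nat_lit 5) (nat_lit 42) (nat_lit 5) (nat_lit 379) (nat_lit 298) (nat_lit 103)) (XT.lf (nat_lit 0) (nat_lit 43335716232) (nat_lit 228) (nat_lit 12976452998) (nat_lit 76) (nat_lit 2416708003) (nat_lit 39) (nat_lit 5) (nat_lit 42) (nat_lit 5) (nat_lit 40) (nat_lit 5) (nat_lit 380) (nat_lit 298) (nat_lit 102))))) (XT.nd (nat_lit 234) (nat_lit 304) (nat_lit 0) (XT.nd (nat_lit 78) (nat_lit 76) (nat_lit 0) (XT.lf (nat_lit 0) (nat_lit 9677649425) (nat_lit 152) (nat_lit 43985498954) (nat_lit 228) (nat_lit 6410184049) (nat_lit 37) (nat_lit 5) (nat_lit 39) (nat_lit 5) (nat_lit 40) (nat_lit 5) (nat_lit 381) (nat_lit 298) (nat_lit 101)) (XT.nd (nat_lit 78) (nat_lit 0) (nat_lit 0) (XT.lf (nat_lit 0) (nat_lit 2916716681) (nat_lit 228) (nat_lit 28209516247) (nat_lit 76) (nat_lit 30327173133) (nat_lit 36) (nat_lit 5) (nat_lit 39) (nat_lit 5) (nat_lit 37) (nat_lit 5) (nat_lit 382) (nat_lit 298) (nat_lit 100))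 (XT.lf (nat_lit 0) (nat_lit 12392220557) (nat_lit 228) (nat_lit 5425199040) (nat_lit 76) (nat_lit 45055630580) (nat_lit 36) (nat_lit 5) (nat_lit 39) (nat_lit 5) (nat_lit 37) (nat_lit 5) (nat_lit 383) (nat_lit 298) (nat_lit 99)))) (XT.nd (nat_lit 156) (nat_lit 152) (nat_lit 0) (XT.nd (nat_lit 78) (nat_lit 0) (nat_lit 0) (XT.lf (nat_lit 0) (nat_lit 18397803260) (nat_lit 152) (nat_lit 3928740603) (nat_lit 228) (nat_lit 42003504410) (nat_lit 34) (nat_lit 5) (nat_lit 36) (nat_lit 5) (nat_lit 37) (nat_lit 5) (nat_lit 384) (nat_lit 298) (nat_lit 98)) (XT.lf (nat_lit 0) (nat_lit 32711688097) (nat_lit 228) (nat_lit 22886562963) (nat_lit 76) (nat_lit 10227922762) (nat_lit 34) (nat_lit 5) (nat_lit 37) (nat_lit 5) (nat_lit 35) (nat_lit 5) (nat_lit 385) (nat_lit 298) (nat_lit 97))) (XT.nd (nat_lit 78) (nat_lit 0) (nat_lit 0) (XT.lf (nat_lit 0) (nat_lit 823912877) (nat_lit 152) (nat_lit 42629077328) (nat_lit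 228) (nat_lit 23912856039) (nat_lit 32) (nat_lit 5) (nat_lit 34) (nat_lit 5) (nat_lit 35) (nat_lit 5) (nat_lit 386) (nat_lit 298) (nat_lit 96)) (XT.lf (nat_lit 0) (nat_lit 25711136161) (nat_lit 152) (nat_lit 29034318558) (nat_lit 228) (nat_lit 14199387596) (nat_lit 32) (nat_lit 5) (nat_lit 34) (nat_lit 5) (nat_lit 35) (nat_lit 5) (nat_lit 387) (nat_lit 298) (nat_lit 95)))))) (XT.nd (nat_lit 468) (nat_lit 76) (nat_lit 0) (XT.nd (nat_lit 234) (nat_lit 152) (nat_lit 0) (XT.nd (nat_lit 78) (nat_lit 228) (nat_lit 0) (XT.lf (nat_lit 0) (nat_lit 51341365527) (nat_lit 152) (nat_lit 15033205244) (nat_lit 228) (nat_lit 4196702309) (nat_lit 32) (nat_lit 5) (nat_lit 34) (nat_lit 5) (nat_lit 35) (nat_lit 5) (nat_lit 388) (nat_lit 298) (nat_lit 94)) (XT.nd (nat_lit 78) (nat_lit 0) (nat_lit 0) (XT.lf (nat_lit 0) (nat_lit 5539864528) (nat_lit 152) (nat_lit 498218212) (nat_lit 228) (nat_lit 66205119135) (nat_lit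 29) (nat_lit 5) (nat_lit 31) (nat_lit 5) (nat_lit 32) (nat_lit 5) (nat_lit 389) (nat_lit 298) (nat_lit 93)) (XT.lf (nat_lit 0) (nat_lit 16828721134) (nat_lit 228) (nat_lit 42698696556) (nat_lit 76) (nat_lit 14426630563) (nat_lit 29) (nat_lit 5) (nat_lit 32) (nat_lit 5) (nat_lit 30) (nat_lit 5) (nat_lit 390) (nat_lit 298) (nat_lit 92)))) (XT.nd (nat_lit 78) (nat_lit 152) (nat_lit 0) (XT.lf (nat_lit 0) (nat_lit 27946002590) (nat_lit 228) (nat_lit 17982307519) (nat_lit 76) (nat_lit 29787823210) (nat_lit 29) (nat_lit 5) (nat_lit 32) (nat_lit 5) (nat_lit 30) (nat_lit 5) (nat_lit 391) (nat_lit 298) (nat_lit 91)) (XT.nd (nat_lit 78) (nat_lit 0) (nat_lit 0) (XT.lf (nat_lit 0) (nat_lit 7620927531) (nat_lit 152) (nat_lit 31847181546) (nat_lit 228) (nat_lit 38060833648) (nat_lit 27) (nat_lit 5) (nat_lit 29) (nat_lit 5) (nat_lit 30) (nat_lit 5) (nat_lit 392) (nat_lit 298) (nat_lit 90)) (XT.lf (nat_lit 0)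 (nat_lit 34357554820) (nat_lit 152) (nat_lit 17157984406) (nat_lit 228) (nat_lit 27875208328) (nat_lit 27) (nat_lit 5) (nat_lit 29) (nat_lit 5) (nat_lit 30) (nat_lit 5) (nat_lit 393) (nat_lit 298) (nat_lit 89))))) (XT.nd (nat_lit 33306) (nat_lit 0) (nat_lit 13376) (XT.nd (nat_lit 78) (nat_lit 76) (nat_lit 0) (XT.lf (nat_lit 0) (nat_lit 61893053271) (nat_lit 152) (nat_lit 2029469517) (nat_lit 228) (nat_lit 17385940755) (nat_lit 27) (nat_lit 5) (nat_lit 29) (nat_lit 5) (nat_lit 30) (nat_lit 5) (nat_lit 394) (nat_lit 298) (nat_lit 88)) (XT.nd (nat_lit 33150) (nat_lit 0) (nat_lit 13376) (XT.lf (nat_lit 0) (nat_lit 6973529235) (nat_lit 76) (nat_lit 69923671506) (nat_lit 152) (nat_lit 6380646625) (nat_lit 26) (nat_lit 5) (nat_lit 27) (nat_lit 5) (nat_lit 28) (nat_lit 4) (nat_lit 395) (nat_lit 298) (nat_lit 87)) (XT.lf (nat_lit 0) (nat_lit 5193347513) (nat_lit 1140) (nat_lit 709150401) (nat_lit 1140)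 (nat_lit 709150401) (nat_lit 202) (nat_lit 3) (nat_lit 217) (nat_lit 3) (nat_lit 217) (nat_lit 5) (nat_lit 299) (nat_lit 299) (nat_lit 182)))) (XT.nd (nat_lit 156) (nat_lit 0) (nat_lit 76) (XT.nd (nat_lit 78) (nat_lit 0) (nat_lit 0) (XT.lf (nat_lit 76) (nat_lit 4608449610) (nat_lit 0) (nat_lit 6340103686) (nat_lit 1140) (nat_lit 2460396379) (nat_lit 203) (nat_lit 5) (nat_lit 202) (nat_lit 3) (nat_lit 217) (nat_lit 5) (nat_lit 300) (nat_lit 299) (nat_lit 181)) (XT.lf (nat_lit 76) (nat_lit 10837650371) (nat_lit 0) (nat_lit 689749189) (nat_lit 1140) (nat_lit 2072788868) (nat_lit 203) (nat_lit 5) (nat_lit 202) (nat_lit 3) (nat_lit 217) (nat_lit 5) (nat_lit 301) (nat_lit 299) (nat_lit 180))) (XT.nd (nat_lit 78) (nat_lit 0) (nat_lit 0) (XT.lf (nat_lit 76) (nat_lit 3467201004) (nat_lit 0) (nat_lit 8725339489) (nat_lit 1140) (nat_lit 1602575474) (nat_lit 204) (nat_lit 5) (nat_lit 203) (nat_lit 5) (nat_lit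 218) (nat_lit 5) (nat_lit 302) (nat_lit 299) (nat_lit 179)) (XT.lf (nat_lit 76) (nat_lit 9925866420) (nat_lit 0) (nat_lit 2973040384) (nat_lit 1140) (nat_lit 1096365327) (nat_lit 204) (nat_lit 5) (nat_lit 203) (nat_lit 5) (nat_lit 218) (nat_lit 5) (nat_lit 303) (nat_lit 299) (nat_lit 178))))))) (XT.nd (nat_lit 1014) (nat_lit 4180) (nat_lit 0) (XT.nd (nat_lit 468) (nat_lit 0) (nat_lit 152) (XT.nd (nat_lit 234) (nat_lit 0) (nat_lit 76) (XT.nd (nat_lit 78) (nat_lit 1140) (nat_lit 0) (XT.lf (nat_lit 76) (nat_lit 2387197028) (nat_lit 0) (nat_lit 11277645386) (nat_lit 1140) (nat_lit 535457599) (nat_lit 205) (nat_lit 5) (nat_lit 204) (nat_lit 5) (nat_lit 219) (nat_lit 5) (nat_lit 304) (nat_lit 299) (nat_lit 177)) (XT.nd (nat_lit 78) (nat_lit 0) (nat_lit 76) (XT.lf (nat_lit 0) (nat_lit 99604068) (nat_lit 1140) (nat_lit 5327642992) (nat_lit 1216) (nat_lit 8982492255) (nat_lit 189) (nat_lit 5) (nat_lit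 204) (nat_lit 5) (nat_lit 205) (nat_lit 5) (nat_lit 305) (nat_lit 299) (nat_lit 176)) (XT.lf (nat_lit 0) (nat_lit 749654696) (nat_lit 1140) (nat_lit 13265375894) (nat_lit 1216) (nat_lit 610088002) (nat_lit 190) (nat_lit 5) (nat_lit 205) (nat_lit 5) (nat_lit 206) (nat_lit 5) (nat_lit 306) (nat_lit 299) (nat_lit 175)))) (XT.nd (nat_lit 78) (nat_lit 0) (nat_lit 0) (XT.lf (nat_lit 0) (nat_lit 1515190509) (nat_lit 1140) (nat_lit 6550826535) (nat_lit 1216) (nat_lit 6778079026) (nat_lit 190) (nat_lit 5) (nat_lit 205) (nat_lit 5) (nat_lit 206) (nat_lit 5) (nat_lit 307) (nat_lit 299) (nat_lit 174)) (XT.nd (nat_lit 78) (nat_lit 0) (nat_lit 76) (XT.lf (nat_lit 76) (nat_lit 364331946) (nat_lit 0) (nat_lit 1931131697) (nat_lit 1216) (nat_lit 12774441948) (nat_lit 191) (nat_lit 5) (nat_lit 190) (nat_lit 5) (nat_lit 206) (nat_lit 5) (nat_lit 308) (nat_lit 299) (nat_lit 173)) (XT.lf (nat_lit 0) (nat_lit 3196698510)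 (nat_lit 1140) (nat_lit 7730360327) (nat_lit 1216) (nat_lit 4372519348) (nat_lit 191) (nat_lit 5) (nat_lit 206) (nat_lit 5) (nat_lit 207) (nat_lit 5) (nat_lit 309) (nat_lit 299) (nat_lit 172))))) (XT.nd (nat_lit 234) (nat_lit 0) (nat_lit 76) (XT.nd (nat_lit 78) (nat_lit 0) (nat_lit 76) (XT.lf (nat_lit 0) (nat_lit 4132993314) (nat_lit 1140) (nat_lit 573023321) (nat_lit 1216) (nat_lit 10829898582) (nat_lit 191) (nat_lit 5) (nat_lit 206) (nat_lit 5) (nat_lit 207) (nat_lit 5) (nat_lit 310) (nat_lit 299) (nat_lit 171)) (XT.nd (nat_lit 78) (nat_lit 0) (nat_lit 0) (XT.lf (nat_lit 0) (nat_lit 5170229258) (nat_lit 1140) (nat_lit 8868314177) (nat_lit 1216) (nat_lit 1738627867) (nat_lit 192) (nat_lit 5) (nat_lit 207) (nat_lit 5) (nat_lit 208) (nat_lit 5) (nat_lit 311) (nat_lit 299) (nat_lit 170)) (XT.lf (nat_lit 0) (nat_lit 6280513179) (nat_lit 1140) (nat_lit 1453262874) (nat_lit 1216) (nat_lit 8290645176)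 (nat_lit 192) (nat_lit 5) (nat_lit 207) (nat_lit 5) (nat_lit 208) (nat_lit 5) (nat_lit 312) (nat_lit 299) (nat_lit 169)))) (XT.nd (nat_lit 156) (nat_lit 0) (nat_lit 76) (XT.nd (nat_lit 78) (nat_lit 0) (nat_lit 76) (XT.lf (nat_lit 76) (nat_lit 6299337207) (nat_lit 0) (nat_lit 1175120497) (nat_lit 1216) (nat_lit 8803134066) (nat_lit 193) (nat_lit 5) (nat_lit 192) (nat_lit 5) (nat_lit 208) (nat_lit 5) (nat_lit 313) (nat_lit 299) (nat_lit 168)) (XT.lf (nat_lit 0) (nat_lit 8762725241) (nat_lit 1140) (nat_lit 2285480783) (nat_lit 1216) (nat_lit 5488409542) (nat_lit 193) (nat_lit 5) (nat_lit 208) (nat_lit 5) (nat_lit 209) (nat_lit 5) (nat_lit 314) (nat_lit 299) (nat_lit 167))) (XT.nd (nat_lit 78) (nat_lit 0) (nat_lit 76) (XT.lf (nat_lit 76) (nat_lit 5730414953) (nat_lit 0) (nat_lit 4416278034) (nat_lit 1216) (nat_lit 6655018417) (nat_lit 194) (nat_lit 5) (nat_lit 193) (nat_lit 5) (nat_lit 209) (nat_lit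 5) (nat_lit 315) (nat_lit 299) (nat_lit 166)) (XT.lf (nat_lit 0) (nat_lit 11609254011) (nat_lit 1140) (nat_lit 3071952325) (nat_lit 76) (nat_lit 2392454070) (nat_lit 194) (nat_lit 5) (nat_lit 209) (nat_lit 5) (nat_lit 195) (nat_lit 5) (nat_lit 316) (nat_lit 299) (nat_lit 165)))))) (XT.nd (nat_lit 546) (nat_lit 1596) (nat_lit 0) (XT.nd (nat_lit 234) (nat_lit 1216) (nat_lit 0) (XT.nd (nat_lit 78) (nat_lit 608) (nat_lit 0) (XT.lf (nat_lit 0) (nat_lit 5217613398) (nat_lit 1140) (nat_lit 7982790126) (nat_lit 1216) (nat_lit 4150835155) (nat_lit 179) (nat_lit 5) (nat_lit 194) (nat_lit 5) (nat_lit 195) (nat_lit 5) (nat_lit 317) (nat_lit 299) (nat_lit 164)) (XT.nd (nat_lit 78) (nat_lit 608) (nat_lit 0) (XT.lf (nat_lit 0) (nat_lit 13811067410) (nat_lit 1140) (nat_lit 1050264407) (nat_lit 1216) (nat_lit 2775162955) (nat_lit 179) (nat_lit 5) (nat_lit 194) (nat_lit 5) (nat_lit 195) (nat_lit 5) (nat_lit 318)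 (nat_lit 299) (nat_lit 163)) (XT.lf (nat_lit 0) (nat_lit 4758500371) (nat_lit 608) (nat_lit 11909168586) (nat_lit 684) (nat_lit 1259783615) (nat_lit 171) (nat_lit 5) (nat_lit 179) (nat_lit 5) (nat_lit 180) (nat_lit 5) (nat_lit 319) (nat_lit 299) (nat_lit 162)))) (XT.nd (nat_lit 156) (nat_lit 532) (nat_lit 0) (XT.nd (nat_lit 78) (nat_lit 608) (nat_lit 0) (XT.lf (nat_lit 0) (nat_lit 335972820) (nat_lit 684) (nat_lit 4569225972) (nat_lit 76) (nat_lit 13320640581) (nat_lit 170) (nat_lit 5) (nat_lit 179) (nat_lit 5) (nat_lit 171) (nat_lit 5) (nat_lit 320) (nat_lit 299) (nat_lit 161)) (XT.lf (nat_lit 0) (nat_lit 2010497511) (nat_lit 684) (nat_lit 14201284665) (nat_lit 76) (nat_lit 2319345412) (nat_lit 162) (nat_lit 5) (nat_lit 171) (nat_lit 5) (nat_lit 163) (nat_lit 5) (nat_lit 321) (nat_lit 299) (nat_lit 160))) (XT.nd (nat_lit 78) (nat_lit 532) (nat_lit 0) (XT.lf (nat_lit 0) (nat_lit 3822228299) (nat_lit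 684) (nat_lit 5311553996) (nat_lit 76) (nat_lit 9709193221) (nat_lit 162) (nat_lit 5) (nat_lit 171) (nat_lit 5) (nat_lit 163) (nat_lit 5) (nat_lit 322) (nat_lit 299) (nat_lit 159)) (XT.lf (nat_lit 0) (nat_lit 3913577228) (nat_lit 532) (nat_lit 1804399088) (nat_lit 608) (nat_lit 13445322487) (nat_lit 155) (nat_lit 5) (nat_lit 162) (nat_lit 5) (nat_lit 163) (nat_lit 5) (nat_lit 323) (nat_lit 299) (nat_lit 158))))) (XT.nd (nat_lit 234) (nat_lit 1064) (nat_lit 0) (XT.nd (nat_lit 78) (nat_lit 532) (nat_lit 0) (XT.lf (nat_lit 0) (nat_lit 7772193686) (nat_lit 608) (nat_lit 6030862631) (nat_lit 76) (nat_lit 5687137159) (nat_lit 155) (nat_lit 5) (nat_lit 163) (nat_lit 5) (nat_lit 156) (nat_lit 5) (nat_lit 324) (nat_lit 299) (nat_lit 157)) (XT.nd (nat_lit 78) (nat_lit 0) (nat_lit 0) (XT.lf (nat_lit 0) (nat_lit 3507539775) (nat_lit 532) (nat_lit 6424513168) (nat_lit 608) (nat_lit 9893530898) (nat_lit 148)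 (nat_lit 5) (nat_lit 155) (nat_lit 5) (nat_lit 156) (nat_lit 5) (nat_lit 325) (nat_lit 299) (nat_lit 156)) (XT.lf (nat_lit 0) (nat_lit 12222089768) (nat_lit 608) (nat_lit 6733147128) (nat_lit 76) (nat_lit 1213846611) (nat_lit 148) (nat_lit 5) (nat_lit 156) (nat_lit 5) (nat_lit 149) (nat_lit 5) (nat_lit 326) (nat_lit 299) (nat_lit 155)))) (XT.nd (nat_lit 156) (nat_lit 608) (nat_lit 0) (XT.nd (nat_lit 78) (nat_lit 0) (nat_lit 0) (XT.lf (nat_lit 0) (nat_lit 3129218216) (nat_lit 456) (nat_lit 11538094984) (nat_lit 532) (nat_lit 5852989176) (nat_lit 142) (nat_lit 5) (nat_lit 148) (nat_lit 5) (nat_lit 149) (nat_lit 5) (nat_lit 327) (nat_lit 299) (nat_lit 154)) (XT.lf (nat_lit 0) (nat_lit 13418019500) (nat_lit 456) (nat_lit 3828800045) (nat_lit 532) (nat_lit 3633419004) (nat_lit 142) (nat_lit 5) (nat_lit 148) (nat_lit 5) (nat_lit 149) (nat_lit 5) (nat_lit 328) (nat_lit 299) (nat_lit 153))) (XT.nd (nat_lit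 78) (nat_lit 76) (nat_lit 0) (XT.lf (nat_lit 0) (nat_lit 2771620310) (nat_lit 532) (nat_lit 17191394913) (nat_lit 608) (nat_lit 1286186735) (nat_lit 135) (nat_lit 5) (nat_lit 142) (nat_lit 5) (nat_lit 143) (nat_lit 5) (nat_lit 329) (nat_lit 299) (nat_lit 152)) (XT.lf (nat_lit 0) (nat_lit 1216583534) (nat_lit 608) (nat_lit 8218583302) (nat_lit 76) (nat_lit 12190532946) (nat_lit 134) (nat_lit 5) (nat_lit 142) (nat_lit 5) (nat_lit 135) (nat_lit 5) (nat_lit 330) (nat_lit 299) (nat_lit 151))))))))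
noncomputable def xc196 : XT := (XT.nd (nat_lit 2028) (nat_lit 2660) (nat_lit 0) (XT.nd (nat_lit 1014) (nat_lit 2280) (nat_lit 0) (XT.nd (nat_lit 468) (nat_lit 1216) (nat_lit 0) (XT.nd (nat_lit 234) (nat_lit 380) (nat_lit 0) (XT.nd (nat_lit 78) (nat_lit 456) (nat_lit 0) (XT.lf (nat_lit 0) (nat_lit 2374482880) (nat_lit 456) (nat_lit 1410317421) (nat_lit 532) (nat_lit 18227831342) (nat_lit 128) (nat_lit 5) (nat_lit 134) (nat_lit 5) (nat_lit 135) (nat_lit 5) (nat_lit 331) (nat_lit 299) (nat_lit 150)) (XT.nd (nat_lit 78) (nat_lit 456) (nat_lit 0) (XT.lf (nat_lit 0) (nat_lit 6573279347) (nat_lit 532) (nat_lit 9029012130) (nat_lit 76) (nat_lit 6804590863) (nat_lit 128) (nat_lit 5) (nat_lit 135) (nat_lit 5) (nat_lit 129) (nat_lit 5) (nat_lit 332) (nat_lit 299) (nat_lit 149)) (XT.lf (nat_lit 0) (nat_lit 1914586268) (nat_lit 456) (nat_lit 7556888748) (nat_lit 532) (nat_lit 13340710813) (nat_lit 122) (nat_lit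 5) (nat_lit 128) (nat_lit 5) (nat_lit 129) (nat_lit 5) (nat_lit 333) (nat_lit 299) (nat_lit 148)))) (XT.nd (nat_lit 78) (nat_lit 380) (nat_lit 0) (XT.lf (nat_lit 0) (nat_lit 12549511076) (nat_lit 532) (nat_lit 9870575505) (nat_lit 76) (nat_lit 806781936) (nat_lit 122) (nat_lit 5) (nat_lit 129) (nat_lit 5) (nat_lit 123) (nat_lit 5) (nat_lit 334) (nat_lit 299) (nat_lit 147)) (XT.nd (nat_lit 78) (nat_lit 0) (nat_lit 0) (XT.lf (nat_lit 0) (nat_lit 1433298557) (nat_lit 380) (nat_lit 14369169113) (nat_lit 456) (nat_lit 7849053360) (nat_lit 117) (nat_lit 5) (nat_lit 122) (nat_lit 5) (nat_lit 123) (nat_lit 5) (nat_lit 335) (nat_lit 299) (nat_lit 146)) (XT.lf (nat_lit 0) (nat_lit 13271586805) (nat_lit 380) (nat_lit 5975188289) (nat_lit 456) (nat_lit 4839331692) (nat_lit 117) (nat_lit 5) (nat_lit 122) (nat_lit 5) (nat_lit 123) (nat_lit 5) (nat_lit 336) (nat_lit 299) (nat_lit 145))))) (XT.nd (nat_lit 234)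 (nat_lit 380) (nat_lit 0) (XT.nd (nat_lit 78) (nat_lit 456) (nat_lit 0) (XT.lf (nat_lit 0) (nat_lit 916504200) (nat_lit 380) (nat_lit 21906639421) (nat_lit 456) (nat_lit 1709730883) (nat_lit 112) (nat_lit 5) (nat_lit 117) (nat_lit 5) (nat_lit 118) (nat_lit 5) (nat_lit 337) (nat_lit 299) (nat_lit 144)) (XT.nd (nat_lit 78) (nat_lit 380) (nat_lit 0) (XT.lf (nat_lit 0) (nat_lit 1647955223) (nat_lit 456) (nat_lit 11850468723) (nat_lit 76) (nat_lit 11489278663) (nat_lit 111) (nat_lit 5) (nat_lit 117) (nat_lit 5) (nat_lit 112) (nat_lit 5) (nat_lit 338) (nat_lit 299) (nat_lit 143)) (XT.lf (nat_lit 0) (nat_lit 249502896) (nat_lit 380) (nat_lit 4819359003) (nat_lit 456) (nat_lit 20386906007) (nat_lit 106) (nat_lit 5) (nat_lit 111) (nat_lit 5) (nat_lit 112) (nat_lit 5) (nat_lit 339) (nat_lit 299) (nat_lit 142)))) (XT.nd (nat_lit 156) (nat_lit 380) (nat_lit 0) (XT.nd (nat_lit 78) (nat_lit 0) (nat_lit 0) (XT.lf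 (nat_lit 0) (nat_lit 8747390812) (nat_lit 456) (nat_lit 13026614857) (nat_lit 76) (nat_lit 4159225276) (nat_lit 106) (nat_lit 5) (nat_lit 112) (nat_lit 5) (nat_lit 107) (nat_lit 5) (nat_lit 340) (nat_lit 299) (nat_lit 141)) (XT.lf (nat_lit 0) (nat_lit 12578690087) (nat_lit 456) (nat_lit 536026401) (nat_lit 76) (nat_lit 13309034422) (nat_lit 106) (nat_lit 5) (nat_lit 112) (nat_lit 5) (nat_lit 107) (nat_lit 5) (nat_lit 341) (nat_lit 299) (nat_lit 140))) (XT.nd (nat_lit 78) (nat_lit 0) (nat_lit 0) (XT.lf (nat_lit 0) (nat_lit 12567987799) (nat_lit 380) (nat_lit 4072604225) (nat_lit 456) (nat_lit 10284929853) (nat_lit 101) (nat_lit 5) (nat_lit 106) (nat_lit 5) (nat_lit 107) (nat_lit 5) (nat_lit 342) (nat_lit 299) (nat_lit 139)) (XT.lf (nat_lit 0) (nat_lit 20875121515) (nat_lit 456) (nat_lit 1423122104) (nat_lit 76) (nat_lit 5142584395) (nat_lit 101) (nat_lit 5) (nat_lit 107) (nat_lit 5) (nat_lit 102)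 (nat_lit 5) (nat_lit 343) (nat_lit 299) (nat_lit 138)))))) (XT.nd (nat_lit 468) (nat_lit 1216) (nat_lit 0) (XT.nd (nat_lit 234) (nat_lit 304) (nat_lit 0) (XT.nd (nat_lit 78) (nat_lit 456) (nat_lit 0) (XT.lf (nat_lit 0) (nat_lit 12088463770) (nat_lit 304) (nat_lit 13299821999) (nat_lit 380) (nat_lit 2578764607) (nat_lit 97) (nat_lit 5) (nat_lit 101) (nat_lit 5) (nat_lit 102) (nat_lit 5) (nat_lit 344) (nat_lit 299) (nat_lit 137)) (XT.nd (nat_lit 78) (nat_lit 380) (nat_lit 0) (XT.lf (nat_lit 0) (nat_lit 1507589916) (nat_lit 380) (nat_lit 2495351032) (nat_lit 76) (nat_lit 24505394090) (nat_lit 96) (nat_lit 5) (nat_lit 101) (nat_lit 5) (nat_lit 97) (nat_lit 5) (nat_lit 345) (nat_lit 299) (nat_lit 136)) (XT.lf (nat_lit 0) (nat_lit 5825219900) (nat_lit 456) (nat_lit 17635207865) (nat_lit 76) (nat_lit 5599853624) (nat_lit 91) (nat_lit 5) (nat_lit 97) (nat_lit 5) (nat_lit 92) (nat_lit 5) (nat_lit 346)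 (nat_lit 299) (nat_lit 135)))) (XT.nd (nat_lit 78) (nat_lit 304) (nat_lit 0) (XT.lf (nat_lit 0) (nat_lit 10332769962) (nat_lit 456) (nat_lit 3859994045) (nat_lit 76) (nat_lit 15434214836) (nat_lit 91) (nat_lit 5) (nat_lit 97) (nat_lit 5) (nat_lit 92) (nat_lit 5) (nat_lit 347) (nat_lit 299) (nat_lit 134)) (XT.nd (nat_lit 78) (nat_lit 0) (nat_lit 0) (XT.lf (nat_lit 0) (nat_lit 10527750954) (nat_lit 304) (nat_lit 4544441803) (nat_lit 380) (nat_lit 15135589397) (nat_lit 87) (nat_lit 5) (nat_lit 91) (nat_lit 5) (nat_lit 92) (nat_lit 5) (nat_lit 348) (nat_lit 299) (nat_lit 133)) (XT.lf (nat_lit 0) (nat_lit 20040511977) (nat_lit 380) (nat_lit 5437037901) (nat_lit 76) (nat_lit 5325862467) (nat_lit 87) (nat_lit 5) (nat_lit 92) (nat_lit 5) (nat_lit 88) (nat_lit 5) (nat_lit 349) (nat_lit 299) (nat_lit 132))))) (XT.nd (nat_lit 234) (nat_lit 532) (nat_lit 0) (XT.nd (nat_lit 78) (nat_lit 380) (nat_lit 0) (XT.lf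 (nat_lit 0) (nat_lit 9364953757) (nat_lit 304) (nat_lit 15923579517) (nat_lit 380) (nat_lit 6124462661) (nat_lit 83) (nat_lit 5) (nat_lit 87) (nat_lit 5) (nat_lit 88) (nat_lit 5) (nat_lit 350) (nat_lit 299) (nat_lit 131)) (XT.nd (nat_lit 78) (nat_lit 380) (nat_lit 0) (XT.lf (nat_lit 0) (nat_lit 24716477391) (nat_lit 304) (nat_lit 6028127203) (nat_lit 380) (nat_lit 1294748112) (nat_lit 83) (nat_lit 5) (nat_lit 87) (nat_lit 5) (nat_lit 88) (nat_lit 5) (nat_lit 351) (nat_lit 299) (nat_lit 130)) (XT.lf (nat_lit 0) (nat_lit 3721454613) (nat_lit 380) (nat_lit 24764325390) (nat_lit 76) (nat_lit 4194260590) (nat_lit 78) (nat_lit 5) (nat_lit 83) (nat_lit 5) (nat_lit 79) (nat_lit 5) (nat_lit 352) (nat_lit 299) (nat_lit 129)))) (XT.nd (nat_lit 156) (nat_lit 228) (nat_lit 0) (XT.nd (nat_lit 78) (nat_lit 304) (nat_lit 0) (XT.lf (nat_lit 0) (nat_lit 8992319893) (nat_lit 380) (nat_lit 9655340463) (nat_lit 76)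 (nat_lit 14688001810) (nat_lit 78) (nat_lit 5) (nat_lit 83) (nat_lit 5) (nat_lit 79) (nat_lit 5) (nat_lit 353) (nat_lit 299) (nat_lit 128)) (XT.lf (nat_lit 0) (nat_lit 6018582420) (nat_lit 304) (nat_lit 8456540650) (nat_lit 380) (nat_lit 19534218468) (nat_lit 74) (nat_lit 5) (nat_lit 78) (nat_lit 5) (nat_lit 79) (nat_lit 5) (nat_lit 354) (nat_lit 299) (nat_lit 127))) (XT.nd (nat_lit 78) (nat_lit 228) (nat_lit 0) (XT.lf (nat_lit 0) (nat_lit 20236492115) (nat_lit 380) (nat_lit 12366061632) (nat_lit 76) (nat_lit 2097258502) (nat_lit 74) (nat_lit 5) (nat_lit 79) (nat_lit 5) (nat_lit 75) (nat_lit 5) (nat_lit 355) (nat_lit 299) (nat_lit 126)) (XT.lf (nat_lit 0) (nat_lit 3710396254) (nat_lit 228) (nat_lit 22575820781) (nat_lit 304) (nat_lit 9121317912) (nat_lit 71) (nat_lit 5) (nat_lit 74) (nat_lit 5) (nat_lit 75) (nat_lit 5) (nat_lit 356) (nat_lit 299) (nat_lit 125))))))) (XT.nd (nat_lit 1014) (nat_lit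 1292) (nat_lit 0) (XT.nd (nat_lit 468) (nat_lit 760) (nat_lit 0) (XT.nd (nat_lit 234) (nat_lit 228) (nat_lit 0) (XT.nd (nat_lit 78) (nat_lit 380) (nat_lit 0) (XT.lf (nat_lit 0) (nat_lit 20517039871) (nat_lit 228) (nat_lit 12121446064) (nat_lit 304) (nat_lit 3494375038) (nat_lit 71) (nat_lit 5) (nat_lit 74) (nat_lit 5) (nat_lit 75) (nat_lit 5) (nat_lit 357) (nat_lit 299) (nat_lit 124)) (XT.nd (nat_lit 78) (nat_lit 0) (nat_lit 0) (XT.lf (nat_lit 0) (nat_lit 938614854) (nat_lit 304) (nat_lit 1323126425) (nat_lit 380) (nat_lit 34617386663) (nat_lit 66) (nat_lit 5) (nat_lit 70) (nat_lit 5) (nat_lit 71) (nat_lit 5) (nat_lit 358) (nat_lit 299) (nat_lit 123)) (XT.lf (nat_lit 0) (nat_lit 8370043885) (nat_lit 380) (nat_lit 19469171078) (nat_lit 76) (nat_lit 9800040877) (nat_lit 66) (nat_lit 5) (nat_lit 71) (nat_lit 5) (nat_lit 67) (nat_lit 5) (nat_lit 359) (nat_lit 299) (nat_lit 122)))) (XT.nd (nat_lit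 78) (nat_lit 228) (nat_lit 0) (XT.lf (nat_lit 0) (nat_lit 14671094343) (nat_lit 380) (nat_lit 2522184543) (nat_lit 76) (nat_lit 21228626580) (nat_lit 66) (nat_lit 5) (nat_lit 71) (nat_lit 5) (nat_lit 67) (nat_lit 5) (nat_lit 360) (nat_lit 299) (nat_lit 121)) (XT.nd (nat_lit 78) (nat_lit 0) (nat_lit 0) (XT.lf (nat_lit 0) (nat_lit 15225069201) (nat_lit 228) (nat_lit 6078963204) (nat_lit 304) (nat_lit 17919719266) (nat_lit 63) (nat_lit 5) (nat_lit 66) (nat_lit 5) (nat_lit 67) (nat_lit 5) (nat_lit 361) (nat_lit 299) (nat_lit 120)) (XT.lf (nat_lit 0) (nat_lit 28209826559) (nat_lit 304) (nat_lit 6549582755) (nat_lit 76) (nat_lit 5288030601) (nat_lit 63) (nat_lit 5) (nat_lit 67) (nat_lit 5) (nat_lit 64) (nat_lit 5) (nat_lit 362) (nat_lit 299) (nat_lit 119))))) (XT.nd (nat_lit 234) (nat_lit 228) (nat_lit 0) (XT.nd (nat_lit 78) (nat_lit 304) (nat_lit 0) (XT.lf (nat_lit 0) (nat_lit 11583719719) (nat_lit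 228) (nat_lit 23907251832) (nat_lit 304) (nat_lit 5399824558) (nat_lit 60) (nat_lit 5) (nat_lit 63) (nat_lit 5) (nat_lit 64) (nat_lit 5) (nat_lit 363) (nat_lit 299) (nat_lit 118)) (XT.nd (nat_lit 78) (nat_lit 228) (nat_lit 0) (XT.lf (nat_lit 0) (nat_lit 1270520833) (nat_lit 304) (nat_lit 11379817874) (nat_lit 76) (nat_lit 29106858340) (nat_lit 59) (nat_lit 5) (nat_lit 63) (nat_lit 5) (nat_lit 60) (nat_lit 5) (nat_lit 364) (nat_lit 299) (nat_lit 117)) (XT.lf (nat_lit 0) (nat_lit 7166650278) (nat_lit 228) (nat_lit 931436192) (nat_lit 304) (nat_lit 34547932796) (nat_lit 56) (nat_lit 5) (nat_lit 59) (nat_lit 5) (nat_lit 60) (nat_lit 5) (nat_lit 365) (nat_lit 299) (nat_lit 116)))) (XT.nd (nat_lit 156) (nat_lit 0) (nat_lit 0) (XT.nd (nat_lit 78) (nat_lit 228) (nat_lit 0) (XT.lf (nat_lit 0) (nat_lit 15350387066) (nat_lit 304) (nat_lit 17168508498) (nat_lit 76) (nat_lit 11036015669) (nat_lit 56) (nat_lit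 5) (nat_lit 60) (nat_lit 5) (nat_lit 57) (nat_lit 5) (nat_lit 366) (nat_lit 299) (nat_lit 115)) (XT.lf (nat_lit 0) (nat_lit 1710964707) (nat_lit 228) (nat_lit 21131835880) (nat_lit 304) (nat_lit 21647595308) (nat_lit 53) (nat_lit 5) (nat_lit 56) (nat_lit 5) (nat_lit 57) (nat_lit 5) (nat_lit 367) (nat_lit 299) (nat_lit 114))) (XT.nd (nat_lit 78) (nat_lit 0) (nat_lit 0) (XT.lf (nat_lit 0) (nat_lit 21503929484) (nat_lit 228) (nat_lit 9226344824) (nat_lit 304) (nat_lit 14718564345) (nat_lit 53) (nat_lit 5) (nat_lit 56) (nat_lit 5) (nat_lit 57) (nat_lit 5) (nat_lit 368) (nat_lit 299) (nat_lit 113)) (XT.lf (nat_lit 0) (nat_lit 38880552031) (nat_lit 304) (nat_lit 4579303418) (nat_lit 76) (nat_lit 2975395974) (nat_lit 53) (nat_lit 5) (nat_lit 57) (nat_lit 5) (nat_lit 54) (nat_lit 5) (nat_lit 369) (nat_lit 299) (nat_lit 112)))))) (XT.nd (nat_lit 546) (nat_lit 684) (nat_lit 0) (XT.nd (nat_lit 234) (nat_lit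 152) (nat_lit 0) (XT.nd (nat_lit 78) (nat_lit 228) (nat_lit 0) (XT.lf (nat_lit 0) (nat_lit 68019218) (nat_lit 228) (nat_lit 31869558031) (nat_lit 76) (nat_lit 15506516915) (nat_lit 50) (nat_lit 5) (nat_lit 53) (nat_lit 5) (nat_lit 51) (nat_lit 5) (nat_lit 370) (nat_lit 299) (nat_lit 111)) (XT.nd (nat_lit 78) (nat_lit 228) (nat_lit 0) (XT.lf (nat_lit 0) (nat_lit 7811368271) (nat_lit 228) (nat_lit 12134850415) (nat_lit 76) (nat_lit 28533427749) (nat_lit 50) (nat_lit 5) (nat_lit 53) (nat_lit 5) (nat_lit 51) (nat_lit 5) (nat_lit 371) (nat_lit 299) (nat_lit 110)) (XT.lf (nat_lit 0) (nat_lit 8350338023) (nat_lit 228) (nat_lit 7514124090) (nat_lit 304) (nat_lit 33679481719) (nat_lit 47) (nat_lit 5) (nat_lit 50) (nat_lit 5) (nat_lit 51) (nat_lit 5) (nat_lit 372) (nat_lit 299) (nat_lit 109)))) (XT.nd (nat_lit 156) (nat_lit 152) (nat_lit 0) (XT.nd (nat_lit 78) (nat_lit 0) (nat_lit 0) (XT.lf (nat_lit 0)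 (nat_lit 24330958923) (nat_lit 304) (nat_lit 20994262960) (nat_lit 76) (nat_lit 5309795795) (nat_lit 47) (nat_lit 5) (nat_lit 51) (nat_lit 5) (nat_lit 48) (nat_lit 5) (nat_lit 373) (nat_lit 299) (nat_lit 108)) (XT.lf (nat_lit 0) (nat_lit 33123128507) (nat_lit 304) (nat_lit 267735800) (nat_lit 76) (nat_lit 18365810878) (nat_lit 47) (nat_lit 5) (nat_lit 51) (nat_lit 5) (nat_lit 48) (nat_lit 5) (nat_lit 374) (nat_lit 299) (nat_lit 107))) (XT.nd (nat_lit 78) (nat_lit 0) (nat_lit 0) (XT.lf (nat_lit 0) (nat_lit 21495776611) (nat_lit 152) (nat_lit 20887276927) (nat_lit 228) (nat_lit 10522810894) (nat_lit 45) (nat_lit 5) (nat_lit 47) (nat_lit 5) (nat_lit 48) (nat_lit 5) (nat_lit 375) (nat_lit 299) (nat_lit 106)) (XT.lf (nat_lit 0) (nat_lit 43913453996) (nat_lit 152) (nat_lit 8007421989) (nat_lit 228) (nat_lit 2168652059) (nat_lit 45) (nat_lit 5) (nat_lit 47) (nat_lit 5) (nat_lit 48) (nat_lit 5) (nat_lit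 376) (nat_lit 299) (nat_lit 105))))) (XT.nd (nat_lit 234) (nat_lit 228) (nat_lit 0) (XT.nd (nat_lit 78) (nat_lit 152) (nat_lit 0) (XT.lf (nat_lit 0) (nat_lit 6474270885) (nat_lit 304) (nat_lit 43495407782) (nat_lit 76) (nat_lit 5332256494) (nat_lit 41) (nat_lit 5) (nat_lit 45) (nat_lit 5) (nat_lit 42) (nat_lit 5) (nat_lit 377) (nat_lit 299) (nat_lit 104)) (XT.nd (nat_lit 78) (nat_lit 152) (nat_lit 0) (XT.lf (nat_lit 0) (nat_lit 15513415721) (nat_lit 304) (nat_lit 21996374957) (nat_lit 76) (nat_lit 19034865536) (nat_lit 41) (nat_lit 5) (nat_lit 45) (nat_lit 5) (nat_lit 42) (nat_lit 5) (nat_lit 378) (nat_lit 299) (nat_lit 103)) (XT.lf (nat_lit 0) (nat_lit 146428935) (nat_lit 152) (nat_lit 24676252123) (nat_lit 228) (nat_lit 33002010945) (nat_lit 39) (nat_lit 5) (nat_lit 41) (nat_lit 5) (nat_lit 42) (nat_lit 5) (nat_lit 379) (nat_lit 299) (nat_lit 102)))) (XT.nd (nat_lit 156) (nat_lit 228) (nat_lit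 0) (XT.nd (nat_lit 78) (nat_lit 0) (nat_lit 0) (XT.lf (nat_lit 0) (nat_lit 23400403569) (nat_lit 152) (nat_lit 11230512708) (nat_lit 228) (nat_lit 24505623277) (nat_lit 39) (nat_lit 5) (nat_lit 41) (nat_lit 5) (nat_lit 42) (nat_lit 5) (nat_lit 380) (nat_lit 299) (nat_lit 101)) (XT.lf (nat_lit 0) (nat_lit 44756197692) (nat_lit 228) (nat_lit 13164874448) (nat_lit 76) (nat_lit 2565987823) (nat_lit 39) (nat_lit 5) (nat_lit 42) (nat_lit 5) (nat_lit 40) (nat_lit 5) (nat_lit 381) (nat_lit 299) (nat_lit 100))) (XT.nd (nat_lit 78) (nat_lit 76) (nat_lit 0) (XT.lf (nat_lit 0) (nat_lit 10166881712) (nat_lit 152) (nat_lit 45224975979) (nat_lit 228) (nat_lit 6480041053) (nat_lit 37) (nat_lit 5) (nat_lit 39) (nat_lit 5) (nat_lit 40) (nat_lit 5) (nat_lit 382) (nat_lit 299) (nat_lit 99)) (XT.lf (nat_lit 0) (nat_lit 3120780421) (nat_lit 228) (nat_lit 28860307160) (nat_lit 76) (nat_lit 31312358557) (nat_lit 36)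 (nat_lit 5) (nat_lit 39) (nat_lit 5) (nat_lit 37) (nat_lit 5) (nat_lit 383) (nat_lit 299) (nat_lit 98))))))))
noncomputable def xc197 : XT := (XT.nd (nat_lit 35178) (nat_lit 0) (nat_lit 6004) (XT.nd (nat_lit 34164) (nat_lit 0) (nat_lit 12312) (XT.nd (nat_lit 468) (nat_lit 380) (nat_lit 0) (XT.nd (nat_lit 234) (nat_lit 152) (nat_lit 0) (XT.nd (nat_lit 78) (nat_lit 152) (nat_lit 0) (XT.lf (nat_lit 0) (nat_lit 12877154396) (nat_lit 228) (nat_lit 5398154454) (nat_lit 76) (nat_lit 46480474478) (nat_lit 36) (nat_lit 5) (nat_lit 39) (nat_lit 5) (nat_lit 37) (nat_lit 5) (nat_lit 384) (nat_lit 299) (nat_lit 97)) (XT.nd (nat_lit 78) (nat_lit 0) (nat_lit 0) (XT.lf (nat_lit 0) (nat_lit 19137677126) (nat_lit 152) (nat_lit 3970340735) (nat_lit 228) (nat_lit 43148520037) (nat_lit 34) (nat_lit 5) (nat_lit 36) (nat_lit 5) (nat_lit 37) (nat_lit 5) (nat_lit 385) (nat_lit 299) (nat_lit 96)) (XT.lf (nat_lit 0) (nat_lit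 33802175400) (nat_lit 228) (nat_lit 23388093334) (nat_lit 76) (nat_lit 10607356501) (nat_lit 34) (nat_lit 5) (nat_lit 37) (nat_lit 5) (nat_lit 35) (nat_lit 5) (nat_lit 386) (nat_lit 299) (nat_lit 95)))) (XT.nd (nat_lit 78) (nat_lit 0) (nat_lit 0) (XT.lf (nat_lit 0) (nat_lit 1031882404) (nat_lit 152) (nat_lit 43832416962) (nat_lit 228) (nat_lit 24519232720) (nat_lit 32) (nat_lit 5) (nat_lit 34) (nat_lit 5) (nat_lit 35) (nat_lit 5) (nat_lit 387) (nat_lit 299) (nat_lit 94)) (XT.nd (nat_lit 78) (nat_lit 0) (nat_lit 0) (XT.lf (nat_lit 0) (nat_lit 26660384946) (nat_lit 152) (nat_lit 29832015409) (nat_lit 228) (nat_lit 14517593495) (nat_lit 32) (nat_lit 5) (nat_lit 34) (nat_lit 5) (nat_lit 35) (nat_lit 5) (nat_lit 388) (nat_lit 299) (nat_lit 93)) (XT.lf (nat_lit 0) (nat_lit 53054339211) (nat_lit 152) (nat_lit 15413004601) (nat_lit 228) (nat_lit 4217966748) (nat_lit 32) (nat_lit 5) (nat_lit 34) (nat_lit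 5) (nat_lit 35) (nat_lit 5) (nat_lit 389) (nat_lit 299) (nat_lit 92))))) (XT.nd (nat_lit 234) (nat_lit 152) (nat_lit 0) (XT.nd (nat_lit 78) (nat_lit 0) (nat_lit 0) (XT.lf (nat_lit 0) (nat_lit 5879174068) (nat_lit 152) (nat_lit 441321823) (nat_lit 228) (nat_lit 68086912420) (nat_lit 29) (nat_lit 5) (nat_lit 31) (nat_lit 5) (nat_lit 32) (nat_lit 5) (nat_lit 390) (nat_lit 299) (nat_lit 91)) (XT.nd (nat_lit 78) (nat_lit 0) (nat_lit 0) (XT.lf (nat_lit 0) (nat_lit 17432574290) (nat_lit 228) (nat_lit 43809256845) (nat_lit 76) (nat_lit 14927818820) (nat_lit 29) (nat_lit 5) (nat_lit 32) (nat_lit 5) (nat_lit 30) (nat_lit 5) (nat_lit 391) (nat_lit 299) (nat_lit 90)) (XT.lf (nat_lit 0) (nat_lit 28880490941) (nat_lit 228) (nat_lit 18356339261) (nat_lit 76) (nat_lit 30747855325) (nat_lit 29) (nat_lit 5) (nat_lit 32) (nat_lit 5) (nat_lit 30) (nat_lit 5) (nat_lit 392) (nat_lit 299) (nat_lit 89)))) (XT.nd (nat_lit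 156) (nat_lit 0) (nat_lit 0) (XT.nd (nat_lit 78) (nat_lit 0) (nat_lit 0) (XT.lf (nat_lit 0) (nat_lit 8013370904) (nat_lit 152) (nat_lit 32733665144) (nat_lit 228) (nat_lit 39104881319) (nat_lit 27) (nat_lit 5) (nat_lit 29) (nat_lit 5) (nat_lit 30) (nat_lit 5) (nat_lit 393) (nat_lit 299) (nat_lit 88)) (XT.lf (nat_lit 0) (nat_lit 35547325685) (nat_lit 152) (nat_lit 17605799814) (nat_lit 228) (nat_lit 28616535123) (nat_lit 27) (nat_lit 5) (nat_lit 29) (nat_lit 5) (nat_lit 30) (nat_lit 5) (nat_lit 394) (nat_lit 299) (nat_lit 87))) (XT.nd (nat_lit 33228) (nat_lit 0) (nat_lit 13300) (XT.lf (nat_lit 0) (nat_lit 63904256733) (nat_lit 152) (nat_lit 2025378724) (nat_lit 228) (nat_lit 17815354459) (nat_lit 27) (nat_lit 5) (nat_lit 29) (nat_lit 5) (nat_lit 30) (nat_lit 5) (nat_lit 395) (nat_lit 299) (nat_lit 86)) (XT.lf (nat_lit 0) (nat_lit 5707429100) (nat_lit 1140) (nat_lit 545655253) (nat_lit 1140) (nat_lit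 545655253) (nat_lit 202) (nat_lit 3) (nat_lit 217) (nat_lit 3) (nat_lit 217) (nat_lit 5) (nat_lit 300) (nat_lit 300) (nat_lit 180)))))) (XT.nd (nat_lit 468) (nat_lit 0) (nat_lit 76) (XT.nd (nat_lit 234) (nat_lit 988) (nat_lit 0) (XT.nd (nat_lit 78) (nat_lit 0) (nat_lit 0) (XT.lf (nat_lit 76) (nat_lit 5112619483) (nat_lit 0) (nat_lit 6863599400) (nat_lit 1140) (nat_lit 1813033259) (nat_lit 203) (nat_lit 5) (nat_lit 202) (nat_lit 3) (nat_lit 217) (nat_lit 5) (nat_lit 301) (nat_lit 300) (nat_lit 179)) (XT.nd (nat_lit 78) (nat_lit 0) (nat_lit 76) (XT.lf (nat_lit 76) (nat_lit 11518038509) (nat_lit 0) (nat_lit 1034026717) (nat_lit 1140) (nat_lit 1434802620) (nat_lit 203) (nat_lit 5) (nat_lit 202) (nat_lit 3) (nat_lit 217) (nat_lit 5) (nat_lit 302) (nat_lit 300) (nat_lit 178)) (XT.lf (nat_lit 76) (nat_lit 3947189891) (nat_lit 0) (nat_lit 9270792531) (nat_lit 1140) (nat_lit 970264117) (nat_lit 204) (nat_lit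 5) (nat_lit 203) (nat_lit 5) (nat_lit 218) (nat_lit 5) (nat_lit 303) (nat_lit 300) (nat_lit 177)))) (XT.nd (nat_lit 78) (nat_lit 1064) (nat_lit 0) (XT.lf (nat_lit 76) (nat_lit 10588664603) (nat_lit 0) (nat_lit 3337661554) (nat_lit 1140) (nat_lit 468684810) (nat_lit 204) (nat_lit 5) (nat_lit 203) (nat_lit 5) (nat_lit 218) (nat_lit 5) (nat_lit 304) (nat_lit 300) (nat_lit 176)) (XT.nd (nat_lit 78) (nat_lit 0) (nat_lit 0) (XT.lf (nat_lit 0) (nat_lit 89189413) (nat_lit 1140) (nat_lit 11764816266) (nat_lit 1216) (nat_lit 2752710155) (nat_lit 189) (nat_lit 5) (nat_lit 204) (nat_lit 5) (nat_lit 205) (nat_lit 5) (nat_lit 305) (nat_lit 300) (nat_lit 175)) (XT.lf (nat_lit 0) (nat_lit 714192746) (nat_lit 1140) (nat_lit 5101668157) (nat_lit 1216) (nat_lit 9006993672) (nat_lit 189) (nat_lit 5) (nat_lit 204) (nat_lit 5) (nat_lit 205) (nat_lit 5) (nat_lit 306) (nat_lit 300) (nat_lit 174))))) (XT.nd (nat_lit 234)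 (nat_lit 0) (nat_lit 76) (XT.nd (nat_lit 78) (nat_lit 0) (nat_lit 0) (XT.lf (nat_lit 0) (nat_lit 1367532595) (nat_lit 1140) (nat_lit 13260515988) (nat_lit 1216) (nat_lit 417157160) (nat_lit 190) (nat_lit 5) (nat_lit 205) (nat_lit 5) (nat_lit 206) (nat_lit 5) (nat_lit 307) (nat_lit 300) (nat_lit 173)) (XT.nd (nat_lit 78) (nat_lit 0) (nat_lit 0) (XT.lf (nat_lit 0) (nat_lit 2138693076) (nat_lit 1140) (nat_lit 6356262805) (nat_lit 1216) (nat_lit 6776340345) (nat_lit 190) (nat_lit 5) (nat_lit 205) (nat_lit 5) (nat_lit 206) (nat_lit 5) (nat_lit 308) (nat_lit 300) (nat_lit 172)) (XT.lf (nat_lit 76) (nat_lit 762516230) (nat_lit 0) (nat_lit 2166744383) (nat_lit 1216) (nat_lit 12575035590) (nat_lit 191) (nat_lit 5) (nat_lit 190) (nat_lit 5) (nat_lit 206) (nat_lit 5) (nat_lit 309) (nat_lit 300) (nat_lit 171)))) (XT.nd (nat_lit 156) (nat_lit 0) (nat_lit 76) (XT.nd (nat_lit 78) (nat_lit 0) (nat_lit 0) (XT.lf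 (nat_lit 0) (nat_lit 3839419955) (nat_lit 1140) (nat_lit 7567447023) (nat_lit 1216) (nat_lit 4334557469) (nat_lit 191) (nat_lit 5) (nat_lit 206) (nat_lit 5) (nat_lit 207) (nat_lit 5) (nat_lit 310) (nat_lit 300) (nat_lit 170)) (XT.lf (nat_lit 0) (nat_lit 4787876793) (nat_lit 1140) (nat_lit 206889638) (nat_lit 1216) (nat_lit 10990584413) (nat_lit 191) (nat_lit 5) (nat_lit 206) (nat_lit 5) (nat_lit 207) (nat_lit 5) (nat_lit 311) (nat_lit 300) (nat_lit 169))) (XT.nd (nat_lit 78) (nat_lit 0) (nat_lit 0) (XT.lf (nat_lit 0) (nat_lit 5843074431) (nat_lit 1140) (nat_lit 8737189642) (nat_lit 1216) (nat_lit 1653996026) (nat_lit 192) (nat_lit 5) (nat_lit 207) (nat_lit 5) (nat_lit 208) (nat_lit 5) (nat_lit 312) (nat_lit 300) (nat_lit 168)) (XT.lf (nat_lit 0) (nat_lit 6971587114) (nat_lit 1140) (nat_lit 1111254974) (nat_lit 1216) (nat_lit 8406558048) (nat_lit 192) (nat_lit 5) (nat_lit 207) (nat_lit 5) (nat_lit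 208) (nat_lit 5) (nat_lit 313) (nat_lit 300) (nat_lit 167))))))) (XT.nd (nat_lit 1014) (nat_lit 3192) (nat_lit 0) (XT.nd (nat_lit 468) (nat_lit 2356) (nat_lit 0) (XT.nd (nat_lit 234) (nat_lit 988) (nat_lit 0) (XT.nd (nat_lit 78) (nat_lit 0) (nat_lit 76) (XT.lf (nat_lit 76) (nat_lit 6870142661) (nat_lit 0) (nat_lit 1320237112) (nat_lit 1216) (nat_lit 8560134756) (nat_lit 193) (nat_lit 5) (nat_lit 192) (nat_lit 5) (nat_lit 208) (nat_lit 5) (nat_lit 314) (nat_lit 300) (nat_lit 166)) (XT.nd (nat_lit 78) (nat_lit 0) (nat_lit 0) (XT.lf (nat_lit 0) (nat_lit 9501949006) (nat_lit 1140) (nat_lit 1967359380) (nat_lit 1216) (nat_lit 5548480103) (nat_lit 193) (nat_lit 5) (nat_lit 208) (nat_lit 5) (nat_lit 209) (nat_lit 5) (nat_lit 315) (nat_lit 300) (nat_lit 165)) (XT.lf (nat_lit 76) (nat_lit 6285222191) (nat_lit 0) (nat_lit 4632020172) (nat_lit 1216) (nat_lit 6373919143) (nat_lit 194) (nat_lit 5) (nat_lit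 193) (nat_lit 5) (nat_lit 209) (nat_lit 5) (nat_lit 316) (nat_lit 300) (nat_lit 164)))) (XT.nd (nat_lit 78) (nat_lit 1140) (nat_lit 0) (XT.lf (nat_lit 0) (nat_lit 12409326098) (nat_lit 1140) (nat_lit 2777415443) (nat_lit 76) (nat_lit 2384976025) (nat_lit 194) (nat_lit 5) (nat_lit 209) (nat_lit 5) (nat_lit 195) (nat_lit 5) (nat_lit 317) (nat_lit 300) (nat_lit 163)) (XT.nd (nat_lit 78) (nat_lit 0) (nat_lit 0) (XT.lf (nat_lit 0) (nat_lit 5757046119) (nat_lit 1140) (nat_lit 8281685626) (nat_lit 1216) (nat_lit 3819193235) (nat_lit 179) (nat_lit 5) (nat_lit 194) (nat_lit 5) (nat_lit 195) (nat_lit 5) (nat_lit 318) (nat_lit 300) (nat_lit 162)) (XT.lf (nat_lit 0) (nat_lit 14597151198) (nat_lit 1140) (nat_lit 1139453694) (nat_lit 1216) (nat_lit 2415537287) (nat_lit 179) (nat_lit 5) (nat_lit 194) (nat_lit 5) (nat_lit 195) (nat_lit 5) (nat_lit 319) (nat_lit 300) (nat_lit 161))))) (XT.nd (nat_lit 234) (nat_lit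 1064) (nat_lit 0) (XT.nd (nat_lit 78) (nat_lit 684) (nat_lit 0) (XT.lf (nat_lit 0) (nat_lit 5283227154) (nat_lit 608) (nat_lit 12304530659) (nat_lit 684) (nat_lit 864368570) (nat_lit 171) (nat_lit 5) (nat_lit 179) (nat_lit 5) (nat_lit 180) (nat_lit 5) (nat_lit 320) (nat_lit 300) (nat_lit 160)) (XT.nd (nat_lit 78) (nat_lit 608) (nat_lit 0) (XT.lf (nat_lit 0) (nat_lit 758435591) (nat_lit 684) (nat_lit 4326732584) (nat_lit 76) (nat_lit 13674558326) (nat_lit 170) (nat_lit 5) (nat_lit 179) (nat_lit 5) (nat_lit 171) (nat_lit 5) (nat_lit 321) (nat_lit 300) (nat_lit 159)) (XT.lf (nat_lit 0) (nat_lit 2474527276) (nat_lit 684) (nat_lit 14238582790) (nat_lit 76) (nat_lit 2361338404) (nat_lit 162) (nat_lit 5) (nat_lit 171) (nat_lit 5) (nat_lit 163) (nat_lit 5) (nat_lit 322) (nat_lit 300) (nat_lit 158)))) (XT.nd (nat_lit 156) (nat_lit 532) (nat_lit 0) (XT.nd (nat_lit 78) (nat_lit 532) (nat_lit 0) (XT.lf (nat_lit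 0) (nat_lit 4328851303) (nat_lit 684) (nat_lit 5093482737) (nat_lit 76) (nat_lit 9973685163) (nat_lit 162) (nat_lit 5) (nat_lit 171) (nat_lit 5) (nat_lit 163) (nat_lit 5) (nat_lit 323) (nat_lit 300) (nat_lit 157)) (XT.lf (nat_lit 0) (nat_lit 4404702248) (nat_lit 532) (nat_lit 1868945717) (nat_lit 608) (nat_lit 13452553120) (nat_lit 155) (nat_lit 5) (nat_lit 162) (nat_lit 5) (nat_lit 163) (nat_lit 5) (nat_lit 324) (nat_lit 300) (nat_lit 156))) (XT.nd (nat_lit 78) (nat_lit 532) (nat_lit 0) (XT.lf (nat_lit 0) (nat_lit 8378206339) (nat_lit 608) (nat_lit 5837211328) (nat_lit 76) (nat_lit 5847837265) (nat_lit 155) (nat_lit 5) (nat_lit 163) (nat_lit 5) (nat_lit 156) (nat_lit 5) (nat_lit 325) (nat_lit 300) (nat_lit 155)) (XT.lf (nat_lit 0) (nat_lit 3983670825) (nat_lit 532) (nat_lit 6611896297) (nat_lit 608) (nat_lit 9813372081) (nat_lit 148) (nat_lit 5) (nat_lit 155) (nat_lit 5) (nat_lit 156) (nat_lit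 5) (nat_lit 326) (nat_lit 300) (nat_lit 154)))))) (XT.nd (nat_lit 546) (nat_lit 1672) (nat_lit 0) (XT.nd (nat_lit 234) (nat_lit 1064) (nat_lit 0) (XT.nd (nat_lit 78) (nat_lit 456) (nat_lit 0) (XT.lf (nat_lit 0) (nat_lit 12943707839) (nat_lit 608) (nat_lit 6564009929) (nat_lit 76) (nat_lit 1255356985) (nat_lit 148) (nat_lit 5) (nat_lit 156) (nat_lit 5) (nat_lit 149) (nat_lit 5) (nat_lit 327) (nat_lit 300) (nat_lit 153)) (XT.nd (nat_lit 78) (nat_lit 0) (nat_lit 0) (XT.lf (nat_lit 0) (nat_lit 3590587831) (nat_lit 456) (nat_lit 11864894206) (nat_lit 532) (nat_lit 5669564930) (nat_lit 142) (nat_lit 5) (nat_lit 148) (nat_lit 5) (nat_lit 149) (nat_lit 5) (nat_lit 328) (nat_lit 300) (nat_lit 152)) (XT.lf (nat_lit 0) (nat_lit 14177349472) (nat_lit 456) (nat_lit 3924883825) (nat_lit 532) (nat_lit 3393864369) (nat_lit 142) (nat_lit 5) (nat_lit 148) (nat_lit 5) (nat_lit 149) (nat_lit 5) (nat_lit 329) (nat_lit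 300) (nat_lit 151)))) (XT.nd (nat_lit 156) (nat_lit 456) (nat_lit 0) (XT.nd (nat_lit 78) (nat_lit 76) (nat_lit 0) (XT.lf (nat_lit 0) (nat_lit 3218326241) (nat_lit 532) (nat_lit 17675413680) (nat_lit 608) (nat_lit 982587179) (nat_lit 135) (nat_lit 5) (nat_lit 142) (nat_lit 5) (nat_lit 143) (nat_lit 5) (nat_lit 330) (nat_lit 300) (nat_lit 150)) (XT.lf (nat_lit 0) (nat_lit 1578816858) (nat_lit 608) (nat_lit 8105316583) (nat_lit 76) (nat_lit 12580192096) (nat_lit 134) (nat_lit 5) (nat_lit 142) (nat_lit 5) (nat_lit 135) (nat_lit 5) (nat_lit 331) (nat_lit 300) (nat_lit 149))) (XT.nd (nat_lit 78) (nat_lit 0) (nat_lit 0) (XT.lf (nat_lit 0) (nat_lit 2802013896) (nat_lit 456) (nat_lit 1416003722) (nat_lit 532) (nat_lit 18445040481) (nat_lit 128) (nat_lit 5) (nat_lit 134) (nat_lit 5) (nat_lit 135) (nat_lit 5) (nat_lit 332) (nat_lit 300) (nat_lit 148)) (XT.lf (nat_lit 0) (nat_lit 7081181953) (nat_lit 532)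 (nat_lit 8944642710) (nat_lit 76) (nat_lit 7043591279) (nat_lit 128) (nat_lit 5) (nat_lit 135) (nat_lit 5) (nat_lit 129) (nat_lit 5) (nat_lit 333) (nat_lit 300) (nat_lit 147))))) (XT.nd (nat_lit 234) (nat_lit 836) (nat_lit 0) (XT.nd (nat_lit 78) (nat_lit 380) (nat_lit 0) (XT.lf (nat_lit 0) (nat_lit 2323780898) (nat_lit 456) (nat_lit 7736874260) (nat_lit 532) (nat_lit 13426403671) (nat_lit 122) (nat_lit 5) (nat_lit 128) (nat_lit 5) (nat_lit 129) (nat_lit 5) (nat_lit 334) (nat_lit 300) (nat_lit 146)) (XT.nd (nat_lit 78) (nat_lit 380) (nat_lit 0) (XT.lf (nat_lit 0) (nat_lit 13222583791) (nat_lit 532) (nat_lit 9816401019) (nat_lit 76) (nat_lit 875460590) (nat_lit 122) (nat_lit 5) (nat_lit 129) (nat_lit 5) (nat_lit 123) (nat_lit 5) (nat_lit 335) (nat_lit 300) (nat_lit 145)) (XT.lf (nat_lit 0) (nat_lit 1823155032) (nat_lit 380) (nat_lit 14744669790) (nat_lit 456) (nat_lit 7784181452) (nat_lit 117) (nat_lit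 5) (nat_lit 122) (nat_lit 5) (nat_lit 123) (nat_lit 5) (nat_lit 336) (nat_lit 300) (nat_lit 144)))) (XT.nd (nat_lit 156) (nat_lit 456) (nat_lit 0) (XT.nd (nat_lit 78) (nat_lit 380) (nat_lit 0) (XT.lf (nat_lit 0) (nat_lit 14006489281) (nat_lit 380) (nat_lit 6100488214) (nat_lit 456) (nat_lit 4692916003) (nat_lit 117) (nat_lit 5) (nat_lit 122) (nat_lit 5) (nat_lit 123) (nat_lit 5) (nat_lit 337) (nat_lit 300) (nat_lit 143)) (XT.lf (nat_lit 0) (nat_lit 1285649361) (nat_lit 380) (nat_lit 22500538545) (nat_lit 456) (nat_lit 1474018917) (nat_lit 112) (nat_lit 5) (nat_lit 117) (nat_lit 5) (nat_lit 118) (nat_lit 5) (nat_lit 338) (nat_lit 300) (nat_lit 142))) (XT.nd (nat_lit 78) (nat_lit 380) (nat_lit 0) (XT.lf (nat_lit 0) (nat_lit 1970601077) (nat_lit 456) (nat_lit 11868560364) (nat_lit 76) (nat_lit 11889690033) (nat_lit 111) (nat_lit 5) (nat_lit 117) (nat_lit 5) (nat_lit 112) (nat_lit 5) (nat_lit 339)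 (nat_lit 300) (nat_lit 141)) (XT.lf (nat_lit 0) (nat_lit 591102340) (nat_lit 380) (nat_lit 4898286833) (nat_lit 456) (nat_lit 20721720259) (nat_lit 106) (nat_lit 5) (nat_lit 111) (nat_lit 5) (nat_lit 112) (nat_lit 5) (nat_lit 340) (nat_lit 300) (nat_lit 140))))))))
noncomputable def xc198 : XT := (XT.nd (nat_lit 2028) (nat_lit 2052) (nat_lit 0) (XT.nd (nat_lit 1014) (nat_lit 1672) (nat_lit 0) (XT.nd (nat_lit 468) (nat_lit 1368) (nat_lit 0) (XT.nd (nat_lit 234) (nat_lit 380) (nat_lit 0) (XT.nd (nat_lit 78) (nat_lit 380) (nat_lit 0) (XT.lf (nat_lit 0) (nat_lit 9271067403) (nat_lit 456) (nat_lit 13085554301) (nat_lit 76) (nat_lit 4346498942) (nat_lit 106) (nat_lit 5) (nat_lit 112) (nat_lit 5) (nat_lit 107) (nat_lit 5) (nat_lit 341) (nat_lit 300) (nat_lit 139)) (XT.nd (nat_lit 78) (nat_lit 380) (nat_lit 0) (XT.lf (nat_lit 0) (nat_lit 13209696292) (nat_lit 456) (nat_lit 229913988) (nat_lit 76) (nat_lit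 13768982064) (nat_lit 106) (nat_lit 5) (nat_lit 112) (nat_lit 5) (nat_lit 107) (nat_lit 5) (nat_lit 342) (nat_lit 300) (nat_lit 138)) (XT.lf (nat_lit 0) (nat_lit 13264061882) (nat_lit 380) (nat_lit 4125072426) (nat_lit 456) (nat_lit 10336419384) (nat_lit 101) (nat_lit 5) (nat_lit 106) (nat_lit 5) (nat_lit 107) (nat_lit 5) (nat_lit 343) (nat_lit 300) (nat_lit 137)))) (XT.nd (nat_lit 78) (nat_lit 380) (nat_lit 0) (XT.lf (nat_lit 0) (nat_lit 21744088382) (nat_lit 456) (nat_lit 1149215577) (nat_lit 76) (nat_lit 5363220795) (nat_lit 101) (nat_lit 5) (nat_lit 107) (nat_lit 5) (nat_lit 102) (nat_lit 5) (nat_lit 344) (nat_lit 300) (nat_lit 136)) (XT.nd (nat_lit 78) (nat_lit 76) (nat_lit 0) (XT.lf (nat_lit 0) (nat_lit 12764613950) (nat_lit 304) (nat_lit 13623977814) (nat_lit 380) (nat_lit 2410070881) (nat_lit 97) (nat_lit 5) (nat_lit 101) (nat_lit 5) (nat_lit 102) (nat_lit 5) (nat_lit 345) (nat_lit 300)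 (nat_lit 135)) (XT.lf (nat_lit 0) (nat_lit 1787045975) (nat_lit 380) (nat_lit 2260958882) (nat_lit 76) (nat_lit 25308327612) (nat_lit 96) (nat_lit 5) (nat_lit 101) (nat_lit 5) (nat_lit 97) (nat_lit 5) (nat_lit 346) (nat_lit 300) (nat_lit 134))))) (XT.nd (nat_lit 234) (nat_lit 684) (nat_lit 0) (XT.nd (nat_lit 78) (nat_lit 304) (nat_lit 0) (XT.lf (nat_lit 0) (nat_lit 6231055573) (nat_lit 456) (nat_lit 17851642942) (nat_lit 76) (nat_lit 5842239750) (nat_lit 91) (nat_lit 5) (nat_lit 97) (nat_lit 5) (nat_lit 92) (nat_lit 5) (nat_lit 347) (nat_lit 300) (nat_lit 133)) (XT.nd (nat_lit 78) (nat_lit 304) (nat_lit 0) (XT.lf (nat_lit 0) (nat_lit 10867101679) (nat_lit 456) (nat_lit 3672278178) (nat_lit 76) (nat_lit 15969465085) (nat_lit 91) (nat_lit 5) (nat_lit 97) (nat_lit 5) (nat_lit 92) (nat_lit 5) (nat_lit 348) (nat_lit 300) (nat_lit 132)) (XT.lf (nat_lit 0) (nat_lit 11144123528) (nat_lit 304) (nat_lit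 4600938179) (nat_lit 380) (nat_lit 15362126206) (nat_lit 87) (nat_lit 5) (nat_lit 91) (nat_lit 5) (nat_lit 92) (nat_lit 5) (nat_lit 349) (nat_lit 300) (nat_lit 131)))) (XT.nd (nat_lit 156) (nat_lit 380) (nat_lit 0) (XT.nd (nat_lit 78) (nat_lit 304) (nat_lit 0) (XT.lf (nat_lit 0) (nat_lit 20856747343) (nat_lit 380) (nat_lit 5302478833) (nat_lit 76) (nat_lit 5561637344) (nat_lit 87) (nat_lit 5) (nat_lit 92) (nat_lit 5) (nat_lit 88) (nat_lit 5) (nat_lit 350) (nat_lit 300) (nat_lit 130)) (XT.lf (nat_lit 0) (nat_lit 9940654239) (nat_lit 304) (nat_lit 16318125658) (nat_lit 380) (nat_lit 6090063448) (nat_lit 83) (nat_lit 5) (nat_lit 87) (nat_lit 5) (nat_lit 88) (nat_lit 5) (nat_lit 351) (nat_lit 300) (nat_lit 129))) (XT.nd (nat_lit 78) (nat_lit 380) (nat_lit 0) (XT.lf (nat_lit 0) (nat_lit 25744138576) (nat_lit 304) (nat_lit 6128231946) (nat_lit 380) (nat_lit 1121810852) (nat_lit 83) (nat_lit 5) (nat_lit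 87) (nat_lit 5) (nat_lit 88) (nat_lit 5) (nat_lit 352) (nat_lit 300) (nat_lit 128)) (XT.lf (nat_lit 0) (nat_lit 4038262772) (nat_lit 380) (nat_lit 25214111311) (nat_lit 76) (nat_lit 4401734567) (nat_lit 78) (nat_lit 5) (nat_lit 83) (nat_lit 5) (nat_lit 79) (nat_lit 5) (nat_lit 353) (nat_lit 300) (nat_lit 127)))))) (XT.nd (nat_lit 468) (nat_lit 760) (nat_lit 0) (XT.nd (nat_lit 234) (nat_lit 608) (nat_lit 0) (XT.nd (nat_lit 78) (nat_lit 304) (nat_lit 0) (XT.lf (nat_lit 0) (nat_lit 9461278345) (nat_lit 380) (nat_lit 9660395006) (nat_lit 76) (nat_lit 15207909980) (nat_lit 78) (nat_lit 5) (nat_lit 83) (nat_lit 5) (nat_lit 79) (nat_lit 5) (nat_lit 354) (nat_lit 300) (nat_lit 126)) (XT.nd (nat_lit 78) (nat_lit 0) (nat_lit 0) (XT.lf (nat_lit 0) (nat_lit 6480955312) (nat_lit 304) (nat_lit 8624517671) (nat_lit 380) (nat_lit 19918097921) (nat_lit 74) (nat_lit 5) (nat_lit 78) (nat_lit 5) (nat_lit 79) (nat_lit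 5) (nat_lit 355) (nat_lit 300) (nat_lit 125)) (XT.lf (nat_lit 0) (nat_lit 21034771544) (nat_lit 380) (nat_lit 12458361622) (nat_lit 76) (nat_lit 2241774809) (nat_lit 74) (nat_lit 5) (nat_lit 79) (nat_lit 5) (nat_lit 75) (nat_lit 5) (nat_lit 356) (nat_lit 300) (nat_lit 124)))) (XT.nd (nat_lit 78) (nat_lit 380) (nat_lit 0) (XT.lf (nat_lit 0) (nat_lit 4097657825) (nat_lit 228) (nat_lit 23165414498) (nat_lit 304) (nat_lit 9200882258) (nat_lit 71) (nat_lit 5) (nat_lit 74) (nat_lit 5) (nat_lit 75) (nat_lit 5) (nat_lit 357) (nat_lit 300) (nat_lit 123)) (XT.nd (nat_lit 78) (nat_lit 380) (nat_lit 0) (XT.lf (nat_lit 0) (nat_lit 21400463381) (nat_lit 228) (nat_lit 12399962353) (nat_lit 304) (nat_lit 3410783773) (nat_lit 71) (nat_lit 5) (nat_lit 74) (nat_lit 5) (nat_lit 75) (nat_lit 5) (nat_lit 358) (nat_lit 300) (nat_lit 122)) (XT.lf (nat_lit 0) (nat_lit 1235847574) (nat_lit 304) (nat_lit 1275697220) (nat_lit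 380) (nat_lit 35468353534) (nat_lit 66) (nat_lit 5) (nat_lit 70) (nat_lit 5) (nat_lit 71) (nat_lit 5) (nat_lit 359) (nat_lit 300) (nat_lit 121))))) (XT.nd (nat_lit 234) (nat_lit 532) (nat_lit 0) (XT.nd (nat_lit 78) (nat_lit 228) (nat_lit 0) (XT.lf (nat_lit 0) (nat_lit 8798610014) (nat_lit 380) (nat_lit 19787381893) (nat_lit 76) (nat_lit 10176976971) (nat_lit 66) (nat_lit 5) (nat_lit 71) (nat_lit 5) (nat_lit 67) (nat_lit 5) (nat_lit 360) (nat_lit 300) (nat_lit 120)) (XT.nd (nat_lit 78) (nat_lit 228) (nat_lit 0) (XT.lf (nat_lit 0) (nat_lit 15283523108) (nat_lit 380) (nat_lit 2339729383) (nat_lit 76) (nat_lit 21946004667) (nat_lit 66) (nat_lit 5) (nat_lit 71) (nat_lit 5) (nat_lit 67) (nat_lit 5) (nat_lit 361) (nat_lit 300) (nat_lit 119)) (XT.lf (nat_lit 0) (nat_lit 15937411378) (nat_lit 228) (nat_lit 6175476494) (nat_lit 304) (nat_lit 18282351699) (nat_lit 63) (nat_lit 5) (nat_lit 66) (nat_lit 5)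 (nat_lit 67) (nat_lit 5) (nat_lit 362) (nat_lit 300) (nat_lit 118)))) (XT.nd (nat_lit 156) (nat_lit 304) (nat_lit 0) (XT.nd (nat_lit 78) (nat_lit 228) (nat_lit 0) (XT.lf (nat_lit 0) (nat_lit 29221713386) (nat_lit 304) (nat_lit 6493653291) (nat_lit 76) (nat_lit 5528399922) (nat_lit 63) (nat_lit 5) (nat_lit 67) (nat_lit 5) (nat_lit 64) (nat_lit 5) (nat_lit 363) (nat_lit 300) (nat_lit 117)) (XT.lf (nat_lit 0) (nat_lit 12181173581) (nat_lit 228) (nat_lit 24537698676) (nat_lit 304) (nat_lit 5393627585) (nat_lit 60) (nat_lit 5) (nat_lit 63) (nat_lit 5) (nat_lit 64) (nat_lit 5) (nat_lit 364) (nat_lit 300) (nat_lit 116))) (XT.nd (nat_lit 78) (nat_lit 228) (nat_lit 0) (XT.lf (nat_lit 0) (nat_lit 1468742947) (nat_lit 304) (nat_lit 11475245751) (nat_lit 76) (nat_lit 30061003238) (nat_lit 59) (nat_lit 5) (nat_lit 63) (nat_lit 5) (nat_lit 60) (nat_lit 5) (nat_lit 365) (nat_lit 300) (nat_lit 115)) (XT.lf (nat_lit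 0) (nat_lit 7625205008) (nat_lit 228) (nat_lit 873608451) (nat_lit 304) (nat_lit 35421738457) (nat_lit 56) (nat_lit 5) (nat_lit 59) (nat_lit 5) (nat_lit 60) (nat_lit 5) (nat_lit 366) (nat_lit 300) (nat_lit 114))))))) (XT.nd (nat_lit 1014) (nat_lit 912) (nat_lit 0) (XT.nd (nat_lit 468) (nat_lit 684) (nat_lit 0) (XT.nd (nat_lit 234) (nat_lit 228) (nat_lit 0) (XT.nd (nat_lit 78) (nat_lit 228) (nat_lit 0) (XT.lf (nat_lit 0) (nat_lit 15964887878) (nat_lit 304) (nat_lit 17443196115) (nat_lit 76) (nat_lit 11448743837) (nat_lit 56) (nat_lit 5) (nat_lit 60) (nat_lit 5) (nat_lit 57) (nat_lit 5) (nat_lit 367) (nat_lit 300) (nat_lit 113)) (XT.nd (nat_lit 78) (nat_lit 0) (nat_lit 0) (XT.lf (nat_lit 0) (nat_lit 2000304741) (nat_lit 228) (nat_lit 21679571850) (nat_lit 304) (nat_lit 22140569592) (nat_lit 53) (nat_lit 5) (nat_lit 56) (nat_lit 5) (nat_lit 57) (nat_lit 5) (nat_lit 368) (nat_lit 300) (nat_lit 112))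 (XT.lf (nat_lit 0) (nat_lit 22380126099) (nat_lit 228) (nat_lit 9419427298) (nat_lit 304) (nat_lit 15008224601) (nat_lit 53) (nat_lit 5) (nat_lit 56) (nat_lit 5) (nat_lit 57) (nat_lit 5) (nat_lit 369) (nat_lit 300) (nat_lit 111)))) (XT.nd (nat_lit 78) (nat_lit 228) (nat_lit 0) (XT.lf (nat_lit 0) (nat_lit 40190828313) (nat_lit 304) (nat_lit 4488721459) (nat_lit 76) (nat_lit 3144341764) (nat_lit 53) (nat_lit 5) (nat_lit 57) (nat_lit 5) (nat_lit 54) (nat_lit 5) (nat_lit 370) (nat_lit 300) (nat_lit 110)) (XT.nd (nat_lit 78) (nat_lit 0) (nat_lit 0) (XT.lf (nat_lit 0) (nat_lit 213400347) (nat_lit 228) (nat_lit 32596970060) (nat_lit 76) (nat_lit 16052650560) (nat_lit 50) (nat_lit 5) (nat_lit 53) (nat_lit 5) (nat_lit 51) (nat_lit 5) (nat_lit 371) (nat_lit 300) (nat_lit 109)) (XT.lf (nat_lit 0) (nat_lit 8184874904) (nat_lit 228) (nat_lit 12276881644) (nat_lit 76) (nat_lit 29468011298) (nat_lit 50) (nat_lit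 5) (nat_lit 53) (nat_lit 5) (nat_lit 51) (nat_lit 5) (nat_lit 372) (nat_lit 300) (nat_lit 108))))) (XT.nd (nat_lit 234) (nat_lit 456) (nat_lit 0) (XT.nd (nat_lit 78) (nat_lit 0) (nat_lit 0) (XT.lf (nat_lit 0) (nat_lit 8820685836) (nat_lit 228) (nat_lit 7656935573) (nat_lit 304) (nat_lit 34548433669) (nat_lit 47) (nat_lit 5) (nat_lit 50) (nat_lit 5) (nat_lit 51) (nat_lit 5) (nat_lit 373) (nat_lit 300) (nat_lit 107)) (XT.nd (nat_lit 78) (nat_lit 0) (nat_lit 0) (XT.lf (nat_lit 0) (nat_lit 25194887257) (nat_lit 304) (nat_lit 21407342673) (nat_lit 76) (nat_lit 5547730618) (nat_lit 47) (nat_lit 5) (nat_lit 51) (nat_lit 5) (nat_lit 48) (nat_lit 5) (nat_lit 374) (nat_lit 300) (nat_lit 106)) (XT.lf (nat_lit 0) (nat_lit 34246919028) (nat_lit 304) (nat_lit 65332751) (nat_lit 76) (nat_lit 18993135640) (nat_lit 47) (nat_lit 5) (nat_lit 51) (nat_lit 5) (nat_lit 48) (nat_lit 5) (nat_lit 375) (nat_lit 300) (nat_lit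 105)))) (XT.nd (nat_lit 156) (nat_lit 304) (nat_lit 0) (XT.nd (nat_lit 78) (nat_lit 0) (nat_lit 0) (XT.lf (nat_lit 0) (nat_lit 22349021943) (nat_lit 152) (nat_lit 21433833644) (nat_lit 228) (nat_lit 10706252823) (nat_lit 45) (nat_lit 5) (nat_lit 47) (nat_lit 5) (nat_lit 48) (nat_lit 5) (nat_lit 376) (nat_lit 300) (nat_lit 104)) (XT.lf (nat_lit 0) (nat_lit 45433160561) (nat_lit 152) (nat_lit 8169914948) (nat_lit 228) (nat_lit 2105320945) (nat_lit 45) (nat_lit 5) (nat_lit 47) (nat_lit 5) (nat_lit 48) (nat_lit 5) (nat_lit 377) (nat_lit 300) (nat_lit 103))) (XT.nd (nat_lit 78) (nat_lit 0) (nat_lit 0) (XT.lf (nat_lit 0) (nat_lit 6793424539) (nat_lit 304) (nat_lit 44594348395) (nat_lit 76) (nat_lit 5569396887) (nat_lit 41) (nat_lit 5) (nat_lit 45) (nat_lit 5) (nat_lit 42) (nat_lit 5) (nat_lit 378) (nat_lit 300) (nat_lit 102)) (XT.lf (nat_lit 0) (nat_lit 16100105112) (nat_lit 304) (nat_lit 22456342302)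 (nat_lit 76) (nat_lit 19680836452) (nat_lit 41) (nat_lit 5) (nat_lit 45) (nat_lit 5) (nat_lit 42) (nat_lit 5) (nat_lit 379) (nat_lit 300) (nat_lit 101)))))) (XT.nd (nat_lit 546) (nat_lit 380) (nat_lit 0) (XT.nd (nat_lit 234) (nat_lit 380) (nat_lit 0) (XT.nd (nat_lit 78) (nat_lit 0) (nat_lit 0) (XT.lf (nat_lit 0) (nat_lit 348785668) (nat_lit 152) (nat_lit 25338233062) (nat_lit 228) (nat_lit 33868753027) (nat_lit 39) (nat_lit 5) (nat_lit 41) (nat_lit 5) (nat_lit 42) (nat_lit 5) (nat_lit 380) (nat_lit 300) (nat_lit 100)) (XT.nd (nat_lit 78) (nat_lit 0) (nat_lit 0) (XT.lf (nat_lit 0) (nat_lit 24294613604) (nat_lit 152) (nat_lit 11491402241) (nat_lit 228) (nat_lit 25121065523) (nat_lit 39) (nat_lit 5) (nat_lit 41) (nat_lit 5) (nat_lit 42) (nat_lit 5) (nat_lit 381) (nat_lit 300) (nat_lit 99)) (XT.lf (nat_lit 0) (nat_lit 46212381569) (nat_lit 228) (nat_lit 13370479425) (nat_lit 76) (nat_lit 2715338634)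 (nat_lit 39) (nat_lit 5) (nat_lit 42) (nat_lit 5) (nat_lit 40) (nat_lit 5) (nat_lit 382) (nat_lit 300) (nat_lit 98)))) (XT.nd (nat_lit 156) (nat_lit 152) (nat_lit 0) (XT.nd (nat_lit 78) (nat_lit 76) (nat_lit 0) (XT.lf (nat_lit 0) (nat_lit 10659373133) (nat_lit 152) (nat_lit 46506234691) (nat_lit 228) (nat_lit 6559022812) (nat_lit 37) (nat_lit 5) (nat_lit 39) (nat_lit 5) (nat_lit 40) (nat_lit 5) (nat_lit 383) (nat_lit 300) (nat_lit 97)) (XT.lf (nat_lit 0) (nat_lit 3324274923) (nat_lit 228) (nat_lit 29541843989) (nat_lit 76) (nat_lit 32322772983) (nat_lit 36) (nat_lit 5) (nat_lit 39) (nat_lit 5) (nat_lit 37) (nat_lit 5) (nat_lit 384) (nat_lit 300) (nat_lit 96))) (XT.nd (nat_lit 78) (nat_lit 152) (nat_lit 0) (XT.lf (nat_lit 0) (nat_lit 13370139989) (nat_lit 228) (nat_lit 5381193858) (nat_lit 76) (nat_lit 47943863149) (nat_lit 36) (nat_lit 5) (nat_lit 39) (nat_lit 5) (nat_lit 37) (nat_lit 5) (nat_lit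 385) (nat_lit 300) (nat_lit 95)) (XT.lf (nat_lit 0) (nat_lit 19888958696) (nat_lit 152) (nat_lit 4017566627) (nat_lit 228) (nat_lit 44334492741) (nat_lit 34) (nat_lit 5) (nat_lit 36) (nat_lit 5) (nat_lit 37) (nat_lit 5) (nat_lit 386) (nat_lit 300) (nat_lit 94))))) (XT.nd (nat_lit 234) (nat_lit 228) (nat_lit 0) (XT.nd (nat_lit 78) (nat_lit 152) (nat_lit 0) (XT.lf (nat_lit 0) (nat_lit 34919112432) (nat_lit 228) (nat_lit 23915293191) (nat_lit 76) (nat_lit 10994005942) (nat_lit 34) (nat_lit 5) (nat_lit 37) (nat_lit 5) (nat_lit 35) (nat_lit 5) (nat_lit 387) (nat_lit 300) (nat_lit 93)) (XT.nd (nat_lit 78) (nat_lit 0) (nat_lit 0) (XT.lf (nat_lit 0) (nat_lit 1235571594) (nat_lit 152) (nat_lit 45076192669) (nat_lit 228) (nat_lit 25150173071) (nat_lit 32) (nat_lit 5) (nat_lit 34) (nat_lit 5) (nat_lit 35) (nat_lit 5) (nat_lit 388) (nat_lit 300) (nat_lit 92)) (XT.lf (nat_lit 0) (nat_lit 27627898162) (nat_lit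 152) (nat_lit 30657852763) (nat_lit 228) (nat_lit 14851532338) (nat_lit 32) (nat_lit 5) (nat_lit 34) (nat_lit 5) (nat_lit 35) (nat_lit 5) (nat_lit 389) (nat_lit 300) (nat_lit 91)))) (XT.nd (nat_lit 156) (nat_lit 0) (nat_lit 0) (XT.nd (nat_lit 78) (nat_lit 228) (nat_lit 0) (XT.lf (nat_lit 0) (nat_lit 54808786541) (nat_lit 152) (nat_lit 15808284925) (nat_lit 228) (nat_lit 4245875691) (nat_lit 32) (nat_lit 5) (nat_lit 34) (nat_lit 5) (nat_lit 35) (nat_lit 5) (nat_lit 390) (nat_lit 300) (nat_lit 90)) (XT.lf (nat_lit 0) (nat_lit 6218725465) (nat_lit 152) (nat_lit 386842621) (nat_lit 228) (nat_lit 70031150212) (nat_lit 29) (nat_lit 5) (nat_lit 31) (nat_lit 5) (nat_lit 32) (nat_lit 5) (nat_lit 391) (nat_lit 300) (nat_lit 89))) (XT.nd (nat_lit 78) (nat_lit 0) (nat_lit 0) (XT.lf (nat_lit 0) (nat_lit 18048860521) (nat_lit 228) (nat_lit 44962915635) (nat_lit 76) (nat_lit 15440116898) (nat_lit 29) (nat_lit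 5) (nat_lit 32) (nat_lit 5) (nat_lit 30) (nat_lit 5) (nat_lit 392) (nat_lit 300) (nat_lit 88)) (XT.lf (nat_lit 0) (nat_lit 29837496934) (nat_lit 228) (nat_lit 18751088745) (nat_lit 76) (nat_lit 31732876919) (nat_lit 29) (nat_lit 5) (nat_lit 32) (nat_lit 5) (nat_lit 30) (nat_lit 5) (nat_lit 393) (nat_lit 300) (nat_lit 87))))))))
noncomputable def xc199 : XT := (XT.nd (nat_lit 35334) (nat_lit 0) (nat_lit 4256) (XT.nd (nat_lit 34242) (nat_lit 0) (nat_lit 9728) (XT.nd (nat_lit 33696) (nat_lit 0) (nat_lit 12236) (XT.nd (nat_lit 33462) (nat_lit 0) (nat_lit 13300) (XT.nd (nat_lit 78) (nat_lit 0) (nat_lit 0) (XT.lf (nat_lit 0) (nat_lit 8408183895) (nat_lit 152) (nat_lit 33650700220) (nat_lit 228) (nat_lit 40185863239) (nat_lit 27) (nat_lit 5) (nat_lit 29) (nat_lit 5) (nat_lit 30) (nat_lit 5) (nat_lit 394) (nat_lit 300) (nat_lit 86)) (XT.nd (nat_lit 33306) (nat_lit 0) (nat_lit 13300) (XT.lf (nat_lit 0)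 (nat_lit 36763659887) (nat_lit 152) (nat_lit 18070891402) (nat_lit 228) (nat_lit 29385551061) (nat_lit 27) (nat_lit 5) (nat_lit 29) (nat_lit 5) (nat_lit 30) (nat_lit 5) (nat_lit 395) (nat_lit 300) (nat_lit 85)) (XT.lf (nat_lit 0) (nat_lit 6216366331) (nat_lit 1140) (nat_lit 387861785) (nat_lit 1140) (nat_lit 387861785) (nat_lit 202) (nat_lit 3) (nat_lit 217) (nat_lit 3) (nat_lit 217) (nat_lit 5) (nat_lit 301) (nat_lit 301) (nat_lit 178)))) (XT.nd (nat_lit 78) (nat_lit 0) (nat_lit 0) (XT.lf (nat_lit 76) (nat_lit 5610909355) (nat_lit 0) (nat_lit 7383667626) (nat_lit 1140) (nat_lit 1187647641) (nat_lit 203) (nat_lit 5) (nat_lit 202) (nat_lit 3) (nat_lit 217) (nat_lit 5) (nat_lit 302) (nat_lit 301) (nat_lit 177)) (XT.nd (nat_lit 78) (nat_lit 0) (nat_lit 76) (XT.lf (nat_lit 76) (nat_lit 12198444992) (nat_lit 0) (nat_lit 1370057464) (nat_lit 1140) (nat_lit 817869402) (nat_lit 203) (nat_lit 5) (nat_lit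 202) (nat_lit 3) (nat_lit 217) (nat_lit 5) (nat_lit 303) (nat_lit 301) (nat_lit 176)) (XT.lf (nat_lit 76) (nat_lit 4419996064) (nat_lit 0) (nat_lit 9816324033) (nat_lit 1140) (nat_lit 358040509) (nat_lit 204) (nat_lit 5) (nat_lit 203) (nat_lit 5) (nat_lit 218) (nat_lit 5) (nat_lit 304) (nat_lit 301) (nat_lit 175))))) (XT.nd (nat_lit 234) (nat_lit 0) (nat_lit 152) (XT.nd (nat_lit 78) (nat_lit 0) (nat_lit 76) (XT.lf (nat_lit 0) (nat_lit 137176535) (nat_lit 1140) (nat_lit 3558848802) (nat_lit 1216) (nat_lit 11111831215) (nat_lit 188) (nat_lit 5) (nat_lit 203) (nat_lit 5) (nat_lit 204) (nat_lit 5) (nat_lit 305) (nat_lit 301) (nat_lit 174)) (XT.nd (nat_lit 78) (nat_lit 0) (nat_lit 0) (XT.lf (nat_lit 0) (nat_lit 685652042) (nat_lit 1140) (nat_lit 11743193643) (nat_lit 1216) (nat_lit 2597453254) (nat_lit 189) (nat_lit 5) (nat_lit 204) (nat_lit 5) (nat_lit 205) (nat_lit 5) (nat_lit 306) (nat_lit 301)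 (nat_lit 173)) (XT.lf (nat_lit 0) (nat_lit 1312110710) (nat_lit 1140) (nat_lit 4891060813) (nat_lit 1216) (nat_lit 9046292603) (nat_lit 189) (nat_lit 5) (nat_lit 204) (nat_lit 5) (nat_lit 205) (nat_lit 5) (nat_lit 307) (nat_lit 301) (nat_lit 172)))) (XT.nd (nat_lit 156) (nat_lit 0) (nat_lit 0) (XT.nd (nat_lit 78) (nat_lit 0) (nat_lit 0) (XT.lf (nat_lit 0) (nat_lit 1969769108) (nat_lit 1140) (nat_lit 13278633869) (nat_lit 1216) (nat_lit 230564058) (nat_lit 190) (nat_lit 5) (nat_lit 205) (nat_lit 5) (nat_lit 206) (nat_lit 5) (nat_lit 308) (nat_lit 301) (nat_lit 171)) (XT.lf (nat_lit 0) (nat_lit 2747718466) (nat_lit 1140) (nat_lit 6178312243) (nat_lit 1216) (nat_lit 6786321996) (nat_lit 190) (nat_lit 5) (nat_lit 205) (nat_lit 5) (nat_lit 206) (nat_lit 5) (nat_lit 309) (nat_lit 301) (nat_lit 170))) (XT.nd (nat_lit 78) (nat_lit 0) (nat_lit 76) (XT.lf (nat_lit 76) (nat_lit 1150416060) (nat_lit 0) (nat_lit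 2399225964) (nat_lit 1216) (nat_lit 12403092938) (nat_lit 191) (nat_lit 5) (nat_lit 190) (nat_lit 5) (nat_lit 206) (nat_lit 5) (nat_lit 310) (nat_lit 301) (nat_lit 169)) (XT.lf (nat_lit 0) (nat_lit 4470033310) (nat_lit 1140) (nat_lit 7422310839) (nat_lit 1216) (nat_lit 4305165915) (nat_lit 191) (nat_lit 5) (nat_lit 206) (nat_lit 5) (nat_lit 207) (nat_lit 5) (nat_lit 311) (nat_lit 301) (nat_lit 168)))))) (XT.nd (nat_lit 546) (nat_lit 2736) (nat_lit 0) (XT.nd (nat_lit 234) (nat_lit 0) (nat_lit 76) (XT.nd (nat_lit 78) (nat_lit 0) (nat_lit 76) (XT.lf (nat_lit 76) (nat_lit 151173608) (nat_lit 0) (nat_lit 5282210872) (nat_lit 1216) (nat_lit 11015796774) (nat_lit 192) (nat_lit 5) (nat_lit 191) (nat_lit 5) (nat_lit 207) (nat_lit 5) (nat_lit 312) (nat_lit 301) (nat_lit 167)) (XT.nd (nat_lit 78) (nat_lit 0) (nat_lit 0) (XT.lf (nat_lit 0) (nat_lit 6506384663) (nat_lit 1140) (nat_lit 8624930782) (nat_lit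 1216) (nat_lit 1574677574) (nat_lit 192) (nat_lit 5) (nat_lit 207) (nat_lit 5) (nat_lit 208) (nat_lit 5) (nat_lit 313) (nat_lit 301) (nat_lit 166)) (XT.lf (nat_lit 0) (nat_lit 7654538610) (nat_lit 1140) (nat_lit 781122186) (nat_lit 1216) (nat_lit 8533571943) (nat_lit 192) (nat_lit 5) (nat_lit 207) (nat_lit 5) (nat_lit 208) (nat_lit 5) (nat_lit 314) (nat_lit 301) (nat_lit 165)))) (XT.nd (nat_lit 156) (nat_lit 0) (nat_lit 76) (XT.nd (nat_lit 78) (nat_lit 0) (nat_lit 76) (XT.lf (nat_lit 76) (nat_lit 7436153942) (nat_lit 0) (nat_lit 1463400640) (nat_lit 1216) (nat_lit 8338954699) (nat_lit 193) (nat_lit 5) (nat_lit 192) (nat_lit 5) (nat_lit 208) (nat_lit 5) (nat_lit 315) (nat_lit 301) (nat_lit 164)) (XT.lf (nat_lit 0) (nat_lit 10236005503) (nat_lit 1140) (nat_lit 1661891683) (nat_lit 1216) (nat_lit 5616356199) (nat_lit 193) (nat_lit 5) (nat_lit 208) (nat_lit 5) (nat_lit 209) (nat_lit 5) (nat_lit 316)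 (nat_lit 301) (nat_lit 163))) (XT.nd (nat_lit 78) (nat_lit 0) (nat_lit 76) (XT.lf (nat_lit 76) (nat_lit 6834693918) (nat_lit 0) (nat_lit 4849455467) (nat_lit 1216) (nat_lit 6111983898) (nat_lit 194) (nat_lit 5) (nat_lit 193) (nat_lit 5) (nat_lit 209) (nat_lit 5) (nat_lit 317) (nat_lit 301) (nat_lit 162)) (XT.lf (nat_lit 0) (nat_lit 13207465497) (nat_lit 1140) (nat_lit 2496240356) (nat_lit 76) (nat_lit 2381823010) (nat_lit 194) (nat_lit 5) (nat_lit 209) (nat_lit 5) (nat_lit 195) (nat_lit 5) (nat_lit 318) (nat_lit 301) (nat_lit 161))))) (XT.nd (nat_lit 234) (nat_lit 1216) (nat_lit 0) (XT.nd (nat_lit 78) (nat_lit 608) (nat_lit 0) (XT.lf (nat_lit 0) (nat_lit 6290681548) (nat_lit 1140) (nat_lit 8586137510) (nat_lit 1216) (nat_lit 3503787909) (nat_lit 179) (nat_lit 5) (nat_lit 194) (nat_lit 5) (nat_lit 195) (nat_lit 5) (nat_lit 319) (nat_lit 301) (nat_lit 160)) (XT.nd (nat_lit 78) (nat_lit 608) (nat_lit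 0) (XT.lf (nat_lit 0) (nat_lit 15385477428) (nat_lit 1140) (nat_lit 1228007514) (nat_lit 1216) (nat_lit 2070546003) (nat_lit 179) (nat_lit 5) (nat_lit 194) (nat_lit 5) (nat_lit 195) (nat_lit 5) (nat_lit 320) (nat_lit 301) (nat_lit 159)) (XT.lf (nat_lit 0) (nat_lit 5801768999) (nat_lit 608) (nat_lit 12709567245) (nat_lit 684) (nat_lit 481959016) (nat_lit 171) (nat_lit 5) (nat_lit 179) (nat_lit 5) (nat_lit 180) (nat_lit 5) (nat_lit 321) (nat_lit 301) (nat_lit 158)))) (XT.nd (nat_lit 156) (nat_lit 532) (nat_lit 0) (XT.nd (nat_lit 78) (nat_lit 608) (nat_lit 0) (XT.lf (nat_lit 0) (nat_lit 1169899742) (nat_lit 684) (nat_lit 4098753274) (nat_lit 76) (nat_lit 14041717055) (nat_lit 170) (nat_lit 5) (nat_lit 179) (nat_lit 5) (nat_lit 171) (nat_lit 5) (nat_lit 322) (nat_lit 301) (nat_lit 157)) (XT.lf (nat_lit 0) (nat_lit 2929303051) (nat_lit 684) (nat_lit 14299315149) (nat_lit 76) (nat_lit 2406174814) (nat_lit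 162) (nat_lit 5) (nat_lit 171) (nat_lit 5) (nat_lit 163) (nat_lit 5) (nat_lit 323) (nat_lit 301) (nat_lit 156))) (XT.nd (nat_lit 78) (nat_lit 532) (nat_lit 0) (XT.lf (nat_lit 0) (nat_lit 4828173111) (nat_lit 684) (nat_lit 4890534671) (nat_lit 76) (nat_lit 10247649366) (nat_lit 162) (nat_lit 5) (nat_lit 171) (nat_lit 5) (nat_lit 163) (nat_lit 5) (nat_lit 324) (nat_lit 301) (nat_lit 155)) (XT.lf (nat_lit 0) (nat_lit 4889108094) (nat_lit 532) (nat_lit 1934830901) (nat_lit 608) (nat_lit 13482740099) (nat_lit 155) (nat_lit 5) (nat_lit 162) (nat_lit 5) (nat_lit 163) (nat_lit 5) (nat_lit 325) (nat_lit 301) (nat_lit 154))))))) (XT.nd (nat_lit 1014) (nat_lit 2584) (nat_lit 0) (XT.nd (nat_lit 468) (nat_lit 1368) (nat_lit 0) (XT.nd (nat_lit 234) (nat_lit 988) (nat_lit 0) (XT.nd (nat_lit 78) (nat_lit 532) (nat_lit 0) (XT.lf (nat_lit 0) (nat_lit 8980996437) (nat_lit 608) (nat_lit 5659252748) (nat_lit 76) (nat_lit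 6013927479) (nat_lit 155) (nat_lit 5) (nat_lit 163) (nat_lit 5) (nat_lit 156) (nat_lit 5) (nat_lit 326) (nat_lit 301) (nat_lit 153)) (XT.nd (nat_lit 78) (nat_lit 0) (nat_lit 0) (XT.lf (nat_lit 0) (nat_lit 4452794351) (nat_lit 532) (nat_lit 6805208161) (nat_lit 608) (nat_lit 9752447818) (nat_lit 148) (nat_lit 5) (nat_lit 155) (nat_lit 5) (nat_lit 156) (nat_lit 5) (nat_lit 327) (nat_lit 301) (nat_lit 152)) (XT.lf (nat_lit 0) (nat_lit 13666598561) (nat_lit 608) (nat_lit 6411103087) (nat_lit 76) (nat_lit 1297820197) (nat_lit 148) (nat_lit 5) (nat_lit 156) (nat_lit 5) (nat_lit 149) (nat_lit 5) (nat_lit 328) (nat_lit 301) (nat_lit 151)))) (XT.nd (nat_lit 78) (nat_lit 532) (nat_lit 0) (XT.lf (nat_lit 0) (nat_lit 4044702928) (nat_lit 456) (nat_lit 12202607808) (nat_lit 532) (nat_lit 5501246824) (nat_lit 142) (nat_lit 5) (nat_lit 148) (nat_lit 5) (nat_lit 149) (nat_lit 5) (nat_lit 329) (nat_lit 301) (nat_lit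 150)) (XT.nd (nat_lit 78) (nat_lit 532) (nat_lit 0) (XT.lf (nat_lit 0) (nat_lit 14938978172) (nat_lit 456) (nat_lit 4024928180) (nat_lit 532) (nat_lit 3167131704) (nat_lit 142) (nat_lit 5) (nat_lit 148) (nat_lit 5) (nat_lit 149) (nat_lit 5) (nat_lit 330) (nat_lit 301) (nat_lit 149)) (XT.lf (nat_lit 0) (nat_lit 3657563673) (nat_lit 532) (nat_lit 18175774045) (nat_lit 608) (nat_lit 689522465) (nat_lit 135) (nat_lit 5) (nat_lit 142) (nat_lit 5) (nat_lit 143) (nat_lit 5) (nat_lit 331) (nat_lit 301) (nat_lit 148))))) (XT.nd (nat_lit 234) (nat_lit 836) (nat_lit 0) (XT.nd (nat_lit 78) (nat_lit 456) (nat_lit 0) (XT.lf (nat_lit 0) (nat_lit 1933218614) (nat_lit 608) (nat_lit 8009307244) (nat_lit 76) (nat_lit 12980166586) (nat_lit 134) (nat_lit 5) (nat_lit 142) (nat_lit 5) (nat_lit 135) (nat_lit 5) (nat_lit 332) (nat_lit 301) (nat_lit 147)) (XT.nd (nat_lit 78) (nat_lit 0) (nat_lit 0) (XT.lf (nat_lit 0) (nat_lit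 3221917965) (nat_lit 456) (nat_lit 1423962934) (nat_lit 532) (nat_lit 18687687764) (nat_lit 128) (nat_lit 5) (nat_lit 134) (nat_lit 5) (nat_lit 135) (nat_lit 5) (nat_lit 333) (nat_lit 301) (nat_lit 146)) (XT.lf (nat_lit 0) (nat_lit 7586485943) (nat_lit 532) (nat_lit 8878134423) (nat_lit 76) (nat_lit 7287760447) (nat_lit 128) (nat_lit 5) (nat_lit 135) (nat_lit 5) (nat_lit 129) (nat_lit 5) (nat_lit 334) (nat_lit 301) (nat_lit 145)))) (XT.nd (nat_lit 156) (nat_lit 380) (nat_lit 0) (XT.nd (nat_lit 78) (nat_lit 0) (nat_lit 0) (XT.lf (nat_lit 0) (nat_lit 2725059074) (nat_lit 456) (nat_lit 7924941323) (nat_lit 532) (nat_lit 13532722536) (nat_lit 122) (nat_lit 5) (nat_lit 128) (nat_lit 5) (nat_lit 129) (nat_lit 5) (nat_lit 335) (nat_lit 301) (nat_lit 144)) (XT.lf (nat_lit 0) (nat_lit 13898823359) (nat_lit 532) (nat_lit 9780709478) (nat_lit 76) (nat_lit 943646545) (nat_lit 122) (nat_lit 5) (nat_lit 129)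 (nat_lit 5) (nat_lit 123) (nat_lit 5) (nat_lit 336) (nat_lit 301) (nat_lit 143))) (XT.nd (nat_lit 78) (nat_lit 0) (nat_lit 0) (XT.lf (nat_lit 0) (nat_lit 2204796160) (nat_lit 380) (nat_lit 15134625686) (nat_lit 456) (nat_lit 7734604332) (nat_lit 117) (nat_lit 5) (nat_lit 122) (nat_lit 5) (nat_lit 123) (nat_lit 5) (nat_lit 337) (nat_lit 301) (nat_lit 142)) (XT.lf (nat_lit 0) (nat_lit 14744107724) (nat_lit 380) (nat_lit 6232644415) (nat_lit 456) (nat_lit 4558846626) (nat_lit 117) (nat_lit 5) (nat_lit 122) (nat_lit 5) (nat_lit 123) (nat_lit 5) (nat_lit 338) (nat_lit 301) (nat_lit 141)))))) (XT.nd (nat_lit 546) (nat_lit 1368) (nat_lit 0) (XT.nd (nat_lit 234) (nat_lit 380) (nat_lit 0) (XT.nd (nat_lit 78) (nat_lit 456) (nat_lit 0) (XT.lf (nat_lit 0) (nat_lit 1646256767) (nat_lit 380) (nat_lit 23115888326) (nat_lit 456) (nat_lit 1247710790) (nat_lit 112) (nat_lit 5) (nat_lit 117) (nat_lit 5) (nat_lit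 118) (nat_lit 5) (nat_lit 339) (nat_lit 301) (nat_lit 140)) (XT.nd (nat_lit 78) (nat_lit 380) (nat_lit 0) (XT.lf (nat_lit 0) (nat_lit 2287243095) (nat_lit 456) (nat_lit 11906564182) (nat_lit 76) (nat_lit 12298914441) (nat_lit 111) (nat_lit 5) (nat_lit 117) (nat_lit 5) (nat_lit 112) (nat_lit 5) (nat_lit 340) (nat_lit 301) (nat_lit 139)) (XT.lf (nat_lit 0) (nat_lit 923770237) (nat_lit 380) (nat_lit 4983351244) (nat_lit 456) (nat_lit 21082467986) (nat_lit 106) (nat_lit 5) (nat_lit 111) (nat_lit 5) (nat_lit 112) (nat_lit 5) (nat_lit 341) (nat_lit 301) (nat_lit 138)))) (XT.nd (nat_lit 156) (nat_lit 0) (nat_lit 0) (XT.nd (nat_lit 78) (nat_lit 380) (nat_lit 0) (XT.lf (nat_lit 0) (nat_lit 9795457194) (nat_lit 456) (nat_lit 13165311992) (nat_lit 76) (nat_lit 4535803240) (nat_lit 106) (nat_lit 5) (nat_lit 112) (nat_lit 5) (nat_lit 107) (nat_lit 5) (nat_lit 342) (nat_lit 301) (nat_lit 137)) (XT.lf (nat_lit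 0) (nat_lit 68217764) (nat_lit 380) (nat_lit 13777510380) (nat_lit 456) (nat_lit 14171683037) (nat_lit 101) (nat_lit 5) (nat_lit 106) (nat_lit 5) (nat_lit 107) (nat_lit 5) (nat_lit 343) (nat_lit 301) (nat_lit 136))) (XT.nd (nat_lit 78) (nat_lit 0) (nat_lit 0) (XT.lf (nat_lit 0) (nat_lit 13962704305) (nat_lit 380) (nat_lit 4183116308) (nat_lit 456) (nat_lit 10404209802) (nat_lit 101) (nat_lit 5) (nat_lit 106) (nat_lit 5) (nat_lit 107) (nat_lit 5) (nat_lit 344) (nat_lit 301) (nat_lit 135)) (XT.lf (nat_lit 0) (nat_lit 22625191523) (nat_lit 456) (nat_lit 885266000) (nat_lit 76) (nat_lit 5586667016) (nat_lit 101) (nat_lit 5) (nat_lit 107) (nat_lit 5) (nat_lit 102) (nat_lit 5) (nat_lit 345) (nat_lit 301) (nat_lit 134))))) (XT.nd (nat_lit 234) (nat_lit 608) (nat_lit 0) (XT.nd (nat_lit 78) (nat_lit 456) (nat_lit 0) (XT.lf (nat_lit 0) (nat_lit 13443052667) (nat_lit 304) (nat_lit 13962154360) (nat_lit 380)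 (nat_lit 2250441003) (nat_lit 97) (nat_lit 5) (nat_lit 101) (nat_lit 5) (nat_lit 102) (nat_lit 5) (nat_lit 346) (nat_lit 301) (nat_lit 133)) (XT.nd (nat_lit 78) (nat_lit 380) (nat_lit 0) (XT.lf (nat_lit 0) (nat_lit 2061440049) (nat_lit 380) (nat_lit 2037287337) (nat_lit 76) (nat_lit 26131458767) (nat_lit 96) (nat_lit 5) (nat_lit 101) (nat_lit 5) (nat_lit 97) (nat_lit 5) (nat_lit 347) (nat_lit 301) (nat_lit 132)) (XT.lf (nat_lit 0) (nat_lit 6635801432) (nat_lit 456) (nat_lit 18092516803) (nat_lit 76) (nat_lit 6087627140) (nat_lit 91) (nat_lit 5) (nat_lit 97) (nat_lit 5) (nat_lit 92) (nat_lit 5) (nat_lit 348) (nat_lit 301) (nat_lit 131)))) (XT.nd (nat_lit 156) (nat_lit 304) (nat_lit 0) (XT.nd (nat_lit 78) (nat_lit 304) (nat_lit 0) (XT.lf (nat_lit 0) (nat_lit 11404584818) (nat_lit 456) (nat_lit 3496353876) (nat_lit 76) (nat_lit 16516626899) (nat_lit 91) (nat_lit 5) (nat_lit 97) (nat_lit 5) (nat_lit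 92) (nat_lit 5) (nat_lit 349) (nat_lit 301) (nat_lit 130)) (XT.lf (nat_lit 0) (nat_lit 11761735051) (nat_lit 304) (nat_lit 4663712409) (nat_lit 380) (nat_lit 15608520322) (nat_lit 87) (nat_lit 5) (nat_lit 91) (nat_lit 5) (nat_lit 92) (nat_lit 5) (nat_lit 350) (nat_lit 301) (nat_lit 129))) (XT.nd (nat_lit 78) (nat_lit 304) (nat_lit 0) (XT.lf (nat_lit 0) (nat_lit 21685126743) (nat_lit 380) (nat_lit 5180970481) (nat_lit 76) (nat_lit 5800122814) (nat_lit 87) (nat_lit 5) (nat_lit 92) (nat_lit 5) (nat_lit 88) (nat_lit 5) (nat_lit 351) (nat_lit 301) (nat_lit 128)) (XT.lf (nat_lit 0) (nat_lit 10516705772) (nat_lit 304) (nat_lit 16729281978) (nat_lit 380) (nat_lit 6067153989) (nat_lit 83) (nat_lit 5) (nat_lit 87) (nat_lit 5) (nat_lit 88) (nat_lit 5) (nat_lit 352) (nat_lit 301) (nat_lit 127))))))))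
noncomputable def xc200 : XT := (XT.nd (nat_lit 2028) (nat_lit 1216) (nat_lit 0) (XT.nd (nat_lit 1014) (nat_lit 1140) (nat_lit 0) (XT.nd (nat_lit 468) (nat_lit 836) (nat_lit 0) (XT.nd (nat_lit 234) (nat_lit 532) (nat_lit 0) (XT.nd (nat_lit 78) (nat_lit 380) (nat_lit 0) (XT.lf (nat_lit 0) (nat_lit 26786202448) (nat_lit 304) (nat_lit 6235974585) (nat_lit 380) (nat_lit 955842497) (nat_lit 83) (nat_lit 5) (nat_lit 87) (nat_lit 5) (nat_lit 88) (nat_lit 5) (nat_lit 353) (nat_lit 301) (nat_lit 126)) (XT.nd (nat_lit 78) (nat_lit 0) (nat_lit 0) (XT.lf (nat_lit 0) (nat_lit 4352797894) (nat_lit 380) (nat_lit 25694218465) (nat_lit 76) (nat_lit 4610745940) (nat_lit 78) (nat_lit 5) (nat_lit 83) (nat_lit 5) (nat_lit 79) (nat_lit 5) (nat_lit 354) (nat_lit 301) (nat_lit 125)) (XT.lf (nat_lit 0) (nat_lit 9932871296) (nat_lit 380) (nat_lit 9681938715) (nat_lit 76) (nat_lit 15738865082) (nat_lit 78) (nat_lit 5) (nat_lit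 83) (nat_lit 5) (nat_lit 79) (nat_lit 5) (nat_lit 355) (nat_lit 301) (nat_lit 124)))) (XT.nd (nat_lit 78) (nat_lit 228) (nat_lit 0) (XT.lf (nat_lit 0) (nat_lit 6941022032) (nat_lit 304) (nat_lit 8802454636) (nat_lit 380) (nat_lit 20325097828) (nat_lit 74) (nat_lit 5) (nat_lit 78) (nat_lit 5) (nat_lit 79) (nat_lit 5) (nat_lit 356) (nat_lit 301) (nat_lit 123)) (XT.nd (nat_lit 78) (nat_lit 228) (nat_lit 0) (XT.lf (nat_lit 0) (nat_lit 21846024575) (nat_lit 380) (nat_lit 12569428091) (nat_lit 76) (nat_lit 2385942515) (nat_lit 74) (nat_lit 5) (nat_lit 79) (nat_lit 5) (nat_lit 75) (nat_lit 5) (nat_lit 357) (nat_lit 301) (nat_lit 122)) (XT.lf (nat_lit 0) (nat_lit 4480696603) (nat_lit 228) (nat_lit 23777729270) (nat_lit 304) (nat_lit 9293974245) (nat_lit 71) (nat_lit 5) (nat_lit 74) (nat_lit 5) (nat_lit 75) (nat_lit 5) (nat_lit 358) (nat_lit 301) (nat_lit 121))))) (XT.nd (nat_lit 234) (nat_lit 456) (nat_lit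 0) (XT.nd (nat_lit 78) (nat_lit 380) (nat_lit 0) (XT.lf (nat_lit 0) (nat_lit 22295010333) (nat_lit 228) (nat_lit 12691720774) (nat_lit 304) (nat_lit 3335500993) (nat_lit 71) (nat_lit 5) (nat_lit 74) (nat_lit 5) (nat_lit 75) (nat_lit 5) (nat_lit 359) (nat_lit 301) (nat_lit 120)) (XT.nd (nat_lit 78) (nat_lit 0) (nat_lit 0) (XT.lf (nat_lit 0) (nat_lit 1526551312) (nat_lit 304) (nat_lit 1231846356) (nat_lit 380) (nat_lit 36355615821) (nat_lit 66) (nat_lit 5) (nat_lit 70) (nat_lit 5) (nat_lit 71) (nat_lit 5) (nat_lit 360) (nat_lit 301) (nat_lit 119)) (XT.lf (nat_lit 0) (nat_lit 9229845920) (nat_lit 380) (nat_lit 20130400733) (nat_lit 76) (nat_lit 10560460347) (nat_lit 66) (nat_lit 5) (nat_lit 71) (nat_lit 5) (nat_lit 67) (nat_lit 5) (nat_lit 361) (nat_lit 301) (nat_lit 118)))) (XT.nd (nat_lit 156) (nat_lit 228) (nat_lit 0) (XT.nd (nat_lit 78) (nat_lit 228) (nat_lit 0) (XT.lf (nat_lit 0) (nat_lit 15904434244)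 (nat_lit 380) (nat_lit 2166617753) (nat_lit 76) (nat_lit 22680281959) (nat_lit 66) (nat_lit 5) (nat_lit 71) (nat_lit 5) (nat_lit 67) (nat_lit 5) (nat_lit 362) (nat_lit 301) (nat_lit 117)) (XT.lf (nat_lit 0) (nat_lit 16656451903) (nat_lit 228) (nat_lit 6279813645) (nat_lit 304) (nat_lit 18665906475) (nat_lit 63) (nat_lit 5) (nat_lit 66) (nat_lit 5) (nat_lit 67) (nat_lit 5) (nat_lit 363) (nat_lit 301) (nat_lit 116))) (XT.nd (nat_lit 78) (nat_lit 228) (nat_lit 0) (XT.lf (nat_lit 0) (nat_lit 30254451158) (nat_lit 304) (nat_lit 6450535709) (nat_lit 76) (nat_lit 5771288777) (nat_lit 63) (nat_lit 5) (nat_lit 67) (nat_lit 5) (nat_lit 64) (nat_lit 5) (nat_lit 364) (nat_lit 301) (nat_lit 115)) (XT.lf (nat_lit 0) (nat_lit 12782203350) (nat_lit 228) (nat_lit 25192039919) (nat_lit 304) (nat_lit 5396899595) (nat_lit 60) (nat_lit 5) (nat_lit 63) (nat_lit 5) (nat_lit 64) (nat_lit 5) (nat_lit 365) (nat_lit 301)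 (nat_lit 114)))))) (XT.nd (nat_lit 468) (nat_lit 608) (nat_lit 0) (XT.nd (nat_lit 234) (nat_lit 228) (nat_lit 0) (XT.nd (nat_lit 78) (nat_lit 228) (nat_lit 0) (XT.lf (nat_lit 0) (nat_lit 1663720956) (nat_lit 304) (nat_lit 11587655957) (nat_lit 76) (nat_lit 31039126246) (nat_lit 59) (nat_lit 5) (nat_lit 63) (nat_lit 5) (nat_lit 60) (nat_lit 5) (nat_lit 366) (nat_lit 301) (nat_lit 113)) (XT.nd (nat_lit 78) (nat_lit 0) (nat_lit 0) (XT.lf (nat_lit 0) (nat_lit 8083535314) (nat_lit 228) (nat_lit 818969474) (nat_lit 304) (nat_lit 36331094049) (nat_lit 56) (nat_lit 5) (nat_lit 59) (nat_lit 5) (nat_lit 60) (nat_lit 5) (nat_lit 367) (nat_lit 301) (nat_lit 112)) (XT.lf (nat_lit 0) (nat_lit 16588984105) (nat_lit 304) (nat_lit 17739922446) (nat_lit 76) (nat_lit 11869166939) (nat_lit 56) (nat_lit 5) (nat_lit 60) (nat_lit 5) (nat_lit 57) (nat_lit 5) (nat_lit 368) (nat_lit 301) (nat_lit 111)))) (XT.nd (nat_lit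 78) (nat_lit 0) (nat_lit 0) (XT.lf (nat_lit 0) (nat_lit 2284662166) (nat_lit 228) (nat_lit 22248689229) (nat_lit 304) (nat_lit 22657314181) (nat_lit 53) (nat_lit 5) (nat_lit 56) (nat_lit 5) (nat_lit 57) (nat_lit 5) (nat_lit 369) (nat_lit 301) (nat_lit 110)) (XT.nd (nat_lit 78) (nat_lit 0) (nat_lit 0) (XT.lf (nat_lit 0) (nat_lit 23269343748) (nat_lit 228) (nat_lit 9623107421) (nat_lit 304) (nat_lit 15315294155) (nat_lit 53) (nat_lit 5) (nat_lit 56) (nat_lit 5) (nat_lit 57) (nat_lit 5) (nat_lit 370) (nat_lit 301) (nat_lit 109)) (XT.lf (nat_lit 0) (nat_lit 41532154746) (nat_lit 304) (nat_lit 4408507939) (nat_lit 76) (nat_lit 3313781745) (nat_lit 53) (nat_lit 5) (nat_lit 57) (nat_lit 5) (nat_lit 54) (nat_lit 5) (nat_lit 371) (nat_lit 301) (nat_lit 108))))) (XT.nd (nat_lit 234) (nat_lit 152) (nat_lit 0) (XT.nd (nat_lit 78) (nat_lit 228) (nat_lit 0) (XT.lf (nat_lit 0) (nat_lit 354914577) (nat_lit 228)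 (nat_lit 33359331314) (nat_lit 76) (nat_lit 16610522034) (nat_lit 50) (nat_lit 5) (nat_lit 53) (nat_lit 5) (nat_lit 51) (nat_lit 5) (nat_lit 372) (nat_lit 301) (nat_lit 107)) (XT.nd (nat_lit 78) (nat_lit 228) (nat_lit 0) (XT.lf (nat_lit 0) (nat_lit 8561598063) (nat_lit 228) (nat_lit 12435918338) (nat_lit 76) (nat_lit 30426121499) (nat_lit 50) (nat_lit 5) (nat_lit 53) (nat_lit 5) (nat_lit 51) (nat_lit 5) (nat_lit 373) (nat_lit 301) (nat_lit 106)) (XT.lf (nat_lit 0) (nat_lit 9292524502) (nat_lit 228) (nat_lit 7808773682) (nat_lit 304) (nat_lit 35451572982) (nat_lit 47) (nat_lit 5) (nat_lit 50) (nat_lit 5) (nat_lit 51) (nat_lit 5) (nat_lit 374) (nat_lit 301) (nat_lit 105)))) (XT.nd (nat_lit 156) (nat_lit 0) (nat_lit 0) (XT.nd (nat_lit 78) (nat_lit 152) (nat_lit 0) (XT.lf (nat_lit 0) (nat_lit 26077041317) (nat_lit 304) (nat_lit 21845257009) (nat_lit 76) (nat_lit 5788289173) (nat_lit 47) (nat_lit 5)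 (nat_lit 51) (nat_lit 5) (nat_lit 48) (nat_lit 5) (nat_lit 375) (nat_lit 301) (nat_lit 104)) (XT.lf (nat_lit 0) (nat_lit 133670952) (nat_lit 152) (nat_lit 35264569157) (nat_lit 228) (nat_lit 19502511292) (nat_lit 45) (nat_lit 5) (nat_lit 47) (nat_lit 5) (nat_lit 48) (nat_lit 5) (nat_lit 376) (nat_lit 301) (nat_lit 103))) (XT.nd (nat_lit 78) (nat_lit 0) (nat_lit 0) (XT.lf (nat_lit 0) (nat_lit 23215903227) (nat_lit 152) (nat_lit 22001382925) (nat_lit 228) (nat_lit 10902789266) (nat_lit 45) (nat_lit 5) (nat_lit 47) (nat_lit 5) (nat_lit 48) (nat_lit 5) (nat_lit 377) (nat_lit 301) (nat_lit 102)) (XT.lf (nat_lit 0) (nat_lit 46986845306) (nat_lit 152) (nat_lit 8341744699) (nat_lit 228) (nat_lit 2047460046) (nat_lit 45) (nat_lit 5) (nat_lit 47) (nat_lit 5) (nat_lit 48) (nat_lit 5) (nat_lit 378) (nat_lit 301) (nat_lit 101))))))) (XT.nd (nat_lit 1014) (nat_lit 228) (nat_lit 0) (XT.nd (nat_lit 468) (nat_lit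 380) (nat_lit 0) (XT.nd (nat_lit 234) (nat_lit 152) (nat_lit 0) (XT.nd (nat_lit 78) (nat_lit 152) (nat_lit 0) (XT.lf (nat_lit 0) (nat_lit 7114981567) (nat_lit 304) (nat_lit 45738077969) (nat_lit 76) (nat_lit 5809221464) (nat_lit 41) (nat_lit 5) (nat_lit 45) (nat_lit 5) (nat_lit 42) (nat_lit 5) (nat_lit 379) (nat_lit 301) (nat_lit 100)) (XT.nd (nat_lit 78) (nat_lit 152) (nat_lit 0) (XT.lf (nat_lit 0) (nat_lit 16697432820) (nat_lit 304) (nat_lit 22941585117) (nat_lit 76) (nat_lit 20341885497) (nat_lit 41) (nat_lit 5) (nat_lit 45) (nat_lit 5) (nat_lit 42) (nat_lit 5) (nat_lit 380) (nat_lit 301) (nat_lit 99)) (XT.lf (nat_lit 0) (nat_lit 545849168) (nat_lit 152) (nat_lit 26024568550) (nat_lit 228) (nat_lit 34768576344) (nat_lit 39) (nat_lit 5) (nat_lit 41) (nat_lit 5) (nat_lit 42) (nat_lit 5) (nat_lit 381) (nat_lit 301) (nat_lit 98)))) (XT.nd (nat_lit 78) (nat_lit 152) (nat_lit 0) (XT.lf (nat_lit 0)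 (nat_lit 25204616992) (nat_lit 152) (nat_lit 11764482654) (nat_lit 228) (nat_lit 25761843824) (nat_lit 39) (nat_lit 5) (nat_lit 41) (nat_lit 5) (nat_lit 42) (nat_lit 5) (nat_lit 382) (nat_lit 301) (nat_lit 97)) (XT.nd (nat_lit 78) (nat_lit 152) (nat_lit 0) (XT.lf (nat_lit 0) (nat_lit 47705735717) (nat_lit 228) (nat_lit 13593121514) (nat_lit 76) (nat_lit 2865015567) (nat_lit 39) (nat_lit 5) (nat_lit 42) (nat_lit 5) (nat_lit 40) (nat_lit 5) (nat_lit 383) (nat_lit 301) (nat_lit 96)) (XT.lf (nat_lit 0) (nat_lit 11155876892) (nat_lit 152) (nat_lit 47830264631) (nat_lit 228) (nat_lit 6646999574) (nat_lit 37) (nat_lit 5) (nat_lit 39) (nat_lit 5) (nat_lit 40) (nat_lit 5) (nat_lit 384) (nat_lit 301) (nat_lit 95))))) (XT.nd (nat_lit 234) (nat_lit 152) (nat_lit 0) (XT.nd (nat_lit 78) (nat_lit 152) (nat_lit 0) (XT.lf (nat_lit 0) (nat_lit 3527567211) (nat_lit 228) (nat_lit 30254404912) (nat_lit 76) (nat_lit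 33359421646) (nat_lit 36) (nat_lit 5) (nat_lit 39) (nat_lit 5) (nat_lit 37) (nat_lit 5) (nat_lit 385) (nat_lit 301) (nat_lit 94)) (XT.nd (nat_lit 78) (nat_lit 152) (nat_lit 0) (XT.lf (nat_lit 0) (nat_lit 13871791801) (nat_lit 228) (nat_lit 5373994337) (nat_lit 76) (nat_lit 49447194065) (nat_lit 36) (nat_lit 5) (nat_lit 39) (nat_lit 5) (nat_lit 37) (nat_lit 5) (nat_lit 386) (nat_lit 301) (nat_lit 93)) (XT.lf (nat_lit 0) (nat_lit 20652609506) (nat_lit 152) (nat_lit 4070335751) (nat_lit 228) (nat_lit 45562271988) (nat_lit 34) (nat_lit 5) (nat_lit 36) (nat_lit 5) (nat_lit 37) (nat_lit 5) (nat_lit 387) (nat_lit 301) (nat_lit 92)))) (XT.nd (nat_lit 156) (nat_lit 0) (nat_lit 0) (XT.nd (nat_lit 78) (nat_lit 152) (nat_lit 0) (XT.lf (nat_lit 0) (nat_lit 36063652313) (nat_lit 228) (nat_lit 24468322783) (nat_lit 76) (nat_lit 11388326776) (nat_lit 34) (nat_lit 5) (nat_lit 37) (nat_lit 5) (nat_lit 35) (nat_lit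 5) (nat_lit 388) (nat_lit 301) (nat_lit 91)) (XT.lf (nat_lit 0) (nat_lit 1435455895) (nat_lit 152) (nat_lit 46361368636) (nat_lit 228) (nat_lit 25806048204) (nat_lit 32) (nat_lit 5) (nat_lit 34) (nat_lit 5) (nat_lit 35) (nat_lit 5) (nat_lit 389) (nat_lit 301) (nat_lit 90))) (XT.nd (nat_lit 78) (nat_lit 0) (nat_lit 0) (XT.lf (nat_lit 0) (nat_lit 28614810013) (nat_lit 152) (nat_lit 31512433188) (nat_lit 228) (nat_lit 15201320969) (nat_lit 32) (nat_lit 5) (nat_lit 34) (nat_lit 5) (nat_lit 35) (nat_lit 5) (nat_lit 390) (nat_lit 301) (nat_lit 89)) (XT.lf (nat_lit 0) (nat_lit 56606520920) (nat_lit 152) (nat_lit 16219276037) (nat_lit 228) (nat_lit 4280283671) (nat_lit 32) (nat_lit 5) (nat_lit 34) (nat_lit 5) (nat_lit 35) (nat_lit 5) (nat_lit 391) (nat_lit 301) (nat_lit 88)))))) (XT.nd (nat_lit 33930) (nat_lit 0) (nat_lit 12084) (XT.nd (nat_lit 33618) (nat_lit 0) (nat_lit 12084) (XT.nd (nat_lit 78) (nat_lit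 0) (nat_lit 0) (XT.lf (nat_lit 0) (nat_lit 6559096424) (nat_lit 152) (nat_lit 334616382) (nat_lit 228) (nat_lit 72039361954) (nat_lit 29) (nat_lit 5) (nat_lit 31) (nat_lit 5) (nat_lit 32) (nat_lit 5) (nat_lit 392) (nat_lit 301) (nat_lit 87)) (XT.nd (nat_lit 78) (nat_lit 0) (nat_lit 0) (XT.lf (nat_lit 0) (nat_lit 18678279021) (nat_lit 228) (nat_lit 46160404372) (nat_lit 76) (nat_lit 15964083448) (nat_lit 29) (nat_lit 5) (nat_lit 32) (nat_lit 5) (nat_lit 30) (nat_lit 5) (nat_lit 393) (nat_lit 301) (nat_lit 86)) (XT.lf (nat_lit 0) (nat_lit 30818012798) (nat_lit 228) (nat_lit 19166632346) (nat_lit 76) (nat_lit 32743856473) (nat_lit 29) (nat_lit 5) (nat_lit 32) (nat_lit 5) (nat_lit 30) (nat_lit 5) (nat_lit 394) (nat_lit 301) (nat_lit 85)))) (XT.nd (nat_lit 156) (nat_lit 1064) (nat_lit 0) (XT.nd (nat_lit 78) (nat_lit 0) (nat_lit 0) (XT.lf (nat_lit 0) (nat_lit 6721185493) (nat_lit 1140) (nat_lit 235332189)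 (nat_lit 1140) (nat_lit 235332189) (nat_lit 202) (nat_lit 3) (nat_lit 217) (nat_lit 3) (nat_lit 217) (nat_lit 5) (nat_lit 302) (nat_lit 302) (nat_lit 176)) (XT.lf (nat_lit 76) (nat_lit 6104348605) (nat_lit 0) (nat_lit 7901303816) (nat_lit 1140) (nat_lit 582522413) (nat_lit 203) (nat_lit 5) (nat_lit 202) (nat_lit 3) (nat_lit 217) (nat_lit 5) (nat_lit 303) (nat_lit 302) (nat_lit 175))) (XT.nd (nat_lit 78) (nat_lit 1064) (nat_lit 0) (XT.lf (nat_lit 76) (nat_lit 12880041030) (nat_lit 0) (nat_lit 1698660316) (nat_lit 1140) (nat_lit 220313584) (nat_lit 203) (nat_lit 5) (nat_lit 202) (nat_lit 3) (nat_lit 217) (nat_lit 5) (nat_lit 304) (nat_lit 302) (nat_lit 174)) (XT.lf (nat_lit 0) (nat_lit 231134719) (nat_lit 1140) (nat_lit 10129402456) (nat_lit 1216) (nat_lit 4653174232) (nat_lit 188) (nat_lit 5) (nat_lit 203) (nat_lit 5) (nat_lit 204) (nat_lit 5) (nat_lit 305) (nat_lit 302) (nat_lit 173))))) (XT.nd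 (nat_lit 234) (nat_lit 0) (nat_lit 152) (XT.nd (nat_lit 78) (nat_lit 0) (nat_lit 76) (XT.lf (nat_lit 0) (nat_lit 716748321) (nat_lit 1140) (nat_lit 3329062745) (nat_lit 1216) (nat_lit 11188236169) (nat_lit 188) (nat_lit 5) (nat_lit 203) (nat_lit 5) (nat_lit 204) (nat_lit 5) (nat_lit 306) (nat_lit 302) (nat_lit 172)) (XT.nd (nat_lit 78) (nat_lit 0) (nat_lit 0) (XT.lf (nat_lit 0) (nat_lit 1265922751) (nat_lit 1140) (nat_lit 11742424026) (nat_lit 1216) (nat_lit 2451191533) (nat_lit 189) (nat_lit 5) (nat_lit 204) (nat_lit 5) (nat_lit 205) (nat_lit 5) (nat_lit 307) (nat_lit 302) (nat_lit 171)) (XT.lf (nat_lit 0) (nat_lit 1894873204) (nat_lit 1140) (nat_lit 4695010670) (nat_lit 1216) (nat_lit 9100025732) (nat_lit 189) (nat_lit 5) (nat_lit 204) (nat_lit 5) (nat_lit 205) (nat_lit 5) (nat_lit 308) (nat_lit 302) (nat_lit 170)))) (XT.nd (nat_lit 156) (nat_lit 0) (nat_lit 0) (XT.nd (nat_lit 78) (nat_lit 0)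 (nat_lit 0) (XT.lf (nat_lit 0) (nat_lit 2557856937) (nat_lit 1140) (nat_lit 13319091481) (nat_lit 1216) (nat_lit 49802767) (nat_lit 190) (nat_lit 5) (nat_lit 205) (nat_lit 5) (nat_lit 206) (nat_lit 5) (nat_lit 309) (nat_lit 302) (nat_lit 169)) (XT.lf (nat_lit 0) (nat_lit 3343737161) (nat_lit 1140) (nat_lit 6016184520) (nat_lit 1216) (nat_lit 6807699798) (nat_lit 190) (nat_lit 5) (nat_lit 205) (nat_lit 5) (nat_lit 206) (nat_lit 5) (nat_lit 310) (nat_lit 302) (nat_lit 168))) (XT.nd (nat_lit 78) (nat_lit 0) (nat_lit 76) (XT.lf (nat_lit 76) (nat_lit 1528998994) (nat_lit 0) (nat_lit 2629067999) (nat_lit 1216) (nat_lit 12257517974) (nat_lit 191) (nat_lit 5) (nat_lit 190) (nat_lit 5) (nat_lit 206) (nat_lit 5) (nat_lit 311) (nat_lit 302) (nat_lit 167)) (XT.lf (nat_lit 0) (nat_lit 5089977232) (nat_lit 1140) (nat_lit 7294184052) (nat_lit 1216) (nat_lit 4284044451) (nat_lit 191) (nat_lit 5) (nat_lit 206)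 (nat_lit 5) (nat_lit 207) (nat_lit 5) (nat_lit 312) (nat_lit 302) (nat_lit 166))))))))
noncomputable def xc201 : XT := (XT.nd (nat_lit 2028) (nat_lit 4104) (nat_lit 0) (XT.nd (nat_lit 1014) (nat_lit 3420) (nat_lit 0) (XT.nd (nat_lit 468) (nat_lit 2204) (nat_lit 0) (XT.nd (nat_lit 234) (nat_lit 0) (nat_lit 76) (XT.nd (nat_lit 78) (nat_lit 0) (nat_lit 76) (XT.lf (nat_lit 76) (nat_lit 503065751) (nat_lit 0) (nat_lit 5568351429) (nat_lit 1216) (nat_lit 10856353292) (nat_lit 192) (nat_lit 5) (nat_lit 191) (nat_lit 5) (nat_lit 207) (nat_lit 5) (nat_lit 313) (nat_lit 302) (nat_lit 165)) (XT.nd (nat_lit 78) (nat_lit 0) (nat_lit 0) (XT.lf (nat_lit 0) (nat_lit 7161579972) (nat_lit 1140) (nat_lit 8530794786) (nat_lit 1216) (nat_lit 1500381156) (nat_lit 192) (nat_lit 5) (nat_lit 207) (nat_lit 5) (nat_lit 208) (nat_lit 5) (nat_lit 314) (nat_lit 302) (nat_lit 164)) (XT.lf (nat_lit 0) (nat_lit 8330780370) (nat_lit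 1140) (nat_lit 461950105) (nat_lit 1216) (nat_lit 8671582261) (nat_lit 192) (nat_lit 5) (nat_lit 207) (nat_lit 5) (nat_lit 208) (nat_lit 5) (nat_lit 315) (nat_lit 302) (nat_lit 163)))) (XT.nd (nat_lit 78) (nat_lit 0) (nat_lit 76) (XT.lf (nat_lit 76) (nat_lit 7998485427) (nat_lit 0) (nat_lit 1604914512) (nat_lit 1216) (nat_lit 8138577483) (nat_lit 193) (nat_lit 5) (nat_lit 192) (nat_lit 5) (nat_lit 208) (nat_lit 5) (nat_lit 316) (nat_lit 302) (nat_lit 162)) (XT.nd (nat_lit 78) (nat_lit 0) (nat_lit 0) (XT.lf (nat_lit 0) (nat_lit 10966309372) (nat_lit 1140) (nat_lit 1368183084) (nat_lit 1216) (nat_lit 5691927376) (nat_lit 193) (nat_lit 5) (nat_lit 208) (nat_lit 5) (nat_lit 209) (nat_lit 5) (nat_lit 317) (nat_lit 302) (nat_lit 161)) (XT.lf (nat_lit 76) (nat_lit 7379931797) (nat_lit 0) (nat_lit 5068909052) (nat_lit 1216) (nat_lit 5868203421) (nat_lit 194) (nat_lit 5) (nat_lit 193) (nat_lit 5) (nat_lit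 209) (nat_lit 5) (nat_lit 318) (nat_lit 302) (nat_lit 160))))) (XT.nd (nat_lit 234) (nat_lit 1292) (nat_lit 0) (XT.nd (nat_lit 78) (nat_lit 1140) (nat_lit 0) (XT.lf (nat_lit 0) (nat_lit 14005102993) (nat_lit 1140) (nat_lit 2227553667) (nat_lit 76) (nat_lit 2382863621) (nat_lit 194) (nat_lit 5) (nat_lit 209) (nat_lit 5) (nat_lit 195) (nat_lit 5) (nat_lit 319) (nat_lit 302) (nat_lit 159)) (XT.nd (nat_lit 78) (nat_lit 0) (nat_lit 0) (XT.lf (nat_lit 0) (nat_lit 6819607523) (nat_lit 1140) (nat_lit 8896508247) (nat_lit 1216) (nat_lit 3203603098) (nat_lit 179) (nat_lit 5) (nat_lit 194) (nat_lit 5) (nat_lit 195) (nat_lit 5) (nat_lit 320) (nat_lit 302) (nat_lit 158)) (XT.lf (nat_lit 0) (nat_lit 16177338381) (nat_lit 1140) (nat_lit 1316096877) (nat_lit 1216) (nat_lit 1739168744) (nat_lit 179) (nat_lit 5) (nat_lit 194) (nat_lit 5) (nat_lit 195) (nat_lit 5) (nat_lit 321) (nat_lit 302) (nat_lit 157)))) (XT.nd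 (nat_lit 156) (nat_lit 608) (nat_lit 0) (XT.nd (nat_lit 78) (nat_lit 76) (nat_lit 0) (XT.lf (nat_lit 0) (nat_lit 6315199041) (nat_lit 608) (nat_lit 13124694082) (nat_lit 684) (nat_lit 111517597) (nat_lit 171) (nat_lit 5) (nat_lit 179) (nat_lit 5) (nat_lit 180) (nat_lit 5) (nat_lit 322) (nat_lit 302) (nat_lit 156)) (XT.lf (nat_lit 0) (nat_lit 1571394210) (nat_lit 684) (nat_lit 3884472694) (nat_lit 76) (nat_lit 14422363401) (nat_lit 170) (nat_lit 5) (nat_lit 179) (nat_lit 5) (nat_lit 171) (nat_lit 5) (nat_lit 323) (nat_lit 302) (nat_lit 155))) (XT.nd (nat_lit 78) (nat_lit 0) (nat_lit 0) (XT.lf (nat_lit 0) (nat_lit 3375877549) (nat_lit 684) (nat_lit 14382903780) (nat_lit 76) (nat_lit 2453849037) (nat_lit 162) (nat_lit 5) (nat_lit 171) (nat_lit 5) (nat_lit 163) (nat_lit 5) (nat_lit 324) (nat_lit 302) (nat_lit 154)) (XT.lf (nat_lit 0) (nat_lit 5321266272) (nat_lit 684) (nat_lit 4701919815) (nat_lit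 76) (nat_lit 10531281739) (nat_lit 162) (nat_lit 5) (nat_lit 171) (nat_lit 5) (nat_lit 163) (nat_lit 5) (nat_lit 325) (nat_lit 302) (nat_lit 153)))))) (XT.nd (nat_lit 468) (nat_lit 1900) (nat_lit 0) (XT.nd (nat_lit 234) (nat_lit 456) (nat_lit 0) (XT.nd (nat_lit 78) (nat_lit 532) (nat_lit 0) (XT.lf (nat_lit 0) (nat_lit 5367824676) (nat_lit 532) (nat_lit 2002129116) (nat_lit 608) (nat_lit 13535266778) (nat_lit 155) (nat_lit 5) (nat_lit 162) (nat_lit 5) (nat_lit 163) (nat_lit 5) (nat_lit 326) (nat_lit 302) (nat_lit 152)) (XT.nd (nat_lit 78) (nat_lit 532) (nat_lit 0) (XT.lf (nat_lit 0) (nat_lit 9581695921) (nat_lit 608) (nat_lit 5496223356) (nat_lit 76) (nat_lit 6185536835) (nat_lit 155) (nat_lit 5) (nat_lit 163) (nat_lit 5) (nat_lit 156) (nat_lit 5) (nat_lit 327) (nat_lit 302) (nat_lit 151)) (XT.lf (nat_lit 0) (nat_lit 4915922343) (nat_lit 532) (nat_lit 7004608986) (nat_lit 608) (nat_lit 9710092960)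 (nat_lit 148) (nat_lit 5) (nat_lit 155) (nat_lit 5) (nat_lit 156) (nat_lit 5) (nat_lit 328) (nat_lit 302) (nat_lit 150)))) (XT.nd (nat_lit 78) (nat_lit 456) (nat_lit 0) (XT.lf (nat_lit 0) (nat_lit 14391969774) (nat_lit 608) (nat_lit 6273690548) (nat_lit 76) (nat_lit 1341281623) (nat_lit 148) (nat_lit 5) (nat_lit 156) (nat_lit 5) (nat_lit 149) (nat_lit 5) (nat_lit 329) (nat_lit 302) (nat_lit 149)) (XT.nd (nat_lit 78) (nat_lit 0) (nat_lit 0) (XT.lf (nat_lit 0) (nat_lit 4492556847) (nat_lit 456) (nat_lit 12551499479) (nat_lit 532) (nat_lit 5347305009) (nat_lit 142) (nat_lit 5) (nat_lit 148) (nat_lit 5) (nat_lit 149) (nat_lit 5) (nat_lit 330) (nat_lit 302) (nat_lit 148)) (XT.lf (nat_lit 0) (nat_lit 15704150265) (nat_lit 456) (nat_lit 4128990042) (nat_lit 532) (nat_lit 2952457093) (nat_lit 142) (nat_lit 5) (nat_lit 148) (nat_lit 5) (nat_lit 149) (nat_lit 5) (nat_lit 331) (nat_lit 302) (nat_lit 147)))))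 (XT.nd (nat_lit 234) (nat_lit 836) (nat_lit 0) (XT.nd (nat_lit 78) (nat_lit 532) (nat_lit 0) (XT.lf (nat_lit 0) (nat_lit 4090306555) (nat_lit 532) (nat_lit 18692861721) (nat_lit 608) (nat_lit 406181058) (nat_lit 135) (nat_lit 5) (nat_lit 142) (nat_lit 5) (nat_lit 143) (nat_lit 5) (nat_lit 332) (nat_lit 302) (nat_lit 146)) (XT.nd (nat_lit 78) (nat_lit 456) (nat_lit 0) (XT.lf (nat_lit 0) (nat_lit 2280627228) (nat_lit 608) (nat_lit 7929887304) (nat_lit 76) (nat_lit 13390844773) (nat_lit 134) (nat_lit 5) (nat_lit 142) (nat_lit 5) (nat_lit 135) (nat_lit 5) (nat_lit 333) (nat_lit 302) (nat_lit 145)) (XT.lf (nat_lit 0) (nat_lit 3635140355) (nat_lit 456) (nat_lit 1434142564) (nat_lit 532) (nat_lit 18955450142) (nat_lit 128) (nat_lit 5) (nat_lit 134) (nat_lit 5) (nat_lit 135) (nat_lit 5) (nat_lit 334) (nat_lit 302) (nat_lit 144)))) (XT.nd (nat_lit 156) (nat_lit 380) (nat_lit 0) (XT.nd (nat_lit 78) (nat_lit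 456) (nat_lit 0) (XT.lf (nat_lit 0) (nat_lit 8090137202) (nat_lit 532) (nat_lit 8828852508) (nat_lit 76) (nat_lit 7537368309) (nat_lit 128) (nat_lit 5) (nat_lit 135) (nat_lit 5) (nat_lit 129) (nat_lit 5) (nat_lit 335) (nat_lit 302) (nat_lit 143)) (XT.lf (nat_lit 0) (nat_lit 3119342421) (nat_lit 456) (nat_lit 8121178427) (nat_lit 532) (nat_lit 13659249745) (nat_lit 122) (nat_lit 5) (nat_lit 128) (nat_lit 5) (nat_lit 129) (nat_lit 5) (nat_lit 336) (nat_lit 302) (nat_lit 142))) (XT.nd (nat_lit 78) (nat_lit 380) (nat_lit 0) (XT.lf (nat_lit 0) (nat_lit 14579302108) (nat_lit 532) (nat_lit 9762901079) (nat_lit 76) (nat_lit 1011471577) (nat_lit 122) (nat_lit 5) (nat_lit 129) (nat_lit 5) (nat_lit 123) (nat_lit 5) (nat_lit 337) (nat_lit 302) (nat_lit 141)) (XT.lf (nat_lit 0) (nat_lit 2579118457) (nat_lit 380) (nat_lit 15539287325) (nat_lit 456) (nat_lit 7699791144) (nat_lit 117) (nat_lit 5) (nat_lit 122)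 (nat_lit 5) (nat_lit 123) (nat_lit 5) (nat_lit 338) (nat_lit 302) (nat_lit 140))))))) (XT.nd (nat_lit 1014) (nat_lit 1824) (nat_lit 0) (XT.nd (nat_lit 468) (nat_lit 1064) (nat_lit 0) (XT.nd (nat_lit 234) (nat_lit 760) (nat_lit 0) (XT.nd (nat_lit 78) (nat_lit 456) (nat_lit 0) (XT.lf (nat_lit 0) (nat_lit 15485633297) (nat_lit 380) (nat_lit 6371684786) (nat_lit 456) (nat_lit 4436533075) (nat_lit 117) (nat_lit 5) (nat_lit 122) (nat_lit 5) (nat_lit 123) (nat_lit 5) (nat_lit 339) (nat_lit 302) (nat_lit 139)) (XT.nd (nat_lit 78) (nat_lit 76) (nat_lit 0) (XT.lf (nat_lit 0) (nat_lit 1999196101) (nat_lit 380) (nat_lit 23753123694) (nat_lit 456) (nat_lit 1030142873) (nat_lit 112) (nat_lit 5) (nat_lit 117) (nat_lit 5) (nat_lit 118) (nat_lit 5) (nat_lit 340) (nat_lit 302) (nat_lit 138)) (XT.lf (nat_lit 0) (nat_lit 2598601443) (nat_lit 456) (nat_lit 11963965657) (nat_lit 76) (nat_lit 12717399931) (nat_lit 111)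 (nat_lit 5) (nat_lit 117) (nat_lit 5) (nat_lit 112) (nat_lit 5) (nat_lit 341) (nat_lit 302) (nat_lit 137)))) (XT.nd (nat_lit 78) (nat_lit 380) (nat_lit 0) (XT.lf (nat_lit 0) (nat_lit 1248339623) (nat_lit 380) (nat_lit 5074519994) (nat_lit 456) (nat_lit 21469015094) (nat_lit 106) (nat_lit 5) (nat_lit 111) (nat_lit 5) (nat_lit 112) (nat_lit 5) (nat_lit 342) (nat_lit 302) (nat_lit 136)) (XT.nd (nat_lit 78) (nat_lit 380) (nat_lit 0) (XT.lf (nat_lit 0) (nat_lit 10321442476) (nat_lit 456) (nat_lit 13265418927) (nat_lit 76) (nat_lit 4727405031) (nat_lit 106) (nat_lit 5) (nat_lit 112) (nat_lit 5) (nat_lit 107) (nat_lit 5) (nat_lit 343) (nat_lit 302) (nat_lit 135)) (XT.lf (nat_lit 0) (nat_lit 362226012) (nat_lit 380) (nat_lit 14127041235) (nat_lit 456) (nat_lit 14361588709) (nat_lit 101) (nat_lit 5) (nat_lit 106) (nat_lit 5) (nat_lit 107) (nat_lit 5) (nat_lit 344) (nat_lit 302) (nat_lit 134))))) (XT.nd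 (nat_lit 234) (nat_lit 760) (nat_lit 0) (XT.nd (nat_lit 78) (nat_lit 304) (nat_lit 0) (XT.lf (nat_lit 0) (nat_lit 14665043410) (nat_lit 380) (nat_lit 4246673431) (nat_lit 456) (nat_lit 10487943068) (nat_lit 101) (nat_lit 5) (nat_lit 106) (nat_lit 5) (nat_lit 107) (nat_lit 5) (nat_lit 345) (nat_lit 302) (nat_lit 133)) (XT.nd (nat_lit 78) (nat_lit 304) (nat_lit 0) (XT.lf (nat_lit 0) (nat_lit 23519594822) (nat_lit 456) (nat_lit 630528812) (nat_lit 76) (nat_lit 5813226021) (nat_lit 101) (nat_lit 5) (nat_lit 107) (nat_lit 5) (nat_lit 102) (nat_lit 5) (nat_lit 346) (nat_lit 302) (nat_lit 132)) (XT.lf (nat_lit 0) (nat_lit 14124881620) (nat_lit 304) (nat_lit 14314525646) (nat_lit 380) (nat_lit 2099336074) (nat_lit 97) (nat_lit 5) (nat_lit 101) (nat_lit 5) (nat_lit 102) (nat_lit 5) (nat_lit 347) (nat_lit 302) (nat_lit 131)))) (XT.nd (nat_lit 156) (nat_lit 304) (nat_lit 0) (XT.nd (nat_lit 78) (nat_lit 380)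 (nat_lit 0) (XT.lf (nat_lit 0) (nat_lit 2331392115) (nat_lit 380) (nat_lit 1823638955) (nat_lit 76) (nat_lit 26975616807) (nat_lit 96) (nat_lit 5) (nat_lit 101) (nat_lit 5) (nat_lit 97) (nat_lit 5) (nat_lit 348) (nat_lit 302) (nat_lit 130)) (XT.lf (nat_lit 0) (nat_lit 7040186242) (nat_lit 456) (nat_lit 18357532456) (nat_lit 76) (nat_lit 6336350965) (nat_lit 91) (nat_lit 5) (nat_lit 97) (nat_lit 5) (nat_lit 92) (nat_lit 5) (nat_lit 349) (nat_lit 302) (nat_lit 129))) (XT.nd (nat_lit 78) (nat_lit 304) (nat_lit 0) (XT.lf (nat_lit 0) (nat_lit 11946053204) (nat_lit 456) (nat_lit 3331574734) (nat_lit 76) (nat_lit 17076295620) (nat_lit 91) (nat_lit 5) (nat_lit 97) (nat_lit 5) (nat_lit 92) (nat_lit 5) (nat_lit 350) (nat_lit 302) (nat_lit 128)) (XT.lf (nat_lit 0) (nat_lit 12381613040) (nat_lit 304) (nat_lit 4732689749) (nat_lit 380) (nat_lit 15874617698) (nat_lit 87) (nat_lit 5) (nat_lit 91) (nat_lit 5)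 (nat_lit 92) (nat_lit 5) (nat_lit 351) (nat_lit 302) (nat_lit 127)))))) (XT.nd (nat_lit 546) (nat_lit 836) (nat_lit 0) (XT.nd (nat_lit 234) (nat_lit 684) (nat_lit 0) (XT.nd (nat_lit 78) (nat_lit 304) (nat_lit 0) (XT.lf (nat_lit 0) (nat_lit 22526723037) (nat_lit 380) (nat_lit 5071923475) (nat_lit 76) (nat_lit 6041650629) (nat_lit 87) (nat_lit 5) (nat_lit 92) (nat_lit 5) (nat_lit 88) (nat_lit 5) (nat_lit 352) (nat_lit 302) (nat_lit 126)) (XT.nd (nat_lit 78) (nat_lit 0) (nat_lit 0) (XT.lf (nat_lit 0) (nat_lit 11094090163) (nat_lit 304) (nat_lit 17157272748) (nat_lit 380) (nat_lit 6055360180) (nat_lit 83) (nat_lit 5) (nat_lit 87) (nat_lit 5) (nat_lit 88) (nat_lit 5) (nat_lit 353) (nat_lit 302) (nat_lit 125)) (XT.lf (nat_lit 0) (nat_lit 27844044073) (nat_lit 304) (nat_lit 6351318202) (nat_lit 380) (nat_lit 796354249) (nat_lit 83) (nat_lit 5) (nat_lit 87) (nat_lit 5) (nat_lit 88) (nat_lit 5) (nat_lit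 354) (nat_lit 302) (nat_lit 124)))) (XT.nd (nat_lit 156) (nat_lit 304) (nat_lit 0) (XT.nd (nat_lit 78) (nat_lit 0) (nat_lit 0) (XT.lf (nat_lit 0) (nat_lit 4665667850) (nat_lit 380) (nat_lit 26204590513) (nat_lit 76) (nat_lit 4821609873) (nat_lit 78) (nat_lit 5) (nat_lit 83) (nat_lit 5) (nat_lit 79) (nat_lit 5) (nat_lit 355) (nat_lit 302) (nat_lit 123)) (XT.lf (nat_lit 0) (nat_lit 10407834153) (nat_lit 380) (nat_lit 9719528424) (nat_lit 76) (nat_lit 16281459728) (nat_lit 78) (nat_lit 5) (nat_lit 83) (nat_lit 5) (nat_lit 79) (nat_lit 5) (nat_lit 356) (nat_lit 302) (nat_lit 122))) (XT.nd (nat_lit 78) (nat_lit 0) (nat_lit 0) (XT.lf (nat_lit 0) (nat_lit 7399642043) (nat_lit 304) (nat_lit 8990367877) (nat_lit 380) (nat_lit 20755245682) (nat_lit 74) (nat_lit 5) (nat_lit 78) (nat_lit 5) (nat_lit 79) (nat_lit 5) (nat_lit 357) (nat_lit 302) (nat_lit 121)) (XT.lf (nat_lit 0) (nat_lit 22671270411) (nat_lit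 380) (nat_lit 12698905712) (nat_lit 76) (nat_lit 2530020047) (nat_lit 74) (nat_lit 5) (nat_lit 79) (nat_lit 5) (nat_lit 75) (nat_lit 5) (nat_lit 358) (nat_lit 302) (nat_lit 120))))) (XT.nd (nat_lit 234) (nat_lit 228) (nat_lit 0) (XT.nd (nat_lit 78) (nat_lit 380) (nat_lit 0) (XT.lf (nat_lit 0) (nat_lit 4860295221) (nat_lit 228) (nat_lit 24413157799) (nat_lit 304) (nat_lit 9400360178) (nat_lit 71) (nat_lit 5) (nat_lit 74) (nat_lit 5) (nat_lit 75) (nat_lit 5) (nat_lit 359) (nat_lit 302) (nat_lit 119)) (XT.nd (nat_lit 78) (nat_lit 380) (nat_lit 0) (XT.lf (nat_lit 0) (nat_lit 23201897264) (nat_lit 228) (nat_lit 12996838078) (nat_lit 304) (nat_lit 3268155058) (nat_lit 71) (nat_lit 5) (nat_lit 74) (nat_lit 5) (nat_lit 75) (nat_lit 5) (nat_lit 360) (nat_lit 302) (nat_lit 118)) (XT.lf (nat_lit 0) (nat_lit 1811416859) (nat_lit 304) (nat_lit 1191394092) (nat_lit 380) (nat_lit 37279644348) (nat_lit 66) (nat_lit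 5) (nat_lit 70) (nat_lit 5) (nat_lit 71) (nat_lit 5) (nat_lit 361) (nat_lit 302) (nat_lit 117)))) (XT.nd (nat_lit 156) (nat_lit 228) (nat_lit 0) (XT.nd (nat_lit 78) (nat_lit 0) (nat_lit 0) (XT.lf (nat_lit 0) (nat_lit 9664416485) (nat_lit 380) (nat_lit 20498095753) (nat_lit 76) (nat_lit 10950960714) (nat_lit 66) (nat_lit 5) (nat_lit 71) (nat_lit 5) (nat_lit 67) (nat_lit 5) (nat_lit 362) (nat_lit 302) (nat_lit 116)) (XT.lf (nat_lit 0) (nat_lit 16534649978) (nat_lit 380) (nat_lit 2002279390) (nat_lit 76) (nat_lit 23432230764) (nat_lit 66) (nat_lit 5) (nat_lit 71) (nat_lit 5) (nat_lit 67) (nat_lit 5) (nat_lit 363) (nat_lit 302) (nat_lit 115))) (XT.nd (nat_lit 78) (nat_lit 0) (nat_lit 0) (XT.lf (nat_lit 0) (nat_lit 17383233955) (nat_lit 228) (nat_lit 6391926461) (nat_lit 304) (nat_lit 19070434735) (nat_lit 63) (nat_lit 5) (nat_lit 66) (nat_lit 5) (nat_lit 67) (nat_lit 5) (nat_lit 364) (nat_lit 302)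 (nat_lit 114)) (XT.lf (nat_lit 0) (nat_lit 31309211067) (nat_lit 304) (nat_lit 6419782592) (nat_lit 76) (nat_lit 6017042067) (nat_lit 63) (nat_lit 5) (nat_lit 67) (nat_lit 5) (nat_lit 64) (nat_lit 5) (nat_lit 365) (nat_lit 302) (nat_lit 113))))))))
noncomputable def xc202 : XT := (XT.nd (nat_lit 2028) (nat_lit 228) (nat_lit 0) (XT.nd (nat_lit 1014) (nat_lit 988) (nat_lit 0) (XT.nd (nat_lit 468) (nat_lit 608) (nat_lit 0) (XT.nd (nat_lit 234) (nat_lit 228) (nat_lit 0) (XT.nd (nat_lit 78) (nat_lit 304) (nat_lit 0) (XT.lf (nat_lit 0) (nat_lit 13387739921) (nat_lit 228) (nat_lit 25870706464) (nat_lit 304) (nat_lit 5409370428) (nat_lit 60) (nat_lit 5) (nat_lit 63) (nat_lit 5) (nat_lit 64) (nat_lit 5) (nat_lit 366) (nat_lit 302) (nat_lit 112)) (XT.nd (nat_lit 78) (nat_lit 228) (nat_lit 0) (XT.lf (nat_lit 0) (nat_lit 1855885127) (nat_lit 304) (nat_lit 11716747444) (nat_lit 76) (nat_lit 32042213418) (nat_lit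 59) (nat_lit 5) (nat_lit 63) (nat_lit 5) (nat_lit 60) (nat_lit 5) (nat_lit 367) (nat_lit 302) (nat_lit 111)) (XT.lf (nat_lit 0) (nat_lit 8542437033) (nat_lit 228) (nat_lit 767332290) (nat_lit 304) (nat_lit 37276530159) (nat_lit 56) (nat_lit 5) (nat_lit 59) (nat_lit 5) (nat_lit 60) (nat_lit 5) (nat_lit 368) (nat_lit 302) (nat_lit 110)))) (XT.nd (nat_lit 78) (nat_lit 228) (nat_lit 0) (XT.lf (nat_lit 0) (nat_lit 17223471038) (nat_lit 304) (nat_lit 18058556586) (nat_lit 76) (nat_lit 12297784869) (nat_lit 56) (nat_lit 5) (nat_lit 60) (nat_lit 5) (nat_lit 57) (nat_lit 5) (nat_lit 369) (nat_lit 302) (nat_lit 109)) (XT.nd (nat_lit 78) (nat_lit 0) (nat_lit 0) (XT.lf (nat_lit 0) (nat_lit 2564671804) (nat_lit 228) (nat_lit 22839545346) (nat_lit 304) (nat_lit 23198026631) (nat_lit 53) (nat_lit 5) (nat_lit 56) (nat_lit 5) (nat_lit 57) (nat_lit 5) (nat_lit 370) (nat_lit 302) (nat_lit 108)) (XT.lf (nat_lit 0)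 (nat_lit 24172734520) (nat_lit 228) (nat_lit 9837427285) (nat_lit 304) (nat_lit 15639794751) (nat_lit 53) (nat_lit 5) (nat_lit 56) (nat_lit 5) (nat_lit 57) (nat_lit 5) (nat_lit 371) (nat_lit 302) (nat_lit 107))))) (XT.nd (nat_lit 234) (nat_lit 380) (nat_lit 0) (XT.nd (nat_lit 78) (nat_lit 228) (nat_lit 0) (XT.lf (nat_lit 0) (nat_lit 42905936886) (nat_lit 304) (nat_lit 4338222726) (nat_lit 76) (nat_lit 3483993321) (nat_lit 53) (nat_lit 5) (nat_lit 57) (nat_lit 5) (nat_lit 54) (nat_lit 5) (nat_lit 372) (nat_lit 302) (nat_lit 106)) (XT.nd (nat_lit 78) (nat_lit 0) (nat_lit 0) (XT.lf (nat_lit 0) (nat_lit 492918239) (nat_lit 228) (nat_lit 34156936734) (nat_lit 76) (nat_lit 17180750182) (nat_lit 50) (nat_lit 5) (nat_lit 53) (nat_lit 5) (nat_lit 51) (nat_lit 5) (nat_lit 373) (nat_lit 302) (nat_lit 105)) (XT.lf (nat_lit 0) (nat_lit 8942092825) (nat_lit 228) (nat_lit 12611739073) (nat_lit 76) (nat_lit 31408723092)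 (nat_lit 50) (nat_lit 5) (nat_lit 53) (nat_lit 5) (nat_lit 51) (nat_lit 5) (nat_lit 374) (nat_lit 302) (nat_lit 104)))) (XT.nd (nat_lit 156) (nat_lit 152) (nat_lit 0) (XT.nd (nat_lit 78) (nat_lit 0) (nat_lit 0) (XT.lf (nat_lit 0) (nat_lit 9766623162) (nat_lit 228) (nat_lit 7969636987) (nat_lit 304) (nat_lit 36389459226) (nat_lit 47) (nat_lit 5) (nat_lit 50) (nat_lit 5) (nat_lit 51) (nat_lit 5) (nat_lit 375) (nat_lit 302) (nat_lit 103)) (XT.lf (nat_lit 0) (nat_lit 26978409435) (nat_lit 304) (nat_lit 22308036772) (nat_lit 76) (nat_lit 6031809313) (nat_lit 47) (nat_lit 5) (nat_lit 51) (nat_lit 5) (nat_lit 48) (nat_lit 5) (nat_lit 376) (nat_lit 302) (nat_lit 102))) (XT.nd (nat_lit 78) (nat_lit 0) (nat_lit 0) (XT.lf (nat_lit 0) (nat_lit 328371009) (nat_lit 152) (nat_lit 36249238535) (nat_lit 228) (nat_lit 19966566104) (nat_lit 45) (nat_lit 5) (nat_lit 47) (nat_lit 5) (nat_lit 48) (nat_lit 5) (nat_lit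 377) (nat_lit 302) (nat_lit 101)) (XT.lf (nat_lit 0) (nat_lit 24097516176) (nat_lit 152) (nat_lit 22590290726) (nat_lit 228) (nat_lit 11112377287) (nat_lit 45) (nat_lit 5) (nat_lit 47) (nat_lit 5) (nat_lit 48) (nat_lit 5) (nat_lit 378) (nat_lit 302) (nat_lit 100)))))) (XT.nd (nat_lit 468) (nat_lit 532) (nat_lit 0) (XT.nd (nat_lit 234) (nat_lit 152) (nat_lit 0) (XT.nd (nat_lit 78) (nat_lit 304) (nat_lit 0) (XT.lf (nat_lit 0) (nat_lit 48576194211) (nat_lit 152) (nat_lit 8522935208) (nat_lit 228) (nat_lit 1994810394) (nat_lit 45) (nat_lit 5) (nat_lit 47) (nat_lit 5) (nat_lit 48) (nat_lit 5) (nat_lit 379) (nat_lit 302) (nat_lit 99)) (XT.nd (nat_lit 78) (nat_lit 0) (nat_lit 0) (XT.lf (nat_lit 0) (nat_lit 7439425727) (nat_lit 304) (nat_lit 46927261615) (nat_lit 76) (nat_lit 6052065051) (nat_lit 41) (nat_lit 5) (nat_lit 45) (nat_lit 5) (nat_lit 42) (nat_lit 5) (nat_lit 380) (nat_lit 302) (nat_lit 98))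 (XT.lf (nat_lit 0) (nat_lit 17306117662) (nat_lit 304) (nat_lit 23452202872) (nat_lit 76) (nat_lit 21018711909) (nat_lit 41) (nat_lit 5) (nat_lit 45) (nat_lit 5) (nat_lit 42) (nat_lit 5) (nat_lit 381) (nat_lit 302) (nat_lit 97)))) (XT.nd (nat_lit 78) (nat_lit 0) (nat_lit 0) (XT.lf (nat_lit 0) (nat_lit 738112973) (nat_lit 152) (nat_lit 26735731185) (nat_lit 228) (nat_lit 35702066970) (nat_lit 39) (nat_lit 5) (nat_lit 41) (nat_lit 5) (nat_lit 42) (nat_lit 5) (nat_lit 382) (nat_lit 302) (nat_lit 96)) (XT.nd (nat_lit 78) (nat_lit 0) (nat_lit 0) (XT.lf (nat_lit 0) (nat_lit 26131520871) (nat_lit 152) (nat_lit 12049869151) (nat_lit 228) (nat_lit 26428323737) (nat_lit 39) (nat_lit 5) (nat_lit 41) (nat_lit 5) (nat_lit 42) (nat_lit 5) (nat_lit 383) (nat_lit 302) (nat_lit 95)) (XT.lf (nat_lit 0) (nat_lit 49237749245) (nat_lit 228) (nat_lit 13832687906) (nat_lit 76) (nat_lit 3015266886) (nat_lit 39) (nat_lit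 5) (nat_lit 42) (nat_lit 5) (nat_lit 40) (nat_lit 5) (nat_lit 384) (nat_lit 302) (nat_lit 94))))) (XT.nd (nat_lit 234) (nat_lit 304) (nat_lit 0) (XT.nd (nat_lit 78) (nat_lit 76) (nat_lit 0) (XT.lf (nat_lit 0) (nat_lit 11657131166) (nat_lit 152) (nat_lit 49198100178) (nat_lit 228) (nat_lit 6743860855) (nat_lit 37) (nat_lit 5) (nat_lit 39) (nat_lit 5) (nat_lit 40) (nat_lit 5) (nat_lit 385) (nat_lit 302) (nat_lit 93)) (XT.nd (nat_lit 78) (nat_lit 0) (nat_lit 0) (XT.lf (nat_lit 0) (nat_lit 3731013267) (nat_lit 228) (nat_lit 30998313431) (nat_lit 76) (nat_lit 34423325675) (nat_lit 36) (nat_lit 5) (nat_lit 39) (nat_lit 5) (nat_lit 37) (nat_lit 5) (nat_lit 386) (nat_lit 302) (nat_lit 92)) (XT.lf (nat_lit 0) (nat_lit 14382721322) (nat_lit 228) (nat_lit 5376259189) (nat_lit 76) (nat_lit 50991892781) (nat_lit 36) (nat_lit 5) (nat_lit 39) (nat_lit 5) (nat_lit 37) (nat_lit 5) (nat_lit 387) (nat_lit 302) (nat_lit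 91)))) (XT.nd (nat_lit 156) (nat_lit 152) (nat_lit 0) (XT.nd (nat_lit 78) (nat_lit 0) (nat_lit 0) (XT.lf (nat_lit 0) (nat_lit 21429584387) (nat_lit 152) (nat_lit 4128577527) (nat_lit 228) (nat_lit 46832754498) (nat_lit 34) (nat_lit 5) (nat_lit 36) (nat_lit 5) (nat_lit 37) (nat_lit 5) (nat_lit 388) (nat_lit 302) (nat_lit 90)) (XT.lf (nat_lit 0) (nat_lit 37236962117) (nat_lit 228) (nat_lit 25047382171) (nat_lit 76) (nat_lit 11790774633) (nat_lit 34) (nat_lit 5) (nat_lit 37) (nat_lit 5) (nat_lit 35) (nat_lit 5) (nat_lit 389) (nat_lit 302) (nat_lit 89))) (XT.nd (nat_lit 78) (nat_lit 0) (nat_lit 0) (XT.lf (nat_lit 0) (nat_lit 1631990354) (nat_lit 152) (nat_lit 47688952259) (nat_lit 228) (nat_lit 26487261359) (nat_lit 32) (nat_lit 5) (nat_lit 34) (nat_lit 5) (nat_lit 35) (nat_lit 5) (nat_lit 390) (nat_lit 302) (nat_lit 88)) (XT.lf (nat_lit 0) (nat_lit 29622255073) (nat_lit 152) (nat_lit 32396391197)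 (nat_lit 228) (nat_lit 15567100122) (nat_lit 32) (nat_lit 5) (nat_lit 34) (nat_lit 5) (nat_lit 35) (nat_lit 5) (nat_lit 391) (nat_lit 302) (nat_lit 87))))))) (XT.nd (nat_lit 34476) (nat_lit 0) (nat_lit 10108) (XT.nd (nat_lit 33930) (nat_lit 0) (nat_lit 12084) (XT.nd (nat_lit 33696) (nat_lit 0) (nat_lit 12008) (XT.nd (nat_lit 78) (nat_lit 228) (nat_lit 0) (XT.lf (nat_lit 0) (nat_lit 58449377479) (nat_lit 152) (nat_lit 16646228118) (nat_lit 228) (nat_lit 4321060651) (nat_lit 32) (nat_lit 5) (nat_lit 34) (nat_lit 5) (nat_lit 35) (nat_lit 5) (nat_lit 392) (nat_lit 302) (nat_lit 86)) (XT.nd (nat_lit 78) (nat_lit 0) (nat_lit 0) (XT.lf (nat_lit 0) (nat_lit 6900849235) (nat_lit 152) (nat_lit 284487546) (nat_lit 228) (nat_lit 74113142714) (nat_lit 29) (nat_lit 5) (nat_lit 31) (nat_lit 5) (nat_lit 32) (nat_lit 5) (nat_lit 393) (nat_lit 302) (nat_lit 85)) (XT.lf (nat_lit 0) (nat_lit 19321531233) (nat_lit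 228) (nat_lit 47402508677) (nat_lit 76) (nat_lit 16500280948) (nat_lit 29) (nat_lit 5) (nat_lit 32) (nat_lit 5) (nat_lit 30) (nat_lit 5) (nat_lit 394) (nat_lit 302) (nat_lit 84)))) (XT.nd (nat_lit 78) (nat_lit 1140) (nat_lit 0) (XT.lf (nat_lit 0) (nat_lit 7222875890) (nat_lit 1140) (nat_lit 87650473) (nat_lit 1140) (nat_lit 87650473) (nat_lit 202) (nat_lit 3) (nat_lit 217) (nat_lit 3) (nat_lit 217) (nat_lit 5) (nat_lit 303) (nat_lit 303) (nat_lit 174)) (XT.nd (nat_lit 78) (nat_lit 0) (nat_lit 0) (XT.lf (nat_lit 0) (nat_lit 3897072) (nat_lit 1140) (nat_lit 8413533814) (nat_lit 1216) (nat_lit 6589991849) (nat_lit 187) (nat_lit 5) (nat_lit 202) (nat_lit 3) (nat_lit 203) (nat_lit 5) (nat_lit 304) (nat_lit 303) (nat_lit 173)) (XT.lf (nat_lit 0) (nat_lit 352443961) (nat_lit 1140) (nat_lit 1664614557) (nat_lit 1216) (nat_lit 13207962812) (nat_lit 187) (nat_lit 5) (nat_lit 202) (nat_lit 3) (nat_lit 203)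 (nat_lit 5) (nat_lit 305) (nat_lit 303) (nat_lit 172))))) (XT.nd (nat_lit 234) (nat_lit 0) (nat_lit 76) (XT.nd (nat_lit 78) (nat_lit 0) (nat_lit 0) (XT.lf (nat_lit 0) (nat_lit 796764381) (nat_lit 1140) (nat_lit 10106535480) (nat_lit 1216) (nat_lit 4543303456) (nat_lit 188) (nat_lit 5) (nat_lit 203) (nat_lit 5) (nat_lit 204) (nat_lit 5) (nat_lit 306) (nat_lit 303) (nat_lit 171)) (XT.nd (nat_lit 78) (nat_lit 0) (nat_lit 76) (XT.lf (nat_lit 0) (nat_lit 1280673703) (nat_lit 1140) (nat_lit 3111702540) (nat_lit 1216) (nat_lit 11281683251) (nat_lit 188) (nat_lit 5) (nat_lit 203) (nat_lit 5) (nat_lit 204) (nat_lit 5) (nat_lit 307) (nat_lit 303) (nat_lit 170)) (XT.lf (nat_lit 0) (nat_lit 1831472446) (nat_lit 1140) (nat_lit 11761898720) (nat_lit 1216) (nat_lit 2313411115) (nat_lit 189) (nat_lit 5) (nat_lit 204) (nat_lit 5) (nat_lit 205) (nat_lit 5) (nat_lit 308) (nat_lit 303) (nat_lit 169)))) (XT.nd (nat_lit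 156) (nat_lit 0) (nat_lit 76) (XT.nd (nat_lit 78) (nat_lit 0) (nat_lit 0) (XT.lf (nat_lit 0) (nat_lit 2463925237) (nat_lit 1140) (nat_lit 4512756109) (nat_lit 1216) (nat_lit 9167865179) (nat_lit 189) (nat_lit 5) (nat_lit 204) (nat_lit 5) (nat_lit 205) (nat_lit 5) (nat_lit 309) (nat_lit 303) (nat_lit 168)) (XT.lf (nat_lit 76) (nat_lit 3006344678) (nat_lit 0) (nat_lit 128107708) (nat_lit 1216) (nat_lit 13254431568) (nat_lit 190) (nat_lit 5) (nat_lit 189) (nat_lit 5) (nat_lit 205) (nat_lit 5) (nat_lit 310) (nat_lit 303) (nat_lit 167))) (XT.nd (nat_lit 78) (nat_lit 0) (nat_lit 0) (XT.lf (nat_lit 0) (nat_lit 3928154414) (nat_lit 1140) (nat_lit 5869139571) (nat_lit 1216) (nat_lit 6840178641) (nat_lit 190) (nat_lit 5) (nat_lit 205) (nat_lit 5) (nat_lit 206) (nat_lit 5) (nat_lit 311) (nat_lit 303) (nat_lit 166)) (XT.lf (nat_lit 76) (nat_lit 1899188365) (nat_lit 0) (nat_lit 2856743183) (nat_lit 1216) (nat_lit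 12137292007) (nat_lit 191) (nat_lit 5) (nat_lit 190) (nat_lit 5) (nat_lit 206) (nat_lit 5) (nat_lit 312) (nat_lit 303) (nat_lit 165)))))) (XT.nd (nat_lit 546) (nat_lit 2204) (nat_lit 0) (XT.nd (nat_lit 234) (nat_lit 0) (nat_lit 76) (XT.nd (nat_lit 78) (nat_lit 0) (nat_lit 0) (XT.lf (nat_lit 0) (nat_lit 5700630101) (nat_lit 1140) (nat_lit 7182350594) (nat_lit 1216) (nat_lit 4270915824) (nat_lit 191) (nat_lit 5) (nat_lit 206) (nat_lit 5) (nat_lit 207) (nat_lit 5) (nat_lit 313) (nat_lit 303) (nat_lit 164)) (XT.nd (nat_lit 78) (nat_lit 0) (nat_lit 76) (XT.lf (nat_lit 76) (nat_lit 845574948) (nat_lit 0) (nat_lit 5855747180) (nat_lit 1216) (nat_lit 10720249768) (nat_lit 192) (nat_lit 5) (nat_lit 191) (nat_lit 5) (nat_lit 207) (nat_lit 5) (nat_lit 314) (nat_lit 303) (nat_lit 163)) (XT.lf (nat_lit 0) (nat_lit 7810025042) (nat_lit 1140) (nat_lit 8454091691) (nat_lit 1216) (nat_lit 1430832552) (nat_lit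 192) (nat_lit 5) (nat_lit 207) (nat_lit 5) (nat_lit 208) (nat_lit 5) (nat_lit 315) (nat_lit 303) (nat_lit 162)))) (XT.nd (nat_lit 156) (nat_lit 0) (nat_lit 76) (XT.nd (nat_lit 78) (nat_lit 0) (nat_lit 0) (XT.lf (nat_lit 0) (nat_lit 9001672394) (nat_lit 1140) (nat_lit 152869833) (nat_lit 1216) (nat_lit 8820506391) (nat_lit 192) (nat_lit 5) (nat_lit 207) (nat_lit 5) (nat_lit 208) (nat_lit 5) (nat_lit 316) (nat_lit 303) (nat_lit 161)) (XT.lf (nat_lit 76) (nat_lit 8558212699) (nat_lit 0) (nat_lit 1745070481) (nat_lit 1216) (nat_lit 7958052126) (nat_lit 193) (nat_lit 5) (nat_lit 192) (nat_lit 5) (nat_lit 208) (nat_lit 5) (nat_lit 317) (nat_lit 303) (nat_lit 160))) (XT.nd (nat_lit 78) (nat_lit 0) (nat_lit 0) (XT.lf (nat_lit 0) (nat_lit 11694227585) (nat_lit 1140) (nat_lit 1085385285) (nat_lit 1216) (nat_lit 5775099649) (nat_lit 193) (nat_lit 5) (nat_lit 208) (nat_lit 5) (nat_lit 209) (nat_lit 5) (nat_lit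 318) (nat_lit 303) (nat_lit 159)) (XT.lf (nat_lit 76) (nat_lit 7921998109) (nat_lit 0) (nat_lit 5290700069) (nat_lit 1216) (nat_lit 5641629113) (nat_lit 194) (nat_lit 5) (nat_lit 193) (nat_lit 5) (nat_lit 209) (nat_lit 5) (nat_lit 319) (nat_lit 303) (nat_lit 158))))) (XT.nd (nat_lit 234) (nat_lit 1292) (nat_lit 0) (XT.nd (nat_lit 78) (nat_lit 1140) (nat_lit 0) (XT.lf (nat_lit 0) (nat_lit 14803626836) (nat_lit 1140) (nat_lit 1970528924) (nat_lit 76) (nat_lit 2387977506) (nat_lit 194) (nat_lit 5) (nat_lit 209) (nat_lit 5) (nat_lit 195) (nat_lit 5) (nat_lit 320) (nat_lit 303) (nat_lit 157)) (XT.nd (nat_lit 78) (nat_lit 0) (nat_lit 0) (XT.lf (nat_lit 0) (nat_lit 7344872088) (nat_lit 1140) (nat_lit 9213159938) (nat_lit 1216) (nat_lit 2917678531) (nat_lit 179) (nat_lit 5) (nat_lit 194) (nat_lit 5) (nat_lit 195) (nat_lit 5) (nat_lit 321) (nat_lit 303) (nat_lit 156)) (XT.lf (nat_lit 0) (nat_lit 16973994784)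 (nat_lit 1140) (nat_lit 1403887010) (nat_lit 1216) (nat_lit 1420438312) (nat_lit 179) (nat_lit 5) (nat_lit 194) (nat_lit 5) (nat_lit 195) (nat_lit 5) (nat_lit 322) (nat_lit 303) (nat_lit 155)))) (XT.nd (nat_lit 156) (nat_lit 608) (nat_lit 0) (XT.nd (nat_lit 78) (nat_lit 0) (nat_lit 0) (XT.lf (nat_lit 0) (nat_lit 243103972) (nat_lit 684) (nat_lit 13304773335) (nat_lit 76) (nat_lit 6578991511) (nat_lit 170) (nat_lit 5) (nat_lit 179) (nat_lit 5) (nat_lit 171) (nat_lit 5) (nat_lit 323) (nat_lit 303) (nat_lit 154)) (XT.lf (nat_lit 0) (nat_lit 1963900798) (nat_lit 684) (nat_lit 3683122836) (nat_lit 76) (nat_lit 14816760039) (nat_lit 170) (nat_lit 5) (nat_lit 179) (nat_lit 5) (nat_lit 171) (nat_lit 5) (nat_lit 324) (nat_lit 303) (nat_lit 153))) (XT.nd (nat_lit 78) (nat_lit 0) (nat_lit 0) (XT.lf (nat_lit 0) (nat_lit 3815258698) (nat_lit 684) (nat_lit 14488826916) (nat_lit 76) (nat_lit 2504360520) (nat_lit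 162) (nat_lit 5) (nat_lit 171) (nat_lit 5) (nat_lit 163) (nat_lit 5) (nat_lit 325) (nat_lit 303) (nat_lit 152)) (XT.lf (nat_lit 0) (nat_lit 5809161369) (nat_lit 684) (nat_lit 4526895878) (nat_lit 76) (nat_lit 10824789135) (nat_lit 162) (nat_lit 5) (nat_lit 171) (nat_lit 5) (nat_lit 163) (nat_lit 5) (nat_lit 326) (nat_lit 303) (nat_lit 151))))))))
noncomputable def xc203 : XT := (XT.nd (nat_lit 2106) (nat_lit 3192) (nat_lit 0) (XT.nd (nat_lit 1014) (nat_lit 2280) (nat_lit 0) (XT.nd (nat_lit 468) (nat_lit 1900) (nat_lit 0) (XT.nd (nat_lit 234) (nat_lit 456) (nat_lit 0) (XT.nd (nat_lit 78) (nat_lit 532) (nat_lit 0) (XT.lf (nat_lit 0) (nat_lit 5841842109) (nat_lit 532) (nat_lit 2070915100) (nat_lit 608) (nat_lit 13609572945) (nat_lit 155) (nat_lit 5) (nat_lit 162) (nat_lit 5) (nat_lit 163) (nat_lit 5) (nat_lit 327) (nat_lit 303) (nat_lit 150)) (XT.nd (nat_lit 78) (nat_lit 532) (nat_lit 0) (XT.lf (nat_lit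 0) (nat_lit 10181400159) (nat_lit 608) (nat_lit 5347407563) (nat_lit 76) (nat_lit 6362800114) (nat_lit 155) (nat_lit 5) (nat_lit 163) (nat_lit 5) (nat_lit 156) (nat_lit 5) (nat_lit 328) (nat_lit 303) (nat_lit 149)) (XT.lf (nat_lit 0) (nat_lit 5374026991) (nat_lit 532) (nat_lit 7210264816) (nat_lit 608) (nat_lit 9685693711) (nat_lit 148) (nat_lit 5) (nat_lit 155) (nat_lit 5) (nat_lit 156) (nat_lit 5) (nat_lit 329) (nat_lit 303) (nat_lit 148)))) (XT.nd (nat_lit 78) (nat_lit 456) (nat_lit 0) (XT.lf (nat_lit 0) (nat_lit 15120998408) (nat_lit 608) (nat_lit 6151084382) (nat_lit 76) (nat_lit 1385787034) (nat_lit 148) (nat_lit 5) (nat_lit 156) (nat_lit 5) (nat_lit 149) (nat_lit 5) (nat_lit 330) (nat_lit 303) (nat_lit 147)) (XT.nd (nat_lit 78) (nat_lit 0) (nat_lit 0) (XT.lf (nat_lit 0) (nat_lit 4935103211) (nat_lit 456) (nat_lit 12911844480) (nat_lit 532) (nat_lit 5207055653) (nat_lit 142) (nat_lit 5)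 (nat_lit 148) (nat_lit 5) (nat_lit 149) (nat_lit 5) (nat_lit 331) (nat_lit 303) (nat_lit 146)) (XT.lf (nat_lit 0) (nat_lit 16474080267) (nat_lit 456) (nat_lit 4237131604) (nat_lit 532) (nat_lit 2749119634) (nat_lit 142) (nat_lit 5) (nat_lit 148) (nat_lit 5) (nat_lit 149) (nat_lit 5) (nat_lit 332) (nat_lit 303) (nat_lit 145))))) (XT.nd (nat_lit 234) (nat_lit 836) (nat_lit 0) (XT.nd (nat_lit 78) (nat_lit 532) (nat_lit 0) (XT.lf (nat_lit 0) (nat_lit 4517489285) (nat_lit 532) (nat_lit 19227079993) (nat_lit 608) (nat_lit 131791807) (nat_lit 135) (nat_lit 5) (nat_lit 142) (nat_lit 5) (nat_lit 143) (nat_lit 5) (nat_lit 333) (nat_lit 303) (nat_lit 144)) (XT.nd (nat_lit 78) (nat_lit 456) (nat_lit 0) (XT.lf (nat_lit 0) (nat_lit 2621844665) (nat_lit 608) (nat_lit 7866436806) (nat_lit 76) (nat_lit 13812622138) (nat_lit 134) (nat_lit 5) (nat_lit 142) (nat_lit 5) (nat_lit 135) (nat_lit 5) (nat_lit 334) (nat_lit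 303) (nat_lit 143)) (XT.lf (nat_lit 0) (nat_lit 4042587301) (nat_lit 456) (nat_lit 1446495469) (nat_lit 532) (nat_lit 19248057227) (nat_lit 128) (nat_lit 5) (nat_lit 134) (nat_lit 5) (nat_lit 135) (nat_lit 5) (nat_lit 335) (nat_lit 303) (nat_lit 142)))) (XT.nd (nat_lit 156) (nat_lit 380) (nat_lit 0) (XT.nd (nat_lit 78) (nat_lit 456) (nat_lit 0) (XT.lf (nat_lit 0) (nat_lit 8593051216) (nat_lit 532) (nat_lit 8796210356) (nat_lit 76) (nat_lit 7792686313) (nat_lit 128) (nat_lit 5) (nat_lit 135) (nat_lit 5) (nat_lit 129) (nat_lit 5) (nat_lit 336) (nat_lit 303) (nat_lit 141)) (XT.lf (nat_lit 0) (nat_lit 3507513679) (nat_lit 456) (nat_lit 8325685552) (nat_lit 532) (nat_lit 13805614599) (nat_lit 122) (nat_lit 5) (nat_lit 128) (nat_lit 5) (nat_lit 129) (nat_lit 5) (nat_lit 337) (nat_lit 303) (nat_lit 140))) (XT.nd (nat_lit 78) (nat_lit 380) (nat_lit 0) (XT.lf (nat_lit 0) (nat_lit 15265068435) (nat_lit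 532) (nat_lit 9762424285) (nat_lit 76) (nat_lit 1079063001) (nat_lit 122) (nat_lit 5) (nat_lit 129) (nat_lit 5) (nat_lit 123) (nat_lit 5) (nat_lit 338) (nat_lit 303) (nat_lit 139)) (XT.lf (nat_lit 0) (nat_lit 2946979721) (nat_lit 380) (nat_lit 15958923263) (nat_lit 456) (nat_lit 7679251918) (nat_lit 117) (nat_lit 5) (nat_lit 122) (nat_lit 5) (nat_lit 123) (nat_lit 5) (nat_lit 339) (nat_lit 303) (nat_lit 138)))))) (XT.nd (nat_lit 546) (nat_lit 1064) (nat_lit 0) (XT.nd (nat_lit 234) (nat_lit 760) (nat_lit 0) (XT.nd (nat_lit 78) (nat_lit 456) (nat_lit 0) (XT.lf (nat_lit 0) (nat_lit 16232229200) (nat_lit 380) (nat_lit 6517648260) (nat_lit 456) (nat_lit 4325422310) (nat_lit 117) (nat_lit 5) (nat_lit 122) (nat_lit 5) (nat_lit 123) (nat_lit 5) (nat_lit 340) (nat_lit 303) (nat_lit 137)) (XT.nd (nat_lit 78) (nat_lit 76) (nat_lit 0) (XT.lf (nat_lit 0) (nat_lit 2345298510) (nat_lit 380) (nat_lit 24412704603)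 (nat_lit 456) (nat_lit 820685918) (nat_lit 112) (nat_lit 5) (nat_lit 117) (nat_lit 5) (nat_lit 118) (nat_lit 5) (nat_lit 341) (nat_lit 303) (nat_lit 136)) (XT.lf (nat_lit 0) (nat_lit 2905366213) (nat_lit 456) (nat_lit 12040298661) (nat_lit 76) (nat_lit 13145597447) (nat_lit 111) (nat_lit 5) (nat_lit 117) (nat_lit 5) (nat_lit 112) (nat_lit 5) (nat_lit 342) (nat_lit 303) (nat_lit 135)))) (XT.nd (nat_lit 156) (nat_lit 380) (nat_lit 0) (XT.nd (nat_lit 78) (nat_lit 0) (nat_lit 0) (XT.lf (nat_lit 0) (nat_lit 1565605326) (nat_lit 380) (nat_lit 5171772290) (nat_lit 456) (nat_lit 21881275827) (nat_lit 106) (nat_lit 5) (nat_lit 111) (nat_lit 5) (nat_lit 112) (nat_lit 5) (nat_lit 343) (nat_lit 303) (nat_lit 134)) (XT.lf (nat_lit 0) (nat_lit 10849882589) (nat_lit 456) (nat_lit 13385454805) (nat_lit 76) (nat_lit 4921567358) (nat_lit 106) (nat_lit 5) (nat_lit 112) (nat_lit 5) (nat_lit 107) (nat_lit 5) (nat_lit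 344) (nat_lit 303) (nat_lit 133))) (XT.nd (nat_lit 78) (nat_lit 0) (nat_lit 0) (XT.lf (nat_lit 0) (nat_lit 648294710) (nat_lit 380) (nat_lit 14490720078) (nat_lit 456) (nat_lit 14570695567) (nat_lit 101) (nat_lit 5) (nat_lit 106) (nat_lit 5) (nat_lit 107) (nat_lit 5) (nat_lit 345) (nat_lit 303) (nat_lit 132)) (XT.lf (nat_lit 0) (nat_lit 15372181041) (nat_lit 380) (nat_lit 4315692669) (nat_lit 456) (nat_lit 10587299027) (nat_lit 101) (nat_lit 5) (nat_lit 106) (nat_lit 5) (nat_lit 107) (nat_lit 5) (nat_lit 346) (nat_lit 303) (nat_lit 131))))) (XT.nd (nat_lit 234) (nat_lit 684) (nat_lit 0) (XT.nd (nat_lit 78) (nat_lit 380) (nat_lit 0) (XT.lf (nat_lit 0) (nat_lit 24428451168) (nat_lit 456) (nat_lit 384297001) (nat_lit 76) (nat_lit 6043197308) (nat_lit 101) (nat_lit 5) (nat_lit 107) (nat_lit 5) (nat_lit 102) (nat_lit 5) (nat_lit 347) (nat_lit 303) (nat_lit 130)) (XT.nd (nat_lit 78) (nat_lit 76) (nat_lit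 0) (XT.lf (nat_lit 0) (nat_lit 14811176257) (nat_lit 304) (nat_lit 14681285061) (nat_lit 380) (nat_lit 1956247574) (nat_lit 97) (nat_lit 5) (nat_lit 101) (nat_lit 5) (nat_lit 102) (nat_lit 5) (nat_lit 348) (nat_lit 303) (nat_lit 129)) (XT.lf (nat_lit 0) (nat_lit 2597496444) (nat_lit 380) (nat_lit 1619353872) (nat_lit 76) (nat_lit 27841643043) (nat_lit 96) (nat_lit 5) (nat_lit 101) (nat_lit 5) (nat_lit 97) (nat_lit 5) (nat_lit 349) (nat_lit 303) (nat_lit 128)))) (XT.nd (nat_lit 156) (nat_lit 304) (nat_lit 0) (XT.nd (nat_lit 78) (nat_lit 0) (nat_lit 0) (XT.lf (nat_lit 0) (nat_lit 7444916917) (nat_lit 456) (nat_lit 18646443130) (nat_lit 76) (nat_lit 6588742382) (nat_lit 91) (nat_lit 5) (nat_lit 97) (nat_lit 5) (nat_lit 92) (nat_lit 5) (nat_lit 350) (nat_lit 303) (nat_lit 127)) (XT.lf (nat_lit 0) (nat_lit 12492323235) (nat_lit 456) (nat_lit 3177332364) (nat_lit 76) (nat_lit 17649070787) (nat_lit 91)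 (nat_lit 5) (nat_lit 97) (nat_lit 5) (nat_lit 92) (nat_lit 5) (nat_lit 351) (nat_lit 303) (nat_lit 126))) (XT.nd (nat_lit 78) (nat_lit 0) (nat_lit 0) (XT.lf (nat_lit 0) (nat_lit 13004758988) (nat_lit 304) (nat_lit 4807808312) (nat_lit 380) (nat_lit 16160302705) (nat_lit 87) (nat_lit 5) (nat_lit 91) (nat_lit 5) (nat_lit 92) (nat_lit 5) (nat_lit 352) (nat_lit 303) (nat_lit 125)) (XT.lf (nat_lit 0) (nat_lit 23382600599) (nat_lit 380) (nat_lit 4974787069) (nat_lit 76) (nat_lit 6286548116) (nat_lit 87) (nat_lit 5) (nat_lit 92) (nat_lit 5) (nat_lit 88) (nat_lit 5) (nat_lit 353) (nat_lit 303) (nat_lit 124))))))) (XT.nd (nat_lit 1014) (nat_lit 1368) (nat_lit 0) (XT.nd (nat_lit 468) (nat_lit 836) (nat_lit 0) (XT.nd (nat_lit 234) (nat_lit 304) (nat_lit 0) (XT.nd (nat_lit 78) (nat_lit 380) (nat_lit 0) (XT.lf (nat_lit 0) (nat_lit 11673762918) (nat_lit 304) (nat_lit 17602344697) (nat_lit 380) (nat_lit 6054337954)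 (nat_lit 83) (nat_lit 5) (nat_lit 87) (nat_lit 5) (nat_lit 88) (nat_lit 5) (nat_lit 354) (nat_lit 303) (nat_lit 123)) (XT.nd (nat_lit 78) (nat_lit 380) (nat_lit 0) (XT.lf (nat_lit 0) (nat_lit 28919025638) (nat_lit 304) (nat_lit 6474240046) (nat_lit 380) (nat_lit 642882709) (nat_lit 83) (nat_lit 5) (nat_lit 87) (nat_lit 5) (nat_lit 88) (nat_lit 5) (nat_lit 355) (nat_lit 303) (nat_lit 122)) (XT.lf (nat_lit 0) (nat_lit 4977459942) (nat_lit 380) (nat_lit 26745224877) (nat_lit 76) (nat_lit 5034635543) (nat_lit 78) (nat_lit 5) (nat_lit 83) (nat_lit 5) (nat_lit 79) (nat_lit 5) (nat_lit 356) (nat_lit 303) (nat_lit 121)))) (XT.nd (nat_lit 78) (nat_lit 304) (nat_lit 0) (XT.lf (nat_lit 0) (nat_lit 10886886708) (nat_lit 380) (nat_lit 9772761508) (nat_lit 76) (nat_lit 16836289319) (nat_lit 78) (nat_lit 5) (nat_lit 83) (nat_lit 5) (nat_lit 79) (nat_lit 5) (nat_lit 357) (nat_lit 303) (nat_lit 120)) (XT.nd (nat_lit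 78) (nat_lit 0) (nat_lit 0) (XT.lf (nat_lit 0) (nat_lit 7857647281) (nat_lit 304) (nat_lit 9188290434) (nat_lit 380) (nat_lit 21208608038) (nat_lit 74) (nat_lit 5) (nat_lit 78) (nat_lit 5) (nat_lit 79) (nat_lit 5) (nat_lit 358) (nat_lit 303) (nat_lit 119)) (XT.lf (nat_lit 0) (nat_lit 23511522671) (nat_lit 380) (nat_lit 12846481215) (nat_lit 76) (nat_lit 2674258150) (nat_lit 74) (nat_lit 5) (nat_lit 79) (nat_lit 5) (nat_lit 75) (nat_lit 5) (nat_lit 359) (nat_lit 303) (nat_lit 118))))) (XT.nd (nat_lit 234) (nat_lit 228) (nat_lit 0) (XT.nd (nat_lit 78) (nat_lit 380) (nat_lit 0) (XT.lf (nat_lit 0) (nat_lit 5237207593) (nat_lit 228) (nat_lit 25072121155) (nat_lit 304) (nat_lit 9519836066) (nat_lit 71) (nat_lit 5) (nat_lit 74) (nat_lit 5) (nat_lit 75) (nat_lit 5) (nat_lit 360) (nat_lit 303) (nat_lit 117)) (XT.nd (nat_lit 78) (nat_lit 380) (nat_lit 0) (XT.lf (nat_lit 0) (nat_lit 24122326527) (nat_lit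 228) (nat_lit 13315450620) (nat_lit 304) (nat_lit 3208398820) (nat_lit 71) (nat_lit 5) (nat_lit 74) (nat_lit 5) (nat_lit 75) (nat_lit 5) (nat_lit 361) (nat_lit 303) (nat_lit 116)) (XT.lf (nat_lit 0) (nat_lit 2091104834) (nat_lit 304) (nat_lit 1154171776) (nat_lit 380) (nat_lit 38240959546) (nat_lit 66) (nat_lit 5) (nat_lit 70) (nat_lit 5) (nat_lit 71) (nat_lit 5) (nat_lit 362) (nat_lit 303) (nat_lit 115)))) (XT.nd (nat_lit 156) (nat_lit 228) (nat_lit 0) (XT.nd (nat_lit 78) (nat_lit 0) (nat_lit 0) (XT.lf (nat_lit 0) (nat_lit 10102972966) (nat_lit 380) (nat_lit 20890381446) (nat_lit 76) (nat_lit 11348946181) (nat_lit 66) (nat_lit 5) (nat_lit 71) (nat_lit 5) (nat_lit 67) (nat_lit 5) (nat_lit 363) (nat_lit 303) (nat_lit 114)) (XT.lf (nat_lit 0) (nat_lit 17174984610) (nat_lit 380) (nat_lit 1846175753) (nat_lit 76) (nat_lit 24202631323) (nat_lit 66) (nat_lit 5) (nat_lit 71) (nat_lit 5) (nat_lit 67)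 (nat_lit 5) (nat_lit 364) (nat_lit 303) (nat_lit 113))) (XT.nd (nat_lit 78) (nat_lit 0) (nat_lit 0) (XT.lf (nat_lit 0) (nat_lit 18118783659) (nat_lit 228) (nat_lit 6511781536) (nat_lit 304) (nat_lit 19496022247) (nat_lit 63) (nat_lit 5) (nat_lit 66) (nat_lit 5) (nat_lit 67) (nat_lit 5) (nat_lit 365) (nat_lit 303) (nat_lit 112)) (XT.lf (nat_lit 0) (nat_lit 32387168117) (nat_lit 304) (nat_lit 6400980851) (nat_lit 76) (nat_lit 6265999579) (nat_lit 63) (nat_lit 5) (nat_lit 67) (nat_lit 5) (nat_lit 64) (nat_lit 5) (nat_lit 366) (nat_lit 303) (nat_lit 111)))))) (XT.nd (nat_lit 546) (nat_lit 608) (nat_lit 0) (XT.nd (nat_lit 234) (nat_lit 228) (nat_lit 0) (XT.nd (nat_lit 78) (nat_lit 304) (nat_lit 0) (XT.lf (nat_lit 0) (nat_lit 13998694836) (nat_lit 228) (nat_lit 26574158553) (nat_lit 304) (nat_lit 5430793632) (nat_lit 60) (nat_lit 5) (nat_lit 63) (nat_lit 5) (nat_lit 64) (nat_lit 5) (nat_lit 367) (nat_lit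 303) (nat_lit 110)) (XT.nd (nat_lit 78) (nat_lit 228) (nat_lit 0) (XT.lf (nat_lit 0) (nat_lit 2045648344) (nat_lit 304) (nat_lit 11862256663) (nat_lit 76) (nat_lit 33071265083) (nat_lit 59) (nat_lit 5) (nat_lit 63) (nat_lit 5) (nat_lit 60) (nat_lit 5) (nat_lit 368) (nat_lit 303) (nat_lit 109)) (XT.lf (nat_lit 0) (nat_lit 9002683808) (nat_lit 228) (nat_lit 718520541) (nat_lit 304) (nat_lit 38258624054) (nat_lit 56) (nat_lit 5) (nat_lit 59) (nat_lit 5) (nat_lit 60) (nat_lit 5) (nat_lit 369) (nat_lit 303) (nat_lit 108)))) (XT.nd (nat_lit 156) (nat_lit 0) (nat_lit 0) (XT.nd (nat_lit 78) (nat_lit 228) (nat_lit 0) (XT.lf (nat_lit 0) (nat_lit 17869138700) (nat_lit 304) (nat_lit 18399009170) (nat_lit 76) (nat_lit 12735097077) (nat_lit 56) (nat_lit 5) (nat_lit 60) (nat_lit 5) (nat_lit 57) (nat_lit 5) (nat_lit 370) (nat_lit 303) (nat_lit 107)) (XT.lf (nat_lit 0) (nat_lit 2840942501) (nat_lit 228) (nat_lit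 23452524562) (nat_lit 304) (nat_lit 23762940024) (nat_lit 53) (nat_lit 5) (nat_lit 56) (nat_lit 5) (nat_lit 57) (nat_lit 5) (nat_lit 371) (nat_lit 303) (nat_lit 106))) (XT.nd (nat_lit 78) (nat_lit 0) (nat_lit 0) (XT.lf (nat_lit 0) (nat_lit 25091441355) (nat_lit 228) (nat_lit 10062446080) (nat_lit 304) (nat_lit 15981777520) (nat_lit 53) (nat_lit 5) (nat_lit 56) (nat_lit 5) (nat_lit 57) (nat_lit 5) (nat_lit 372) (nat_lit 303) (nat_lit 105)) (XT.lf (nat_lit 0) (nat_lit 44313595243) (nat_lit 304) (nat_lit 4277455607) (nat_lit 76) (nat_lit 3655247141) (nat_lit 53) (nat_lit 5) (nat_lit 57) (nat_lit 5) (nat_lit 54) (nat_lit 5) (nat_lit 373) (nat_lit 303) (nat_lit 104))))) (XT.nd (nat_lit 234) (nat_lit 152) (nat_lit 0) (XT.nd (nat_lit 78) (nat_lit 228) (nat_lit 0) (XT.lf (nat_lit 0) (nat_lit 627751243) (nat_lit 228) (nat_lit 34990133364) (nat_lit 76) (nat_lit 17763957104) (nat_lit 50) (nat_lit 5) (nat_lit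 53) (nat_lit 5) (nat_lit 51) (nat_lit 5) (nat_lit 374) (nat_lit 303) (nat_lit 103)) (XT.nd (nat_lit 78) (nat_lit 228) (nat_lit 0) (XT.lf (nat_lit 0) (nat_lit 9326904597) (nat_lit 228) (nat_lit 12804157778) (nat_lit 76) (nat_lit 32416794898) (nat_lit 50) (nat_lit 5) (nat_lit 53) (nat_lit 5) (nat_lit 51) (nat_lit 5) (nat_lit 375) (nat_lit 303) (nat_lit 102)) (XT.lf (nat_lit 0) (nat_lit 10243732447) (nat_lit 228) (nat_lit 8139539647) (nat_lit 304) (nat_lit 37362695510) (nat_lit 47) (nat_lit 5) (nat_lit 50) (nat_lit 5) (nat_lit 51) (nat_lit 5) (nat_lit 376) (nat_lit 303) (nat_lit 101)))) (XT.nd (nat_lit 156) (nat_lit 0) (nat_lit 0) (XT.nd (nat_lit 78) (nat_lit 152) (nat_lit 0) (XT.lf (nat_lit 0) (nat_lit 27899984245) (nat_lit 304) (nat_lit 22795754690) (nat_lit 76) (nat_lit 6278624149) (nat_lit 47) (nat_lit 5) (nat_lit 51) (nat_lit 5) (nat_lit 48) (nat_lit 5) (nat_lit 377) (nat_lit 303) (nat_lit 100))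 (XT.lf (nat_lit 0) (nat_lit 517965686) (nat_lit 152) (nat_lit 37267653859) (nat_lit 228) (nat_lit 20451489634) (nat_lit 45) (nat_lit 5) (nat_lit 47) (nat_lit 5) (nat_lit 48) (nat_lit 5) (nat_lit 378) (nat_lit 303) (nat_lit 99))) (XT.nd (nat_lit 78) (nat_lit 0) (nat_lit 0) (XT.lf (nat_lit 0) (nat_lit 24994949959) (nat_lit 152) (nat_lit 23200949126) (nat_lit 228) (nat_lit 11334997680) (nat_lit 45) (nat_lit 5) (nat_lit 47) (nat_lit 5) (nat_lit 48) (nat_lit 5) (nat_lit 379) (nat_lit 303) (nat_lit 98)) (XT.lf (nat_lit 0) (nat_lit 50202905569) (nat_lit 152) (nat_lit 8713525864) (nat_lit 228) (nat_lit 1947129536) (nat_lit 45) (nat_lit 5) (nat_lit 47) (nat_lit 5) (nat_lit 48) (nat_lit 5) (nat_lit 380) (nat_lit 303) (nat_lit 97))))))))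
noncomputable def xc204 : XT := (XT.nd (nat_lit 35568) (nat_lit 0) (nat_lit 6308) (XT.nd (nat_lit 1014) (nat_lit 228) (nat_lit 0) (XT.nd (nat_lit 468) (nat_lit 380) (nat_lit 0) (XT.nd (nat_lit 234) (nat_lit 152) (nat_lit 0) (XT.nd (nat_lit 78) (nat_lit 152) (nat_lit 0) (XT.lf (nat_lit 0) (nat_lit 7767231661) (nat_lit 304) (nat_lit 48162623348) (nat_lit 76) (nat_lit 6298257922) (nat_lit 41) (nat_lit 5) (nat_lit 45) (nat_lit 5) (nat_lit 42) (nat_lit 5) (nat_lit 381) (nat_lit 303) (nat_lit 96)) (XT.nd (nat_lit 78) (nat_lit 152) (nat_lit 0) (XT.lf (nat_lit 0) (nat_lit 17926877078) (nat_lit 304) (nat_lit 23988335836) (nat_lit 76) (nat_lit 21712021733) (nat_lit 41) (nat_lit 5) (nat_lit 45) (nat_lit 5) (nat_lit 42) (nat_lit 5) (nat_lit 382) (nat_lit 303) (nat_lit 95)) (XT.lf (nat_lit 0) (nat_lit 926047983) (nat_lit 152) (nat_lit 27472222556) (nat_lit 228) (nat_lit 36669851890) (nat_lit 39) (nat_lit 5)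 (nat_lit 41) (nat_lit 5) (nat_lit 42) (nat_lit 5) (nat_lit 383) (nat_lit 303) (nat_lit 94)))) (XT.nd (nat_lit 78) (nat_lit 152) (nat_lit 0) (XT.lf (nat_lit 0) (nat_lit 27076429236) (nat_lit 152) (nat_lit 12347694774) (nat_lit 228) (nat_lit 27120904430) (nat_lit 39) (nat_lit 5) (nat_lit 41) (nat_lit 5) (nat_lit 42) (nat_lit 5) (nat_lit 384) (nat_lit 303) (nat_lit 93)) (XT.nd (nat_lit 78) (nat_lit 152) (nat_lit 0) (XT.lf (nat_lit 0) (nat_lit 50809934466) (nat_lit 228) (nat_lit 14089098222) (nat_lit 76) (nat_lit 3166334612) (nat_lit 39) (nat_lit 5) (nat_lit 42) (nat_lit 5) (nat_lit 40) (nat_lit 5) (nat_lit 385) (nat_lit 303) (nat_lit 92)) (XT.lf (nat_lit 0) (nat_lit 12163860812) (nat_lit 152) (nat_lit 50610821022) (nat_lit 228) (nat_lit 6849514690) (nat_lit 37) (nat_lit 5) (nat_lit 39) (nat_lit 5) (nat_lit 40) (nat_lit 5) (nat_lit 386) (nat_lit 303) (nat_lit 91))))) (XT.nd (nat_lit 234) (nat_lit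 152) (nat_lit 0) (XT.nd (nat_lit 78) (nat_lit 152) (nat_lit 0) (XT.lf (nat_lit 0) (nat_lit 3934958974) (nat_lit 228) (nat_lit 31773937612) (nat_lit 76) (nat_lit 35515523401) (nat_lit 36) (nat_lit 5) (nat_lit 39) (nat_lit 5) (nat_lit 37) (nat_lit 5) (nat_lit 387) (nat_lit 303) (nat_lit 90)) (XT.nd (nat_lit 78) (nat_lit 152) (nat_lit 0) (XT.lf (nat_lit 0) (nat_lit 14903538212) (nat_lit 228) (nat_lit 5387716652) (nat_lit 76) (nat_lit 52579414569) (nat_lit 36) (nat_lit 5) (nat_lit 39) (nat_lit 5) (nat_lit 37) (nat_lit 5) (nat_lit 388) (nat_lit 303) (nat_lit 89)) (XT.lf (nat_lit 0) (nat_lit 22220833307) (nat_lit 152) (nat_lit 4192232858) (nat_lit 228) (nat_lit 48146884415) (nat_lit 34) (nat_lit 5) (nat_lit 36) (nat_lit 5) (nat_lit 37) (nat_lit 5) (nat_lit 389) (nat_lit 303) (nat_lit 88)))) (XT.nd (nat_lit 156) (nat_lit 0) (nat_lit 0) (XT.nd (nat_lit 78) (nat_lit 152) (nat_lit 0) (XT.lf (nat_lit 0)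 (nat_lit 38440224468) (nat_lit 228) (nat_lit 25652710418) (nat_lit 76) (nat_lit 12201805869) (nat_lit 34) (nat_lit 5) (nat_lit 37) (nat_lit 5) (nat_lit 35) (nat_lit 5) (nat_lit 390) (nat_lit 303) (nat_lit 87)) (XT.lf (nat_lit 0) (nat_lit 1825610997) (nat_lit 152) (nat_lit 49059994627) (nat_lit 228) (nat_lit 27194247670) (nat_lit 32) (nat_lit 5) (nat_lit 34) (nat_lit 5) (nat_lit 35) (nat_lit 5) (nat_lit 391) (nat_lit 303) (nat_lit 86))) (XT.nd (nat_lit 78) (nat_lit 0) (nat_lit 0) (XT.lf (nat_lit 0) (nat_lit 30651370232) (nat_lit 152) (nat_lit 33310393418) (nat_lit 228) (nat_lit 15949033970) (nat_lit 32) (nat_lit 5) (nat_lit 34) (nat_lit 5) (nat_lit 35) (nat_lit 5) (nat_lit 392) (nat_lit 303) (nat_lit 85)) (XT.lf (nat_lit 0) (nat_lit 60339215606) (nat_lit 152) (nat_lit 17089411549) (nat_lit 228) (nat_lit 4368091349) (nat_lit 32) (nat_lit 5) (nat_lit 34) (nat_lit 5) (nat_lit 35) (nat_lit 5) (nat_lit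 393) (nat_lit 303) (nat_lit 84)))))) (XT.nd (nat_lit 34008) (nat_lit 0) (nat_lit 12160) (XT.nd (nat_lit 33774) (nat_lit 0) (nat_lit 12008) (XT.nd (nat_lit 33618) (nat_lit 0) (nat_lit 12008) (XT.lf (nat_lit 0) (nat_lit 7244532189) (nat_lit 152) (nat_lit 236308696) (nat_lit 228) (nat_lit 76254154020) (nat_lit 29) (nat_lit 5) (nat_lit 31) (nat_lit 5) (nat_lit 32) (nat_lit 5) (nat_lit 394) (nat_lit 303) (nat_lit 83)) (XT.nd (nat_lit 78) (nat_lit 0) (nat_lit 0) (XT.lf (nat_lit 0) (nat_lit 55033996) (nat_lit 0) (nat_lit 55033996) (nat_lit 1140) (nat_lit 7501102422) (nat_lit 187) (nat_lit 5) (nat_lit 187) (nat_lit 3) (nat_lit 202) (nat_lit 3) (nat_lit 304) (nat_lit 304) (nat_lit 172)) (XT.lf (nat_lit 0) (nat_lit 562207061) (nat_lit 1140) (nat_lit 8365214354) (nat_lit 1216) (nat_lit 6512719646) (nat_lit 187) (nat_lit 5) (nat_lit 202) (nat_lit 3) (nat_lit 203) (nat_lit 5) (nat_lit 305) (nat_lit 304) (nat_lit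 171)))) (XT.nd (nat_lit 78) (nat_lit 0) (nat_lit 76) (XT.lf (nat_lit 0) (nat_lit 904952306) (nat_lit 1140) (nat_lit 1422586515) (nat_lit 1216) (nat_lit 13337238630) (nat_lit 187) (nat_lit 5) (nat_lit 202) (nat_lit 3) (nat_lit 203) (nat_lit 5) (nat_lit 306) (nat_lit 304) (nat_lit 170)) (XT.nd (nat_lit 78) (nat_lit 0) (nat_lit 0) (XT.lf (nat_lit 0) (nat_lit 1347291519) (nat_lit 1140) (nat_lit 10101739227) (nat_lit 1216) (nat_lit 4444456926) (nat_lit 188) (nat_lit 5) (nat_lit 203) (nat_lit 5) (nat_lit 204) (nat_lit 5) (nat_lit 307) (nat_lit 304) (nat_lit 169)) (XT.lf (nat_lit 0) (nat_lit 1830379552) (nat_lit 1140) (nat_lit 2906031949) (nat_lit 1216) (nat_lit 11391837016) (nat_lit 188) (nat_lit 5) (nat_lit 203) (nat_lit 5) (nat_lit 204) (nat_lit 5) (nat_lit 308) (nat_lit 304) (nat_lit 168))))) (XT.nd (nat_lit 234) (nat_lit 0) (nat_lit 76) (XT.nd (nat_lit 78) (nat_lit 0) (nat_lit 0) (XT.lf (nat_lit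 0) (nat_lit 2383703839) (nat_lit 1140) (nat_lit 11801061623) (nat_lit 1216) (nat_lit 2183627696) (nat_lit 189) (nat_lit 5) (nat_lit 204) (nat_lit 5) (nat_lit 205) (nat_lit 5) (nat_lit 309) (nat_lit 304) (nat_lit 167)) (XT.nd (nat_lit 78) (nat_lit 0) (nat_lit 0) (XT.lf (nat_lit 0) (nat_lit 3020646121) (nat_lit 1140) (nat_lit 4343581454) (nat_lit 1216) (nat_lit 9249516909) (nat_lit 189) (nat_lit 5) (nat_lit 204) (nat_lit 5) (nat_lit 205) (nat_lit 5) (nat_lit 310) (nat_lit 304) (nat_lit 166)) (XT.lf (nat_lit 76) (nat_lit 3398106501) (nat_lit 0) (nat_lit 302019246) (nat_lit 1216) (nat_lit 13165640247) (nat_lit 190) (nat_lit 5) (nat_lit 189) (nat_lit 5) (nat_lit 205) (nat_lit 5) (nat_lit 311) (nat_lit 304) (nat_lit 165)))) (XT.nd (nat_lit 156) (nat_lit 0) (nat_lit 76) (XT.nd (nat_lit 78) (nat_lit 0) (nat_lit 0) (XT.lf (nat_lit 0) (nat_lit 4502314569) (nat_lit 1140) (nat_lit 5736484864) (nat_lit 1216)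 (nat_lit 6883491125) (nat_lit 190) (nat_lit 5) (nat_lit 205) (nat_lit 5) (nat_lit 206) (nat_lit 5) (nat_lit 312) (nat_lit 304) (nat_lit 164)) (XT.lf (nat_lit 76) (nat_lit 2261866157) (nat_lit 0) (nat_lit 3082706713) (nat_lit 1216) (nat_lit 12041469673) (nat_lit 191) (nat_lit 5) (nat_lit 190) (nat_lit 5) (nat_lit 206) (nat_lit 5) (nat_lit 313) (nat_lit 304) (nat_lit 163))) (XT.nd (nat_lit 78) (nat_lit 0) (nat_lit 0) (XT.lf (nat_lit 0) (nat_lit 6303314148) (nat_lit 1140) (nat_lit 7086143310) (nat_lit 1216) (nat_lit 4265524626) (nat_lit 191) (nat_lit 5) (nat_lit 206) (nat_lit 5) (nat_lit 207) (nat_lit 5) (nat_lit 314) (nat_lit 304) (nat_lit 162)) (XT.lf (nat_lit 76) (nat_lit 1179564334) (nat_lit 0) (nat_lit 6144856497) (nat_lit 1216) (nat_lit 10606572009) (nat_lit 192) (nat_lit 5) (nat_lit 191) (nat_lit 5) (nat_lit 207) (nat_lit 5) (nat_lit 315) (nat_lit 304) (nat_lit 161))))))) (XT.nd (nat_lit 1014)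 (nat_lit 3268) (nat_lit 0) (XT.nd (nat_lit 468) (nat_lit 2812) (nat_lit 0) (XT.nd (nat_lit 234) (nat_lit 0) (nat_lit 76) (XT.nd (nat_lit 78) (nat_lit 0) (nat_lit 0) (XT.lf (nat_lit 0) (nat_lit 8453033185) (nat_lit 1140) (nat_lit 8394181650) (nat_lit 1216) (nat_lit 1365773705) (nat_lit 192) (nat_lit 5) (nat_lit 207) (nat_lit 5) (nat_lit 208) (nat_lit 5) (nat_lit 316) (nat_lit 304) (nat_lit 160)) (XT.nd (nat_lit 78) (nat_lit 0) (nat_lit 0) (XT.lf (nat_lit 76) (nat_lit 149869330) (nat_lit 0) (nat_lit 9520097163) (nat_lit 1216) (nat_lit 8831854223) (nat_lit 193) (nat_lit 5) (nat_lit 192) (nat_lit 5) (nat_lit 208) (nat_lit 5) (nat_lit 317) (nat_lit 304) (nat_lit 159)) (XT.lf (nat_lit 76) (nat_lit 9116375527) (nat_lit 0) (nat_lit 1884149462) (nat_lit 1216) (nat_lit 7796489531) (nat_lit 193) (nat_lit 5) (nat_lit 192) (nat_lit 5) (nat_lit 208) (nat_lit 5) (nat_lit 318) (nat_lit 304) (nat_lit 158)))) (XT.nd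 (nat_lit 78) (nat_lit 0) (nat_lit 0) (XT.lf (nat_lit 0) (nat_lit 12421083192) (nat_lit 1140) (nat_lit 812693481) (nat_lit 1216) (nat_lit 5865794858) (nat_lit 193) (nat_lit 5) (nat_lit 208) (nat_lit 5) (nat_lit 209) (nat_lit 5) (nat_lit 319) (nat_lit 304) (nat_lit 157)) (XT.nd (nat_lit 78) (nat_lit 0) (nat_lit 76) (XT.lf (nat_lit 76) (nat_lit 8461918734) (nat_lit 0) (nat_lit 5515142388) (nat_lit 1216) (nat_lit 5431369634) (nat_lit 194) (nat_lit 5) (nat_lit 193) (nat_lit 5) (nat_lit 209) (nat_lit 5) (nat_lit 320) (nat_lit 304) (nat_lit 156)) (XT.lf (nat_lit 0) (nat_lit 15604386366) (nat_lit 1140) (nat_lit 1724383832) (nat_lit 76) (nat_lit 2397054834) (nat_lit 194) (nat_lit 5) (nat_lit 209) (nat_lit 5) (nat_lit 195) (nat_lit 5) (nat_lit 321) (nat_lit 304) (nat_lit 155))))) (XT.nd (nat_lit 234) (nat_lit 1140) (nat_lit 0) (XT.nd (nat_lit 78) (nat_lit 684) (nat_lit 0) (XT.lf (nat_lit 0) (nat_lit 7867486456)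 (nat_lit 1140) (nat_lit 9536454956) (nat_lit 1216) (nat_lit 2645106465) (nat_lit 179) (nat_lit 5) (nat_lit 194) (nat_lit 5) (nat_lit 195) (nat_lit 5) (nat_lit 322) (nat_lit 304) (nat_lit 154)) (XT.nd (nat_lit 78) (nat_lit 684) (nat_lit 0) (XT.lf (nat_lit 0) (nat_lit 17776678905) (nat_lit 1140) (nat_lit 1491537815) (nat_lit 1216) (nat_lit 1113437460) (nat_lit 179) (nat_lit 5) (nat_lit 194) (nat_lit 5) (nat_lit 195) (nat_lit 5) (nat_lit 323) (nat_lit 304) (nat_lit 153)) (XT.lf (nat_lit 0) (nat_lit 585702686) (nat_lit 684) (nat_lit 13395291253) (nat_lit 76) (nat_lit 6739201778) (nat_lit 170) (nat_lit 5) (nat_lit 179) (nat_lit 5) (nat_lit 171) (nat_lit 5) (nat_lit 324) (nat_lit 304) (nat_lit 152)))) (XT.nd (nat_lit 156) (nat_lit 532) (nat_lit 0) (XT.nd (nat_lit 78) (nat_lit 608) (nat_lit 0) (XT.lf (nat_lit 0) (nat_lit 2348357234) (nat_lit 684) (nat_lit 3493980325) (nat_lit 76) (nat_lit 15225185677)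 (nat_lit 170) (nat_lit 5) (nat_lit 179) (nat_lit 5) (nat_lit 171) (nat_lit 5) (nat_lit 325) (nat_lit 304) (nat_lit 151)) (XT.lf (nat_lit 0) (nat_lit 4248412681) (nat_lit 684) (nat_lit 14616616451) (nat_lit 76) (nat_lit 2557713611) (nat_lit 162) (nat_lit 5) (nat_lit 171) (nat_lit 5) (nat_lit 163) (nat_lit 5) (nat_lit 326) (nat_lit 304) (nat_lit 150))) (XT.nd (nat_lit 78) (nat_lit 532) (nat_lit 0) (XT.lf (nat_lit 0) (nat_lit 6292850019) (nat_lit 684) (nat_lit 4364765596) (nat_lit 76) (nat_lit 11128389387) (nat_lit 162) (nat_lit 5) (nat_lit 171) (nat_lit 5) (nat_lit 163) (nat_lit 5) (nat_lit 327) (nat_lit 304) (nat_lit 149)) (XT.lf (nat_lit 0) (nat_lit 6312113578) (nat_lit 532) (nat_lit 2141263979) (nat_lit 608) (nat_lit 13705152210) (nat_lit 155) (nat_lit 5) (nat_lit 162) (nat_lit 5) (nat_lit 163) (nat_lit 5) (nat_lit 328) (nat_lit 304) (nat_lit 148)))))) (XT.nd (nat_lit 546) (nat_lit 1672) (nat_lit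 0) (XT.nd (nat_lit 234) (nat_lit 1064) (nat_lit 0) (XT.nd (nat_lit 78) (nat_lit 532) (nat_lit 0) (XT.lf (nat_lit 0) (nat_lit 10781170904) (nat_lit 608) (nat_lit 5212135104) (nat_lit 76) (nat_lit 6545857907) (nat_lit 155) (nat_lit 5) (nat_lit 163) (nat_lit 5) (nat_lit 156) (nat_lit 5) (nat_lit 329) (nat_lit 304) (nat_lit 147)) (XT.nd (nat_lit 78) (nat_lit 0) (nat_lit 0) (XT.lf (nat_lit 0) (nat_lit 5828043520) (nat_lit 532) (nat_lit 7422347632) (nat_lit 608) (nat_lit 9678685073) (nat_lit 148) (nat_lit 5) (nat_lit 155) (nat_lit 5) (nat_lit 156) (nat_lit 5) (nat_lit 330) (nat_lit 304) (nat_lit 146)) (XT.lf (nat_lit 0) (nat_lit 15854833413) (nat_lit 608) (nat_lit 6042642191) (nat_lit 76) (nat_lit 1431382666) (nat_lit 148) (nat_lit 5) (nat_lit 156) (nat_lit 5) (nat_lit 149) (nat_lit 5) (nat_lit 331) (nat_lit 304) (nat_lit 145)))) (XT.nd (nat_lit 156) (nat_lit 608) (nat_lit 0) (XT.nd (nat_lit 78) (nat_lit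 0) (nat_lit 0) (XT.lf (nat_lit 0) (nat_lit 5373258728) (nat_lit 456) (nat_lit 13283929776) (nat_lit 532) (nat_lit 5079858418) (nat_lit 142) (nat_lit 5) (nat_lit 148) (nat_lit 5) (nat_lit 149) (nat_lit 5) (nat_lit 332) (nat_lit 304) (nat_lit 144)) (XT.lf (nat_lit 0) (nat_lit 17249955511) (nat_lit 456) (nat_lit 4349420272) (nat_lit 532) (nat_lit 2556438947) (nat_lit 142) (nat_lit 5) (nat_lit 148) (nat_lit 5) (nat_lit 149) (nat_lit 5) (nat_lit 333) (nat_lit 304) (nat_lit 143))) (XT.nd (nat_lit 78) (nat_lit 0) (nat_lit 0) (XT.lf (nat_lit 0) (nat_lit 131756352) (nat_lit 608) (nat_lit 19645763067) (nat_lit 76) (nat_lit 4806922638) (nat_lit 134) (nat_lit 5) (nat_lit 142) (nat_lit 5) (nat_lit 135) (nat_lit 5) (nat_lit 334) (nat_lit 304) (nat_lit 142)) (XT.lf (nat_lit 0) (nat_lit 2957638868) (nat_lit 608) (nat_lit 7818381349) (nat_lit 76) (nat_lit 14245901755) (nat_lit 134) (nat_lit 5) (nat_lit 142) (nat_lit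 5) (nat_lit 135) (nat_lit 5) (nat_lit 335) (nat_lit 304) (nat_lit 141))))) (XT.nd (nat_lit 234) (nat_lit 760) (nat_lit 0) (XT.nd (nat_lit 78) (nat_lit 456) (nat_lit 0) (XT.lf (nat_lit 0) (nat_lit 4445128690) (nat_lit 456) (nat_lit 1460979623) (nat_lit 532) (nat_lit 19565289293) (nat_lit 128) (nat_lit 5) (nat_lit 134) (nat_lit 5) (nat_lit 135) (nat_lit 5) (nat_lit 336) (nat_lit 304) (nat_lit 140)) (XT.nd (nat_lit 78) (nat_lit 456) (nat_lit 0) (XT.lf (nat_lit 0) (nat_lit 9096115537) (nat_lit 532) (nat_lit 8779667101) (nat_lit 76) (nat_lit 8053987832) (nat_lit 128) (nat_lit 5) (nat_lit 135) (nat_lit 5) (nat_lit 129) (nat_lit 5) (nat_lit 337) (nat_lit 304) (nat_lit 139)) (XT.lf (nat_lit 0) (nat_lit 3890419346) (nat_lit 456) (nat_lit 8538574012) (nat_lit 532) (nat_lit 13971491361) (nat_lit 122) (nat_lit 5) (nat_lit 128) (nat_lit 5) (nat_lit 129) (nat_lit 5) (nat_lit 338) (nat_lit 304) (nat_lit 138))))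 (XT.nd (nat_lit 156) (nat_lit 380) (nat_lit 0) (XT.nd (nat_lit 78) (nat_lit 380) (nat_lit 0) (XT.lf (nat_lit 0) (nat_lit 15957149306) (nat_lit 532) (nat_lit 9778773471) (nat_lit 76) (nat_lit 1146544021) (nat_lit 122) (nat_lit 5) (nat_lit 129) (nat_lit 5) (nat_lit 123) (nat_lit 5) (nat_lit 339) (nat_lit 304) (nat_lit 137)) (XT.lf (nat_lit 0) (nat_lit 3309201640) (nat_lit 380) (nat_lit 16393820020) (nat_lit 456) (nat_lit 7672535536) (nat_lit 117) (nat_lit 5) (nat_lit 122) (nat_lit 5) (nat_lit 123) (nat_lit 5) (nat_lit 340) (nat_lit 304) (nat_lit 136))) (XT.nd (nat_lit 78) (nat_lit 380) (nat_lit 0) (XT.lf (nat_lit 0) (nat_lit 16985033481) (nat_lit 380) (nat_lit 6670584561) (nat_lit 456) (nat_lit 4224996688) (nat_lit 117) (nat_lit 5) (nat_lit 122) (nat_lit 5) (nat_lit 123) (nat_lit 5) (nat_lit 341) (nat_lit 304) (nat_lit 135)) (XT.lf (nat_lit 0) (nat_lit 2685359158) (nat_lit 380) (nat_lit 25095116091)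 (nat_lit 456) (nat_lit 618742972) (nat_lit 112) (nat_lit 5) (nat_lit 117) (nat_lit 5) (nat_lit 118) (nat_lit 5) (nat_lit 342) (nat_lit 304) (nat_lit 134))))))))
noncomputable def xc205 : XT := (XT.nd (nat_lit 2028) (nat_lit 2128) (nat_lit 0) (XT.nd (nat_lit 1014) (nat_lit 1748) (nat_lit 0) (XT.nd (nat_lit 468) (nat_lit 1368) (nat_lit 0) (XT.nd (nat_lit 234) (nat_lit 380) (nat_lit 0) (XT.nd (nat_lit 78) (nat_lit 380) (nat_lit 0) (XT.lf (nat_lit 0) (nat_lit 3208199483) (nat_lit 456) (nat_lit 12135143247) (nat_lit 76) (nat_lit 13583961523) (nat_lit 111) (nat_lit 5) (nat_lit 117) (nat_lit 5) (nat_lit 112) (nat_lit 5) (nat_lit 343) (nat_lit 304) (nat_lit 133)) (XT.nd (nat_lit 78) (nat_lit 0) (nat_lit 0) (XT.lf (nat_lit 0) (nat_lit 1876326445) (nat_lit 380) (nat_lit 5275098421) (nat_lit 456) (nat_lit 22319211209) (nat_lit 106) (nat_lit 5) (nat_lit 111) (nat_lit 5) (nat_lit 112) (nat_lit 5) (nat_lit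 344) (nat_lit 304) (nat_lit 132)) (XT.lf (nat_lit 0) (nat_lit 11381616071) (nat_lit 456) (nat_lit 13525045888) (nat_lit 76) (nat_lit 5118550015) (nat_lit 106) (nat_lit 5) (nat_lit 112) (nat_lit 5) (nat_lit 107) (nat_lit 5) (nat_lit 345) (nat_lit 304) (nat_lit 131)))) (XT.nd (nat_lit 78) (nat_lit 0) (nat_lit 0) (XT.lf (nat_lit 0) (nat_lit 927147754) (nat_lit 380) (nat_lit 14868761131) (nat_lit 456) (nat_lit 14798804459) (nat_lit 101) (nat_lit 5) (nat_lit 106) (nat_lit 5) (nat_lit 107) (nat_lit 5) (nat_lit 346) (nat_lit 304) (nat_lit 130)) (XT.nd (nat_lit 78) (nat_lit 0) (nat_lit 0) (XT.lf (nat_lit 0) (nat_lit 16085195212) (nat_lit 380) (nat_lit 4390133790) (nat_lit 456) (nat_lit 10701993751) (nat_lit 101) (nat_lit 5) (nat_lit 106) (nat_lit 5) (nat_lit 107) (nat_lit 5) (nat_lit 347) (nat_lit 304) (nat_lit 129)) (XT.lf (nat_lit 0) (nat_lit 25352904761) (nat_lit 456) (nat_lit 145898797) (nat_lit 76)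 (nat_lit 6276877531) (nat_lit 101) (nat_lit 5) (nat_lit 107) (nat_lit 5) (nat_lit 102) (nat_lit 5) (nat_lit 348) (nat_lit 304) (nat_lit 128))))) (XT.nd (nat_lit 234) (nat_lit 608) (nat_lit 0) (XT.nd (nat_lit 78) (nat_lit 456) (nat_lit 0) (XT.lf (nat_lit 0) (nat_lit 15502988393) (nat_lit 304) (nat_lit 15062645138) (nat_lit 380) (nat_lit 1820695599) (nat_lit 97) (nat_lit 5) (nat_lit 101) (nat_lit 5) (nat_lit 102) (nat_lit 5) (nat_lit 349) (nat_lit 304) (nat_lit 127)) (XT.nd (nat_lit 78) (nat_lit 380) (nat_lit 0) (XT.lf (nat_lit 0) (nat_lit 2860323368) (nat_lit 380) (nat_lit 1423807566) (nat_lit 76) (nat_lit 28730391939) (nat_lit 96) (nat_lit 5) (nat_lit 101) (nat_lit 5) (nat_lit 97) (nat_lit 5) (nat_lit 350) (nat_lit 304) (nat_lit 126)) (XT.lf (nat_lit 0) (nat_lit 7850680382) (nat_lit 456) (nat_lit 18959050394) (nat_lit 76) (nat_lit 6845129214) (nat_lit 91) (nat_lit 5) (nat_lit 97) (nat_lit 5) (nat_lit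 92) (nat_lit 5) (nat_lit 351) (nat_lit 304) (nat_lit 125)))) (XT.nd (nat_lit 156) (nat_lit 304) (nat_lit 0) (XT.nd (nat_lit 78) (nat_lit 304) (nat_lit 0) (XT.lf (nat_lit 0) (nat_lit 13044195803) (nat_lit 456) (nat_lit 3033054247) (nat_lit 76) (nat_lit 18235557047) (nat_lit 91) (nat_lit 5) (nat_lit 97) (nat_lit 5) (nat_lit 92) (nat_lit 5) (nat_lit 352) (nat_lit 304) (nat_lit 124)) (XT.lf (nat_lit 0) (nat_lit 13632150844) (nat_lit 304) (nat_lit 4889018593) (nat_lit 380) (nat_lit 16465496813) (nat_lit 87) (nat_lit 5) (nat_lit 91) (nat_lit 5) (nat_lit 92) (nat_lit 5) (nat_lit 353) (nat_lit 304) (nat_lit 123))) (XT.nd (nat_lit 78) (nat_lit 304) (nat_lit 0) (XT.lf (nat_lit 0) (nat_lit 24253817397) (nat_lit 380) (nat_lit 4889047073) (nat_lit 76) (nat_lit 6535138875) (nat_lit 87) (nat_lit 5) (nat_lit 92) (nat_lit 5) (nat_lit 88) (nat_lit 5) (nat_lit 354) (nat_lit 304) (nat_lit 122)) (XT.lf (nat_lit 0)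 (nat_lit 12256655653) (nat_lit 304) (nat_lit 18064766783) (nat_lit 380) (nat_lit 6063771814) (nat_lit 83) (nat_lit 5) (nat_lit 87) (nat_lit 5) (nat_lit 88) (nat_lit 5) (nat_lit 355) (nat_lit 304) (nat_lit 121)))))) (XT.nd (nat_lit 468) (nat_lit 836) (nat_lit 0) (XT.nd (nat_lit 234) (nat_lit 532) (nat_lit 0) (XT.nd (nat_lit 78) (nat_lit 380) (nat_lit 0) (XT.lf (nat_lit 0) (nat_lit 30012499171) (nat_lit 304) (nat_lit 6604731077) (nat_lit 380) (nat_lit 494988338) (nat_lit 83) (nat_lit 5) (nat_lit 87) (nat_lit 5) (nat_lit 88) (nat_lit 5) (nat_lit 356) (nat_lit 304) (nat_lit 120)) (XT.nd (nat_lit 78) (nat_lit 0) (nat_lit 0) (XT.lf (nat_lit 0) (nat_lit 5288742508) (nat_lit 380) (nat_lit 27316171168) (nat_lit 76) (nat_lit 5250126841) (nat_lit 78) (nat_lit 5) (nat_lit 83) (nat_lit 5) (nat_lit 79) (nat_lit 5) (nat_lit 357) (nat_lit 304) (nat_lit 119)) (XT.lf (nat_lit 0) (nat_lit 11370734831) (nat_lit 380)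 (nat_lit 9841274009) (nat_lit 76) (nat_lit 17403952982) (nat_lit 78) (nat_lit 5) (nat_lit 83) (nat_lit 5) (nat_lit 79) (nat_lit 5) (nat_lit 358) (nat_lit 304) (nat_lit 118)))) (XT.nd (nat_lit 78) (nat_lit 228) (nat_lit 0) (XT.lf (nat_lit 0) (nat_lit 8315844394) (nat_lit 304) (nat_lit 9396271620) (nat_lit 380) (nat_lit 21685289491) (nat_lit 74) (nat_lit 5) (nat_lit 78) (nat_lit 5) (nat_lit 79) (nat_lit 5) (nat_lit 359) (nat_lit 304) (nat_lit 117)) (XT.nd (nat_lit 78) (nat_lit 228) (nat_lit 0) (XT.lf (nat_lit 0) (nat_lit 24367791292) (nat_lit 380) (nat_lit 13011881619) (nat_lit 76) (nat_lit 2818900545) (nat_lit 74) (nat_lit 5) (nat_lit 79) (nat_lit 5) (nat_lit 75) (nat_lit 5) (nat_lit 360) (nat_lit 304) (nat_lit 116)) (XT.lf (nat_lit 0) (nat_lit 5612161049) (nat_lit 228) (nat_lit 25755068673) (nat_lit 304) (nat_lit 9652226400) (nat_lit 71) (nat_lit 5) (nat_lit 74) (nat_lit 5) (nat_lit 75) (nat_lit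 5) (nat_lit 361) (nat_lit 304) (nat_lit 115))))) (XT.nd (nat_lit 234) (nat_lit 456) (nat_lit 0) (XT.nd (nat_lit 78) (nat_lit 380) (nat_lit 0) (XT.lf (nat_lit 0) (nat_lit 25057488778) (nat_lit 228) (nat_lit 13647714025) (nat_lit 304) (nat_lit 3155908310) (nat_lit 71) (nat_lit 5) (nat_lit 74) (nat_lit 5) (nat_lit 75) (nat_lit 5) (nat_lit 362) (nat_lit 304) (nat_lit 114)) (XT.nd (nat_lit 78) (nat_lit 0) (nat_lit 0) (XT.lf (nat_lit 0) (nat_lit 2366247696) (nat_lit 304) (nat_lit 1120021231) (nat_lit 380) (nat_lit 39240130898) (nat_lit 66) (nat_lit 5) (nat_lit 70) (nat_lit 5) (nat_lit 71) (nat_lit 5) (nat_lit 363) (nat_lit 304) (nat_lit 113)) (XT.lf (nat_lit 0) (nat_lit 10546154517) (nat_lit 380) (nat_lit 21307217142) (nat_lit 76) (nat_lit 11754884117) (nat_lit 66) (nat_lit 5) (nat_lit 71) (nat_lit 5) (nat_lit 67) (nat_lit 5) (nat_lit 364) (nat_lit 304) (nat_lit 112)))) (XT.nd (nat_lit 156) (nat_lit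 228) (nat_lit 0) (XT.nd (nat_lit 78) (nat_lit 228) (nat_lit 0) (XT.lf (nat_lit 0) (nat_lit 17826246150) (nat_lit 380) (nat_lit 1697798164) (nat_lit 76) (nat_lit 24992272934) (nat_lit 66) (nat_lit 5) (nat_lit 71) (nat_lit 5) (nat_lit 67) (nat_lit 5) (nat_lit 365) (nat_lit 304) (nat_lit 111)) (XT.lf (nat_lit 0) (nat_lit 18864112354) (nat_lit 228) (nat_lit 6639359773) (nat_lit 304) (nat_lit 19942788549) (nat_lit 63) (nat_lit 5) (nat_lit 66) (nat_lit 5) (nat_lit 67) (nat_lit 5) (nat_lit 366) (nat_lit 304) (nat_lit 110))) (XT.nd (nat_lit 78) (nat_lit 228) (nat_lit 0) (XT.lf (nat_lit 0) (nat_lit 33489503039) (nat_lit 304) (nat_lit 6393750008) (nat_lit 76) (nat_lit 6518496721) (nat_lit 63) (nat_lit 5) (nat_lit 67) (nat_lit 5) (nat_lit 64) (nat_lit 5) (nat_lit 367) (nat_lit 304) (nat_lit 109)) (XT.lf (nat_lit 0) (nat_lit 14615962417) (nat_lit 228) (nat_lit 27302885709) (nat_lit 304) (nat_lit 5460945352)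 (nat_lit 60) (nat_lit 5) (nat_lit 63) (nat_lit 5) (nat_lit 64) (nat_lit 5) (nat_lit 368) (nat_lit 304) (nat_lit 108))))))) (XT.nd (nat_lit 1014) (nat_lit 988) (nat_lit 0) (XT.nd (nat_lit 468) (nat_lit 608) (nat_lit 0) (XT.nd (nat_lit 234) (nat_lit 228) (nat_lit 0) (XT.nd (nat_lit 78) (nat_lit 228) (nat_lit 0) (XT.lf (nat_lit 0) (nat_lit 2233407335) (nat_lit 304) (nat_lit 12023956011) (nat_lit 76) (nat_lit 34127297147) (nat_lit 59) (nat_lit 5) (nat_lit 63) (nat_lit 5) (nat_lit 60) (nat_lit 5) (nat_lit 369) (nat_lit 304) (nat_lit 107)) (XT.nd (nat_lit 78) (nat_lit 0) (nat_lit 0) (XT.lf (nat_lit 0) (nat_lit 9465029063) (nat_lit 228) (nat_lit 672367875) (nat_lit 304) (nat_lit 39277999319) (nat_lit 56) (nat_lit 5) (nat_lit 59) (nat_lit 5) (nat_lit 60) (nat_lit 5) (nat_lit 370) (nat_lit 304) (nat_lit 106)) (XT.lf (nat_lit 0) (nat_lit 18526773358) (nat_lit 304) (nat_lit 18761231012) (nat_lit 76) (nat_lit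 13181603436) (nat_lit 56) (nat_lit 5) (nat_lit 60) (nat_lit 5) (nat_lit 57) (nat_lit 5) (nat_lit 371) (nat_lit 304) (nat_lit 105)))) (XT.nd (nat_lit 78) (nat_lit 0) (nat_lit 0) (XT.lf (nat_lit 0) (nat_lit 3114058931) (nat_lit 228) (nat_lit 24088038141) (nat_lit 304) (nat_lit 24352322329) (nat_lit 53) (nat_lit 5) (nat_lit 56) (nat_lit 5) (nat_lit 57) (nat_lit 5) (nat_lit 372) (nat_lit 304) (nat_lit 104)) (XT.nd (nat_lit 78) (nat_lit 0) (nat_lit 0) (XT.lf (nat_lit 0) (nat_lit 26026600280) (nat_lit 228) (nat_lit 10298239697) (nat_lit 304) (nat_lit 16341322209) (nat_lit 53) (nat_lit 5) (nat_lit 56) (nat_lit 5) (nat_lit 57) (nat_lit 5) (nat_lit 373) (nat_lit 304) (nat_lit 103)) (XT.lf (nat_lit 0) (nat_lit 45756567292) (nat_lit 304) (nat_lit 4225824709) (nat_lit 76) (nat_lit 3827807770) (nat_lit 53) (nat_lit 5) (nat_lit 57) (nat_lit 5) (nat_lit 54) (nat_lit 5) (nat_lit 374) (nat_lit 304) (nat_lit 102)))))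 (XT.nd (nat_lit 234) (nat_lit 152) (nat_lit 0) (XT.nd (nat_lit 78) (nat_lit 228) (nat_lit 0) (XT.lf (nat_lit 0) (nat_lit 759738137) (nat_lit 228) (nat_lit 35859319436) (nat_lit 76) (nat_lit 18360769130) (nat_lit 50) (nat_lit 5) (nat_lit 53) (nat_lit 5) (nat_lit 51) (nat_lit 5) (nat_lit 375) (nat_lit 304) (nat_lit 101)) (XT.nd (nat_lit 78) (nat_lit 228) (nat_lit 0) (XT.lf (nat_lit 0) (nat_lit 9716570333) (nat_lit 228) (nat_lit 13013022385) (nat_lit 76) (nat_lit 33451331087) (nat_lit 50) (nat_lit 5) (nat_lit 53) (nat_lit 5) (nat_lit 51) (nat_lit 5) (nat_lit 376) (nat_lit 304) (nat_lit 100)) (XT.lf (nat_lit 0) (nat_lit 10724586310) (nat_lit 228) (nat_lit 8318510971) (nat_lit 304) (nat_lit 38371928253) (nat_lit 47) (nat_lit 5) (nat_lit 50) (nat_lit 5) (nat_lit 51) (nat_lit 5) (nat_lit 377) (nat_lit 304) (nat_lit 99)))) (XT.nd (nat_lit 156) (nat_lit 0) (nat_lit 0) (XT.nd (nat_lit 78) (nat_lit 152)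 (nat_lit 0) (XT.lf (nat_lit 0) (nat_lit 28842764266) (nat_lit 304) (nat_lit 23308524319) (nat_lit 76) (nat_lit 6529062765) (nat_lit 47) (nat_lit 5) (nat_lit 51) (nat_lit 5) (nat_lit 48) (nat_lit 5) (nat_lit 378) (nat_lit 304) (nat_lit 98)) (XT.lf (nat_lit 0) (nat_lit 702930187) (nat_lit 152) (nat_lit 38320586074) (nat_lit 228) (nat_lit 20957509152) (nat_lit 45) (nat_lit 5) (nat_lit 47) (nat_lit 5) (nat_lit 48) (nat_lit 5) (nat_lit 379) (nat_lit 304) (nat_lit 97))) (XT.nd (nat_lit 78) (nat_lit 0) (nat_lit 0) (XT.lf (nat_lit 0) (nat_lit 25909289265) (nat_lit 152) (nat_lit 23833776240) (nat_lit 228) (nat_lit 11570654241) (nat_lit 45) (nat_lit 5) (nat_lit 47) (nat_lit 5) (nat_lit 48) (nat_lit 5) (nat_lit 380) (nat_lit 304) (nat_lit 96)) (XT.lf (nat_lit 0) (nat_lit 51868692549) (nat_lit 152) (nat_lit 8913571097) (nat_lit 228) (nat_lit 1904190636) (nat_lit 45) (nat_lit 5) (nat_lit 47) (nat_lit 5) (nat_lit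 48) (nat_lit 5) (nat_lit 381) (nat_lit 304) (nat_lit 95)))))) (XT.nd (nat_lit 546) (nat_lit 304) (nat_lit 0) (XT.nd (nat_lit 234) (nat_lit 228) (nat_lit 0) (XT.nd (nat_lit 78) (nat_lit 152) (nat_lit 0) (XT.lf (nat_lit 0) (nat_lit 8098865976) (nat_lit 304) (nat_lit 49444945620) (nat_lit 76) (nat_lit 6548126501) (nat_lit 41) (nat_lit 5) (nat_lit 45) (nat_lit 5) (nat_lit 42) (nat_lit 5) (nat_lit 382) (nat_lit 304) (nat_lit 94)) (XT.nd (nat_lit 78) (nat_lit 152) (nat_lit 0) (XT.lf (nat_lit 0) (nat_lit 18560428405) (nat_lit 304) (nat_lit 24550164135) (nat_lit 76) (nat_lit 22422528832) (nat_lit 41) (nat_lit 5) (nat_lit 45) (nat_lit 5) (nat_lit 42) (nat_lit 5) (nat_lit 383) (nat_lit 304) (nat_lit 93)) (XT.lf (nat_lit 0) (nat_lit 1110103926) (nat_lit 152) (nat_lit 28234573260) (nat_lit 228) (nat_lit 37672598885) (nat_lit 39) (nat_lit 5) (nat_lit 41) (nat_lit 5) (nat_lit 42) (nat_lit 5) (nat_lit 384) (nat_lit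 304) (nat_lit 92)))) (XT.nd (nat_lit 156) (nat_lit 228) (nat_lit 0) (XT.nd (nat_lit 78) (nat_lit 0) (nat_lit 0) (XT.lf (nat_lit 0) (nat_lit 28040444932) (nat_lit 152) (nat_lit 12658110110) (nat_lit 228) (nat_lit 27840018396) (nat_lit 39) (nat_lit 5) (nat_lit 41) (nat_lit 5) (nat_lit 42) (nat_lit 5) (nat_lit 385) (nat_lit 304) (nat_lit 91)) (XT.lf (nat_lit 0) (nat_lit 52423828828) (nat_lit 228) (nat_lit 14362303432) (nat_lit 76) (nat_lit 3318455125) (nat_lit 39) (nat_lit 5) (nat_lit 42) (nat_lit 5) (nat_lit 40) (nat_lit 5) (nat_lit 386) (nat_lit 304) (nat_lit 90))) (XT.nd (nat_lit 78) (nat_lit 76) (nat_lit 0) (XT.lf (nat_lit 0) (nat_lit 12676779003) (nat_lit 152) (nat_lit 52069552701) (nat_lit 228) (nat_lit 6963886934) (nat_lit 37) (nat_lit 5) (nat_lit 39) (nat_lit 5) (nat_lit 40) (nat_lit 5) (nat_lit 387) (nat_lit 304) (nat_lit 89)) (XT.lf (nat_lit 0) (nat_lit 4139740996) (nat_lit 228) (nat_lit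 32581689417) (nat_lit 76) (nat_lit 36637071632) (nat_lit 36) (nat_lit 5) (nat_lit 39) (nat_lit 5) (nat_lit 37) (nat_lit 5) (nat_lit 388) (nat_lit 304) (nat_lit 88))))) (XT.nd (nat_lit 234) (nat_lit 152) (nat_lit 0) (XT.nd (nat_lit 78) (nat_lit 152) (nat_lit 0) (XT.lf (nat_lit 0) (nat_lit 15434851400) (nat_lit 228) (nat_lit 5408118711) (nat_lit 76) (nat_lit 54211246064) (nat_lit 36) (nat_lit 5) (nat_lit 39) (nat_lit 5) (nat_lit 37) (nat_lit 5) (nat_lit 389) (nat_lit 304) (nat_lit 87)) (XT.nd (nat_lit 78) (nat_lit 0) (nat_lit 0) (XT.lf (nat_lit 0) (nat_lit 23027303144) (nat_lit 152) (nat_lit 4261253690) (nat_lit 228) (nat_lit 49505653546) (nat_lit 34) (nat_lit 5) (nat_lit 36) (nat_lit 5) (nat_lit 37) (nat_lit 5) (nat_lit 390) (nat_lit 304) (nat_lit 86)) (XT.lf (nat_lit 0) (nat_lit 39674639127) (nat_lit 228) (nat_lit 26284584861) (nat_lit 76) (nat_lit 12621878328) (nat_lit 34) (nat_lit 5) (nat_lit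 37) (nat_lit 5) (nat_lit 35) (nat_lit 5) (nat_lit 391) (nat_lit 304) (nat_lit 85)))) (XT.nd (nat_lit 33852) (nat_lit 0) (nat_lit 11780) (XT.nd (nat_lit 78) (nat_lit 0) (nat_lit 0) (XT.lf (nat_lit 0) (nat_lit 2016736129) (nat_lit 152) (nat_lit 50475591053) (nat_lit 228) (nat_lit 27927473978) (nat_lit 32) (nat_lit 5) (nat_lit 34) (nat_lit 5) (nat_lit 35) (nat_lit 5) (nat_lit 392) (nat_lit 304) (nat_lit 84)) (XT.lf (nat_lit 0) (nat_lit 31703296584) (nat_lit 152) (nat_lit 34255138801) (nat_lit 228) (nat_lit 16347309725) (nat_lit 32) (nat_lit 5) (nat_lit 34) (nat_lit 5) (nat_lit 35) (nat_lit 5) (nat_lit 393) (nat_lit 304) (nat_lit 83))) (XT.nd (nat_lit 78) (nat_lit 0) (nat_lit 0) (XT.lf (nat_lit 0) (nat_lit 192823094) (nat_lit 0) (nat_lit 192823094) (nat_lit 1140) (nat_lit 7445322820) (nat_lit 187) (nat_lit 5) (nat_lit 187) (nat_lit 3) (nat_lit 202) (nat_lit 3) (nat_lit 305) (nat_lit 305) (nat_lit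 170)) (XT.lf (nat_lit 0) (nat_lit 1105223784) (nat_lit 1140) (nat_lit 8332708184) (nat_lit 1216) (nat_lit 6448913792) (nat_lit 187) (nat_lit 5) (nat_lit 202) (nat_lit 3) (nat_lit 203) (nat_lit 5) (nat_lit 306) (nat_lit 305) (nat_lit 169))))))))
noncomputable def xc206 : XT := (XT.nd (nat_lit 2028) (nat_lit 5320) (nat_lit 0) (XT.nd (nat_lit 1014) (nat_lit 2964) (nat_lit 0) (XT.nd (nat_lit 468) (nat_lit 0) (nat_lit 228) (XT.nd (nat_lit 234) (nat_lit 0) (nat_lit 152) (XT.nd (nat_lit 78) (nat_lit 0) (nat_lit 76) (XT.lf (nat_lit 0) (nat_lit 1442926614) (nat_lit 1140) (nat_lit 1190057701) (nat_lit 1216) (nat_lit 13485717494) (nat_lit 187) (nat_lit 5) (nat_lit 202) (nat_lit 3) (nat_lit 203) (nat_lit 5) (nat_lit 307) (nat_lit 305) (nat_lit 168)) (XT.nd (nat_lit 78) (nat_lit 0) (nat_lit 0) (XT.lf (nat_lit 0) (nat_lit 1884104087) (nat_lit 1140) (nat_lit 10114479105) (nat_lit 1216) (nat_lit 4356143321) (nat_lit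 188) (nat_lit 5) (nat_lit 203) (nat_lit 5) (nat_lit 204) (nat_lit 5) (nat_lit 308) (nat_lit 305) (nat_lit 167)) (XT.lf (nat_lit 0) (nat_lit 2367226688) (nat_lit 1140) (nat_lit 2711356307) (nat_lit 1216) (nat_lit 11518400561) (nat_lit 188) (nat_lit 5) (nat_lit 203) (nat_lit 5) (nat_lit 204) (nat_lit 5) (nat_lit 309) (nat_lit 305) (nat_lit 166)))) (XT.nd (nat_lit 78) (nat_lit 0) (nat_lit 0) (XT.lf (nat_lit 0) (nat_lit 2923955854) (nat_lit 1140) (nat_lit 11859406736) (nat_lit 1216) (nat_lit 2061384852) (nat_lit 189) (nat_lit 5) (nat_lit 204) (nat_lit 5) (nat_lit 205) (nat_lit 5) (nat_lit 310) (nat_lit 305) (nat_lit 165)) (XT.nd (nat_lit 78) (nat_lit 0) (nat_lit 0) (XT.lf (nat_lit 0) (nat_lit 3566353756) (nat_lit 1140) (nat_lit 4186814397) (nat_lit 1216) (nat_lit 9344719237) (nat_lit 189) (nat_lit 5) (nat_lit 204) (nat_lit 5) (nat_lit 205) (nat_lit 5) (nat_lit 311) (nat_lit 305) (nat_lit 164)) (XT.lf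 (nat_lit 76) (nat_lit 3784309741) (nat_lit 0) (nat_lit 471385514) (nat_lit 1216) (nat_lit 13102107930) (nat_lit 190) (nat_lit 5) (nat_lit 189) (nat_lit 5) (nat_lit 205) (nat_lit 5) (nat_lit 312) (nat_lit 305) (nat_lit 163))))) (XT.nd (nat_lit 234) (nat_lit 0) (nat_lit 76) (XT.nd (nat_lit 78) (nat_lit 0) (nat_lit 0) (XT.lf (nat_lit 0) (nat_lit 5067505152) (nat_lit 1140) (nat_lit 5617572817) (nat_lit 1216) (nat_lit 6937396296) (nat_lit 190) (nat_lit 5) (nat_lit 205) (nat_lit 5) (nat_lit 206) (nat_lit 5) (nat_lit 313) (nat_lit 305) (nat_lit 162)) (XT.nd (nat_lit 78) (nat_lit 0) (nat_lit 76) (XT.lf (nat_lit 76) (nat_lit 2617875729) (nat_lit 0) (nat_lit 3307397580) (nat_lit 1216) (nat_lit 11969175170) (nat_lit 191) (nat_lit 5) (nat_lit 190) (nat_lit 5) (nat_lit 206) (nat_lit 5) (nat_lit 314) (nat_lit 305) (nat_lit 161)) (XT.lf (nat_lit 0) (nat_lit 6899299372) (nat_lit 1140) (nat_lit 7004941389) (nat_lit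 1216) (nat_lit 4267636211) (nat_lit 191) (nat_lit 5) (nat_lit 206) (nat_lit 5) (nat_lit 207) (nat_lit 5) (nat_lit 315) (nat_lit 305) (nat_lit 160)))) (XT.nd (nat_lit 156) (nat_lit 0) (nat_lit 76) (XT.nd (nat_lit 78) (nat_lit 0) (nat_lit 76) (XT.lf (nat_lit 76) (nat_lit 1505857227) (nat_lit 0) (nat_lit 6436127350) (nat_lit 1216) (nat_lit 10514471072) (nat_lit 192) (nat_lit 5) (nat_lit 191) (nat_lit 5) (nat_lit 207) (nat_lit 5) (nat_lit 316) (nat_lit 305) (nat_lit 159)) (XT.lf (nat_lit 0) (nat_lit 9091870095) (nat_lit 1140) (nat_lit 8350472372) (nat_lit 1216) (nat_lit 1304961806) (nat_lit 192) (nat_lit 5) (nat_lit 207) (nat_lit 5) (nat_lit 208) (nat_lit 5) (nat_lit 317) (nat_lit 305) (nat_lit 158))) (XT.nd (nat_lit 78) (nat_lit 0) (nat_lit 0) (XT.lf (nat_lit 76) (nat_lit 447002738) (nat_lit 0) (nat_lit 9889900919) (nat_lit 1216) (nat_lit 8708165036) (nat_lit 193) (nat_lit 5) (nat_lit 192) (nat_lit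 5) (nat_lit 208) (nat_lit 5) (nat_lit 318) (nat_lit 305) (nat_lit 157)) (XT.lf (nat_lit 76) (nat_lit 9673980703) (nat_lit 0) (nat_lit 2022422336) (nat_lit 1216) (nat_lit 7653059155) (nat_lit 193) (nat_lit 5) (nat_lit 192) (nat_lit 5) (nat_lit 208) (nat_lit 5) (nat_lit 319) (nat_lit 305) (nat_lit 156)))))) (XT.nd (nat_lit 468) (nat_lit 1672) (nat_lit 0) (XT.nd (nat_lit 234) (nat_lit 1748) (nat_lit 0) (XT.nd (nat_lit 78) (nat_lit 0) (nat_lit 0) (XT.lf (nat_lit 0) (nat_lit 13148158876) (nat_lit 1140) (nat_lit 549343715) (nat_lit 1216) (nat_lit 5963950079) (nat_lit 193) (nat_lit 5) (nat_lit 208) (nat_lit 5) (nat_lit 209) (nat_lit 5) (nat_lit 320) (nat_lit 305) (nat_lit 155)) (XT.nd (nat_lit 78) (nat_lit 0) (nat_lit 76) (XT.lf (nat_lit 76) (nat_lit 9000685979) (nat_lit 0) (nat_lit 5742545304) (nat_lit 1216) (nat_lit 5236587702) (nat_lit 194) (nat_lit 5) (nat_lit 193) (nat_lit 5) (nat_lit 209) (nat_lit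 5) (nat_lit 321) (nat_lit 305) (nat_lit 154)) (XT.lf (nat_lit 0) (nat_lit 16408695470) (nat_lit 1140) (nat_lit 1488377615) (nat_lit 76) (nat_lit 2409995796) (nat_lit 194) (nat_lit 5) (nat_lit 209) (nat_lit 5) (nat_lit 195) (nat_lit 5) (nat_lit 322) (nat_lit 305) (nat_lit 153)))) (XT.nd (nat_lit 78) (nat_lit 684) (nat_lit 0) (XT.lf (nat_lit 0) (nat_lit 8388427823) (nat_lit 1140) (nat_lit 9866756561) (nat_lit 1216) (nat_lit 2385028589) (nat_lit 179) (nat_lit 5) (nat_lit 194) (nat_lit 5) (nat_lit 195) (nat_lit 5) (nat_lit 323) (nat_lit 305) (nat_lit 152)) (XT.nd (nat_lit 78) (nat_lit 684) (nat_lit 0) (XT.lf (nat_lit 0) (nat_lit 18586597499) (nat_lit 1140) (nat_lit 1579204294) (nat_lit 1216) (nat_lit 817295855) (nat_lit 179) (nat_lit 5) (nat_lit 194) (nat_lit 5) (nat_lit 195) (nat_lit 5) (nat_lit 324) (nat_lit 305) (nat_lit 151)) (XT.lf (nat_lit 0) (nat_lit 919331448) (nat_lit 684) (nat_lit 13506241063)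 (nat_lit 76) (nat_lit 6906351458) (nat_lit 170) (nat_lit 5) (nat_lit 179) (nat_lit 5) (nat_lit 171) (nat_lit 5) (nat_lit 325) (nat_lit 305) (nat_lit 150))))) (XT.nd (nat_lit 234) (nat_lit 1064) (nat_lit 0) (XT.nd (nat_lit 78) (nat_lit 608) (nat_lit 0) (XT.lf (nat_lit 0) (nat_lit 2725660069) (nat_lit 684) (nat_lit 3316363883) (nat_lit 76) (nat_lit 15647935060) (nat_lit 170) (nat_lit 5) (nat_lit 179) (nat_lit 5) (nat_lit 171) (nat_lit 5) (nat_lit 326) (nat_lit 305) (nat_lit 149)) (XT.nd (nat_lit 78) (nat_lit 0) (nat_lit 0) (XT.lf (nat_lit 0) (nat_lit 4676266817) (nat_lit 684) (nat_lit 14765855567) (nat_lit 76) (nat_lit 2613917425) (nat_lit 162) (nat_lit 5) (nat_lit 171) (nat_lit 5) (nat_lit 163) (nat_lit 5) (nat_lit 327) (nat_lit 305) (nat_lit 148)) (XT.lf (nat_lit 0) (nat_lit 6773287709) (nat_lit 684) (nat_lit 4214874217) (nat_lit 76) (nat_lit 11442311365) (nat_lit 162) (nat_lit 5) (nat_lit 171)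 (nat_lit 5) (nat_lit 163) (nat_lit 5) (nat_lit 328) (nat_lit 305) (nat_lit 147)))) (XT.nd (nat_lit 156) (nat_lit 532) (nat_lit 0) (XT.nd (nat_lit 78) (nat_lit 0) (nat_lit 0) (XT.lf (nat_lit 0) (nat_lit 6779558054) (nat_lit 532) (nat_lit 2213251381) (nat_lit 608) (nat_lit 13821549566) (nat_lit 155) (nat_lit 5) (nat_lit 162) (nat_lit 5) (nat_lit 163) (nat_lit 5) (nat_lit 329) (nat_lit 305) (nat_lit 146)) (XT.lf (nat_lit 0) (nat_lit 11382039098) (nat_lit 608) (nat_lit 5089778555) (nat_lit 76) (nat_lit 6734856691) (nat_lit 155) (nat_lit 5) (nat_lit 163) (nat_lit 5) (nat_lit 156) (nat_lit 5) (nat_lit 330) (nat_lit 305) (nat_lit 145))) (XT.nd (nat_lit 78) (nat_lit 0) (nat_lit 0) (XT.lf (nat_lit 0) (nat_lit 6278872873) (nat_lit 532) (nat_lit 7641035471) (nat_lit 608) (nat_lit 9688548453) (nat_lit 148) (nat_lit 5) (nat_lit 155) (nat_lit 5) (nat_lit 156) (nat_lit 5) (nat_lit 331) (nat_lit 305) (nat_lit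 144)) (XT.lf (nat_lit 0) (nat_lit 16594598552) (nat_lit 608) (nat_lit 5947764682) (nat_lit 76) (nat_lit 1478115286) (nat_lit 148) (nat_lit 5) (nat_lit 156) (nat_lit 5) (nat_lit 149) (nat_lit 5) (nat_lit 332) (nat_lit 305) (nat_lit 143))))))) (XT.nd (nat_lit 1014) (nat_lit 2128) (nat_lit 0) (XT.nd (nat_lit 468) (nat_lit 1672) (nat_lit 0) (XT.nd (nat_lit 234) (nat_lit 456) (nat_lit 0) (XT.nd (nat_lit 78) (nat_lit 608) (nat_lit 0) (XT.lf (nat_lit 0) (nat_lit 5807905846) (nat_lit 456) (nat_lit 13668054194) (nat_lit 532) (nat_lit 4965114096) (nat_lit 142) (nat_lit 5) (nat_lit 148) (nat_lit 5) (nat_lit 149) (nat_lit 5) (nat_lit 333) (nat_lit 305) (nat_lit 142)) (XT.nd (nat_lit 78) (nat_lit 608) (nat_lit 0) (XT.lf (nat_lit 0) (nat_lit 18032938988) (nat_lit 456) (nat_lit 4465928632) (nat_lit 532) (nat_lit 2373772820) (nat_lit 142) (nat_lit 5) (nat_lit 148) (nat_lit 5) (nat_lit 149) (nat_lit 5) (nat_lit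 334) (nat_lit 305) (nat_lit 141)) (XT.lf (nat_lit 0) (nat_lit 385358424) (nat_lit 608) (nat_lit 19959360658) (nat_lit 76) (nat_lit 4969480757) (nat_lit 134) (nat_lit 5) (nat_lit 142) (nat_lit 5) (nat_lit 135) (nat_lit 5) (nat_lit 335) (nat_lit 305) (nat_lit 140)))) (XT.nd (nat_lit 78) (nat_lit 456) (nat_lit 0) (XT.lf (nat_lit 0) (nat_lit 3288746074) (nat_lit 608) (nat_lit 7785189779) (nat_lit 76) (nat_lit 14691094769) (nat_lit 134) (nat_lit 5) (nat_lit 142) (nat_lit 5) (nat_lit 135) (nat_lit 5) (nat_lit 336) (nat_lit 305) (nat_lit 139)) (XT.nd (nat_lit 78) (nat_lit 0) (nat_lit 0) (XT.lf (nat_lit 0) (nat_lit 4843600631) (nat_lit 456) (nat_lit 1477557895) (nat_lit 532) (nat_lit 19906975419) (nat_lit 128) (nat_lit 5) (nat_lit 134) (nat_lit 5) (nat_lit 135) (nat_lit 5) (nat_lit 337) (nat_lit 305) (nat_lit 138)) (XT.lf (nat_lit 0) (nat_lit 9600192127) (nat_lit 532) (nat_lit 8778725351) (nat_lit 76)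 (nat_lit 8321548583) (nat_lit 128) (nat_lit 5) (nat_lit 135) (nat_lit 5) (nat_lit 129) (nat_lit 5) (nat_lit 338) (nat_lit 305) (nat_lit 137))))) (XT.nd (nat_lit 234) (nat_lit 836) (nat_lit 0) (XT.nd (nat_lit 78) (nat_lit 380) (nat_lit 0) (XT.lf (nat_lit 0) (nat_lit 4268872201) (nat_lit 456) (nat_lit 8759966309) (nat_lit 532) (nat_lit 14156597385) (nat_lit 122) (nat_lit 5) (nat_lit 128) (nat_lit 5) (nat_lit 129) (nat_lit 5) (nat_lit 339) (nat_lit 305) (nat_lit 136)) (XT.nd (nat_lit 78) (nat_lit 380) (nat_lit 0) (XT.lf (nat_lit 0) (nat_lit 16656552652) (nat_lit 532) (nat_lit 9811486715) (nat_lit 76) (nat_lit 1214034065) (nat_lit 122) (nat_lit 5) (nat_lit 129) (nat_lit 5) (nat_lit 123) (nat_lit 5) (nat_lit 340) (nat_lit 305) (nat_lit 135)) (XT.lf (nat_lit 0) (nat_lit 3666572258) (nat_lit 380) (nat_lit 16844282051) (nat_lit 456) (nat_lit 7679227824) (nat_lit 117) (nat_lit 5) (nat_lit 122) (nat_lit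 5) (nat_lit 123) (nat_lit 5) (nat_lit 341) (nat_lit 305) (nat_lit 134)))) (XT.nd (nat_lit 156) (nat_lit 456) (nat_lit 0) (XT.nd (nat_lit 78) (nat_lit 380) (nat_lit 0) (XT.lf (nat_lit 0) (nat_lit 17745161737) (nat_lit 380) (nat_lit 6830553972) (nat_lit 456) (nat_lit 4134772047) (nat_lit 117) (nat_lit 5) (nat_lit 122) (nat_lit 5) (nat_lit 123) (nat_lit 5) (nat_lit 342) (nat_lit 305) (nat_lit 133)) (XT.lf (nat_lit 0) (nat_lit 3020139645) (nat_lit 380) (nat_lit 25800868386) (nat_lit 456) (nat_lit 423747412) (nat_lit 112) (nat_lit 5) (nat_lit 117) (nat_lit 5) (nat_lit 118) (nat_lit 5) (nat_lit 343) (nat_lit 305) (nat_lit 132))) (XT.nd (nat_lit 78) (nat_lit 380) (nat_lit 0) (XT.lf (nat_lit 0) (nat_lit 3507737280) (nat_lit 456) (nat_lit 12248123574) (nat_lit 76) (nat_lit 14032950962) (nat_lit 111) (nat_lit 5) (nat_lit 117) (nat_lit 5) (nat_lit 112) (nat_lit 5) (nat_lit 344) (nat_lit 305) (nat_lit 131))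 (XT.lf (nat_lit 0) (nat_lit 2181228699) (nat_lit 380) (nat_lit 5384499421) (nat_lit 456) (nat_lit 22782827612) (nat_lit 106) (nat_lit 5) (nat_lit 111) (nat_lit 5) (nat_lit 112) (nat_lit 5) (nat_lit 345) (nat_lit 305) (nat_lit 130)))))) (XT.nd (nat_lit 546) (nat_lit 988) (nat_lit 0) (XT.nd (nat_lit 234) (nat_lit 760) (nat_lit 0) (XT.nd (nat_lit 78) (nat_lit 380) (nat_lit 0) (XT.lf (nat_lit 0) (nat_lit 11917462710) (nat_lit 456) (nat_lit 13683863001) (nat_lit 76) (nat_lit 5318610084) (nat_lit 106) (nat_lit 5) (nat_lit 112) (nat_lit 5) (nat_lit 107) (nat_lit 5) (nat_lit 346) (nat_lit 305) (nat_lit 129)) (XT.nd (nat_lit 78) (nat_lit 0) (nat_lit 0) (XT.lf (nat_lit 0) (nat_lit 1199475527) (nat_lit 380) (nat_lit 15261397112) (nat_lit 456) (nat_lit 15045754761) (nat_lit 101) (nat_lit 5) (nat_lit 106) (nat_lit 5) (nat_lit 107) (nat_lit 5) (nat_lit 347) (nat_lit 305) (nat_lit 128)) (XT.lf (nat_lit 0) (nat_lit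 16805142661) (nat_lit 380) (nat_lit 4469967072) (nat_lit 456) (nat_lit 10831777998) (nat_lit 101) (nat_lit 5) (nat_lit 106) (nat_lit 5) (nat_lit 107) (nat_lit 5) (nat_lit 348) (nat_lit 305) (nat_lit 127)))) (XT.nd (nat_lit 156) (nat_lit 456) (nat_lit 0) (XT.nd (nat_lit 78) (nat_lit 0) (nat_lit 0) (XT.lf (nat_lit 0) (nat_lit 87002240) (nat_lit 304) (nat_lit 26207927413) (nat_lit 380) (nat_lit 6428395165) (nat_lit 97) (nat_lit 5) (nat_lit 101) (nat_lit 5) (nat_lit 102) (nat_lit 5) (nat_lit 349) (nat_lit 305) (nat_lit 126)) (XT.lf (nat_lit 0) (nat_lit 16201348709) (nat_lit 304) (nat_lit 15458837363) (nat_lit 380) (nat_lit 1692227201) (nat_lit 97) (nat_lit 5) (nat_lit 101) (nat_lit 5) (nat_lit 102) (nat_lit 5) (nat_lit 350) (nat_lit 305) (nat_lit 125))) (XT.nd (nat_lit 78) (nat_lit 380) (nat_lit 0) (XT.lf (nat_lit 0) (nat_lit 3120420968) (nat_lit 380) (nat_lit 1236408755) (nat_lit 76) (nat_lit 29642732207)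 (nat_lit 96) (nat_lit 5) (nat_lit 101) (nat_lit 5) (nat_lit 97) (nat_lit 5) (nat_lit 351) (nat_lit 305) (nat_lit 124)) (XT.lf (nat_lit 0) (nat_lit 8258145327) (nat_lit 456) (nat_lit 19295202403) (nat_lit 76) (nat_lit 7105836622) (nat_lit 91) (nat_lit 5) (nat_lit 97) (nat_lit 5) (nat_lit 92) (nat_lit 5) (nat_lit 352) (nat_lit 305) (nat_lit 123))))) (XT.nd (nat_lit 234) (nat_lit 684) (nat_lit 0) (XT.nd (nat_lit 78) (nat_lit 304) (nat_lit 0) (XT.lf (nat_lit 0) (nat_lit 13602458118) (nat_lit 456) (nat_lit 2898201697) (nat_lit 76) (nat_lit 18836365051) (nat_lit 91) (nat_lit 5) (nat_lit 97) (nat_lit 5) (nat_lit 92) (nat_lit 5) (nat_lit 353) (nat_lit 305) (nat_lit 122)) (XT.nd (nat_lit 78) (nat_lit 0) (nat_lit 0) (XT.lf (nat_lit 0) (nat_lit 14264745388) (nat_lit 304) (nat_lit 4976283015) (nat_lit 380) (nat_lit 16790157380) (nat_lit 87) (nat_lit 5) (nat_lit 91) (nat_lit 5) (nat_lit 92) (nat_lit 5) (nat_lit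 354) (nat_lit 305) (nat_lit 121)) (XT.lf (nat_lit 0) (nat_lit 25141426998) (nat_lit 380) (nat_lit 4814223897) (nat_lit 76) (nat_lit 6787743437) (nat_lit 87) (nat_lit 5) (nat_lit 92) (nat_lit 5) (nat_lit 88) (nat_lit 5) (nat_lit 355) (nat_lit 305) (nat_lit 120)))) (XT.nd (nat_lit 156) (nat_lit 380) (nat_lit 0) (XT.nd (nat_lit 78) (nat_lit 0) (nat_lit 0) (XT.lf (nat_lit 0) (nat_lit 12843678395) (nat_lit 304) (nat_lit 18544830011) (nat_lit 380) (nat_lit 6083373461) (nat_lit 83) (nat_lit 5) (nat_lit 87) (nat_lit 5) (nat_lit 88) (nat_lit 5) (nat_lit 356) (nat_lit 305) (nat_lit 119)) (XT.lf (nat_lit 0) (nat_lit 31125809168) (nat_lit 304) (nat_lit 6742795557) (nat_lit 380) (nat_lit 352254000) (nat_lit 83) (nat_lit 5) (nat_lit 87) (nat_lit 5) (nat_lit 88) (nat_lit 5) (nat_lit 357) (nat_lit 305) (nat_lit 118))) (XT.nd (nat_lit 78) (nat_lit 0) (nat_lit 0) (XT.lf (nat_lit 0) (nat_lit 5600066455) (nat_lit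 380) (nat_lit 27917529755) (nat_lit 76) (nat_lit 5468383057) (nat_lit 78) (nat_lit 5) (nat_lit 83) (nat_lit 5) (nat_lit 79) (nat_lit 5) (nat_lit 358) (nat_lit 305) (nat_lit 117)) (XT.lf (nat_lit 0) (nat_lit 11860072091) (nat_lit 380) (nat_lit 9924738881) (nat_lit 76) (nat_lit 17985054494) (nat_lit 78) (nat_lit 5) (nat_lit 83) (nat_lit 5) (nat_lit 79) (nat_lit 5) (nat_lit 359) (nat_lit 305) (nat_lit 116))))))))
noncomputable def xc207 : XT := (XT.nd (nat_lit 2106) (nat_lit 532) (nat_lit 0) (XT.nd (nat_lit 1014) (nat_lit 1292) (nat_lit 0) (XT.nd (nat_lit 468) (nat_lit 760) (nat_lit 0) (XT.nd (nat_lit 234) (nat_lit 380) (nat_lit 0) (XT.nd (nat_lit 78) (nat_lit 228) (nat_lit 0) (XT.lf (nat_lit 0) (nat_lit 8775016864) (nat_lit 304) (nat_lit 9614376634) (nat_lit 380) (nat_lit 22185431748) (nat_lit 74) (nat_lit 5) (nat_lit 78) (nat_lit 5) (nat_lit 79) (nat_lit 5) (nat_lit 360) (nat_lit 305) (nat_lit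 115)) (XT.nd (nat_lit 78) (nat_lit 228) (nat_lit 0) (XT.lf (nat_lit 0) (nat_lit 25241084377) (nat_lit 380) (nat_lit 13194872592) (nat_lit 76) (nat_lit 2964184547) (nat_lit 74) (nat_lit 5) (nat_lit 79) (nat_lit 5) (nat_lit 75) (nat_lit 5) (nat_lit 361) (nat_lit 305) (nat_lit 114)) (XT.lf (nat_lit 0) (nat_lit 5985858360) (nat_lit 228) (nat_lit 26462477905) (nat_lit 304) (nat_lit 9797383023) (nat_lit 71) (nat_lit 5) (nat_lit 74) (nat_lit 5) (nat_lit 75) (nat_lit 5) (nat_lit 362) (nat_lit 305) (nat_lit 113)))) (XT.nd (nat_lit 78) (nat_lit 380) (nat_lit 0) (XT.lf (nat_lit 0) (nat_lit 26008565364) (nat_lit 228) (nat_lit 13993802894) (nat_lit 304) (nat_lit 3110381512) (nat_lit 71) (nat_lit 5) (nat_lit 74) (nat_lit 5) (nat_lit 75) (nat_lit 5) (nat_lit 363) (nat_lit 305) (nat_lit 112)) (XT.nd (nat_lit 78) (nat_lit 0) (nat_lit 0) (XT.lf (nat_lit 0) (nat_lit 2637451657) (nat_lit 304) (nat_lit 1088794176)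 (nat_lit 380) (nat_lit 40277776492) (nat_lit 66) (nat_lit 5) (nat_lit 70) (nat_lit 5) (nat_lit 71) (nat_lit 5) (nat_lit 364) (nat_lit 305) (nat_lit 111)) (XT.lf (nat_lit 0) (nat_lit 10994589640) (nat_lit 380) (nat_lit 21748605636) (nat_lit 76) (nat_lit 12169241971) (nat_lit 66) (nat_lit 5) (nat_lit 71) (nat_lit 5) (nat_lit 67) (nat_lit 5) (nat_lit 365) (nat_lit 305) (nat_lit 110))))) (XT.nd (nat_lit 234) (nat_lit 532) (nat_lit 0) (XT.nd (nat_lit 78) (nat_lit 228) (nat_lit 0) (XT.lf (nat_lit 0) (nat_lit 18489237891) (nat_lit 380) (nat_lit 1556666070) (nat_lit 76) (nat_lit 25801955035) (nat_lit 66) (nat_lit 5) (nat_lit 71) (nat_lit 5) (nat_lit 67) (nat_lit 5) (nat_lit 366) (nat_lit 305) (nat_lit 109)) (XT.nd (nat_lit 78) (nat_lit 0) (nat_lit 0) (XT.lf (nat_lit 0) (nat_lit 19620218764) (nat_lit 228) (nat_lit 6774655933) (nat_lit 304) (nat_lit 20410886170) (nat_lit 63) (nat_lit 5) (nat_lit 66) (nat_lit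 5) (nat_lit 67) (nat_lit 5) (nat_lit 367) (nat_lit 305) (nat_lit 108)) (XT.lf (nat_lit 0) (nat_lit 34617404152) (nat_lit 304) (nat_lit 6397740594) (nat_lit 76) (nat_lit 6774865230) (nat_lit 63) (nat_lit 5) (nat_lit 67) (nat_lit 5) (nat_lit 64) (nat_lit 5) (nat_lit 368) (nat_lit 305) (nat_lit 107)))) (XT.nd (nat_lit 156) (nat_lit 228) (nat_lit 0) (XT.nd (nat_lit 78) (nat_lit 76) (nat_lit 0) (XT.lf (nat_lit 0) (nat_lit 15240421812) (nat_lit 228) (nat_lit 28057406722) (nat_lit 304) (nat_lit 5499623285) (nat_lit 60) (nat_lit 5) (nat_lit 63) (nat_lit 5) (nat_lit 64) (nat_lit 5) (nat_lit 369) (nat_lit 305) (nat_lit 106)) (XT.lf (nat_lit 0) (nat_lit 2419543820) (nat_lit 304) (nat_lit 12201652396) (nat_lit 76) (nat_lit 35211342389) (nat_lit 59) (nat_lit 5) (nat_lit 63) (nat_lit 5) (nat_lit 60) (nat_lit 5) (nat_lit 370) (nat_lit 305) (nat_lit 105))) (XT.nd (nat_lit 78) (nat_lit 0) (nat_lit 0) (XT.lf (nat_lit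 0) (nat_lit 9930207893) (nat_lit 228) (nat_lit 628717361) (nat_lit 304) (nat_lit 40335325577) (nat_lit 56) (nat_lit 5) (nat_lit 59) (nat_lit 5) (nat_lit 60) (nat_lit 5) (nat_lit 371) (nat_lit 305) (nat_lit 104)) (XT.lf (nat_lit 0) (nat_lit 19197158986) (nat_lit 304) (nat_lit 19145211846) (nat_lit 76) (nat_lit 13637805094) (nat_lit 56) (nat_lit 5) (nat_lit 60) (nat_lit 5) (nat_lit 57) (nat_lit 5) (nat_lit 372) (nat_lit 305) (nat_lit 103)))))) (XT.nd (nat_lit 546) (nat_lit 608) (nat_lit 0) (XT.nd (nat_lit 234) (nat_lit 456) (nat_lit 0) (XT.nd (nat_lit 78) (nat_lit 0) (nat_lit 0) (XT.lf (nat_lit 0) (nat_lit 3384583304) (nat_lit 228) (nat_lit 24746524172) (nat_lit 304) (nat_lit 24966475845) (nat_lit 53) (nat_lit 5) (nat_lit 56) (nat_lit 5) (nat_lit 57) (nat_lit 5) (nat_lit 373) (nat_lit 305) (nat_lit 102)) (XT.nd (nat_lit 78) (nat_lit 0) (nat_lit 0) (XT.lf (nat_lit 0) (nat_lit 26979342565) (nat_lit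 228) (nat_lit 10544900371) (nat_lit 304) (nat_lit 16718536484) (nat_lit 53) (nat_lit 5) (nat_lit 56) (nat_lit 5) (nat_lit 57) (nat_lit 5) (nat_lit 374) (nat_lit 305) (nat_lit 101)) (XT.lf (nat_lit 0) (nat_lit 47236309453) (nat_lit 304) (nat_lit 4182975011) (nat_lit 76) (nat_lit 4001934317) (nat_lit 53) (nat_lit 5) (nat_lit 57) (nat_lit 5) (nat_lit 54) (nat_lit 5) (nat_lit 375) (nat_lit 305) (nat_lit 100)))) (XT.nd (nat_lit 156) (nat_lit 228) (nat_lit 0) (XT.nd (nat_lit 78) (nat_lit 0) (nat_lit 0) (XT.lf (nat_lit 0) (nat_lit 889189114) (nat_lit 228) (nat_lit 36764943557) (nat_lit 76) (nat_lit 18971817780) (nat_lit 50) (nat_lit 5) (nat_lit 53) (nat_lit 5) (nat_lit 51) (nat_lit 5) (nat_lit 376) (nat_lit 305) (nat_lit 99)) (XT.lf (nat_lit 0) (nat_lit 10111619709) (nat_lit 228) (nat_lit 13238213580) (nat_lit 76) (nat_lit 34513342453) (nat_lit 50) (nat_lit 5) (nat_lit 53) (nat_lit 5) (nat_lit 51) (nat_lit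 5) (nat_lit 377) (nat_lit 305) (nat_lit 98))) (XT.nd (nat_lit 78) (nat_lit 0) (nat_lit 0) (XT.lf (nat_lit 0) (nat_lit 11209903774) (nat_lit 228) (nat_lit 8506595035) (nat_lit 304) (nat_lit 39417847037) (nat_lit 47) (nat_lit 5) (nat_lit 50) (nat_lit 5) (nat_lit 51) (nat_lit 5) (nat_lit 378) (nat_lit 305) (nat_lit 97)) (XT.lf (nat_lit 0) (nat_lit 29807755456) (nat_lit 304) (nat_lit 23846499049) (nat_lit 76) (nat_lit 6783450899) (nat_lit 47) (nat_lit 5) (nat_lit 51) (nat_lit 5) (nat_lit 48) (nat_lit 5) (nat_lit 379) (nat_lit 305) (nat_lit 96))))) (XT.nd (nat_lit 234) (nat_lit 456) (nat_lit 0) (XT.nd (nat_lit 78) (nat_lit 0) (nat_lit 0) (XT.lf (nat_lit 0) (nat_lit 883717906) (nat_lit 152) (nat_lit 39408843114) (nat_lit 228) (nat_lit 21484881641) (nat_lit 45) (nat_lit 5) (nat_lit 47) (nat_lit 5) (nat_lit 48) (nat_lit 5) (nat_lit 380) (nat_lit 305) (nat_lit 95)) (XT.nd (nat_lit 78) (nat_lit 0) (nat_lit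 0) (XT.lf (nat_lit 0) (nat_lit 26841616304) (nat_lit 152) (nat_lit 24489216184) (nat_lit 228) (nat_lit 11819373106) (nat_lit 45) (nat_lit 5) (nat_lit 47) (nat_lit 5) (nat_lit 48) (nat_lit 5) (nat_lit 381) (nat_lit 305) (nat_lit 94)) (XT.lf (nat_lit 0) (nat_lit 53575285715) (nat_lit 152) (nat_lit 9123140033) (nat_lit 228) (nat_lit 1865781634) (nat_lit 45) (nat_lit 5) (nat_lit 47) (nat_lit 5) (nat_lit 48) (nat_lit 5) (nat_lit 382) (nat_lit 305) (nat_lit 93)))) (XT.nd (nat_lit 156) (nat_lit 152) (nat_lit 0) (XT.nd (nat_lit 78) (nat_lit 0) (nat_lit 0) (XT.lf (nat_lit 0) (nat_lit 8434788280) (nat_lit 304) (nat_lit 50775068963) (nat_lit 76) (nat_lit 6801994031) (nat_lit 41) (nat_lit 5) (nat_lit 45) (nat_lit 5) (nat_lit 42) (nat_lit 5) (nat_lit 383) (nat_lit 305) (nat_lit 92)) (XT.lf (nat_lit 0) (nat_lit 19207490116) (nat_lit 304) (nat_lit 25137906899) (nat_lit 76) (nat_lit 23150955896) (nat_lit 41)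 (nat_lit 5) (nat_lit 45) (nat_lit 5) (nat_lit 42) (nat_lit 5) (nat_lit 384) (nat_lit 305) (nat_lit 91))) (XT.nd (nat_lit 78) (nat_lit 0) (nat_lit 0) (XT.lf (nat_lit 0) (nat_lit 1290710752) (nat_lit 152) (nat_lit 29023342975) (nat_lit 228) (nat_lit 38711016495) (nat_lit 39) (nat_lit 5) (nat_lit 41) (nat_lit 5) (nat_lit 42) (nat_lit 5) (nat_lit 385) (nat_lit 305) (nat_lit 90)) (XT.lf (nat_lit 0) (nat_lit 29024671588) (nat_lit 152) (nat_lit 12981283042) (nat_lit 228) (nat_lit 28586131224) (nat_lit 39) (nat_lit 5) (nat_lit 41) (nat_lit 5) (nat_lit 42) (nat_lit 5) (nat_lit 386) (nat_lit 305) (nat_lit 89))))))) (XT.nd (nat_lit 34788) (nat_lit 0) (nat_lit 11172) (XT.nd (nat_lit 468) (nat_lit 152) (nat_lit 0) (XT.nd (nat_lit 234) (nat_lit 152) (nat_lit 0) (XT.nd (nat_lit 78) (nat_lit 228) (nat_lit 0) (XT.lf (nat_lit 0) (nat_lit 54080996824) (nat_lit 228) (nat_lit 14652284858) (nat_lit 76) (nat_lit 3471859730)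 (nat_lit 39) (nat_lit 5) (nat_lit 42) (nat_lit 5) (nat_lit 40) (nat_lit 5) (nat_lit 387) (nat_lit 305) (nat_lit 88)) (XT.nd (nat_lit 78) (nat_lit 76) (nat_lit 0) (XT.lf (nat_lit 0) (nat_lit 13196588798) (nat_lit 152) (nat_lit 53575467210) (nat_lit 228) (nat_lit 7086920615) (nat_lit 37) (nat_lit 5) (nat_lit 39) (nat_lit 5) (nat_lit 40) (nat_lit 5) (nat_lit 388) (nat_lit 305) (nat_lit 87)) (XT.lf (nat_lit 0) (nat_lit 4345687635) (nat_lit 228) (nat_lit 33422024139) (nat_lit 76) (nat_lit 37789046943) (nat_lit 36) (nat_lit 5) (nat_lit 39) (nat_lit 5) (nat_lit 37) (nat_lit 5) (nat_lit 389) (nat_lit 305) (nat_lit 86)))) (XT.nd (nat_lit 78) (nat_lit 152) (nat_lit 0) (XT.lf (nat_lit 0) (nat_lit 15977270155) (nat_lit 228) (nat_lit 5437239981) (nat_lit 76) (nat_lit 55888906905) (nat_lit 36) (nat_lit 5) (nat_lit 39) (nat_lit 5) (nat_lit 37) (nat_lit 5) (nat_lit 390) (nat_lit 305) (nat_lit 85)) (XT.nd (nat_lit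 78) (nat_lit 0) (nat_lit 0) (XT.lf (nat_lit 0) (nat_lit 23849939410) (nat_lit 152) (nat_lit 4335602608) (nat_lit 228) (nat_lit 50910101689) (nat_lit 34) (nat_lit 5) (nat_lit 36) (nat_lit 5) (nat_lit 37) (nat_lit 5) (nat_lit 391) (nat_lit 305) (nat_lit 84)) (XT.lf (nat_lit 0) (nat_lit 40941424558) (nat_lit 228) (nat_lit 26943320474) (nat_lit 76) (nat_lit 13051452091) (nat_lit 34) (nat_lit 5) (nat_lit 37) (nat_lit 5) (nat_lit 35) (nat_lit 5) (nat_lit 392) (nat_lit 305) (nat_lit 83))))) (XT.nd (nat_lit 34008) (nat_lit 0) (nat_lit 11780) (XT.nd (nat_lit 33852) (nat_lit 0) (nat_lit 11780) (XT.lf (nat_lit 0) (nat_lit 2205767577) (nat_lit 152) (nat_lit 51936881678) (nat_lit 228) (nat_lit 28687438717) (nat_lit 32) (nat_lit 5) (nat_lit 34) (nat_lit 5) (nat_lit 35) (nat_lit 5) (nat_lit 393) (nat_lit 305) (nat_lit 82)) (XT.nd (nat_lit 78) (nat_lit 0) (nat_lit 0) (XT.lf (nat_lit 0) (nat_lit 326930982) (nat_lit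 0) (nat_lit 326930982) (nat_lit 1140) (nat_lit 7403989626) (nat_lit 187) (nat_lit 5) (nat_lit 187) (nat_lit 3) (nat_lit 202) (nat_lit 3) (nat_lit 306) (nat_lit 306) (nat_lit 168)) (XT.lf (nat_lit 0) (nat_lit 1634327816) (nat_lit 1140) (nat_lit 8315498741) (nat_lit 1216) (nat_lit 6398072181) (nat_lit 187) (nat_lit 5) (nat_lit 202) (nat_lit 3) (nat_lit 203) (nat_lit 5) (nat_lit 307) (nat_lit 306) (nat_lit 167)))) (XT.nd (nat_lit 156) (nat_lit 0) (nat_lit 76) (XT.nd (nat_lit 78) (nat_lit 0) (nat_lit 76) (XT.lf (nat_lit 0) (nat_lit 1967716664) (nat_lit 1140) (nat_lit 966350997) (nat_lit 1216) (nat_lit 13653095791) (nat_lit 187) (nat_lit 5) (nat_lit 202) (nat_lit 3) (nat_lit 203) (nat_lit 5) (nat_lit 308) (nat_lit 306) (nat_lit 166)) (XT.lf (nat_lit 0) (nat_lit 2408525996) (nat_lit 1140) (nat_lit 10144266293) (nat_lit 1216) (nat_lit 4277903770) (nat_lit 188) (nat_lit 5) (nat_lit 203) (nat_lit 5) (nat_lit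 204) (nat_lit 5) (nat_lit 309) (nat_lit 306) (nat_lit 165))) (XT.nd (nat_lit 78) (nat_lit 0) (nat_lit 76) (XT.lf (nat_lit 0) (nat_lit 2892514156) (nat_lit 1140) (nat_lit 2527020118) (nat_lit 1216) (nat_lit 11661113888) (nat_lit 188) (nat_lit 5) (nat_lit 203) (nat_lit 5) (nat_lit 204) (nat_lit 5) (nat_lit 310) (nat_lit 306) (nat_lit 164)) (XT.lf (nat_lit 0) (nat_lit 3453507784) (nat_lit 1140) (nat_lit 11936475830) (nat_lit 1216) (nat_lit 1946252437) (nat_lit 189) (nat_lit 5) (nat_lit 204) (nat_lit 5) (nat_lit 205) (nat_lit 5) (nat_lit 311) (nat_lit 306) (nat_lit 163)))))) (XT.nd (nat_lit 546) (nat_lit 760) (nat_lit 0) (XT.nd (nat_lit 234) (nat_lit 0) (nat_lit 76) (XT.nd (nat_lit 78) (nat_lit 0) (nat_lit 0) (XT.lf (nat_lit 0) (nat_lit 4102308693) (nat_lit 1140) (nat_lit 4041823578) (nat_lit 1216) (nat_lit 9453241435) (nat_lit 189) (nat_lit 5) (nat_lit 204) (nat_lit 5) (nat_lit 205) (nat_lit 5) (nat_lit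 312) (nat_lit 306) (nat_lit 162)) (XT.nd (nat_lit 78) (nat_lit 0) (nat_lit 76) (XT.lf (nat_lit 76) (nat_lit 4165781389) (nat_lit 0) (nat_lit 636630567) (nat_lit 1216) (nat_lit 13062989506) (nat_lit 190) (nat_lit 5) (nat_lit 189) (nat_lit 5) (nat_lit 205) (nat_lit 5) (nat_lit 313) (nat_lit 306) (nat_lit 161)) (XT.lf (nat_lit 0) (nat_lit 5624960738) (nat_lit 1140) (nat_lit 5511798377) (nat_lit 1216) (nat_lit 7001678462) (nat_lit 190) (nat_lit 5) (nat_lit 205) (nat_lit 5) (nat_lit 206) (nat_lit 5) (nat_lit 314) (nat_lit 306) (nat_lit 160)))) (XT.nd (nat_lit 156) (nat_lit 0) (nat_lit 76) (XT.nd (nat_lit 78) (nat_lit 0) (nat_lit 76) (XT.lf (nat_lit 76) (nat_lit 2968024393) (nat_lit 0) (nat_lit 3531239798) (nat_lit 1216) (nat_lit 11919598721) (nat_lit 191) (nat_lit 5) (nat_lit 190) (nat_lit 5) (nat_lit 206) (nat_lit 5) (nat_lit 315) (nat_lit 306) (nat_lit 159)) (XT.lf (nat_lit 0) (nat_lit 7489807243)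 (nat_lit 1140) (nat_lit 6938167940) (nat_lit 1216) (nat_lit 4277035686) (nat_lit 191) (nat_lit 5) (nat_lit 206) (nat_lit 5) (nat_lit 207) (nat_lit 5) (nat_lit 316) (nat_lit 306) (nat_lit 158))) (XT.nd (nat_lit 78) (nat_lit 0) (nat_lit 76) (XT.lf (nat_lit 76) (nat_lit 1825239716) (nat_lit 0) (nat_lit 6729998388) (nat_lit 1216) (nat_lit 10443159896) (nat_lit 192) (nat_lit 5) (nat_lit 191) (nat_lit 5) (nat_lit 207) (nat_lit 5) (nat_lit 317) (nat_lit 306) (nat_lit 157)) (XT.lf (nat_lit 0) (nat_lit 9727757422) (nat_lit 1140) (nat_lit 8322416719) (nat_lit 1216) (nat_lit 1248168431) (nat_lit 192) (nat_lit 5) (nat_lit 207) (nat_lit 5) (nat_lit 208) (nat_lit 5) (nat_lit 318) (nat_lit 306) (nat_lit 156))))) (XT.nd (nat_lit 234) (nat_lit 988) (nat_lit 0) (XT.nd (nat_lit 78) (nat_lit 0) (nat_lit 0) (XT.lf (nat_lit 76) (nat_lit 736251568) (nat_lit 0) (nat_lit 10265965316) (nat_lit 1216) (nat_lit 8603074975)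 (nat_lit 193) (nat_lit 5) (nat_lit 192) (nat_lit 5) (nat_lit 208) (nat_lit 5) (nat_lit 319) (nat_lit 306) (nat_lit 155)) (XT.nd (nat_lit 78) (nat_lit 0) (nat_lit 76) (XT.lf (nat_lit 76) (nat_lit 10232004734) (nat_lit 0) (nat_lit 2160150704) (nat_lit 1216) (nat_lit 7526985869) (nat_lit 193) (nat_lit 5) (nat_lit 192) (nat_lit 5) (nat_lit 208) (nat_lit 5) (nat_lit 320) (nat_lit 306) (nat_lit 154)) (XT.lf (nat_lit 0) (nat_lit 13876700343) (nat_lit 1140) (nat_lit 294610367) (nat_lit 1216) (nat_lit 6069517063) (nat_lit 193) (nat_lit 5) (nat_lit 208) (nat_lit 5) (nat_lit 209) (nat_lit 5) (nat_lit 321) (nat_lit 306) (nat_lit 153)))) (XT.nd (nat_lit 156) (nat_lit 1064) (nat_lit 0) (XT.nd (nat_lit 78) (nat_lit 0) (nat_lit 76) (XT.lf (nat_lit 76) (nat_lit 9539261260) (nat_lit 0) (nat_lit 5973214202) (nat_lit 1216) (nat_lit 5056497078) (nat_lit 194) (nat_lit 5) (nat_lit 193) (nat_lit 5) (nat_lit 209) (nat_lit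 5) (nat_lit 322) (nat_lit 306) (nat_lit 152)) (XT.lf (nat_lit 0) (nat_lit 17217835883) (nat_lit 1140) (nat_lit 1261808534) (nat_lit 76) (nat_lit 2426710146) (nat_lit 194) (nat_lit 5) (nat_lit 209) (nat_lit 5) (nat_lit 195) (nat_lit 5) (nat_lit 323) (nat_lit 306) (nat_lit 151))) (XT.nd (nat_lit 78) (nat_lit 0) (nat_lit 0) (XT.lf (nat_lit 0) (nat_lit 8908642044) (nat_lit 1140) (nat_lit 10204429496) (nat_lit 1216) (nat_lit 2136633109) (nat_lit 179) (nat_lit 5) (nat_lit 194) (nat_lit 5) (nat_lit 195) (nat_lit 5) (nat_lit 324) (nat_lit 306) (nat_lit 150)) (XT.lf (nat_lit 0) (nat_lit 19404934633) (nat_lit 1140) (nat_lit 1667036965) (nat_lit 1216) (nat_lit 531187219) (nat_lit 179) (nat_lit 5) (nat_lit 194) (nat_lit 5) (nat_lit 195) (nat_lit 5) (nat_lit 325) (nat_lit 306) (nat_lit 149))))))))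
noncomputable def xc208 : XT := (XT.nd (nat_lit 2028) (nat_lit 3572) (nat_lit 0) (XT.nd (nat_lit 1014) (nat_lit 2356) (nat_lit 0) (XT.nd (nat_lit 468) (nat_lit 2052) (nat_lit 0) (XT.nd (nat_lit 234) (nat_lit 532) (nat_lit 0) (XT.nd (nat_lit 78) (nat_lit 608) (nat_lit 0) (XT.lf (nat_lit 0) (nat_lit 1244826069) (nat_lit 684) (nat_lit 13637218730) (nat_lit 76) (nat_lit 7080526286) (nat_lit 170) (nat_lit 5) (nat_lit 179) (nat_lit 5) (nat_lit 171) (nat_lit 5) (nat_lit 326) (nat_lit 306) (nat_lit 148)) (XT.nd (nat_lit 78) (nat_lit 608) (nat_lit 0) (XT.lf (nat_lit 0) (nat_lit 3096667422) (nat_lit 684) (nat_lit 3149631921) (nat_lit 76) (nat_lit 16085319018) (nat_lit 170) (nat_lit 5) (nat_lit 179) (nat_lit 5) (nat_lit 171) (nat_lit 5) (nat_lit 327) (nat_lit 306) (nat_lit 147)) (XT.lf (nat_lit 0) (nat_lit 5099712288) (nat_lit 684) (nat_lit 14936176529) (nat_lit 76) (nat_lit 2672985721) (nat_lit 162) (nat_lit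 5) (nat_lit 171) (nat_lit 5) (nat_lit 163) (nat_lit 5) (nat_lit 328) (nat_lit 306) (nat_lit 146)))) (XT.nd (nat_lit 78) (nat_lit 532) (nat_lit 0) (XT.lf (nat_lit 0) (nat_lit 7251396502) (nat_lit 684) (nat_lit 4076607137) (nat_lit 76) (nat_lit 11766795050) (nat_lit 162) (nat_lit 5) (nat_lit 171) (nat_lit 5) (nat_lit 163) (nat_lit 5) (nat_lit 329) (nat_lit 306) (nat_lit 145)) (XT.nd (nat_lit 78) (nat_lit 0) (nat_lit 0) (XT.lf (nat_lit 0) (nat_lit 7245062874) (nat_lit 532) (nat_lit 2286953553) (nat_lit 608) (nat_lit 13958359113) (nat_lit 155) (nat_lit 5) (nat_lit 162) (nat_lit 5) (nat_lit 163) (nat_lit 5) (nat_lit 330) (nat_lit 306) (nat_lit 144)) (XT.lf (nat_lit 0) (nat_lit 11985007544) (nat_lit 608) (nat_lit 4979751013) (nat_lit 76) (nat_lit 6929948905) (nat_lit 155) (nat_lit 5) (nat_lit 163) (nat_lit 5) (nat_lit 156) (nat_lit 5) (nat_lit 331) (nat_lit 306) (nat_lit 143))))) (XT.nd (nat_lit 234)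 (nat_lit 1064) (nat_lit 0) (XT.nd (nat_lit 78) (nat_lit 456) (nat_lit 0) (XT.lf (nat_lit 0) (nat_lit 6727384263) (nat_lit 532) (nat_lit 7866512563) (nat_lit 608) (nat_lit 9714809420) (nat_lit 148) (nat_lit 5) (nat_lit 155) (nat_lit 5) (nat_lit 156) (nat_lit 5) (nat_lit 332) (nat_lit 306) (nat_lit 142)) (XT.nd (nat_lit 78) (nat_lit 456) (nat_lit 0) (XT.lf (nat_lit 0) (nat_lit 17341395069) (nat_lit 608) (nat_lit 5865893376) (nat_lit 76) (nat_lit 1526032258) (nat_lit 148) (nat_lit 5) (nat_lit 156) (nat_lit 5) (nat_lit 149) (nat_lit 5) (nat_lit 333) (nat_lit 306) (nat_lit 141)) (XT.lf (nat_lit 0) (nat_lit 6239895265) (nat_lit 456) (nat_lit 14064528588) (nat_lit 532) (nat_lit 4862262378) (nat_lit 142) (nat_lit 5) (nat_lit 148) (nat_lit 5) (nat_lit 149) (nat_lit 5) (nat_lit 334) (nat_lit 306) (nat_lit 140)))) (XT.nd (nat_lit 156) (nat_lit 456) (nat_lit 0) (XT.nd (nat_lit 78) (nat_lit 608) (nat_lit 0)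 (XT.lf (nat_lit 0) (nat_lit 18824172054) (nat_lit 456) (nat_lit 4586734422) (nat_lit 532) (nat_lit 2200514993) (nat_lit 142) (nat_lit 5) (nat_lit 148) (nat_lit 5) (nat_lit 149) (nat_lit 5) (nat_lit 335) (nat_lit 306) (nat_lit 139)) (XT.lf (nat_lit 0) (nat_lit 632237663) (nat_lit 608) (nat_lit 20298196807) (nat_lit 76) (nat_lit 5135862230) (nat_lit 134) (nat_lit 5) (nat_lit 142) (nat_lit 5) (nat_lit 135) (nat_lit 5) (nat_lit 336) (nat_lit 306) (nat_lit 138))) (XT.nd (nat_lit 78) (nat_lit 456) (nat_lit 0) (XT.lf (nat_lit 0) (nat_lit 3615873006) (nat_lit 608) (nat_lit 7766372005) (nat_lit 76) (nat_lit 15148620864) (nat_lit 134) (nat_lit 5) (nat_lit 142) (nat_lit 5) (nat_lit 135) (nat_lit 5) (nat_lit 337) (nat_lit 306) (nat_lit 137)) (XT.lf (nat_lit 0) (nat_lit 5238807867) (nat_lit 456) (nat_lit 1496197841) (nat_lit 532) (nat_lit 20272991777) (nat_lit 128) (nat_lit 5) (nat_lit 134) (nat_lit 5) (nat_lit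 135) (nat_lit 5) (nat_lit 338) (nat_lit 306) (nat_lit 136)))))) (XT.nd (nat_lit 468) (nat_lit 1140) (nat_lit 0) (XT.nd (nat_lit 234) (nat_lit 760) (nat_lit 0) (XT.nd (nat_lit 78) (nat_lit 456) (nat_lit 0) (XT.lf (nat_lit 0) (nat_lit 10106119583) (nat_lit 532) (nat_lit 8792929074) (nat_lit 76) (nat_lit 8595647030) (nat_lit 128) (nat_lit 5) (nat_lit 135) (nat_lit 5) (nat_lit 129) (nat_lit 5) (nat_lit 339) (nat_lit 306) (nat_lit 135)) (XT.nd (nat_lit 78) (nat_lit 0) (nat_lit 0) (XT.lf (nat_lit 0) (nat_lit 4643653679) (nat_lit 456) (nat_lit 8989996024) (nat_lit 532) (nat_lit 14360691369) (nat_lit 122) (nat_lit 5) (nat_lit 128) (nat_lit 5) (nat_lit 129) (nat_lit 5) (nat_lit 340) (nat_lit 306) (nat_lit 134)) (XT.lf (nat_lit 0) (nat_lit 17364269655) (nat_lit 532) (nat_lit 9860143730) (nat_lit 76) (nat_lit 1281649094) (nat_lit 122) (nat_lit 5) (nat_lit 129) (nat_lit 5) (nat_lit 123) (nat_lit 5) (nat_lit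 341) (nat_lit 306) (nat_lit 133)))) (XT.nd (nat_lit 78) (nat_lit 380) (nat_lit 0) (XT.lf (nat_lit 0) (nat_lit 4019848310) (nat_lit 380) (nat_lit 17310631749) (nat_lit 456) (nat_lit 7698949764) (nat_lit 117) (nat_lit 5) (nat_lit 122) (nat_lit 5) (nat_lit 123) (nat_lit 5) (nat_lit 342) (nat_lit 306) (nat_lit 132)) (XT.nd (nat_lit 78) (nat_lit 380) (nat_lit 0) (XT.lf (nat_lit 0) (nat_lit 18513709680) (nat_lit 380) (nat_lit 6997627131) (nat_lit 456) (nat_lit 4054295894) (nat_lit 117) (nat_lit 5) (nat_lit 122) (nat_lit 5) (nat_lit 123) (nat_lit 5) (nat_lit 343) (nat_lit 306) (nat_lit 131)) (XT.lf (nat_lit 0) (nat_lit 3350370295) (nat_lit 380) (nat_lit 26530497050) (nat_lit 456) (nat_lit 235161079) (nat_lit 112) (nat_lit 5) (nat_lit 117) (nat_lit 5) (nat_lit 118) (nat_lit 5) (nat_lit 344) (nat_lit 306) (nat_lit 130))))) (XT.nd (nat_lit 234) (nat_lit 684) (nat_lit 0) (XT.nd (nat_lit 78) (nat_lit 380)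 (nat_lit 0) (XT.lf (nat_lit 0) (nat_lit 3804591429) (nat_lit 456) (nat_lit 12378905985) (nat_lit 76) (nat_lit 14493029503) (nat_lit 111) (nat_lit 5) (nat_lit 117) (nat_lit 5) (nat_lit 112) (nat_lit 5) (nat_lit 345) (nat_lit 306) (nat_lit 129)) (XT.nd (nat_lit 78) (nat_lit 0) (nat_lit 0) (XT.lf (nat_lit 0) (nat_lit 2481006648) (nat_lit 380) (nat_lit 5499986752) (nat_lit 456) (nat_lit 23272175450) (nat_lit 106) (nat_lit 5) (nat_lit 111) (nat_lit 5) (nat_lit 112) (nat_lit 5) (nat_lit 346) (nat_lit 306) (nat_lit 128)) (XT.lf (nat_lit 0) (nat_lit 12458225499) (nat_lit 456) (nat_lit 13861619664) (nat_lit 76) (nat_lit 5522002461) (nat_lit 106) (nat_lit 5) (nat_lit 112) (nat_lit 5) (nat_lit 107) (nat_lit 5) (nat_lit 347) (nat_lit 306) (nat_lit 127)))) (XT.nd (nat_lit 156) (nat_lit 304) (nat_lit 0) (XT.nd (nat_lit 78) (nat_lit 0) (nat_lit 0) (XT.lf (nat_lit 0) (nat_lit 1465937066) (nat_lit 380) (nat_lit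 15668879092) (nat_lit 456) (nat_lit 15311422972) (nat_lit 101) (nat_lit 5) (nat_lit 106) (nat_lit 5) (nat_lit 107) (nat_lit 5) (nat_lit 348) (nat_lit 306) (nat_lit 126)) (XT.lf (nat_lit 0) (nat_lit 17533061284) (nat_lit 380) (nat_lit 4555172945) (nat_lit 456) (nat_lit 10976435773) (nat_lit 101) (nat_lit 5) (nat_lit 106) (nat_lit 5) (nat_lit 107) (nat_lit 5) (nat_lit 349) (nat_lit 306) (nat_lit 125))) (XT.nd (nat_lit 78) (nat_lit 0) (nat_lit 0) (XT.lf (nat_lit 0) (nat_lit 316088681) (nat_lit 304) (nat_lit 26940100062) (nat_lit 380) (nat_lit 6443490451) (nat_lit 97) (nat_lit 5) (nat_lit 101) (nat_lit 5) (nat_lit 102) (nat_lit 5) (nat_lit 350) (nat_lit 306) (nat_lit 124)) (XT.lf (nat_lit 0) (nat_lit 16907269144) (nat_lit 304) (nat_lit 15870112023) (nat_lit 380) (nat_lit 1570414823) (nat_lit 97) (nat_lit 5) (nat_lit 101) (nat_lit 5) (nat_lit 102) (nat_lit 5) (nat_lit 351) (nat_lit 306) (nat_lit 123)))))))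 (XT.nd (nat_lit 1014) (nat_lit 1596) (nat_lit 0) (XT.nd (nat_lit 468) (nat_lit 912) (nat_lit 0) (XT.nd (nat_lit 234) (nat_lit 608) (nat_lit 0) (XT.nd (nat_lit 78) (nat_lit 380) (nat_lit 0) (XT.lf (nat_lit 0) (nat_lit 3378316657) (nat_lit 380) (nat_lit 1056597409) (nat_lit 76) (nat_lit 30579547879) (nat_lit 96) (nat_lit 5) (nat_lit 101) (nat_lit 5) (nat_lit 97) (nat_lit 5) (nat_lit 352) (nat_lit 306) (nat_lit 122)) (XT.nd (nat_lit 78) (nat_lit 0) (nat_lit 0) (XT.lf (nat_lit 0) (nat_lit 8667963902) (nat_lit 456) (nat_lit 19654792283) (nat_lit 76) (nat_lit 7371187733) (nat_lit 91) (nat_lit 5) (nat_lit 97) (nat_lit 5) (nat_lit 92) (nat_lit 5) (nat_lit 353) (nat_lit 306) (nat_lit 121)) (XT.lf (nat_lit 0) (nat_lit 14167885469) (nat_lit 456) (nat_lit 2772267951) (nat_lit 76) (nat_lit 19452112325) (nat_lit 91) (nat_lit 5) (nat_lit 97) (nat_lit 5) (nat_lit 92) (nat_lit 5) (nat_lit 354) (nat_lit 306) (nat_lit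 120)))) (XT.nd (nat_lit 78) (nat_lit 304) (nat_lit 0) (XT.lf (nat_lit 0) (nat_lit 14903480491) (nat_lit 304) (nat_lit 5069575525) (nat_lit 380) (nat_lit 17134276525) (nat_lit 87) (nat_lit 5) (nat_lit 91) (nat_lit 5) (nat_lit 92) (nat_lit 5) (nat_lit 355) (nat_lit 306) (nat_lit 119)) (XT.nd (nat_lit 78) (nat_lit 304) (nat_lit 0) (XT.lf (nat_lit 0) (nat_lit 26046480515) (nat_lit 380) (nat_lit 4749870722) (nat_lit 76) (nat_lit 7044679912) (nat_lit 87) (nat_lit 5) (nat_lit 92) (nat_lit 5) (nat_lit 88) (nat_lit 5) (nat_lit 356) (nat_lit 306) (nat_lit 118)) (XT.lf (nat_lit 0) (nat_lit 13435721777) (nat_lit 304) (nat_lit 19042847287) (nat_lit 380) (nat_lit 6112880502) (nat_lit 83) (nat_lit 5) (nat_lit 87) (nat_lit 5) (nat_lit 88) (nat_lit 5) (nat_lit 357) (nat_lit 306) (nat_lit 117))))) (XT.nd (nat_lit 234) (nat_lit 532) (nat_lit 0) (XT.nd (nat_lit 78) (nat_lit 380) (nat_lit 0) (XT.lf (nat_lit 0) (nat_lit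 32260295123) (nat_lit 304) (nat_lit 6888450662) (nat_lit 380) (nat_lit 214283597) (nat_lit 83) (nat_lit 5) (nat_lit 87) (nat_lit 5) (nat_lit 88) (nat_lit 5) (nat_lit 358) (nat_lit 306) (nat_lit 116)) (XT.nd (nat_lit 78) (nat_lit 0) (nat_lit 0) (XT.lf (nat_lit 0) (nat_lit 5911966716) (nat_lit 380) (nat_lit 28549450456) (nat_lit 76) (nat_lit 5689699522) (nat_lit 78) (nat_lit 5) (nat_lit 83) (nat_lit 5) (nat_lit 79) (nat_lit 5) (nat_lit 359) (nat_lit 306) (nat_lit 115)) (XT.lf (nat_lit 0) (nat_lit 12355581309) (nat_lit 380) (nat_lit 10022864356) (nat_lit 76) (nat_lit 18580203191) (nat_lit 78) (nat_lit 5) (nat_lit 83) (nat_lit 5) (nat_lit 79) (nat_lit 5) (nat_lit 360) (nat_lit 306) (nat_lit 114)))) (XT.nd (nat_lit 156) (nat_lit 228) (nat_lit 0) (XT.nd (nat_lit 78) (nat_lit 0) (nat_lit 0) (XT.lf (nat_lit 0) (nat_lit 9235927035) (nat_lit 304) (nat_lit 9842686212) (nat_lit 380) (nat_lit 22709212791)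 (nat_lit 74) (nat_lit 5) (nat_lit 78) (nat_lit 5) (nat_lit 79) (nat_lit 5) (nat_lit 361) (nat_lit 306) (nat_lit 113)) (XT.lf (nat_lit 0) (nat_lit 26132409987) (nat_lit 380) (nat_lit 13395256921) (nat_lit 76) (nat_lit 3110341666) (nat_lit 74) (nat_lit 5) (nat_lit 79) (nat_lit 5) (nat_lit 75) (nat_lit 5) (nat_lit 362) (nat_lit 306) (nat_lit 112))) (XT.nd (nat_lit 78) (nat_lit 0) (nat_lit 0) (XT.lf (nat_lit 0) (nat_lit 6358979667) (nat_lit 228) (nat_lit 27194854619) (nat_lit 304) (nat_lit 9955184080) (nat_lit 71) (nat_lit 5) (nat_lit 74) (nat_lit 5) (nat_lit 75) (nat_lit 5) (nat_lit 363) (nat_lit 306) (nat_lit 111)) (XT.lf (nat_lit 0) (nat_lit 26976730631) (nat_lit 228) (nat_lit 14353910551) (nat_lit 304) (nat_lit 3071537196) (nat_lit 71) (nat_lit 5) (nat_lit 74) (nat_lit 5) (nat_lit 75) (nat_lit 5) (nat_lit 364) (nat_lit 306) (nat_lit 110)))))) (XT.nd (nat_lit 546) (nat_lit 684) (nat_lit 0) (XT.nd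 (nat_lit 234) (nat_lit 532) (nat_lit 0) (XT.nd (nat_lit 78) (nat_lit 0) (nat_lit 0) (XT.lf (nat_lit 0) (nat_lit 2905298489) (nat_lit 304) (nat_lit 1060351684) (nat_lit 380) (nat_lit 41354562674) (nat_lit 66) (nat_lit 5) (nat_lit 70) (nat_lit 5) (nat_lit 71) (nat_lit 5) (nat_lit 365) (nat_lit 306) (nat_lit 109)) (XT.nd (nat_lit 78) (nat_lit 0) (nat_lit 0) (XT.lf (nat_lit 0) (nat_lit 11448897578) (nat_lit 380) (nat_lit 22214591923) (nat_lit 76) (nat_lit 12592488078) (nat_lit 66) (nat_lit 5) (nat_lit 71) (nat_lit 5) (nat_lit 67) (nat_lit 5) (nat_lit 366) (nat_lit 306) (nat_lit 108)) (XT.lf (nat_lit 0) (nat_lit 19164759929) (nat_lit 380) (nat_lit 1422325389) (nat_lit 76) (nat_lit 26632488295) (nat_lit 66) (nat_lit 5) (nat_lit 71) (nat_lit 5) (nat_lit 67) (nat_lit 5) (nat_lit 367) (nat_lit 306) (nat_lit 107)))) (XT.nd (nat_lit 156) (nat_lit 304) (nat_lit 0) (XT.nd (nat_lit 78) (nat_lit 0) (nat_lit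 0) (XT.lf (nat_lit 0) (nat_lit 20388091081) (nat_lit 228) (nat_lit 6917678216) (nat_lit 304) (nat_lit 20900499931) (nat_lit 63) (nat_lit 5) (nat_lit 66) (nat_lit 5) (nat_lit 67) (nat_lit 5) (nat_lit 368) (nat_lit 306) (nat_lit 106)) (XT.lf (nat_lit 0) (nat_lit 35772069195) (nat_lit 304) (nat_lit 6412632644) (nat_lit 76) (nat_lit 7035433844) (nat_lit 63) (nat_lit 5) (nat_lit 67) (nat_lit 5) (nat_lit 64) (nat_lit 5) (nat_lit 369) (nat_lit 306) (nat_lit 105))) (XT.nd (nat_lit 78) (nat_lit 76) (nat_lit 0) (XT.lf (nat_lit 0) (nat_lit 15872938947) (nat_lit 228) (nat_lit 28838269693) (nat_lit 304) (nat_lit 5546645703) (nat_lit 60) (nat_lit 5) (nat_lit 63) (nat_lit 5) (nat_lit 64) (nat_lit 5) (nat_lit 370) (nat_lit 306) (nat_lit 104)) (XT.lf (nat_lit 0) (nat_lit 2604425604) (nat_lit 304) (nat_lit 12395185902) (nat_lit 76) (nat_lit 36324451751) (nat_lit 59) (nat_lit 5) (nat_lit 63) (nat_lit 5) (nat_lit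 60) (nat_lit 5) (nat_lit 371) (nat_lit 306) (nat_lit 103))))) (XT.nd (nat_lit 234) (nat_lit 228) (nat_lit 0) (XT.nd (nat_lit 78) (nat_lit 228) (nat_lit 0) (XT.lf (nat_lit 0) (nat_lit 10398938862) (nat_lit 228) (nat_lit 587420949) (nat_lit 304) (nat_lit 41431318306) (nat_lit 56) (nat_lit 5) (nat_lit 59) (nat_lit 5) (nat_lit 60) (nat_lit 5) (nat_lit 372) (nat_lit 306) (nat_lit 102)) (XT.nd (nat_lit 78) (nat_lit 228) (nat_lit 0) (XT.lf (nat_lit 0) (nat_lit 19881078682) (nat_lit 304) (nat_lit 19550979176) (nat_lit 76) (nat_lit 14104205300) (nat_lit 56) (nat_lit 5) (nat_lit 60) (nat_lit 5) (nat_lit 57) (nat_lit 5) (nat_lit 373) (nat_lit 306) (nat_lit 101)) (XT.lf (nat_lit 0) (nat_lit 3653056995) (nat_lit 228) (nat_lit 25428447551) (nat_lit 304) (nat_lit 25605736731) (nat_lit 53) (nat_lit 5) (nat_lit 56) (nat_lit 5) (nat_lit 57) (nat_lit 5) (nat_lit 374) (nat_lit 306) (nat_lit 100)))) (XT.nd (nat_lit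 156) (nat_lit 228) (nat_lit 0) (XT.nd (nat_lit 78) (nat_lit 0) (nat_lit 0) (XT.lf (nat_lit 0) (nat_lit 27950796815) (nat_lit 228) (nat_lit 10802536366) (nat_lit 304) (nat_lit 17113555307) (nat_lit 53) (nat_lit 5) (nat_lit 56) (nat_lit 5) (nat_lit 57) (nat_lit 5) (nat_lit 375) (nat_lit 306) (nat_lit 99)) (XT.lf (nat_lit 0) (nat_lit 48754299050) (nat_lit 304) (nat_lit 4148576959) (nat_lit 76) (nat_lit 4177881038) (nat_lit 53) (nat_lit 5) (nat_lit 57) (nat_lit 5) (nat_lit 54) (nat_lit 5) (nat_lit 376) (nat_lit 306) (nat_lit 98))) (XT.nd (nat_lit 78) (nat_lit 0) (nat_lit 0) (XT.lf (nat_lit 0) (nat_lit 1016400967) (nat_lit 228) (nat_lit 37707504022) (nat_lit 76) (nat_lit 19597740695) (nat_lit 50) (nat_lit 5) (nat_lit 53) (nat_lit 5) (nat_lit 51) (nat_lit 5) (nat_lit 377) (nat_lit 306) (nat_lit 97)) (XT.lf (nat_lit 0) (nat_lit 10512576242) (nat_lit 228) (nat_lit 13479643636) (nat_lit 76) (nat_lit 35603857660)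 (nat_lit 50) (nat_lit 5) (nat_lit 53) (nat_lit 5) (nat_lit 51) (nat_lit 5) (nat_lit 378) (nat_lit 306) (nat_lit 96))))))))
noncomputable def xc209 : XT := (XT.nd (nat_lit 35880) (nat_lit 0) (nat_lit 6308) (XT.nd (nat_lit 1014) (nat_lit 152) (nat_lit 0) (XT.nd (nat_lit 468) (nat_lit 380) (nat_lit 0) (XT.nd (nat_lit 234) (nat_lit 304) (nat_lit 0) (XT.nd (nat_lit 78) (nat_lit 152) (nat_lit 0) (XT.lf (nat_lit 0) (nat_lit 11700390608) (nat_lit 228) (nat_lit 8703850324) (nat_lit 304) (nat_lit 40501184537) (nat_lit 47) (nat_lit 5) (nat_lit 50) (nat_lit 5) (nat_lit 51) (nat_lit 5) (nat_lit 379) (nat_lit 306) (nat_lit 95)) (XT.nd (nat_lit 78) (nat_lit 152) (nat_lit 0) (XT.lf (nat_lit 0) (nat_lit 30795972719) (nat_lit 304) (nat_lit 24409871211) (nat_lit 76) (nat_lit 7042111606) (nat_lit 47) (nat_lit 5) (nat_lit 51) (nat_lit 5) (nat_lit 48) (nat_lit 5) (nat_lit 380) (nat_lit 306) (nat_lit 94)) (XT.lf (nat_lit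 0) (nat_lit 1060761833) (nat_lit 152) (nat_lit 40533270210) (nat_lit 228) (nat_lit 22033893369) (nat_lit 45) (nat_lit 5) (nat_lit 47) (nat_lit 5) (nat_lit 48) (nat_lit 5) (nat_lit 381) (nat_lit 306) (nat_lit 93)))) (XT.nd (nat_lit 78) (nat_lit 304) (nat_lit 0) (XT.lf (nat_lit 0) (nat_lit 27793012745) (nat_lit 152) (nat_lit 25167739080) (nat_lit 228) (nat_lit 12081202142) (nat_lit 45) (nat_lit 5) (nat_lit 47) (nat_lit 5) (nat_lit 48) (nat_lit 5) (nat_lit 382) (nat_lit 306) (nat_lit 92)) (XT.nd (nat_lit 78) (nat_lit 304) (nat_lit 0) (XT.lf (nat_lit 0) (nat_lit 55324435502) (nat_lit 152) (nat_lit 9342316186) (nat_lit 228) (nat_lit 1831704446) (nat_lit 45) (nat_lit 5) (nat_lit 47) (nat_lit 5) (nat_lit 48) (nat_lit 5) (nat_lit 383) (nat_lit 306) (nat_lit 91)) (XT.lf (nat_lit 0) (nat_lit 8775452180) (nat_lit 304) (nat_lit 52153891751) (nat_lit 76) (nat_lit 7060181230) (nat_lit 41) (nat_lit 5) (nat_lit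 45) (nat_lit 5) (nat_lit 42) (nat_lit 5) (nat_lit 384) (nat_lit 306) (nat_lit 90))))) (XT.nd (nat_lit 234) (nat_lit 228) (nat_lit 0) (XT.nd (nat_lit 78) (nat_lit 152) (nat_lit 0) (XT.lf (nat_lit 0) (nat_lit 19868783025) (nat_lit 304) (nat_lit 25751821503) (nat_lit 76) (nat_lit 23898035425) (nat_lit 41) (nat_lit 5) (nat_lit 45) (nat_lit 5) (nat_lit 42) (nat_lit 5) (nat_lit 385) (nat_lit 306) (nat_lit 89)) (XT.nd (nat_lit 78) (nat_lit 0) (nat_lit 0) (XT.lf (nat_lit 0) (nat_lit 1468279946) (nat_lit 152) (nat_lit 29839120574) (nat_lit 228) (nat_lit 39785854053) (nat_lit 39) (nat_lit 5) (nat_lit 41) (nat_lit 5) (nat_lit 42) (nat_lit 5) (nat_lit 386) (nat_lit 306) (nat_lit 88)) (XT.lf (nat_lit 0) (nat_lit 30030215495) (nat_lit 152) (nat_lit 13317398533) (nat_lit 228) (nat_lit 29359741436) (nat_lit 39) (nat_lit 5) (nat_lit 41) (nat_lit 5) (nat_lit 42) (nat_lit 5) (nat_lit 387) (nat_lit 306) (nat_lit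 87)))) (XT.nd (nat_lit 156) (nat_lit 76) (nat_lit 0) (XT.nd (nat_lit 78) (nat_lit 152) (nat_lit 0) (XT.lf (nat_lit 0) (nat_lit 55783031906) (nat_lit 228) (nat_lit 14959053256) (nat_lit 76) (nat_lit 3626775208) (nat_lit 39) (nat_lit 5) (nat_lit 42) (nat_lit 5) (nat_lit 40) (nat_lit 5) (nat_lit 388) (nat_lit 306) (nat_lit 86)) (XT.lf (nat_lit 0) (nat_lit 13723984647) (nat_lit 152) (nat_lit 55129783661) (nat_lit 228) (nat_lit 7218575337) (nat_lit 37) (nat_lit 5) (nat_lit 39) (nat_lit 5) (nat_lit 40) (nat_lit 5) (nat_lit 389) (nat_lit 306) (nat_lit 85))) (XT.nd (nat_lit 78) (nat_lit 0) (nat_lit 0) (XT.lf (nat_lit 0) (nat_lit 4553119636) (nat_lit 228) (nat_lit 34295439919) (nat_lit 76) (nat_lit 38972546952) (nat_lit 36) (nat_lit 5) (nat_lit 39) (nat_lit 5) (nat_lit 37) (nat_lit 5) (nat_lit 390) (nat_lit 306) (nat_lit 84)) (XT.lf (nat_lit 0) (nat_lit 16531405126) (nat_lit 228) (nat_lit 5474876652) (nat_lit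 76) (nat_lit 57613951394) (nat_lit 36) (nat_lit 5) (nat_lit 39) (nat_lit 5) (nat_lit 37) (nat_lit 5) (nat_lit 391) (nat_lit 306) (nat_lit 83)))))) (XT.nd (nat_lit 34320) (nat_lit 0) (nat_lit 11704) (XT.nd (nat_lit 34086) (nat_lit 0) (nat_lit 11628) (XT.nd (nat_lit 78) (nat_lit 0) (nat_lit 0) (XT.lf (nat_lit 0) (nat_lit 24689687919) (nat_lit 152) (nat_lit 4415252464) (nat_lit 228) (nat_lit 52361317018) (nat_lit 34) (nat_lit 5) (nat_lit 36) (nat_lit 5) (nat_lit 37) (nat_lit 5) (nat_lit 392) (nat_lit 306) (nat_lit 82)) (XT.nd (nat_lit 33930) (nat_lit 0) (nat_lit 11628) (XT.lf (nat_lit 0) (nat_lit 42241819484) (nat_lit 228) (nat_lit 27629269318) (nat_lit 76) (nat_lit 13490990199) (nat_lit 34) (nat_lit 5) (nat_lit 37) (nat_lit 5) (nat_lit 35) (nat_lit 5) (nat_lit 393) (nat_lit 306) (nat_lit 81)) (XT.lf (nat_lit 0) (nat_lit 457695830) (nat_lit 0) (nat_lit 457695830) (nat_lit 1140) (nat_lit 7376610890)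 (nat_lit 187) (nat_lit 5) (nat_lit 187) (nat_lit 3) (nat_lit 202) (nat_lit 3) (nat_lit 307) (nat_lit 307) (nat_lit 166)))) (XT.nd (nat_lit 78) (nat_lit 0) (nat_lit 0) (XT.lf (nat_lit 0) (nat_lit 2150835565) (nat_lit 1140) (nat_lit 8313110854) (nat_lit 1216) (nat_lit 6359729660) (nat_lit 187) (nat_lit 5) (nat_lit 202) (nat_lit 3) (nat_lit 203) (nat_lit 5) (nat_lit 308) (nat_lit 307) (nat_lit 165)) (XT.nd (nat_lit 78) (nat_lit 0) (nat_lit 76) (XT.lf (nat_lit 0) (nat_lit 2480610217) (nat_lit 1140) (nat_lit 750824197) (nat_lit 1216) (nat_lit 13839111299) (nat_lit 187) (nat_lit 5) (nat_lit 202) (nat_lit 3) (nat_lit 203) (nat_lit 5) (nat_lit 309) (nat_lit 307) (nat_lit 164)) (XT.lf (nat_lit 0) (nat_lit 2921821259) (nat_lit 1140) (nat_lit 10190655565) (nat_lit 1216) (nat_lit 4209310117) (nat_lit 188) (nat_lit 5) (nat_lit 203) (nat_lit 5) (nat_lit 204) (nat_lit 5) (nat_lit 310) (nat_lit 307) (nat_lit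 163))))) (XT.nd (nat_lit 234) (nat_lit 0) (nat_lit 76) (XT.nd (nat_lit 78) (nat_lit 0) (nat_lit 76) (XT.lf (nat_lit 0) (nat_lit 3407483252) (nat_lit 1140) (nat_lit 2352404782) (nat_lit 1216) (nat_lit 11819752386) (nat_lit 188) (nat_lit 5) (nat_lit 203) (nat_lit 5) (nat_lit 204) (nat_lit 5) (nat_lit 311) (nat_lit 307) (nat_lit 162)) (XT.nd (nat_lit 78) (nat_lit 0) (nat_lit 0) (XT.lf (nat_lit 0) (nat_lit 3973583235) (nat_lit 1140) (nat_lit 12031856269) (nat_lit 1216) (nat_lit 1837825078) (nat_lit 189) (nat_lit 5) (nat_lit 204) (nat_lit 5) (nat_lit 205) (nat_lit 5) (nat_lit 312) (nat_lit 307) (nat_lit 161)) (XT.lf (nat_lit 0) (nat_lit 4629717972) (nat_lit 1140) (nat_lit 3908016309) (nat_lit 1216) (nat_lit 9574882433) (nat_lit 189) (nat_lit 5) (nat_lit 204) (nat_lit 5) (nat_lit 205) (nat_lit 5) (nat_lit 313) (nat_lit 307) (nat_lit 160)))) (XT.nd (nat_lit 156) (nat_lit 0) (nat_lit 76) (XT.nd (nat_lit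 78) (nat_lit 0) (nat_lit 76) (XT.lf (nat_lit 76) (nat_lit 4543316199) (nat_lit 0) (nat_lit 798159014) (nat_lit 1216) (nat_lit 13047506525) (nat_lit 190) (nat_lit 5) (nat_lit 189) (nat_lit 5) (nat_lit 205) (nat_lit 5) (nat_lit 314) (nat_lit 307) (nat_lit 159)) (XT.lf (nat_lit 0) (nat_lit 6175866626) (nat_lit 1140) (nat_lit 5418596740) (nat_lit 1216) (nat_lit 7076146082) (nat_lit 190) (nat_lit 5) (nat_lit 205) (nat_lit 5) (nat_lit 206) (nat_lit 5) (nat_lit 315) (nat_lit 307) (nat_lit 158))) (XT.nd (nat_lit 78) (nat_lit 0) (nat_lit 76) (XT.lf (nat_lit 76) (nat_lit 3313085855) (nat_lit 0) (nat_lit 3754643568) (nat_lit 1216) (nat_lit 11891993257) (nat_lit 191) (nat_lit 5) (nat_lit 190) (nat_lit 5) (nat_lit 206) (nat_lit 5) (nat_lit 316) (nat_lit 307) (nat_lit 157)) (XT.lf (nat_lit 0) (nat_lit 8076014222) (nat_lit 1140) (nat_lit 6885287727) (nat_lit 1216) (nat_lit 4293526970) (nat_lit 191) (nat_lit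 5) (nat_lit 206) (nat_lit 5) (nat_lit 207) (nat_lit 5) (nat_lit 317) (nat_lit 307) (nat_lit 156))))))) (XT.nd (nat_lit 1014) (nat_lit 3420) (nat_lit 0) (XT.nd (nat_lit 468) (nat_lit 2204) (nat_lit 0) (XT.nd (nat_lit 234) (nat_lit 0) (nat_lit 76) (XT.nd (nat_lit 78) (nat_lit 0) (nat_lit 76) (XT.lf (nat_lit 76) (nat_lit 2138463088) (nat_lit 0) (nat_lit 7026899958) (nat_lit 1216) (nat_lit 10391910148) (nat_lit 192) (nat_lit 5) (nat_lit 191) (nat_lit 5) (nat_lit 207) (nat_lit 5) (nat_lit 318) (nat_lit 307) (nat_lit 155)) (XT.nd (nat_lit 78) (nat_lit 0) (nat_lit 0) (XT.lf (nat_lit 0) (nat_lit 10361876150) (nat_lit 1140) (nat_lit 8309510444) (nat_lit 1216) (nat_lit 1195178732) (nat_lit 192) (nat_lit 5) (nat_lit 207) (nat_lit 5) (nat_lit 208) (nat_lit 5) (nat_lit 319) (nat_lit 307) (nat_lit 154)) (XT.lf (nat_lit 76) (nat_lit 1018343590) (nat_lit 0) (nat_lit 10648755633) (nat_lit 1216) (nat_lit 8515861341)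 (nat_lit 193) (nat_lit 5) (nat_lit 192) (nat_lit 5) (nat_lit 208) (nat_lit 5) (nat_lit 320) (nat_lit 307) (nat_lit 153)))) (XT.nd (nat_lit 78) (nat_lit 0) (nat_lit 76) (XT.lf (nat_lit 76) (nat_lit 10791396405) (nat_lit 0) (nat_lit 2297587611) (nat_lit 1216) (nat_lit 7417547015) (nat_lit 193) (nat_lit 5) (nat_lit 192) (nat_lit 5) (nat_lit 208) (nat_lit 5) (nat_lit 321) (nat_lit 307) (nat_lit 152)) (XT.nd (nat_lit 78) (nat_lit 0) (nat_lit 0) (XT.lf (nat_lit 0) (nat_lit 14607919536) (nat_lit 1140) (nat_lit 47803793) (nat_lit 1216) (nat_lit 6182461734) (nat_lit 193) (nat_lit 5) (nat_lit 208) (nat_lit 5) (nat_lit 209) (nat_lit 5) (nat_lit 322) (nat_lit 307) (nat_lit 151)) (XT.lf (nat_lit 76) (nat_lit 10078577660) (nat_lit 0) (nat_lit 6207451196) (nat_lit 1216) (nat_lit 4890359720) (nat_lit 194) (nat_lit 5) (nat_lit 193) (nat_lit 5) (nat_lit 209) (nat_lit 5) (nat_lit 323) (nat_lit 307) (nat_lit 150)))))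 (XT.nd (nat_lit 234) (nat_lit 1292) (nat_lit 0) (XT.nd (nat_lit 78) (nat_lit 1140) (nat_lit 0) (XT.lf (nat_lit 0) (nat_lit 18033060326) (nat_lit 1140) (nat_lit 1044011542) (nat_lit 76) (nat_lit 2447116763) (nat_lit 194) (nat_lit 5) (nat_lit 209) (nat_lit 5) (nat_lit 195) (nat_lit 5) (nat_lit 324) (nat_lit 307) (nat_lit 149)) (XT.nd (nat_lit 78) (nat_lit 0) (nat_lit 0) (XT.lf (nat_lit 0) (nat_lit 9429046169) (nat_lit 1140) (nat_lit 10549840577) (nat_lit 1216) (nat_lit 1899151993) (nat_lit 179) (nat_lit 5) (nat_lit 194) (nat_lit 5) (nat_lit 195) (nat_lit 5) (nat_lit 325) (nat_lit 307) (nat_lit 148)) (XT.lf (nat_lit 0) (nat_lit 20232854384) (nat_lit 1140) (nat_lit 1755182245) (nat_lit 1216) (nat_lit 254326613) (nat_lit 179) (nat_lit 5) (nat_lit 194) (nat_lit 5) (nat_lit 195) (nat_lit 5) (nat_lit 326) (nat_lit 307) (nat_lit 147)))) (XT.nd (nat_lit 156) (nat_lit 608) (nat_lit 0) (XT.nd (nat_lit 78)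 (nat_lit 0) (nat_lit 0) (XT.lf (nat_lit 0) (nat_lit 1562984007) (nat_lit 684) (nat_lit 13787866478) (nat_lit 76) (nat_lit 7261821596) (nat_lit 170) (nat_lit 5) (nat_lit 179) (nat_lit 5) (nat_lit 171) (nat_lit 5) (nat_lit 327) (nat_lit 307) (nat_lit 146)) (XT.lf (nat_lit 0) (nat_lit 3462201577) (nat_lit 684) (nat_lit 2993180282) (nat_lit 76) (nat_lit 16537664532) (nat_lit 170) (nat_lit 5) (nat_lit 179) (nat_lit 5) (nat_lit 171) (nat_lit 5) (nat_lit 328) (nat_lit 307) (nat_lit 145))) (XT.nd (nat_lit 78) (nat_lit 0) (nat_lit 0) (XT.lf (nat_lit 0) (nat_lit 5519606726) (nat_lit 684) (nat_lit 15127258615) (nat_lit 76) (nat_lit 2734936792) (nat_lit 162) (nat_lit 5) (nat_lit 171) (nat_lit 5) (nat_lit 163) (nat_lit 5) (nat_lit 329) (nat_lit 307) (nat_lit 144)) (XT.lf (nat_lit 0) (nat_lit 7728067590) (nat_lit 684) (nat_lit 3949387672) (nat_lit 76) (nat_lit 12102091618) (nat_lit 162) (nat_lit 5) (nat_lit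 171) (nat_lit 5) (nat_lit 163) (nat_lit 5) (nat_lit 330) (nat_lit 307) (nat_lit 143)))))) (XT.nd (nat_lit 546) (nat_lit 1292) (nat_lit 0) (XT.nd (nat_lit 234) (nat_lit 1064) (nat_lit 0) (XT.nd (nat_lit 78) (nat_lit 532) (nat_lit 0) (XT.lf (nat_lit 0) (nat_lit 7709486188) (nat_lit 532) (nat_lit 2362447475) (nat_lit 608) (nat_lit 14115221924) (nat_lit 155) (nat_lit 5) (nat_lit 162) (nat_lit 5) (nat_lit 163) (nat_lit 5) (nat_lit 331) (nat_lit 307) (nat_lit 142)) (XT.nd (nat_lit 78) (nat_lit 532) (nat_lit 0) (XT.lf (nat_lit 0) (nat_lit 12591053457) (nat_lit 608) (nat_lit 4881503898) (nat_lit 76) (nat_lit 7131293045) (nat_lit 155) (nat_lit 5) (nat_lit 163) (nat_lit 5) (nat_lit 156) (nat_lit 5) (nat_lit 332) (nat_lit 307) (nat_lit 141)) (XT.lf (nat_lit 0) (nat_lit 7174417596) (nat_lit 532) (nat_lit 8098969461) (nat_lit 608) (nat_lit 9757035598) (nat_lit 148) (nat_lit 5) (nat_lit 155) (nat_lit 5) (nat_lit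 156) (nat_lit 5) (nat_lit 333) (nat_lit 307) (nat_lit 140)))) (XT.nd (nat_lit 156) (nat_lit 608) (nat_lit 0) (XT.nd (nat_lit 78) (nat_lit 456) (nat_lit 0) (XT.lf (nat_lit 0) (nat_lit 18096304242) (nat_lit 608) (nat_lit 5796508460) (nat_lit 76) (nat_lit 1575181605) (nat_lit 148) (nat_lit 5) (nat_lit 156) (nat_lit 5) (nat_lit 149) (nat_lit 5) (nat_lit 334) (nat_lit 307) (nat_lit 139)) (XT.lf (nat_lit 0) (nat_lit 6670048333) (nat_lit 456) (nat_lit 14473676029) (nat_lit 532) (nat_lit 4770779753) (nat_lit 142) (nat_lit 5) (nat_lit 148) (nat_lit 5) (nat_lit 149) (nat_lit 5) (nat_lit 335) (nat_lit 307) (nat_lit 138))) (XT.nd (nat_lit 78) (nat_lit 608) (nat_lit 0) (XT.lf (nat_lit 0) (nat_lit 19624777032) (nat_lit 456) (nat_lit 4711920516) (nat_lit 532) (nat_lit 2036093069) (nat_lit 142) (nat_lit 5) (nat_lit 148) (nat_lit 5) (nat_lit 149) (nat_lit 5) (nat_lit 336) (nat_lit 307) (nat_lit 137)) (XT.lf (nat_lit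 0) (nat_lit 873015035) (nat_lit 608) (nat_lit 20662119927) (nat_lit 76) (nat_lit 5306242225) (nat_lit 134) (nat_lit 5) (nat_lit 142) (nat_lit 5) (nat_lit 135) (nat_lit 5) (nat_lit 337) (nat_lit 307) (nat_lit 136))))) (XT.nd (nat_lit 234) (nat_lit 836) (nat_lit 0) (XT.nd (nat_lit 78) (nat_lit 456) (nat_lit 0) (XT.lf (nat_lit 0) (nat_lit 3939698946) (nat_lit 608) (nat_lit 7761476967) (nat_lit 76) (nat_lit 15618908741) (nat_lit 134) (nat_lit 5) (nat_lit 142) (nat_lit 5) (nat_lit 135) (nat_lit 5) (nat_lit 338) (nat_lit 307) (nat_lit 135)) (XT.nd (nat_lit 78) (nat_lit 0) (nat_lit 0) (XT.lf (nat_lit 0) (nat_lit 5631526083) (nat_lit 456) (nat_lit 1516871512) (nat_lit 532) (nat_lit 20663260044) (nat_lit 128) (nat_lit 5) (nat_lit 134) (nat_lit 5) (nat_lit 135) (nat_lit 5) (nat_lit 339) (nat_lit 307) (nat_lit 134)) (XT.lf (nat_lit 0) (nat_lit 10614715267) (nat_lit 532) (nat_lit 8821861599) (nat_lit 76)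 (nat_lit 8876564786) (nat_lit 128) (nat_lit 5) (nat_lit 135) (nat_lit 5) (nat_lit 129) (nat_lit 5) (nat_lit 340) (nat_lit 307) (nat_lit 133)))) (XT.nd (nat_lit 156) (nat_lit 380) (nat_lit 0) (XT.nd (nat_lit 78) (nat_lit 0) (nat_lit 0) (XT.lf (nat_lit 0) (nat_lit 5015516133) (nat_lit 456) (nat_lit 9228807720) (nat_lit 532) (nat_lit 14583571741) (nat_lit 122) (nat_lit 5) (nat_lit 128) (nat_lit 5) (nat_lit 129) (nat_lit 5) (nat_lit 341) (nat_lit 307) (nat_lit 132)) (XT.lf (nat_lit 0) (nat_lit 18081276944) (nat_lit 532) (nat_lit 9924363929) (nat_lit 76) (nat_lit 1349501911) (nat_lit 122) (nat_lit 5) (nat_lit 129) (nat_lit 5) (nat_lit 123) (nat_lit 5) (nat_lit 342) (nat_lit 307) (nat_lit 131))) (XT.nd (nat_lit 78) (nat_lit 0) (nat_lit 0) (XT.lf (nat_lit 0) (nat_lit 4369757441) (nat_lit 380) (nat_lit 17793209479) (nat_lit 456) (nat_lit 7731355815) (nat_lit 117) (nat_lit 5) (nat_lit 122) (nat_lit 5)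 (nat_lit 123) (nat_lit 5) (nat_lit 343) (nat_lit 307) (nat_lit 130)) (XT.lf (nat_lit 0) (nat_lit 19291755613) (nat_lit 380) (nat_lit 7171884855) (nat_lit 456) (nat_lit 3983145701) (nat_lit 117) (nat_lit 5) (nat_lit 122) (nat_lit 5) (nat_lit 123) (nat_lit 5) (nat_lit 344) (nat_lit 307) (nat_lit 129))))))))
noncomputable def xc210 : XT := (XT.nd (nat_lit 2028) (nat_lit 2052) (nat_lit 0) (XT.nd (nat_lit 1014) (nat_lit 1824) (nat_lit 0) (XT.nd (nat_lit 468) (nat_lit 1064) (nat_lit 0) (XT.nd (nat_lit 234) (nat_lit 380) (nat_lit 0) (XT.nd (nat_lit 78) (nat_lit 456) (nat_lit 0) (XT.lf (nat_lit 0) (nat_lit 3676752326) (nat_lit 380) (nat_lit 27284563166) (nat_lit 456) (nat_lit 52472528) (nat_lit 112) (nat_lit 5) (nat_lit 117) (nat_lit 5) (nat_lit 118) (nat_lit 5) (nat_lit 345) (nat_lit 307) (nat_lit 128)) (XT.nd (nat_lit 78) (nat_lit 380) (nat_lit 0) (XT.lf (nat_lit 0) (nat_lit 4099351314) (nat_lit 456)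 (nat_lit 12527197194) (nat_lit 76) (nat_lit 14964666473) (nat_lit 111) (nat_lit 5) (nat_lit 117) (nat_lit 5) (nat_lit 112) (nat_lit 5) (nat_lit 346) (nat_lit 307) (nat_lit 127)) (XT.lf (nat_lit 0) (nat_lit 2776325799) (nat_lit 380) (nat_lit 5621582026) (nat_lit 456) (nat_lit 23787347980) (nat_lit 106) (nat_lit 5) (nat_lit 111) (nat_lit 5) (nat_lit 112) (nat_lit 5) (nat_lit 347) (nat_lit 307) (nat_lit 126)))) (XT.nd (nat_lit 78) (nat_lit 380) (nat_lit 0) (XT.lf (nat_lit 0) (nat_lit 13004692508) (nat_lit 456) (nat_lit 14058070359) (nat_lit 76) (nat_lit 5728980353) (nat_lit 106) (nat_lit 5) (nat_lit 112) (nat_lit 5) (nat_lit 107) (nat_lit 5) (nat_lit 348) (nat_lit 307) (nat_lit 125)) (XT.nd (nat_lit 78) (nat_lit 0) (nat_lit 0) (XT.lf (nat_lit 0) (nat_lit 1727162114) (nat_lit 380) (nat_lit 16091476397) (nat_lit 456) (nat_lit 15595721423) (nat_lit 101) (nat_lit 5) (nat_lit 106) (nat_lit 5) (nat_lit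 107) (nat_lit 5) (nat_lit 349) (nat_lit 307) (nat_lit 124)) (XT.lf (nat_lit 0) (nat_lit 18269972478) (nat_lit 380) (nat_lit 4645741661) (nat_lit 456) (nat_lit 11135782984) (nat_lit 101) (nat_lit 5) (nat_lit 106) (nat_lit 5) (nat_lit 107) (nat_lit 5) (nat_lit 350) (nat_lit 307) (nat_lit 123))))) (XT.nd (nat_lit 234) (nat_lit 684) (nat_lit 0) (XT.nd (nat_lit 78) (nat_lit 76) (nat_lit 0) (XT.lf (nat_lit 0) (nat_lit 539047044) (nat_lit 304) (nat_lit 27697341452) (nat_lit 380) (nat_lit 6469242549) (nat_lit 97) (nat_lit 5) (nat_lit 101) (nat_lit 5) (nat_lit 102) (nat_lit 5) (nat_lit 351) (nat_lit 307) (nat_lit 122)) (XT.nd (nat_lit 78) (nat_lit 76) (nat_lit 0) (XT.lf (nat_lit 0) (nat_lit 17621745183) (nat_lit 304) (nat_lit 16296738091) (nat_lit 380) (nat_lit 1454854827) (nat_lit 97) (nat_lit 5) (nat_lit 101) (nat_lit 5) (nat_lit 102) (nat_lit 5) (nat_lit 352) (nat_lit 307) (nat_lit 121)) (XT.lf (nat_lit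 0) (nat_lit 3634518697) (nat_lit 380) (nat_lit 883842877) (nat_lit 76) (nat_lit 31541739393) (nat_lit 96) (nat_lit 5) (nat_lit 101) (nat_lit 5) (nat_lit 97) (nat_lit 5) (nat_lit 353) (nat_lit 307) (nat_lit 120)))) (XT.nd (nat_lit 156) (nat_lit 304) (nat_lit 0) (XT.nd (nat_lit 78) (nat_lit 0) (nat_lit 0) (XT.lf (nat_lit 0) (nat_lit 9080773311) (nat_lit 456) (nat_lit 20037756636) (nat_lit 76) (nat_lit 7641504261) (nat_lit 91) (nat_lit 5) (nat_lit 97) (nat_lit 5) (nat_lit 92) (nat_lit 5) (nat_lit 354) (nat_lit 307) (nat_lit 119)) (XT.lf (nat_lit 0) (nat_lit 14741242899) (nat_lit 456) (nat_lit 2654776363) (nat_lit 76) (nat_lit 20083424138) (nat_lit 91) (nat_lit 5) (nat_lit 97) (nat_lit 5) (nat_lit 92) (nat_lit 5) (nat_lit 355) (nat_lit 307) (nat_lit 118))) (XT.nd (nat_lit 78) (nat_lit 0) (nat_lit 0) (XT.lf (nat_lit 0) (nat_lit 15549277281) (nat_lit 304) (nat_lit 5168881209) (nat_lit 380) (nat_lit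 17497880109) (nat_lit 87) (nat_lit 5) (nat_lit 91) (nat_lit 5) (nat_lit 92) (nat_lit 5) (nat_lit 356) (nat_lit 307) (nat_lit 117)) (XT.lf (nat_lit 0) (nat_lit 26970028486) (nat_lit 380) (nat_lit 4695571771) (nat_lit 76) (nat_lit 7306264604) (nat_lit 87) (nat_lit 5) (nat_lit 92) (nat_lit 5) (nat_lit 88) (nat_lit 5) (nat_lit 357) (nat_lit 307) (nat_lit 116)))))) (XT.nd (nat_lit 468) (nat_lit 836) (nat_lit 0) (XT.nd (nat_lit 234) (nat_lit 304) (nat_lit 0) (XT.nd (nat_lit 78) (nat_lit 380) (nat_lit 0) (XT.lf (nat_lit 0) (nat_lit 14033659140) (nat_lit 304) (nat_lit 19559153326) (nat_lit 380) (nat_lit 6152055244) (nat_lit 83) (nat_lit 5) (nat_lit 87) (nat_lit 5) (nat_lit 88) (nat_lit 5) (nat_lit 358) (nat_lit 307) (nat_lit 115)) (XT.nd (nat_lit 78) (nat_lit 380) (nat_lit 0) (XT.lf (nat_lit 0) (nat_lit 33417293986) (nat_lit 304) (nat_lit 7041726143) (nat_lit 380) (nat_lit 80700773) (nat_lit 83) (nat_lit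 5) (nat_lit 87) (nat_lit 5) (nat_lit 88) (nat_lit 5) (nat_lit 359) (nat_lit 307) (nat_lit 114)) (XT.lf (nat_lit 0) (nat_lit 6224963635) (nat_lit 380) (nat_lit 29212131357) (nat_lit 76) (nat_lit 5914368238) (nat_lit 78) (nat_lit 5) (nat_lit 83) (nat_lit 5) (nat_lit 79) (nat_lit 5) (nat_lit 360) (nat_lit 307) (nat_lit 113)))) (XT.nd (nat_lit 78) (nat_lit 304) (nat_lit 0) (XT.lf (nat_lit 0) (nat_lit 12857936048) (nat_lit 380) (nat_lit 10135392411) (nat_lit 76) (nat_lit 19190014849) (nat_lit 78) (nat_lit 5) (nat_lit 83) (nat_lit 5) (nat_lit 79) (nat_lit 5) (nat_lit 361) (nat_lit 307) (nat_lit 112)) (XT.nd (nat_lit 78) (nat_lit 0) (nat_lit 0) (XT.lf (nat_lit 0) (nat_lit 9699318038) (nat_lit 304) (nat_lit 10081296310) (nat_lit 380) (nat_lit 23256846127) (nat_lit 74) (nat_lit 5) (nat_lit 78) (nat_lit 5) (nat_lit 79) (nat_lit 5) (nat_lit 362) (nat_lit 307) (nat_lit 111)) (XT.lf (nat_lit 0) (nat_lit 27042777873)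 (nat_lit 380) (nat_lit 13612873090) (nat_lit 76) (nat_lit 3257598172) (nat_lit 74) (nat_lit 5) (nat_lit 79) (nat_lit 5) (nat_lit 75) (nat_lit 5) (nat_lit 363) (nat_lit 307) (nat_lit 110))))) (XT.nd (nat_lit 234) (nat_lit 228) (nat_lit 0) (XT.nd (nat_lit 78) (nat_lit 380) (nat_lit 0) (XT.lf (nat_lit 0) (nat_lit 6732184306) (nat_lit 228) (nat_lit 27952732849) (nat_lit 304) (nat_lit 10125533037) (nat_lit 71) (nat_lit 5) (nat_lit 74) (nat_lit 5) (nat_lit 75) (nat_lit 5) (nat_lit 364) (nat_lit 307) (nat_lit 109)) (XT.nd (nat_lit 78) (nat_lit 380) (nat_lit 0) (XT.lf (nat_lit 0) (nat_lit 27963154151) (nat_lit 228) (nat_lit 14728248831) (nat_lit 304) (nat_lit 3039113832) (nat_lit 71) (nat_lit 5) (nat_lit 74) (nat_lit 5) (nat_lit 75) (nat_lit 5) (nat_lit 365) (nat_lit 307) (nat_lit 108)) (XT.lf (nat_lit 0) (nat_lit 3170347238) (nat_lit 304) (nat_lit 1034563669) (nat_lit 380) (nat_lit 42471203784) (nat_lit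 66) (nat_lit 5) (nat_lit 70) (nat_lit 5) (nat_lit 71) (nat_lit 5) (nat_lit 366) (nat_lit 307) (nat_lit 107)))) (XT.nd (nat_lit 156) (nat_lit 228) (nat_lit 0) (XT.nd (nat_lit 78) (nat_lit 0) (nat_lit 0) (XT.lf (nat_lit 0) (nat_lit 11909689653) (nat_lit 380) (nat_lit 22705262046) (nat_lit 76) (nat_lit 13025092438) (nat_lit 66) (nat_lit 5) (nat_lit 71) (nat_lit 5) (nat_lit 67) (nat_lit 5) (nat_lit 367) (nat_lit 307) (nat_lit 106)) (XT.lf (nat_lit 0) (nat_lit 19853610637) (nat_lit 380) (nat_lit 1294346963) (nat_lit 76) (nat_lit 27484695680) (nat_lit 66) (nat_lit 5) (nat_lit 71) (nat_lit 5) (nat_lit 67) (nat_lit 5) (nat_lit 368) (nat_lit 307) (nat_lit 105))) (XT.nd (nat_lit 78) (nat_lit 0) (nat_lit 0) (XT.lf (nat_lit 0) (nat_lit 21168708980) (nat_lit 228) (nat_lit 7068447892) (nat_lit 304) (nat_lit 21411846323) (nat_lit 63) (nat_lit 5) (nat_lit 66) (nat_lit 5) (nat_lit 67) (nat_lit 5) (nat_lit 369)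 (nat_lit 307) (nat_lit 104)) (XT.lf (nat_lit 0) (nat_lit 36954707111) (nat_lit 304) (nat_lit 6438134285) (nat_lit 76) (nat_lit 7300528961) (nat_lit 63) (nat_lit 5) (nat_lit 67) (nat_lit 5) (nat_lit 64) (nat_lit 5) (nat_lit 370) (nat_lit 307) (nat_lit 103))))))) (XT.nd (nat_lit 1014) (nat_lit 684) (nat_lit 0) (XT.nd (nat_lit 468) (nat_lit 608) (nat_lit 0) (XT.nd (nat_lit 234) (nat_lit 228) (nat_lit 0) (XT.nd (nat_lit 78) (nat_lit 304) (nat_lit 0) (XT.lf (nat_lit 0) (nat_lit 16514368401) (nat_lit 228) (nat_lit 29646052121) (nat_lit 304) (nat_lit 5601850540) (nat_lit 60) (nat_lit 5) (nat_lit 63) (nat_lit 5) (nat_lit 64) (nat_lit 5) (nat_lit 371) (nat_lit 307) (nat_lit 102)) (XT.nd (nat_lit 78) (nat_lit 228) (nat_lit 0) (XT.lf (nat_lit 0) (nat_lit 2788407623) (nat_lit 304) (nat_lit 12604428541) (nat_lit 76) (nat_lit 37467695615) (nat_lit 59) (nat_lit 5) (nat_lit 63) (nat_lit 5) (nat_lit 60) (nat_lit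 5) (nat_lit 372) (nat_lit 307) (nat_lit 101)) (XT.lf (nat_lit 0) (nat_lit 10871925721) (nat_lit 228) (nat_lit 548338957) (nat_lit 304) (nat_lit 42566738731) (nat_lit 56) (nat_lit 5) (nat_lit 59) (nat_lit 5) (nat_lit 60) (nat_lit 5) (nat_lit 373) (nat_lit 307) (nat_lit 100)))) (XT.nd (nat_lit 78) (nat_lit 228) (nat_lit 0) (XT.lf (nat_lit 0) (nat_lit 20579316045) (nat_lit 304) (nat_lit 19978597226) (nat_lit 76) (nat_lit 14581310206) (nat_lit 56) (nat_lit 5) (nat_lit 60) (nat_lit 5) (nat_lit 57) (nat_lit 5) (nat_lit 374) (nat_lit 307) (nat_lit 99)) (XT.nd (nat_lit 78) (nat_lit 0) (nat_lit 0) (XT.lf (nat_lit 0) (nat_lit 3920002077) (nat_lit 228) (nat_lit 26134299991) (nat_lit 304) (nat_lit 26270474589) (nat_lit 53) (nat_lit 5) (nat_lit 56) (nat_lit 5) (nat_lit 57) (nat_lit 5) (nat_lit 375) (nat_lit 307) (nat_lit 98)) (XT.lf (nat_lit 0) (nat_lit 28942090983) (nat_lit 228) (nat_lit 11071271694) (nat_lit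 304) (nat_lit 17526540370) (nat_lit 53) (nat_lit 5) (nat_lit 56) (nat_lit 5) (nat_lit 57) (nat_lit 5) (nat_lit 376) (nat_lit 307) (nat_lit 97))))) (XT.nd (nat_lit 234) (nat_lit 380) (nat_lit 0) (XT.nd (nat_lit 78) (nat_lit 228) (nat_lit 0) (XT.lf (nat_lit 0) (nat_lit 50312036244) (nat_lit 304) (nat_lit 4122325151) (nat_lit 76) (nat_lit 4355897922) (nat_lit 53) (nat_lit 5) (nat_lit 57) (nat_lit 5) (nat_lit 54) (nat_lit 5) (nat_lit 377) (nat_lit 307) (nat_lit 96)) (XT.nd (nat_lit 78) (nat_lit 0) (nat_lit 0) (XT.lf (nat_lit 0) (nat_lit 1141657989) (nat_lit 228) (nat_lit 38687548219) (nat_lit 76) (nat_lit 20239182560) (nat_lit 50) (nat_lit 5) (nat_lit 53) (nat_lit 5) (nat_lit 51) (nat_lit 5) (nat_lit 378) (nat_lit 307) (nat_lit 95)) (XT.lf (nat_lit 0) (nat_lit 10919958376) (nat_lit 228) (nat_lit 13737255349) (nat_lit 76) (nat_lit 36723924500) (nat_lit 50) (nat_lit 5) (nat_lit 53) (nat_lit 5) (nat_lit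 51) (nat_lit 5) (nat_lit 379) (nat_lit 307) (nat_lit 94)))) (XT.nd (nat_lit 156) (nat_lit 152) (nat_lit 0) (XT.nd (nat_lit 78) (nat_lit 0) (nat_lit 0) (XT.lf (nat_lit 0) (nat_lit 12196740926) (nat_lit 228) (nat_lit 8910349411) (nat_lit 304) (nat_lit 41622716529) (nat_lit 47) (nat_lit 5) (nat_lit 50) (nat_lit 5) (nat_lit 51) (nat_lit 5) (nat_lit 380) (nat_lit 307) (nat_lit 93)) (XT.lf (nat_lit 0) (nat_lit 31808441399) (nat_lit 304) (nat_lit 24998871269) (nat_lit 76) (nat_lit 7305365885) (nat_lit 47) (nat_lit 5) (nat_lit 51) (nat_lit 5) (nat_lit 48) (nat_lit 5) (nat_lit 381) (nat_lit 307) (nat_lit 92))) (XT.nd (nat_lit 78) (nat_lit 0) (nat_lit 0) (XT.lf (nat_lit 0) (nat_lit 1234475903) (nat_lit 152) (nat_lit 41694750268) (nat_lit 228) (nat_lit 22604859533) (nat_lit 45) (nat_lit 5) (nat_lit 47) (nat_lit 5) (nat_lit 48) (nat_lit 5) (nat_lit 382) (nat_lit 307) (nat_lit 91)) (XT.lf (nat_lit 0) (nat_lit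 28764561589) (nat_lit 152) (nat_lit 25869841109) (nat_lit 228) (nat_lit 12356210403) (nat_lit 45) (nat_lit 5) (nat_lit 47) (nat_lit 5) (nat_lit 48) (nat_lit 5) (nat_lit 383) (nat_lit 307) (nat_lit 90)))))) (XT.nd (nat_lit 546) (nat_lit 76) (nat_lit 0) (XT.nd (nat_lit 234) (nat_lit 304) (nat_lit 0) (XT.nd (nat_lit 78) (nat_lit 304) (nat_lit 0) (XT.lf (nat_lit 0) (nat_lit 57117914646) (nat_lit 152) (nat_lit 9571197183) (nat_lit 228) (nat_lit 1801774217) (nat_lit 45) (nat_lit 5) (nat_lit 47) (nat_lit 5) (nat_lit 48) (nat_lit 5) (nat_lit 384) (nat_lit 307) (nat_lit 89)) (XT.nd (nat_lit 78) (nat_lit 0) (nat_lit 0) (XT.lf (nat_lit 0) (nat_lit 9121306236) (nat_lit 304) (nat_lit 53582370053) (nat_lit 76) (nat_lit 7323006912) (nat_lit 41) (nat_lit 5) (nat_lit 45) (nat_lit 5) (nat_lit 42) (nat_lit 5) (nat_lit 385) (nat_lit 307) (nat_lit 88)) (XT.lf (nat_lit 0) (nat_lit 20545031458) (nat_lit 304) (nat_lit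 26392202895) (nat_lit 76) (nat_lit 24664510707) (nat_lit 41) (nat_lit 5) (nat_lit 45) (nat_lit 5) (nat_lit 42) (nat_lit 5) (nat_lit 386) (nat_lit 307) (nat_lit 87)))) (XT.nd (nat_lit 156) (nat_lit 152) (nat_lit 0) (XT.nd (nat_lit 78) (nat_lit 0) (nat_lit 0) (XT.lf (nat_lit 0) (nat_lit 1643205781) (nat_lit 152) (nat_lit 30682524287) (nat_lit 228) (nat_lit 40897901787) (nat_lit 39) (nat_lit 5) (nat_lit 41) (nat_lit 5) (nat_lit 42) (nat_lit 5) (nat_lit 387) (nat_lit 307) (nat_lit 86)) (XT.lf (nat_lit 0) (nat_lit 31058187432) (nat_lit 152) (nat_lit 13666658446) (nat_lit 228) (nat_lit 30161380389) (nat_lit 39) (nat_lit 5) (nat_lit 41) (nat_lit 5) (nat_lit 42) (nat_lit 5) (nat_lit 388) (nat_lit 307) (nat_lit 85))) (XT.nd (nat_lit 78) (nat_lit 152) (nat_lit 0) (XT.lf (nat_lit 0) (nat_lit 57531558377) (nat_lit 228) (nat_lit 15282647978) (nat_lit 76) (nat_lit 3783424337) (nat_lit 39) (nat_lit 5) (nat_lit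 42) (nat_lit 5) (nat_lit 40) (nat_lit 5) (nat_lit 389) (nat_lit 307) (nat_lit 84)) (XT.lf (nat_lit 0) (nat_lit 14259653838) (nat_lit 152) (nat_lit 56733769013) (nat_lit 228) (nat_lit 7358826729) (nat_lit 37) (nat_lit 5) (nat_lit 39) (nat_lit 5) (nat_lit 40) (nat_lit 5) (nat_lit 390) (nat_lit 307) (nat_lit 83))))) (XT.nd (nat_lit 34242) (nat_lit 0) (nat_lit 11476) (XT.nd (nat_lit 78) (nat_lit 0) (nat_lit 0) (XT.lf (nat_lit 0) (nat_lit 4762350959) (nat_lit 228) (nat_lit 35202477361) (nat_lit 76) (nat_lit 40188691596) (nat_lit 36) (nat_lit 5) (nat_lit 39) (nat_lit 5) (nat_lit 37) (nat_lit 5) (nat_lit 391) (nat_lit 307) (nat_lit 82)) (XT.nd (nat_lit 34086) (nat_lit 0) (nat_lit 11476) (XT.lf (nat_lit 0) (nat_lit 17097869351) (nat_lit 228) (nat_lit 5520845519) (nat_lit 76) (nat_lit 59387970164) (nat_lit 36) (nat_lit 5) (nat_lit 39) (nat_lit 5) (nat_lit 37) (nat_lit 5) (nat_lit 392) (nat_lit 307) (nat_lit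 81)) (XT.lf (nat_lit 0) (nat_lit 585440202) (nat_lit 0) (nat_lit 585440202) (nat_lit 1140) (nat_lit 7362733022) (nat_lit 187) (nat_lit 5) (nat_lit 187) (nat_lit 3) (nat_lit 202) (nat_lit 3) (nat_lit 308) (nat_lit 308) (nat_lit 164)))) (XT.nd (nat_lit 156) (nat_lit 0) (nat_lit 76) (XT.nd (nat_lit 78) (nat_lit 0) (nat_lit 0) (XT.lf (nat_lit 0) (nat_lit 2656003401) (nat_lit 1140) (nat_lit 8325108714) (nat_lit 1216) (nat_lit 6333456146) (nat_lit 187) (nat_lit 5) (nat_lit 202) (nat_lit 3) (nat_lit 203) (nat_lit 5) (nat_lit 309) (nat_lit 308) (nat_lit 163)) (XT.lf (nat_lit 0) (nat_lit 2982837037) (nat_lit 1140) (nat_lit 542867888) (nat_lit 1216) (nat_lit 14043541528) (nat_lit 187) (nat_lit 5) (nat_lit 202) (nat_lit 3) (nat_lit 203) (nat_lit 5) (nat_lit 310) (nat_lit 308) (nat_lit 162))) (XT.nd (nat_lit 78) (nat_lit 0) (nat_lit 0) (XT.lf (nat_lit 0) (nat_lit 3425197908) (nat_lit 1140) (nat_lit 10253243252)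 (nat_lit 1216) (nat_lit 4149963286) (nat_lit 188) (nat_lit 5) (nat_lit 203) (nat_lit 5) (nat_lit 204) (nat_lit 5) (nat_lit 311) (nat_lit 308) (nat_lit 161)) (XT.lf (nat_lit 0) (nat_lit 3913321354) (nat_lit 1140) (nat_lit 2186926460) (nat_lit 1216) (nat_lit 11994125409) (nat_lit 188) (nat_lit 5) (nat_lit 203) (nat_lit 5) (nat_lit 204) (nat_lit 5) (nat_lit 312) (nat_lit 308) (nat_lit 160))))))))
noncomputable def xc211 : XT := (XT.nd (nat_lit 2106) (nat_lit 4788) (nat_lit 0) (XT.nd (nat_lit 1014) (nat_lit 4180) (nat_lit 0) (XT.nd (nat_lit 468) (nat_lit 0) (nat_lit 152) (XT.nd (nat_lit 234) (nat_lit 0) (nat_lit 76) (XT.nd (nat_lit 78) (nat_lit 0) (nat_lit 0) (XT.lf (nat_lit 0) (nat_lit 4485353856) (nat_lit 1140) (nat_lit 12145178971) (nat_lit 1216) (nat_lit 1735720758) (nat_lit 189) (nat_lit 5) (nat_lit 204) (nat_lit 5) (nat_lit 205) (nat_lit 5) (nat_lit 313) (nat_lit 308) (nat_lit 159)) (XT.nd (nat_lit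 78) (nat_lit 0) (nat_lit 0) (XT.lf (nat_lit 0) (nat_lit 5149738757) (nat_lit 1140) (nat_lit 3784836423) (nat_lit 1216) (nat_lit 9709469613) (nat_lit 189) (nat_lit 5) (nat_lit 204) (nat_lit 5) (nat_lit 205) (nat_lit 5) (nat_lit 314) (nat_lit 308) (nat_lit 158)) (XT.lf (nat_lit 76) (nat_lit 4917678998) (nat_lit 0) (nat_lit 956357277) (nat_lit 1216) (nat_lit 13054943912) (nat_lit 190) (nat_lit 5) (nat_lit 189) (nat_lit 5) (nat_lit 205) (nat_lit 5) (nat_lit 315) (nat_lit 308) (nat_lit 157)))) (XT.nd (nat_lit 78) (nat_lit 0) (nat_lit 0) (XT.lf (nat_lit 0) (nat_lit 6721362313) (nat_lit 1140) (nat_lit 5337441202) (nat_lit 1216) (nat_lit 7160630733) (nat_lit 190) (nat_lit 5) (nat_lit 205) (nat_lit 5) (nat_lit 206) (nat_lit 5) (nat_lit 316) (nat_lit 308) (nat_lit 156)) (XT.nd (nat_lit 78) (nat_lit 0) (nat_lit 76) (XT.lf (nat_lit 76) (nat_lit 3653802523) (nat_lit 0) (nat_lit 3978006389) (nat_lit 1216) (nat_lit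 11885671309) (nat_lit 191) (nat_lit 5) (nat_lit 190) (nat_lit 5) (nat_lit 206) (nat_lit 5) (nat_lit 317) (nat_lit 308) (nat_lit 155)) (XT.lf (nat_lit 0) (nat_lit 8659055100) (nat_lit 1140) (nat_lit 6845805024) (nat_lit 1216) (nat_lit 4316931906) (nat_lit 191) (nat_lit 5) (nat_lit 206) (nat_lit 5) (nat_lit 207) (nat_lit 5) (nat_lit 318) (nat_lit 308) (nat_lit 154))))) (XT.nd (nat_lit 234) (nat_lit 0) (nat_lit 76) (XT.nd (nat_lit 78) (nat_lit 0) (nat_lit 76) (XT.lf (nat_lit 76) (nat_lit 2446246146) (nat_lit 0) (nat_lit 7327255094) (nat_lit 1216) (nat_lit 10360049255) (nat_lit 192) (nat_lit 5) (nat_lit 191) (nat_lit 5) (nat_lit 207) (nat_lit 5) (nat_lit 319) (nat_lit 308) (nat_lit 153)) (XT.nd (nat_lit 78) (nat_lit 0) (nat_lit 0) (XT.lf (nat_lit 0) (nat_lit 10995369824) (nat_lit 1140) (nat_lit 8311290076) (nat_lit 1216) (nat_lit 1145790667) (nat_lit 192) (nat_lit 5) (nat_lit 207) (nat_lit 5) (nat_lit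 208) (nat_lit 5) (nat_lit 320) (nat_lit 308) (nat_lit 152)) (XT.lf (nat_lit 76) (nat_lit 1293973053) (nat_lit 0) (nat_lit 11038735181) (nat_lit 1216) (nat_lit 8445853268) (nat_lit 193) (nat_lit 5) (nat_lit 192) (nat_lit 5) (nat_lit 208) (nat_lit 5) (nat_lit 321) (nat_lit 308) (nat_lit 151)))) (XT.nd (nat_lit 156) (nat_lit 0) (nat_lit 76) (XT.nd (nat_lit 78) (nat_lit 0) (nat_lit 76) (XT.lf (nat_lit 76) (nat_lit 11353079224) (nat_lit 0) (nat_lit 2434978229) (nat_lit 1216) (nat_lit 7324069626) (nat_lit 193) (nat_lit 5) (nat_lit 192) (nat_lit 5) (nat_lit 208) (nat_lit 5) (nat_lit 322) (nat_lit 308) (nat_lit 150)) (XT.lf (nat_lit 76) (nat_lit 195547756) (nat_lit 0) (nat_lit 15149329680) (nat_lit 1216) (nat_lit 6109095680) (nat_lit 194) (nat_lit 5) (nat_lit 193) (nat_lit 5) (nat_lit 209) (nat_lit 5) (nat_lit 323) (nat_lit 308) (nat_lit 149))) (XT.nd (nat_lit 78) (nat_lit 0) (nat_lit 76) (XT.lf (nat_lit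 76) (nat_lit 10619542364) (nat_lit 0) (nat_lit 6445555746) (nat_lit 1216) (nat_lit 4737483114) (nat_lit 194) (nat_lit 5) (nat_lit 193) (nat_lit 5) (nat_lit 209) (nat_lit 5) (nat_lit 324) (nat_lit 308) (nat_lit 148)) (XT.lf (nat_lit 0) (nat_lit 18855595511) (nat_lit 1140) (nat_lit 834356067) (nat_lit 76) (nat_lit 2471143247) (nat_lit 194) (nat_lit 5) (nat_lit 209) (nat_lit 5) (nat_lit 195) (nat_lit 5) (nat_lit 325) (nat_lit 308) (nat_lit 147)))))) (XT.nd (nat_lit 546) (nat_lit 1596) (nat_lit 0) (XT.nd (nat_lit 234) (nat_lit 1140) (nat_lit 0) (XT.nd (nat_lit 78) (nat_lit 684) (nat_lit 0) (XT.lf (nat_lit 0) (nat_lit 9950530866) (nat_lit 1140) (nat_lit 10903359261) (nat_lit 1216) (nat_lit 1671858376) (nat_lit 179) (nat_lit 5) (nat_lit 194) (nat_lit 5) (nat_lit 195) (nat_lit 5) (nat_lit 326) (nat_lit 308) (nat_lit 146)) (XT.nd (nat_lit 78) (nat_lit 608) (nat_lit 0) (XT.lf (nat_lit 0) (nat_lit 13758292)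 (nat_lit 1216) (nat_lit 1829885601) (nat_lit 76) (nat_lit 21057606202) (nat_lit 178) (nat_lit 5) (nat_lit 194) (nat_lit 5) (nat_lit 179) (nat_lit 5) (nat_lit 327) (nat_lit 308) (nat_lit 145)) (XT.lf (nat_lit 0) (nat_lit 1874566860) (nat_lit 684) (nat_lit 13957870826) (nat_lit 76) (nat_lit 7450342208) (nat_lit 170) (nat_lit 5) (nat_lit 179) (nat_lit 5) (nat_lit 171) (nat_lit 5) (nat_lit 328) (nat_lit 308) (nat_lit 144)))) (XT.nd (nat_lit 156) (nat_lit 532) (nat_lit 0) (XT.nd (nat_lit 78) (nat_lit 608) (nat_lit 0) (XT.lf (nat_lit 0) (nat_lit 3823051442) (nat_lit 684) (nat_lit 2846440111) (nat_lit 76) (nat_lit 17005314821) (nat_lit 170) (nat_lit 5) (nat_lit 179) (nat_lit 5) (nat_lit 171) (nat_lit 5) (nat_lit 329) (nat_lit 308) (nat_lit 143)) (XT.lf (nat_lit 0) (nat_lit 5936776668) (nat_lit 684) (nat_lit 15338826199) (nat_lit 76) (nat_lit 2799793358) (nat_lit 162) (nat_lit 5) (nat_lit 171) (nat_lit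 5) (nat_lit 163) (nat_lit 5) (nat_lit 330) (nat_lit 308) (nat_lit 142))) (XT.nd (nat_lit 78) (nat_lit 532) (nat_lit 0) (XT.lf (nat_lit 0) (nat_lit 8204163735) (nat_lit 684) (nat_lit 3832674958) (nat_lit 76) (nat_lit 12448463554) (nat_lit 162) (nat_lit 5) (nat_lit 171) (nat_lit 5) (nat_lit 163) (nat_lit 5) (nat_lit 331) (nat_lit 308) (nat_lit 141)) (XT.lf (nat_lit 0) (nat_lit 8173659291) (nat_lit 532) (nat_lit 2439810969) (nat_lit 608) (nat_lit 14291824059) (nat_lit 155) (nat_lit 5) (nat_lit 162) (nat_lit 5) (nat_lit 163) (nat_lit 5) (nat_lit 332) (nat_lit 308) (nat_lit 140))))) (XT.nd (nat_lit 234) (nat_lit 1064) (nat_lit 0) (XT.nd (nat_lit 78) (nat_lit 532) (nat_lit 0) (XT.lf (nat_lit 0) (nat_lit 13201130886) (nat_lit 608) (nat_lit 4794524899) (nat_lit 76) (nat_lit 7339053753) (nat_lit 155) (nat_lit 5) (nat_lit 163) (nat_lit 5) (nat_lit 156) (nat_lit 5) (nat_lit 333) (nat_lit 308) (nat_lit 139))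 (XT.nd (nat_lit 78) (nat_lit 0) (nat_lit 0) (XT.lf (nat_lit 0) (nat_lit 7620785768) (nat_lit 532) (nat_lit 8338603189) (nat_lit 608) (nat_lit 9814834700) (nat_lit 148) (nat_lit 5) (nat_lit 155) (nat_lit 5) (nat_lit 156) (nat_lit 5) (nat_lit 334) (nat_lit 308) (nat_lit 138)) (XT.lf (nat_lit 0) (nat_lit 18860389826) (nat_lit 608) (nat_lit 5739126762) (nat_lit 76) (nat_lit 1625612073) (nat_lit 148) (nat_lit 5) (nat_lit 156) (nat_lit 5) (nat_lit 149) (nat_lit 5) (nat_lit 335) (nat_lit 308) (nat_lit 137)))) (XT.nd (nat_lit 156) (nat_lit 608) (nat_lit 0) (XT.nd (nat_lit 78) (nat_lit 0) (nat_lit 0) (XT.lf (nat_lit 0) (nat_lit 7099159314) (nat_lit 456) (nat_lit 14895832000) (nat_lit 532) (nat_lit 4690177539) (nat_lit 142) (nat_lit 5) (nat_lit 148) (nat_lit 5) (nat_lit 149) (nat_lit 5) (nat_lit 336) (nat_lit 308) (nat_lit 136)) (XT.lf (nat_lit 0) (nat_lit 20435859693) (nat_lit 456) (nat_lit 4841574918)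 (nat_lit 532) (nat_lit 1879966534) (nat_lit 142) (nat_lit 5) (nat_lit 148) (nat_lit 5) (nat_lit 149) (nat_lit 5) (nat_lit 337) (nat_lit 308) (nat_lit 135))) (XT.nd (nat_lit 78) (nat_lit 0) (nat_lit 0) (XT.lf (nat_lit 0) (nat_lit 1108282913) (nat_lit 608) (nat_lit 21051026052) (nat_lit 76) (nat_lit 5480797696) (nat_lit 134) (nat_lit 5) (nat_lit 142) (nat_lit 5) (nat_lit 135) (nat_lit 5) (nat_lit 338) (nat_lit 308) (nat_lit 134)) (XT.lf (nat_lit 0) (nat_lit 4260877707) (nat_lit 608) (nat_lit 7770090720) (nat_lit 76) (nat_lit 16102396590) (nat_lit 134) (nat_lit 5) (nat_lit 142) (nat_lit 5) (nat_lit 135) (nat_lit 5) (nat_lit 339) (nat_lit 308) (nat_lit 133))))))) (XT.nd (nat_lit 1014) (nat_lit 1976) (nat_lit 0) (XT.nd (nat_lit 468) (nat_lit 1520) (nat_lit 0) (XT.nd (nat_lit 234) (nat_lit 380) (nat_lit 0) (XT.nd (nat_lit 78) (nat_lit 456) (nat_lit 0) (XT.lf (nat_lit 0) (nat_lit 6022504083) (nat_lit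 456) (nat_lit 1539555276) (nat_lit 532) (nat_lit 21077745943) (nat_lit 128) (nat_lit 5) (nat_lit 134) (nat_lit 5) (nat_lit 135) (nat_lit 5) (nat_lit 340) (nat_lit 308) (nat_lit 132)) (XT.nd (nat_lit 78) (nat_lit 456) (nat_lit 0) (XT.lf (nat_lit 0) (nat_lit 11126777326) (nat_lit 532) (nat_lit 8865143758) (nat_lit 76) (nat_lit 9164587006) (nat_lit 128) (nat_lit 5) (nat_lit 135) (nat_lit 5) (nat_lit 129) (nat_lit 5) (nat_lit 341) (nat_lit 308) (nat_lit 131)) (XT.lf (nat_lit 0) (nat_lit 5385184976) (nat_lit 456) (nat_lit 9476556876) (nat_lit 532) (nat_lit 14825075152) (nat_lit 122) (nat_lit 5) (nat_lit 128) (nat_lit 5) (nat_lit 129) (nat_lit 5) (nat_lit 342) (nat_lit 308) (nat_lit 130)))) (XT.nd (nat_lit 78) (nat_lit 380) (nat_lit 0) (XT.lf (nat_lit 0) (nat_lit 18808538704) (nat_lit 532) (nat_lit 10003804608) (nat_lit 76) (nat_lit 1417702440) (nat_lit 122) (nat_lit 5) (nat_lit 129) (nat_lit 5) (nat_lit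 123) (nat_lit 5) (nat_lit 343) (nat_lit 308) (nat_lit 129)) (XT.nd (nat_lit 78) (nat_lit 0) (nat_lit 0) (XT.lf (nat_lit 0) (nat_lit 4717000302) (nat_lit 380) (nat_lit 18292373637) (nat_lit 456) (nat_lit 7776132345) (nat_lit 117) (nat_lit 5) (nat_lit 122) (nat_lit 5) (nat_lit 123) (nat_lit 5) (nat_lit 344) (nat_lit 308) (nat_lit 128)) (XT.lf (nat_lit 0) (nat_lit 20080362784) (nat_lit 380) (nat_lit 7353417977) (nat_lit 456) (nat_lit 3920927309) (nat_lit 117) (nat_lit 5) (nat_lit 122) (nat_lit 5) (nat_lit 123) (nat_lit 5) (nat_lit 345) (nat_lit 308) (nat_lit 127))))) (XT.nd (nat_lit 234) (nat_lit 684) (nat_lit 0) (XT.nd (nat_lit 78) (nat_lit 380) (nat_lit 0) (XT.lf (nat_lit 0) (nat_lit 122369245) (nat_lit 456) (nat_lit 27940048623) (nat_lit 76) (nat_lit 3876354968) (nat_lit 111) (nat_lit 5) (nat_lit 117) (nat_lit 5) (nat_lit 112) (nat_lit 5) (nat_lit 346) (nat_lit 308) (nat_lit 126)) (XT.nd (nat_lit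 78) (nat_lit 380) (nat_lit 0) (XT.lf (nat_lit 0) (nat_lit 4392585546) (nat_lit 456) (nat_lit 12692742613) (nat_lit 76) (nat_lit 15448337436) (nat_lit 111) (nat_lit 5) (nat_lit 117) (nat_lit 5) (nat_lit 112) (nat_lit 5) (nat_lit 347) (nat_lit 308) (nat_lit 125)) (XT.lf (nat_lit 0) (nat_lit 3067824594) (nat_lit 380) (nat_lit 5749316745) (nat_lit 456) (nat_lit 24328480218) (nat_lit 106) (nat_lit 5) (nat_lit 111) (nat_lit 5) (nat_lit 112) (nat_lit 5) (nat_lit 348) (nat_lit 308) (nat_lit 124)))) (XT.nd (nat_lit 156) (nat_lit 304) (nat_lit 0) (XT.nd (nat_lit 78) (nat_lit 380) (nat_lit 0) (XT.lf (nat_lit 0) (nat_lit 13557638680) (nat_lit 456) (nat_lit 14273008911) (nat_lit 76) (nat_lit 5939795771) (nat_lit 106) (nat_lit 5) (nat_lit 112) (nat_lit 5) (nat_lit 107) (nat_lit 5) (nat_lit 349) (nat_lit 308) (nat_lit 123)) (XT.lf (nat_lit 0) (nat_lit 1983753050) (nat_lit 380) (nat_lit 16529476541) (nat_lit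 456) (nat_lit 15898597083) (nat_lit 101) (nat_lit 5) (nat_lit 106) (nat_lit 5) (nat_lit 107) (nat_lit 5) (nat_lit 350) (nat_lit 308) (nat_lit 122))) (XT.nd (nat_lit 78) (nat_lit 304) (nat_lit 0) (XT.lf (nat_lit 0) (nat_lit 19016883373) (nat_lit 380) (nat_lit 4741672989) (nat_lit 456) (nat_lit 11309666199) (nat_lit 101) (nat_lit 5) (nat_lit 106) (nat_lit 5) (nat_lit 107) (nat_lit 5) (nat_lit 351) (nat_lit 308) (nat_lit 121)) (XT.lf (nat_lit 0) (nat_lit 756439780) (nat_lit 304) (nat_lit 28480225489) (nat_lit 380) (nat_lit 6505385416) (nat_lit 97) (nat_lit 5) (nat_lit 101) (nat_lit 5) (nat_lit 102) (nat_lit 5) (nat_lit 352) (nat_lit 308) (nat_lit 120)))))) (XT.nd (nat_lit 546) (nat_lit 912) (nat_lit 0) (XT.nd (nat_lit 234) (nat_lit 608) (nat_lit 0) (XT.nd (nat_lit 78) (nat_lit 456) (nat_lit 0) (XT.lf (nat_lit 0) (nat_lit 18345758047) (nat_lit 304) (nat_lit 16739003140) (nat_lit 380) (nat_lit 1345166093)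 (nat_lit 97) (nat_lit 5) (nat_lit 101) (nat_lit 5) (nat_lit 102) (nat_lit 5) (nat_lit 353) (nat_lit 308) (nat_lit 119)) (XT.nd (nat_lit 78) (nat_lit 380) (nat_lit 0) (XT.lf (nat_lit 0) (nat_lit 3889517628) (nat_lit 380) (nat_lit 717642117) (nat_lit 76) (nat_lit 32530224657) (nat_lit 96) (nat_lit 5) (nat_lit 101) (nat_lit 5) (nat_lit 97) (nat_lit 5) (nat_lit 354) (nat_lit 308) (nat_lit 118)) (XT.lf (nat_lit 0) (nat_lit 9497197351) (nat_lit 456) (nat_lit 20444074164) (nat_lit 76) (nat_lit 7917107100) (nat_lit 91) (nat_lit 5) (nat_lit 97) (nat_lit 5) (nat_lit 92) (nat_lit 5) (nat_lit 355) (nat_lit 308) (nat_lit 117)))) (XT.nd (nat_lit 156) (nat_lit 304) (nat_lit 0) (XT.nd (nat_lit 78) (nat_lit 304) (nat_lit 0) (XT.lf (nat_lit 0) (nat_lit 15323286827) (nat_lit 456) (nat_lit 2545278711) (nat_lit 76) (nat_lit 20730934348) (nat_lit 91) (nat_lit 5) (nat_lit 97) (nat_lit 5) (nat_lit 92) (nat_lit 5) (nat_lit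 356) (nat_lit 308) (nat_lit 116)) (XT.lf (nat_lit 0) (nat_lit 16203042219) (nat_lit 304) (nat_lit 5274195942) (nat_lit 380) (nat_lit 17881026795) (nat_lit 87) (nat_lit 5) (nat_lit 91) (nat_lit 5) (nat_lit 92) (nat_lit 5) (nat_lit 357) (nat_lit 308) (nat_lit 115))) (XT.nd (nat_lit 78) (nat_lit 304) (nat_lit 0) (XT.lf (nat_lit 0) (nat_lit 27913122700) (nat_lit 380) (nat_lit 4650940694) (nat_lit 76) (nat_lit 7572812608) (nat_lit 87) (nat_lit 5) (nat_lit 92) (nat_lit 5) (nat_lit 88) (nat_lit 5) (nat_lit 358) (nat_lit 308) (nat_lit 114)) (XT.lf (nat_lit 0) (nat_lit 14638348534) (nat_lit 304) (nat_lit 20094104587) (nat_lit 380) (nat_lit 6200683569) (nat_lit 83) (nat_lit 5) (nat_lit 87) (nat_lit 5) (nat_lit 88) (nat_lit 5) (nat_lit 359) (nat_lit 308) (nat_lit 113))))) (XT.nd (nat_lit 234) (nat_lit 532) (nat_lit 0) (XT.nd (nat_lit 78) (nat_lit 304) (nat_lit 0) (XT.lf (nat_lit 0) (nat_lit 47899027) (nat_lit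 380) (nat_lit 7154281293) (nat_lit 76) (nat_lit 34549759820) (nat_lit 82) (nat_lit 5) (nat_lit 87) (nat_lit 5) (nat_lit 83) (nat_lit 5) (nat_lit 360) (nat_lit 308) (nat_lit 112)) (XT.nd (nat_lit 78) (nat_lit 0) (nat_lit 0) (XT.lf (nat_lit 0) (nat_lit 6539564291) (nat_lit 380) (nat_lit 29905817747) (nat_lit 76) (nat_lit 6142678472) (nat_lit 78) (nat_lit 5) (nat_lit 83) (nat_lit 5) (nat_lit 79) (nat_lit 5) (nat_lit 361) (nat_lit 308) (nat_lit 111)) (XT.lf (nat_lit 0) (nat_lit 13367802038) (nat_lit 380) (nat_lit 10262097338) (nat_lit 76) (nat_lit 19815112564) (nat_lit 78) (nat_lit 5) (nat_lit 83) (nat_lit 5) (nat_lit 79) (nat_lit 5) (nat_lit 362) (nat_lit 308) (nat_lit 110)))) (XT.nd (nat_lit 156) (nat_lit 228) (nat_lit 0) (XT.nd (nat_lit 78) (nat_lit 0) (nat_lit 0) (XT.lf (nat_lit 0) (nat_lit 10165915631) (nat_lit 304) (nat_lit 10330317829) (nat_lit 380) (nat_lit 23828580121) (nat_lit 74) (nat_lit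 5) (nat_lit 78) (nat_lit 5) (nat_lit 79) (nat_lit 5) (nat_lit 363) (nat_lit 308) (nat_lit 109)) (XT.lf (nat_lit 0) (nat_lit 27973201173) (nat_lit 380) (nat_lit 13847593962) (nat_lit 76) (nat_lit 3406175637) (nat_lit 74) (nat_lit 5) (nat_lit 79) (nat_lit 5) (nat_lit 75) (nat_lit 5) (nat_lit 364) (nat_lit 308) (nat_lit 108))) (XT.nd (nat_lit 78) (nat_lit 0) (nat_lit 0) (XT.lf (nat_lit 0) (nat_lit 7106112555) (nat_lit 228) (nat_lit 28736674993) (nat_lit 304) (nat_lit 10308357786) (nat_lit 71) (nat_lit 5) (nat_lit 74) (nat_lit 5) (nat_lit 75) (nat_lit 5) (nat_lit 365) (nat_lit 308) (nat_lit 107)) (XT.lf (nat_lit 0) (nat_lit 28969002873) (nat_lit 228) (nat_lit 15117047906) (nat_lit 304) (nat_lit 3012868564) (nat_lit 71) (nat_lit 5) (nat_lit 74) (nat_lit 5) (nat_lit 75) (nat_lit 5) (nat_lit 366) (nat_lit 308) (nat_lit 106))))))))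
noncomputable def xc212 : XT := (XT.nd (nat_lit 36114) (nat_lit 0) (nat_lit 8512) (XT.nd (nat_lit 1014) (nat_lit 1064) (nat_lit 0) (XT.nd (nat_lit 468) (nat_lit 760) (nat_lit 0) (XT.nd (nat_lit 234) (nat_lit 456) (nat_lit 0) (XT.nd (nat_lit 78) (nat_lit 0) (nat_lit 0) (XT.lf (nat_lit 0) (nat_lit 3433135847) (nat_lit 304) (nat_lit 1011308408) (nat_lit 380) (nat_lit 43628461991) (nat_lit 66) (nat_lit 5) (nat_lit 70) (nat_lit 5) (nat_lit 71) (nat_lit 5) (nat_lit 367) (nat_lit 308) (nat_lit 105)) (XT.nd (nat_lit 78) (nat_lit 0) (nat_lit 0) (XT.lf (nat_lit 0) (nat_lit 12377570546) (nat_lit 380) (nat_lit 23220742055) (nat_lit 76) (nat_lit 13467527479) (nat_lit 66) (nat_lit 5) (nat_lit 71) (nat_lit 5) (nat_lit 67) (nat_lit 5) (nat_lit 368) (nat_lit 308) (nat_lit 104)) (XT.lf (nat_lit 0) (nat_lit 20556588086) (nat_lit 380) (nat_lit 1172325088) (nat_lit 76) (nat_lit 28359413509) (nat_lit 66) (nat_lit 5)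 (nat_lit 71) (nat_lit 5) (nat_lit 67) (nat_lit 5) (nat_lit 369) (nat_lit 308) (nat_lit 103)))) (XT.nd (nat_lit 78) (nat_lit 228) (nat_lit 0) (XT.lf (nat_lit 0) (nat_lit 21963045551) (nat_lit 228) (nat_lit 7226998954) (nat_lit 304) (nat_lit 21945172957) (nat_lit 63) (nat_lit 5) (nat_lit 66) (nat_lit 5) (nat_lit 67) (nat_lit 5) (nat_lit 370) (nat_lit 308) (nat_lit 102)) (XT.nd (nat_lit 78) (nat_lit 228) (nat_lit 0) (XT.lf (nat_lit 0) (nat_lit 38166539803) (nat_lit 304) (nat_lit 6473980418) (nat_lit 76) (nat_lit 7570475268) (nat_lit 63) (nat_lit 5) (nat_lit 67) (nat_lit 5) (nat_lit 64) (nat_lit 5) (nat_lit 371) (nat_lit 308) (nat_lit 101)) (XT.lf (nat_lit 0) (nat_lit 17165555213) (nat_lit 228) (nat_lit 30481361046) (nat_lit 304) (nat_lit 5665094543) (nat_lit 60) (nat_lit 5) (nat_lit 63) (nat_lit 5) (nat_lit 64) (nat_lit 5) (nat_lit 372) (nat_lit 308) (nat_lit 100))))) (XT.nd (nat_lit 234) (nat_lit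 456) (nat_lit 0) (XT.nd (nat_lit 78) (nat_lit 228) (nat_lit 0) (XT.lf (nat_lit 0) (nat_lit 2971832922) (nat_lit 304) (nat_lit 12829283107) (nat_lit 76) (nat_lit 38642165085) (nat_lit 59) (nat_lit 5) (nat_lit 63) (nat_lit 5) (nat_lit 60) (nat_lit 5) (nat_lit 373) (nat_lit 308) (nat_lit 99)) (XT.nd (nat_lit 78) (nat_lit 0) (nat_lit 0) (XT.lf (nat_lit 0) (nat_lit 11349859055) (nat_lit 228) (nat_lit 511339582) (nat_lit 304) (nat_lit 43742393806) (nat_lit 56) (nat_lit 5) (nat_lit 59) (nat_lit 5) (nat_lit 60) (nat_lit 5) (nat_lit 374) (nat_lit 308) (nat_lit 98)) (XT.lf (nat_lit 0) (nat_lit 21292656505) (nat_lit 304) (nat_lit 20428165977) (nat_lit 76) (nat_lit 15069629658) (nat_lit 56) (nat_lit 5) (nat_lit 60) (nat_lit 5) (nat_lit 57) (nat_lit 5) (nat_lit 375) (nat_lit 308) (nat_lit 97)))) (XT.nd (nat_lit 156) (nat_lit 228) (nat_lit 0) (XT.nd (nat_lit 78) (nat_lit 0) (nat_lit 0) (XT.lf (nat_lit 0) (nat_lit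 4185922783) (nat_lit 228) (nat_lit 26864600094) (nat_lit 304) (nat_lit 26961092132) (nat_lit 53) (nat_lit 5) (nat_lit 56) (nat_lit 5) (nat_lit 57) (nat_lit 5) (nat_lit 376) (nat_lit 308) (nat_lit 96)) (XT.lf (nat_lit 0) (nat_lit 29954354338) (nat_lit 228) (nat_lit 11351245867) (nat_lit 304) (nat_lit 17957679595) (nat_lit 53) (nat_lit 5) (nat_lit 56) (nat_lit 5) (nat_lit 57) (nat_lit 5) (nat_lit 377) (nat_lit 308) (nat_lit 95))) (XT.nd (nat_lit 78) (nat_lit 228) (nat_lit 0) (XT.lf (nat_lit 0) (nat_lit 51911045953) (nat_lit 304) (nat_lit 4103937108) (nat_lit 76) (nat_lit 4536231238) (nat_lit 53) (nat_lit 5) (nat_lit 57) (nat_lit 5) (nat_lit 54) (nat_lit 5) (nat_lit 378) (nat_lit 308) (nat_lit 94)) (XT.lf (nat_lit 0) (nat_lit 1265232822) (nat_lit 228) (nat_lit 39705672145) (nat_lit 76) (nat_lit 20896796008) (nat_lit 50) (nat_lit 5) (nat_lit 53) (nat_lit 5) (nat_lit 51) (nat_lit 5) (nat_lit 379) (nat_lit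 308) (nat_lit 93)))))) (XT.nd (nat_lit 468) (nat_lit 684) (nat_lit 0) (XT.nd (nat_lit 234) (nat_lit 152) (nat_lit 0) (XT.nd (nat_lit 78) (nat_lit 228) (nat_lit 0) (XT.lf (nat_lit 0) (nat_lit 11334280519) (nat_lit 228) (nat_lit 14011021048) (nat_lit 76) (nat_lit 37874611140) (nat_lit 50) (nat_lit 5) (nat_lit 53) (nat_lit 5) (nat_lit 51) (nat_lit 5) (nat_lit 380) (nat_lit 308) (nat_lit 92)) (XT.nd (nat_lit 78) (nat_lit 0) (nat_lit 0) (XT.lf (nat_lit 0) (nat_lit 12699638723) (nat_lit 228) (nat_lit 9126178677) (nat_lit 304) (nat_lit 42783261966) (nat_lit 47) (nat_lit 5) (nat_lit 50) (nat_lit 5) (nat_lit 51) (nat_lit 5) (nat_lit 381) (nat_lit 308) (nat_lit 91)) (XT.lf (nat_lit 0) (nat_lit 32846198740) (nat_lit 304) (nat_lit 25613767109) (nat_lit 76) (nat_lit 7573533301) (nat_lit 47) (nat_lit 5) (nat_lit 51) (nat_lit 5) (nat_lit 48) (nat_lit 5) (nat_lit 382) (nat_lit 308) (nat_lit 90)))) (XT.nd (nat_lit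 78) (nat_lit 0) (nat_lit 0) (XT.lf (nat_lit 0) (nat_lit 1405256259) (nat_lit 152) (nat_lit 42894204288) (nat_lit 228) (nat_lit 23198123957) (nat_lit 45) (nat_lit 5) (nat_lit 47) (nat_lit 5) (nat_lit 48) (nat_lit 5) (nat_lit 383) (nat_lit 308) (nat_lit 89)) (XT.nd (nat_lit 78) (nat_lit 0) (nat_lit 0) (XT.lf (nat_lit 0) (nat_lit 29757348998) (nat_lit 152) (nat_lit 26596044606) (nat_lit 228) (nat_lit 12644487626) (nat_lit 45) (nat_lit 5) (nat_lit 47) (nat_lit 5) (nat_lit 48) (nat_lit 5) (nat_lit 384) (nat_lit 308) (nat_lit 88)) (XT.lf (nat_lit 0) (nat_lit 58957520592) (nat_lit 152) (nat_lit 9809894519) (nat_lit 228) (nat_lit 1775818618) (nat_lit 45) (nat_lit 5) (nat_lit 47) (nat_lit 5) (nat_lit 48) (nat_lit 5) (nat_lit 385) (nat_lit 308) (nat_lit 87))))) (XT.nd (nat_lit 234) (nat_lit 228) (nat_lit 0) (XT.nd (nat_lit 78) (nat_lit 152) (nat_lit 0) (XT.lf (nat_lit 0) (nat_lit 9472794882) (nat_lit 304)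 (nat_lit 55061517609) (nat_lit 76) (nat_lit 7590788593) (nat_lit 41) (nat_lit 5) (nat_lit 45) (nat_lit 5) (nat_lit 42) (nat_lit 5) (nat_lit 386) (nat_lit 308) (nat_lit 86)) (XT.nd (nat_lit 78) (nat_lit 152) (nat_lit 0) (XT.lf (nat_lit 0) (nat_lit 21236964401) (nat_lit 304) (nat_lit 27059383015) (nat_lit 76) (nat_lit 25451136780) (nat_lit 41) (nat_lit 5) (nat_lit 45) (nat_lit 5) (nat_lit 42) (nat_lit 5) (nat_lit 387) (nat_lit 308) (nat_lit 85)) (XT.lf (nat_lit 0) (nat_lit 1815866490) (nat_lit 152) (nat_lit 31554201916) (nat_lit 228) (nat_lit 42047990987) (nat_lit 39) (nat_lit 5) (nat_lit 41) (nat_lit 5) (nat_lit 42) (nat_lit 5) (nat_lit 388) (nat_lit 308) (nat_lit 84)))) (XT.nd (nat_lit 156) (nat_lit 228) (nat_lit 0) (XT.nd (nat_lit 78) (nat_lit 0) (nat_lit 0) (XT.lf (nat_lit 0) (nat_lit 32109704450) (nat_lit 152) (nat_lit 14029281404) (nat_lit 228) (nat_lit 30991612234) (nat_lit 39) (nat_lit 5)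 (nat_lit 41) (nat_lit 5) (nat_lit 42) (nat_lit 5) (nat_lit 389) (nat_lit 308) (nat_lit 83)) (XT.lf (nat_lit 0) (nat_lit 59328233296) (nat_lit 228) (nat_lit 15623136206) (nat_lit 76) (nat_lit 3942026391) (nat_lit 39) (nat_lit 5) (nat_lit 42) (nat_lit 5) (nat_lit 40) (nat_lit 5) (nat_lit 390) (nat_lit 308) (nat_lit 82))) (XT.nd (nat_lit 78) (nat_lit 76) (nat_lit 0) (XT.lf (nat_lit 0) (nat_lit 14804277888) (nat_lit 152) (nat_lit 58388738857) (nat_lit 228) (nat_lit 7507665932) (nat_lit 37) (nat_lit 5) (nat_lit 39) (nat_lit 5) (nat_lit 40) (nat_lit 5) (nat_lit 391) (nat_lit 308) (nat_lit 81)) (XT.lf (nat_lit 0) (nat_lit 4973689519) (nat_lit 228) (nat_lit 36143719223) (nat_lit 76) (nat_lit 41438624410) (nat_lit 36) (nat_lit 5) (nat_lit 39) (nat_lit 5) (nat_lit 37) (nat_lit 5) (nat_lit 392) (nat_lit 308) (nat_lit 80))))))) (XT.nd (nat_lit 1014) (nat_lit 2964) (nat_lit 0) (XT.nd (nat_lit 468) (nat_lit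 0) (nat_lit 152) (XT.nd (nat_lit 234) (nat_lit 0) (nat_lit 76) (XT.nd (nat_lit 78) (nat_lit 0) (nat_lit 0) (XT.lf (nat_lit 0) (nat_lit 710472063) (nat_lit 0) (nat_lit 710472063) (nat_lit 1140) (nat_lit 7361938894) (nat_lit 187) (nat_lit 5) (nat_lit 187) (nat_lit 3) (nat_lit 202) (nat_lit 3) (nat_lit 309) (nat_lit 309) (nat_lit 162)) (XT.nd (nat_lit 78) (nat_lit 0) (nat_lit 0) (XT.lf (nat_lit 0) (nat_lit 3151031575) (nat_lit 1140) (nat_lit 8351093980) (nat_lit 1216) (nat_lit 6318854869) (nat_lit 187) (nat_lit 5) (nat_lit 202) (nat_lit 3) (nat_lit 203) (nat_lit 5) (nat_lit 310) (nat_lit 309) (nat_lit 161)) (XT.lf (nat_lit 0) (nat_lit 3475572703) (nat_lit 1140) (nat_lit 341903444) (nat_lit 1216) (nat_lit 14266202180) (nat_lit 187) (nat_lit 5) (nat_lit 202) (nat_lit 3) (nat_lit 203) (nat_lit 5) (nat_lit 311) (nat_lit 309) (nat_lit 160)))) (XT.nd (nat_lit 78) (nat_lit 0) (nat_lit 0) (XT.lf (nat_lit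 0) (nat_lit 3919811713) (nat_lit 1140) (nat_lit 10331665340) (nat_lit 1216) (nat_lit 4099491749) (nat_lit 188) (nat_lit 5) (nat_lit 203) (nat_lit 5) (nat_lit 204) (nat_lit 5) (nat_lit 312) (nat_lit 309) (nat_lit 159)) (XT.nd (nat_lit 78) (nat_lit 0) (nat_lit 76) (XT.lf (nat_lit 0) (nat_lit 4411165526) (nat_lit 1140) (nat_lit 2030034051) (nat_lit 1216) (nat_lit 12184074963) (nat_lit 188) (nat_lit 5) (nat_lit 203) (nat_lit 5) (nat_lit 204) (nat_lit 5) (nat_lit 313) (nat_lit 309) (nat_lit 158)) (XT.lf (nat_lit 0) (nat_lit 4989942866) (nat_lit 1140) (nat_lit 12276116500) (nat_lit 1216) (nat_lit 1639579475) (nat_lit 189) (nat_lit 5) (nat_lit 204) (nat_lit 5) (nat_lit 205) (nat_lit 5) (nat_lit 314) (nat_lit 309) (nat_lit 157))))) (XT.nd (nat_lit 234) (nat_lit 0) (nat_lit 76) (XT.nd (nat_lit 78) (nat_lit 0) (nat_lit 0) (XT.lf (nat_lit 0) (nat_lit 5663481789) (nat_lit 1140) (nat_lit 3671762254) (nat_lit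 1216) (nat_lit 9856857676) (nat_lit 189) (nat_lit 5) (nat_lit 204) (nat_lit 5) (nat_lit 205) (nat_lit 5) (nat_lit 315) (nat_lit 309) (nat_lit 156)) (XT.nd (nat_lit 78) (nat_lit 0) (nat_lit 76) (XT.lf (nat_lit 76) (nat_lit 5289606873) (nat_lit 0) (nat_lit 1111594787) (nat_lit 1216) (nat_lit 13084646892) (nat_lit 190) (nat_lit 5) (nat_lit 189) (nat_lit 5) (nat_lit 205) (nat_lit 5) (nat_lit 316) (nat_lit 309) (nat_lit 155)) (XT.lf (nat_lit 0) (nat_lit 7262544786) (nat_lit 1140) (nat_lit 5267841146) (nat_lit 1216) (nat_lit 7254986152) (nat_lit 190) (nat_lit 5) (nat_lit 205) (nat_lit 5) (nat_lit 206) (nat_lit 5) (nat_lit 317) (nat_lit 309) (nat_lit 154)))) (XT.nd (nat_lit 156) (nat_lit 0) (nat_lit 76) (XT.nd (nat_lit 78) (nat_lit 0) (nat_lit 76) (XT.lf (nat_lit 76) (nat_lit 3990887702) (nat_lit 0) (nat_lit 4201714112) (nat_lit 1216) (nat_lit 11900002079) (nat_lit 191) (nat_lit 5) (nat_lit 190) (nat_lit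 5) (nat_lit 206) (nat_lit 5) (nat_lit 318) (nat_lit 309) (nat_lit 153)) (XT.lf (nat_lit 0) (nat_lit 9240026160) (nat_lit 1140) (nat_lit 6819261619) (nat_lit 1216) (nat_lit 4347089431) (nat_lit 191) (nat_lit 5) (nat_lit 206) (nat_lit 5) (nat_lit 207) (nat_lit 5) (nat_lit 319) (nat_lit 309) (nat_lit 152))) (XT.nd (nat_lit 78) (nat_lit 0) (nat_lit 76) (XT.lf (nat_lit 76) (nat_lit 2749277384) (nat_lit 0) (nat_lit 7631480455) (nat_lit 1216) (nat_lit 10346957626) (nat_lit 192) (nat_lit 5) (nat_lit 191) (nat_lit 5) (nat_lit 207) (nat_lit 5) (nat_lit 320) (nat_lit 309) (nat_lit 151)) (XT.lf (nat_lit 0) (nat_lit 11629347601) (nat_lit 1140) (nat_lit 8327330936) (nat_lit 1216) (nat_lit 1099814280) (nat_lit 192) (nat_lit 5) (nat_lit 207) (nat_lit 5) (nat_lit 208) (nat_lit 5) (nat_lit 321) (nat_lit 309) (nat_lit 150)))))) (XT.nd (nat_lit 546) (nat_lit 2280) (nat_lit 0) (XT.nd (nat_lit 234) (nat_lit 1064) (nat_lit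 0) (XT.nd (nat_lit 78) (nat_lit 0) (nat_lit 0) (XT.lf (nat_lit 76) (nat_lit 1563802853) (nat_lit 0) (nat_lit 11436366158) (nat_lit 1216) (nat_lit 8392429061) (nat_lit 193) (nat_lit 5) (nat_lit 192) (nat_lit 5) (nat_lit 208) (nat_lit 5) (nat_lit 322) (nat_lit 309) (nat_lit 149)) (XT.nd (nat_lit 78) (nat_lit 0) (nat_lit 76) (XT.lf (nat_lit 76) (nat_lit 11917953746) (nat_lit 0) (nat_lit 2572560510) (nat_lit 1216) (nat_lit 7245927826) (nat_lit 193) (nat_lit 5) (nat_lit 192) (nat_lit 5) (nat_lit 208) (nat_lit 5) (nat_lit 323) (nat_lit 309) (nat_lit 148)) (XT.lf (nat_lit 76) (nat_lit 433071833) (nat_lit 0) (nat_lit 15654179488) (nat_lit 1216) (nat_lit 6001506999) (nat_lit 194) (nat_lit 5) (nat_lit 193) (nat_lit 5) (nat_lit 209) (nat_lit 5) (nat_lit 324) (nat_lit 309) (nat_lit 147)))) (XT.nd (nat_lit 156) (nat_lit 1140) (nat_lit 0) (XT.nd (nat_lit 78) (nat_lit 0) (nat_lit 76) (XT.lf (nat_lit 76) (nat_lit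 11163038969) (nat_lit 0) (nat_lit 6687825251) (nat_lit 1216) (nat_lit 4597217752) (nat_lit 194) (nat_lit 5) (nat_lit 193) (nat_lit 5) (nat_lit 209) (nat_lit 5) (nat_lit 325) (nat_lit 309) (nat_lit 146)) (XT.lf (nat_lit 0) (nat_lit 19686645010) (nat_lit 1140) (nat_lit 632243926) (nat_lit 76) (nat_lit 2498725543) (nat_lit 194) (nat_lit 5) (nat_lit 209) (nat_lit 5) (nat_lit 195) (nat_lit 5) (nat_lit 326) (nat_lit 309) (nat_lit 145))) (XT.nd (nat_lit 78) (nat_lit 76) (nat_lit 0) (XT.lf (nat_lit 0) (nat_lit 10473962725) (nat_lit 1140) (nat_lit 11265358207) (nat_lit 1216) (nat_lit 1454064107) (nat_lit 179) (nat_lit 5) (nat_lit 194) (nat_lit 5) (nat_lit 195) (nat_lit 5) (nat_lit 327) (nat_lit 309) (nat_lit 144)) (XT.lf (nat_lit 0) (nat_lit 269240314) (nat_lit 1216) (nat_lit 1661018914) (nat_lit 76) (nat_lit 21650054399) (nat_lit 178) (nat_lit 5) (nat_lit 194) (nat_lit 5) (nat_lit 179) (nat_lit 5) (nat_lit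 328) (nat_lit 309) (nat_lit 143))))) (XT.nd (nat_lit 234) (nat_lit 1064) (nat_lit 0) (XT.nd (nat_lit 78) (nat_lit 608) (nat_lit 0) (XT.lf (nat_lit 0) (nat_lit 2180302718) (nat_lit 684) (nat_lit 14146960757) (nat_lit 76) (nat_lit 7646202332) (nat_lit 170) (nat_lit 5) (nat_lit 179) (nat_lit 5) (nat_lit 171) (nat_lit 5) (nat_lit 329) (nat_lit 309) (nat_lit 142)) (XT.nd (nat_lit 78) (nat_lit 608) (nat_lit 0) (XT.lf (nat_lit 0) (nat_lit 4179974881) (nat_lit 684) (nat_lit 2708875845) (nat_lit 76) (nat_lit 17488629468) (nat_lit 170) (nat_lit 5) (nat_lit 179) (nat_lit 5) (nat_lit 171) (nat_lit 5) (nat_lit 330) (nat_lit 309) (nat_lit 141)) (XT.lf (nat_lit 0) (nat_lit 6352019888) (nat_lit 684) (nat_lit 15570646961) (nat_lit 76) (nat_lit 2867582487) (nat_lit 162) (nat_lit 5) (nat_lit 171) (nat_lit 5) (nat_lit 163) (nat_lit 5) (nat_lit 331) (nat_lit 309) (nat_lit 140)))) (XT.nd (nat_lit 156) (nat_lit 532)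 (nat_lit 0) (XT.nd (nat_lit 78) (nat_lit 532) (nat_lit 0) (XT.lf (nat_lit 0) (nat_lit 8680521579) (nat_lit 684) (nat_lit 3725961980) (nat_lit 76) (nat_lit 12806184769) (nat_lit 162) (nat_lit 5) (nat_lit 171) (nat_lit 5) (nat_lit 163) (nat_lit 5) (nat_lit 332) (nat_lit 309) (nat_lit 139)) (XT.lf (nat_lit 0) (nat_lit 8638388833) (nat_lit 532) (nat_lit 2519122811) (nat_lit 608) (nat_lit 14487894717) (nat_lit 155) (nat_lit 5) (nat_lit 162) (nat_lit 5) (nat_lit 163) (nat_lit 5) (nat_lit 333) (nat_lit 309) (nat_lit 138))) (XT.nd (nat_lit 78) (nat_lit 532) (nat_lit 0) (XT.lf (nat_lit 0) (nat_lit 13816173037) (nat_lit 608) (nat_lit 4718336029) (nat_lit 76) (nat_lit 7553401931) (nat_lit 155) (nat_lit 5) (nat_lit 163) (nat_lit 5) (nat_lit 156) (nat_lit 5) (nat_lit 334) (nat_lit 309) (nat_lit 137)) (XT.lf (nat_lit 0) (nat_lit 8067276854) (nat_lit 532) (nat_lit 8585617392) (nat_lit 608) (nat_lit 9887852684)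 (nat_lit 148) (nat_lit 5) (nat_lit 155) (nat_lit 5) (nat_lit 156) (nat_lit 5) (nat_lit 335) (nat_lit 309) (nat_lit 136))))))))
noncomputable def xc213 : XT := (XT.nd (nat_lit 2028) (nat_lit 3116) (nat_lit 0) (XT.nd (nat_lit 1014) (nat_lit 2204) (nat_lit 0) (XT.nd (nat_lit 468) (nat_lit 1292) (nat_lit 0) (XT.nd (nat_lit 234) (nat_lit 1064) (nat_lit 0) (XT.nd (nat_lit 78) (nat_lit 456) (nat_lit 0) (XT.lf (nat_lit 0) (nat_lit 19634700396) (nat_lit 608) (nat_lit 5693299857) (nat_lit 76) (nat_lit 1677373197) (nat_lit 148) (nat_lit 5) (nat_lit 156) (nat_lit 5) (nat_lit 149) (nat_lit 5) (nat_lit 336) (nat_lit 309) (nat_lit 135)) (XT.nd (nat_lit 78) (nat_lit 0) (nat_lit 0) (XT.lf (nat_lit 0) (nat_lit 7527997539) (nat_lit 456) (nat_lit 15331344618) (nat_lit 532) (nat_lit 4620000024) (nat_lit 142) (nat_lit 5) (nat_lit 148) (nat_lit 5) (nat_lit 149) (nat_lit 5) (nat_lit 337) (nat_lit 309) (nat_lit 134))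 (XT.lf (nat_lit 0) (nat_lit 21258511645) (nat_lit 456) (nat_lit 4975790765) (nat_lit 532) (nat_lit 1731624907) (nat_lit 142) (nat_lit 5) (nat_lit 148) (nat_lit 5) (nat_lit 149) (nat_lit 5) (nat_lit 338) (nat_lit 309) (nat_lit 133)))) (XT.nd (nat_lit 78) (nat_lit 456) (nat_lit 0) (XT.lf (nat_lit 0) (nat_lit 1338606927) (nat_lit 608) (nat_lit 21464857264) (nat_lit 76) (nat_lit 5659707634) (nat_lit 134) (nat_lit 5) (nat_lit 142) (nat_lit 5) (nat_lit 135) (nat_lit 5) (nat_lit 339) (nat_lit 309) (nat_lit 132)) (XT.nd (nat_lit 78) (nat_lit 456) (nat_lit 0) (XT.lf (nat_lit 0) (nat_lit 4580039502) (nat_lit 608) (nat_lit 7791834636) (nat_lit 76) (nat_lit 16599532573) (nat_lit 134) (nat_lit 5) (nat_lit 142) (nat_lit 5) (nat_lit 135) (nat_lit 5) (nat_lit 340) (nat_lit 309) (nat_lit 131)) (XT.lf (nat_lit 0) (nat_lit 6412465866) (nat_lit 456) (nat_lit 1564229652) (nat_lit 532) (nat_lit 21516457904) (nat_lit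 128) (nat_lit 5) (nat_lit 134) (nat_lit 5) (nat_lit 135) (nat_lit 5) (nat_lit 341) (nat_lit 309) (nat_lit 130))))) (XT.nd (nat_lit 234) (nat_lit 836) (nat_lit 0) (XT.nd (nat_lit 78) (nat_lit 456) (nat_lit 0) (XT.lf (nat_lit 0) (nat_lit 11643086633) (nat_lit 532) (nat_lit 8922432137) (nat_lit 76) (nat_lit 9460002773) (nat_lit 128) (nat_lit 5) (nat_lit 135) (nat_lit 5) (nat_lit 129) (nat_lit 5) (nat_lit 342) (nat_lit 309) (nat_lit 129)) (XT.nd (nat_lit 78) (nat_lit 0) (nat_lit 0) (XT.lf (nat_lit 0) (nat_lit 5753360715) (nat_lit 456) (nat_lit 9733409831) (nat_lit 532) (nat_lit 15085075082) (nat_lit 122) (nat_lit 5) (nat_lit 128) (nat_lit 5) (nat_lit 129) (nat_lit 5) (nat_lit 343) (nat_lit 309) (nat_lit 128)) (XT.lf (nat_lit 0) (nat_lit 19547008695) (nat_lit 532) (nat_lit 10098159261) (nat_lit 76) (nat_lit 1486358004) (nat_lit 122) (nat_lit 5) (nat_lit 129) (nat_lit 5) (nat_lit 123) (nat_lit 5) (nat_lit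 344) (nat_lit 309) (nat_lit 127)))) (XT.nd (nat_lit 156) (nat_lit 456) (nat_lit 0) (XT.nd (nat_lit 78) (nat_lit 0) (nat_lit 0) (XT.lf (nat_lit 0) (nat_lit 5062252546) (nat_lit 380) (nat_lit 18808500746) (nat_lit 456) (nat_lit 7832996157) (nat_lit 117) (nat_lit 5) (nat_lit 122) (nat_lit 5) (nat_lit 123) (nat_lit 5) (nat_lit 345) (nat_lit 309) (nat_lit 126)) (XT.lf (nat_lit 0) (nat_lit 20880581663) (nat_lit 380) (nat_lit 7542327215) (nat_lit 456) (nat_lit 3867273422) (nat_lit 117) (nat_lit 5) (nat_lit 122) (nat_lit 5) (nat_lit 123) (nat_lit 5) (nat_lit 346) (nat_lit 309) (nat_lit 125))) (XT.nd (nat_lit 78) (nat_lit 0) (nat_lit 0) (XT.lf (nat_lit 0) (nat_lit 291335169) (nat_lit 456) (nat_lit 28574103968) (nat_lit 76) (nat_lit 4026365004) (nat_lit 111) (nat_lit 5) (nat_lit 117) (nat_lit 5) (nat_lit 112) (nat_lit 5) (nat_lit 347) (nat_lit 309) (nat_lit 124)) (XT.lf (nat_lit 0) (nat_lit 4684843547)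 (nat_lit 456) (nat_lit 12875324781) (nat_lit 76) (nat_lit 15944524829) (nat_lit 111) (nat_lit 5) (nat_lit 117) (nat_lit 5) (nat_lit 112) (nat_lit 5) (nat_lit 348) (nat_lit 309) (nat_lit 123)))))) (XT.nd (nat_lit 468) (nat_lit 1140) (nat_lit 0) (XT.nd (nat_lit 234) (nat_lit 304) (nat_lit 0) (XT.nd (nat_lit 78) (nat_lit 380) (nat_lit 0) (XT.lf (nat_lit 0) (nat_lit 3356116304) (nat_lit 380) (nat_lit 5883232064) (nat_lit 456) (nat_lit 24895747951) (nat_lit 106) (nat_lit 5) (nat_lit 111) (nat_lit 5) (nat_lit 112) (nat_lit 5) (nat_lit 349) (nat_lit 309) (nat_lit 122)) (XT.nd (nat_lit 78) (nat_lit 380) (nat_lit 0) (XT.lf (nat_lit 0) (nat_lit 14117827540) (nat_lit 456) (nat_lit 14506266990) (nat_lit 76) (nat_lit 6154699991) (nat_lit 106) (nat_lit 5) (nat_lit 112) (nat_lit 5) (nat_lit 107) (nat_lit 5) (nat_lit 350) (nat_lit 309) (nat_lit 121)) (XT.lf (nat_lit 0) (nat_lit 2236286730) (nat_lit 380) (nat_lit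 16983185185) (nat_lit 456) (nat_lit 16220030457) (nat_lit 101) (nat_lit 5) (nat_lit 106) (nat_lit 5) (nat_lit 107) (nat_lit 5) (nat_lit 351) (nat_lit 309) (nat_lit 120)))) (XT.nd (nat_lit 78) (nat_lit 304) (nat_lit 0) (XT.lf (nat_lit 0) (nat_lit 19774788989) (nat_lit 380) (nat_lit 4842975945) (nat_lit 456) (nat_lit 11497961487) (nat_lit 101) (nat_lit 5) (nat_lit 106) (nat_lit 5) (nat_lit 107) (nat_lit 5) (nat_lit 352) (nat_lit 309) (nat_lit 119)) (XT.nd (nat_lit 78) (nat_lit 0) (nat_lit 0) (XT.lf (nat_lit 0) (nat_lit 968803370) (nat_lit 304) (nat_lit 29289353522) (nat_lit 380) (nat_lit 6551678651) (nat_lit 97) (nat_lit 5) (nat_lit 101) (nat_lit 5) (nat_lit 102) (nat_lit 5) (nat_lit 353) (nat_lit 309) (nat_lit 118)) (XT.lf (nat_lit 0) (nat_lit 19080276806) (nat_lit 304) (nat_lit 17197213300) (nat_lit 380) (nat_lit 1240988719) (nat_lit 97) (nat_lit 5) (nat_lit 101) (nat_lit 5) (nat_lit 102) (nat_lit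 5) (nat_lit 354) (nat_lit 309) (nat_lit 117))))) (XT.nd (nat_lit 234) (nat_lit 684) (nat_lit 0) (XT.nd (nat_lit 78) (nat_lit 380) (nat_lit 0) (XT.lf (nat_lit 0) (nat_lit 4143787634) (nat_lit 380) (nat_lit 557518023) (nat_lit 76) (nat_lit 33545940127) (nat_lit 96) (nat_lit 5) (nat_lit 101) (nat_lit 5) (nat_lit 97) (nat_lit 5) (nat_lit 355) (nat_lit 309) (nat_lit 116)) (XT.nd (nat_lit 78) (nat_lit 0) (nat_lit 0) (XT.lf (nat_lit 0) (nat_lit 9917847875) (nat_lit 456) (nat_lit 20873764405) (nat_lit 76) (nat_lit 8198316901) (nat_lit 91) (nat_lit 5) (nat_lit 97) (nat_lit 5) (nat_lit 92) (nat_lit 5) (nat_lit 356) (nat_lit 309) (nat_lit 115)) (XT.lf (nat_lit 0) (nat_lit 15914766600) (nat_lit 456) (nat_lit 2443353593) (nat_lit 76) (nat_lit 21395286251) (nat_lit 91) (nat_lit 5) (nat_lit 97) (nat_lit 5) (nat_lit 92) (nat_lit 5) (nat_lit 357) (nat_lit 309) (nat_lit 114)))) (XT.nd (nat_lit 156) (nat_lit 380)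 (nat_lit 0) (XT.nd (nat_lit 78) (nat_lit 0) (nat_lit 0) (XT.lf (nat_lit 0) (nat_lit 16865669088) (nat_lit 304) (nat_lit 5385526069) (nat_lit 380) (nat_lit 18283807191) (nat_lit 87) (nat_lit 5) (nat_lit 91) (nat_lit 5) (nat_lit 92) (nat_lit 5) (nat_lit 358) (nat_lit 309) (nat_lit 113)) (XT.lf (nat_lit 0) (nat_lit 28876817974) (nat_lit 380) (nat_lit 4615619042) (nat_lit 76) (nat_lit 7844638391) (nat_lit 87) (nat_lit 5) (nat_lit 92) (nat_lit 5) (nat_lit 88) (nat_lit 5) (nat_lit 359) (nat_lit 309) (nat_lit 112))) (XT.nd (nat_lit 78) (nat_lit 76) (nat_lit 0) (XT.lf (nat_lit 0) (nat_lit 15250634648) (nat_lit 304) (nat_lit 20648079258) (nat_lit 380) (nat_lit 6258573874) (nat_lit 83) (nat_lit 5) (nat_lit 87) (nat_lit 5) (nat_lit 88) (nat_lit 5) (nat_lit 360) (nat_lit 309) (nat_lit 111)) (XT.lf (nat_lit 0) (nat_lit 171306795) (nat_lit 380) (nat_lit 7198281572) (nat_lit 76) (nat_lit 35631143023) (nat_lit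 82) (nat_lit 5) (nat_lit 87) (nat_lit 5) (nat_lit 83) (nat_lit 5) (nat_lit 361) (nat_lit 309) (nat_lit 110))))))) (XT.nd (nat_lit 1014) (nat_lit 1368) (nat_lit 0) (XT.nd (nat_lit 468) (nat_lit 912) (nat_lit 0) (XT.nd (nat_lit 234) (nat_lit 228) (nat_lit 0) (XT.nd (nat_lit 78) (nat_lit 304) (nat_lit 0) (XT.lf (nat_lit 0) (nat_lit 6856263753) (nat_lit 380) (nat_lit 30630801168) (nat_lit 76) (nat_lit 6374917340) (nat_lit 78) (nat_lit 5) (nat_lit 83) (nat_lit 5) (nat_lit 79) (nat_lit 5) (nat_lit 362) (nat_lit 309) (nat_lit 109)) (XT.nd (nat_lit 78) (nat_lit 304) (nat_lit 0) (XT.lf (nat_lit 0) (nat_lit 13885838559) (nat_lit 380) (nat_lit 10402784422) (nat_lit 76) (nat_lit 20456127605) (nat_lit 78) (nat_lit 5) (nat_lit 83) (nat_lit 5) (nat_lit 79) (nat_lit 5) (nat_lit 363) (nat_lit 309) (nat_lit 108)) (XT.lf (nat_lit 0) (nat_lit 10636429957) (nat_lit 304) (nat_lit 10589876369) (nat_lit 380) (nat_lit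 24424697407) (nat_lit 74) (nat_lit 5) (nat_lit 78) (nat_lit 5) (nat_lit 79) (nat_lit 5) (nat_lit 364) (nat_lit 309) (nat_lit 107)))) (XT.nd (nat_lit 78) (nat_lit 228) (nat_lit 0) (XT.lf (nat_lit 0) (nat_lit 28924698049) (nat_lit 380) (nat_lit 14099325560) (nat_lit 76) (nat_lit 3556291455) (nat_lit 74) (nat_lit 5) (nat_lit 79) (nat_lit 5) (nat_lit 75) (nat_lit 5) (nat_lit 365) (nat_lit 309) (nat_lit 106)) (XT.nd (nat_lit 78) (nat_lit 0) (nat_lit 0) (XT.lf (nat_lit 0) (nat_lit 7481387288) (nat_lit 228) (nat_lit 29547271951) (nat_lit 304) (nat_lit 10503609798) (nat_lit 71) (nat_lit 5) (nat_lit 74) (nat_lit 5) (nat_lit 75) (nat_lit 5) (nat_lit 366) (nat_lit 309) (nat_lit 105)) (XT.lf (nat_lit 0) (nat_lit 29995443207) (nat_lit 228) (nat_lit 15520556147) (nat_lit 304) (nat_lit 2992576251) (nat_lit 71) (nat_lit 5) (nat_lit 74) (nat_lit 5) (nat_lit 75) (nat_lit 5) (nat_lit 367) (nat_lit 309) (nat_lit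 104))))) (XT.nd (nat_lit 234) (nat_lit 532) (nat_lit 0) (XT.nd (nat_lit 78) (nat_lit 0) (nat_lit 0) (XT.lf (nat_lit 0) (nat_lit 3694182701) (nat_lit 304) (nat_lit 990472081) (nat_lit 380) (nat_lit 44827147215) (nat_lit 66) (nat_lit 5) (nat_lit 70) (nat_lit 5) (nat_lit 71) (nat_lit 5) (nat_lit 368) (nat_lit 309) (nat_lit 103)) (XT.nd (nat_lit 78) (nat_lit 0) (nat_lit 0) (XT.lf (nat_lit 0) (nat_lit 12853139537) (nat_lit 380) (nat_lit 23761197051) (nat_lit 76) (nat_lit 13920268797) (nat_lit 66) (nat_lit 5) (nat_lit 71) (nat_lit 5) (nat_lit 67) (nat_lit 5) (nat_lit 369) (nat_lit 309) (nat_lit 102)) (XT.lf (nat_lit 0) (nat_lit 21274491432) (nat_lit 380) (nat_lit 1055876135) (nat_lit 76) (nat_lit 29257492511) (nat_lit 66) (nat_lit 5) (nat_lit 71) (nat_lit 5) (nat_lit 67) (nat_lit 5) (nat_lit 370) (nat_lit 309) (nat_lit 101)))) (XT.nd (nat_lit 156) (nat_lit 304) (nat_lit 0) (XT.nd (nat_lit 78) (nat_lit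 0) (nat_lit 0) (XT.lf (nat_lit 0) (nat_lit 22772069164) (nat_lit 228) (nat_lit 7393377802) (nat_lit 304) (nat_lit 22500758087) (nat_lit 63) (nat_lit 5) (nat_lit 66) (nat_lit 5) (nat_lit 67) (nat_lit 5) (nat_lit 371) (nat_lit 309) (nat_lit 100)) (XT.lf (nat_lit 0) (nat_lit 39408803862) (nat_lit 304) (nat_lit 6519931477) (nat_lit 76) (nat_lit 7845596348) (nat_lit 63) (nat_lit 5) (nat_lit 67) (nat_lit 5) (nat_lit 64) (nat_lit 5) (nat_lit 372) (nat_lit 309) (nat_lit 99))) (XT.nd (nat_lit 78) (nat_lit 76) (nat_lit 0) (XT.lf (nat_lit 0) (nat_lit 17827336611) (nat_lit 228) (nat_lit 31344833230) (nat_lit 304) (nat_lit 5736252476) (nat_lit 60) (nat_lit 5) (nat_lit 63) (nat_lit 5) (nat_lit 64) (nat_lit 5) (nat_lit 373) (nat_lit 309) (nat_lit 98)) (XT.lf (nat_lit 0) (nat_lit 3155033598) (nat_lit 304) (nat_lit 13069682111) (nat_lit 76) (nat_lit 39848973257) (nat_lit 59) (nat_lit 5) (nat_lit 63) (nat_lit 5)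 (nat_lit 60) (nat_lit 5) (nat_lit 374) (nat_lit 309) (nat_lit 97)))))) (XT.nd (nat_lit 546) (nat_lit 684) (nat_lit 0) (XT.nd (nat_lit 234) (nat_lit 228) (nat_lit 0) (XT.nd (nat_lit 78) (nat_lit 228) (nat_lit 0) (XT.lf (nat_lit 0) (nat_lit 11833417850) (nat_lit 228) (nat_lit 476298449) (nat_lit 304) (nat_lit 44959136271) (nat_lit 56) (nat_lit 5) (nat_lit 59) (nat_lit 5) (nat_lit 60) (nat_lit 5) (nat_lit 375) (nat_lit 309) (nat_lit 96)) (XT.nd (nat_lit 78) (nat_lit 228) (nat_lit 0) (XT.lf (nat_lit 0) (nat_lit 22021888626) (nat_lit 304) (nat_lit 20899820302) (nat_lit 76) (nat_lit 15569677965) (nat_lit 56) (nat_lit 5) (nat_lit 60) (nat_lit 5) (nat_lit 57) (nat_lit 5) (nat_lit 376) (nat_lit 309) (nat_lit 95)) (XT.lf (nat_lit 0) (nat_lit 4451306899) (nat_lit 228) (nat_lit 27619893459) (nat_lit 304) (nat_lit 27678024909) (nat_lit 53) (nat_lit 5) (nat_lit 56) (nat_lit 5) (nat_lit 57) (nat_lit 5) (nat_lit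 377) (nat_lit 309) (nat_lit 94)))) (XT.nd (nat_lit 156) (nat_lit 228) (nat_lit 0) (XT.nd (nat_lit 78) (nat_lit 0) (nat_lit 0) (XT.lf (nat_lit 0) (nat_lit 30988719368) (nat_lit 228) (nat_lit 11642613692) (nat_lit 304) (nat_lit 18407186695) (nat_lit 53) (nat_lit 5) (nat_lit 56) (nat_lit 5) (nat_lit 57) (nat_lit 5) (nat_lit 378) (nat_lit 309) (nat_lit 93)) (XT.lf (nat_lit 0) (nat_lit 53552879756) (nat_lit 304) (nat_lit 4093152123) (nat_lit 76) (nat_lit 4719124075) (nat_lit 53) (nat_lit 5) (nat_lit 57) (nat_lit 5) (nat_lit 54) (nat_lit 5) (nat_lit 379) (nat_lit 309) (nat_lit 92))) (XT.nd (nat_lit 78) (nat_lit 0) (nat_lit 0) (XT.lf (nat_lit 0) (nat_lit 1387387275) (nat_lit 228) (nat_lit 40762520017) (nat_lit 76) (nat_lit 21571242514) (nat_lit 50) (nat_lit 5) (nat_lit 53) (nat_lit 5) (nat_lit 51) (nat_lit 5) (nat_lit 380) (nat_lit 309) (nat_lit 91)) (XT.lf (nat_lit 0) (nat_lit 11756054049) (nat_lit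 228) (nat_lit 14300941686) (nat_lit 76) (nat_lit 39057007363) (nat_lit 50) (nat_lit 5) (nat_lit 53) (nat_lit 5) (nat_lit 51) (nat_lit 5) (nat_lit 381) (nat_lit 309) (nat_lit 90))))) (XT.nd (nat_lit 234) (nat_lit 304) (nat_lit 0) (XT.nd (nat_lit 78) (nat_lit 152) (nat_lit 0) (XT.lf (nat_lit 0) (nat_lit 13209759349) (nat_lit 228) (nat_lit 9351438053) (nat_lit 304) (nat_lit 43983683136) (nat_lit 47) (nat_lit 5) (nat_lit 50) (nat_lit 5) (nat_lit 51) (nat_lit 5) (nat_lit 382) (nat_lit 309) (nat_lit 89)) (XT.nd (nat_lit 78) (nat_lit 152) (nat_lit 0) (XT.lf (nat_lit 0) (nat_lit 33910295325) (nat_lit 304) (nat_lit 26254863412) (nat_lit 76) (nat_lit 7846932570) (nat_lit 47) (nat_lit 5) (nat_lit 51) (nat_lit 5) (nat_lit 48) (nat_lit 5) (nat_lit 383) (nat_lit 309) (nat_lit 88)) (XT.lf (nat_lit 0) (nat_lit 1573482454) (nat_lit 152) (nat_lit 44132591837) (nat_lit 228) (nat_lit 23814058850) (nat_lit 45) (nat_lit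 5) (nat_lit 47) (nat_lit 5) (nat_lit 48) (nat_lit 5) (nat_lit 384) (nat_lit 309) (nat_lit 87)))) (XT.nd (nat_lit 156) (nat_lit 304) (nat_lit 0) (XT.nd (nat_lit 78) (nat_lit 0) (nat_lit 0) (XT.lf (nat_lit 0) (nat_lit 30772466077) (nat_lit 152) (nat_lit 27346898197) (nat_lit 228) (nat_lit 12946143783) (nat_lit 45) (nat_lit 5) (nat_lit 47) (nat_lit 5) (nat_lit 48) (nat_lit 5) (nat_lit 385) (nat_lit 309) (nat_lit 86)) (XT.lf (nat_lit 0) (nat_lit 60845077869) (nat_lit 152) (nat_lit 10058533348) (nat_lit 228) (nat_lit 1753677186) (nat_lit 45) (nat_lit 5) (nat_lit 47) (nat_lit 5) (nat_lit 48) (nat_lit 5) (nat_lit 386) (nat_lit 309) (nat_lit 85))) (XT.nd (nat_lit 78) (nat_lit 0) (nat_lit 0) (XT.lf (nat_lit 0) (nat_lit 9830359310) (nat_lit 304) (nat_lit 56592405887) (nat_lit 76) (nat_lit 7863843078) (nat_lit 41) (nat_lit 5) (nat_lit 45) (nat_lit 5) (nat_lit 42) (nat_lit 5) (nat_lit 387) (nat_lit 309) (nat_lit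 84)) (XT.lf (nat_lit 0) (nat_lit 21945316616) (nat_lit 304) (nat_lit 27753730283) (nat_lit 76) (nat_lit 26258681394) (nat_lit 41) (nat_lit 5) (nat_lit 45) (nat_lit 5) (nat_lit 42) (nat_lit 5) (nat_lit 388) (nat_lit 309) (nat_lit 83))))))))
noncomputable def xc214 : XT := (XT.nd (nat_lit 36192) (nat_lit 0) (nat_lit 4104) (XT.nd (nat_lit 35178) (nat_lit 0) (nat_lit 10108) (XT.nd (nat_lit 34632) (nat_lit 0) (nat_lit 11400) (XT.nd (nat_lit 234) (nat_lit 152) (nat_lit 0) (XT.nd (nat_lit 78) (nat_lit 0) (nat_lit 0) (XT.lf (nat_lit 0) (nat_lit 1986625392) (nat_lit 152) (nat_lit 32454831085) (nat_lit 228) (nat_lit 43236994244) (nat_lit 39) (nat_lit 5) (nat_lit 41) (nat_lit 5) (nat_lit 42) (nat_lit 5) (nat_lit 389) (nat_lit 309) (nat_lit 82)) (XT.nd (nat_lit 78) (nat_lit 0) (nat_lit 0) (XT.lf (nat_lit 0) (nat_lit 33185891609) (nat_lit 152) (nat_lit 14405502672) (nat_lit 228) (nat_lit 31851033929) (nat_lit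 39) (nat_lit 5) (nat_lit 41) (nat_lit 5) (nat_lit 42) (nat_lit 5) (nat_lit 390) (nat_lit 309) (nat_lit 81)) (XT.lf (nat_lit 0) (nat_lit 61174748377) (nat_lit 228) (nat_lit 15980612259) (nat_lit 76) (nat_lit 4102797621) (nat_lit 39) (nat_lit 5) (nat_lit 42) (nat_lit 5) (nat_lit 40) (nat_lit 5) (nat_lit 391) (nat_lit 309) (nat_lit 80)))) (XT.nd (nat_lit 34242) (nat_lit 0) (nat_lit 11400) (XT.lf (nat_lit 0) (nat_lit 15358533885) (nat_lit 152) (nat_lit 60096058270) (nat_lit 228) (nat_lit 7665099134) (nat_lit 37) (nat_lit 5) (nat_lit 39) (nat_lit 5) (nat_lit 40) (nat_lit 5) (nat_lit 392) (nat_lit 309) (nat_lit 79)) (XT.nd (nat_lit 78) (nat_lit 0) (nat_lit 0) (XT.lf (nat_lit 0) (nat_lit 833085741) (nat_lit 0) (nat_lit 833085741) (nat_lit 1140) (nat_lit 7373846059) (nat_lit 187) (nat_lit 5) (nat_lit 187) (nat_lit 3) (nat_lit 202) (nat_lit 3) (nat_lit 310) (nat_lit 310) (nat_lit 160)) (XT.lf (nat_lit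 0) (nat_lit 3637067916) (nat_lit 1140) (nat_lit 8390704003) (nat_lit 1216) (nat_lit 6315560715) (nat_lit 187) (nat_lit 5) (nat_lit 202) (nat_lit 3) (nat_lit 203) (nat_lit 5) (nat_lit 311) (nat_lit 310) (nat_lit 159))))) (XT.nd (nat_lit 234) (nat_lit 0) (nat_lit 152) (XT.nd (nat_lit 78) (nat_lit 0) (nat_lit 76) (XT.lf (nat_lit 0) (nat_lit 3959942208) (nat_lit 1140) (nat_lit 147381134) (nat_lit 1216) (nat_lit 14506945721) (nat_lit 187) (nat_lit 5) (nat_lit 202) (nat_lit 3) (nat_lit 203) (nat_lit 5) (nat_lit 312) (nat_lit 310) (nat_lit 158)) (XT.nd (nat_lit 78) (nat_lit 0) (nat_lit 0) (XT.lf (nat_lit 0) (nat_lit 4406769687) (nat_lit 1140) (nat_lit 10425595686) (nat_lit 1216) (nat_lit 4057550085) (nat_lit 188) (nat_lit 5) (nat_lit 203) (nat_lit 5) (nat_lit 204) (nat_lit 5) (nat_lit 313) (nat_lit 310) (nat_lit 157)) (XT.lf (nat_lit 0) (nat_lit 4902105951) (nat_lit 1140) (nat_lit 1881207291) (nat_lit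 1216) (nat_lit 12389474477) (nat_lit 188) (nat_lit 5) (nat_lit 203) (nat_lit 5) (nat_lit 204) (nat_lit 5) (nat_lit 314) (nat_lit 310) (nat_lit 156)))) (XT.nd (nat_lit 156) (nat_lit 0) (nat_lit 0) (XT.nd (nat_lit 78) (nat_lit 0) (nat_lit 0) (XT.lf (nat_lit 0) (nat_lit 5488428403) (nat_lit 1140) (nat_lit 12424381294) (nat_lit 1216) (nat_lit 1549061980) (nat_lit 189) (nat_lit 5) (nat_lit 204) (nat_lit 5) (nat_lit 205) (nat_lit 5) (nat_lit 315) (nat_lit 310) (nat_lit 155)) (XT.lf (nat_lit 0) (nat_lit 6172014641) (nat_lit 1140) (nat_lit 3568304732) (nat_lit 1216) (nat_lit 10016927602) (nat_lit 189) (nat_lit 5) (nat_lit 204) (nat_lit 5) (nat_lit 205) (nat_lit 5) (nat_lit 316) (nat_lit 310) (nat_lit 154))) (XT.nd (nat_lit 78) (nat_lit 0) (nat_lit 76) (XT.lf (nat_lit 76) (nat_lit 5659811249) (nat_lit 0) (nat_lit 1264225119) (nat_lit 1216) (nat_lit 13136018104) (nat_lit 190) (nat_lit 5) (nat_lit 189) (nat_lit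 5) (nat_lit 205) (nat_lit 5) (nat_lit 317) (nat_lit 310) (nat_lit 153)) (XT.lf (nat_lit 0) (nat_lit 7800471656) (nat_lit 1140) (nat_lit 5209340145) (nat_lit 1216) (nat_lit 7359087331) (nat_lit 190) (nat_lit 5) (nat_lit 205) (nat_lit 5) (nat_lit 206) (nat_lit 5) (nat_lit 318) (nat_lit 310) (nat_lit 152)))))) (XT.nd (nat_lit 468) (nat_lit 1520) (nat_lit 0) (XT.nd (nat_lit 234) (nat_lit 0) (nat_lit 152) (XT.nd (nat_lit 78) (nat_lit 0) (nat_lit 76) (XT.lf (nat_lit 76) (nat_lit 4325027664) (nat_lit 0) (nat_lit 4426141943) (nat_lit 1216) (nat_lit 11934408712) (nat_lit 191) (nat_lit 5) (nat_lit 190) (nat_lit 5) (nat_lit 206) (nat_lit 5) (nat_lit 319) (nat_lit 310) (nat_lit 151)) (XT.nd (nat_lit 78) (nat_lit 0) (nat_lit 0) (XT.lf (nat_lit 0) (nat_lit 9819988192) (nat_lit 1140) (nat_lit 6805234928) (nat_lit 1216) (nat_lit 4383854804) (nat_lit 191) (nat_lit 5) (nat_lit 206) (nat_lit 5) (nat_lit 207) (nat_lit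 5) (nat_lit 320) (nat_lit 310) (nat_lit 150)) (XT.lf (nat_lit 76) (nat_lit 3048217063) (nat_lit 0) (nat_lit 7939987228) (nat_lit 1216) (nat_lit 10352066038) (nat_lit 192) (nat_lit 5) (nat_lit 191) (nat_lit 5) (nat_lit 207) (nat_lit 5) (nat_lit 321) (nat_lit 310) (nat_lit 149)))) (XT.nd (nat_lit 78) (nat_lit 0) (nat_lit 0) (XT.lf (nat_lit 0) (nat_lit 12264887170) (nat_lit 1140) (nat_lit 8357245272) (nat_lit 1216) (nat_lit 1057071028) (nat_lit 192) (nat_lit 5) (nat_lit 207) (nat_lit 5) (nat_lit 208) (nat_lit 5) (nat_lit 322) (nat_lit 310) (nat_lit 148)) (XT.nd (nat_lit 78) (nat_lit 0) (nat_lit 0) (XT.lf (nat_lit 76) (nat_lit 1828466593) (nat_lit 0) (nat_lit 11842110477) (nat_lit 1216) (nat_lit 8355013692) (nat_lit 193) (nat_lit 5) (nat_lit 192) (nat_lit 5) (nat_lit 208) (nat_lit 5) (nat_lit 323) (nat_lit 310) (nat_lit 147)) (XT.lf (nat_lit 76) (nat_lit 12486899790) (nat_lit 0) (nat_lit 2710565805)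 (nat_lit 1216) (nat_lit 7182540378) (nat_lit 193) (nat_lit 5) (nat_lit 192) (nat_lit 5) (nat_lit 208) (nat_lit 5) (nat_lit 324) (nat_lit 310) (nat_lit 146))))) (XT.nd (nat_lit 234) (nat_lit 1748) (nat_lit 0) (XT.nd (nat_lit 78) (nat_lit 0) (nat_lit 0) (XT.lf (nat_lit 76) (nat_lit 664423536) (nat_lit 0) (nat_lit 16171283350) (nat_lit 1216) (nat_lit 5907387300) (nat_lit 194) (nat_lit 5) (nat_lit 193) (nat_lit 5) (nat_lit 209) (nat_lit 5) (nat_lit 325) (nat_lit 310) (nat_lit 145)) (XT.nd (nat_lit 78) (nat_lit 0) (nat_lit 76) (XT.lf (nat_lit 76) (nat_lit 11709929700) (nat_lit 0) (nat_lit 6934555618) (nat_lit 1216) (nat_lit 4468954762) (nat_lit 194) (nat_lit 5) (nat_lit 193) (nat_lit 5) (nat_lit 209) (nat_lit 5) (nat_lit 326) (nat_lit 310) (nat_lit 144)) (XT.lf (nat_lit 0) (nat_lit 20527392002) (nat_lit 1140) (nat_lit 437107349) (nat_lit 76) (nat_lit 2529807583) (nat_lit 194) (nat_lit 5) (nat_lit 209)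 (nat_lit 5) (nat_lit 195) (nat_lit 5) (nat_lit 327) (nat_lit 310) (nat_lit 143)))) (XT.nd (nat_lit 156) (nat_lit 608) (nat_lit 0) (XT.nd (nat_lit 78) (nat_lit 76) (nat_lit 0) (XT.lf (nat_lit 0) (nat_lit 11000186444) (nat_lit 1140) (nat_lit 11636213824) (nat_lit 1216) (nat_lit 1245117436) (nat_lit 179) (nat_lit 5) (nat_lit 194) (nat_lit 5) (nat_lit 195) (nat_lit 5) (nat_lit 328) (nat_lit 310) (nat_lit 142)) (XT.lf (nat_lit 0) (nat_lit 517744776) (nat_lit 1216) (nat_lit 1499931153) (nat_lit 76) (nat_lit 22262530874) (nat_lit 178) (nat_lit 5) (nat_lit 194) (nat_lit 5) (nat_lit 179) (nat_lit 5) (nat_lit 329) (nat_lit 310) (nat_lit 141))) (XT.nd (nat_lit 78) (nat_lit 0) (nat_lit 0) (XT.lf (nat_lit 0) (nat_lit 2480888397) (nat_lit 684) (nat_lit 14354906017) (nat_lit 76) (nat_lit 7849525491) (nat_lit 170) (nat_lit 5) (nat_lit 179) (nat_lit 5) (nat_lit 171) (nat_lit 5) (nat_lit 330) (nat_lit 310) (nat_lit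 140)) (XT.lf (nat_lit 0) (nat_lit 4533700921) (nat_lit 684) (nat_lit 2579983322) (nat_lit 76) (nat_lit 17987984555) (nat_lit 170) (nat_lit 5) (nat_lit 179) (nat_lit 5) (nat_lit 171) (nat_lit 5) (nat_lit 331) (nat_lit 310) (nat_lit 139))))))) (XT.nd (nat_lit 1014) (nat_lit 2356) (nat_lit 0) (XT.nd (nat_lit 468) (nat_lit 1976) (nat_lit 0) (XT.nd (nat_lit 234) (nat_lit 532) (nat_lit 0) (XT.nd (nat_lit 78) (nat_lit 532) (nat_lit 0) (XT.lf (nat_lit 0) (nat_lit 6766107604) (nat_lit 684) (nat_lit 15822530228) (nat_lit 76) (nat_lit 2938335503) (nat_lit 162) (nat_lit 5) (nat_lit 171) (nat_lit 5) (nat_lit 163) (nat_lit 5) (nat_lit 332) (nat_lit 310) (nat_lit 138)) (XT.nd (nat_lit 78) (nat_lit 532) (nat_lit 0) (XT.lf (nat_lit 0) (nat_lit 9157953846) (nat_lit 684) (nat_lit 3628773711) (nat_lit 76) (nat_lit 13175540741) (nat_lit 162) (nat_lit 5) (nat_lit 171) (nat_lit 5) (nat_lit 163) (nat_lit 5) (nat_lit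 333) (nat_lit 310) (nat_lit 137)) (XT.lf (nat_lit 0) (nat_lit 9104458929) (nat_lit 532) (nat_lit 2600462838) (nat_lit 608) (nat_lit 14703204512) (nat_lit 155) (nat_lit 5) (nat_lit 162) (nat_lit 5) (nat_lit 163) (nat_lit 5) (nat_lit 334) (nat_lit 310) (nat_lit 136)))) (XT.nd (nat_lit 78) (nat_lit 532) (nat_lit 0) (XT.lf (nat_lit 0) (nat_lit 14437094485) (nat_lit 608) (nat_lit 4652491806) (nat_lit 76) (nat_lit 7774514842) (nat_lit 155) (nat_lit 5) (nat_lit 163) (nat_lit 5) (nat_lit 156) (nat_lit 5) (nat_lit 335) (nat_lit 310) (nat_lit 135)) (XT.nd (nat_lit 78) (nat_lit 0) (nat_lit 0) (XT.lf (nat_lit 0) (nat_lit 8514656186) (nat_lit 532) (nat_lit 8840222494) (nat_lit 608) (nat_lit 9975772025) (nat_lit 148) (nat_lit 5) (nat_lit 155) (nat_lit 5) (nat_lit 156) (nat_lit 5) (nat_lit 336) (nat_lit 310) (nat_lit 134)) (XT.lf (nat_lit 0) (nat_lit 20420271594) (nat_lit 608) (nat_lit 5658612277) (nat_lit 76)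 (nat_lit 1730515357) (nat_lit 148) (nat_lit 5) (nat_lit 156) (nat_lit 5) (nat_lit 149) (nat_lit 5) (nat_lit 337) (nat_lit 310) (nat_lit 133))))) (XT.nd (nat_lit 234) (nat_lit 912) (nat_lit 0) (XT.nd (nat_lit 78) (nat_lit 608) (nat_lit 0) (XT.lf (nat_lit 0) (nat_lit 7957309467) (nat_lit 456) (nat_lit 15780574859) (nat_lit 532) (nat_lit 4559822721) (nat_lit 142) (nat_lit 5) (nat_lit 148) (nat_lit 5) (nat_lit 149) (nat_lit 5) (nat_lit 338) (nat_lit 310) (nat_lit 132)) (XT.nd (nat_lit 78) (nat_lit 608) (nat_lit 0) (XT.lf (nat_lit 0) (nat_lit 22093812627) (nat_lit 456) (nat_lit 5114666335) (nat_lit 532) (nat_lit 1590585981) (nat_lit 142) (nat_lit 5) (nat_lit 148) (nat_lit 5) (nat_lit 149) (nat_lit 5) (nat_lit 339) (nat_lit 310) (nat_lit 131)) (XT.lf (nat_lit 0) (nat_lit 1564527721) (nat_lit 608) (nat_lit 21903600258) (nat_lit 76) (nat_lit 5843153314) (nat_lit 134) (nat_lit 5) (nat_lit 142) (nat_lit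 5) (nat_lit 135) (nat_lit 5) (nat_lit 340) (nat_lit 310) (nat_lit 130)))) (XT.nd (nat_lit 156) (nat_lit 456) (nat_lit 0) (XT.nd (nat_lit 78) (nat_lit 456) (nat_lit 0) (XT.lf (nat_lit 0) (nat_lit 4897792712) (nat_lit 608) (nat_lit 7826363730) (nat_lit 76) (nat_lit 17110775298) (nat_lit 134) (nat_lit 5) (nat_lit 142) (nat_lit 5) (nat_lit 135) (nat_lit 5) (nat_lit 341) (nat_lit 310) (nat_lit 129)) (XT.lf (nat_lit 0) (nat_lit 6802112592) (nat_lit 456) (nat_lit 1590879151) (nat_lit 532) (nat_lit 21979445827) (nat_lit 128) (nat_lit 5) (nat_lit 134) (nat_lit 5) (nat_lit 135) (nat_lit 5) (nat_lit 342) (nat_lit 310) (nat_lit 128))) (XT.nd (nat_lit 78) (nat_lit 456) (nat_lit 0) (XT.lf (nat_lit 0) (nat_lit 12164408628) (nat_lit 532) (nat_lit 8993417445) (nat_lit 76) (nat_lit 9763105482) (nat_lit 128) (nat_lit 5) (nat_lit 135) (nat_lit 5) (nat_lit 129) (nat_lit 5) (nat_lit 343) (nat_lit 310) (nat_lit 127))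 (XT.lf (nat_lit 0) (nat_lit 6120720882) (nat_lit 456) (nat_lit 9999543758) (nat_lit 532) (nat_lit 15363480549) (nat_lit 122) (nat_lit 5) (nat_lit 128) (nat_lit 5) (nat_lit 129) (nat_lit 5) (nat_lit 344) (nat_lit 310) (nat_lit 126)))))) (XT.nd (nat_lit 546) (nat_lit 1140) (nat_lit 0) (XT.nd (nat_lit 234) (nat_lit 836) (nat_lit 0) (XT.nd (nat_lit 78) (nat_lit 380) (nat_lit 0) (XT.lf (nat_lit 0) (nat_lit 20297632198) (nat_lit 532) (nat_lit 10207155990) (nat_lit 76) (nat_lit 1555573582) (nat_lit 122) (nat_lit 5) (nat_lit 129) (nat_lit 5) (nat_lit 123) (nat_lit 5) (nat_lit 345) (nat_lit 310) (nat_lit 125)) (XT.nd (nat_lit 78) (nat_lit 0) (nat_lit 0) (XT.lf (nat_lit 0) (nat_lit 5406166720) (nat_lit 380) (nat_lit 19341985573) (nat_lit 456) (nat_lit 7901693123) (nat_lit 117) (nat_lit 5) (nat_lit 122) (nat_lit 5) (nat_lit 123) (nat_lit 5) (nat_lit 346) (nat_lit 310) (nat_lit 124)) (XT.lf (nat_lit 0) (nat_lit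 21693452120) (nat_lit 380) (nat_lit 7738723056) (nat_lit 456) (nat_lit 3821842189) (nat_lit 117) (nat_lit 5) (nat_lit 122) (nat_lit 5) (nat_lit 123) (nat_lit 5) (nat_lit 347) (nat_lit 310) (nat_lit 123)))) (XT.nd (nat_lit 156) (nat_lit 380) (nat_lit 0) (XT.nd (nat_lit 78) (nat_lit 0) (nat_lit 0) (XT.lf (nat_lit 0) (nat_lit 455881471) (nat_lit 456) (nat_lit 29238899796) (nat_lit 76) (nat_lit 4178939711) (nat_lit 111) (nat_lit 5) (nat_lit 117) (nat_lit 5) (nat_lit 112) (nat_lit 5) (nat_lit 348) (nat_lit 310) (nat_lit 122)) (XT.lf (nat_lit 0) (nat_lit 4976657054) (nat_lit 456) (nat_lit 13074761911) (nat_lit 76) (nat_lit 16453718590) (nat_lit 111) (nat_lit 5) (nat_lit 117) (nat_lit 5) (nat_lit 112) (nat_lit 5) (nat_lit 349) (nat_lit 310) (nat_lit 121))) (XT.nd (nat_lit 78) (nat_lit 0) (nat_lit 0) (XT.lf (nat_lit 0) (nat_lit 3641790812) (nat_lit 380) (nat_lit 6023378585) (nat_lit 456) (nat_lit 25489366857)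 (nat_lit 106) (nat_lit 5) (nat_lit 111) (nat_lit 5) (nat_lit 112) (nat_lit 5) (nat_lit 350) (nat_lit 310) (nat_lit 120)) (XT.lf (nat_lit 0) (nat_lit 14686012852) (nat_lit 456) (nat_lit 14757712716) (nat_lit 76) (nat_lit 6373944013) (nat_lit 106) (nat_lit 5) (nat_lit 112) (nat_lit 5) (nat_lit 107) (nat_lit 5) (nat_lit 351) (nat_lit 310) (nat_lit 119))))) (XT.nd (nat_lit 234) (nat_lit 456) (nat_lit 0) (XT.nd (nat_lit 78) (nat_lit 304) (nat_lit 0) (XT.lf (nat_lit 0) (nat_lit 2485316220) (nat_lit 380) (nat_lit 17452926145) (nat_lit 456) (nat_lit 16560034577) (nat_lit 101) (nat_lit 5) (nat_lit 106) (nat_lit 5) (nat_lit 107) (nat_lit 5) (nat_lit 352) (nat_lit 310) (nat_lit 118)) (XT.nd (nat_lit 78) (nat_lit 304) (nat_lit 0) (XT.lf (nat_lit 0) (nat_lit 20544674298) (nat_lit 380) (nat_lit 4949668527) (nat_lit 456) (nat_lit 11700573348) (nat_lit 101) (nat_lit 5) (nat_lit 106) (nat_lit 5) (nat_lit 107)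 (nat_lit 5) (nat_lit 353) (nat_lit 310) (nat_lit 117)) (XT.lf (nat_lit 0) (nat_lit 1176650012) (nat_lit 304) (nat_lit 30125354580) (nat_lit 380) (nat_lit 6607906333) (nat_lit 97) (nat_lit 5) (nat_lit 101) (nat_lit 5) (nat_lit 102) (nat_lit 5) (nat_lit 354) (nat_lit 310) (nat_lit 116)))) (XT.nd (nat_lit 156) (nat_lit 380) (nat_lit 0) (XT.nd (nat_lit 78) (nat_lit 76) (nat_lit 0) (XT.lf (nat_lit 0) (nat_lit 19826260392) (nat_lit 304) (nat_lit 17671693245) (nat_lit 380) (nat_lit 1141982771) (nat_lit 97) (nat_lit 5) (nat_lit 101) (nat_lit 5) (nat_lit 102) (nat_lit 5) (nat_lit 355) (nat_lit 310) (nat_lit 115)) (XT.lf (nat_lit 0) (nat_lit 4397787827) (nat_lit 380) (nat_lit 403017853) (nat_lit 76) (nat_lit 34589841878) (nat_lit 96) (nat_lit 5) (nat_lit 101) (nat_lit 5) (nat_lit 97) (nat_lit 5) (nat_lit 356) (nat_lit 310) (nat_lit 114))) (XT.nd (nat_lit 78) (nat_lit 0) (nat_lit 0) (XT.lf (nat_lit 0) (nat_lit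 10343326193) (nat_lit 456) (nat_lit 21326886581) (nat_lit 76) (nat_lit 8485454634) (nat_lit 91) (nat_lit 5) (nat_lit 97) (nat_lit 5) (nat_lit 92) (nat_lit 5) (nat_lit 357) (nat_lit 310) (nat_lit 113)) (XT.lf (nat_lit 0) (nat_lit 16516425988) (nat_lit 456) (nat_lit 2348604922) (nat_lit 76) (nat_lit 22077133408) (nat_lit 91) (nat_lit 5) (nat_lit 97) (nat_lit 5) (nat_lit 92) (nat_lit 5) (nat_lit 358) (nat_lit 310) (nat_lit 112))))))))
noncomputable def xc215 : XT := (XT.nd (nat_lit 2106) (nat_lit 456) (nat_lit 0) (XT.nd (nat_lit 1014) (nat_lit 1596) (nat_lit 0) (XT.nd (nat_lit 468) (nat_lit 912) (nat_lit 0) (XT.nd (nat_lit 234) (nat_lit 380) (nat_lit 0) (XT.nd (nat_lit 78) (nat_lit 304) (nat_lit 0) (XT.lf (nat_lit 0) (nat_lit 17538040897) (nat_lit 304) (nat_lit 5502888107) (nat_lit 380) (nat_lit 18706343079) (nat_lit 87) (nat_lit 5) (nat_lit 91) (nat_lit 5) (nat_lit 92) (nat_lit 5) (nat_lit 359)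 (nat_lit 310) (nat_lit 111)) (XT.nd (nat_lit 78) (nat_lit 304) (nat_lit 0) (XT.lf (nat_lit 0) (nat_lit 29862173878) (nat_lit 380) (nat_lit 4589274838) (nat_lit 76) (nat_lit 8122056348) (nat_lit 87) (nat_lit 5) (nat_lit 92) (nat_lit 5) (nat_lit 88) (nat_lit 5) (nat_lit 360) (nat_lit 310) (nat_lit 110)) (XT.lf (nat_lit 0) (nat_lit 15871350651) (nat_lit 304) (nat_lit 21221477270) (nat_lit 380) (nat_lit 6325556085) (nat_lit 83) (nat_lit 5) (nat_lit 87) (nat_lit 5) (nat_lit 88) (nat_lit 5) (nat_lit 361) (nat_lit 310) (nat_lit 109)))) (XT.nd (nat_lit 78) (nat_lit 304) (nat_lit 0) (XT.lf (nat_lit 0) (nat_lit 291415174) (nat_lit 380) (nat_lit 7253396615) (nat_lit 76) (nat_lit 36742390830) (nat_lit 82) (nat_lit 5) (nat_lit 87) (nat_lit 5) (nat_lit 83) (nat_lit 5) (nat_lit 362) (nat_lit 310) (nat_lit 108)) (XT.nd (nat_lit 78) (nat_lit 0) (nat_lit 0) (XT.lf (nat_lit 0) (nat_lit 7175546286) (nat_lit 380)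 (nat_lit 31387418566) (nat_lit 76) (nat_lit 6611370359) (nat_lit 78) (nat_lit 5) (nat_lit 83) (nat_lit 5) (nat_lit 79) (nat_lit 5) (nat_lit 363) (nat_lit 310) (nat_lit 107)) (XT.lf (nat_lit 0) (nat_lit 14412699756) (nat_lit 380) (nat_lit 10557288695) (nat_lit 76) (nat_lit 21113700267) (nat_lit 78) (nat_lit 5) (nat_lit 83) (nat_lit 5) (nat_lit 79) (nat_lit 5) (nat_lit 364) (nat_lit 310) (nat_lit 106))))) (XT.nd (nat_lit 234) (nat_lit 380) (nat_lit 0) (XT.nd (nat_lit 78) (nat_lit 228) (nat_lit 0) (XT.lf (nat_lit 0) (nat_lit 11111557221) (nat_lit 304) (nat_lit 10860112018) (nat_lit 380) (nat_lit 25045514381) (nat_lit 74) (nat_lit 5) (nat_lit 78) (nat_lit 5) (nat_lit 79) (nat_lit 5) (nat_lit 365) (nat_lit 310) (nat_lit 105)) (XT.nd (nat_lit 78) (nat_lit 228) (nat_lit 0) (XT.lf (nat_lit 0) (nat_lit 29898293305) (nat_lit 380) (nat_lit 14368005939) (nat_lit 76) (nat_lit 3708159339) (nat_lit 74) (nat_lit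 5) (nat_lit 79) (nat_lit 5) (nat_lit 75) (nat_lit 5) (nat_lit 366) (nat_lit 310) (nat_lit 104)) (XT.lf (nat_lit 0) (nat_lit 7858615556) (nat_lit 228) (nat_lit 30385143318) (nat_lit 304) (nat_lit 10711263364) (nat_lit 71) (nat_lit 5) (nat_lit 74) (nat_lit 5) (nat_lit 75) (nat_lit 5) (nat_lit 367) (nat_lit 310) (nat_lit 103)))) (XT.nd (nat_lit 156) (nat_lit 0) (nat_lit 0) (XT.nd (nat_lit 78) (nat_lit 380) (nat_lit 0) (XT.lf (nat_lit 0) (nat_lit 31043643056) (nat_lit 228) (nat_lit 15939040024) (nat_lit 304) (nat_lit 2978028560) (nat_lit 71) (nat_lit 5) (nat_lit 74) (nat_lit 5) (nat_lit 75) (nat_lit 5) (nat_lit 368) (nat_lit 310) (nat_lit 102)) (XT.lf (nat_lit 0) (nat_lit 3953988084) (nat_lit 304) (nat_lit 971948352) (nat_lit 380) (nat_lit 46068117125) (nat_lit 66) (nat_lit 5) (nat_lit 70) (nat_lit 5) (nat_lit 71) (nat_lit 5) (nat_lit 369) (nat_lit 310) (nat_lit 101))) (XT.nd (nat_lit 78) (nat_lit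 0) (nat_lit 0) (XT.lf (nat_lit 0) (nat_lit 13336991687) (nat_lit 380) (nat_lit 24326830336) (nat_lit 76) (nat_lit 14383795887) (nat_lit 66) (nat_lit 5) (nat_lit 71) (nat_lit 5) (nat_lit 67) (nat_lit 5) (nat_lit 370) (nat_lit 310) (nat_lit 100)) (XT.lf (nat_lit 0) (nat_lit 22008122256) (nat_lit 380) (nat_lit 944637248) (nat_lit 76) (nat_lit 30179798864) (nat_lit 66) (nat_lit 5) (nat_lit 71) (nat_lit 5) (nat_lit 67) (nat_lit 5) (nat_lit 371) (nat_lit 310) (nat_lit 99)))))) (XT.nd (nat_lit 546) (nat_lit 608) (nat_lit 0) (XT.nd (nat_lit 234) (nat_lit 532) (nat_lit 0) (XT.nd (nat_lit 78) (nat_lit 228) (nat_lit 0) (XT.lf (nat_lit 0) (nat_lit 23596745281) (nat_lit 228) (nat_lit 7567642969) (nat_lit 304) (nat_lit 23078910193) (nat_lit 63) (nat_lit 5) (nat_lit 66) (nat_lit 5) (nat_lit 67) (nat_lit 5) (nat_lit 372) (nat_lit 310) (nat_lit 98)) (XT.nd (nat_lit 78) (nat_lit 228) (nat_lit 0) (XT.lf (nat_lit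 0) (nat_lit 40682752270) (nat_lit 304) (nat_lit 6575772278) (nat_lit 76) (nat_lit 8126215274) (nat_lit 63) (nat_lit 5) (nat_lit 67) (nat_lit 5) (nat_lit 64) (nat_lit 5) (nat_lit 373) (nat_lit 310) (nat_lit 97)) (XT.lf (nat_lit 0) (nat_lit 18500543685) (nat_lit 228) (nat_lit 32237135388) (nat_lit 304) (nat_lit 5815216379) (nat_lit 60) (nat_lit 5) (nat_lit 63) (nat_lit 5) (nat_lit 64) (nat_lit 5) (nat_lit 374) (nat_lit 310) (nat_lit 96)))) (XT.nd (nat_lit 156) (nat_lit 228) (nat_lit 0) (XT.nd (nat_lit 78) (nat_lit 228) (nat_lit 0) (XT.lf (nat_lit 0) (nat_lit 3338331687) (nat_lit 304) (nat_lit 13325586799) (nat_lit 76) (nat_lit 41089256499) (nat_lit 59) (nat_lit 5) (nat_lit 63) (nat_lit 5) (nat_lit 60) (nat_lit 5) (nat_lit 375) (nat_lit 310) (nat_lit 95)) (XT.lf (nat_lit 0) (nat_lit 12323271007) (nat_lit 228) (nat_lit 443098175) (nat_lit 304) (nat_lit 46217864786) (nat_lit 56) (nat_lit 5) (nat_lit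 59) (nat_lit 5) (nat_lit 60) (nat_lit 5) (nat_lit 376) (nat_lit 310) (nat_lit 94))) (XT.nd (nat_lit 78) (nat_lit 228) (nat_lit 0) (XT.lf (nat_lit 0) (nat_lit 22767805372) (nat_lit 304) (nat_lit 21393729178) (nat_lit 76) (nat_lit 16081974655) (nat_lit 56) (nat_lit 5) (nat_lit 60) (nat_lit 5) (nat_lit 57) (nat_lit 5) (nat_lit 377) (nat_lit 310) (nat_lit 93)) (XT.lf (nat_lit 0) (nat_lit 4716627077) (nat_lit 228) (nat_lit 28400752834) (nat_lit 304) (nat_lit 28421741106) (nat_lit 53) (nat_lit 5) (nat_lit 56) (nat_lit 5) (nat_lit 57) (nat_lit 5) (nat_lit 378) (nat_lit 310) (nat_lit 92))))) (XT.nd (nat_lit 234) (nat_lit 380) (nat_lit 0) (XT.nd (nat_lit 78) (nat_lit 228) (nat_lit 0) (XT.lf (nat_lit 0) (nat_lit 32046323640) (nat_lit 228) (nat_lit 11945545084) (nat_lit 304) (nat_lit 18875300791) (nat_lit 53) (nat_lit 5) (nat_lit 56) (nat_lit 5) (nat_lit 57) (nat_lit 5) (nat_lit 379) (nat_lit 310) (nat_lit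 91)) (XT.nd (nat_lit 78) (nat_lit 228) (nat_lit 0) (XT.lf (nat_lit 0) (nat_lit 55239117788) (nat_lit 304) (nat_lit 4089730174) (nat_lit 76) (nat_lit 4904816847) (nat_lit 53) (nat_lit 5) (nat_lit 57) (nat_lit 5) (nat_lit 54) (nat_lit 5) (nat_lit 380) (nat_lit 310) (nat_lit 90)) (XT.lf (nat_lit 0) (nat_lit 1508373082) (nat_lit 228) (nat_lit 41858783974) (nat_lit 76) (nat_lit 22263193274) (nat_lit 50) (nat_lit 5) (nat_lit 53) (nat_lit 5) (nat_lit 51) (nat_lit 5) (nat_lit 381) (nat_lit 310) (nat_lit 89)))) (XT.nd (nat_lit 156) (nat_lit 152) (nat_lit 0) (XT.nd (nat_lit 78) (nat_lit 228) (nat_lit 0) (XT.lf (nat_lit 0) (nat_lit 12185788281) (nat_lit 228) (nat_lit 14607046011) (nat_lit 76) (nat_lit 40272225821) (nat_lit 50) (nat_lit 5) (nat_lit 53) (nat_lit 5) (nat_lit 51) (nat_lit 5) (nat_lit 382) (nat_lit 310) (nat_lit 88)) (XT.lf (nat_lit 0) (nat_lit 13727770918) (nat_lit 228) (nat_lit 9586240800)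 (nat_lit 304) (nat_lit 45224885883) (nat_lit 47) (nat_lit 5) (nat_lit 50) (nat_lit 5) (nat_lit 51) (nat_lit 5) (nat_lit 383) (nat_lit 310) (nat_lit 87))) (XT.nd (nat_lit 78) (nat_lit 152) (nat_lit 0) (XT.lf (nat_lit 0) (nat_lit 35001796495) (nat_lit 304) (nat_lit 26922501105) (nat_lit 76) (nat_lit 8125882133) (nat_lit 47) (nat_lit 5) (nat_lit 51) (nat_lit 5) (nat_lit 48) (nat_lit 5) (nat_lit 384) (nat_lit 310) (nat_lit 86)) (XT.lf (nat_lit 0) (nat_lit 1739518586) (nat_lit 152) (nat_lit 45410911585) (nat_lit 228) (nat_lit 24453064625) (nat_lit 45) (nat_lit 5) (nat_lit 47) (nat_lit 5) (nat_lit 48) (nat_lit 5) (nat_lit 385) (nat_lit 310) (nat_lit 85))))))) (XT.nd (nat_lit 35334) (nat_lit 0) (nat_lit 9956) (XT.nd (nat_lit 34788) (nat_lit 0) (nat_lit 11248) (XT.nd (nat_lit 234) (nat_lit 152) (nat_lit 0) (XT.nd (nat_lit 78) (nat_lit 304) (nat_lit 0) (XT.lf (nat_lit 0) (nat_lit 31811010602) (nat_lit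 152) (nat_lit 28122976981) (nat_lit 228) (nat_lit 13261308688) (nat_lit 45) (nat_lit 5) (nat_lit 47) (nat_lit 5) (nat_lit 48) (nat_lit 5) (nat_lit 386) (nat_lit 310) (nat_lit 84)) (XT.nd (nat_lit 78) (nat_lit 304) (nat_lit 0) (XT.lf (nat_lit 0) (nat_lit 62782440440) (nat_lit 152) (nat_lit 10317252298) (nat_lit 228) (nat_lit 1735200697) (nat_lit 45) (nat_lit 5) (nat_lit 47) (nat_lit 5) (nat_lit 48) (nat_lit 5) (nat_lit 387) (nat_lit 310) (nat_lit 83)) (XT.lf (nat_lit 0) (nat_lit 10194438325) (nat_lit 304) (nat_lit 58176164255) (nat_lit 76) (nat_lit 8142487022) (nat_lit 41) (nat_lit 5) (nat_lit 45) (nat_lit 5) (nat_lit 42) (nat_lit 5) (nat_lit 388) (nat_lit 310) (nat_lit 82)))) (XT.nd (nat_lit 78) (nat_lit 152) (nat_lit 0) (XT.lf (nat_lit 0) (nat_lit 22670829741) (nat_lit 304) (nat_lit 28475649173) (nat_lit 76) (nat_lit 27087925964) (nat_lit 41) (nat_lit 5) (nat_lit 45) (nat_lit 5) (nat_lit 42)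 (nat_lit 5) (nat_lit 389) (nat_lit 310) (nat_lit 81)) (XT.nd (nat_lit 78) (nat_lit 0) (nat_lit 0) (XT.lf (nat_lit 0) (nat_lit 2155831946) (nat_lit 152) (nat_lit 33385119538) (nat_lit 228) (nat_lit 44465825748) (nat_lit 39) (nat_lit 5) (nat_lit 41) (nat_lit 5) (nat_lit 42) (nat_lit 5) (nat_lit 390) (nat_lit 310) (nat_lit 80)) (XT.lf (nat_lit 0) (nat_lit 34287883690) (nat_lit 152) (nat_lit 14795574083) (nat_lit 228) (nat_lit 32740275313) (nat_lit 39) (nat_lit 5) (nat_lit 41) (nat_lit 5) (nat_lit 42) (nat_lit 5) (nat_lit 391) (nat_lit 310) (nat_lit 79))))) (XT.nd (nat_lit 234) (nat_lit 0) (nat_lit 76) (XT.nd (nat_lit 78) (nat_lit 0) (nat_lit 0) (XT.lf (nat_lit 0) (nat_lit 953562822) (nat_lit 0) (nat_lit 953562822) (nat_lit 1140) (nat_lit 7398105080) (nat_lit 187) (nat_lit 5) (nat_lit 187) (nat_lit 3) (nat_lit 202) (nat_lit 3) (nat_lit 311) (nat_lit 311) (nat_lit 158)) (XT.nd (nat_lit 78) (nat_lit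 0) (nat_lit 0) (XT.lf (nat_lit 0) (nat_lit 4115211336) (nat_lit 1140) (nat_lit 8443610158) (nat_lit 1216) (nat_lit 6323238679) (nat_lit 187) (nat_lit 5) (nat_lit 202) (nat_lit 3) (nat_lit 203) (nat_lit 5) (nat_lit 312) (nat_lit 311) (nat_lit 157)) (XT.lf (nat_lit 76) (nat_lit 42042062) (nat_lit 0) (nat_lit 4395385442) (nat_lit 1216) (nat_lit 14724022128) (nat_lit 188) (nat_lit 5) (nat_lit 187) (nat_lit 5) (nat_lit 203) (nat_lit 5) (nat_lit 313) (nat_lit 311) (nat_lit 156)))) (XT.nd (nat_lit 156) (nat_lit 0) (nat_lit 76) (XT.nd (nat_lit 78) (nat_lit 0) (nat_lit 0) (XT.lf (nat_lit 0) (nat_lit 4887133418) (nat_lit 1140) (nat_lit 10534744351) (nat_lit 1216) (nat_lit 4023817622) (nat_lit 188) (nat_lit 5) (nat_lit 203) (nat_lit 5) (nat_lit 204) (nat_lit 5) (nat_lit 314) (nat_lit 311) (nat_lit 155)) (XT.lf (nat_lit 0) (nat_lit 5387189168) (nat_lit 1140) (nat_lit 1739954961) (nat_lit 1216) (nat_lit 12610227677)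 (nat_lit 188) (nat_lit 5) (nat_lit 203) (nat_lit 5) (nat_lit 204) (nat_lit 5) (nat_lit 315) (nat_lit 311) (nat_lit 154))) (XT.nd (nat_lit 78) (nat_lit 0) (nat_lit 0) (XT.lf (nat_lit 0) (nat_lit 5981846691) (nat_lit 1140) (nat_lit 12589724005) (nat_lit 1216) (nat_lit 1463848592) (nat_lit 189) (nat_lit 5) (nat_lit 204) (nat_lit 5) (nat_lit 205) (nat_lit 5) (nat_lit 316) (nat_lit 311) (nat_lit 153)) (XT.lf (nat_lit 0) (nat_lit 6676364824) (nat_lit 1140) (nat_lit 3474005594) (nat_lit 1216) (nat_lit 10189585675) (nat_lit 189) (nat_lit 5) (nat_lit 204) (nat_lit 5) (nat_lit 205) (nat_lit 5) (nat_lit 317) (nat_lit 311) (nat_lit 152)))))) (XT.nd (nat_lit 546) (nat_lit 1444) (nat_lit 0) (XT.nd (nat_lit 234) (nat_lit 0) (nat_lit 152) (XT.nd (nat_lit 78) (nat_lit 0) (nat_lit 76) (XT.lf (nat_lit 76) (nat_lit 6028979863) (nat_lit 0) (nat_lit 1414587059) (nat_lit 1216) (nat_lit 13208514903) (nat_lit 190) (nat_lit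 5) (nat_lit 189) (nat_lit 5) (nat_lit 205) (nat_lit 5) (nat_lit 318) (nat_lit 311) (nat_lit 151)) (XT.nd (nat_lit 78) (nat_lit 0) (nat_lit 0) (XT.lf (nat_lit 0) (nat_lit 8336164123) (nat_lit 1140) (nat_lit 5161514180) (nat_lit 1216) (nat_lit 7472829688) (nat_lit 190) (nat_lit 5) (nat_lit 205) (nat_lit 5) (nat_lit 206) (nat_lit 5) (nat_lit 319) (nat_lit 311) (nat_lit 150)) (XT.lf (nat_lit 76) (nat_lit 4656883622) (nat_lit 0) (nat_lit 4651655401) (nat_lit 1216) (nat_lit 11988365727) (nat_lit 191) (nat_lit 5) (nat_lit 190) (nat_lit 5) (nat_lit 206) (nat_lit 5) (nat_lit 320) (nat_lit 311) (nat_lit 149)))) (XT.nd (nat_lit 156) (nat_lit 0) (nat_lit 76) (XT.nd (nat_lit 78) (nat_lit 0) (nat_lit 0) (XT.lf (nat_lit 0) (nat_lit 10399969351) (nat_lit 1140) (nat_lit 6803336232) (nat_lit 1216) (nat_lit 4427098876) (nat_lit 191) (nat_lit 5) (nat_lit 206) (nat_lit 5) (nat_lit 207) (nat_lit 5) (nat_lit 321) (nat_lit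 311) (nat_lit 148)) (XT.lf (nat_lit 76) (nat_lit 3343699165) (nat_lit 0) (nat_lit 8253182000) (nat_lit 1216) (nat_lit 10374853188) (nat_lit 192) (nat_lit 5) (nat_lit 191) (nat_lit 5) (nat_lit 207) (nat_lit 5) (nat_lit 322) (nat_lit 311) (nat_lit 147))) (XT.nd (nat_lit 78) (nat_lit 0) (nat_lit 0) (XT.lf (nat_lit 0) (nat_lit 12903037519) (nat_lit 1140) (nat_lit 8400680519) (nat_lit 1216) (nat_lit 1017393130) (nat_lit 192) (nat_lit 5) (nat_lit 207) (nat_lit 5) (nat_lit 208) (nat_lit 5) (nat_lit 323) (nat_lit 311) (nat_lit 146)) (XT.lf (nat_lit 76) (nat_lit 2088570525) (nat_lit 0) (nat_lit 12256430568) (nat_lit 1216) (nat_lit 8333076449) (nat_lit 193) (nat_lit 5) (nat_lit 192) (nat_lit 5) (nat_lit 208) (nat_lit 5) (nat_lit 324) (nat_lit 311) (nat_lit 145))))) (XT.nd (nat_lit 234) (nat_lit 1672) (nat_lit 0) (XT.nd (nat_lit 78) (nat_lit 0) (nat_lit 76) (XT.lf (nat_lit 76) (nat_lit 13060778564) (nat_lit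 0) (nat_lit 2849219455) (nat_lit 1216) (nat_lit 7133368383) (nat_lit 193) (nat_lit 5) (nat_lit 192) (nat_lit 5) (nat_lit 208) (nat_lit 5) (nat_lit 325) (nat_lit 311) (nat_lit 144)) (XT.nd (nat_lit 78) (nat_lit 0) (nat_lit 0) (XT.lf (nat_lit 76) (nat_lit 890181059) (nat_lit 0) (nat_lit 16701174869) (nat_lit 1216) (nat_lit 5826182199) (nat_lit 194) (nat_lit 5) (nat_lit 193) (nat_lit 5) (nat_lit 209) (nat_lit 5) (nat_lit 326) (nat_lit 311) (nat_lit 143)) (XT.lf (nat_lit 76) (nat_lit 12261057510) (nat_lit 0) (nat_lit 7186041819) (nat_lit 1216) (nat_lit 4352123676) (nat_lit 194) (nat_lit 5) (nat_lit 193) (nat_lit 5) (nat_lit 209) (nat_lit 5) (nat_lit 327) (nat_lit 311) (nat_lit 142)))) (XT.nd (nat_lit 156) (nat_lit 684) (nat_lit 0) (XT.nd (nat_lit 78) (nat_lit 1140) (nat_lit 0) (XT.lf (nat_lit 0) (nat_lit 21379001906) (nat_lit 1140) (nat_lit 248407113) (nat_lit 76) (nat_lit 2564340960) (nat_lit 194)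 (nat_lit 5) (nat_lit 209) (nat_lit 5) (nat_lit 195) (nat_lit 5) (nat_lit 328) (nat_lit 311) (nat_lit 141)) (XT.lf (nat_lit 0) (nat_lit 11530026931) (nat_lit 1140) (nat_lit 12016306809) (nat_lit 1216) (nat_lit 1044400836) (nat_lit 179) (nat_lit 5) (nat_lit 194) (nat_lit 5) (nat_lit 195) (nat_lit 5) (nat_lit 329) (nat_lit 311) (nat_lit 140))) (XT.nd (nat_lit 78) (nat_lit 608) (nat_lit 0) (XT.lf (nat_lit 0) (nat_lit 759902864) (nat_lit 1216) (nat_lit 1346118333) (nat_lit 76) (nat_lit 22895507038) (nat_lit 178) (nat_lit 5) (nat_lit 194) (nat_lit 5) (nat_lit 179) (nat_lit 5) (nat_lit 330) (nat_lit 311) (nat_lit 139)) (XT.lf (nat_lit 0) (nat_lit 2776991548) (nat_lit 684) (nat_lit 14581515528) (nat_lit 76) (nat_lit 8060444463) (nat_lit 170) (nat_lit 5) (nat_lit 179) (nat_lit 5) (nat_lit 171) (nat_lit 5) (nat_lit 331) (nat_lit 311) (nat_lit 138))))))))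
noncomputable def xc216 : XT := (XT.nd (nat_lit 2028) (nat_lit 3724) (nat_lit 0) (XT.nd (nat_lit 1014) (nat_lit 2432) (nat_lit 0) (XT.nd (nat_lit 468) (nat_lit 1520) (nat_lit 0) (XT.nd (nat_lit 234) (nat_lit 1064) (nat_lit 0) (XT.nd (nat_lit 78) (nat_lit 608) (nat_lit 0) (XT.lf (nat_lit 0) (nat_lit 4884931850) (nat_lit 684) (nat_lit 2459287997) (nat_lit 76) (nat_lit 18503772836) (nat_lit 170) (nat_lit 5) (nat_lit 179) (nat_lit 5) (nat_lit 171) (nat_lit 5) (nat_lit 332) (nat_lit 311) (nat_lit 137)) (XT.nd (nat_lit 78) (nat_lit 0) (nat_lit 0) (XT.lf (nat_lit 0) (nat_lit 7179786579) (nat_lit 684) (nat_lit 16094325427) (nat_lit 76) (nat_lit 3012087927) (nat_lit 162) (nat_lit 5) (nat_lit 171) (nat_lit 5) (nat_lit 163) (nat_lit 5) (nat_lit 333) (nat_lit 311) (nat_lit 136)) (XT.lf (nat_lit 0) (nat_lit 9637251440) (nat_lit 684) (nat_lit 3540665362) (nat_lit 76) (nat_lit 13556828671) (nat_lit 162) (nat_lit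 5) (nat_lit 171) (nat_lit 5) (nat_lit 163) (nat_lit 5) (nat_lit 334) (nat_lit 311) (nat_lit 135)))) (XT.nd (nat_lit 78) (nat_lit 532) (nat_lit 0) (XT.lf (nat_lit 0) (nat_lit 9572633164) (nat_lit 532) (nat_lit 2683912054) (nat_lit 608) (nat_lit 14937563871) (nat_lit 155) (nat_lit 5) (nat_lit 162) (nat_lit 5) (nat_lit 163) (nat_lit 5) (nat_lit 335) (nat_lit 311) (nat_lit 134)) (XT.nd (nat_lit 78) (nat_lit 532) (nat_lit 0) (XT.lf (nat_lit 0) (nat_lit 15064793291) (nat_lit 608) (nat_lit 4596577538) (nat_lit 76) (nat_lit 8002576241) (nat_lit 155) (nat_lit 5) (nat_lit 163) (nat_lit 5) (nat_lit 156) (nat_lit 5) (nat_lit 336) (nat_lit 311) (nat_lit 133)) (XT.lf (nat_lit 0) (nat_lit 8963668335) (nat_lit 532) (nat_lit 9102635861) (nat_lit 608) (nat_lit 10078310113) (nat_lit 148) (nat_lit 5) (nat_lit 155) (nat_lit 5) (nat_lit 156) (nat_lit 5) (nat_lit 337) (nat_lit 311) (nat_lit 132))))) (XT.nd (nat_lit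 234) (nat_lit 1064) (nat_lit 0) (XT.nd (nat_lit 78) (nat_lit 456) (nat_lit 0) (XT.lf (nat_lit 0) (nat_lit 21218128292) (nat_lit 608) (nat_lit 5634679839) (nat_lit 76) (nat_lit 1785089847) (nat_lit 148) (nat_lit 5) (nat_lit 156) (nat_lit 5) (nat_lit 149) (nat_lit 5) (nat_lit 338) (nat_lit 311) (nat_lit 131)) (XT.nd (nat_lit 78) (nat_lit 0) (nat_lit 0) (XT.lf (nat_lit 0) (nat_lit 8387820627) (nat_lit 456) (nat_lit 16243896810) (nat_lit 532) (nat_lit 4509250729) (nat_lit 142) (nat_lit 5) (nat_lit 148) (nat_lit 5) (nat_lit 149) (nat_lit 5) (nat_lit 339) (nat_lit 311) (nat_lit 130)) (XT.lf (nat_lit 0) (nat_lit 22942832711) (nat_lit 456) (nat_lit 5258305068) (nat_lit 532) (nat_lit 1456394169) (nat_lit 142) (nat_lit 5) (nat_lit 148) (nat_lit 5) (nat_lit 149) (nat_lit 5) (nat_lit 340) (nat_lit 311) (nat_lit 129)))) (XT.nd (nat_lit 156) (nat_lit 456) (nat_lit 0) (XT.nd (nat_lit 78) (nat_lit 0) (nat_lit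 0) (XT.lf (nat_lit 0) (nat_lit 1786562606) (nat_lit 608) (nat_lit 22367285018) (nat_lit 76) (nat_lit 6031318543) (nat_lit 134) (nat_lit 5) (nat_lit 142) (nat_lit 5) (nat_lit 135) (nat_lit 5) (nat_lit 341) (nat_lit 311) (nat_lit 128)) (XT.lf (nat_lit 0) (nat_lit 5214725574) (nat_lit 608) (nat_lit 7873365080) (nat_lit 76) (nat_lit 17636594314) (nat_lit 134) (nat_lit 5) (nat_lit 142) (nat_lit 5) (nat_lit 135) (nat_lit 5) (nat_lit 342) (nat_lit 311) (nat_lit 127))) (XT.nd (nat_lit 78) (nat_lit 0) (nat_lit 0) (XT.lf (nat_lit 0) (nat_lit 7192124457) (nat_lit 456) (nat_lit 1619492141) (nat_lit 532) (nat_lit 22466799968) (nat_lit 128) (nat_lit 5) (nat_lit 134) (nat_lit 5) (nat_lit 135) (nat_lit 5) (nat_lit 343) (nat_lit 311) (nat_lit 126)) (XT.lf (nat_lit 0) (nat_lit 12691495093) (nat_lit 532) (nat_lit 9077822989) (nat_lit 76) (nat_lit 10074193223) (nat_lit 128) (nat_lit 5) (nat_lit 135) (nat_lit 5) (nat_lit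 129) (nat_lit 5) (nat_lit 344) (nat_lit 311) (nat_lit 125)))))) (XT.nd (nat_lit 468) (nat_lit 1140) (nat_lit 0) (XT.nd (nat_lit 234) (nat_lit 456) (nat_lit 0) (XT.nd (nat_lit 78) (nat_lit 380) (nat_lit 0) (XT.lf (nat_lit 0) (nat_lit 6487921870) (nat_lit 456) (nat_lit 10275146653) (nat_lit 532) (nat_lit 15660234918) (nat_lit 122) (nat_lit 5) (nat_lit 128) (nat_lit 5) (nat_lit 129) (nat_lit 5) (nat_lit 345) (nat_lit 311) (nat_lit 124)) (XT.nd (nat_lit 78) (nat_lit 380) (nat_lit 0) (XT.lf (nat_lit 0) (nat_lit 21061347895) (nat_lit 532) (nat_lit 10330556032) (nat_lit 76) (nat_lit 1625452061) (nat_lit 122) (nat_lit 5) (nat_lit 129) (nat_lit 5) (nat_lit 123) (nat_lit 5) (nat_lit 346) (nat_lit 311) (nat_lit 123)) (XT.lf (nat_lit 0) (nat_lit 5749374060) (nat_lit 380) (nat_lit 19893241279) (nat_lit 456) (nat_lit 7981996891) (nat_lit 117) (nat_lit 5) (nat_lit 122) (nat_lit 5) (nat_lit 123) (nat_lit 5) (nat_lit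 347) (nat_lit 311) (nat_lit 122)))) (XT.nd (nat_lit 78) (nat_lit 456) (nat_lit 0) (XT.lf (nat_lit 0) (nat_lit 22520005526) (nat_lit 380) (nat_lit 7942725659) (nat_lit 456) (nat_lit 3784315877) (nat_lit 117) (nat_lit 5) (nat_lit 122) (nat_lit 5) (nat_lit 123) (nat_lit 5) (nat_lit 348) (nat_lit 311) (nat_lit 121)) (XT.nd (nat_lit 78) (nat_lit 0) (nat_lit 0) (XT.lf (nat_lit 0) (nat_lit 616420246) (nat_lit 456) (nat_lit 29934685612) (nat_lit 76) (nat_lit 4334267141) (nat_lit 111) (nat_lit 5) (nat_lit 117) (nat_lit 5) (nat_lit 112) (nat_lit 5) (nat_lit 349) (nat_lit 311) (nat_lit 120)) (XT.lf (nat_lit 0) (nat_lit 5268541553) (nat_lit 456) (nat_lit 13290906537) (nat_lit 76) (nat_lit 16976416787) (nat_lit 111) (nat_lit 5) (nat_lit 117) (nat_lit 5) (nat_lit 112) (nat_lit 5) (nat_lit 350) (nat_lit 311) (nat_lit 119))))) (XT.nd (nat_lit 234) (nat_lit 380) (nat_lit 0) (XT.nd (nat_lit 78) (nat_lit 380) (nat_lit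 0) (XT.lf (nat_lit 0) (nat_lit 3925416314) (nat_lit 380) (nat_lit 6169816165) (nat_lit 456) (nat_lit 26109591709) (nat_lit 106) (nat_lit 5) (nat_lit 111) (nat_lit 5) (nat_lit 112) (nat_lit 5) (nat_lit 351) (nat_lit 311) (nat_lit 118)) (XT.nd (nat_lit 78) (nat_lit 380) (nat_lit 0) (XT.lf (nat_lit 0) (nat_lit 15262940194) (nat_lit 456) (nat_lit 15027249373) (nat_lit 76) (nat_lit 6597779001) (nat_lit 106) (nat_lit 5) (nat_lit 112) (nat_lit 5) (nat_lit 107) (nat_lit 5) (nat_lit 352) (nat_lit 311) (nat_lit 117)) (XT.lf (nat_lit 0) (nat_lit 2731372444) (nat_lit 380) (nat_lit 17939041409) (nat_lit 456) (nat_lit 16918654077) (nat_lit 101) (nat_lit 5) (nat_lit 106) (nat_lit 5) (nat_lit 107) (nat_lit 5) (nat_lit 353) (nat_lit 311) (nat_lit 116)))) (XT.nd (nat_lit 156) (nat_lit 76) (nat_lit 0) (XT.nd (nat_lit 78) (nat_lit 304) (nat_lit 0) (XT.lf (nat_lit 0) (nat_lit 21327516214) (nat_lit 380) (nat_lit 5061777496)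 (nat_lit 456) (nat_lit 11917433716) (nat_lit 101) (nat_lit 5) (nat_lit 106) (nat_lit 5) (nat_lit 107) (nat_lit 5) (nat_lit 354) (nat_lit 311) (nat_lit 115)) (XT.lf (nat_lit 0) (nat_lit 1380469204) (nat_lit 304) (nat_lit 30988885650) (nat_lit 380) (nat_lit 6673875942) (nat_lit 97) (nat_lit 5) (nat_lit 101) (nat_lit 5) (nat_lit 102) (nat_lit 5) (nat_lit 355) (nat_lit 311) (nat_lit 114))) (XT.nd (nat_lit 78) (nat_lit 76) (nat_lit 0) (XT.lf (nat_lit 0) (nat_lit 20584659554) (nat_lit 304) (nat_lit 18162786211) (nat_lit 380) (nat_lit 1047827127) (nat_lit 97) (nat_lit 5) (nat_lit 101) (nat_lit 5) (nat_lit 102) (nat_lit 5) (nat_lit 356) (nat_lit 311) (nat_lit 113)) (XT.lf (nat_lit 0) (nat_lit 4651963487) (nat_lit 380) (nat_lit 253711733) (nat_lit 76) (nat_lit 35662906676) (nat_lit 96) (nat_lit 5) (nat_lit 101) (nat_lit 5) (nat_lit 97) (nat_lit 5) (nat_lit 357) (nat_lit 311) (nat_lit 112))))))) (XT.nd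 (nat_lit 1014) (nat_lit 1444) (nat_lit 0) (XT.nd (nat_lit 468) (nat_lit 1216) (nat_lit 0) (XT.nd (nat_lit 234) (nat_lit 380) (nat_lit 0) (XT.nd (nat_lit 78) (nat_lit 304) (nat_lit 0) (XT.lf (nat_lit 0) (nat_lit 10774224416) (nat_lit 456) (nat_lit 21803538540) (nat_lit 76) (nat_lit 8778842127) (nat_lit 91) (nat_lit 5) (nat_lit 97) (nat_lit 5) (nat_lit 92) (nat_lit 5) (nat_lit 358) (nat_lit 311) (nat_lit 111)) (XT.nd (nat_lit 78) (nat_lit 304) (nat_lit 0) (XT.lf (nat_lit 0) (nat_lit 17129004629) (nat_lit 456) (nat_lit 2260660508) (nat_lit 76) (nat_lit 22777140471) (nat_lit 91) (nat_lit 5) (nat_lit 97) (nat_lit 5) (nat_lit 92) (nat_lit 5) (nat_lit 359) (nat_lit 311) (nat_lit 110)) (XT.lf (nat_lit 0) (nat_lit 18221031719) (nat_lit 304) (nat_lit 5626308482) (nat_lit 380) (nat_lit 19148786715) (nat_lit 87) (nat_lit 5) (nat_lit 91) (nat_lit 5) (nat_lit 92) (nat_lit 5) (nat_lit 360) (nat_lit 311) (nat_lit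 109)))) (XT.nd (nat_lit 78) (nat_lit 380) (nat_lit 0) (XT.lf (nat_lit 0) (nat_lit 30870256424) (nat_lit 380) (nat_lit 4571601236) (nat_lit 76) (nat_lit 8405381348) (nat_lit 87) (nat_lit 5) (nat_lit 92) (nat_lit 5) (nat_lit 88) (nat_lit 5) (nat_lit 361) (nat_lit 311) (nat_lit 108)) (XT.nd (nat_lit 78) (nat_lit 76) (nat_lit 0) (XT.lf (nat_lit 0) (nat_lit 16501319961) (nat_lit 304) (nat_lit 21814720358) (nat_lit 380) (nat_lit 6401480741) (nat_lit 83) (nat_lit 5) (nat_lit 87) (nat_lit 5) (nat_lit 88) (nat_lit 5) (nat_lit 362) (nat_lit 311) (nat_lit 107)) (XT.lf (nat_lit 0) (nat_lit 408527103) (nat_lit 380) (nat_lit 7319397604) (nat_lit 76) (nat_lit 37884547102) (nat_lit 82) (nat_lit 5) (nat_lit 87) (nat_lit 5) (nat_lit 83) (nat_lit 5) (nat_lit 363) (nat_lit 311) (nat_lit 106))))) (XT.nd (nat_lit 234) (nat_lit 608) (nat_lit 0) (XT.nd (nat_lit 78) (nat_lit 304) (nat_lit 0) (XT.lf (nat_lit 0) (nat_lit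 7497886500) (nat_lit 380) (nat_lit 32176051551) (nat_lit 76) (nat_lit 6852321988) (nat_lit 78) (nat_lit 5) (nat_lit 83) (nat_lit 5) (nat_lit 79) (nat_lit 5) (nat_lit 364) (nat_lit 311) (nat_lit 105)) (XT.nd (nat_lit 78) (nat_lit 304) (nat_lit 0) (XT.lf (nat_lit 0) (nat_lit 14949035918) (nat_lit 380) (nat_lit 10725473791) (nat_lit 76) (nat_lit 21788480710) (nat_lit 78) (nat_lit 5) (nat_lit 83) (nat_lit 5) (nat_lit 79) (nat_lit 5) (nat_lit 365) (nat_lit 311) (nat_lit 104)) (XT.lf (nat_lit 0) (nat_lit 11591981291) (nat_lit 304) (nat_lit 11141179171) (nat_lit 380) (nat_lit 25691380756) (nat_lit 74) (nat_lit 5) (nat_lit 78) (nat_lit 5) (nat_lit 79) (nat_lit 5) (nat_lit 366) (nat_lit 311) (nat_lit 103)))) (XT.nd (nat_lit 156) (nat_lit 380) (nat_lit 0) (XT.nd (nat_lit 78) (nat_lit 228) (nat_lit 0) (XT.lf (nat_lit 0) (nat_lit 30895019948) (nat_lit 380) (nat_lit 14653604145) (nat_lit 76) (nat_lit 3861989791)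 (nat_lit 74) (nat_lit 5) (nat_lit 79) (nat_lit 5) (nat_lit 75) (nat_lit 5) (nat_lit 367) (nat_lit 311) (nat_lit 102)) (XT.lf (nat_lit 0) (nat_lit 8238390093) (nat_lit 228) (nat_lit 31250937611) (nat_lit 304) (nat_lit 10931314878) (nat_lit 71) (nat_lit 5) (nat_lit 74) (nat_lit 5) (nat_lit 75) (nat_lit 5) (nat_lit 368) (nat_lit 311) (nat_lit 101))) (XT.nd (nat_lit 78) (nat_lit 380) (nat_lit 0) (XT.lf (nat_lit 0) (nat_lit 32114773775) (nat_lit 228) (nat_lit 16372784034) (nat_lit 304) (nat_lit 2969033119) (nat_lit 71) (nat_lit 5) (nat_lit 74) (nat_lit 5) (nat_lit 75) (nat_lit 5) (nat_lit 369) (nat_lit 311) (nat_lit 100)) (XT.lf (nat_lit 0) (nat_lit 4213035572) (nat_lit 304) (nat_lit 955637964) (nat_lit 380) (nat_lit 47352277233) (nat_lit 66) (nat_lit 5) (nat_lit 70) (nat_lit 5) (nat_lit 71) (nat_lit 5) (nat_lit 370) (nat_lit 311) (nat_lit 99)))))) (XT.nd (nat_lit 546) (nat_lit 684) (nat_lit 0) (XT.nd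 (nat_lit 234) (nat_lit 532) (nat_lit 0) (XT.nd (nat_lit 78) (nat_lit 228) (nat_lit 0) (XT.lf (nat_lit 0) (nat_lit 13829718992) (nat_lit 380) (nat_lit 24917882653) (nat_lit 76) (nat_lit 14858592849) (nat_lit 66) (nat_lit 5) (nat_lit 71) (nat_lit 5) (nat_lit 67) (nat_lit 5) (nat_lit 371) (nat_lit 311) (nat_lit 98)) (XT.nd (nat_lit 78) (nat_lit 228) (nat_lit 0) (XT.lf (nat_lit 0) (nat_lit 22758285880) (nat_lit 380) (nat_lit 838265110) (nat_lit 76) (nat_lit 31127215243) (nat_lit 66) (nat_lit 5) (nat_lit 71) (nat_lit 5) (nat_lit 67) (nat_lit 5) (nat_lit 372) (nat_lit 311) (nat_lit 97)) (XT.lf (nat_lit 0) (nat_lit 24438038196) (nat_lit 228) (nat_lit 7749864861) (nat_lit 304) (nat_lit 23679967633) (nat_lit 63) (nat_lit 5) (nat_lit 66) (nat_lit 5) (nat_lit 67) (nat_lit 5) (nat_lit 373) (nat_lit 311) (nat_lit 96)))) (XT.nd (nat_lit 156) (nat_lit 304) (nat_lit 0) (XT.nd (nat_lit 78) (nat_lit 228) (nat_lit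 0) (XT.lf (nat_lit 0) (nat_lit 41989656077) (nat_lit 304) (nat_lit 6641310935) (nat_lit 76) (nat_lit 8412655172) (nat_lit 63) (nat_lit 5) (nat_lit 67) (nat_lit 5) (nat_lit 64) (nat_lit 5) (nat_lit 374) (nat_lit 311) (nat_lit 95)) (XT.lf (nat_lit 0) (nat_lit 19186002992) (nat_lit 228) (nat_lit 33158964466) (nat_lit 304) (nat_lit 5901894878) (nat_lit 60) (nat_lit 5) (nat_lit 63) (nat_lit 5) (nat_lit 64) (nat_lit 5) (nat_lit 375) (nat_lit 311) (nat_lit 94))) (XT.nd (nat_lit 78) (nat_lit 228) (nat_lit 0) (XT.lf (nat_lit 0) (nat_lit 3522040013) (nat_lit 304) (nat_lit 13596986248) (nat_lit 76) (nat_lit 42364175728) (nat_lit 59) (nat_lit 5) (nat_lit 63) (nat_lit 5) (nat_lit 60) (nat_lit 5) (nat_lit 376) (nat_lit 311) (nat_lit 93)) (XT.lf (nat_lit 0) (nat_lit 12820078781) (nat_lit 228) (nat_lit 411627969) (nat_lit 304) (nat_lit 47519524140) (nat_lit 56) (nat_lit 5) (nat_lit 59) (nat_lit 5) (nat_lit 60)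 (nat_lit 5) (nat_lit 377) (nat_lit 311) (nat_lit 92))))) (XT.nd (nat_lit 234) (nat_lit 456) (nat_lit 0) (XT.nd (nat_lit 78) (nat_lit 228) (nat_lit 0) (XT.lf (nat_lit 0) (nat_lit 23531205342) (nat_lit 304) (nat_lit 21910094985) (nat_lit 76) (nat_lit 16607045216) (nat_lit 56) (nat_lit 5) (nat_lit 60) (nat_lit 5) (nat_lit 57) (nat_lit 5) (nat_lit 378) (nat_lit 311) (nat_lit 91)) (XT.nd (nat_lit 78) (nat_lit 0) (nat_lit 0) (XT.lf (nat_lit 0) (nat_lit 4982342094) (nat_lit 228) (nat_lit 29207778314) (nat_lit 304) (nat_lit 29192741391) (nat_lit 53) (nat_lit 5) (nat_lit 56) (nat_lit 5) (nat_lit 57) (nat_lit 5) (nat_lit 379) (nat_lit 311) (nat_lit 90)) (XT.lf (nat_lit 0) (nat_lit 33128311606) (nat_lit 228) (nat_lit 12260224927) (nat_lit 304) (nat_lit 19362286079) (nat_lit 53) (nat_lit 5) (nat_lit 56) (nat_lit 5) (nat_lit 57) (nat_lit 5) (nat_lit 380) (nat_lit 311) (nat_lit 89)))) (XT.nd (nat_lit 156) (nat_lit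 228) (nat_lit 0) (XT.nd (nat_lit 78) (nat_lit 228) (nat_lit 0) (XT.lf (nat_lit 0) (nat_lit 56971370630) (nat_lit 304) (nat_lit 4093450911) (nat_lit 76) (nat_lit 5093547788) (nat_lit 53) (nat_lit 5) (nat_lit 57) (nat_lit 5) (nat_lit 54) (nat_lit 5) (nat_lit 381) (nat_lit 311) (nat_lit 88)) (XT.lf (nat_lit 0) (nat_lit 1628432634) (nat_lit 228) (nat_lit 42995203876) (nat_lit 76) (nat_lit 22973330079) (nat_lit 50) (nat_lit 5) (nat_lit 53) (nat_lit 5) (nat_lit 51) (nat_lit 5) (nat_lit 382) (nat_lit 311) (nat_lit 87))) (XT.nd (nat_lit 78) (nat_lit 228) (nat_lit 0) (XT.lf (nat_lit 0) (nat_lit 12623991405) (nat_lit 228) (nat_lit 14929389802) (nat_lit 76) (nat_lit 41521403282) (nat_lit 50) (nat_lit 5) (nat_lit 53) (nat_lit 5) (nat_lit 51) (nat_lit 5) (nat_lit 383) (nat_lit 311) (nat_lit 86)) (XT.lf (nat_lit 0) (nat_lit 14254335679) (nat_lit 228) (nat_lit 9830713316) (nat_lit 304) (nat_lit 46507819898)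 (nat_lit 47) (nat_lit 5) (nat_lit 50) (nat_lit 5) (nat_lit 51) (nat_lit 5) (nat_lit 384) (nat_lit 311) (nat_lit 85))))))))
noncomputable def xc217 : XT := (XT.nd (nat_lit 36426) (nat_lit 0) (nat_lit 4408) (XT.nd (nat_lit 35412) (nat_lit 0) (nat_lit 10640) (XT.nd (nat_lit 468) (nat_lit 152) (nat_lit 0) (XT.nd (nat_lit 234) (nat_lit 304) (nat_lit 0) (XT.nd (nat_lit 78) (nat_lit 152) (nat_lit 0) (XT.lf (nat_lit 0) (nat_lit 36121783758) (nat_lit 304) (nat_lit 27617056890) (nat_lit 76) (nat_lit 8410700719) (nat_lit 47) (nat_lit 5) (nat_lit 51) (nat_lit 5) (nat_lit 48) (nat_lit 5) (nat_lit 385) (nat_lit 311) (nat_lit 84)) (XT.nd (nat_lit 78) (nat_lit 0) (nat_lit 0) (XT.lf (nat_lit 0) (nat_lit 1903714380) (nat_lit 152) (nat_lit 46730201882) (nat_lit 228) (nat_lit 25115569759) (nat_lit 45) (nat_lit 5) (nat_lit 47) (nat_lit 5) (nat_lit 48) (nat_lit 5) (nat_lit 386) (nat_lit 311) (nat_lit 83)) (XT.lf (nat_lit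 0) (nat_lit 32874088721) (nat_lit 152) (nat_lit 28924882747) (nat_lit 228) (nat_lit 13590131633) (nat_lit 45) (nat_lit 5) (nat_lit 47) (nat_lit 5) (nat_lit 48) (nat_lit 5) (nat_lit 387) (nat_lit 311) (nat_lit 82)))) (XT.nd (nat_lit 78) (nat_lit 304) (nat_lit 0) (XT.lf (nat_lit 0) (nat_lit 64771494043) (nat_lit 152) (nat_lit 10586203319) (nat_lit 228) (nat_lit 1720250586) (nat_lit 45) (nat_lit 5) (nat_lit 47) (nat_lit 5) (nat_lit 48) (nat_lit 5) (nat_lit 388) (nat_lit 311) (nat_lit 81)) (XT.nd (nat_lit 78) (nat_lit 0) (nat_lit 0) (XT.lf (nat_lit 0) (nat_lit 10565469170) (nat_lit 304) (nat_lit 59813980233) (nat_lit 76) (nat_lit 8427037486) (nat_lit 41) (nat_lit 5) (nat_lit 45) (nat_lit 5) (nat_lit 42) (nat_lit 5) (nat_lit 389) (nat_lit 311) (nat_lit 80)) (XT.lf (nat_lit 0) (nat_lit 23414253367) (nat_lit 304) (nat_lit 29225579862) (nat_lit 76) (nat_lit 27939666513) (nat_lit 41) (nat_lit 5) (nat_lit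 45) (nat_lit 5) (nat_lit 42) (nat_lit 5) (nat_lit 390) (nat_lit 311) (nat_lit 79))))) (XT.nd (nat_lit 34632) (nat_lit 0) (nat_lit 11248) (XT.nd (nat_lit 34476) (nat_lit 0) (nat_lit 11248) (XT.lf (nat_lit 0) (nat_lit 2323822762) (nat_lit 152) (nat_lit 34345805484) (nat_lit 228) (nat_lit 45735441653) (nat_lit 39) (nat_lit 5) (nat_lit 41) (nat_lit 5) (nat_lit 42) (nat_lit 5) (nat_lit 391) (nat_lit 311) (nat_lit 78)) (XT.nd (nat_lit 78) (nat_lit 0) (nat_lit 0) (XT.lf (nat_lit 0) (nat_lit 1072173013) (nat_lit 0) (nat_lit 1072173013) (nat_lit 1140) (nat_lit 7434397973) (nat_lit 187) (nat_lit 5) (nat_lit 187) (nat_lit 3) (nat_lit 202) (nat_lit 3) (nat_lit 312) (nat_lit 312) (nat_lit 156)) (XT.lf (nat_lit 0) (nat_lit 4586515147) (nat_lit 1140) (nat_lit 8509516289) (nat_lit 1216) (nat_lit 6341582405) (nat_lit 187) (nat_lit 5) (nat_lit 202) (nat_lit 3) (nat_lit 203) (nat_lit 5) (nat_lit 313) (nat_lit 312)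 (nat_lit 155)))) (XT.nd (nat_lit 156) (nat_lit 0) (nat_lit 76) (XT.nd (nat_lit 78) (nat_lit 0) (nat_lit 76) (XT.lf (nat_lit 76) (nat_lit 228868220) (nat_lit 0) (nat_lit 4681181863) (nat_lit 1216) (nat_lit 14815599101) (nat_lit 188) (nat_lit 5) (nat_lit 187) (nat_lit 5) (nat_lit 203) (nat_lit 5) (nat_lit 314) (nat_lit 312) (nat_lit 154)) (XT.lf (nat_lit 0) (nat_lit 5361922215) (nat_lit 1140) (nat_lit 10658856052) (nat_lit 1216) (nat_lit 3997997165) (nat_lit 188) (nat_lit 5) (nat_lit 203) (nat_lit 5) (nat_lit 204) (nat_lit 5) (nat_lit 315) (nat_lit 312) (nat_lit 153))) (XT.nd (nat_lit 78) (nat_lit 0) (nat_lit 76) (XT.lf (nat_lit 0) (nat_lit 5867421149) (nat_lit 1140) (nat_lit 1605813192) (nat_lit 1216) (nat_lit 12846267531) (nat_lit 188) (nat_lit 5) (nat_lit 203) (nat_lit 5) (nat_lit 204) (nat_lit 5) (nat_lit 316) (nat_lit 312) (nat_lit 152)) (XT.lf (nat_lit 0) (nat_lit 6471195047) (nat_lit 1140)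 (nat_lit 12771931959) (nat_lit 1216) (nat_lit 1383638075) (nat_lit 189) (nat_lit 5) (nat_lit 204) (nat_lit 5) (nat_lit 205) (nat_lit 5) (nat_lit 317) (nat_lit 312) (nat_lit 151)))))) (XT.nd (nat_lit 468) (nat_lit 760) (nat_lit 0) (XT.nd (nat_lit 234) (nat_lit 0) (nat_lit 76) (XT.nd (nat_lit 78) (nat_lit 0) (nat_lit 0) (XT.lf (nat_lit 0) (nat_lit 7177522715) (nat_lit 1140) (nat_lit 3388435698) (nat_lit 1216) (nat_lit 10374762589) (nat_lit 189) (nat_lit 5) (nat_lit 204) (nat_lit 5) (nat_lit 205) (nat_lit 5) (nat_lit 318) (nat_lit 312) (nat_lit 150)) (XT.nd (nat_lit 78) (nat_lit 0) (nat_lit 76) (XT.lf (nat_lit 76) (nat_lit 6397778637) (nat_lit 0) (nat_lit 1563005617) (nat_lit 1216) (nat_lit 13301646828) (nat_lit 190) (nat_lit 5) (nat_lit 189) (nat_lit 5) (nat_lit 205) (nat_lit 5) (nat_lit 319) (nat_lit 312) (nat_lit 149)) (XT.lf (nat_lit 0) (nat_lit 8870609794) (nat_lit 1140) (nat_lit 5123969966)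 (nat_lit 1216) (nat_lit 7596128291) (nat_lit 190) (nat_lit 5) (nat_lit 205) (nat_lit 5) (nat_lit 206) (nat_lit 5) (nat_lit 320) (nat_lit 312) (nat_lit 148)))) (XT.nd (nat_lit 78) (nat_lit 0) (nat_lit 76) (XT.lf (nat_lit 76) (nat_lit 4987093598) (nat_lit 0) (nat_lit 4878611227) (nat_lit 1216) (nat_lit 12061396615) (nat_lit 191) (nat_lit 5) (nat_lit 190) (nat_lit 5) (nat_lit 206) (nat_lit 5) (nat_lit 321) (nat_lit 312) (nat_lit 147)) (XT.nd (nat_lit 78) (nat_lit 0) (nat_lit 0) (XT.lf (nat_lit 0) (nat_lit 10980967878) (nat_lit 1140) (nat_lit 6813209017) (nat_lit 1216) (nat_lit 4476707419) (nat_lit 191) (nat_lit 5) (nat_lit 206) (nat_lit 5) (nat_lit 207) (nat_lit 5) (nat_lit 322) (nat_lit 312) (nat_lit 146)) (XT.lf (nat_lit 76) (nat_lit 3636333252) (nat_lit 0) (nat_lit 8571467586) (nat_lit 1216) (nat_lit 10414843406) (nat_lit 192) (nat_lit 5) (nat_lit 191) (nat_lit 5) (nat_lit 207) (nat_lit 5) (nat_lit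 323) (nat_lit 312) (nat_lit 145))))) (XT.nd (nat_lit 234) (nat_lit 988) (nat_lit 0) (XT.nd (nat_lit 78) (nat_lit 0) (nat_lit 0) (XT.lf (nat_lit 0) (nat_lit 13544821579) (nat_lit 1140) (nat_lit 8457317665) (nat_lit 1216) (nat_lit 980622975) (nat_lit 192) (nat_lit 5) (nat_lit 207) (nat_lit 5) (nat_lit 208) (nat_lit 5) (nat_lit 324) (nat_lit 312) (nat_lit 144)) (XT.nd (nat_lit 78) (nat_lit 0) (nat_lit 0) (XT.lf (nat_lit 76) (nat_lit 2344695388) (nat_lit 0) (nat_lit 12679790160) (nat_lit 1216) (nat_lit 8326128736) (nat_lit 193) (nat_lit 5) (nat_lit 192) (nat_lit 5) (nat_lit 208) (nat_lit 5) (nat_lit 325) (nat_lit 312) (nat_lit 143)) (XT.lf (nat_lit 76) (nat_lit 13640434686) (nat_lit 0) (nat_lit 2988741354) (nat_lit 1216) (nat_lit 7097913117) (nat_lit 193) (nat_lit 5) (nat_lit 192) (nat_lit 5) (nat_lit 208) (nat_lit 5) (nat_lit 326) (nat_lit 312) (nat_lit 142)))) (XT.nd (nat_lit 156) (nat_lit 1064)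 (nat_lit 0) (XT.nd (nat_lit 78) (nat_lit 0) (nat_lit 0) (XT.lf (nat_lit 76) (nat_lit 1110896121) (nat_lit 0) (nat_lit 17244394128) (nat_lit 1216) (nat_lit 5757375694) (nat_lit 194) (nat_lit 5) (nat_lit 193) (nat_lit 5) (nat_lit 209) (nat_lit 5) (nat_lit 327) (nat_lit 312) (nat_lit 141)) (XT.lf (nat_lit 76) (nat_lit 12817248100) (nat_lit 0) (nat_lit 7442578425) (nat_lit 1216) (nat_lit 4246190328) (nat_lit 194) (nat_lit 5) (nat_lit 193) (nat_lit 5) (nat_lit 209) (nat_lit 5) (nat_lit 328) (nat_lit 312) (nat_lit 140))) (XT.nd (nat_lit 78) (nat_lit 1140) (nat_lit 0) (XT.lf (nat_lit 0) (nat_lit 22242624903) (nat_lit 1140) (nat_lit 65630788) (nat_lit 76) (nat_lit 2602284621) (nat_lit 194) (nat_lit 5) (nat_lit 209) (nat_lit 5) (nat_lit 195) (nat_lit 5) (nat_lit 329) (nat_lit 312) (nat_lit 139)) (XT.lf (nat_lit 0) (nat_lit 12064291291) (nat_lit 1140) (nat_lit 12406022680) (nat_lit 1216) (nat_lit 851328937)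 (nat_lit 179) (nat_lit 5) (nat_lit 194) (nat_lit 5) (nat_lit 195) (nat_lit 5) (nat_lit 330) (nat_lit 312) (nat_lit 138))))))) (XT.nd (nat_lit 1014) (nat_lit 2812) (nat_lit 0) (XT.nd (nat_lit 468) (nat_lit 1596) (nat_lit 0) (XT.nd (nat_lit 234) (nat_lit 1140) (nat_lit 0) (XT.nd (nat_lit 78) (nat_lit 608) (nat_lit 0) (XT.lf (nat_lit 0) (nat_lit 996316451) (nat_lit 1216) (nat_lit 1199103680) (nat_lit 76) (nat_lit 23549475877) (nat_lit 178) (nat_lit 5) (nat_lit 194) (nat_lit 5) (nat_lit 179) (nat_lit 5) (nat_lit 331) (nat_lit 312) (nat_lit 137)) (XT.nd (nat_lit 78) (nat_lit 0) (nat_lit 0) (XT.lf (nat_lit 0) (nat_lit 3069252655) (nat_lit 684) (nat_lit 14826635922) (nat_lit 76) (nat_lit 8279101238) (nat_lit 170) (nat_lit 5) (nat_lit 179) (nat_lit 5) (nat_lit 171) (nat_lit 5) (nat_lit 332) (nat_lit 312) (nat_lit 136)) (XT.lf (nat_lit 0) (nat_lit 5234345205) (nat_lit 684) (nat_lit 2346343266) (nat_lit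 76) (nat_lit 19036403925) (nat_lit 170) (nat_lit 5) (nat_lit 179) (nat_lit 5) (nat_lit 171) (nat_lit 5) (nat_lit 333) (nat_lit 312) (nat_lit 135)))) (XT.nd (nat_lit 78) (nat_lit 532) (nat_lit 0) (XT.lf (nat_lit 0) (nat_lit 7593781126) (nat_lit 684) (nat_lit 16385920665) (nat_lit 76) (nat_lit 3088879407) (nat_lit 162) (nat_lit 5) (nat_lit 171) (nat_lit 5) (nat_lit 163) (nat_lit 5) (nat_lit 334) (nat_lit 312) (nat_lit 134)) (XT.nd (nat_lit 78) (nat_lit 532) (nat_lit 0) (XT.lf (nat_lit 0) (nat_lit 10119185439) (nat_lit 684) (nat_lit 3461220735) (nat_lit 76) (nat_lit 13950357649) (nat_lit 162) (nat_lit 5) (nat_lit 171) (nat_lit 5) (nat_lit 163) (nat_lit 5) (nat_lit 335) (nat_lit 312) (nat_lit 133)) (XT.lf (nat_lit 0) (nat_lit 10043656505) (nat_lit 532) (nat_lit 2769552737) (nat_lit 608) (nat_lit 15190821548) (nat_lit 155) (nat_lit 5) (nat_lit 162) (nat_lit 5) (nat_lit 163) (nat_lit 5) (nat_lit 336)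 (nat_lit 312) (nat_lit 132))))) (XT.nd (nat_lit 234) (nat_lit 1064) (nat_lit 0) (XT.nd (nat_lit 78) (nat_lit 532) (nat_lit 0) (XT.lf (nat_lit 0) (nat_lit 15700153030) (nat_lit 608) (nat_lit 4550207711) (nat_lit 76) (nat_lit 8237776492) (nat_lit 155) (nat_lit 5) (nat_lit 163) (nat_lit 5) (nat_lit 156) (nat_lit 5) (nat_lit 337) (nat_lit 312) (nat_lit 131)) (XT.nd (nat_lit 78) (nat_lit 0) (nat_lit 0) (XT.lf (nat_lit 0) (nat_lit 9415038997) (nat_lit 532) (nat_lit 9373081976) (nat_lit 608) (nat_lit 10195217742) (nat_lit 148) (nat_lit 5) (nat_lit 155) (nat_lit 5) (nat_lit 156) (nat_lit 5) (nat_lit 338) (nat_lit 312) (nat_lit 130)) (XT.lf (nat_lit 0) (nat_lit 22029286666) (nat_lit 608) (nat_lit 5621148074) (nat_lit 76) (nat_lit 1841148933) (nat_lit 148) (nat_lit 5) (nat_lit 156) (nat_lit 5) (nat_lit 149) (nat_lit 5) (nat_lit 339) (nat_lit 312) (nat_lit 129)))) (XT.nd (nat_lit 156) (nat_lit 608) (nat_lit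 0) (XT.nd (nat_lit 78) (nat_lit 0) (nat_lit 0) (XT.lf (nat_lit 0) (nat_lit 8820237484) (nat_lit 456) (nat_lit 16721697931) (nat_lit 532) (nat_lit 4467917192) (nat_lit 142) (nat_lit 5) (nat_lit 148) (nat_lit 5) (nat_lit 149) (nat_lit 5) (nat_lit 340) (nat_lit 312) (nat_lit 128)) (XT.lf (nat_lit 0) (nat_lit 23806634428) (nat_lit 456) (nat_lit 5406815596) (nat_lit 532) (nat_lit 1328618946) (nat_lit 142) (nat_lit 5) (nat_lit 148) (nat_lit 5) (nat_lit 149) (nat_lit 5) (nat_lit 341) (nat_lit 312) (nat_lit 127))) (XT.nd (nat_lit 78) (nat_lit 0) (nat_lit 0) (XT.lf (nat_lit 0) (nat_lit 2005207135) (nat_lit 608) (nat_lit 22855983606) (nat_lit 76) (nat_lit 6224389902) (nat_lit 134) (nat_lit 5) (nat_lit 142) (nat_lit 5) (nat_lit 135) (nat_lit 5) (nat_lit 342) (nat_lit 312) (nat_lit 126)) (XT.lf (nat_lit 0) (nat_lit 5531407780) (nat_lit 608) (nat_lit 7932556361) (nat_lit 76) (nat_lit 18177470592) (nat_lit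 134) (nat_lit 5) (nat_lit 142) (nat_lit 5) (nat_lit 135) (nat_lit 5) (nat_lit 343) (nat_lit 312) (nat_lit 125)))))) (XT.nd (nat_lit 546) (nat_lit 1064) (nat_lit 0) (XT.nd (nat_lit 234) (nat_lit 836) (nat_lit 0) (XT.nd (nat_lit 78) (nat_lit 456) (nat_lit 0) (XT.lf (nat_lit 0) (nat_lit 7583162474) (nat_lit 456) (nat_lit 1650060706) (nat_lit 532) (nat_lit 22978649915) (nat_lit 128) (nat_lit 5) (nat_lit 134) (nat_lit 5) (nat_lit 135) (nat_lit 5) (nat_lit 344) (nat_lit 312) (nat_lit 124)) (XT.nd (nat_lit 78) (nat_lit 456) (nat_lit 0) (XT.lf (nat_lit 0) (nat_lit 13225085836) (nat_lit 532) (nat_lit 9175403244) (nat_lit 76) (nat_lit 10393569154) (nat_lit 128) (nat_lit 5) (nat_lit 135) (nat_lit 5) (nat_lit 129) (nat_lit 5) (nat_lit 345) (nat_lit 312) (nat_lit 123)) (XT.lf (nat_lit 0) (nat_lit 6855600682) (nat_lit 456) (nat_lit 10560417343) (nat_lit 532) (nat_lit 15975314802) (nat_lit 122) (nat_lit 5) (nat_lit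 128) (nat_lit 5) (nat_lit 129) (nat_lit 5) (nat_lit 346) (nat_lit 312) (nat_lit 122)))) (XT.nd (nat_lit 156) (nat_lit 456) (nat_lit 0) (XT.nd (nat_lit 78) (nat_lit 380) (nat_lit 0) (XT.lf (nat_lit 0) (nat_lit 21839089672) (nat_lit 532) (nat_lit 10468152383) (nat_lit 76) (nat_lit 1696094472) (nat_lit 122) (nat_lit 5) (nat_lit 129) (nat_lit 5) (nat_lit 123) (nat_lit 5) (nat_lit 347) (nat_lit 312) (nat_lit 121)) (XT.lf (nat_lit 0) (nat_lit 6092486196) (nat_lit 380) (nat_lit 20462699597) (nat_lit 456) (nat_lit 8073707693) (nat_lit 117) (nat_lit 5) (nat_lit 122) (nat_lit 5) (nat_lit 123) (nat_lit 5) (nat_lit 348) (nat_lit 312) (nat_lit 120))) (XT.nd (nat_lit 78) (nat_lit 456) (nat_lit 0) (XT.lf (nat_lit 0) (nat_lit 23361266774) (nat_lit 380) (nat_lit 8154464788) (nat_lit 456) (nat_lit 3754399620) (nat_lit 117) (nat_lit 5) (nat_lit 122) (nat_lit 5) (nat_lit 123) (nat_lit 5) (nat_lit 349) (nat_lit 312)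 (nat_lit 119)) (XT.lf (nat_lit 0) (nat_lit 773344685) (nat_lit 456) (nat_lit 30661757024) (nat_lit 76) (nat_lit 4492534612) (nat_lit 111) (nat_lit 5) (nat_lit 117) (nat_lit 5) (nat_lit 112) (nat_lit 5) (nat_lit 350) (nat_lit 312) (nat_lit 118))))) (XT.nd (nat_lit 234) (nat_lit 684) (nat_lit 0) (XT.nd (nat_lit 78) (nat_lit 380) (nat_lit 0) (XT.lf (nat_lit 0) (nat_lit 5560997636) (nat_lit 456) (nat_lit 13523644262) (nat_lit 76) (nat_lit 17513126239) (nat_lit 111) (nat_lit 5) (nat_lit 117) (nat_lit 5) (nat_lit 112) (nat_lit 5) (nat_lit 351) (nat_lit 312) (nat_lit 117)) (XT.nd (nat_lit 78) (nat_lit 0) (nat_lit 0) (XT.lf (nat_lit 0) (nat_lit 4207540928) (nat_lit 380) (nat_lit 6322613753) (nat_lit 456) (nat_lit 26756715681) (nat_lit 106) (nat_lit 5) (nat_lit 111) (nat_lit 5) (nat_lit 112) (nat_lit 5) (nat_lit 352) (nat_lit 312) (nat_lit 116)) (XT.lf (nat_lit 0) (nat_lit 15849348483) (nat_lit 456) (nat_lit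 15314814216) (nat_lit 76) (nat_lit 6826456708) (nat_lit 106) (nat_lit 5) (nat_lit 112) (nat_lit 5) (nat_lit 107) (nat_lit 5) (nat_lit 353) (nat_lit 312) (nat_lit 115)))) (XT.nd (nat_lit 156) (nat_lit 304) (nat_lit 0) (XT.nd (nat_lit 78) (nat_lit 0) (nat_lit 0) (XT.lf (nat_lit 0) (nat_lit 2974965740) (nat_lit 380) (nat_lit 18441891207) (nat_lit 456) (nat_lit 17295964347) (nat_lit 101) (nat_lit 5) (nat_lit 106) (nat_lit 5) (nat_lit 107) (nat_lit 5) (nat_lit 354) (nat_lit 312) (nat_lit 114)) (XT.lf (nat_lit 0) (nat_lit 22124285509) (nat_lit 380) (nat_lit 5179338157) (nat_lit 456) (nat_lit 12148501045) (nat_lit 101) (nat_lit 5) (nat_lit 106) (nat_lit 5) (nat_lit 107) (nat_lit 5) (nat_lit 355) (nat_lit 312) (nat_lit 113))) (XT.nd (nat_lit 78) (nat_lit 0) (nat_lit 0) (XT.lf (nat_lit 0) (nat_lit 1580729251) (nat_lit 304) (nat_lit 31880631995) (nat_lit 380) (nat_lit 6749417339) (nat_lit 97) (nat_lit 5)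 (nat_lit 101) (nat_lit 5) (nat_lit 102) (nat_lit 5) (nat_lit 356) (nat_lit 312) (nat_lit 112)) (XT.lf (nat_lit 0) (nat_lit 21356418731) (nat_lit 304) (nat_lit 18670854045) (nat_lit 380) (nat_lit 958218367) (nat_lit 97) (nat_lit 5) (nat_lit 101) (nat_lit 5) (nat_lit 102) (nat_lit 5) (nat_lit 357) (nat_lit 312) (nat_lit 111))))))))
noncomputable def xc218 : XT := (XT.nd (nat_lit 2028) (nat_lit 684) (nat_lit 0) (XT.nd (nat_lit 1014) (nat_lit 1596) (nat_lit 0) (XT.nd (nat_lit 468) (nat_lit 912) (nat_lit 0) (XT.nd (nat_lit 234) (nat_lit 608) (nat_lit 0) (XT.nd (nat_lit 78) (nat_lit 380) (nat_lit 0) (XT.lf (nat_lit 0) (nat_lit 4906747225) (nat_lit 380) (nat_lit 109191258) (nat_lit 76) (nat_lit 36766133062) (nat_lit 96) (nat_lit 5) (nat_lit 101) (nat_lit 5) (nat_lit 97) (nat_lit 5) (nat_lit 358) (nat_lit 312) (nat_lit 110)) (XT.nd (nat_lit 78) (nat_lit 0) (nat_lit 0) (XT.lf (nat_lit 0) (nat_lit 11211126742)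 (nat_lit 456) (nat_lit 22303855801) (nat_lit 76) (nat_lit 9078802596) (nat_lit 91) (nat_lit 5) (nat_lit 97) (nat_lit 5) (nat_lit 92) (nat_lit 5) (nat_lit 359) (nat_lit 312) (nat_lit 109)) (XT.lf (nat_lit 0) (nat_lit 17753239422) (nat_lit 456) (nat_lit 2179170716) (nat_lit 76) (nat_lit 23495984011) (nat_lit 91) (nat_lit 5) (nat_lit 97) (nat_lit 5) (nat_lit 92) (nat_lit 5) (nat_lit 360) (nat_lit 312) (nat_lit 108)))) (XT.nd (nat_lit 78) (nat_lit 304) (nat_lit 0) (XT.lf (nat_lit 0) (nat_lit 18915508458) (nat_lit 304) (nat_lit 5755823283) (nat_lit 380) (nat_lit 19611320204) (nat_lit 87) (nat_lit 5) (nat_lit 91) (nat_lit 5) (nat_lit 92) (nat_lit 5) (nat_lit 361) (nat_lit 312) (nat_lit 107)) (XT.nd (nat_lit 78) (nat_lit 304) (nat_lit 0) (XT.lf (nat_lit 0) (nat_lit 31902139712) (nat_lit 380) (nat_lit 4562315257) (nat_lit 76) (nat_lit 8694929263) (nat_lit 87) (nat_lit 5) (nat_lit 92) (nat_lit 5) (nat_lit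 88) (nat_lit 5) (nat_lit 362) (nat_lit 312) (nat_lit 106)) (XT.lf (nat_lit 0) (nat_lit 17141357948) (nat_lit 304) (nat_lit 22428252147) (nat_lit 380) (nat_lit 6486218136) (nat_lit 83) (nat_lit 5) (nat_lit 87) (nat_lit 5) (nat_lit 88) (nat_lit 5) (nat_lit 363) (nat_lit 312) (nat_lit 105))))) (XT.nd (nat_lit 234) (nat_lit 532) (nat_lit 0) (XT.nd (nat_lit 78) (nat_lit 304) (nat_lit 0) (XT.lf (nat_lit 0) (nat_lit 522931538) (nat_lit 380) (nat_lit 7396081135) (nat_lit 76) (nat_lit 39058678526) (nat_lit 82) (nat_lit 5) (nat_lit 87) (nat_lit 5) (nat_lit 83) (nat_lit 5) (nat_lit 364) (nat_lit 312) (nat_lit 104)) (XT.nd (nat_lit 78) (nat_lit 0) (nat_lit 0) (XT.lf (nat_lit 0) (nat_lit 7823750444) (nat_lit 380) (nat_lit 32997125753) (nat_lit 76) (nat_lit 7098056148) (nat_lit 78) (nat_lit 5) (nat_lit 83) (nat_lit 5) (nat_lit 79) (nat_lit 5) (nat_lit 365) (nat_lit 312) (nat_lit 103)) (XT.lf (nat_lit 0) (nat_lit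 15495494714) (nat_lit 380) (nat_lit 10907230874) (nat_lit 76) (nat_lit 22481129792) (nat_lit 78) (nat_lit 5) (nat_lit 83) (nat_lit 5) (nat_lit 79) (nat_lit 5) (nat_lit 366) (nat_lit 312) (nat_lit 102)))) (XT.nd (nat_lit 156) (nat_lit 228) (nat_lit 0) (XT.nd (nat_lit 78) (nat_lit 0) (nat_lit 0) (XT.lf (nat_lit 0) (nat_lit 12078375242) (nat_lit 304) (nat_lit 11433246381) (nat_lit 380) (nat_lit 26362679200) (nat_lit 74) (nat_lit 5) (nat_lit 78) (nat_lit 5) (nat_lit 79) (nat_lit 5) (nat_lit 367) (nat_lit 312) (nat_lit 101)) (XT.lf (nat_lit 0) (nat_lit 31915920733) (nat_lit 380) (nat_lit 14956119261) (nat_lit 76) (nat_lit 4017990565) (nat_lit 74) (nat_lit 5) (nat_lit 79) (nat_lit 5) (nat_lit 75) (nat_lit 5) (nat_lit 368) (nat_lit 312) (nat_lit 100))) (XT.nd (nat_lit 78) (nat_lit 0) (nat_lit 0) (XT.lf (nat_lit 0) (nat_lit 8621290754) (nat_lit 228) (nat_lit 32145332544) (nat_lit 304) (nat_lit 11163782191)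 (nat_lit 71) (nat_lit 5) (nat_lit 74) (nat_lit 5) (nat_lit 75) (nat_lit 5) (nat_lit 369) (nat_lit 312) (nat_lit 99)) (XT.lf (nat_lit 0) (nat_lit 33210012094) (nat_lit 228) (nat_lit 16822090666) (nat_lit 304) (nat_lit 2965412720) (nat_lit 71) (nat_lit 5) (nat_lit 74) (nat_lit 5) (nat_lit 75) (nat_lit 5) (nat_lit 370) (nat_lit 312) (nat_lit 98)))))) (XT.nd (nat_lit 468) (nat_lit 760) (nat_lit 0) (XT.nd (nat_lit 234) (nat_lit 456) (nat_lit 0) (XT.nd (nat_lit 78) (nat_lit 0) (nat_lit 0) (XT.lf (nat_lit 0) (nat_lit 4471793353) (nat_lit 304) (nat_lit 941448361) (nat_lit 380) (nat_lit 48680581051) (nat_lit 66) (nat_lit 5) (nat_lit 70) (nat_lit 5) (nat_lit 71) (nat_lit 5) (nat_lit 371) (nat_lit 312) (nat_lit 97)) (XT.nd (nat_lit 78) (nat_lit 0) (nat_lit 0) (XT.lf (nat_lit 0) (nat_lit 14331911490) (nat_lit 380) (nat_lit 25534631506) (nat_lit 76) (nat_lit 15345149094) (nat_lit 66) (nat_lit 5) (nat_lit 71)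 (nat_lit 5) (nat_lit 67) (nat_lit 5) (nat_lit 372) (nat_lit 312) (nat_lit 96)) (XT.lf (nat_lit 0) (nat_lit 23525792639) (nat_lit 380) (nat_lit 736434785) (nat_lit 76) (nat_lit 32100641855) (nat_lit 66) (nat_lit 5) (nat_lit 71) (nat_lit 5) (nat_lit 67) (nat_lit 5) (nat_lit 373) (nat_lit 312) (nat_lit 95)))) (XT.nd (nat_lit 78) (nat_lit 228) (nat_lit 0) (XT.lf (nat_lit 0) (nat_lit 25296912736) (nat_lit 228) (nat_lit 7940125537) (nat_lit 304) (nat_lit 24304298356) (nat_lit 63) (nat_lit 5) (nat_lit 66) (nat_lit 5) (nat_lit 67) (nat_lit 5) (nat_lit 374) (nat_lit 312) (nat_lit 94)) (XT.nd (nat_lit 78) (nat_lit 228) (nat_lit 0) (XT.lf (nat_lit 0) (nat_lit 43330806066) (nat_lit 304) (nat_lit 6716377851) (nat_lit 76) (nat_lit 8705239785) (nat_lit 63) (nat_lit 5) (nat_lit 67) (nat_lit 5) (nat_lit 64) (nat_lit 5) (nat_lit 375) (nat_lit 312) (nat_lit 93)) (XT.lf (nat_lit 0) (nat_lit 19884538117) (nat_lit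 228) (nat_lit 34111047960) (nat_lit 304) (nat_lit 5996212549) (nat_lit 60) (nat_lit 5) (nat_lit 63) (nat_lit 5) (nat_lit 64) (nat_lit 5) (nat_lit 376) (nat_lit 312) (nat_lit 92))))) (XT.nd (nat_lit 234) (nat_lit 456) (nat_lit 0) (XT.nd (nat_lit 78) (nat_lit 228) (nat_lit 0) (XT.lf (nat_lit 0) (nat_lit 3706462997) (nat_lit 304) (nat_lit 13883896538) (nat_lit 76) (nat_lit 43674917698) (nat_lit 59) (nat_lit 5) (nat_lit 63) (nat_lit 5) (nat_lit 60) (nat_lit 5) (nat_lit 377) (nat_lit 312) (nat_lit 91)) (XT.nd (nat_lit 78) (nat_lit 0) (nat_lit 0) (XT.lf (nat_lit 0) (nat_lit 13324494174) (nat_lit 228) (nat_lit 381783245) (nat_lit 304) (nat_lit 48865105538) (nat_lit 56) (nat_lit 5) (nat_lit 59) (nat_lit 5) (nat_lit 60) (nat_lit 5) (nat_lit 378) (nat_lit 312) (nat_lit 90)) (XT.lf (nat_lit 0) (nat_lit 24312893985) (nat_lit 304) (nat_lit 22449152884) (nat_lit 76) (nat_lit 17145421830) (nat_lit 56) (nat_lit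 5) (nat_lit 60) (nat_lit 5) (nat_lit 57) (nat_lit 5) (nat_lit 379) (nat_lit 312) (nat_lit 89)))) (XT.nd (nat_lit 156) (nat_lit 228) (nat_lit 0) (XT.nd (nat_lit 78) (nat_lit 0) (nat_lit 0) (XT.lf (nat_lit 0) (nat_lit 5248898043) (nat_lit 228) (nat_lit 30041597576) (nat_lit 304) (nat_lit 29991558842) (nat_lit 53) (nat_lit 5) (nat_lit 56) (nat_lit 5) (nat_lit 57) (nat_lit 5) (nat_lit 380) (nat_lit 312) (nat_lit 88)) (XT.lf (nat_lit 0) (nat_lit 34235836377) (nat_lit 228) (nat_lit 12586852949) (nat_lit 304) (nat_lit 19868431563) (nat_lit 53) (nat_lit 5) (nat_lit 56) (nat_lit 5) (nat_lit 57) (nat_lit 5) (nat_lit 381) (nat_lit 312) (nat_lit 87))) (XT.nd (nat_lit 78) (nat_lit 228) (nat_lit 0) (XT.lf (nat_lit 0) (nat_lit 58751281199) (nat_lit 304) (nat_lit 4104112701) (nat_lit 76) (nat_lit 5285553425) (nat_lit 53) (nat_lit 5) (nat_lit 57) (nat_lit 5) (nat_lit 54) (nat_lit 5) (nat_lit 382) (nat_lit 312)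 (nat_lit 86)) (XT.lf (nat_lit 0) (nat_lit 1747799667) (nat_lit 228) (nat_lit 44172567186) (nat_lit 76) (nat_lit 23702346182) (nat_lit 50) (nat_lit 5) (nat_lit 53) (nat_lit 5) (nat_lit 51) (nat_lit 5) (nat_lit 383) (nat_lit 312) (nat_lit 85))))))) (XT.nd (nat_lit 35490) (nat_lit 0) (nat_lit 10488) (XT.nd (nat_lit 468) (nat_lit 304) (nat_lit 0) (XT.nd (nat_lit 234) (nat_lit 152) (nat_lit 0) (XT.nd (nat_lit 78) (nat_lit 228) (nat_lit 0) (XT.lf (nat_lit 0) (nat_lit 13071171394) (nat_lit 228) (nat_lit 15268055180) (nat_lit 76) (nat_lit 42805701886) (nat_lit 50) (nat_lit 5) (nat_lit 53) (nat_lit 5) (nat_lit 51) (nat_lit 5) (nat_lit 384) (nat_lit 312) (nat_lit 84)) (XT.nd (nat_lit 78) (nat_lit 0) (nat_lit 0) (XT.lf (nat_lit 0) (nat_lit 14790111317) (nat_lit 228) (nat_lit 10084994968) (nat_lit 304) (nat_lit 47833479076) (nat_lit 47) (nat_lit 5) (nat_lit 50) (nat_lit 5) (nat_lit 51) (nat_lit 5) (nat_lit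 385) (nat_lit 312) (nat_lit 83)) (XT.lf (nat_lit 0) (nat_lit 37271356178) (nat_lit 304) (nat_lit 28338942857) (nat_lit 76) (nat_lit 8701707876) (nat_lit 47) (nat_lit 5) (nat_lit 51) (nat_lit 5) (nat_lit 48) (nat_lit 5) (nat_lit 386) (nat_lit 312) (nat_lit 82)))) (XT.nd (nat_lit 78) (nat_lit 0) (nat_lit 0) (XT.lf (nat_lit 0) (nat_lit 2066406201) (nat_lit 152) (nat_lit 48091541391) (nat_lit 228) (nat_lit 25802030720) (nat_lit 45) (nat_lit 5) (nat_lit 47) (nat_lit 5) (nat_lit 48) (nat_lit 5) (nat_lit 387) (nat_lit 312) (nat_lit 81)) (XT.nd (nat_lit 78) (nat_lit 0) (nat_lit 0) (XT.lf (nat_lit 0) (nat_lit 33962816616) (nat_lit 152) (nat_lit 29753244231) (nat_lit 228) (nat_lit 13932781086) (nat_lit 45) (nat_lit 5) (nat_lit 47) (nat_lit 5) (nat_lit 48) (nat_lit 5) (nat_lit 388) (nat_lit 312) (nat_lit 80)) (XT.lf (nat_lit 0) (nat_lit 66814158508) (nat_lit 152) (nat_lit 10865551557) (nat_lit 228) (nat_lit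 1708698398) (nat_lit 45) (nat_lit 5) (nat_lit 47) (nat_lit 5) (nat_lit 48) (nat_lit 5) (nat_lit 389) (nat_lit 312) (nat_lit 79))))) (XT.nd (nat_lit 34710) (nat_lit 0) (nat_lit 11096) (XT.nd (nat_lit 78) (nat_lit 0) (nat_lit 0) (XT.lf (nat_lit 0) (nat_lit 10943888327) (nat_lit 304) (nat_lit 61507099848) (nat_lit 76) (nat_lit 8717812464) (nat_lit 41) (nat_lit 5) (nat_lit 45) (nat_lit 5) (nat_lit 42) (nat_lit 5) (nat_lit 390) (nat_lit 312) (nat_lit 78)) (XT.nd (nat_lit 34554) (nat_lit 0) (nat_lit 11096) (XT.lf (nat_lit 0) (nat_lit 24176346096) (nat_lit 304) (nat_lit 30003997945) (nat_lit 76) (nat_lit 28814714619) (nat_lit 41) (nat_lit 5) (nat_lit 45) (nat_lit 5) (nat_lit 42) (nat_lit 5) (nat_lit 391) (nat_lit 312) (nat_lit 77)) (XT.lf (nat_lit 0) (nat_lit 1189174953) (nat_lit 0) (nat_lit 1189174953) (nat_lit 1140) (nat_lit 7482436737) (nat_lit 187) (nat_lit 5) (nat_lit 187) (nat_lit 3) (nat_lit 202)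 (nat_lit 3) (nat_lit 313) (nat_lit 313) (nat_lit 154)))) (XT.nd (nat_lit 156) (nat_lit 0) (nat_lit 76) (XT.nd (nat_lit 78) (nat_lit 0) (nat_lit 0) (XT.lf (nat_lit 0) (nat_lit 5051990205) (nat_lit 1140) (nat_lit 8588157257) (nat_lit 1216) (nat_lit 6370312831) (nat_lit 187) (nat_lit 5) (nat_lit 202) (nat_lit 3) (nat_lit 203) (nat_lit 5) (nat_lit 314) (nat_lit 313) (nat_lit 153)) (XT.lf (nat_lit 76) (nat_lit 410646979) (nat_lit 0) (nat_lit 4966715686) (nat_lit 1216) (nat_lit 14930023064) (nat_lit 188) (nat_lit 5) (nat_lit 187) (nat_lit 5) (nat_lit 203) (nat_lit 5) (nat_lit 315) (nat_lit 313) (nat_lit 152))) (XT.nd (nat_lit 78) (nat_lit 0) (nat_lit 0) (XT.lf (nat_lit 0) (nat_lit 5832116101) (nat_lit 1140) (nat_lit 10797708707) (nat_lit 1216) (nat_lit 3979813803) (nat_lit 188) (nat_lit 5) (nat_lit 203) (nat_lit 5) (nat_lit 204) (nat_lit 5) (nat_lit 316) (nat_lit 313) (nat_lit 151)) (XT.lf (nat_lit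 0) (nat_lit 6343770210) (nat_lit 1140) (nat_lit 1478343873) (nat_lit 1216) (nat_lit 13097555288) (nat_lit 188) (nat_lit 5) (nat_lit 203) (nat_lit 5) (nat_lit 204) (nat_lit 5) (nat_lit 317) (nat_lit 313) (nat_lit 150)))))) (XT.nd (nat_lit 546) (nat_lit 760) (nat_lit 0) (XT.nd (nat_lit 234) (nat_lit 0) (nat_lit 76) (XT.nd (nat_lit 78) (nat_lit 0) (nat_lit 0) (XT.lf (nat_lit 0) (nat_lit 6957434730) (nat_lit 1140) (nat_lit 12970827719) (nat_lit 1216) (nat_lit 1308146580) (nat_lit 189) (nat_lit 5) (nat_lit 204) (nat_lit 5) (nat_lit 205) (nat_lit 5) (nat_lit 318) (nat_lit 313) (nat_lit 149)) (XT.nd (nat_lit 78) (nat_lit 0) (nat_lit 0) (XT.lf (nat_lit 0) (nat_lit 7676444350) (nat_lit 1140) (nat_lit 3311193431) (nat_lit 1216) (nat_lit 10572412616) (nat_lit 189) (nat_lit 5) (nat_lit 204) (nat_lit 5) (nat_lit 205) (nat_lit 5) (nat_lit 319) (nat_lit 313) (nat_lit 148)) (XT.lf (nat_lit 76) (nat_lit 6766853458)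 (nat_lit 0) (nat_lit 1709792992) (nat_lit 1216) (nat_lit 13414973241) (nat_lit 190) (nat_lit 5) (nat_lit 189) (nat_lit 5) (nat_lit 205) (nat_lit 5) (nat_lit 320) (nat_lit 313) (nat_lit 147)))) (XT.nd (nat_lit 156) (nat_lit 0) (nat_lit 76) (XT.nd (nat_lit 78) (nat_lit 0) (nat_lit 0) (XT.lf (nat_lit 0) (nat_lit 9404765366) (nat_lit 1140) (nat_lit 5096343377) (nat_lit 1216) (nat_lit 7728917138) (nat_lit 190) (nat_lit 5) (nat_lit 205) (nat_lit 5) (nat_lit 206) (nat_lit 5) (nat_lit 321) (nat_lit 313) (nat_lit 146)) (XT.lf (nat_lit 76) (nat_lit 5316274195) (nat_lit 0) (nat_lit 5107358257) (nat_lit 1216) (nat_lit 12153071595) (nat_lit 191) (nat_lit 5) (nat_lit 190) (nat_lit 5) (nat_lit 206) (nat_lit 5) (nat_lit 322) (nat_lit 313) (nat_lit 145))) (XT.nd (nat_lit 78) (nat_lit 0) (nat_lit 0) (XT.lf (nat_lit 0) (nat_lit 11563954693) (nat_lit 1140) (nat_lit 6834527428) (nat_lit 1216) (nat_lit 4532580494)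 (nat_lit 191) (nat_lit 5) (nat_lit 206) (nat_lit 5) (nat_lit 207) (nat_lit 5) (nat_lit 323) (nat_lit 313) (nat_lit 144)) (XT.lf (nat_lit 76) (nat_lit 3926706229) (nat_lit 0) (nat_lit 8895243838) (nat_lit 1216) (nat_lit 10471604499) (nat_lit 192) (nat_lit 5) (nat_lit 191) (nat_lit 5) (nat_lit 207) (nat_lit 5) (nat_lit 324) (nat_lit 313) (nat_lit 143))))) (XT.nd (nat_lit 234) (nat_lit 988) (nat_lit 0) (XT.nd (nat_lit 78) (nat_lit 0) (nat_lit 0) (XT.lf (nat_lit 0) (nat_lit 14191238744) (nat_lit 1140) (nat_lit 8526869723) (nat_lit 1216) (nat_lit 946612548) (nat_lit 192) (nat_lit 5) (nat_lit 207) (nat_lit 5) (nat_lit 208) (nat_lit 5) (nat_lit 325) (nat_lit 313) (nat_lit 142)) (XT.nd (nat_lit 78) (nat_lit 0) (nat_lit 0) (XT.lf (nat_lit 76) (nat_lit 2597398158) (nat_lit 0) (nat_lit 13112655046) (nat_lit 1216) (nat_lit 8333721999) (nat_lit 193) (nat_lit 5) (nat_lit 192) (nat_lit 5) (nat_lit 208) (nat_lit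 5) (nat_lit 326) (nat_lit 313) (nat_lit 141)) (XT.lf (nat_lit 76) (nat_lit 14226698122) (nat_lit 0) (nat_lit 3129346489) (nat_lit 1216) (nat_lit 7075714007) (nat_lit 193) (nat_lit 5) (nat_lit 192) (nat_lit 5) (nat_lit 208) (nat_lit 5) (nat_lit 327) (nat_lit 313) (nat_lit 140)))) (XT.nd (nat_lit 156) (nat_lit 1064) (nat_lit 0) (XT.nd (nat_lit 78) (nat_lit 0) (nat_lit 0) (XT.lf (nat_lit 76) (nat_lit 1327095689) (nat_lit 0) (nat_lit 17801488429) (nat_lit 1216) (nat_lit 5700488171) (nat_lit 194) (nat_lit 5) (nat_lit 193) (nat_lit 5) (nat_lit 209) (nat_lit 5) (nat_lit 328) (nat_lit 313) (nat_lit 139)) (XT.lf (nat_lit 76) (nat_lit 13379311837) (nat_lit 0) (nat_lit 7704460125) (nat_lit 1216) (nat_lit 4150654878) (nat_lit 194) (nat_lit 5) (nat_lit 193) (nat_lit 5) (nat_lit 209) (nat_lit 5) (nat_lit 329) (nat_lit 313) (nat_lit 138))) (XT.nd (nat_lit 78) (nat_lit 0) (nat_lit 0) (XT.lf (nat_lit 0) (nat_lit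 113932156) (nat_lit 1140) (nat_lit 23006561392) (nat_lit 1216) (nat_lit 2530767609) (nat_lit 179) (nat_lit 5) (nat_lit 194) (nat_lit 5) (nat_lit 195) (nat_lit 5) (nat_lit 330) (nat_lit 313) (nat_lit 137)) (XT.lf (nat_lit 0) (nat_lit 12603770744) (nat_lit 1140) (nat_lit 12805752297) (nat_lit 1216) (nat_lit 665346585) (nat_lit 179) (nat_lit 5) (nat_lit 194) (nat_lit 5) (nat_lit 195) (nat_lit 5) (nat_lit 331) (nat_lit 313) (nat_lit 136))))))))
noncomputable def xc219 : XT := (XT.nd (nat_lit 2106) (nat_lit 3572) (nat_lit 0) (XT.nd (nat_lit 1014) (nat_lit 2812) (nat_lit 0) (XT.nd (nat_lit 468) (nat_lit 1596) (nat_lit 0) (XT.nd (nat_lit 234) (nat_lit 1140) (nat_lit 0) (XT.nd (nat_lit 78) (nat_lit 608) (nat_lit 0) (XT.lf (nat_lit 0) (nat_lit 1227559983) (nat_lit 1216) (nat_lit 1058436010) (nat_lit 76) (nat_lit 24224952167) (nat_lit 178) (nat_lit 5) (nat_lit 194) (nat_lit 5) (nat_lit 179) (nat_lit 5)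 (nat_lit 332) (nat_lit 313) (nat_lit 135)) (XT.nd (nat_lit 78) (nat_lit 0) (nat_lit 0) (XT.lf (nat_lit 0) (nat_lit 3358286933) (nat_lit 684) (nat_lit 15090150174) (nat_lit 76) (nat_lit 8505646997) (nat_lit 170) (nat_lit 5) (nat_lit 179) (nat_lit 5) (nat_lit 171) (nat_lit 5) (nat_lit 333) (nat_lit 313) (nat_lit 134)) (XT.lf (nat_lit 0) (nat_lit 5582595656) (nat_lit 684) (nat_lit 2240728879) (nat_lit 76) (nat_lit 19586304511) (nat_lit 170) (nat_lit 5) (nat_lit 179) (nat_lit 5) (nat_lit 171) (nat_lit 5) (nat_lit 334) (nat_lit 313) (nat_lit 133)))) (XT.nd (nat_lit 78) (nat_lit 532) (nat_lit 0) (XT.lf (nat_lit 0) (nat_lit 8008795003) (nat_lit 684) (nat_lit 16697241405) (nat_lit 76) (nat_lit 3168753671) (nat_lit 162) (nat_lit 5) (nat_lit 171) (nat_lit 5) (nat_lit 163) (nat_lit 5) (nat_lit 335) (nat_lit 313) (nat_lit 132)) (XT.nd (nat_lit 78) (nat_lit 532) (nat_lit 0) (XT.lf (nat_lit 0) (nat_lit 10604509005)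 (nat_lit 684) (nat_lit 3390050677) (nat_lit 76) (nat_lit 14356448847) (nat_lit 162) (nat_lit 5) (nat_lit 171) (nat_lit 5) (nat_lit 163) (nat_lit 5) (nat_lit 336) (nat_lit 313) (nat_lit 131)) (XT.lf (nat_lit 0) (nat_lit 10518257128) (nat_lit 532) (nat_lit 2857468540) (nat_lit 608) (nat_lit 15462863246) (nat_lit 155) (nat_lit 5) (nat_lit 162) (nat_lit 5) (nat_lit 163) (nat_lit 5) (nat_lit 337) (nat_lit 313) (nat_lit 130))))) (XT.nd (nat_lit 234) (nat_lit 1064) (nat_lit 0) (XT.nd (nat_lit 78) (nat_lit 532) (nat_lit 0) (XT.lf (nat_lit 0) (nat_lit 16344044736) (nat_lit 608) (nat_lit 4513024478) (nat_lit 76) (nat_lit 8480312714) (nat_lit 155) (nat_lit 5) (nat_lit 163) (nat_lit 5) (nat_lit 156) (nat_lit 5) (nat_lit 338) (nat_lit 313) (nat_lit 129)) (XT.nd (nat_lit 78) (nat_lit 0) (nat_lit 0) (XT.lf (nat_lit 0) (nat_lit 9869476794) (nat_lit 532) (nat_lit 9651792617) (nat_lit 608) (nat_lit 10326277710)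 (nat_lit 148) (nat_lit 5) (nat_lit 155) (nat_lit 5) (nat_lit 156) (nat_lit 5) (nat_lit 339) (nat_lit 313) (nat_lit 128)) (XT.lf (nat_lit 0) (nat_lit 22854756203) (nat_lit 608) (nat_lit 5617690744) (nat_lit 76) (nat_lit 1898745914) (nat_lit 148) (nat_lit 5) (nat_lit 156) (nat_lit 5) (nat_lit 149) (nat_lit 5) (nat_lit 340) (nat_lit 313) (nat_lit 127)))) (XT.nd (nat_lit 156) (nat_lit 608) (nat_lit 0) (XT.nd (nat_lit 78) (nat_lit 0) (nat_lit 0) (XT.lf (nat_lit 0) (nat_lit 9255249206) (nat_lit 456) (nat_lit 17214379331) (nat_lit 532) (nat_lit 4435481845) (nat_lit 142) (nat_lit 5) (nat_lit 148) (nat_lit 5) (nat_lit 149) (nat_lit 5) (nat_lit 341) (nat_lit 313) (nat_lit 126)) (XT.lf (nat_lit 0) (nat_lit 24686274818) (nat_lit 456) (nat_lit 5560311774) (nat_lit 532) (nat_lit 1206853376) (nat_lit 142) (nat_lit 5) (nat_lit 148) (nat_lit 5) (nat_lit 149) (nat_lit 5) (nat_lit 342) (nat_lit 313) (nat_lit 125)))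 (XT.nd (nat_lit 78) (nat_lit 0) (nat_lit 0) (XT.lf (nat_lit 0) (nat_lit 2220936590) (nat_lit 608) (nat_lit 23369809064) (nat_lit 76) (nat_lit 6422556986) (nat_lit 134) (nat_lit 5) (nat_lit 142) (nat_lit 5) (nat_lit 135) (nat_lit 5) (nat_lit 343) (nat_lit 313) (nat_lit 124)) (XT.lf (nat_lit 0) (nat_lit 5848391995) (nat_lit 608) (nat_lit 8003684459) (nat_lit 76) (nat_lit 18733897028) (nat_lit 134) (nat_lit 5) (nat_lit 142) (nat_lit 5) (nat_lit 135) (nat_lit 5) (nat_lit 344) (nat_lit 313) (nat_lit 123)))))) (XT.nd (nat_lit 546) (nat_lit 1064) (nat_lit 0) (XT.nd (nat_lit 234) (nat_lit 836) (nat_lit 0) (XT.nd (nat_lit 78) (nat_lit 456) (nat_lit 0) (XT.lf (nat_lit 0) (nat_lit 7975870170) (nat_lit 456) (nat_lit 1682580533) (nat_lit 532) (nat_lit 23515163666) (nat_lit 128) (nat_lit 5) (nat_lit 134) (nat_lit 5) (nat_lit 135) (nat_lit 5) (nat_lit 345) (nat_lit 313) (nat_lit 122)) (XT.nd (nat_lit 78) (nat_lit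 456) (nat_lit 0) (XT.lf (nat_lit 0) (nat_lit 13765910322) (nat_lit 532) (nat_lit 9285942526) (nat_lit 76) (nat_lit 10721541874) (nat_lit 128) (nat_lit 5) (nat_lit 135) (nat_lit 5) (nat_lit 129) (nat_lit 5) (nat_lit 346) (nat_lit 313) (nat_lit 121)) (XT.lf (nat_lit 0) (nat_lit 7224376588) (nat_lit 456) (nat_lit 10855565512) (nat_lit 532) (nat_lit 16308729055) (nat_lit 122) (nat_lit 5) (nat_lit 128) (nat_lit 5) (nat_lit 129) (nat_lit 5) (nat_lit 347) (nat_lit 313) (nat_lit 120)))) (XT.nd (nat_lit 156) (nat_lit 456) (nat_lit 0) (XT.nd (nat_lit 78) (nat_lit 380) (nat_lit 0) (XT.lf (nat_lit 0) (nat_lit 22631788367) (nat_lit 532) (nat_lit 10619768517) (nat_lit 76) (nat_lit 1767600220) (nat_lit 122) (nat_lit 5) (nat_lit 129) (nat_lit 5) (nat_lit 123) (nat_lit 5) (nat_lit 348) (nat_lit 313) (nat_lit 119)) (XT.lf (nat_lit 0) (nat_lit 6436096784) (nat_lit 380) (nat_lit 21050811031) (nat_lit 456) (nat_lit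 8176651223) (nat_lit 117) (nat_lit 5) (nat_lit 122) (nat_lit 5) (nat_lit 123) (nat_lit 5) (nat_lit 349) (nat_lit 313) (nat_lit 118))) (XT.nd (nat_lit 78) (nat_lit 456) (nat_lit 0) (XT.lf (nat_lit 0) (nat_lit 24218256236) (nat_lit 380) (nat_lit 8374079747) (nat_lit 456) (nat_lit 3731820248) (nat_lit 117) (nat_lit 5) (nat_lit 122) (nat_lit 5) (nat_lit 123) (nat_lit 5) (nat_lit 350) (nat_lit 313) (nat_lit 117)) (XT.lf (nat_lit 0) (nat_lit 927030305) (nat_lit 456) (nat_lit 31420454908) (nat_lit 76) (nat_lit 4653929046) (nat_lit 111) (nat_lit 5) (nat_lit 117) (nat_lit 5) (nat_lit 112) (nat_lit 5) (nat_lit 351) (nat_lit 313) (nat_lit 116))))) (XT.nd (nat_lit 234) (nat_lit 684) (nat_lit 0) (XT.nd (nat_lit 78) (nat_lit 380) (nat_lit 0) (XT.lf (nat_lit 0) (nat_lit 5854512302) (nat_lit 456) (nat_lit 13772892592) (nat_lit 76) (nat_lit 18064363128) (nat_lit 111) (nat_lit 5) (nat_lit 117) (nat_lit 5) (nat_lit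 112) (nat_lit 5) (nat_lit 352) (nat_lit 313) (nat_lit 115)) (XT.nd (nat_lit 78) (nat_lit 0) (nat_lit 0) (XT.lf (nat_lit 0) (nat_lit 4488694222) (nat_lit 380) (nat_lit 6481849244) (nat_lit 456) (nat_lit 27431069730) (nat_lit 106) (nat_lit 5) (nat_lit 111) (nat_lit 5) (nat_lit 112) (nat_lit 5) (nat_lit 353) (nat_lit 313) (nat_lit 114)) (XT.lf (nat_lit 0) (nat_lit 16445971442) (nat_lit 456) (nat_lit 15620377372) (nat_lit 76) (nat_lit 7060229896) (nat_lit 106) (nat_lit 5) (nat_lit 112) (nat_lit 5) (nat_lit 107) (nat_lit 5) (nat_lit 354) (nat_lit 313) (nat_lit 113)))) (XT.nd (nat_lit 156) (nat_lit 304) (nat_lit 0) (XT.nd (nat_lit 78) (nat_lit 0) (nat_lit 0) (XT.lf (nat_lit 0) (nat_lit 3216587342) (nat_lit 380) (nat_lit 18961854095) (nat_lit 456) (nat_lit 17692070770) (nat_lit 101) (nat_lit 5) (nat_lit 106) (nat_lit 5) (nat_lit 107) (nat_lit 5) (nat_lit 355) (nat_lit 313) (nat_lit 112)) (XT.lf (nat_lit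 0) (nat_lit 22935948666) (nat_lit 380) (nat_lit 5302394176) (nat_lit 456) (nat_lit 12393759468) (nat_lit 101) (nat_lit 5) (nat_lit 106) (nat_lit 5) (nat_lit 107) (nat_lit 5) (nat_lit 356) (nat_lit 313) (nat_lit 111))) (XT.nd (nat_lit 78) (nat_lit 0) (nat_lit 0) (XT.lf (nat_lit 0) (nat_lit 1777878692) (nat_lit 304) (nat_lit 32801307505) (nat_lit 380) (nat_lit 6834381826) (nat_lit 97) (nat_lit 5) (nat_lit 101) (nat_lit 5) (nat_lit 102) (nat_lit 5) (nat_lit 357) (nat_lit 313) (nat_lit 110)) (XT.lf (nat_lit 0) (nat_lit 22142477859) (nat_lit 304) (nat_lit 19196277288) (nat_lit 380) (nat_lit 872869740) (nat_lit 97) (nat_lit 5) (nat_lit 101) (nat_lit 5) (nat_lit 102) (nat_lit 5) (nat_lit 358) (nat_lit 313) (nat_lit 109))))))) (XT.nd (nat_lit 1014) (nat_lit 1596) (nat_lit 0) (XT.nd (nat_lit 468) (nat_lit 912) (nat_lit 0) (XT.nd (nat_lit 234) (nat_lit 608) (nat_lit 0) (XT.nd (nat_lit 78) (nat_lit 0) (nat_lit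 0) (XT.lf (nat_lit 0) (nat_lit 31547445) (nat_lit 380) (nat_lit 5131315905) (nat_lit 456) (nat_lit 37869298241) (nat_lit 91) (nat_lit 5) (nat_lit 96) (nat_lit 5) (nat_lit 97) (nat_lit 5) (nat_lit 359) (nat_lit 313) (nat_lit 108)) (XT.nd (nat_lit 78) (nat_lit 0) (nat_lit 0) (XT.lf (nat_lit 0) (nat_lit 11654610693) (nat_lit 456) (nat_lit 22828010691) (nat_lit 76) (nat_lit 9385661164) (nat_lit 91) (nat_lit 5) (nat_lit 97) (nat_lit 5) (nat_lit 92) (nat_lit 5) (nat_lit 360) (nat_lit 313) (nat_lit 107)) (XT.lf (nat_lit 0) (nat_lit 18389865876) (nat_lit 456) (nat_lit 2103807213) (nat_lit 76) (nat_lit 24234353328) (nat_lit 91) (nat_lit 5) (nat_lit 97) (nat_lit 5) (nat_lit 92) (nat_lit 5) (nat_lit 361) (nat_lit 313) (nat_lit 106)))) (XT.nd (nat_lit 78) (nat_lit 304) (nat_lit 0) (XT.lf (nat_lit 0) (nat_lit 19622332547) (nat_lit 304) (nat_lit 5891478041) (nat_lit 380) (nat_lit 20094154943) (nat_lit 87) (nat_lit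 5) (nat_lit 91) (nat_lit 5) (nat_lit 92) (nat_lit 5) (nat_lit 362) (nat_lit 313) (nat_lit 105)) (XT.nd (nat_lit 78) (nat_lit 304) (nat_lit 0) (XT.lf (nat_lit 0) (nat_lit 32958907547) (nat_lit 380) (nat_lit 4561156611) (nat_lit 76) (nat_lit 8991017478) (nat_lit 87) (nat_lit 5) (nat_lit 92) (nat_lit 5) (nat_lit 88) (nat_lit 5) (nat_lit 363) (nat_lit 313) (nat_lit 104)) (XT.lf (nat_lit 0) (nat_lit 17792273574) (nat_lit 304) (nat_lit 23062538281) (nat_lit 380) (nat_lit 6579657514) (nat_lit 83) (nat_lit 5) (nat_lit 87) (nat_lit 5) (nat_lit 88) (nat_lit 5) (nat_lit 364) (nat_lit 313) (nat_lit 103))))) (XT.nd (nat_lit 234) (nat_lit 532) (nat_lit 0) (XT.nd (nat_lit 78) (nat_lit 304) (nat_lit 0) (XT.lf (nat_lit 0) (nat_lit 634904358) (nat_lit 380) (nat_lit 7483268124) (nat_lit 76) (nat_lit 40265875785) (nat_lit 82) (nat_lit 5) (nat_lit 87) (nat_lit 5) (nat_lit 83) (nat_lit 5) (nat_lit 365) (nat_lit 313)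 (nat_lit 102)) (XT.nd (nat_lit 78) (nat_lit 0) (nat_lit 0) (XT.lf (nat_lit 0) (nat_lit 8153596664) (nat_lit 380) (nat_lit 33851110272) (nat_lit 76) (nat_lit 7348856727) (nat_lit 78) (nat_lit 5) (nat_lit 83) (nat_lit 5) (nat_lit 79) (nat_lit 5) (nat_lit 366) (nat_lit 313) (nat_lit 101)) (XT.lf (nat_lit 0) (nat_lit 16052722377) (nat_lit 380) (nat_lit 11102477651) (nat_lit 76) (nat_lit 23192319893) (nat_lit 78) (nat_lit 5) (nat_lit 83) (nat_lit 5) (nat_lit 79) (nat_lit 5) (nat_lit 367) (nat_lit 313) (nat_lit 100)))) (XT.nd (nat_lit 156) (nat_lit 228) (nat_lit 0) (XT.nd (nat_lit 78) (nat_lit 0) (nat_lit 0) (XT.lf (nat_lit 0) (nat_lit 12571402823) (nat_lit 304) (nat_lit 11736496232) (nat_lit 380) (nat_lit 27059825032) (nat_lit 74) (nat_lit 5) (nat_lit 78) (nat_lit 5) (nat_lit 79) (nat_lit 5) (nat_lit 368) (nat_lit 313) (nat_lit 99)) (XT.lf (nat_lit 0) (nat_lit 32962049677) (nat_lit 380) (nat_lit 15275579531)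 (nat_lit 76) (nat_lit 4176367100) (nat_lit 74) (nat_lit 5) (nat_lit 79) (nat_lit 5) (nat_lit 75) (nat_lit 5) (nat_lit 369) (nat_lit 313) (nat_lit 98))) (XT.nd (nat_lit 78) (nat_lit 0) (nat_lit 0) (XT.lf (nat_lit 0) (nat_lit 9007885890) (nat_lit 228) (nat_lit 33069035346) (nat_lit 304) (nat_lit 11408704013) (nat_lit 71) (nat_lit 5) (nat_lit 74) (nat_lit 5) (nat_lit 75) (nat_lit 5) (nat_lit 370) (nat_lit 313) (nat_lit 97)) (XT.lf (nat_lit 0) (nat_lit 34330541985) (nat_lit 228) (nat_lit 17287280402) (nat_lit 304) (nat_lit 2967004575) (nat_lit 71) (nat_lit 5) (nat_lit 74) (nat_lit 5) (nat_lit 75) (nat_lit 5) (nat_lit 371) (nat_lit 313) (nat_lit 96)))))) (XT.nd (nat_lit 546) (nat_lit 684) (nat_lit 0) (XT.nd (nat_lit 234) (nat_lit 532) (nat_lit 0) (XT.nd (nat_lit 78) (nat_lit 0) (nat_lit 0) (XT.lf (nat_lit 0) (nat_lit 4730715476) (nat_lit 304) (nat_lit 929293338) (nat_lit 380) (nat_lit 50054030344)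 (nat_lit 66) (nat_lit 5) (nat_lit 70) (nat_lit 5) (nat_lit 71) (nat_lit 5) (nat_lit 372) (nat_lit 313) (nat_lit 95)) (XT.nd (nat_lit 78) (nat_lit 0) (nat_lit 0) (XT.lf (nat_lit 0) (nat_lit 14844158333) (nat_lit 380) (nat_lit 26177390569) (nat_lit 76) (nat_lit 15843960028) (nat_lit 66) (nat_lit 5) (nat_lit 71) (nat_lit 5) (nat_lit 67) (nat_lit 5) (nat_lit 373) (nat_lit 313) (nat_lit 94)) (XT.lf (nat_lit 0) (nat_lit 24311459135) (nat_lit 380) (nat_lit 638838623) (nat_lit 76) (nat_lit 33100997481) (nat_lit 66) (nat_lit 5) (nat_lit 71) (nat_lit 5) (nat_lit 67) (nat_lit 5) (nat_lit 374) (nat_lit 313) (nat_lit 93)))) (XT.nd (nat_lit 156) (nat_lit 304) (nat_lit 0) (XT.nd (nat_lit 78) (nat_lit 0) (nat_lit 0) (XT.lf (nat_lit 0) (nat_lit 26174335900) (nat_lit 228) (nat_lit 8138518511) (nat_lit 304) (nat_lit 24952299673) (nat_lit 63) (nat_lit 5) (nat_lit 66) (nat_lit 5) (nat_lit 67) (nat_lit 5) (nat_lit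 375) (nat_lit 313) (nat_lit 92)) (XT.lf (nat_lit 0) (nat_lit 44707514399) (nat_lit 304) (nat_lit 6800824780) (nat_lit 76) (nat_lit 9004294008) (nat_lit 63) (nat_lit 5) (nat_lit 67) (nat_lit 5) (nat_lit 64) (nat_lit 5) (nat_lit 376) (nat_lit 313) (nat_lit 91))) (XT.nd (nat_lit 78) (nat_lit 76) (nat_lit 0) (XT.lf (nat_lit 0) (nat_lit 20596971173) (nat_lit 228) (nat_lit 35094144277) (nat_lit 304) (nat_lit 6098109316) (nat_lit 60) (nat_lit 5) (nat_lit 63) (nat_lit 5) (nat_lit 64) (nat_lit 5) (nat_lit 377) (nat_lit 313) (nat_lit 90)) (XT.lf (nat_lit 0) (nat_lit 3891897421) (nat_lit 304) (nat_lit 14186359991) (nat_lit 76) (nat_lit 45022696285) (nat_lit 59) (nat_lit 5) (nat_lit 63) (nat_lit 5) (nat_lit 60) (nat_lit 5) (nat_lit 378) (nat_lit 313) (nat_lit 89))))) (XT.nd (nat_lit 234) (nat_lit 228) (nat_lit 0) (XT.nd (nat_lit 78) (nat_lit 228) (nat_lit 0) (XT.lf (nat_lit 0) (nat_lit 13837164271) (nat_lit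 228) (nat_lit 353465262) (nat_lit 304) (nat_lit 50255646954) (nat_lit 56) (nat_lit 5) (nat_lit 59) (nat_lit 5) (nat_lit 60) (nat_lit 5) (nat_lit 379) (nat_lit 313) (nat_lit 88)) (XT.nd (nat_lit 78) (nat_lit 228) (nat_lit 0) (XT.lf (nat_lit 0) (nat_lit 25113684785) (nat_lit 304) (nat_lit 23011170264) (nat_lit 76) (nat_lit 17697644092) (nat_lit 56) (nat_lit 5) (nat_lit 60) (nat_lit 5) (nat_lit 57) (nat_lit 5) (nat_lit 380) (nat_lit 313) (nat_lit 87)) (XT.lf (nat_lit 0) (nat_lit 5516729473) (nat_lit 228) (nat_lit 30902866158) (nat_lit 304) (nat_lit 30818758909) (nat_lit 53) (nat_lit 5) (nat_lit 56) (nat_lit 5) (nat_lit 57) (nat_lit 5) (nat_lit 381) (nat_lit 313) (nat_lit 86)))) (XT.nd (nat_lit 156) (nat_lit 228) (nat_lit 0) (XT.nd (nat_lit 78) (nat_lit 0) (nat_lit 0) (XT.lf (nat_lit 0) (nat_lit 35370061458) (nat_lit 228) (nat_lit 12925643640) (nat_lit 304) (nat_lit 20394050822) (nat_lit 53) (nat_lit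 5) (nat_lit 56) (nat_lit 5) (nat_lit 57) (nat_lit 5) (nat_lit 382) (nat_lit 313) (nat_lit 85)) (XT.lf (nat_lit 0) (nat_lit 60580526629) (nat_lit 304) (nat_lit 4121531740) (nat_lit 76) (nat_lit 5481069037) (nat_lit 53) (nat_lit 5) (nat_lit 57) (nat_lit 5) (nat_lit 54) (nat_lit 5) (nat_lit 383) (nat_lit 313) (nat_lit 84))) (XT.nd (nat_lit 78) (nat_lit 0) (nat_lit 0) (XT.lf (nat_lit 0) (nat_lit 1866699916) (nat_lit 228) (nat_lit 45391708944) (nat_lit 76) (nat_lit 24450947155) (nat_lit 50) (nat_lit 5) (nat_lit 53) (nat_lit 5) (nat_lit 51) (nat_lit 5) (nat_lit 384) (nat_lit 313) (nat_lit 83)) (XT.lf (nat_lit 0) (nat_lit 13527836884) (nat_lit 228) (nat_lit 15623149982) (nat_lit 76) (nat_lit 44126310406) (nat_lit 50) (nat_lit 5) (nat_lit 53) (nat_lit 5) (nat_lit 51) (nat_lit 5) (nat_lit 385) (nat_lit 313) (nat_lit 82))))))))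
noncomputable def xc220 : XT := (XT.nd (nat_lit 36660) (nat_lit 0) (nat_lit 3496) (XT.nd (nat_lit 35646) (nat_lit 0) (nat_lit 9500) (XT.nd (nat_lit 35100) (nat_lit 0) (nat_lit 10792) (XT.nd (nat_lit 234) (nat_lit 0) (nat_lit 0) (XT.nd (nat_lit 78) (nat_lit 152) (nat_lit 0) (XT.lf (nat_lit 0) (nat_lit 15335752226) (nat_lit 228) (nat_lit 10349237957) (nat_lit 304) (nat_lit 49202901943) (nat_lit 47) (nat_lit 5) (nat_lit 50) (nat_lit 5) (nat_lit 51) (nat_lit 5) (nat_lit 386) (nat_lit 313) (nat_lit 81)) (XT.nd (nat_lit 78) (nat_lit 152) (nat_lit 0) (XT.lf (nat_lit 0) (nat_lit 38451631756) (nat_lit 304) (nat_lit 29088606156) (nat_lit 76) (nat_lit 8999224506) (nat_lit 47) (nat_lit 5) (nat_lit 51) (nat_lit 5) (nat_lit 48) (nat_lit 5) (nat_lit 387) (nat_lit 313) (nat_lit 80)) (XT.lf (nat_lit 0) (nat_lit 2227918030) (nat_lit 152) (nat_lit 49496049771) (nat_lit 228) (nat_lit 26512931937) (nat_lit 45) (nat_lit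 5) (nat_lit 47) (nat_lit 5) (nat_lit 48) (nat_lit 5) (nat_lit 388) (nat_lit 313) (nat_lit 79)))) (XT.nd (nat_lit 78) (nat_lit 0) (nat_lit 0) (XT.lf (nat_lit 0) (nat_lit 35078322127) (nat_lit 152) (nat_lit 30608717420) (nat_lit 228) (nat_lit 14289444416) (nat_lit 45) (nat_lit 5) (nat_lit 47) (nat_lit 5) (nat_lit 48) (nat_lit 5) (nat_lit 389) (nat_lit 313) (nat_lit 78)) (XT.nd (nat_lit 34710) (nat_lit 0) (nat_lit 10792) (XT.lf (nat_lit 0) (nat_lit 68912390072) (nat_lit 152) (nat_lit 11155475251) (nat_lit 228) (nat_lit 1700425271) (nat_lit 45) (nat_lit 5) (nat_lit 47) (nat_lit 5) (nat_lit 48) (nat_lit 5) (nat_lit 390) (nat_lit 313) (nat_lit 77)) (XT.lf (nat_lit 0) (nat_lit 1304816974) (nat_lit 0) (nat_lit 1304816974) (nat_lit 1140) (nat_lit 7541961988) (nat_lit 187) (nat_lit 5) (nat_lit 187) (nat_lit 3) (nat_lit 202) (nat_lit 3) (nat_lit 314) (nat_lit 314) (nat_lit 152))))) (XT.nd (nat_lit 234) (nat_lit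 0) (nat_lit 76) (XT.nd (nat_lit 78) (nat_lit 0) (nat_lit 0) (XT.lf (nat_lit 0) (nat_lit 5512607884) (nat_lit 1140) (nat_lit 8679297571) (nat_lit 1216) (nat_lit 6409176909) (nat_lit 187) (nat_lit 5) (nat_lit 202) (nat_lit 3) (nat_lit 203) (nat_lit 5) (nat_lit 315) (nat_lit 314) (nat_lit 151)) (XT.nd (nat_lit 78) (nat_lit 0) (nat_lit 76) (XT.lf (nat_lit 76) (nat_lit 587838396) (nat_lit 0) (nat_lit 5252486285) (nat_lit 1216) (nat_lit 15066825621) (nat_lit 188) (nat_lit 5) (nat_lit 187) (nat_lit 5) (nat_lit 203) (nat_lit 5) (nat_lit 316) (nat_lit 314) (nat_lit 150)) (XT.lf (nat_lit 0) (nat_lit 6298658638) (nat_lit 1140) (nat_lit 10951112089) (nat_lit 1216) (nat_lit 3969013781) (nat_lit 188) (nat_lit 5) (nat_lit 203) (nat_lit 5) (nat_lit 204) (nat_lit 5) (nat_lit 317) (nat_lit 314) (nat_lit 149)))) (XT.nd (nat_lit 156) (nat_lit 0) (nat_lit 76) (XT.nd (nat_lit 78) (nat_lit 0) (nat_lit 76) (XT.lf (nat_lit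 0) (nat_lit 6817169777) (nat_lit 1140) (nat_lit 1357133142) (nat_lit 1216) (nat_lit 13364079581) (nat_lit 188) (nat_lit 5) (nat_lit 203) (nat_lit 5) (nat_lit 204) (nat_lit 5) (nat_lit 318) (nat_lit 314) (nat_lit 148)) (XT.lf (nat_lit 0) (nat_lit 7441493649) (nat_lit 1140) (nat_lit 13186267756) (nat_lit 1216) (nat_lit 1237106656) (nat_lit 189) (nat_lit 5) (nat_lit 204) (nat_lit 5) (nat_lit 205) (nat_lit 5) (nat_lit 319) (nat_lit 314) (nat_lit 147))) (XT.nd (nat_lit 78) (nat_lit 0) (nat_lit 0) (XT.lf (nat_lit 0) (nat_lit 8174054066) (nat_lit 1140) (nat_lit 3241903219) (nat_lit 1216) (nat_lit 10782512838) (nat_lit 189) (nat_lit 5) (nat_lit 204) (nat_lit 5) (nat_lit 205) (nat_lit 5) (nat_lit 320) (nat_lit 314) (nat_lit 146)) (XT.lf (nat_lit 76) (nat_lit 7136831880) (nat_lit 0) (nat_lit 1855249480) (nat_lit 1216) (nat_lit 13548101115) (nat_lit 190) (nat_lit 5) (nat_lit 189) (nat_lit 5) (nat_lit 205)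 (nat_lit 5) (nat_lit 321) (nat_lit 314) (nat_lit 145)))))) (XT.nd (nat_lit 468) (nat_lit 1520) (nat_lit 0) (XT.nd (nat_lit 234) (nat_lit 0) (nat_lit 76) (XT.nd (nat_lit 78) (nat_lit 0) (nat_lit 0) (XT.lf (nat_lit 0) (nat_lit 9939559168) (nat_lit 1140) (nat_lit 5078297974) (nat_lit 1216) (nat_lit 7871148492) (nat_lit 190) (nat_lit 5) (nat_lit 205) (nat_lit 5) (nat_lit 206) (nat_lit 5) (nat_lit 322) (nat_lit 314) (nat_lit 144)) (XT.nd (nat_lit 78) (nat_lit 0) (nat_lit 76) (XT.lf (nat_lit 76) (nat_lit 5645022284) (nat_lit 0) (nat_lit 5338238250) (nat_lit 1216) (nat_lit 12263005511) (nat_lit 191) (nat_lit 5) (nat_lit 190) (nat_lit 5) (nat_lit 206) (nat_lit 5) (nat_lit 323) (nat_lit 314) (nat_lit 143)) (XT.lf (nat_lit 0) (nat_lit 12149875858) (nat_lit 1140) (nat_lit 6866994808) (nat_lit 1216) (nat_lit 4594631857) (nat_lit 191) (nat_lit 5) (nat_lit 206) (nat_lit 5) (nat_lit 207) (nat_lit 5) (nat_lit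 324) (nat_lit 314) (nat_lit 142)))) (XT.nd (nat_lit 78) (nat_lit 0) (nat_lit 76) (XT.lf (nat_lit 76) (nat_lit 4215384010) (nat_lit 0) (nat_lit 9224908415) (nat_lit 1216) (nat_lit 10544745744) (nat_lit 192) (nat_lit 5) (nat_lit 191) (nat_lit 5) (nat_lit 207) (nat_lit 5) (nat_lit 325) (nat_lit 314) (nat_lit 141)) (XT.nd (nat_lit 78) (nat_lit 0) (nat_lit 0) (XT.lf (nat_lit 0) (nat_lit 14843267279) (nat_lit 1140) (nat_lit 8609080310) (nat_lit 1216) (nat_lit 915222900) (nat_lit 192) (nat_lit 5) (nat_lit 207) (nat_lit 5) (nat_lit 208) (nat_lit 5) (nat_lit 326) (nat_lit 314) (nat_lit 140)) (XT.lf (nat_lit 76) (nat_lit 2847213690) (nat_lit 0) (nat_lit 13555493818) (nat_lit 1216) (nat_lit 8355445791) (nat_lit 193) (nat_lit 5) (nat_lit 192) (nat_lit 5) (nat_lit 208) (nat_lit 5) (nat_lit 327) (nat_lit 314) (nat_lit 139))))) (XT.nd (nat_lit 234) (nat_lit 1672) (nat_lit 0) (XT.nd (nat_lit 78) (nat_lit 0) (nat_lit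 76) (XT.lf (nat_lit 76) (nat_lit 14820386044) (nat_lit 0) (nat_lit 3271245447) (nat_lit 1216) (nat_lit 7066346720) (nat_lit 193) (nat_lit 5) (nat_lit 192) (nat_lit 5) (nat_lit 208) (nat_lit 5) (nat_lit 328) (nat_lit 314) (nat_lit 138)) (XT.nd (nat_lit 78) (nat_lit 0) (nat_lit 0) (XT.lf (nat_lit 76) (nat_lit 1539283603) (nat_lit 0) (nat_lit 18373013031) (nat_lit 1216) (nat_lit 5655074506) (nat_lit 194) (nat_lit 5) (nat_lit 193) (nat_lit 5) (nat_lit 209) (nat_lit 5) (nat_lit 329) (nat_lit 314) (nat_lit 137)) (XT.lf (nat_lit 76) (nat_lit 13948045604) (nat_lit 0) (nat_lit 7971982229) (nat_lit 1216) (nat_lit 4065049951) (nat_lit 194) (nat_lit 5) (nat_lit 193) (nat_lit 5) (nat_lit 209) (nat_lit 5) (nat_lit 330) (nat_lit 314) (nat_lit 136)))) (XT.nd (nat_lit 156) (nat_lit 684) (nat_lit 0) (XT.nd (nat_lit 78) (nat_lit 0) (nat_lit 0) (XT.lf (nat_lit 0) (nat_lit 289729454) (nat_lit 1140) (nat_lit 23723504774)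 (nat_lit 1216) (nat_lit 2401329258) (nat_lit 179) (nat_lit 5) (nat_lit 194) (nat_lit 5) (nat_lit 195) (nat_lit 5) (nat_lit 331) (nat_lit 314) (nat_lit 135)) (XT.lf (nat_lit 0) (nat_lit 13149242443) (nat_lit 1140) (nat_lit 13215892381) (nat_lit 1216) (nat_lit 485927002) (nat_lit 179) (nat_lit 5) (nat_lit 194) (nat_lit 5) (nat_lit 195) (nat_lit 5) (nat_lit 332) (nat_lit 314) (nat_lit 134))) (XT.nd (nat_lit 78) (nat_lit 608) (nat_lit 0) (XT.lf (nat_lit 0) (nat_lit 1454182277) (nat_lit 1216) (nat_lit 923688214) (nat_lit 76) (nat_lit 24922472731) (nat_lit 178) (nat_lit 5) (nat_lit 194) (nat_lit 5) (nat_lit 179) (nat_lit 5) (nat_lit 333) (nat_lit 314) (nat_lit 133)) (XT.lf (nat_lit 0) (nat_lit 3644686118) (nat_lit 684) (nat_lit 15371976344) (nat_lit 76) (nat_lit 8740242105) (nat_lit 170) (nat_lit 5) (nat_lit 179) (nat_lit 5) (nat_lit 171) (nat_lit 5) (nat_lit 334) (nat_lit 314) (nat_lit 132))))))) (XT.nd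 (nat_lit 1014) (nat_lit 2812) (nat_lit 0) (XT.nd (nat_lit 468) (nat_lit 1520) (nat_lit 0) (XT.nd (nat_lit 234) (nat_lit 1064) (nat_lit 0) (XT.nd (nat_lit 78) (nat_lit 608) (nat_lit 0) (XT.lf (nat_lit 0) (nat_lit 5930316805) (nat_lit 684) (nat_lit 2142049449) (nat_lit 76) (nat_lit 20153918595) (nat_lit 170) (nat_lit 5) (nat_lit 179) (nat_lit 5) (nat_lit 171) (nat_lit 5) (nat_lit 335) (nat_lit 314) (nat_lit 131)) (XT.nd (nat_lit 78) (nat_lit 0) (nat_lit 0) (XT.lf (nat_lit 0) (nat_lit 8425513224) (nat_lit 684) (nat_lit 17028249249) (nat_lit 76) (nat_lit 3251758483) (nat_lit 162) (nat_lit 5) (nat_lit 171) (nat_lit 5) (nat_lit 163) (nat_lit 5) (nat_lit 336) (nat_lit 314) (nat_lit 130)) (XT.lf (nat_lit 0) (nat_lit 11093959199) (nat_lit 684) (nat_lit 3326791617) (nat_lit 76) (nat_lit 14775435712) (nat_lit 162) (nat_lit 5) (nat_lit 171) (nat_lit 5) (nat_lit 163) (nat_lit 5) (nat_lit 337) (nat_lit 314)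 (nat_lit 129)))) (XT.nd (nat_lit 78) (nat_lit 532) (nat_lit 0) (XT.lf (nat_lit 0) (nat_lit 10997148162) (nat_lit 532) (nat_lit 2947744601) (nat_lit 608) (nat_lit 15753610348) (nat_lit 155) (nat_lit 5) (nat_lit 162) (nat_lit 5) (nat_lit 163) (nat_lit 5) (nat_lit 338) (nat_lit 314) (nat_lit 128)) (XT.nd (nat_lit 78) (nat_lit 532) (nat_lit 0) (XT.lf (nat_lit 0) (nat_lit 16997328765) (nat_lit 608) (nat_lit 4484696234) (nat_lit 76) (nat_lit 8730388912) (nat_lit 155) (nat_lit 5) (nat_lit 163) (nat_lit 5) (nat_lit 156) (nat_lit 5) (nat_lit 339) (nat_lit 314) (nat_lit 127)) (XT.lf (nat_lit 0) (nat_lit 10327674988) (nat_lit 532) (nat_lit 9939007044) (nat_lit 608) (nat_lit 10471303515) (nat_lit 148) (nat_lit 5) (nat_lit 155) (nat_lit 5) (nat_lit 156) (nat_lit 5) (nat_lit 340) (nat_lit 314) (nat_lit 126))))) (XT.nd (nat_lit 234) (nat_lit 1064) (nat_lit 0) (XT.nd (nat_lit 78) (nat_lit 456) (nat_lit 0) (XT.lf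 (nat_lit 0) (nat_lit 23695541633) (nat_lit 608) (nat_lit 5624008466) (nat_lit 76) (nat_lit 1957935187) (nat_lit 148) (nat_lit 5) (nat_lit 156) (nat_lit 5) (nat_lit 149) (nat_lit 5) (nat_lit 341) (nat_lit 314) (nat_lit 125)) (XT.nd (nat_lit 78) (nat_lit 0) (nat_lit 0) (XT.lf (nat_lit 0) (nat_lit 9693529360) (nat_lit 456) (nat_lit 17722356061) (nat_lit 532) (nat_lit 4411629661) (nat_lit 142) (nat_lit 5) (nat_lit 148) (nat_lit 5) (nat_lit 149) (nat_lit 5) (nat_lit 342) (nat_lit 314) (nat_lit 124)) (XT.lf (nat_lit 0) (nat_lit 25582807409) (nat_lit 456) (nat_lit 5718912730) (nat_lit 532) (nat_lit 1090712726) (nat_lit 142) (nat_lit 5) (nat_lit 148) (nat_lit 5) (nat_lit 149) (nat_lit 5) (nat_lit 343) (nat_lit 314) (nat_lit 123)))) (XT.nd (nat_lit 156) (nat_lit 456) (nat_lit 0) (XT.nd (nat_lit 78) (nat_lit 0) (nat_lit 0) (XT.lf (nat_lit 0) (nat_lit 2434207389) (nat_lit 608) (nat_lit 23908914411) (nat_lit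 76) (nat_lit 6626012646) (nat_lit 134) (nat_lit 5) (nat_lit 142) (nat_lit 5) (nat_lit 135) (nat_lit 5) (nat_lit 344) (nat_lit 314) (nat_lit 122)) (XT.lf (nat_lit 0) (nat_lit 6166215308) (nat_lit 608) (nat_lit 8086524192) (nat_lit 76) (nat_lit 19306378939) (nat_lit 134) (nat_lit 5) (nat_lit 142) (nat_lit 5) (nat_lit 135) (nat_lit 5) (nat_lit 345) (nat_lit 314) (nat_lit 121))) (XT.nd (nat_lit 78) (nat_lit 0) (nat_lit 0) (XT.lf (nat_lit 0) (nat_lit 8370875206) (nat_lit 456) (nat_lit 1717050790) (nat_lit 532) (nat_lit 24076546802) (nat_lit 128) (nat_lit 5) (nat_lit 134) (nat_lit 5) (nat_lit 135) (nat_lit 5) (nat_lit 346) (nat_lit 314) (nat_lit 120)) (XT.lf (nat_lit 0) (nat_lit 14314689226) (nat_lit 532) (nat_lit 9409253750) (nat_lit 76) (nat_lit 11058425802) (nat_lit 128) (nat_lit 5) (nat_lit 135) (nat_lit 5) (nat_lit 129) (nat_lit 5) (nat_lit 347) (nat_lit 314) (nat_lit 119)))))) (XT.nd (nat_lit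 546) (nat_lit 1140) (nat_lit 0) (XT.nd (nat_lit 234) (nat_lit 836) (nat_lit 0) (XT.nd (nat_lit 78) (nat_lit 380) (nat_lit 0) (XT.lf (nat_lit 0) (nat_lit 7594852712) (nat_lit 456) (nat_lit 11160811749) (nat_lit 532) (nat_lit 16660517846) (nat_lit 122) (nat_lit 5) (nat_lit 128) (nat_lit 5) (nat_lit 129) (nat_lit 5) (nat_lit 348) (nat_lit 314) (nat_lit 118)) (XT.nd (nat_lit 78) (nat_lit 380) (nat_lit 0) (XT.lf (nat_lit 0) (nat_lit 23440373469) (nat_lit 532) (nat_lit 10785257191) (nat_lit 76) (nat_lit 1840067301) (nat_lit 122) (nat_lit 5) (nat_lit 129) (nat_lit 5) (nat_lit 123) (nat_lit 5) (nat_lit 349) (nat_lit 314) (nat_lit 117)) (XT.lf (nat_lit 0) (nat_lit 6780783045) (nat_lit 380) (nat_lit 21658045085) (nat_lit 456) (nat_lit 8290677593) (nat_lit 117) (nat_lit 5) (nat_lit 122) (nat_lit 5) (nat_lit 123) (nat_lit 5) (nat_lit 350) (nat_lit 314) (nat_lit 116)))) (XT.nd (nat_lit 156) (nat_lit 380) (nat_lit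 0) (XT.nd (nat_lit 78) (nat_lit 456) (nat_lit 0) (XT.lf (nat_lit 0) (nat_lit 25091991649) (nat_lit 380) (nat_lit 8601719347) (nat_lit 456) (nat_lit 3716325180) (nat_lit 117) (nat_lit 5) (nat_lit 122) (nat_lit 5) (nat_lit 123) (nat_lit 5) (nat_lit 351) (nat_lit 314) (nat_lit 115)) (XT.lf (nat_lit 0) (nat_lit 1077836104) (nat_lit 456) (nat_lit 32211164674) (nat_lit 76) (nat_lit 4818637308) (nat_lit 111) (nat_lit 5) (nat_lit 117) (nat_lit 5) (nat_lit 112) (nat_lit 5) (nat_lit 352) (nat_lit 314) (nat_lit 114))) (XT.nd (nat_lit 78) (nat_lit 380) (nat_lit 0) (XT.lf (nat_lit 0) (nat_lit 6149560185) (nat_lit 456) (nat_lit 14038599874) (nat_lit 76) (nat_lit 18630653625) (nat_lit 111) (nat_lit 5) (nat_lit 117) (nat_lit 5) (nat_lit 112) (nat_lit 5) (nat_lit 353) (nat_lit 314) (nat_lit 113)) (XT.lf (nat_lit 0) (nat_lit 4769388667) (nat_lit 380) (nat_lit 6647609347) (nat_lit 456) (nat_lit 28133022068) (nat_lit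 106) (nat_lit 5) (nat_lit 111) (nat_lit 5) (nat_lit 112) (nat_lit 5) (nat_lit 354) (nat_lit 314) (nat_lit 112))))) (XT.nd (nat_lit 234) (nat_lit 760) (nat_lit 0) (XT.nd (nat_lit 78) (nat_lit 380) (nat_lit 0) (XT.lf (nat_lit 0) (nat_lit 17053539014) (nat_lit 456) (nat_lit 15943940839) (nat_lit 76) (nat_lit 7299352739) (nat_lit 106) (nat_lit 5) (nat_lit 112) (nat_lit 5) (nat_lit 107) (nat_lit 5) (nat_lit 355) (nat_lit 314) (nat_lit 111)) (XT.nd (nat_lit 78) (nat_lit 0) (nat_lit 0) (XT.lf (nat_lit 0) (nat_lit 3456710780) (nat_lit 380) (nat_lit 19499327072) (nat_lit 456) (nat_lit 18107108031) (nat_lit 101) (nat_lit 5) (nat_lit 106) (nat_lit 5) (nat_lit 107) (nat_lit 5) (nat_lit 356) (nat_lit 314) (nat_lit 110)) (XT.lf (nat_lit 0) (nat_lit 23763469667) (nat_lit 380) (nat_lit 5430997414) (nat_lit 456) (nat_lit 12653218017) (nat_lit 101) (nat_lit 5) (nat_lit 106) (nat_lit 5) (nat_lit 107) (nat_lit 5)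 (nat_lit 357) (nat_lit 314) (nat_lit 109)))) (XT.nd (nat_lit 156) (nat_lit 456) (nat_lit 0) (XT.nd (nat_lit 78) (nat_lit 0) (nat_lit 0) (XT.lf (nat_lit 0) (nat_lit 1972347641) (nat_lit 304) (nat_lit 33751655102) (nat_lit 380) (nat_lit 6928641263) (nat_lit 97) (nat_lit 5) (nat_lit 101) (nat_lit 5) (nat_lit 102) (nat_lit 5) (nat_lit 358) (nat_lit 314) (nat_lit 108)) (XT.lf (nat_lit 0) (nat_lit 22943774125) (nat_lit 304) (nat_lit 19739455287) (nat_lit 380) (nat_lit 791510185) (nat_lit 97) (nat_lit 5) (nat_lit 101) (nat_lit 5) (nat_lit 102) (nat_lit 5) (nat_lit 359) (nat_lit 314) (nat_lit 107))) (XT.nd (nat_lit 78) (nat_lit 0) (nat_lit 0) (XT.lf (nat_lit 0) (nat_lit 170351118) (nat_lit 380) (nat_lit 5251099073) (nat_lit 456) (nat_lit 38898466542) (nat_lit 91) (nat_lit 5) (nat_lit 96) (nat_lit 5) (nat_lit 97) (nat_lit 5) (nat_lit 360) (nat_lit 314) (nat_lit 106)) (XT.lf (nat_lit 0) (nat_lit 12105248307)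 (nat_lit 456) (nat_lit 23376211570) (nat_lit 76) (nat_lit 9699745365) (nat_lit 91) (nat_lit 5) (nat_lit 97) (nat_lit 5) (nat_lit 92) (nat_lit 5) (nat_lit 361) (nat_lit 314) (nat_lit 105))))))))
noncomputable def xc221 : XT := (XT.nd (nat_lit 2028) (nat_lit 152) (nat_lit 0) (XT.nd (nat_lit 1014) (nat_lit 1444) (nat_lit 0) (XT.nd (nat_lit 468) (nat_lit 912) (nat_lit 0) (XT.nd (nat_lit 234) (nat_lit 684) (nat_lit 0) (XT.nd (nat_lit 78) (nat_lit 304) (nat_lit 0) (XT.lf (nat_lit 0) (nat_lit 19039619417) (nat_lit 456) (nat_lit 2034261777) (nat_lit 76) (nat_lit 24992951273) (nat_lit 91) (nat_lit 5) (nat_lit 97) (nat_lit 5) (nat_lit 92) (nat_lit 5) (nat_lit 362) (nat_lit 314) (nat_lit 104)) (XT.nd (nat_lit 78) (nat_lit 0) (nat_lit 0) (XT.lf (nat_lit 0) (nat_lit 20342361590) (nat_lit 304) (nat_lit 6033327539) (nat_lit 380) (nat_lit 20597531137) (nat_lit 87) (nat_lit 5) (nat_lit 91) (nat_lit 5) (nat_lit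 92) (nat_lit 5) (nat_lit 363) (nat_lit 314) (nat_lit 103)) (XT.lf (nat_lit 0) (nat_lit 34041655020) (nat_lit 380) (nat_lit 4567886583) (nat_lit 76) (nat_lit 9293965400) (nat_lit 87) (nat_lit 5) (nat_lit 92) (nat_lit 5) (nat_lit 88) (nat_lit 5) (nat_lit 364) (nat_lit 314) (nat_lit 102)))) (XT.nd (nat_lit 78) (nat_lit 380) (nat_lit 0) (XT.lf (nat_lit 0) (nat_lit 18454870971) (nat_lit 304) (nat_lit 23718066582) (nat_lit 380) (nat_lit 6681706336) (nat_lit 83) (nat_lit 5) (nat_lit 87) (nat_lit 5) (nat_lit 88) (nat_lit 5) (nat_lit 365) (nat_lit 314) (nat_lit 101)) (XT.nd (nat_lit 78) (nat_lit 304) (nat_lit 0) (XT.lf (nat_lit 0) (nat_lit 744709217) (nat_lit 380) (nat_lit 7580802793) (nat_lit 76) (nat_lit 41507254739) (nat_lit 82) (nat_lit 5) (nat_lit 87) (nat_lit 5) (nat_lit 83) (nat_lit 5) (nat_lit 366) (nat_lit 314) (nat_lit 100)) (XT.lf (nat_lit 0) (nat_lit 8487877207) (nat_lit 380) (nat_lit 34738517222)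 (nat_lit 76) (nat_lit 7605008067) (nat_lit 78) (nat_lit 5) (nat_lit 83) (nat_lit 5) (nat_lit 79) (nat_lit 5) (nat_lit 367) (nat_lit 314) (nat_lit 99))))) (XT.nd (nat_lit 234) (nat_lit 608) (nat_lit 0) (XT.nd (nat_lit 78) (nat_lit 304) (nat_lit 0) (XT.lf (nat_lit 0) (nat_lit 16621364867) (nat_lit 380) (nat_lit 11311157458) (nat_lit 76) (nat_lit 23922735741) (nat_lit 78) (nat_lit 5) (nat_lit 83) (nat_lit 5) (nat_lit 79) (nat_lit 5) (nat_lit 368) (nat_lit 314) (nat_lit 98)) (XT.nd (nat_lit 78) (nat_lit 0) (nat_lit 0) (XT.lf (nat_lit 0) (nat_lit 13071719877) (nat_lit 304) (nat_lit 12051125250) (nat_lit 380) (nat_lit 27783265984) (nat_lit 74) (nat_lit 5) (nat_lit 78) (nat_lit 5) (nat_lit 79) (nat_lit 5) (nat_lit 369) (nat_lit 314) (nat_lit 97)) (XT.lf (nat_lit 0) (nat_lit 34034473540) (nat_lit 380) (nat_lit 15612041555) (nat_lit 76) (nat_lit 4337322944) (nat_lit 74) (nat_lit 5) (nat_lit 79) (nat_lit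 5) (nat_lit 75) (nat_lit 5) (nat_lit 370) (nat_lit 314) (nat_lit 96)))) (XT.nd (nat_lit 156) (nat_lit 380) (nat_lit 0) (XT.nd (nat_lit 78) (nat_lit 0) (nat_lit 0) (XT.lf (nat_lit 0) (nat_lit 9398733658) (nat_lit 228) (nat_lit 34022783121) (nat_lit 304) (nat_lit 11666139379) (nat_lit 71) (nat_lit 5) (nat_lit 74) (nat_lit 5) (nat_lit 75) (nat_lit 5) (nat_lit 371) (nat_lit 314) (nat_lit 95)) (XT.lf (nat_lit 0) (nat_lit 35477556488) (nat_lit 228) (nat_lit 17768691740) (nat_lit 304) (nat_lit 2973659611) (nat_lit 71) (nat_lit 5) (nat_lit 74) (nat_lit 5) (nat_lit 75) (nat_lit 5) (nat_lit 372) (nat_lit 314) (nat_lit 94))) (XT.nd (nat_lit 78) (nat_lit 0) (nat_lit 0) (XT.lf (nat_lit 0) (nat_lit 4990243050) (nat_lit 304) (nat_lit 919092701) (nat_lit 380) (nat_lit 51473675443) (nat_lit 66) (nat_lit 5) (nat_lit 70) (nat_lit 5) (nat_lit 71) (nat_lit 5) (nat_lit 373) (nat_lit 314) (nat_lit 93)) (XT.lf (nat_lit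 0) (nat_lit 15367048827) (nat_lit 380) (nat_lit 26846509174) (nat_lit 76) (nat_lit 16355527731) (nat_lit 66) (nat_lit 5) (nat_lit 71) (nat_lit 5) (nat_lit 67) (nat_lit 5) (nat_lit 374) (nat_lit 314) (nat_lit 92)))))) (XT.nd (nat_lit 468) (nat_lit 684) (nat_lit 0) (XT.nd (nat_lit 234) (nat_lit 532) (nat_lit 0) (XT.nd (nat_lit 78) (nat_lit 228) (nat_lit 0) (XT.lf (nat_lit 0) (nat_lit 25116109456) (nat_lit 380) (nat_lit 545185226) (nat_lit 76) (nat_lit 34129220514) (nat_lit 66) (nat_lit 5) (nat_lit 71) (nat_lit 5) (nat_lit 67) (nat_lit 5) (nat_lit 375) (nat_lit 314) (nat_lit 91)) (XT.nd (nat_lit 78) (nat_lit 0) (nat_lit 0) (XT.lf (nat_lit 0) (nat_lit 27071278468) (nat_lit 228) (nat_lit 8345148577) (nat_lit 304) (nat_lit 25624398088) (nat_lit 63) (nat_lit 5) (nat_lit 66) (nat_lit 5) (nat_lit 67) (nat_lit 5) (nat_lit 376) (nat_lit 314) (nat_lit 90)) (XT.lf (nat_lit 0) (nat_lit 46121116258) (nat_lit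 304) (nat_lit 6894523944) (nat_lit 76) (nat_lit 9310144413) (nat_lit 63) (nat_lit 5) (nat_lit 67) (nat_lit 5) (nat_lit 64) (nat_lit 5) (nat_lit 377) (nat_lit 314) (nat_lit 89)))) (XT.nd (nat_lit 78) (nat_lit 304) (nat_lit 0) (XT.lf (nat_lit 0) (nat_lit 21324124265) (nat_lit 228) (nat_lit 36109043145) (nat_lit 304) (nat_lit 6207539909) (nat_lit 60) (nat_lit 5) (nat_lit 63) (nat_lit 5) (nat_lit 64) (nat_lit 5) (nat_lit 378) (nat_lit 314) (nat_lit 88)) (XT.nd (nat_lit 78) (nat_lit 228) (nat_lit 0) (XT.lf (nat_lit 0) (nat_lit 4078633168) (nat_lit 304) (nat_lit 14504444482) (nat_lit 76) (nat_lit 46408753794) (nat_lit 59) (nat_lit 5) (nat_lit 63) (nat_lit 5) (nat_lit 60) (nat_lit 5) (nat_lit 379) (nat_lit 314) (nat_lit 87)) (XT.lf (nat_lit 0) (nat_lit 14358731525) (nat_lit 228) (nat_lit 326580786) (nat_lit 304) (nat_lit 51692233555) (nat_lit 56) (nat_lit 5) (nat_lit 59) (nat_lit 5) (nat_lit 60) (nat_lit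 5) (nat_lit 380) (nat_lit 314) (nat_lit 86))))) (XT.nd (nat_lit 234) (nat_lit 456) (nat_lit 0) (XT.nd (nat_lit 78) (nat_lit 228) (nat_lit 0) (XT.lf (nat_lit 0) (nat_lit 25934400428) (nat_lit 304) (nat_lit 23596446265) (nat_lit 76) (nat_lit 18264259725) (nat_lit 56) (nat_lit 5) (nat_lit 60) (nat_lit 5) (nat_lit 57) (nat_lit 5) (nat_lit 381) (nat_lit 314) (nat_lit 85)) (XT.nd (nat_lit 78) (nat_lit 0) (nat_lit 0) (XT.lf (nat_lit 0) (nat_lit 5786260473) (nat_lit 228) (nat_lit 31792267776) (nat_lit 304) (nat_lit 31674939456) (nat_lit 53) (nat_lit 5) (nat_lit 56) (nat_lit 5) (nat_lit 57) (nat_lit 5) (nat_lit 382) (nat_lit 314) (nat_lit 84)) (XT.lf (nat_lit 0) (nat_lit 36532162443) (nat_lit 228) (nat_lit 13276826185) (nat_lit 304) (nat_lit 20939481842) (nat_lit 53) (nat_lit 5) (nat_lit 56) (nat_lit 5) (nat_lit 57) (nat_lit 5) (nat_lit 383) (nat_lit 314) (nat_lit 83)))) (XT.nd (nat_lit 156) (nat_lit 228)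 (nat_lit 0) (XT.nd (nat_lit 78) (nat_lit 228) (nat_lit 0) (XT.lf (nat_lit 0) (nat_lit 62460820167) (nat_lit 304) (nat_lit 4145541211) (nat_lit 76) (nat_lit 5680329094) (nat_lit 53) (nat_lit 5) (nat_lit 57) (nat_lit 5) (nat_lit 54) (nat_lit 5) (nat_lit 384) (nat_lit 314) (nat_lit 82)) (XT.lf (nat_lit 0) (nat_lit 1985351737) (nat_lit 228) (nat_lit 46653511811) (nat_lit 76) (nat_lit 25219851748) (nat_lit 50) (nat_lit 5) (nat_lit 53) (nat_lit 5) (nat_lit 51) (nat_lit 5) (nat_lit 385) (nat_lit 314) (nat_lit 81))) (XT.nd (nat_lit 78) (nat_lit 228) (nat_lit 0) (XT.lf (nat_lit 0) (nat_lit 13994498033) (nat_lit 228) (nat_lit 15994807200) (nat_lit 76) (nat_lit 45484445523) (nat_lit 50) (nat_lit 5) (nat_lit 53) (nat_lit 5) (nat_lit 51) (nat_lit 5) (nat_lit 386) (nat_lit 314) (nat_lit 80)) (XT.lf (nat_lit 0) (nat_lit 15891910730) (nat_lit 228) (nat_lit 10623607206) (nat_lit 304) (nat_lit 50617172143) (nat_lit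 47) (nat_lit 5) (nat_lit 50) (nat_lit 5) (nat_lit 51) (nat_lit 5) (nat_lit 387) (nat_lit 314) (nat_lit 79))))))) (XT.nd (nat_lit 35724) (nat_lit 0) (nat_lit 8892) (XT.nd (nat_lit 35178) (nat_lit 0) (nat_lit 10868) (XT.nd (nat_lit 34944) (nat_lit 0) (nat_lit 10792) (XT.nd (nat_lit 78) (nat_lit 152) (nat_lit 0) (XT.lf (nat_lit 0) (nat_lit 39663748803) (nat_lit 304) (nat_lit 29866528752) (nat_lit 76) (nat_lit 9303573372) (nat_lit 47) (nat_lit 5) (nat_lit 51) (nat_lit 5) (nat_lit 48) (nat_lit 5) (nat_lit 388) (nat_lit 314) (nat_lit 78)) (XT.nd (nat_lit 78) (nat_lit 0) (nat_lit 0) (XT.lf (nat_lit 0) (nat_lit 2388562380) (nat_lit 152) (nat_lit 50944888412) (nat_lit 228) (nat_lit 27248785815) (nat_lit 45) (nat_lit 5) (nat_lit 47) (nat_lit 5) (nat_lit 48) (nat_lit 5) (nat_lit 389) (nat_lit 314) (nat_lit 77)) (XT.lf (nat_lit 0) (nat_lit 36221746363) (nat_lit 152) (nat_lit 31491985883) (nat_lit 228) (nat_lit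 14660327671) (nat_lit 45) (nat_lit 5) (nat_lit 47) (nat_lit 5) (nat_lit 48) (nat_lit 5) (nat_lit 390) (nat_lit 314) (nat_lit 76)))) (XT.nd (nat_lit 78) (nat_lit 0) (nat_lit 0) (XT.lf (nat_lit 0) (nat_lit 1419337837) (nat_lit 0) (nat_lit 1419337837) (nat_lit 1140) (nat_lit 7612741678) (nat_lit 187) (nat_lit 5) (nat_lit 187) (nat_lit 3) (nat_lit 202) (nat_lit 3) (nat_lit 315) (nat_lit 315) (nat_lit 150)) (XT.nd (nat_lit 78) (nat_lit 0) (nat_lit 0) (XT.lf (nat_lit 0) (nat_lit 5969302901) (nat_lit 1140) (nat_lit 8782730129) (nat_lit 1216) (nat_lit 6457946413) (nat_lit 187) (nat_lit 5) (nat_lit 202) (nat_lit 3) (nat_lit 203) (nat_lit 5) (nat_lit 316) (nat_lit 315) (nat_lit 149)) (XT.lf (nat_lit 76) (nat_lit 760881227) (nat_lit 0) (nat_lit 5538978893) (nat_lit 1216) (nat_lit 15225590561) (nat_lit 188) (nat_lit 5) (nat_lit 187) (nat_lit 5) (nat_lit 203) (nat_lit 5) (nat_lit 317) (nat_lit 315) (nat_lit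 148))))) (XT.nd (nat_lit 234) (nat_lit 0) (nat_lit 76) (XT.nd (nat_lit 78) (nat_lit 0) (nat_lit 0) (XT.lf (nat_lit 0) (nat_lit 6762459622) (nat_lit 1140) (nat_lit 11118906571) (nat_lit 1216) (nat_lit 3965363451) (nat_lit 188) (nat_lit 5) (nat_lit 203) (nat_lit 5) (nat_lit 204) (nat_lit 5) (nat_lit 318) (nat_lit 315) (nat_lit 147)) (XT.nd (nat_lit 78) (nat_lit 0) (nat_lit 76) (XT.lf (nat_lit 0) (nat_lit 7288521010) (nat_lit 1140) (nat_lit 1241789970) (nat_lit 1216) (nat_lit 13645855616) (nat_lit 188) (nat_lit 5) (nat_lit 203) (nat_lit 5) (nat_lit 204) (nat_lit 5) (nat_lit 319) (nat_lit 315) (nat_lit 146)) (XT.lf (nat_lit 0) (nat_lit 7924268929) (nat_lit 1140) (nat_lit 13418141212) (nat_lit 1216) (nat_lit 1170266306) (nat_lit 189) (nat_lit 5) (nat_lit 204) (nat_lit 5) (nat_lit 205) (nat_lit 5) (nat_lit 320) (nat_lit 315) (nat_lit 145)))) (XT.nd (nat_lit 156) (nat_lit 0) (nat_lit 76) (XT.nd (nat_lit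 78) (nat_lit 0) (nat_lit 0) (XT.lf (nat_lit 0) (nat_lit 8671247019) (nat_lit 1140) (nat_lit 3180214125) (nat_lit 1216) (nat_lit 11005062446) (nat_lit 189) (nat_lit 5) (nat_lit 204) (nat_lit 5) (nat_lit 205) (nat_lit 5) (nat_lit 321) (nat_lit 315) (nat_lit 144)) (XT.lf (nat_lit 76) (nat_lit 7508324731) (nat_lit 0) (nat_lit 1999664338) (nat_lit 1216) (nat_lit 13700682971) (nat_lit 190) (nat_lit 5) (nat_lit 189) (nat_lit 5) (nat_lit 205) (nat_lit 5) (nat_lit 322) (nat_lit 315) (nat_lit 143))) (XT.nd (nat_lit 78) (nat_lit 0) (nat_lit 0) (XT.lf (nat_lit 0) (nat_lit 10475893592) (nat_lit 1140) (nat_lit 5069523619) (nat_lit 1216) (nat_lit 8022792269) (nat_lit 190) (nat_lit 5) (nat_lit 205) (nat_lit 5) (nat_lit 206) (nat_lit 5) (nat_lit 323) (nat_lit 315) (nat_lit 142)) (XT.lf (nat_lit 76) (nat_lit 5973916607) (nat_lit 0) (nat_lit 5571586684) (nat_lit 1216) (nat_lit 12390855869) (nat_lit 191) (nat_lit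 5) (nat_lit 190) (nat_lit 5) (nat_lit 206) (nat_lit 5) (nat_lit 324) (nat_lit 315) (nat_lit 141)))))) (XT.nd (nat_lit 546) (nat_lit 2204) (nat_lit 0) (XT.nd (nat_lit 234) (nat_lit 0) (nat_lit 76) (XT.nd (nat_lit 78) (nat_lit 0) (nat_lit 0) (XT.lf (nat_lit 0) (nat_lit 12739654935) (nat_lit 1140) (nat_lit 6910342345) (nat_lit 1216) (nat_lit 4662788419) (nat_lit 191) (nat_lit 5) (nat_lit 206) (nat_lit 5) (nat_lit 207) (nat_lit 5) (nat_lit 325) (nat_lit 315) (nat_lit 140)) (XT.nd (nat_lit 78) (nat_lit 0) (nat_lit 76) (XT.lf (nat_lit 76) (nat_lit 4502913110) (nat_lit 0) (nat_lit 9560857535) (nat_lit 1216) (nat_lit 10633916008) (nat_lit 192) (nat_lit 5) (nat_lit 191) (nat_lit 5) (nat_lit 207) (nat_lit 5) (nat_lit 326) (nat_lit 315) (nat_lit 139)) (XT.lf (nat_lit 0) (nat_lit 15501866620) (nat_lit 1140) (nat_lit 8703722307) (nat_lit 1216) (nat_lit 886323639) (nat_lit 192) (nat_lit 5) (nat_lit 207) (nat_lit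 5) (nat_lit 208) (nat_lit 5) (nat_lit 327) (nat_lit 315) (nat_lit 138)))) (XT.nd (nat_lit 156) (nat_lit 0) (nat_lit 76) (XT.nd (nat_lit 78) (nat_lit 0) (nat_lit 0) (XT.lf (nat_lit 76) (nat_lit 3094656294) (nat_lit 0) (nat_lit 14008778597) (nat_lit 1216) (nat_lit 8390925954) (nat_lit 193) (nat_lit 5) (nat_lit 192) (nat_lit 5) (nat_lit 208) (nat_lit 5) (nat_lit 328) (nat_lit 315) (nat_lit 137)) (XT.lf (nat_lit 76) (nat_lit 15422304609) (nat_lit 0) (nat_lit 3414644912) (nat_lit 1216) (nat_lit 7069421383) (nat_lit 193) (nat_lit 5) (nat_lit 192) (nat_lit 5) (nat_lit 208) (nat_lit 5) (nat_lit 329) (nat_lit 315) (nat_lit 136))) (XT.nd (nat_lit 78) (nat_lit 0) (nat_lit 0) (XT.lf (nat_lit 76) (nat_lit 1747942122) (nat_lit 0) (nat_lit 18959531868) (nat_lit 1216) (nat_lit 5620722301) (nat_lit 194) (nat_lit 5) (nat_lit 193) (nat_lit 5) (nat_lit 209) (nat_lit 5) (nat_lit 330) (nat_lit 315) (nat_lit 135)) (XT.lf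 (nat_lit 76) (nat_lit 14524234555) (nat_lit 0) (nat_lit 8245441158) (nat_lit 1216) (nat_lit 3988938886) (nat_lit 194) (nat_lit 5) (nat_lit 193) (nat_lit 5) (nat_lit 209) (nat_lit 5) (nat_lit 331) (nat_lit 315) (nat_lit 134))))) (XT.nd (nat_lit 234) (nat_lit 1216) (nat_lit 0) (XT.nd (nat_lit 78) (nat_lit 76) (nat_lit 0) (XT.lf (nat_lit 0) (nat_lit 460905393) (nat_lit 1140) (nat_lit 24460421097) (nat_lit 1216) (nat_lit 2279796339) (nat_lit 179) (nat_lit 5) (nat_lit 194) (nat_lit 5) (nat_lit 195) (nat_lit 5) (nat_lit 332) (nat_lit 315) (nat_lit 133)) (XT.nd (nat_lit 78) (nat_lit 76) (nat_lit 0) (XT.lf (nat_lit 0) (nat_lit 13701471226) (nat_lit 1140) (nat_lit 13636846026) (nat_lit 1216) (nat_lit 312570059) (nat_lit 179) (nat_lit 5) (nat_lit 194) (nat_lit 5) (nat_lit 195) (nat_lit 5) (nat_lit 333) (nat_lit 315) (nat_lit 132)) (XT.lf (nat_lit 0) (nat_lit 1676708201) (nat_lit 1216) (nat_lit 794455815)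 (nat_lit 76) (nat_lit 25642596719) (nat_lit 178) (nat_lit 5) (nat_lit 194) (nat_lit 5) (nat_lit 179) (nat_lit 5) (nat_lit 334) (nat_lit 315) (nat_lit 131)))) (XT.nd (nat_lit 156) (nat_lit 608) (nat_lit 0) (XT.nd (nat_lit 78) (nat_lit 0) (nat_lit 0) (XT.lf (nat_lit 0) (nat_lit 3929020177) (nat_lit 684) (nat_lit 15672066414) (nat_lit 76) (nat_lit 8983056114) (nat_lit 170) (nat_lit 5) (nat_lit 179) (nat_lit 5) (nat_lit 171) (nat_lit 5) (nat_lit 335) (nat_lit 315) (nat_lit 130)) (XT.lf (nat_lit 0) (nat_lit 6278122887) (nat_lit 684) (nat_lit 2049933049) (nat_lit 76) (nat_lit 20739707752) (nat_lit 170) (nat_lit 5) (nat_lit 179) (nat_lit 5) (nat_lit 171) (nat_lit 5) (nat_lit 336) (nat_lit 315) (nat_lit 129))) (XT.nd (nat_lit 78) (nat_lit 0) (nat_lit 0) (XT.lf (nat_lit 0) (nat_lit 8844603789) (nat_lit 684) (nat_lit 17378940822) (nat_lit 76) (nat_lit 3337945606) (nat_lit 162) (nat_lit 5) (nat_lit 171)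 (nat_lit 5) (nat_lit 163) (nat_lit 5) (nat_lit 337) (nat_lit 315) (nat_lit 128)) (XT.lf (nat_lit 0) (nat_lit 11588258721) (nat_lit 684) (nat_lit 3271104196) (nat_lit 76) (nat_lit 15207664190) (nat_lit 162) (nat_lit 5) (nat_lit 171) (nat_lit 5) (nat_lit 163) (nat_lit 5) (nat_lit 338) (nat_lit 315) (nat_lit 127))))))))
noncomputable def xc222 : XT := (XT.nd (nat_lit 2028) (nat_lit 3192) (nat_lit 0) (XT.nd (nat_lit 1014) (nat_lit 2280) (nat_lit 0) (XT.nd (nat_lit 468) (nat_lit 1900) (nat_lit 0) (XT.nd (nat_lit 234) (nat_lit 456) (nat_lit 0) (XT.nd (nat_lit 78) (nat_lit 532) (nat_lit 0) (XT.lf (nat_lit 0) (nat_lit 11481029353) (nat_lit 532) (nat_lit 3040467639) (nat_lit 608) (nat_lit 16063018738) (nat_lit 155) (nat_lit 5) (nat_lit 162) (nat_lit 5) (nat_lit 163) (nat_lit 5) (nat_lit 339) (nat_lit 315) (nat_lit 126)) (XT.nd (nat_lit 78) (nat_lit 532) (nat_lit 0) (XT.lf (nat_lit 0) (nat_lit 17660856590)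 (nat_lit 608) (nat_lit 4464916282) (nat_lit 76) (nat_lit 8988216139) (nat_lit 155) (nat_lit 5) (nat_lit 163) (nat_lit 5) (nat_lit 156) (nat_lit 5) (nat_lit 340) (nat_lit 315) (nat_lit 125)) (XT.lf (nat_lit 0) (nat_lit 10790313128) (nat_lit 532) (nat_lit 10234972193) (nat_lit 608) (nat_lit 10630138137) (nat_lit 148) (nat_lit 5) (nat_lit 155) (nat_lit 5) (nat_lit 156) (nat_lit 5) (nat_lit 341) (nat_lit 315) (nat_lit 124)))) (XT.nd (nat_lit 78) (nat_lit 456) (nat_lit 0) (XT.lf (nat_lit 0) (nat_lit 24552644798) (nat_lit 608) (nat_lit 5639827409) (nat_lit 76) (nat_lit 2018772305) (nat_lit 148) (nat_lit 5) (nat_lit 156) (nat_lit 5) (nat_lit 149) (nat_lit 5) (nat_lit 342) (nat_lit 315) (nat_lit 123)) (XT.nd (nat_lit 78) (nat_lit 0) (nat_lit 0) (XT.lf (nat_lit 0) (nat_lit 10135737518) (nat_lit 456) (nat_lit 18246057424) (nat_lit 532) (nat_lit 4396069569) (nat_lit 142) (nat_lit 5) (nat_lit 148) (nat_lit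 5) (nat_lit 149) (nat_lit 5) (nat_lit 343) (nat_lit 315) (nat_lit 122)) (XT.lf (nat_lit 0) (nat_lit 26497284134) (nat_lit 456) (nat_lit 5882742909) (nat_lit 532) (nat_lit 979833154) (nat_lit 142) (nat_lit 5) (nat_lit 148) (nat_lit 5) (nat_lit 149) (nat_lit 5) (nat_lit 344) (nat_lit 315) (nat_lit 121))))) (XT.nd (nat_lit 234) (nat_lit 836) (nat_lit 0) (XT.nd (nat_lit 78) (nat_lit 456) (nat_lit 0) (XT.lf (nat_lit 0) (nat_lit 2645458420) (nat_lit 608) (nat_lit 24473491745) (nat_lit 76) (nat_lit 6834953219) (nat_lit 134) (nat_lit 5) (nat_lit 142) (nat_lit 5) (nat_lit 135) (nat_lit 5) (nat_lit 345) (nat_lit 315) (nat_lit 120)) (XT.nd (nat_lit 78) (nat_lit 456) (nat_lit 0) (XT.lf (nat_lit 0) (nat_lit 6485400612) (nat_lit 608) (nat_lit 8180877104) (nat_lit 76) (nat_lit 19895434573) (nat_lit 134) (nat_lit 5) (nat_lit 142) (nat_lit 5) (nat_lit 135) (nat_lit 5) (nat_lit 346) (nat_lit 315) (nat_lit 119))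 (XT.lf (nat_lit 0) (nat_lit 8768790915) (nat_lit 456) (nat_lit 1753474031) (nat_lit 532) (nat_lit 24663041740) (nat_lit 128) (nat_lit 5) (nat_lit 134) (nat_lit 5) (nat_lit 135) (nat_lit 5) (nat_lit 347) (nat_lit 315) (nat_lit 118)))) (XT.nd (nat_lit 156) (nat_lit 380) (nat_lit 0) (XT.nd (nat_lit 78) (nat_lit 456) (nat_lit 0) (XT.lf (nat_lit 0) (nat_lit 14872135930) (nat_lit 532) (nat_lit 9545177275) (nat_lit 76) (nat_lit 11404541543) (nat_lit 128) (nat_lit 5) (nat_lit 135) (nat_lit 5) (nat_lit 129) (nat_lit 5) (nat_lit 348) (nat_lit 315) (nat_lit 117)) (XT.lf (nat_lit 0) (nat_lit 7967617537) (nat_lit 456) (nat_lit 11476387606) (nat_lit 532) (nat_lit 17030751818) (nat_lit 122) (nat_lit 5) (nat_lit 128) (nat_lit 5) (nat_lit 129) (nat_lit 5) (nat_lit 349) (nat_lit 315) (nat_lit 116))) (XT.nd (nat_lit 78) (nat_lit 380) (nat_lit 0) (XT.lf (nat_lit 0) (nat_lit 24265774747) (nat_lit 532) (nat_lit 10964499343)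 (nat_lit 76) (nat_lit 1913592512) (nat_lit 122) (nat_lit 5) (nat_lit 129) (nat_lit 5) (nat_lit 123) (nat_lit 5) (nat_lit 350) (nat_lit 315) (nat_lit 115)) (XT.lf (nat_lit 0) (nat_lit 7127107242) (nat_lit 380) (nat_lit 22284890523) (nat_lit 456) (nat_lit 8415660372) (nat_lit 117) (nat_lit 5) (nat_lit 122) (nat_lit 5) (nat_lit 123) (nat_lit 5) (nat_lit 351) (nat_lit 315) (nat_lit 114)))))) (XT.nd (nat_lit 468) (nat_lit 1064) (nat_lit 0) (XT.nd (nat_lit 234) (nat_lit 760) (nat_lit 0) (XT.nd (nat_lit 78) (nat_lit 456) (nat_lit 0) (XT.lf (nat_lit 0) (nat_lit 25983489947) (nat_lit 380) (nat_lit 8837541883) (nat_lit 456) (nat_lit 3707681393) (nat_lit 117) (nat_lit 5) (nat_lit 122) (nat_lit 5) (nat_lit 123) (nat_lit 5) (nat_lit 352) (nat_lit 315) (nat_lit 113)) (XT.nd (nat_lit 78) (nat_lit 0) (nat_lit 0) (XT.lf (nat_lit 0) (nat_lit 1226105667) (nat_lit 456) (nat_lit 33034315637) (nat_lit 76) (nat_lit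 4986846527) (nat_lit 111) (nat_lit 5) (nat_lit 117) (nat_lit 5) (nat_lit 112) (nat_lit 5) (nat_lit 353) (nat_lit 315) (nat_lit 112)) (XT.lf (nat_lit 0) (nat_lit 6446604739) (nat_lit 456) (nat_lit 14320744300) (nat_lit 76) (nat_lit 19212534496) (nat_lit 111) (nat_lit 5) (nat_lit 117) (nat_lit 5) (nat_lit 112) (nat_lit 5) (nat_lit 354) (nat_lit 315) (nat_lit 111)))) (XT.nd (nat_lit 78) (nat_lit 380) (nat_lit 0) (XT.lf (nat_lit 0) (nat_lit 5050121018) (nat_lit 380) (nat_lit 6819989485) (nat_lit 456) (nat_lit 28862977709) (nat_lit 106) (nat_lit 5) (nat_lit 111) (nat_lit 5) (nat_lit 112) (nat_lit 5) (nat_lit 355) (nat_lit 315) (nat_lit 110)) (XT.nd (nat_lit 78) (nat_lit 380) (nat_lit 0) (XT.lf (nat_lit 0) (nat_lit 17672778731) (nat_lit 456) (nat_lit 16285537549) (nat_lit 76) (nat_lit 7544081220) (nat_lit 106) (nat_lit 5) (nat_lit 112) (nat_lit 5) (nat_lit 107) (nat_lit 5) (nat_lit 356) (nat_lit 315)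 (nat_lit 109)) (XT.lf (nat_lit 0) (nat_lit 3695793211) (nat_lit 380) (nat_lit 20054725731) (nat_lit 456) (nat_lit 18541239490) (nat_lit 101) (nat_lit 5) (nat_lit 106) (nat_lit 5) (nat_lit 107) (nat_lit 5) (nat_lit 357) (nat_lit 315) (nat_lit 108))))) (XT.nd (nat_lit 234) (nat_lit 760) (nat_lit 0) (XT.nd (nat_lit 78) (nat_lit 304) (nat_lit 0) (XT.lf (nat_lit 0) (nat_lit 24607811726) (nat_lit 380) (nat_lit 5565207770) (nat_lit 456) (nat_lit 12926909914) (nat_lit 101) (nat_lit 5) (nat_lit 106) (nat_lit 5) (nat_lit 107) (nat_lit 5) (nat_lit 358) (nat_lit 315) (nat_lit 107)) (XT.nd (nat_lit 78) (nat_lit 0) (nat_lit 0) (XT.lf (nat_lit 0) (nat_lit 2164549071) (nat_lit 304) (nat_lit 34732447163) (nat_lit 380) (nat_lit 7032087251) (nat_lit 97) (nat_lit 5) (nat_lit 101) (nat_lit 5) (nat_lit 102) (nat_lit 5) (nat_lit 359) (nat_lit 315) (nat_lit 106)) (XT.lf (nat_lit 0) (nat_lit 23761243660) (nat_lit 304)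 (nat_lit 20300806333) (nat_lit 380) (nat_lit 713883403) (nat_lit 97) (nat_lit 5) (nat_lit 101) (nat_lit 5) (nat_lit 102) (nat_lit 5) (nat_lit 360) (nat_lit 315) (nat_lit 105)))) (XT.nd (nat_lit 156) (nat_lit 304) (nat_lit 0) (XT.nd (nat_lit 78) (nat_lit 0) (nat_lit 0) (XT.lf (nat_lit 0) (nat_lit 305405330) (nat_lit 380) (nat_lit 5376436448) (nat_lit 456) (nat_lit 39964647000) (nat_lit 91) (nat_lit 5) (nat_lit 96) (nat_lit 5) (nat_lit 97) (nat_lit 5) (nat_lit 361) (nat_lit 315) (nat_lit 104)) (XT.lf (nat_lit 0) (nat_lit 12563607276) (nat_lit 456) (nat_lit 23948702139) (nat_lit 76) (nat_lit 10021385634) (nat_lit 91) (nat_lit 5) (nat_lit 97) (nat_lit 5) (nat_lit 92) (nat_lit 5) (nat_lit 362) (nat_lit 315) (nat_lit 103))) (XT.nd (nat_lit 78) (nat_lit 304) (nat_lit 0) (XT.lf (nat_lit 0) (nat_lit 19703236660) (nat_lit 456) (nat_lit 1970245185) (nat_lit 76) (nat_lit 25772495062) (nat_lit 91) (nat_lit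 5) (nat_lit 97) (nat_lit 5) (nat_lit 92) (nat_lit 5) (nat_lit 363) (nat_lit 315) (nat_lit 102)) (XT.lf (nat_lit 0) (nat_lit 21076450957) (nat_lit 304) (nat_lit 6181435628) (nat_lit 380) (nat_lit 21121717364) (nat_lit 87) (nat_lit 5) (nat_lit 91) (nat_lit 5) (nat_lit 92) (nat_lit 5) (nat_lit 364) (nat_lit 315) (nat_lit 101))))))) (XT.nd (nat_lit 1014) (nat_lit 1368) (nat_lit 0) (XT.nd (nat_lit 468) (nat_lit 836) (nat_lit 0) (XT.nd (nat_lit 234) (nat_lit 608) (nat_lit 0) (XT.nd (nat_lit 78) (nat_lit 380) (nat_lit 0) (XT.lf (nat_lit 0) (nat_lit 35151490067) (nat_lit 380) (nat_lit 4582286997) (nat_lit 76) (nat_lit 9604094945) (nat_lit 87) (nat_lit 5) (nat_lit 92) (nat_lit 5) (nat_lit 88) (nat_lit 5) (nat_lit 365) (nat_lit 315) (nat_lit 100)) (XT.nd (nat_lit 78) (nat_lit 76) (nat_lit 0) (XT.lf (nat_lit 0) (nat_lit 19129950968) (nat_lit 304) (nat_lit 24395347248) (nat_lit 380) (nat_lit 6792289579) (nat_lit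 83) (nat_lit 5) (nat_lit 87) (nat_lit 5) (nat_lit 88) (nat_lit 5) (nat_lit 366) (nat_lit 315) (nat_lit 99)) (XT.lf (nat_lit 0) (nat_lit 852598357) (nat_lit 380) (nat_lit 7688551719) (nat_lit 76) (nat_lit 42783957611) (nat_lit 82) (nat_lit 5) (nat_lit 87) (nat_lit 5) (nat_lit 83) (nat_lit 5) (nat_lit 367) (nat_lit 315) (nat_lit 98)))) (XT.nd (nat_lit 78) (nat_lit 304) (nat_lit 0) (XT.lf (nat_lit 0) (nat_lit 8827038590) (nat_lit 380) (nat_lit 35659901357) (nat_lit 76) (nat_lit 7866795445) (nat_lit 78) (nat_lit 5) (nat_lit 83) (nat_lit 5) (nat_lit 79) (nat_lit 5) (nat_lit 368) (nat_lit 315) (nat_lit 97)) (XT.nd (nat_lit 78) (nat_lit 304) (nat_lit 0) (XT.lf (nat_lit 0) (nat_lit 17202068984) (nat_lit 380) (nat_lit 11533238414) (nat_lit 76) (nat_lit 24673075227) (nat_lit 78) (nat_lit 5) (nat_lit 83) (nat_lit 5) (nat_lit 79) (nat_lit 5) (nat_lit 369) (nat_lit 315) (nat_lit 96)) (XT.lf (nat_lit 0) (nat_lit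 13579975694) (nat_lit 304) (nat_lit 12377343832) (nat_lit 380) (nat_lit 28533482034) (nat_lit 74) (nat_lit 5) (nat_lit 78) (nat_lit 5) (nat_lit 79) (nat_lit 5) (nat_lit 370) (nat_lit 315) (nat_lit 95))))) (XT.nd (nat_lit 234) (nat_lit 608) (nat_lit 0) (XT.nd (nat_lit 78) (nat_lit 228) (nat_lit 0) (XT.lf (nat_lit 0) (nat_lit 35134273297) (nat_lit 380) (nat_lit 15965589566) (nat_lit 76) (nat_lit 4501060155) (nat_lit 74) (nat_lit 5) (nat_lit 79) (nat_lit 5) (nat_lit 75) (nat_lit 5) (nat_lit 371) (nat_lit 315) (nat_lit 94)) (XT.nd (nat_lit 78) (nat_lit 0) (nat_lit 0) (XT.lf (nat_lit 0) (nat_lit 9794383284) (nat_lit 228) (nat_lit 35007343242) (nat_lit 304) (nat_lit 11936167152) (nat_lit 71) (nat_lit 5) (nat_lit 74) (nat_lit 5) (nat_lit 75) (nat_lit 5) (nat_lit 372) (nat_lit 315) (nat_lit 93)) (XT.lf (nat_lit 0) (nat_lit 36652259509) (nat_lit 228) (nat_lit 18266681257) (nat_lit 304) (nat_lit 2985241817)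 (nat_lit 71) (nat_lit 5) (nat_lit 74) (nat_lit 5) (nat_lit 75) (nat_lit 5) (nat_lit 373) (nat_lit 315) (nat_lit 92)))) (XT.nd (nat_lit 156) (nat_lit 228) (nat_lit 0) (XT.nd (nat_lit 78) (nat_lit 0) (nat_lit 0) (XT.lf (nat_lit 0) (nat_lit 5250805380) (nat_lit 304) (nat_lit 910771961) (nat_lit 380) (nat_lit 52940615641) (nat_lit 66) (nat_lit 5) (nat_lit 70) (nat_lit 5) (nat_lit 71) (nat_lit 5) (nat_lit 374) (nat_lit 315) (nat_lit 91)) (XT.lf (nat_lit 0) (nat_lit 15901173444) (nat_lit 380) (nat_lit 27542371871) (nat_lit 76) (nat_lit 16880361631) (nat_lit 66) (nat_lit 5) (nat_lit 71) (nat_lit 5) (nat_lit 67) (nat_lit 5) (nat_lit 375) (nat_lit 315) (nat_lit 90))) (XT.nd (nat_lit 78) (nat_lit 228) (nat_lit 0) (XT.lf (nat_lit 0) (nat_lit 25940576384) (nat_lit 380) (nat_lit 455198474) (nat_lit 76) (nat_lit 35186270011) (nat_lit 66) (nat_lit 5) (nat_lit 71) (nat_lit 5) (nat_lit 67) (nat_lit 5) (nat_lit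 376) (nat_lit 315) (nat_lit 89)) (XT.lf (nat_lit 0) (nat_lit 27988716560) (nat_lit 228) (nat_lit 8560131661) (nat_lit 304) (nat_lit 26321049180) (nat_lit 63) (nat_lit 5) (nat_lit 66) (nat_lit 5) (nat_lit 67) (nat_lit 5) (nat_lit 377) (nat_lit 315) (nat_lit 88)))))) (XT.nd (nat_lit 546) (nat_lit 608) (nat_lit 0) (XT.nd (nat_lit 234) (nat_lit 456) (nat_lit 0) (XT.nd (nat_lit 78) (nat_lit 304) (nat_lit 0) (XT.lf (nat_lit 0) (nat_lit 47572971470) (nat_lit 304) (nat_lit 6997367222) (nat_lit 76) (nat_lit 9623119765) (nat_lit 63) (nat_lit 5) (nat_lit 67) (nat_lit 5) (nat_lit 64) (nat_lit 5) (nat_lit 378) (nat_lit 315) (nat_lit 87)) (XT.nd (nat_lit 78) (nat_lit 76) (nat_lit 0) (XT.lf (nat_lit 0) (nat_lit 22066820899) (nat_lit 228) (nat_lit 37156566055) (nat_lit 304) (nat_lit 6324473349) (nat_lit 60) (nat_lit 5) (nat_lit 63) (nat_lit 5) (nat_lit 64) (nat_lit 5) (nat_lit 379) (nat_lit 315) (nat_lit 86))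 (XT.lf (nat_lit 0) (nat_lit 4266953917) (nat_lit 304) (nat_lit 14838242809) (nat_lit 76) (nat_lit 47834362265) (nat_lit 59) (nat_lit 5) (nat_lit 63) (nat_lit 5) (nat_lit 60) (nat_lit 5) (nat_lit 380) (nat_lit 315) (nat_lit 85)))) (XT.nd (nat_lit 156) (nat_lit 228) (nat_lit 0) (XT.nd (nat_lit 78) (nat_lit 0) (nat_lit 0) (XT.lf (nat_lit 0) (nat_lit 14889834997) (nat_lit 228) (nat_lit 301041764) (nat_lit 304) (nat_lit 53175998198) (nat_lit 56) (nat_lit 5) (nat_lit 59) (nat_lit 5) (nat_lit 60) (nat_lit 5) (nat_lit 381) (nat_lit 315) (nat_lit 84)) (XT.lf (nat_lit 0) (nat_lit 26775873953) (nat_lit 304) (nat_lit 24205311369) (nat_lit 76) (nat_lit 18845825287) (nat_lit 56) (nat_lit 5) (nat_lit 60) (nat_lit 5) (nat_lit 57) (nat_lit 5) (nat_lit 382) (nat_lit 315) (nat_lit 83))) (XT.nd (nat_lit 78) (nat_lit 0) (nat_lit 0) (XT.lf (nat_lit 0) (nat_lit 6057905706) (nat_lit 228) (nat_lit 32710514679) (nat_lit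 304) (nat_lit 32560730838) (nat_lit 53) (nat_lit 5) (nat_lit 56) (nat_lit 5) (nat_lit 57) (nat_lit 5) (nat_lit 383) (nat_lit 315) (nat_lit 82)) (XT.lf (nat_lit 0) (nat_lit 37723328694) (nat_lit 228) (nat_lit 13640644436) (nat_lit 304) (nat_lit 21505086878) (nat_lit 53) (nat_lit 5) (nat_lit 56) (nat_lit 5) (nat_lit 57) (nat_lit 5) (nat_lit 384) (nat_lit 315) (nat_lit 81))))) (XT.nd (nat_lit 234) (nat_lit 380) (nat_lit 0) (XT.nd (nat_lit 78) (nat_lit 228) (nat_lit 0) (XT.lf (nat_lit 0) (nat_lit 64393913072) (nat_lit 304) (nat_lit 4175990509) (nat_lit 76) (nat_lit 5883567683) (nat_lit 53) (nat_lit 5) (nat_lit 57) (nat_lit 5) (nat_lit 54) (nat_lit 5) (nat_lit 385) (nat_lit 315) (nat_lit 80)) (XT.nd (nat_lit 78) (nat_lit 0) (nat_lit 0) (XT.lf (nat_lit 0) (nat_lit 2103966699) (nat_lit 228) (nat_lit 47958906212) (nat_lit 76) (nat_lit 26009792742) (nat_lit 50) (nat_lit 5) (nat_lit 53) (nat_lit 5) (nat_lit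 51) (nat_lit 5) (nat_lit 386) (nat_lit 315) (nat_lit 79)) (XT.lf (nat_lit 0) (nat_lit 14471667352) (nat_lit 228) (nat_lit 16383184470) (nat_lit 76) (nat_lit 46881353103) (nat_lit 50) (nat_lit 5) (nat_lit 53) (nat_lit 5) (nat_lit 51) (nat_lit 5) (nat_lit 387) (nat_lit 315) (nat_lit 78)))) (XT.nd (nat_lit 156) (nat_lit 152) (nat_lit 0) (XT.nd (nat_lit 78) (nat_lit 0) (nat_lit 0) (XT.lf (nat_lit 0) (nat_lit 16459238262) (nat_lit 228) (nat_lit 10908280273) (nat_lit 304) (nat_lit 52077418990) (nat_lit 47) (nat_lit 5) (nat_lit 50) (nat_lit 5) (nat_lit 51) (nat_lit 5) (nat_lit 388) (nat_lit 315) (nat_lit 77)) (XT.lf (nat_lit 0) (nat_lit 40908867314) (nat_lit 304) (nat_lit 30673227236) (nat_lit 76) (nat_lit 9615079602) (nat_lit 47) (nat_lit 5) (nat_lit 51) (nat_lit 5) (nat_lit 48) (nat_lit 5) (nat_lit 389) (nat_lit 315) (nat_lit 76))) (XT.nd (nat_lit 34866) (nat_lit 0) (nat_lit 10792) (XT.lf (nat_lit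 0) (nat_lit 2548641166) (nat_lit 152) (nat_lit 52439261220) (nat_lit 228) (nat_lit 28010132809) (nat_lit 45) (nat_lit 5) (nat_lit 47) (nat_lit 5) (nat_lit 48) (nat_lit 5) (nat_lit 390) (nat_lit 315) (nat_lit 75)) (XT.lf (nat_lit 0) (nat_lit 1532967414) (nat_lit 0) (nat_lit 1532967414) (nat_lit 1140) (nat_lit 7694569900) (nat_lit 187) (nat_lit 5) (nat_lit 187) (nat_lit 3) (nat_lit 202) (nat_lit 3) (nat_lit 316) (nat_lit 316) (nat_lit 148))))))))
noncomputable def xc223 : XT := (XT.nd (nat_lit 2106) (nat_lit 5320) (nat_lit 0) (XT.nd (nat_lit 1014) (nat_lit 2964) (nat_lit 0) (XT.nd (nat_lit 468) (nat_lit 0) (nat_lit 152) (XT.nd (nat_lit 234) (nat_lit 0) (nat_lit 76) (XT.nd (nat_lit 78) (nat_lit 0) (nat_lit 0) (XT.lf (nat_lit 0) (nat_lit 6422975994) (nat_lit 1140) (nat_lit 8898275027) (nat_lit 1216) (nat_lit 6516416822) (nat_lit 187) (nat_lit 5) (nat_lit 202) (nat_lit 3) (nat_lit 203) (nat_lit 5)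 (nat_lit 317) (nat_lit 316) (nat_lit 147)) (XT.nd (nat_lit 78) (nat_lit 0) (nat_lit 76) (XT.lf (nat_lit 76) (nat_lit 930194307) (nat_lit 0) (nat_lit 5826665859) (nat_lit 1216) (nat_lit 15405951615) (nat_lit 188) (nat_lit 5) (nat_lit 187) (nat_lit 5) (nat_lit 203) (nat_lit 5) (nat_lit 318) (nat_lit 316) (nat_lit 146)) (XT.lf (nat_lit 0) (nat_lit 7224397624) (nat_lit 1140) (nat_lit 11300961957) (nat_lit 1216) (nat_lit 3968648285) (nat_lit 188) (nat_lit 5) (nat_lit 203) (nat_lit 5) (nat_lit 204) (nat_lit 5) (nat_lit 319) (nat_lit 316) (nat_lit 145)))) (XT.nd (nat_lit 78) (nat_lit 0) (nat_lit 76) (XT.lf (nat_lit 0) (nat_lit 7758695294) (nat_lit 1140) (nat_lit 1131944823) (nat_lit 1216) (nat_lit 13942924421) (nat_lit 188) (nat_lit 5) (nat_lit 203) (nat_lit 5) (nat_lit 204) (nat_lit 5) (nat_lit 320) (nat_lit 316) (nat_lit 144)) (XT.nd (nat_lit 78) (nat_lit 0) (nat_lit 0) (XT.lf (nat_lit 0) (nat_lit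 8406629358) (nat_lit 1140) (nat_lit 13666368758) (nat_lit 1216) (nat_lit 1107388104) (nat_lit 189) (nat_lit 5) (nat_lit 204) (nat_lit 5) (nat_lit 205) (nat_lit 5) (nat_lit 321) (nat_lit 316) (nat_lit 143)) (XT.lf (nat_lit 0) (nat_lit 9168891575) (nat_lit 1140) (nat_lit 3125798519) (nat_lit 1216) (nat_lit 11240082095) (nat_lit 189) (nat_lit 5) (nat_lit 204) (nat_lit 5) (nat_lit 205) (nat_lit 5) (nat_lit 322) (nat_lit 316) (nat_lit 142))))) (XT.nd (nat_lit 234) (nat_lit 0) (nat_lit 152) (XT.nd (nat_lit 78) (nat_lit 0) (nat_lit 76) (XT.lf (nat_lit 76) (nat_lit 7881927659) (nat_lit 0) (nat_lit 2143316606) (nat_lit 1216) (nat_lit 13872414953) (nat_lit 190) (nat_lit 5) (nat_lit 189) (nat_lit 5) (nat_lit 205) (nat_lit 5) (nat_lit 323) (nat_lit 316) (nat_lit 141)) (XT.nd (nat_lit 78) (nat_lit 0) (nat_lit 0) (XT.lf (nat_lit 0) (nat_lit 11014647400) (nat_lit 1140) (nat_lit 5069735169) (nat_lit 1216) (nat_lit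 8183835470) (nat_lit 190) (nat_lit 5) (nat_lit 205) (nat_lit 5) (nat_lit 206) (nat_lit 5) (nat_lit 324) (nat_lit 316) (nat_lit 140)) (XT.lf (nat_lit 76) (nat_lit 6303519302) (nat_lit 0) (nat_lit 5807733518) (nat_lit 1216) (nat_lit 12536321005) (nat_lit 191) (nat_lit 5) (nat_lit 190) (nat_lit 5) (nat_lit 206) (nat_lit 5) (nat_lit 325) (nat_lit 316) (nat_lit 139)))) (XT.nd (nat_lit 156) (nat_lit 0) (nat_lit 76) (XT.nd (nat_lit 78) (nat_lit 0) (nat_lit 0) (XT.lf (nat_lit 0) (nat_lit 13334195230) (nat_lit 1140) (nat_lit 6964327790) (nat_lit 1216) (nat_lit 4736989732) (nat_lit 191) (nat_lit 5) (nat_lit 206) (nat_lit 5) (nat_lit 207) (nat_lit 5) (nat_lit 326) (nat_lit 316) (nat_lit 138)) (XT.lf (nat_lit 76) (nat_lit 4789822144) (nat_lit 0) (nat_lit 9903486700) (nat_lit 1216) (nat_lit 10738801988) (nat_lit 192) (nat_lit 5) (nat_lit 191) (nat_lit 5) (nat_lit 207) (nat_lit 5) (nat_lit 327) (nat_lit 316)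 (nat_lit 137))) (XT.nd (nat_lit 78) (nat_lit 0) (nat_lit 0) (XT.lf (nat_lit 0) (nat_lit 16167979573) (nat_lit 1140) (nat_lit 8810596618) (nat_lit 1216) (nat_lit 859792462) (nat_lit 192) (nat_lit 5) (nat_lit 207) (nat_lit 5) (nat_lit 208) (nat_lit 5) (nat_lit 328) (nat_lit 316) (nat_lit 136)) (XT.lf (nat_lit 76) (nat_lit 3340221210) (nat_lit 0) (nat_lit 14472985743) (nat_lit 1216) (nat_lit 8439822919) (nat_lit 193) (nat_lit 5) (nat_lit 192) (nat_lit 5) (nat_lit 208) (nat_lit 5) (nat_lit 329) (nat_lit 316) (nat_lit 135)))))) (XT.nd (nat_lit 546) (nat_lit 1672) (nat_lit 0) (XT.nd (nat_lit 234) (nat_lit 1672) (nat_lit 0) (XT.nd (nat_lit 78) (nat_lit 0) (nat_lit 76) (XT.lf (nat_lit 76) (nat_lit 16033250667) (nat_lit 0) (nat_lit 3559748131) (nat_lit 1216) (nat_lit 7084580904) (nat_lit 193) (nat_lit 5) (nat_lit 192) (nat_lit 5) (nat_lit 208) (nat_lit 5) (nat_lit 330) (nat_lit 316) (nat_lit 134)) (XT.nd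 (nat_lit 78) (nat_lit 0) (nat_lit 0) (XT.lf (nat_lit 76) (nat_lit 1953533379) (nat_lit 0) (nat_lit 19561618273) (nat_lit 1216) (nat_lit 5597050219) (nat_lit 194) (nat_lit 5) (nat_lit 193) (nat_lit 5) (nat_lit 209) (nat_lit 5) (nat_lit 331) (nat_lit 316) (nat_lit 133)) (XT.lf (nat_lit 76) (nat_lit 15108653819) (nat_lit 0) (nat_lit 8525134926) (nat_lit 1216) (nat_lit 3921914091) (nat_lit 194) (nat_lit 5) (nat_lit 193) (nat_lit 5) (nat_lit 209) (nat_lit 5) (nat_lit 332) (nat_lit 316) (nat_lit 132)))) (XT.nd (nat_lit 156) (nat_lit 684) (nat_lit 0) (XT.nd (nat_lit 78) (nat_lit 0) (nat_lit 0) (XT.lf (nat_lit 0) (nat_lit 627889360) (nat_lit 1140) (nat_lit 25217997684) (nat_lit 1216) (nat_lit 2165729304) (nat_lit 179) (nat_lit 5) (nat_lit 194) (nat_lit 5) (nat_lit 195) (nat_lit 5) (nat_lit 333) (nat_lit 316) (nat_lit 131)) (XT.lf (nat_lit 0) (nat_lit 14261211290) (nat_lit 1140) (nat_lit 14069023207) (nat_lit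 1216) (nat_lit 144800631) (nat_lit 179) (nat_lit 5) (nat_lit 194) (nat_lit 5) (nat_lit 195) (nat_lit 5) (nat_lit 334) (nat_lit 316) (nat_lit 130))) (XT.nd (nat_lit 78) (nat_lit 608) (nat_lit 0) (XT.lf (nat_lit 0) (nat_lit 1895640285) (nat_lit 1216) (nat_lit 670355617) (nat_lit 76) (nat_lit 26385905920) (nat_lit 178) (nat_lit 5) (nat_lit 194) (nat_lit 5) (nat_lit 179) (nat_lit 5) (nat_lit 335) (nat_lit 316) (nat_lit 129)) (XT.lf (nat_lit 0) (nat_lit 4211838916) (nat_lit 684) (nat_lit 15990405219) (nat_lit 76) (nat_lit 9234267796) (nat_lit 170) (nat_lit 5) (nat_lit 179) (nat_lit 5) (nat_lit 171) (nat_lit 5) (nat_lit 336) (nat_lit 316) (nat_lit 128))))) (XT.nd (nat_lit 234) (nat_lit 1064) (nat_lit 0) (XT.nd (nat_lit 78) (nat_lit 608) (nat_lit 0) (XT.lf (nat_lit 0) (nat_lit 6626610393) (nat_lit 684) (nat_lit 1964029888) (nat_lit 76) (nat_lit 21344151410) (nat_lit 170) (nat_lit 5) (nat_lit 179) (nat_lit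 5) (nat_lit 171) (nat_lit 5) (nat_lit 337) (nat_lit 316) (nat_lit 127)) (XT.nd (nat_lit 78) (nat_lit 0) (nat_lit 0) (XT.lf (nat_lit 0) (nat_lit 9266719327) (nat_lit 684) (nat_lit 17749346747) (nat_lit 76) (nat_lit 3427370777) (nat_lit 162) (nat_lit 5) (nat_lit 171) (nat_lit 5) (nat_lit 163) (nat_lit 5) (nat_lit 338) (nat_lit 316) (nat_lit 126)) (XT.lf (nat_lit 0) (nat_lit 12088117573) (nat_lit 684) (nat_lit 3222671983) (nat_lit 76) (nat_lit 15653492953) (nat_lit 162) (nat_lit 5) (nat_lit 171) (nat_lit 5) (nat_lit 163) (nat_lit 5) (nat_lit 339) (nat_lit 316) (nat_lit 125)))) (XT.nd (nat_lit 156) (nat_lit 532) (nat_lit 0) (XT.nd (nat_lit 78) (nat_lit 0) (nat_lit 0) (XT.lf (nat_lit 0) (nat_lit 11970588658) (nat_lit 532) (nat_lit 3135726065) (nat_lit 608) (nat_lit 16391077722) (nat_lit 155) (nat_lit 5) (nat_lit 162) (nat_lit 5) (nat_lit 163) (nat_lit 5) (nat_lit 340) (nat_lit 316) (nat_lit 124)) (XT.lf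 (nat_lit 0) (nat_lit 18335472525) (nat_lit 608) (nat_lit 4453401578) (nat_lit 76) (nat_lit 9254012647) (nat_lit 155) (nat_lit 5) (nat_lit 163) (nat_lit 5) (nat_lit 156) (nat_lit 5) (nat_lit 341) (nat_lit 316) (nat_lit 123))) (XT.nd (nat_lit 78) (nat_lit 0) (nat_lit 0) (XT.lf (nat_lit 0) (nat_lit 11258058614) (nat_lit 532) (nat_lit 10539942875) (nat_lit 608) (nat_lit 10802652911) (nat_lit 148) (nat_lit 5) (nat_lit 155) (nat_lit 5) (nat_lit 156) (nat_lit 5) (nat_lit 342) (nat_lit 316) (nat_lit 122)) (XT.lf (nat_lit 0) (nat_lit 25427066461) (nat_lit 608) (nat_lit 5664898081) (nat_lit 76) (nat_lit 2081314042) (nat_lit 148) (nat_lit 5) (nat_lit 156) (nat_lit 5) (nat_lit 149) (nat_lit 5) (nat_lit 343) (nat_lit 316) (nat_lit 121))))))) (XT.nd (nat_lit 1014) (nat_lit 2128) (nat_lit 0) (XT.nd (nat_lit 468) (nat_lit 1672) (nat_lit 0) (XT.nd (nat_lit 234) (nat_lit 456) (nat_lit 0) (XT.nd (nat_lit 78) (nat_lit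 608) (nat_lit 0) (XT.lf (nat_lit 0) (nat_lit 10582520812) (nat_lit 456) (nat_lit 18785927300) (nat_lit 532) (nat_lit 4388533255) (nat_lit 142) (nat_lit 5) (nat_lit 148) (nat_lit 5) (nat_lit 149) (nat_lit 5) (nat_lit 344) (nat_lit 316) (nat_lit 120)) (XT.nd (nat_lit 78) (nat_lit 608) (nat_lit 0) (XT.lf (nat_lit 0) (nat_lit 27430757190) (nat_lit 456) (nat_lit 6051932141) (nat_lit 532) (nat_lit 873870477) (nat_lit 142) (nat_lit 5) (nat_lit 148) (nat_lit 5) (nat_lit 149) (nat_lit 5) (nat_lit 345) (nat_lit 316) (nat_lit 119)) (XT.lf (nat_lit 0) (nat_lit 2855112313) (nat_lit 608) (nat_lit 25063771435) (nat_lit 76) (nat_lit 7049578772) (nat_lit 134) (nat_lit 5) (nat_lit 142) (nat_lit 5) (nat_lit 135) (nat_lit 5) (nat_lit 346) (nat_lit 316) (nat_lit 118)))) (XT.nd (nat_lit 78) (nat_lit 456) (nat_lit 0) (XT.lf (nat_lit 0) (nat_lit 6806457912) (nat_lit 608) (nat_lit 8286570347) (nat_lit 76) (nat_lit 20501595627)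 (nat_lit 134) (nat_lit 5) (nat_lit 142) (nat_lit 5) (nat_lit 135) (nat_lit 5) (nat_lit 347) (nat_lit 316) (nat_lit 117)) (XT.nd (nat_lit 78) (nat_lit 0) (nat_lit 0) (XT.lf (nat_lit 0) (nat_lit 9170217780) (nat_lit 456) (nat_lit 1791856098) (nat_lit 532) (nat_lit 25274927086) (nat_lit 128) (nat_lit 5) (nat_lit 134) (nat_lit 5) (nat_lit 135) (nat_lit 5) (nat_lit 348) (nat_lit 316) (nat_lit 116)) (XT.lf (nat_lit 0) (nat_lit 15438957966) (nat_lit 532) (nat_lit 9693579829) (nat_lit 76) (nat_lit 11760216263) (nat_lit 128) (nat_lit 5) (nat_lit 135) (nat_lit 5) (nat_lit 129) (nat_lit 5) (nat_lit 349) (nat_lit 316) (nat_lit 115))))) (XT.nd (nat_lit 234) (nat_lit 836) (nat_lit 0) (XT.nd (nat_lit 78) (nat_lit 380) (nat_lit 0) (XT.lf (nat_lit 0) (nat_lit 8343246349) (nat_lit 456) (nat_lit 11802535682) (nat_lit 532) (nat_lit 17419531321) (nat_lit 122) (nat_lit 5) (nat_lit 128) (nat_lit 5) (nat_lit 129) (nat_lit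 5) (nat_lit 350) (nat_lit 316) (nat_lit 114)) (XT.nd (nat_lit 78) (nat_lit 380) (nat_lit 0) (XT.lf (nat_lit 0) (nat_lit 25108923854) (nat_lit 532) (nat_lit 11157403064) (nat_lit 76) (nat_lit 1988271653) (nat_lit 122) (nat_lit 5) (nat_lit 129) (nat_lit 5) (nat_lit 123) (nat_lit 5) (nat_lit 351) (nat_lit 316) (nat_lit 113)) (XT.lf (nat_lit 0) (nat_lit 7475618079) (nat_lit 380) (nat_lit 22931855642) (nat_lit 456) (nat_lit 8551495676) (nat_lit 117) (nat_lit 5) (nat_lit 122) (nat_lit 5) (nat_lit 123) (nat_lit 5) (nat_lit 352) (nat_lit 316) (nat_lit 112)))) (XT.nd (nat_lit 156) (nat_lit 380) (nat_lit 0) (XT.nd (nat_lit 78) (nat_lit 456) (nat_lit 0) (XT.lf (nat_lit 0) (nat_lit 26893769033) (nat_lit 380) (nat_lit 9081715134) (nat_lit 456) (nat_lit 3705674448) (nat_lit 117) (nat_lit 5) (nat_lit 122) (nat_lit 5) (nat_lit 123) (nat_lit 5) (nat_lit 353) (nat_lit 316) (nat_lit 111)) (XT.lf (nat_lit 0) (nat_lit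 1372168203) (nat_lit 456) (nat_lit 33890380476) (nat_lit 76) (nat_lit 5158744411) (nat_lit 111) (nat_lit 5) (nat_lit 117) (nat_lit 5) (nat_lit 112) (nat_lit 5) (nat_lit 354) (nat_lit 316) (nat_lit 110))) (XT.nd (nat_lit 78) (nat_lit 380) (nat_lit 0) (XT.lf (nat_lit 0) (nat_lit 6746099353) (nat_lit 456) (nat_lit 14619333007) (nat_lit 76) (nat_lit 19810553723) (nat_lit 111) (nat_lit 5) (nat_lit 117) (nat_lit 5) (nat_lit 112) (nat_lit 5) (nat_lit 355) (nat_lit 316) (nat_lit 109)) (XT.lf (nat_lit 0) (nat_lit 5331373628) (nat_lit 380) (nat_lit 6999093702) (nat_lit 456) (nat_lit 29621378095) (nat_lit 106) (nat_lit 5) (nat_lit 111) (nat_lit 5) (nat_lit 112) (nat_lit 5) (nat_lit 356) (nat_lit 316) (nat_lit 108)))))) (XT.nd (nat_lit 546) (nat_lit 988) (nat_lit 0) (XT.nd (nat_lit 234) (nat_lit 760) (nat_lit 0) (XT.nd (nat_lit 78) (nat_lit 380) (nat_lit 0) (XT.lf (nat_lit 0) (nat_lit 18304417033) (nat_lit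 456) (nat_lit 16645230535) (nat_lit 76) (nat_lit 7794673520) (nat_lit 106) (nat_lit 5) (nat_lit 112) (nat_lit 5) (nat_lit 107) (nat_lit 5) (nat_lit 357) (nat_lit 316) (nat_lit 107)) (XT.nd (nat_lit 78) (nat_lit 0) (nat_lit 0) (XT.lf (nat_lit 0) (nat_lit 3934276686) (nat_lit 380) (nat_lit 20628484429) (nat_lit 456) (nat_lit 18994656633) (nat_lit 101) (nat_lit 5) (nat_lit 106) (nat_lit 5) (nat_lit 107) (nat_lit 5) (nat_lit 358) (nat_lit 316) (nat_lit 106)) (XT.lf (nat_lit 0) (nat_lit 25469938969) (nat_lit 380) (nat_lit 5705093057) (nat_lit 456) (nat_lit 13214891929) (nat_lit 101) (nat_lit 5) (nat_lit 106) (nat_lit 5) (nat_lit 107) (nat_lit 5) (nat_lit 359) (nat_lit 316) (nat_lit 105)))) (XT.nd (nat_lit 156) (nat_lit 456) (nat_lit 0) (XT.nd (nat_lit 78) (nat_lit 0) (nat_lit 0) (XT.lf (nat_lit 0) (nat_lit 2354880020) (nat_lit 304) (nat_lit 35744486002) (nat_lit 380) (nat_lit 7144630366) (nat_lit 97)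 (nat_lit 5) (nat_lit 101) (nat_lit 5) (nat_lit 102) (nat_lit 5) (nat_lit 360) (nat_lit 316) (nat_lit 104)) (XT.lf (nat_lit 0) (nat_lit 24595823180) (nat_lit 304) (nat_lit 20880767828) (nat_lit 380) (nat_lit 639746990) (nat_lit 97) (nat_lit 5) (nat_lit 101) (nat_lit 5) (nat_lit 102) (nat_lit 5) (nat_lit 361) (nat_lit 316) (nat_lit 103))) (XT.nd (nat_lit 78) (nat_lit 0) (nat_lit 0) (XT.lf (nat_lit 0) (nat_lit 437051871) (nat_lit 380) (nat_lit 5507382103) (nat_lit 456) (nat_lit 41068597685) (nat_lit 91) (nat_lit 5) (nat_lit 96) (nat_lit 5) (nat_lit 97) (nat_lit 5) (nat_lit 362) (nat_lit 316) (nat_lit 102)) (XT.lf (nat_lit 0) (nat_lit 13030252057) (nat_lit 456) (nat_lit 24545760829) (nat_lit 76) (nat_lit 10350915796) (nat_lit 91) (nat_lit 5) (nat_lit 97) (nat_lit 5) (nat_lit 92) (nat_lit 5) (nat_lit 363) (nat_lit 316) (nat_lit 101))))) (XT.nd (nat_lit 234) (nat_lit 684) (nat_lit 0) (XT.nd (nat_lit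 78) (nat_lit 304) (nat_lit 0) (XT.lf (nat_lit 0) (nat_lit 20381456636) (nat_lit 456) (nat_lit 1911486158) (nat_lit 76) (nat_lit 26573717092) (nat_lit 91) (nat_lit 5) (nat_lit 97) (nat_lit 5) (nat_lit 92) (nat_lit 5) (nat_lit 364) (nat_lit 316) (nat_lit 100)) (XT.nd (nat_lit 78) (nat_lit 0) (nat_lit 0) (XT.lf (nat_lit 0) (nat_lit 21825455316) (nat_lit 304) (nat_lit 6335875081) (nat_lit 380) (nat_lit 21667010220) (nat_lit 87) (nat_lit 5) (nat_lit 91) (nat_lit 5) (nat_lit 92) (nat_lit 5) (nat_lit 365) (nat_lit 316) (nat_lit 99)) (XT.lf (nat_lit 0) (nat_lit 36289535001) (nat_lit 380) (nat_lit 4604159243) (nat_lit 76) (nat_lit 9921731021) (nat_lit 87) (nat_lit 5) (nat_lit 92) (nat_lit 5) (nat_lit 88) (nat_lit 5) (nat_lit 366) (nat_lit 316) (nat_lit 98)))) (XT.nd (nat_lit 156) (nat_lit 304) (nat_lit 0) (XT.nd (nat_lit 78) (nat_lit 76) (nat_lit 0) (XT.lf (nat_lit 0) (nat_lit 19818312563) (nat_lit 304)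 (nat_lit 25094913074) (nat_lit 380) (nat_lit 6911349108) (nat_lit 83) (nat_lit 5) (nat_lit 87) (nat_lit 5) (nat_lit 88) (nat_lit 5) (nat_lit 367) (nat_lit 316) (nat_lit 97)) (XT.lf (nat_lit 0) (nat_lit 958813373) (nat_lit 380) (nat_lit 7806402956) (nat_lit 76) (nat_lit 44097154188) (nat_lit 82) (nat_lit 5) (nat_lit 87) (nat_lit 5) (nat_lit 83) (nat_lit 5) (nat_lit 368) (nat_lit 316) (nat_lit 96))) (XT.nd (nat_lit 78) (nat_lit 0) (nat_lit 0) (XT.lf (nat_lit 0) (nat_lit 9171522729) (nat_lit 380) (nat_lit 36615859788) (nat_lit 76) (nat_lit 8134505536) (nat_lit 78) (nat_lit 5) (nat_lit 83) (nat_lit 5) (nat_lit 79) (nat_lit 5) (nat_lit 369) (nat_lit 316) (nat_lit 95)) (XT.lf (nat_lit 0) (nat_lit 17795483463) (nat_lit 380) (nat_lit 11768712644) (nat_lit 76) (nat_lit 25444050229) (nat_lit 78) (nat_lit 5) (nat_lit 83) (nat_lit 5) (nat_lit 79) (nat_lit 5) (nat_lit 370) (nat_lit 316) (nat_lit 94))))))))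
noncomputable def xc224 : XT := (XT.nd (nat_lit 36972) (nat_lit 0) (nat_lit 6156) (XT.nd (nat_lit 1014) (nat_lit 684) (nat_lit 0) (XT.nd (nat_lit 468) (nat_lit 760) (nat_lit 0) (XT.nd (nat_lit 234) (nat_lit 380) (nat_lit 0) (XT.nd (nat_lit 78) (nat_lit 228) (nat_lit 0) (XT.lf (nat_lit 0) (nat_lit 14096814329) (nat_lit 304) (nat_lit 12715376208) (nat_lit 380) (nat_lit 29310985290) (nat_lit 74) (nat_lit 5) (nat_lit 78) (nat_lit 5) (nat_lit 79) (nat_lit 5) (nat_lit 371) (nat_lit 316) (nat_lit 93)) (XT.nd (nat_lit 78) (nat_lit 228) (nat_lit 0) (XT.lf (nat_lit 0) (nat_lit 36262545582) (nat_lit 380) (nat_lit 16336334766) (nat_lit 76) (nat_lit 4667779699) (nat_lit 74) (nat_lit 5) (nat_lit 79) (nat_lit 5) (nat_lit 75) (nat_lit 5) (nat_lit 372) (nat_lit 316) (nat_lit 92)) (XT.lf (nat_lit 0) (nat_lit 10195376264) (nat_lit 228) (nat_lit 36023513797) (nat_lit 304) (nat_lit 12218885582) (nat_lit 71) (nat_lit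 5) (nat_lit 74) (nat_lit 5) (nat_lit 75) (nat_lit 5) (nat_lit 373) (nat_lit 316) (nat_lit 91)))) (XT.nd (nat_lit 78) (nat_lit 380) (nat_lit 0) (XT.lf (nat_lit 0) (nat_lit 37855867568) (nat_lit 228) (nat_lit 18781623692) (nat_lit 304) (nat_lit 3001627631) (nat_lit 71) (nat_lit 5) (nat_lit 74) (nat_lit 5) (nat_lit 75) (nat_lit 5) (nat_lit 374) (nat_lit 316) (nat_lit 90)) (XT.nd (nat_lit 78) (nat_lit 0) (nat_lit 0) (XT.lf (nat_lit 0) (nat_lit 5512821047) (nat_lit 304) (nat_lit 904262033) (nat_lit 380) (nat_lit 54455999663) (nat_lit 66) (nat_lit 5) (nat_lit 70) (nat_lit 5) (nat_lit 71) (nat_lit 5) (nat_lit 375) (nat_lit 316) (nat_lit 89)) (XT.lf (nat_lit 0) (nat_lit 16447124807) (nat_lit 380) (nat_lit 28265398067) (nat_lit 76) (nat_lit 17418979160) (nat_lit 66) (nat_lit 5) (nat_lit 71) (nat_lit 5) (nat_lit 67) (nat_lit 5) (nat_lit 376) (nat_lit 316) (nat_lit 88))))) (XT.nd (nat_lit 234) (nat_lit 532)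 (nat_lit 0) (XT.nd (nat_lit 78) (nat_lit 228) (nat_lit 0) (XT.lf (nat_lit 0) (nat_lit 26785702567) (nat_lit 380) (nat_lit 368616603) (nat_lit 76) (nat_lit 36273126733) (nat_lit 66) (nat_lit 5) (nat_lit 71) (nat_lit 5) (nat_lit 67) (nat_lit 5) (nat_lit 377) (nat_lit 316) (nat_lit 87)) (XT.nd (nat_lit 78) (nat_lit 0) (nat_lit 0) (XT.lf (nat_lit 0) (nat_lit 28927633158) (nat_lit 228) (nat_lit 8783594700) (nat_lit 304) (nat_lit 27042737539) (nat_lit 63) (nat_lit 5) (nat_lit 66) (nat_lit 5) (nat_lit 67) (nat_lit 5) (nat_lit 378) (nat_lit 316) (nat_lit 86)) (XT.lf (nat_lit 0) (nat_lit 49064466132) (nat_lit 304) (nat_lit 7109265390) (nat_lit 76) (nat_lit 9943551523) (nat_lit 63) (nat_lit 5) (nat_lit 67) (nat_lit 5) (nat_lit 64) (nat_lit 5) (nat_lit 379) (nat_lit 316) (nat_lit 85)))) (XT.nd (nat_lit 156) (nat_lit 228) (nat_lit 0) (XT.nd (nat_lit 78) (nat_lit 76) (nat_lit 0) (XT.lf (nat_lit 0) (nat_lit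 22825887366) (nat_lit 228) (nat_lit 38237566756) (nat_lit 304) (nat_lit 6448892480) (nat_lit 60) (nat_lit 5) (nat_lit 63) (nat_lit 5) (nat_lit 64) (nat_lit 5) (nat_lit 380) (nat_lit 316) (nat_lit 84)) (XT.lf (nat_lit 0) (nat_lit 4457137813) (nat_lit 304) (nat_lit 15187872130) (nat_lit 76) (nat_lit 49300824802) (nat_lit 59) (nat_lit 5) (nat_lit 63) (nat_lit 5) (nat_lit 60) (nat_lit 5) (nat_lit 381) (nat_lit 316) (nat_lit 83))) (XT.nd (nat_lit 78) (nat_lit 0) (nat_lit 0) (XT.lf (nat_lit 0) (nat_lit 15431111559) (nat_lit 228) (nat_lit 276765029) (nat_lit 304) (nat_lit 54708121991) (nat_lit 56) (nat_lit 5) (nat_lit 59) (nat_lit 5) (nat_lit 60) (nat_lit 5) (nat_lit 382) (nat_lit 316) (nat_lit 82)) (XT.lf (nat_lit 0) (nat_lit 27638949881) (nat_lit 304) (nat_lit 24838127054) (nat_lit 76) (nat_lit 19442906871) (nat_lit 56) (nat_lit 5) (nat_lit 60) (nat_lit 5) (nat_lit 57) (nat_lit 5) (nat_lit 383) (nat_lit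 316) (nat_lit 81)))))) (XT.nd (nat_lit 35412) (nat_lit 0) (nat_lit 10640) (XT.nd (nat_lit 234) (nat_lit 456) (nat_lit 0) (XT.nd (nat_lit 78) (nat_lit 0) (nat_lit 0) (XT.lf (nat_lit 0) (nat_lit 6332071399) (nat_lit 228) (nat_lit 33658348047) (nat_lit 304) (nat_lit 33476796046) (nat_lit 53) (nat_lit 5) (nat_lit 56) (nat_lit 5) (nat_lit 57) (nat_lit 5) (nat_lit 384) (nat_lit 316) (nat_lit 80)) (XT.nd (nat_lit 78) (nat_lit 0) (nat_lit 0) (XT.lf (nat_lit 0) (nat_lit 38944764984) (nat_lit 228) (nat_lit 14017356903) (nat_lit 304) (nat_lit 22091252381) (nat_lit 53) (nat_lit 5) (nat_lit 56) (nat_lit 5) (nat_lit 57) (nat_lit 5) (nat_lit 385) (nat_lit 316) (nat_lit 79)) (XT.lf (nat_lit 0) (nat_lit 66381596521) (nat_lit 304) (nat_lit 4212744501) (nat_lit 76) (nat_lit 6091018927) (nat_lit 53) (nat_lit 5) (nat_lit 57) (nat_lit 5) (nat_lit 54) (nat_lit 5) (nat_lit 386) (nat_lit 316) (nat_lit 78)))) (XT.nd (nat_lit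 78) (nat_lit 228) (nat_lit 0) (XT.lf (nat_lit 0) (nat_lit 2222750145) (nat_lit 228) (nat_lit 49308870539) (nat_lit 76) (nat_lit 26821517800) (nat_lit 50) (nat_lit 5) (nat_lit 53) (nat_lit 5) (nat_lit 51) (nat_lit 5) (nat_lit 387) (nat_lit 316) (nat_lit 77)) (XT.nd (nat_lit 78) (nat_lit 228) (nat_lit 0) (XT.lf (nat_lit 0) (nat_lit 14959860524) (nat_lit 228) (nat_lit 16788463636) (nat_lit 76) (nat_lit 48318309499) (nat_lit 50) (nat_lit 5) (nat_lit 53) (nat_lit 5) (nat_lit 51) (nat_lit 5) (nat_lit 388) (nat_lit 316) (nat_lit 76)) (XT.lf (nat_lit 0) (nat_lit 17038386520) (nat_lit 228) (nat_lit 11203447290) (nat_lit 304) (nat_lit 53584818082) (nat_lit 47) (nat_lit 5) (nat_lit 50) (nat_lit 5) (nat_lit 51) (nat_lit 5) (nat_lit 389) (nat_lit 316) (nat_lit 75))))) (XT.nd (nat_lit 234) (nat_lit 0) (nat_lit 76) (XT.nd (nat_lit 78) (nat_lit 0) (nat_lit 0) (XT.lf (nat_lit 0) (nat_lit 1645927349) (nat_lit 0)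 (nat_lit 1645927349) (nat_lit 1140) (nat_lit 7787265768) (nat_lit 187) (nat_lit 5) (nat_lit 187) (nat_lit 3) (nat_lit 202) (nat_lit 3) (nat_lit 317) (nat_lit 317) (nat_lit 146)) (XT.nd (nat_lit 78) (nat_lit 0) (nat_lit 0) (XT.lf (nat_lit 0) (nat_lit 6874496461) (nat_lit 1140) (nat_lit 9025778461) (nat_lit 1216) (nat_lit 6584406279) (nat_lit 187) (nat_lit 5) (nat_lit 202) (nat_lit 3) (nat_lit 203) (nat_lit 5) (nat_lit 318) (nat_lit 317) (nat_lit 145)) (XT.lf (nat_lit 76) (nat_lit 1096177847) (nat_lit 0) (nat_lit 6116007826) (nat_lit 1216) (nat_lit 15607590374) (nat_lit 188) (nat_lit 5) (nat_lit 187) (nat_lit 5) (nat_lit 203) (nat_lit 5) (nat_lit 319) (nat_lit 317) (nat_lit 144)))) (XT.nd (nat_lit 156) (nat_lit 0) (nat_lit 76) (XT.nd (nat_lit 78) (nat_lit 0) (nat_lit 0) (XT.lf (nat_lit 0) (nat_lit 7685322421) (nat_lit 1140) (nat_lit 11497176402) (nat_lit 1216) (nat_lit 3978671943) (nat_lit 188)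 (nat_lit 5) (nat_lit 203) (nat_lit 5) (nat_lit 204) (nat_lit 5) (nat_lit 320) (nat_lit 317) (nat_lit 143)) (XT.lf (nat_lit 0) (nat_lit 8228536607) (nat_lit 1140) (nat_lit 1027248397) (nat_lit 1216) (nat_lit 14255352162) (nat_lit 188) (nat_lit 5) (nat_lit 203) (nat_lit 5) (nat_lit 204) (nat_lit 5) (nat_lit 321) (nat_lit 317) (nat_lit 142))) (XT.nd (nat_lit 78) (nat_lit 0) (nat_lit 0) (XT.lf (nat_lit 0) (nat_lit 8889417700) (nat_lit 1140) (nat_lit 13930901540) (nat_lit 1216) (nat_lit 1048248364) (nat_lit 189) (nat_lit 5) (nat_lit 204) (nat_lit 5) (nat_lit 205) (nat_lit 5) (nat_lit 322) (nat_lit 317) (nat_lit 141)) (XT.lf (nat_lit 0) (nat_lit 9667831587) (nat_lit 1140) (nat_lit 3078350843) (nat_lit 1216) (nat_lit 11487613312) (nat_lit 189) (nat_lit 5) (nat_lit 204) (nat_lit 5) (nat_lit 205) (nat_lit 5) (nat_lit 323) (nat_lit 317) (nat_lit 140))))))) (XT.nd (nat_lit 1014) (nat_lit 3800) (nat_lit 0)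 (XT.nd (nat_lit 468) (nat_lit 836) (nat_lit 0) (XT.nd (nat_lit 234) (nat_lit 0) (nat_lit 152) (XT.nd (nat_lit 78) (nat_lit 0) (nat_lit 76) (XT.lf (nat_lit 76) (nat_lit 8258222595) (nat_lit 0) (nat_lit 2286475881) (nat_lit 1216) (nat_lit 14063035033) (nat_lit 190) (nat_lit 5) (nat_lit 189) (nat_lit 5) (nat_lit 205) (nat_lit 5) (nat_lit 324) (nat_lit 317) (nat_lit 139)) (XT.nd (nat_lit 78) (nat_lit 0) (nat_lit 0) (XT.lf (nat_lit 0) (nat_lit 11556677924) (nat_lit 1140) (nat_lit 5078671263) (nat_lit 1216) (nat_lit 8354281662) (nat_lit 190) (nat_lit 5) (nat_lit 205) (nat_lit 5) (nat_lit 206) (nat_lit 5) (nat_lit 325) (nat_lit 317) (nat_lit 138)) (XT.lf (nat_lit 76) (nat_lit 6634377352) (nat_lit 0) (nat_lit 6047003918) (nat_lit 1216) (nat_lit 12699138375) (nat_lit 191) (nat_lit 5) (nat_lit 190) (nat_lit 5) (nat_lit 206) (nat_lit 5) (nat_lit 326) (nat_lit 317) (nat_lit 137)))) (XT.nd (nat_lit 78) (nat_lit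 0) (nat_lit 0) (XT.lf (nat_lit 0) (nat_lit 13934381939) (nat_lit 1140) (nat_lit 7028734271) (nat_lit 1216) (nat_lit 4817187519) (nat_lit 191) (nat_lit 5) (nat_lit 206) (nat_lit 5) (nat_lit 207) (nat_lit 5) (nat_lit 327) (nat_lit 317) (nat_lit 136)) (XT.nd (nat_lit 78) (nat_lit 0) (nat_lit 76) (XT.lf (nat_lit 76) (nat_lit 5076623266) (nat_lit 0) (nat_lit 10253191394) (nat_lit 1216) (nat_lit 10859126572) (nat_lit 192) (nat_lit 5) (nat_lit 191) (nat_lit 5) (nat_lit 207) (nat_lit 5) (nat_lit 328) (nat_lit 317) (nat_lit 135)) (XT.lf (nat_lit 0) (nat_lit 16842534422) (nat_lit 1140) (nat_lit 8929531015) (nat_lit 1216) (nat_lit 835514707) (nat_lit 192) (nat_lit 5) (nat_lit 207) (nat_lit 5) (nat_lit 208) (nat_lit 5) (nat_lit 329) (nat_lit 317) (nat_lit 134))))) (XT.nd (nat_lit 234) (nat_lit 1064) (nat_lit 0) (XT.nd (nat_lit 78) (nat_lit 0) (nat_lit 0) (XT.lf (nat_lit 76) (nat_lit 3584386020) (nat_lit 0)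 (nat_lit 14948596549) (nat_lit 1216) (nat_lit 8501830111) (nat_lit 193) (nat_lit 5) (nat_lit 192) (nat_lit 5) (nat_lit 208) (nat_lit 5) (nat_lit 330) (nat_lit 317) (nat_lit 133)) (XT.nd (nat_lit 78) (nat_lit 0) (nat_lit 76) (XT.lf (nat_lit 76) (nat_lit 16654013404) (nat_lit 0) (nat_lit 3706755366) (nat_lit 1216) (nat_lit 7111499404) (nat_lit 193) (nat_lit 5) (nat_lit 192) (nat_lit 5) (nat_lit 208) (nat_lit 5) (nat_lit 331) (nat_lit 317) (nat_lit 132)) (XT.lf (nat_lit 76) (nat_lit 2156500766) (nat_lit 0) (nat_lit 20179855688) (nat_lit 1216) (nat_lit 5583706423) (nat_lit 194) (nat_lit 5) (nat_lit 193) (nat_lit 5) (nat_lit 209) (nat_lit 5) (nat_lit 332) (nat_lit 317) (nat_lit 131)))) (XT.nd (nat_lit 156) (nat_lit 76) (nat_lit 0) (XT.nd (nat_lit 78) (nat_lit 1064) (nat_lit 0) (XT.lf (nat_lit 76) (nat_lit 15702070118) (nat_lit 0) (nat_lit 8811363602) (nat_lit 1216) (nat_lit 3863595492) (nat_lit 194)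 (nat_lit 5) (nat_lit 193) (nat_lit 5) (nat_lit 209) (nat_lit 5) (nat_lit 333) (nat_lit 317) (nat_lit 130)) (XT.lf (nat_lit 0) (nat_lit 791091020) (nat_lit 1140) (nat_lit 25996937421) (nat_lit 1216) (nat_lit 2058714261) (nat_lit 179) (nat_lit 5) (nat_lit 194) (nat_lit 5) (nat_lit 195) (nat_lit 5) (nat_lit 334) (nat_lit 317) (nat_lit 129))) (XT.nd (nat_lit 78) (nat_lit 0) (nat_lit 0) (XT.lf (nat_lit 0) (nat_lit 17484959) (nat_lit 1216) (nat_lit 14495179765) (nat_lit 76) (nat_lit 14811546279) (nat_lit 178) (nat_lit 5) (nat_lit 194) (nat_lit 5) (nat_lit 179) (nat_lit 5) (nat_lit 335) (nat_lit 317) (nat_lit 128)) (XT.lf (nat_lit 0) (nat_lit 2111460231) (nat_lit 1216) (nat_lit 551024423) (nat_lit 76) (nat_lit 27153005107) (nat_lit 178) (nat_lit 5) (nat_lit 194) (nat_lit 5) (nat_lit 179) (nat_lit 5) (nat_lit 336) (nat_lit 317) (nat_lit 127)))))) (XT.nd (nat_lit 546) (nat_lit 1520) (nat_lit 0) (XT.nd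 (nat_lit 234) (nat_lit 1064) (nat_lit 0) (XT.nd (nat_lit 78) (nat_lit 608) (nat_lit 0) (XT.lf (nat_lit 0) (nat_lit 4493673520) (nat_lit 684) (nat_lit 16327009460) (nat_lit 76) (nat_lit 9494065176) (nat_lit 170) (nat_lit 5) (nat_lit 179) (nat_lit 5) (nat_lit 171) (nat_lit 5) (nat_lit 337) (nat_lit 317) (nat_lit 126)) (XT.nd (nat_lit 78) (nat_lit 608) (nat_lit 0) (XT.lf (nat_lit 0) (nat_lit 6976359614) (nat_lit 684) (nat_lit 1884011060) (nat_lit 76) (nat_lit 21967747162) (nat_lit 170) (nat_lit 5) (nat_lit 179) (nat_lit 5) (nat_lit 171) (nat_lit 5) (nat_lit 338) (nat_lit 317) (nat_lit 125)) (XT.lf (nat_lit 0) (nat_lit 9692498665) (nat_lit 684) (nat_lit 18139530703) (nat_lit 76) (nat_lit 3520093684) (nat_lit 162) (nat_lit 5) (nat_lit 171) (nat_lit 5) (nat_lit 163) (nat_lit 5) (nat_lit 339) (nat_lit 317) (nat_lit 124)))) (XT.nd (nat_lit 156) (nat_lit 532) (nat_lit 0) (XT.nd (nat_lit 78) (nat_lit 532)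 (nat_lit 0) (XT.lf (nat_lit 0) (nat_lit 12594234652) (nat_lit 684) (nat_lit 3181200253) (nat_lit 76) (nat_lit 16113293648) (nat_lit 162) (nat_lit 5) (nat_lit 171) (nat_lit 5) (nat_lit 163) (nat_lit 5) (nat_lit 340) (nat_lit 317) (nat_lit 123)) (XT.lf (nat_lit 0) (nat_lit 12466503777) (nat_lit 532) (nat_lit 3233610079) (nat_lit 608) (nat_lit 16737809039) (nat_lit 155) (nat_lit 5) (nat_lit 162) (nat_lit 5) (nat_lit 163) (nat_lit 5) (nat_lit 341) (nat_lit 317) (nat_lit 122))) (XT.nd (nat_lit 78) (nat_lit 532) (nat_lit 0) (XT.lf (nat_lit 0) (nat_lit 19022015386) (nat_lit 608) (nat_lit 4449891558) (nat_lit 76) (nat_lit 9528004054) (nat_lit 155) (nat_lit 5) (nat_lit 163) (nat_lit 5) (nat_lit 156) (nat_lit 5) (nat_lit 342) (nat_lit 317) (nat_lit 121)) (XT.lf (nat_lit 0) (nat_lit 11731568203) (nat_lit 532) (nat_lit 10854181991) (nat_lit 608) (nat_lit 10988746476) (nat_lit 148) (nat_lit 5) (nat_lit 155)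 (nat_lit 5) (nat_lit 156) (nat_lit 5) (nat_lit 343) (nat_lit 317) (nat_lit 120))))) (XT.nd (nat_lit 234) (nat_lit 1064) (nat_lit 0) (XT.nd (nat_lit 78) (nat_lit 456) (nat_lit 0) (XT.lf (nat_lit 0) (nat_lit 26319808060) (nat_lit 608) (nat_lit 5698994190) (nat_lit 76) (nat_lit 2145618453) (nat_lit 148) (nat_lit 5) (nat_lit 156) (nat_lit 5) (nat_lit 149) (nat_lit 5) (nat_lit 344) (nat_lit 317) (nat_lit 119)) (XT.nd (nat_lit 78) (nat_lit 0) (nat_lit 0) (XT.lf (nat_lit 0) (nat_lit 11034515400) (nat_lit 456) (nat_lit 19342424483) (nat_lit 532) (nat_lit 4388774037) (nat_lit 142) (nat_lit 5) (nat_lit 148) (nat_lit 5) (nat_lit 149) (nat_lit 5) (nat_lit 345) (nat_lit 317) (nat_lit 118)) (XT.lf (nat_lit 0) (nat_lit 28384280841) (nat_lit 456) (nat_lit 6226615701) (nat_lit 532) (nat_lit 772499004) (nat_lit 142) (nat_lit 5) (nat_lit 148) (nat_lit 5) (nat_lit 149) (nat_lit 5) (nat_lit 346) (nat_lit 317) (nat_lit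 117)))) (XT.nd (nat_lit 156) (nat_lit 456) (nat_lit 0) (XT.nd (nat_lit 78) (nat_lit 0) (nat_lit 0) (XT.lf (nat_lit 0) (nat_lit 3063576635) (nat_lit 608) (nat_lit 25680021404) (nat_lit 76) (nat_lit 7270093336) (nat_lit 134) (nat_lit 5) (nat_lit 142) (nat_lit 5) (nat_lit 135) (nat_lit 5) (nat_lit 347) (nat_lit 317) (nat_lit 116)) (XT.lf (nat_lit 0) (nat_lit 7129885584) (nat_lit 608) (nat_lit 8403455638) (nat_lit 76) (nat_lit 21125407768) (nat_lit 134) (nat_lit 5) (nat_lit 142) (nat_lit 5) (nat_lit 135) (nat_lit 5) (nat_lit 348) (nat_lit 317) (nat_lit 115))) (XT.nd (nat_lit 78) (nat_lit 0) (nat_lit 0) (XT.lf (nat_lit 0) (nat_lit 9575744841) (nat_lit 456) (nat_lit 1832206038) (nat_lit 532) (nat_lit 25912517056) (nat_lit 128) (nat_lit 5) (nat_lit 134) (nat_lit 5) (nat_lit 135) (nat_lit 5) (nat_lit 349) (nat_lit 317) (nat_lit 114)) (XT.lf (nat_lit 0) (nat_lit 16015858402) (nat_lit 532) (nat_lit 9854353512)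 (nat_lit 76) (nat_lit 12125784061) (nat_lit 128) (nat_lit 5) (nat_lit 135) (nat_lit 5) (nat_lit 129) (nat_lit 5) (nat_lit 350) (nat_lit 317) (nat_lit 113))))))))
noncomputable def xc225 : XT := (XT.nd (nat_lit 2028) (nat_lit 1216) (nat_lit 0) (XT.nd (nat_lit 1014) (nat_lit 1900) (nat_lit 0) (XT.nd (nat_lit 468) (nat_lit 1520) (nat_lit 0) (XT.nd (nat_lit 234) (nat_lit 456) (nat_lit 0) (XT.nd (nat_lit 78) (nat_lit 380) (nat_lit 0) (XT.lf (nat_lit 0) (nat_lit 8722302611) (nat_lit 456) (nat_lit 12139509714) (nat_lit 532) (nat_lit 17826985720) (nat_lit 122) (nat_lit 5) (nat_lit 128) (nat_lit 5) (nat_lit 129) (nat_lit 5) (nat_lit 351) (nat_lit 317) (nat_lit 112)) (XT.nd (nat_lit 78) (nat_lit 380) (nat_lit 0) (XT.lf (nat_lit 0) (nat_lit 25970755869) (nat_lit 532) (nat_lit 11363902647) (nat_lit 76) (nat_lit 2064199721) (nat_lit 122) (nat_lit 5) (nat_lit 129) (nat_lit 5) (nat_lit 123) (nat_lit 5) (nat_lit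 352) (nat_lit 317) (nat_lit 111)) (XT.lf (nat_lit 0) (nat_lit 7826852046) (nat_lit 380) (nat_lit 23599468587) (nat_lit 456) (nat_lit 8698101336) (nat_lit 117) (nat_lit 5) (nat_lit 122) (nat_lit 5) (nat_lit 123) (nat_lit 5) (nat_lit 353) (nat_lit 317) (nat_lit 110)))) (XT.nd (nat_lit 78) (nat_lit 456) (nat_lit 0) (XT.lf (nat_lit 0) (nat_lit 27823849508) (nat_lit 380) (nat_lit 9334416370) (nat_lit 456) (nat_lit 3710107585) (nat_lit 117) (nat_lit 5) (nat_lit 122) (nat_lit 5) (nat_lit 123) (nat_lit 5) (nat_lit 354) (nat_lit 317) (nat_lit 109)) (XT.nd (nat_lit 78) (nat_lit 0) (nat_lit 0) (XT.lf (nat_lit 0) (nat_lit 1516339533) (nat_lit 456) (nat_lit 34779874781) (nat_lit 76) (nat_lit 5334519551) (nat_lit 111) (nat_lit 5) (nat_lit 117) (nat_lit 5) (nat_lit 112) (nat_lit 5) (nat_lit 355) (nat_lit 317) (nat_lit 108)) (XT.lf (nat_lit 0) (nat_lit 7048488435) (nat_lit 456) (nat_lit 14934401242) (nat_lit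 76) (nat_lit 20425271118) (nat_lit 111) (nat_lit 5) (nat_lit 117) (nat_lit 5) (nat_lit 112) (nat_lit 5) (nat_lit 356) (nat_lit 317) (nat_lit 107))))) (XT.nd (nat_lit 234) (nat_lit 760) (nat_lit 0) (XT.nd (nat_lit 78) (nat_lit 380) (nat_lit 0) (XT.lf (nat_lit 0) (nat_lit 5613615693) (nat_lit 380) (nat_lit 7185034589) (nat_lit 456) (nat_lit 30408700799) (nat_lit 106) (nat_lit 5) (nat_lit 111) (nat_lit 5) (nat_lit 112) (nat_lit 5) (nat_lit 357) (nat_lit 317) (nat_lit 106)) (XT.nd (nat_lit 78) (nat_lit 380) (nat_lit 0) (XT.lf (nat_lit 0) (nat_lit 18949180556) (nat_lit 456) (nat_lit 17023112156) (nat_lit 76) (nat_lit 8051390400) (nat_lit 106) (nat_lit 5) (nat_lit 112) (nat_lit 5) (nat_lit 107) (nat_lit 5) (nat_lit 358) (nat_lit 317) (nat_lit 105)) (XT.lf (nat_lit 0) (nat_lit 4172589347) (nat_lit 380) (nat_lit 21221056490) (nat_lit 456) (nat_lit 19467578581) (nat_lit 101) (nat_lit 5) (nat_lit 106) (nat_lit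 5) (nat_lit 107) (nat_lit 5) (nat_lit 359) (nat_lit 317) (nat_lit 104)))) (XT.nd (nat_lit 156) (nat_lit 456) (nat_lit 0) (XT.nd (nat_lit 78) (nat_lit 304) (nat_lit 0) (XT.lf (nat_lit 0) (nat_lit 26350818071) (nat_lit 380) (nat_lit 5850728886) (nat_lit 456) (nat_lit 13517243783) (nat_lit 101) (nat_lit 5) (nat_lit 106) (nat_lit 5) (nat_lit 107) (nat_lit 5) (nat_lit 360) (nat_lit 317) (nat_lit 103)) (XT.lf (nat_lit 0) (nat_lit 2543722741) (nat_lit 304) (nat_lit 36788604373) (nat_lit 380) (nat_lit 7266199457) (nat_lit 97) (nat_lit 5) (nat_lit 101) (nat_lit 5) (nat_lit 102) (nat_lit 5) (nat_lit 361) (nat_lit 317) (nat_lit 102))) (XT.nd (nat_lit 78) (nat_lit 456) (nat_lit 0) (XT.lf (nat_lit 0) (nat_lit 25448451585) (nat_lit 304) (nat_lit 21479796485) (nat_lit 380) (nat_lit 568871613) (nat_lit 97) (nat_lit 5) (nat_lit 101) (nat_lit 5) (nat_lit 102) (nat_lit 5) (nat_lit 362) (nat_lit 317) (nat_lit 101))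 (XT.lf (nat_lit 0) (nat_lit 565616703) (nat_lit 380) (nat_lit 5643998194) (nat_lit 456) (nat_lit 42211119632) (nat_lit 91) (nat_lit 5) (nat_lit 96) (nat_lit 5) (nat_lit 97) (nat_lit 5) (nat_lit 363) (nat_lit 317) (nat_lit 100)))))) (XT.nd (nat_lit 468) (nat_lit 1216) (nat_lit 0) (XT.nd (nat_lit 234) (nat_lit 380) (nat_lit 0) (XT.nd (nat_lit 78) (nat_lit 304) (nat_lit 0) (XT.lf (nat_lit 0) (nat_lit 13505744936) (nat_lit 456) (nat_lit 25167700273) (nat_lit 76) (nat_lit 10688673539) (nat_lit 91) (nat_lit 5) (nat_lit 97) (nat_lit 5) (nat_lit 92) (nat_lit 5) (nat_lit 364) (nat_lit 317) (nat_lit 99)) (XT.nd (nat_lit 78) (nat_lit 304) (nat_lit 0) (XT.lf (nat_lit 0) (nat_lit 21075022003) (nat_lit 456) (nat_lit 1857730373) (nat_lit 76) (nat_lit 27397365759) (nat_lit 91) (nat_lit 5) (nat_lit 97) (nat_lit 5) (nat_lit 92) (nat_lit 5) (nat_lit 365) (nat_lit 317) (nat_lit 98)) (XT.lf (nat_lit 0) (nat_lit 22590230126)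 (nat_lit 304) (nat_lit 6496727451) (nat_lit 380) (nat_lit 22233734011) (nat_lit 87) (nat_lit 5) (nat_lit 91) (nat_lit 5) (nat_lit 92) (nat_lit 5) (nat_lit 366) (nat_lit 317) (nat_lit 97)))) (XT.nd (nat_lit 78) (nat_lit 380) (nat_lit 0) (XT.lf (nat_lit 0) (nat_lit 37456928028) (nat_lit 380) (nat_lit 4633323360) (nat_lit 76) (nat_lit 10247201999) (nat_lit 87) (nat_lit 5) (nat_lit 92) (nat_lit 5) (nat_lit 88) (nat_lit 5) (nat_lit 367) (nat_lit 317) (nat_lit 96)) (XT.nd (nat_lit 78) (nat_lit 76) (nat_lit 0) (XT.lf (nat_lit 0) (nat_lit 20520754359) (nat_lit 304) (nat_lit 25817319716) (nat_lit 380) (nat_lit 7038843075) (nat_lit 83) (nat_lit 5) (nat_lit 87) (nat_lit 5) (nat_lit 88) (nat_lit 5) (nat_lit 368) (nat_lit 317) (nat_lit 95)) (XT.lf (nat_lit 0) (nat_lit 1063585943) (nat_lit 380) (nat_lit 7934265217) (nat_lit 76) (nat_lit 45448043033) (nat_lit 82) (nat_lit 5) (nat_lit 87) (nat_lit 5) (nat_lit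 83) (nat_lit 5) (nat_lit 369) (nat_lit 317) (nat_lit 94))))) (XT.nd (nat_lit 234) (nat_lit 608) (nat_lit 0) (XT.nd (nat_lit 78) (nat_lit 304) (nat_lit 0) (XT.lf (nat_lit 0) (nat_lit 9521767837) (nat_lit 380) (nat_lit 37607031774) (nat_lit 76) (nat_lit 8408426863) (nat_lit 78) (nat_lit 5) (nat_lit 83) (nat_lit 5) (nat_lit 79) (nat_lit 5) (nat_lit 370) (nat_lit 317) (nat_lit 93)) (XT.nd (nat_lit 78) (nat_lit 304) (nat_lit 0) (XT.lf (nat_lit 0) (nat_lit 18402260031) (nat_lit 380) (nat_lit 12017595569) (nat_lit 76) (nat_lit 26236387426) (nat_lit 78) (nat_lit 5) (nat_lit 83) (nat_lit 5) (nat_lit 79) (nat_lit 5) (nat_lit 371) (nat_lit 317) (nat_lit 92)) (XT.lf (nat_lit 0) (nat_lit 14622875856) (nat_lit 304) (nat_lit 13065460419) (nat_lit 380) (nat_lit 30116319933) (nat_lit 74) (nat_lit 5) (nat_lit 78) (nat_lit 5) (nat_lit 79) (nat_lit 5) (nat_lit 372) (nat_lit 317) (nat_lit 91)))) (XT.nd (nat_lit 156)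 (nat_lit 380) (nat_lit 0) (XT.nd (nat_lit 78) (nat_lit 228) (nat_lit 0) (XT.lf (nat_lit 0) (nat_lit 37420404121) (nat_lit 380) (nat_lit 16724414736) (nat_lit 76) (nat_lit 4837681824) (nat_lit 74) (nat_lit 5) (nat_lit 79) (nat_lit 5) (nat_lit 75) (nat_lit 5) (nat_lit 373) (nat_lit 317) (nat_lit 90)) (XT.lf (nat_lit 0) (nat_lit 10602247526) (nat_lit 228) (nat_lit 37072124062) (nat_lit 304) (nat_lit 12514411916) (nat_lit 71) (nat_lit 5) (nat_lit 74) (nat_lit 5) (nat_lit 75) (nat_lit 5) (nat_lit 374) (nat_lit 317) (nat_lit 89))) (XT.nd (nat_lit 78) (nat_lit 380) (nat_lit 0) (XT.lf (nat_lit 0) (nat_lit 39089611531) (nat_lit 228) (nat_lit 19313912065) (nat_lit 304) (nat_lit 3022705359) (nat_lit 71) (nat_lit 5) (nat_lit 74) (nat_lit 5) (nat_lit 75) (nat_lit 5) (nat_lit 375) (nat_lit 317) (nat_lit 88)) (XT.lf (nat_lit 0) (nat_lit 5776698945) (nat_lit 304) (nat_lit 899498966) (nat_lit 380) (nat_lit 56021026201)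 (nat_lit 66) (nat_lit 5) (nat_lit 70) (nat_lit 5) (nat_lit 71) (nat_lit 5) (nat_lit 376) (nat_lit 317) (nat_lit 87))))))) (XT.nd (nat_lit 36036) (nat_lit 0) (nat_lit 10412) (XT.nd (nat_lit 468) (nat_lit 684) (nat_lit 0) (XT.nd (nat_lit 234) (nat_lit 304) (nat_lit 0) (XT.nd (nat_lit 78) (nat_lit 228) (nat_lit 0) (XT.lf (nat_lit 0) (nat_lit 17005498640) (nat_lit 380) (nat_lit 29016041732) (nat_lit 76) (nat_lit 17971906420) (nat_lit 66) (nat_lit 5) (nat_lit 71) (nat_lit 5) (nat_lit 67) (nat_lit 5) (nat_lit 377) (nat_lit 317) (nat_lit 86)) (XT.nd (nat_lit 78) (nat_lit 228) (nat_lit 0) (XT.lf (nat_lit 0) (nat_lit 27652341692) (nat_lit 380) (nat_lit 285191336) (nat_lit 76) (nat_lit 37390794210) (nat_lit 66) (nat_lit 5) (nat_lit 71) (nat_lit 5) (nat_lit 67) (nat_lit 5) (nat_lit 378) (nat_lit 317) (nat_lit 85)) (XT.lf (nat_lit 0) (nat_lit 29889019606) (nat_lit 228) (nat_lit 9015675534) (nat_lit 304) (nat_lit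 27789976763) (nat_lit 63) (nat_lit 5) (nat_lit 66) (nat_lit 5) (nat_lit 67) (nat_lit 5) (nat_lit 379) (nat_lit 317) (nat_lit 84)))) (XT.nd (nat_lit 78) (nat_lit 304) (nat_lit 0) (XT.lf (nat_lit 0) (nat_lit 50597014234) (nat_lit 304) (nat_lit 7230147416) (nat_lit 76) (nat_lit 10271774334) (nat_lit 63) (nat_lit 5) (nat_lit 67) (nat_lit 5) (nat_lit 64) (nat_lit 5) (nat_lit 380) (nat_lit 317) (nat_lit 83)) (XT.nd (nat_lit 78) (nat_lit 76) (nat_lit 0) (XT.lf (nat_lit 0) (nat_lit 23602154080) (nat_lit 228) (nat_lit 39352931783) (nat_lit 304) (nat_lit 6580793537) (nat_lit 60) (nat_lit 5) (nat_lit 63) (nat_lit 5) (nat_lit 64) (nat_lit 5) (nat_lit 381) (nat_lit 317) (nat_lit 82)) (XT.lf (nat_lit 0) (nat_lit 4649458112) (nat_lit 304) (nat_lit 15553473453) (nat_lit 76) (nat_lit 50809476909) (nat_lit 59) (nat_lit 5) (nat_lit 63) (nat_lit 5) (nat_lit 60) (nat_lit 5) (nat_lit 382) (nat_lit 317) (nat_lit 81)))))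 (XT.nd (nat_lit 234) (nat_lit 228) (nat_lit 0) (XT.nd (nat_lit 78) (nat_lit 228) (nat_lit 0) (XT.lf (nat_lit 0) (nat_lit 15983197053) (nat_lit 228) (nat_lit 253672006) (nat_lit 304) (nat_lit 56289834918) (nat_lit 56) (nat_lit 5) (nat_lit 59) (nat_lit 5) (nat_lit 60) (nat_lit 5) (nat_lit 383) (nat_lit 317) (nat_lit 80)) (XT.nd (nat_lit 78) (nat_lit 228) (nat_lit 0) (XT.lf (nat_lit 0) (nat_lit 28524485338) (nat_lit 304) (nat_lit 25495285518) (nat_lit 76) (nat_lit 20056080801) (nat_lit 56) (nat_lit 5) (nat_lit 60) (nat_lit 5) (nat_lit 57) (nat_lit 5) (nat_lit 384) (nat_lit 317) (nat_lit 79)) (XT.lf (nat_lit 0) (nat_lit 6609156287) (nat_lit 228) (nat_lit 34636538425) (nat_lit 304) (nat_lit 34423830895) (nat_lit 53) (nat_lit 5) (nat_lit 56) (nat_lit 5) (nat_lit 57) (nat_lit 5) (nat_lit 385) (nat_lit 317) (nat_lit 78)))) (XT.nd (nat_lit 156) (nat_lit 228) (nat_lit 0) (XT.nd (nat_lit 78) (nat_lit 0)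 (nat_lit 0) (XT.lf (nat_lit 0) (nat_lit 40197693124) (nat_lit 228) (nat_lit 14407236771) (nat_lit 304) (nat_lit 22698388949) (nat_lit 53) (nat_lit 5) (nat_lit 56) (nat_lit 5) (nat_lit 57) (nat_lit 5) (nat_lit 386) (nat_lit 317) (nat_lit 77)) (XT.lf (nat_lit 0) (nat_lit 68425703533) (nat_lit 304) (nat_lit 4255682852) (nat_lit 76) (nat_lit 6302917384) (nat_lit 53) (nat_lit 5) (nat_lit 57) (nat_lit 5) (nat_lit 54) (nat_lit 5) (nat_lit 387) (nat_lit 317) (nat_lit 76))) (XT.nd (nat_lit 78) (nat_lit 0) (nat_lit 0) (XT.lf (nat_lit 0) (nat_lit 2341901728) (nat_lit 228) (nat_lit 50704431443) (nat_lit 76) (nat_lit 27655790327) (nat_lit 50) (nat_lit 5) (nat_lit 53) (nat_lit 5) (nat_lit 51) (nat_lit 5) (nat_lit 388) (nat_lit 317) (nat_lit 75)) (XT.lf (nat_lit 0) (nat_lit 15459597192) (nat_lit 228) (nat_lit 17210850349) (nat_lit 76) (nat_lit 49796622854) (nat_lit 50) (nat_lit 5) (nat_lit 53) (nat_lit 5) (nat_lit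 51) (nat_lit 5) (nat_lit 389) (nat_lit 317) (nat_lit 74)))))) (XT.nd (nat_lit 546) (nat_lit 0) (nat_lit 152) (XT.nd (nat_lit 234) (nat_lit 0) (nat_lit 76) (XT.nd (nat_lit 78) (nat_lit 0) (nat_lit 0) (XT.lf (nat_lit 0) (nat_lit 1758431679) (nat_lit 0) (nat_lit 1758431679) (nat_lit 1140) (nat_lit 7890672385) (nat_lit 187) (nat_lit 5) (nat_lit 187) (nat_lit 3) (nat_lit 202) (nat_lit 3) (nat_lit 318) (nat_lit 318) (nat_lit 144)) (XT.nd (nat_lit 78) (nat_lit 0) (nat_lit 0) (XT.lf (nat_lit 0) (nat_lit 7324704572) (nat_lit 1140) (nat_lit 9165111701) (nat_lit 1216) (nat_lit 6661754617) (nat_lit 187) (nat_lit 5) (nat_lit 202) (nat_lit 3) (nat_lit 203) (nat_lit 5) (nat_lit 319) (nat_lit 318) (nat_lit 143)) (XT.lf (nat_lit 76) (nat_lit 1259214667) (nat_lit 0) (nat_lit 6407454873) (nat_lit 1216) (nat_lit 15830234345) (nat_lit 188) (nat_lit 5) (nat_lit 187) (nat_lit 5) (nat_lit 203) (nat_lit 5) (nat_lit 320)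 (nat_lit 318) (nat_lit 142)))) (XT.nd (nat_lit 156) (nat_lit 0) (nat_lit 76) (XT.nd (nat_lit 78) (nat_lit 0) (nat_lit 0) (XT.lf (nat_lit 0) (nat_lit 8146057292) (nat_lit 1140) (nat_lit 11707475412) (nat_lit 1216) (nat_lit 3995255411) (nat_lit 188) (nat_lit 5) (nat_lit 203) (nat_lit 5) (nat_lit 204) (nat_lit 5) (nat_lit 321) (nat_lit 318) (nat_lit 141)) (XT.lf (nat_lit 0) (nat_lit 8698863772) (nat_lit 1140) (nat_lit 927370429) (nat_lit 1216) (nat_lit 14583229533) (nat_lit 188) (nat_lit 5) (nat_lit 203) (nat_lit 5) (nat_lit 204) (nat_lit 5) (nat_lit 322) (nat_lit 318) (nat_lit 140))) (XT.nd (nat_lit 78) (nat_lit 0) (nat_lit 0) (XT.lf (nat_lit 0) (nat_lit 9373452915) (nat_lit 1140) (nat_lit 14211720206) (nat_lit 1216) (nat_lit 992636353) (nat_lit 189) (nat_lit 5) (nat_lit 204) (nat_lit 5) (nat_lit 205) (nat_lit 5) (nat_lit 323) (nat_lit 318) (nat_lit 139)) (XT.lf (nat_lit 0) (nat_lit 10168888557)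 (nat_lit 1140) (nat_lit 3037586436) (nat_lit 1216) (nat_lit 11747717962) (nat_lit 189) (nat_lit 5) (nat_lit 204) (nat_lit 5) (nat_lit 205) (nat_lit 5) (nat_lit 324) (nat_lit 318) (nat_lit 138))))) (XT.nd (nat_lit 234) (nat_lit 0) (nat_lit 152) (XT.nd (nat_lit 78) (nat_lit 0) (nat_lit 76) (XT.lf (nat_lit 76) (nat_lit 8637779157) (nat_lit 0) (nat_lit 2429403061) (nat_lit 1216) (nat_lit 14272321344) (nat_lit 190) (nat_lit 5) (nat_lit 189) (nat_lit 5) (nat_lit 205) (nat_lit 5) (nat_lit 325) (nat_lit 318) (nat_lit 137)) (XT.nd (nat_lit 78) (nat_lit 0) (nat_lit 0) (XT.lf (nat_lit 0) (nat_lit 12102823169) (nat_lit 1140) (nat_lit 5096093178) (nat_lit 1216) (nat_lit 8534150499) (nat_lit 190) (nat_lit 5) (nat_lit 205) (nat_lit 5) (nat_lit 206) (nat_lit 5) (nat_lit 326) (nat_lit 318) (nat_lit 136)) (XT.lf (nat_lit 76) (nat_lit 6967023971) (nat_lit 0) (nat_lit 6289718961) (nat_lit 1216) (nat_lit 12879082966)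 (nat_lit 191) (nat_lit 5) (nat_lit 190) (nat_lit 5) (nat_lit 206) (nat_lit 5) (nat_lit 327) (nat_lit 318) (nat_lit 135)))) (XT.nd (nat_lit 156) (nat_lit 0) (nat_lit 76) (XT.nd (nat_lit 78) (nat_lit 0) (nat_lit 0) (XT.lf (nat_lit 0) (nat_lit 14541084197) (nat_lit 1140) (nat_lit 7103369177) (nat_lit 1216) (nat_lit 4903345237) (nat_lit 191) (nat_lit 5) (nat_lit 206) (nat_lit 5) (nat_lit 207) (nat_lit 5) (nat_lit 328) (nat_lit 318) (nat_lit 134)) (XT.lf (nat_lit 76) (nat_lit 5363813525) (nat_lit 0) (nat_lit 10610367768) (nat_lit 1216) (nat_lit 10994647305) (nat_lit 192) (nat_lit 5) (nat_lit 191) (nat_lit 5) (nat_lit 207) (nat_lit 5) (nat_lit 329) (nat_lit 318) (nat_lit 133))) (XT.nd (nat_lit 78) (nat_lit 0) (nat_lit 0) (XT.lf (nat_lit 0) (nat_lit 17526446954) (nat_lit 1140) (nat_lit 9060379050) (nat_lit 1216) (nat_lit 813382929) (nat_lit 192) (nat_lit 5) (nat_lit 207) (nat_lit 5) (nat_lit 208) (nat_lit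 5) (nat_lit 330) (nat_lit 318) (nat_lit 132)) (XT.lf (nat_lit 76) (nat_lit 3827611986) (nat_lit 0) (nat_lit 15436097932) (nat_lit 1216) (nat_lit 8576672463) (nat_lit 193) (nat_lit 5) (nat_lit 192) (nat_lit 5) (nat_lit 208) (nat_lit 5) (nat_lit 331) (nat_lit 318) (nat_lit 131))))))))
noncomputable def xc226 : XT := (XT.nd (nat_lit 2028) (nat_lit 4180) (nat_lit 0) (XT.nd (nat_lit 1014) (nat_lit 2812) (nat_lit 0) (XT.nd (nat_lit 468) (nat_lit 2280) (nat_lit 0) (XT.nd (nat_lit 234) (nat_lit 1064) (nat_lit 0) (XT.nd (nat_lit 78) (nat_lit 0) (nat_lit 76) (XT.lf (nat_lit 76) (nat_lit 17285375928) (nat_lit 0) (nat_lit 3855864325) (nat_lit 1216) (nat_lit 7149880744) (nat_lit 193) (nat_lit 5) (nat_lit 192) (nat_lit 5) (nat_lit 208) (nat_lit 5) (nat_lit 332) (nat_lit 318) (nat_lit 130)) (XT.nd (nat_lit 78) (nat_lit 0) (nat_lit 0) (XT.lf (nat_lit 76) (nat_lit 2357270240) (nat_lit 0) (nat_lit 20814838376)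 (nat_lit 1216) (nat_lit 5580367109) (nat_lit 194) (nat_lit 5) (nat_lit 193) (nat_lit 5) (nat_lit 209) (nat_lit 5) (nat_lit 333) (nat_lit 318) (nat_lit 129)) (XT.lf (nat_lit 76) (nat_lit 16305243339) (nat_lit 0) (nat_lit 9104429770) (nat_lit 1216) (nat_lit 3813629079) (nat_lit 194) (nat_lit 5) (nat_lit 193) (nat_lit 5) (nat_lit 209) (nat_lit 5) (nat_lit 334) (nat_lit 318) (nat_lit 128)))) (XT.nd (nat_lit 78) (nat_lit 76) (nat_lit 0) (XT.lf (nat_lit 0) (nat_lit 950901588) (nat_lit 1140) (nat_lit 26797959509) (nat_lit 1216) (nat_lit 1958361519) (nat_lit 179) (nat_lit 5) (nat_lit 194) (nat_lit 5) (nat_lit 195) (nat_lit 5) (nat_lit 335) (nat_lit 318) (nat_lit 127)) (XT.nd (nat_lit 78) (nat_lit 0) (nat_lit 0) (XT.lf (nat_lit 0) (nat_lit 172330612) (nat_lit 1216) (nat_lit 14794654709) (nat_lit 76) (nat_lit 15232127628) (nat_lit 178) (nat_lit 5) (nat_lit 194) (nat_lit 5) (nat_lit 179) (nat_lit 5) (nat_lit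 336) (nat_lit 318) (nat_lit 126)) (XT.lf (nat_lit 0) (nat_lit 2324630353) (nat_lit 1216) (nat_lit 436117826) (nat_lit 76) (nat_lit 27944522406) (nat_lit 178) (nat_lit 5) (nat_lit 194) (nat_lit 5) (nat_lit 179) (nat_lit 5) (nat_lit 337) (nat_lit 318) (nat_lit 125))))) (XT.nd (nat_lit 234) (nat_lit 1064) (nat_lit 0) (XT.nd (nat_lit 78) (nat_lit 608) (nat_lit 0) (XT.lf (nat_lit 0) (nat_lit 4775038006) (nat_lit 684) (nat_lit 16681926808) (nat_lit 76) (nat_lit 9762645587) (nat_lit 170) (nat_lit 5) (nat_lit 179) (nat_lit 5) (nat_lit 171) (nat_lit 5) (nat_lit 338) (nat_lit 318) (nat_lit 124)) (XT.nd (nat_lit 78) (nat_lit 608) (nat_lit 0) (XT.lf (nat_lit 0) (nat_lit 7327936111) (nat_lit 684) (nat_lit 1809567377) (nat_lit 76) (nat_lit 22611011087) (nat_lit 170) (nat_lit 5) (nat_lit 179) (nat_lit 5) (nat_lit 171) (nat_lit 5) (nat_lit 339) (nat_lit 318) (nat_lit 123)) (XT.lf (nat_lit 0) (nat_lit 10122568335)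 (nat_lit 684) (nat_lit 18549588577) (nat_lit 76) (nat_lit 3616177957) (nat_lit 162) (nat_lit 5) (nat_lit 171) (nat_lit 5) (nat_lit 163) (nat_lit 5) (nat_lit 340) (nat_lit 318) (nat_lit 122)))) (XT.nd (nat_lit 156) (nat_lit 532) (nat_lit 0) (XT.nd (nat_lit 78) (nat_lit 532) (nat_lit 0) (XT.lf (nat_lit 0) (nat_lit 13107299275) (nat_lit 684) (nat_lit 3146414855) (nat_lit 76) (nat_lit 16587451159) (nat_lit 162) (nat_lit 5) (nat_lit 171) (nat_lit 5) (nat_lit 163) (nat_lit 5) (nat_lit 341) (nat_lit 318) (nat_lit 121)) (XT.lf (nat_lit 0) (nat_lit 12969443615) (nat_lit 532) (nat_lit 3334211776) (nat_lit 608) (nat_lit 17103265946) (nat_lit 155) (nat_lit 5) (nat_lit 162) (nat_lit 5) (nat_lit 163) (nat_lit 5) (nat_lit 342) (nat_lit 318) (nat_lit 120))) (XT.nd (nat_lit 78) (nat_lit 532) (nat_lit 0) (XT.lf (nat_lit 0) (nat_lit 19721320098) (nat_lit 608) (nat_lit 4454147031) (nat_lit 76) (nat_lit 9810423521)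 (nat_lit 155) (nat_lit 5) (nat_lit 163) (nat_lit 5) (nat_lit 156) (nat_lit 5) (nat_lit 343) (nat_lit 318) (nat_lit 119)) (XT.lf (nat_lit 0) (nat_lit 12211489452) (nat_lit 532) (nat_lit 11177960745) (nat_lit 608) (nat_lit 11188343811) (nat_lit 148) (nat_lit 5) (nat_lit 155) (nat_lit 5) (nat_lit 156) (nat_lit 5) (nat_lit 344) (nat_lit 318) (nat_lit 118)))))) (XT.nd (nat_lit 468) (nat_lit 1292) (nat_lit 0) (XT.nd (nat_lit 234) (nat_lit 1064) (nat_lit 0) (XT.nd (nat_lit 78) (nat_lit 456) (nat_lit 0) (XT.lf (nat_lit 0) (nat_lit 27231873417) (nat_lit 608) (nat_lit 5741911575) (nat_lit 76) (nat_lit 2211744939) (nat_lit 148) (nat_lit 5) (nat_lit 156) (nat_lit 5) (nat_lit 149) (nat_lit 5) (nat_lit 345) (nat_lit 318) (nat_lit 117)) (XT.nd (nat_lit 78) (nat_lit 0) (nat_lit 0) (XT.lf (nat_lit 0) (nat_lit 11492347886) (nat_lit 456) (nat_lit 19916023038) (nat_lit 532) (nat_lit 4396565815) (nat_lit 142) (nat_lit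 5) (nat_lit 148) (nat_lit 5) (nat_lit 149) (nat_lit 5) (nat_lit 346) (nat_lit 318) (nat_lit 116)) (XT.lf (nat_lit 0) (nat_lit 29358913174) (nat_lit 456) (nat_lit 6406934387) (nat_lit 532) (nat_lit 675410437) (nat_lit 142) (nat_lit 5) (nat_lit 148) (nat_lit 5) (nat_lit 149) (nat_lit 5) (nat_lit 347) (nat_lit 318) (nat_lit 115)))) (XT.nd (nat_lit 78) (nat_lit 456) (nat_lit 0) (XT.lf (nat_lit 0) (nat_lit 3271245036) (nat_lit 608) (nat_lit 26322546493) (nat_lit 76) (nat_lit 7496705139) (nat_lit 134) (nat_lit 5) (nat_lit 142) (nat_lit 5) (nat_lit 135) (nat_lit 5) (nat_lit 348) (nat_lit 318) (nat_lit 114)) (XT.nd (nat_lit 78) (nat_lit 456) (nat_lit 0) (XT.lf (nat_lit 0) (nat_lit 7456171571) (nat_lit 608) (nat_lit 8531408284) (nat_lit 76) (nat_lit 21767431168) (nat_lit 134) (nat_lit 5) (nat_lit 142) (nat_lit 5) (nat_lit 135) (nat_lit 5) (nat_lit 349) (nat_lit 318) (nat_lit 113)) (XT.lf (nat_lit 0) (nat_lit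 9985951042) (nat_lit 456) (nat_lit 1874536020) (nat_lit 532) (nat_lit 26576160978) (nat_lit 128) (nat_lit 5) (nat_lit 134) (nat_lit 5) (nat_lit 135) (nat_lit 5) (nat_lit 350) (nat_lit 318) (nat_lit 112))))) (XT.nd (nat_lit 234) (nat_lit 836) (nat_lit 0) (XT.nd (nat_lit 78) (nat_lit 456) (nat_lit 0) (XT.lf (nat_lit 0) (nat_lit 16603537186) (nat_lit 532) (nat_lit 10027414873) (nat_lit 76) (nat_lit 12501586341) (nat_lit 128) (nat_lit 5) (nat_lit 135) (nat_lit 5) (nat_lit 129) (nat_lit 5) (nat_lit 351) (nat_lit 318) (nat_lit 111)) (XT.nd (nat_lit 78) (nat_lit 0) (nat_lit 0) (XT.lf (nat_lit 0) (nat_lit 9105339274) (nat_lit 456) (nat_lit 12487574693) (nat_lit 532) (nat_lit 18253272772) (nat_lit 122) (nat_lit 5) (nat_lit 128) (nat_lit 5) (nat_lit 129) (nat_lit 5) (nat_lit 352) (nat_lit 318) (nat_lit 110)) (XT.lf (nat_lit 0) (nat_lit 26852210809) (nat_lit 532) (nat_lit 11583957715) (nat_lit 76) (nat_lit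 2141471097) (nat_lit 122) (nat_lit 5) (nat_lit 129) (nat_lit 5) (nat_lit 123) (nat_lit 5) (nat_lit 353) (nat_lit 318) (nat_lit 109)))) (XT.nd (nat_lit 156) (nat_lit 456) (nat_lit 0) (XT.nd (nat_lit 78) (nat_lit 0) (nat_lit 0) (XT.lf (nat_lit 0) (nat_lit 8181334698) (nat_lit 380) (nat_lit 24288277676) (nat_lit 456) (nat_lit 8855416127) (nat_lit 117) (nat_lit 5) (nat_lit 122) (nat_lit 5) (nat_lit 123) (nat_lit 5) (nat_lit 354) (nat_lit 318) (nat_lit 108)) (XT.lf (nat_lit 0) (nat_lit 28774756343) (nat_lit 380) (nat_lit 9595832387) (nat_lit 456) (nat_lit 3720800862) (nat_lit 117) (nat_lit 5) (nat_lit 122) (nat_lit 5) (nat_lit 123) (nat_lit 5) (nat_lit 355) (nat_lit 318) (nat_lit 107))) (XT.nd (nat_lit 78) (nat_lit 0) (nat_lit 0) (XT.lf (nat_lit 0) (nat_lit 1658923021) (nat_lit 456) (nat_lit 35703356698) (nat_lit 76) (nat_lit 5514361723) (nat_lit 111) (nat_lit 5) (nat_lit 117) (nat_lit 5) (nat_lit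 112) (nat_lit 5) (nat_lit 356) (nat_lit 318) (nat_lit 106)) (XT.lf (nat_lit 0) (nat_lit 7354208429) (nat_lit 456) (nat_lit 15266011603) (nat_lit 76) (nat_lit 21057258947) (nat_lit 111) (nat_lit 5) (nat_lit 117) (nat_lit 5) (nat_lit 112) (nat_lit 5) (nat_lit 357) (nat_lit 318) (nat_lit 105))))))) (XT.nd (nat_lit 1014) (nat_lit 1976) (nat_lit 0) (XT.nd (nat_lit 468) (nat_lit 1140) (nat_lit 0) (XT.nd (nat_lit 234) (nat_lit 304) (nat_lit 0) (XT.nd (nat_lit 78) (nat_lit 380) (nat_lit 0) (XT.lf (nat_lit 0) (nat_lit 5897304451) (nat_lit 380) (nat_lit 7377933233) (nat_lit 456) (nat_lit 31225459287) (nat_lit 106) (nat_lit 5) (nat_lit 111) (nat_lit 5) (nat_lit 112) (nat_lit 5) (nat_lit 358) (nat_lit 318) (nat_lit 104)) (XT.nd (nat_lit 78) (nat_lit 380) (nat_lit 0) (XT.lf (nat_lit 0) (nat_lit 19607797373) (nat_lit 456) (nat_lit 17419303404) (nat_lit 76) (nat_lit 8314495572) (nat_lit 106) (nat_lit 5) (nat_lit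 112) (nat_lit 5) (nat_lit 107) (nat_lit 5) (nat_lit 359) (nat_lit 318) (nat_lit 103)) (XT.lf (nat_lit 0) (nat_lit 4411146574) (nat_lit 380) (nat_lit 21832914434) (nat_lit 456) (nat_lit 19960251664) (nat_lit 101) (nat_lit 5) (nat_lit 106) (nat_lit 5) (nat_lit 107) (nat_lit 5) (nat_lit 360) (nat_lit 318) (nat_lit 102)))) (XT.nd (nat_lit 78) (nat_lit 304) (nat_lit 0) (XT.lf (nat_lit 0) (nat_lit 27251419843) (nat_lit 380) (nat_lit 6002198568) (nat_lit 456) (nat_lit 13834067626) (nat_lit 101) (nat_lit 5) (nat_lit 106) (nat_lit 5) (nat_lit 107) (nat_lit 5) (nat_lit 361) (nat_lit 318) (nat_lit 101)) (XT.nd (nat_lit 78) (nat_lit 0) (nat_lit 0) (XT.lf (nat_lit 0) (nat_lit 2731445792) (nat_lit 304) (nat_lit 37865666022) (nat_lit 380) (nat_lit 7396740987) (nat_lit 97) (nat_lit 5) (nat_lit 101) (nat_lit 5) (nat_lit 102) (nat_lit 5) (nat_lit 362) (nat_lit 318) (nat_lit 100)) (XT.lf (nat_lit 0) (nat_lit 26320071510)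 (nat_lit 304) (nat_lit 22098368552) (nat_lit 380) (nat_lit 501040234) (nat_lit 97) (nat_lit 5) (nat_lit 101) (nat_lit 5) (nat_lit 102) (nat_lit 5) (nat_lit 363) (nat_lit 318) (nat_lit 99))))) (XT.nd (nat_lit 234) (nat_lit 684) (nat_lit 0) (XT.nd (nat_lit 78) (nat_lit 0) (nat_lit 0) (XT.lf (nat_lit 0) (nat_lit 691410989) (nat_lit 380) (nat_lit 5786354834) (nat_lit 456) (nat_lit 43393056969) (nat_lit 91) (nat_lit 5) (nat_lit 96) (nat_lit 5) (nat_lit 97) (nat_lit 5) (nat_lit 364) (nat_lit 318) (nat_lit 98)) (XT.nd (nat_lit 78) (nat_lit 0) (nat_lit 0) (XT.lf (nat_lit 0) (nat_lit 13990647058) (nat_lit 456) (nat_lit 25814866844) (nat_lit 76) (nat_lit 11035000886) (nat_lit 91) (nat_lit 5) (nat_lit 97) (nat_lit 5) (nat_lit 92) (nat_lit 5) (nat_lit 365) (nat_lit 318) (nat_lit 97)) (XT.lf (nat_lit 0) (nat_lit 21784680211) (nat_lit 456) (nat_lit 1808739530) (nat_lit 76) (nat_lit 28244206286) (nat_lit 91)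 (nat_lit 5) (nat_lit 97) (nat_lit 5) (nat_lit 92) (nat_lit 5) (nat_lit 366) (nat_lit 318) (nat_lit 96)))) (XT.nd (nat_lit 156) (nat_lit 380) (nat_lit 0) (XT.nd (nat_lit 78) (nat_lit 0) (nat_lit 0) (XT.lf (nat_lit 0) (nat_lit 23371633090) (nat_lit 304) (nat_lit 6664082963) (nat_lit 380) (nat_lit 22822240503) (nat_lit 87) (nat_lit 5) (nat_lit 91) (nat_lit 5) (nat_lit 92) (nat_lit 5) (nat_lit 367) (nat_lit 318) (nat_lit 95)) (XT.lf (nat_lit 0) (nat_lit 38654824744) (nat_lit 380) (nat_lit 4669617188) (nat_lit 76) (nat_lit 10580840179) (nat_lit 87) (nat_lit 5) (nat_lit 92) (nat_lit 5) (nat_lit 88) (nat_lit 5) (nat_lit 368) (nat_lit 318) (nat_lit 94))) (XT.nd (nat_lit 78) (nat_lit 76) (nat_lit 0) (XT.lf (nat_lit 0) (nat_lit 21238075942) (nat_lit 304) (nat_lit 26563145982) (nat_lit 380) (nat_lit 7174745377) (nat_lit 83) (nat_lit 5) (nat_lit 87) (nat_lit 5) (nat_lit 88) (nat_lit 5) (nat_lit 369) (nat_lit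 318) (nat_lit 93)) (XT.lf (nat_lit 0) (nat_lit 1167138510) (nat_lit 380) (nat_lit 8072067113) (nat_lit 76) (nat_lit 46837852708) (nat_lit 82) (nat_lit 5) (nat_lit 87) (nat_lit 5) (nat_lit 83) (nat_lit 5) (nat_lit 370) (nat_lit 318) (nat_lit 92)))))) (XT.nd (nat_lit 546) (nat_lit 760) (nat_lit 0) (XT.nd (nat_lit 234) (nat_lit 608) (nat_lit 0) (XT.nd (nat_lit 78) (nat_lit 304) (nat_lit 0) (XT.lf (nat_lit 0) (nat_lit 9878209285) (nat_lit 380) (nat_lit 38634098597) (nat_lit 76) (nat_lit 8688850241) (nat_lit 78) (nat_lit 5) (nat_lit 83) (nat_lit 5) (nat_lit 79) (nat_lit 5) (nat_lit 371) (nat_lit 318) (nat_lit 91)) (XT.nd (nat_lit 78) (nat_lit 304) (nat_lit 0) (XT.lf (nat_lit 0) (nat_lit 19023054446) (nat_lit 380) (nat_lit 12279925251) (nat_lit 76) (nat_lit 27050829119) (nat_lit 78) (nat_lit 5) (nat_lit 83) (nat_lit 5) (nat_lit 79) (nat_lit 5) (nat_lit 372) (nat_lit 318) (nat_lit 90)) (XT.lf (nat_lit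 0) (nat_lit 15158797589) (nat_lit 304) (nat_lit 13427848328) (nat_lit 380) (nat_lit 30950062227) (nat_lit 74) (nat_lit 5) (nat_lit 78) (nat_lit 5) (nat_lit 79) (nat_lit 5) (nat_lit 373) (nat_lit 318) (nat_lit 89)))) (XT.nd (nat_lit 156) (nat_lit 380) (nat_lit 0) (XT.nd (nat_lit 78) (nat_lit 228) (nat_lit 0) (XT.lf (nat_lit 0) (nat_lit 38608981154) (nat_lit 380) (nat_lit 17129992901) (nat_lit 76) (nat_lit 5010966425) (nat_lit 74) (nat_lit 5) (nat_lit 79) (nat_lit 5) (nat_lit 75) (nat_lit 5) (nat_lit 374) (nat_lit 318) (nat_lit 88)) (XT.lf (nat_lit 0) (nat_lit 11015526541) (nat_lit 228) (nat_lit 38154035029) (nat_lit 304) (nat_lit 12822882039) (nat_lit 71) (nat_lit 5) (nat_lit 74) (nat_lit 5) (nat_lit 75) (nat_lit 5) (nat_lit 375) (nat_lit 318) (nat_lit 87))) (XT.nd (nat_lit 78) (nat_lit 380) (nat_lit 0) (XT.lf (nat_lit 0) (nat_lit 40354738312) (nat_lit 228) (nat_lit 19863957819) (nat_lit 304) (nat_lit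 3048374642) (nat_lit 71) (nat_lit 5) (nat_lit 74) (nat_lit 5) (nat_lit 75) (nat_lit 5) (nat_lit 376) (nat_lit 318) (nat_lit 86)) (XT.lf (nat_lit 0) (nat_lit 6042839262) (nat_lit 304) (nat_lit 896423676) (nat_lit 380) (nat_lit 57636944525) (nat_lit 66) (nat_lit 5) (nat_lit 70) (nat_lit 5) (nat_lit 71) (nat_lit 5) (nat_lit 377) (nat_lit 318) (nat_lit 85))))) (XT.nd (nat_lit 234) (nat_lit 532) (nat_lit 0) (XT.nd (nat_lit 78) (nat_lit 228) (nat_lit 0) (XT.lf (nat_lit 0) (nat_lit 17576894714) (nat_lit 380) (nat_lit 29794791173) (nat_lit 76) (nat_lit 18539678831) (nat_lit 66) (nat_lit 5) (nat_lit 71) (nat_lit 5) (nat_lit 67) (nat_lit 5) (nat_lit 378) (nat_lit 318) (nat_lit 84)) (XT.nd (nat_lit 78) (nat_lit 228) (nat_lit 0) (XT.lf (nat_lit 0) (nat_lit 28541359627) (nat_lit 380) (nat_lit 204687067) (nat_lit 76) (nat_lit 38540299802) (nat_lit 66) (nat_lit 5) (nat_lit 71) (nat_lit 5) (nat_lit 67) (nat_lit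 5) (nat_lit 379) (nat_lit 318) (nat_lit 83)) (XT.lf (nat_lit 0) (nat_lit 30873877067) (nat_lit 228) (nat_lit 9256522832) (nat_lit 304) (nat_lit 28563309488) (nat_lit 63) (nat_lit 5) (nat_lit 66) (nat_lit 5) (nat_lit 67) (nat_lit 5) (nat_lit 380) (nat_lit 318) (nat_lit 82)))) (XT.nd (nat_lit 156) (nat_lit 304) (nat_lit 0) (XT.nd (nat_lit 78) (nat_lit 228) (nat_lit 0) (XT.lf (nat_lit 0) (nat_lit 52172059281) (nat_lit 304) (nat_lit 7359959807) (nat_lit 76) (nat_lit 10608126512) (nat_lit 63) (nat_lit 5) (nat_lit 67) (nat_lit 5) (nat_lit 64) (nat_lit 5) (nat_lit 381) (nat_lit 318) (nat_lit 81)) (XT.lf (nat_lit 0) (nat_lit 24396456891) (nat_lit 228) (nat_lit 40503581027) (nat_lit 304) (nat_lit 6720185750) (nat_lit 60) (nat_lit 5) (nat_lit 63) (nat_lit 5) (nat_lit 64) (nat_lit 5) (nat_lit 382) (nat_lit 318) (nat_lit 80))) (XT.nd (nat_lit 78) (nat_lit 228) (nat_lit 0) (XT.lf (nat_lit 0) (nat_lit 4844183785)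 (nat_lit 304) (nat_lit 15935211184) (nat_lit 76) (nat_lit 52361687846) (nat_lit 59) (nat_lit 5) (nat_lit 63) (nat_lit 5) (nat_lit 60) (nat_lit 5) (nat_lit 383) (nat_lit 318) (nat_lit 79)) (XT.lf (nat_lit 0) (nat_lit 16546727413) (nat_lit 228) (nat_lit 231688450) (nat_lit 304) (nat_lit 57922416541) (nat_lit 56) (nat_lit 5) (nat_lit 59) (nat_lit 5) (nat_lit 60) (nat_lit 5) (nat_lit 384) (nat_lit 318) (nat_lit 78))))))))
noncomputable def xc227 : XT := (XT.nd (nat_lit 37128) (nat_lit 0) (nat_lit 3116) (XT.nd (nat_lit 36114) (nat_lit 0) (nat_lit 9120) (XT.nd (nat_lit 35568) (nat_lit 0) (nat_lit 10412) (XT.nd (nat_lit 234) (nat_lit 228) (nat_lit 0) (XT.nd (nat_lit 78) (nat_lit 228) (nat_lit 0) (XT.lf (nat_lit 0) (nat_lit 29433351166) (nat_lit 304) (nat_lit 26177209454) (nat_lit 76) (nat_lit 20685934328) (nat_lit 56) (nat_lit 5) (nat_lit 60) (nat_lit 5) (nat_lit 57) (nat_lit 5) (nat_lit 385) (nat_lit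 318) (nat_lit 77)) (XT.nd (nat_lit 78) (nat_lit 0) (nat_lit 0) (XT.lf (nat_lit 0) (nat_lit 6889552521) (nat_lit 228) (nat_lit 35645886190) (nat_lit 304) (nat_lit 35402564265) (nat_lit 53) (nat_lit 5) (nat_lit 56) (nat_lit 5) (nat_lit 57) (nat_lit 5) (nat_lit 386) (nat_lit 318) (nat_lit 76)) (XT.lf (nat_lit 0) (nat_lit 41483353573) (nat_lit 228) (nat_lit 14810571945) (nat_lit 304) (nat_lit 23326931340) (nat_lit 53) (nat_lit 5) (nat_lit 56) (nat_lit 5) (nat_lit 57) (nat_lit 5) (nat_lit 387) (nat_lit 318) (nat_lit 75)))) (XT.nd (nat_lit 78) (nat_lit 228) (nat_lit 0) (XT.lf (nat_lit 0) (nat_lit 70528110908) (nat_lit 304) (nat_lit 4304699380) (nat_lit 76) (nat_lit 6519498438) (nat_lit 53) (nat_lit 5) (nat_lit 57) (nat_lit 5) (nat_lit 54) (nat_lit 5) (nat_lit 388) (nat_lit 318) (nat_lit 74)) (XT.nd (nat_lit 35178) (nat_lit 0) (nat_lit 10412) (XT.lf (nat_lit 0) (nat_lit 2461615918) (nat_lit 228) (nat_lit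 52146664196) (nat_lit 76) (nat_lit 28513390319) (nat_lit 50) (nat_lit 5) (nat_lit 53) (nat_lit 5) (nat_lit 51) (nat_lit 5) (nat_lit 389) (nat_lit 318) (nat_lit 73)) (XT.lf (nat_lit 0) (nat_lit 1870687418) (nat_lit 0) (nat_lit 1870687418) (nat_lit 1140) (nat_lit 8004655864) (nat_lit 187) (nat_lit 5) (nat_lit 187) (nat_lit 3) (nat_lit 202) (nat_lit 3) (nat_lit 319) (nat_lit 319) (nat_lit 142))))) (XT.nd (nat_lit 234) (nat_lit 0) (nat_lit 76) (XT.nd (nat_lit 78) (nat_lit 0) (nat_lit 0) (XT.lf (nat_lit 0) (nat_lit 7774413866) (nat_lit 1140) (nat_lit 9316170139) (nat_lit 1216) (nat_lit 6748322449) (nat_lit 187) (nat_lit 5) (nat_lit 202) (nat_lit 3) (nat_lit 203) (nat_lit 5) (nat_lit 320) (nat_lit 319) (nat_lit 141)) (XT.nd (nat_lit 78) (nat_lit 0) (nat_lit 76) (XT.lf (nat_lit 76) (nat_lit 1419671365) (nat_lit 0) (nat_lit 6701447595) (nat_lit 1216) (nat_lit 16073655147) (nat_lit 188) (nat_lit 5) (nat_lit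 187) (nat_lit 5) (nat_lit 203) (nat_lit 5) (nat_lit 321) (nat_lit 319) (nat_lit 140)) (XT.lf (nat_lit 0) (nat_lit 8607401211) (nat_lit 1140) (nat_lit 11931810917) (nat_lit 1216) (nat_lit 4018236185) (nat_lit 188) (nat_lit 5) (nat_lit 203) (nat_lit 5) (nat_lit 204) (nat_lit 5) (nat_lit 322) (nat_lit 319) (nat_lit 139)))) (XT.nd (nat_lit 156) (nat_lit 0) (nat_lit 76) (XT.nd (nat_lit 78) (nat_lit 0) (nat_lit 76) (XT.lf (nat_lit 0) (nat_lit 9170472598) (nat_lit 1140) (nat_lit 831998574) (nat_lit 1216) (nat_lit 14926671188) (nat_lit 188) (nat_lit 5) (nat_lit 203) (nat_lit 5) (nat_lit 204) (nat_lit 5) (nat_lit 323) (nat_lit 319) (nat_lit 138)) (XT.lf (nat_lit 0) (nat_lit 9859532253) (nat_lit 1140) (nat_lit 14508834013) (nat_lit 1216) (nat_lit 940353551) (nat_lit 189) (nat_lit 5) (nat_lit 204) (nat_lit 5) (nat_lit 205) (nat_lit 5) (nat_lit 324) (nat_lit 319) (nat_lit 137))) (XT.nd (nat_lit 78) (nat_lit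 0) (nat_lit 0) (XT.lf (nat_lit 0) (nat_lit 10672863709) (nat_lit 1140) (nat_lit 3003240438) (nat_lit 1216) (nat_lit 12020477760) (nat_lit 189) (nat_lit 5) (nat_lit 204) (nat_lit 5) (nat_lit 205) (nat_lit 5) (nat_lit 325) (nat_lit 319) (nat_lit 136)) (XT.lf (nat_lit 76) (nat_lit 9021155990) (nat_lit 0) (nat_lit 2572351044) (nat_lit 1216) (nat_lit 14500090627) (nat_lit 190) (nat_lit 5) (nat_lit 189) (nat_lit 5) (nat_lit 205) (nat_lit 5) (nat_lit 326) (nat_lit 319) (nat_lit 135)))))) (XT.nd (nat_lit 468) (nat_lit 1520) (nat_lit 0) (XT.nd (nat_lit 234) (nat_lit 0) (nat_lit 76) (XT.nd (nat_lit 78) (nat_lit 0) (nat_lit 0) (XT.lf (nat_lit 0) (nat_lit 12653903817) (nat_lit 1140) (nat_lit 5121783757) (nat_lit 1216) (nat_lit 8723477293) (nat_lit 190) (nat_lit 5) (nat_lit 205) (nat_lit 5) (nat_lit 206) (nat_lit 5) (nat_lit 327) (nat_lit 319) (nat_lit 134)) (XT.nd (nat_lit 78) (nat_lit 0) (nat_lit 76) (XT.lf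 (nat_lit 76) (nat_lit 7301979925) (nat_lit 0) (nat_lit 6536196301) (nat_lit 1216) (nat_lit 13075965814) (nat_lit 191) (nat_lit 5) (nat_lit 190) (nat_lit 5) (nat_lit 206) (nat_lit 5) (nat_lit 328) (nat_lit 319) (nat_lit 133)) (XT.lf (nat_lit 0) (nat_lit 15155157047) (nat_lit 1140) (nat_lit 7188063125) (nat_lit 1216) (nat_lit 4995437669) (nat_lit 191) (nat_lit 5) (nat_lit 206) (nat_lit 5) (nat_lit 207) (nat_lit 5) (nat_lit 329) (nat_lit 319) (nat_lit 132)))) (XT.nd (nat_lit 78) (nat_lit 0) (nat_lit 76) (XT.lf (nat_lit 76) (nat_lit 5651876165) (nat_lit 0) (nat_lit 10975413302) (nat_lit 1216) (nat_lit 11145154963) (nat_lit 192) (nat_lit 5) (nat_lit 191) (nat_lit 5) (nat_lit 207) (nat_lit 5) (nat_lit 330) (nat_lit 319) (nat_lit 131)) (XT.nd (nat_lit 78) (nat_lit 0) (nat_lit 0) (XT.lf (nat_lit 0) (nat_lit 18220622397) (nat_lit 1140) (nat_lit 9203019063) (nat_lit 1216) (nat_lit 793296511) (nat_lit 192)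 (nat_lit 5) (nat_lit 207) (nat_lit 5) (nat_lit 208) (nat_lit 5) (nat_lit 331) (nat_lit 319) (nat_lit 130)) (XT.lf (nat_lit 76) (nat_lit 4070345319) (nat_lit 0) (nat_lit 15935983101) (nat_lit 1216) (nat_lit 8664105023) (nat_lit 193) (nat_lit 5) (nat_lit 192) (nat_lit 5) (nat_lit 208) (nat_lit 5) (nat_lit 332) (nat_lit 319) (nat_lit 129))))) (XT.nd (nat_lit 234) (nat_lit 1672) (nat_lit 0) (XT.nd (nat_lit 78) (nat_lit 0) (nat_lit 76) (XT.lf (nat_lit 76) (nat_lit 17928116792) (nat_lit 0) (nat_lit 4007270575) (nat_lit 1216) (nat_lit 7199457153) (nat_lit 193) (nat_lit 5) (nat_lit 192) (nat_lit 5) (nat_lit 208) (nat_lit 5) (nat_lit 333) (nat_lit 319) (nat_lit 128)) (XT.nd (nat_lit 78) (nat_lit 0) (nat_lit 0) (XT.lf (nat_lit 76) (nat_lit 2556251568) (nat_lit 0) (nat_lit 21467172129) (nat_lit 1216) (nat_lit 5586735134) (nat_lit 194) (nat_lit 5) (nat_lit 193) (nat_lit 5) (nat_lit 209) (nat_lit 5) (nat_lit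 334) (nat_lit 319) (nat_lit 127)) (XT.lf (nat_lit 76) (nat_lit 16918928039) (nat_lit 0) (nat_lit 9404638975) (nat_lit 1216) (nat_lit 3771685535) (nat_lit 194) (nat_lit 5) (nat_lit 193) (nat_lit 5) (nat_lit 209) (nat_lit 5) (nat_lit 335) (nat_lit 319) (nat_lit 126)))) (XT.nd (nat_lit 156) (nat_lit 608) (nat_lit 0) (XT.nd (nat_lit 78) (nat_lit 76) (nat_lit 0) (XT.lf (nat_lit 0) (nat_lit 1107695049) (nat_lit 1140) (nat_lit 27621800233) (nat_lit 1216) (nat_lit 1864304212) (nat_lit 179) (nat_lit 5) (nat_lit 194) (nat_lit 5) (nat_lit 195) (nat_lit 5) (nat_lit 336) (nat_lit 319) (nat_lit 125)) (XT.lf (nat_lit 0) (nat_lit 322962973) (nat_lit 1216) (nat_lit 15110885292) (nat_lit 76) (nat_lit 15666690628) (nat_lit 178) (nat_lit 5) (nat_lit 194) (nat_lit 5) (nat_lit 179) (nat_lit 5) (nat_lit 337) (nat_lit 319) (nat_lit 124))) (XT.nd (nat_lit 78) (nat_lit 608) (nat_lit 0) (XT.lf (nat_lit 0) (nat_lit 2535594936)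 (nat_lit 1216) (nat_lit 325309072) (nat_lit 76) (nat_lit 28761109701) (nat_lit 178) (nat_lit 5) (nat_lit 194) (nat_lit 5) (nat_lit 179) (nat_lit 5) (nat_lit 338) (nat_lit 319) (nat_lit 123)) (XT.lf (nat_lit 0) (nat_lit 5056430611) (nat_lit 684) (nat_lit 17055235083) (nat_lit 76) (nat_lit 10040215741) (nat_lit 170) (nat_lit 5) (nat_lit 179) (nat_lit 5) (nat_lit 171) (nat_lit 5) (nat_lit 339) (nat_lit 319) (nat_lit 122))))))) (XT.nd (nat_lit 1014) (nat_lit 2812) (nat_lit 0) (XT.nd (nat_lit 468) (nat_lit 1520) (nat_lit 0) (XT.nd (nat_lit 234) (nat_lit 1064) (nat_lit 0) (XT.nd (nat_lit 78) (nat_lit 608) (nat_lit 0) (XT.lf (nat_lit 0) (nat_lit 7681892122) (nat_lit 684) (nat_lit 1740408253) (nat_lit 76) (nat_lit 23274478106) (nat_lit 170) (nat_lit 5) (nat_lit 179) (nat_lit 5) (nat_lit 171) (nat_lit 5) (nat_lit 340) (nat_lit 319) (nat_lit 121)) (XT.nd (nat_lit 78) (nat_lit 0) (nat_lit 0) (XT.lf (nat_lit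 0) (nat_lit 10557544009) (nat_lit 684) (nat_lit 18979647685) (nat_lit 76) (nat_lit 3715691162) (nat_lit 162) (nat_lit 5) (nat_lit 171) (nat_lit 5) (nat_lit 163) (nat_lit 5) (nat_lit 341) (nat_lit 319) (nat_lit 120)) (XT.lf (nat_lit 0) (nat_lit 13627992645) (nat_lit 684) (nat_lit 3118061136) (nat_lit 76) (nat_lit 17076363884) (nat_lit 162) (nat_lit 5) (nat_lit 171) (nat_lit 5) (nat_lit 163) (nat_lit 5) (nat_lit 342) (nat_lit 319) (nat_lit 119)))) (XT.nd (nat_lit 78) (nat_lit 532) (nat_lit 0) (XT.lf (nat_lit 0) (nat_lit 13480069695) (nat_lit 532) (nat_lit 3437625248) (nat_lit 608) (nat_lit 17487532400) (nat_lit 155) (nat_lit 5) (nat_lit 162) (nat_lit 5) (nat_lit 163) (nat_lit 5) (nat_lit 343) (nat_lit 319) (nat_lit 118)) (XT.nd (nat_lit 78) (nat_lit 532) (nat_lit 0) (XT.lf (nat_lit 0) (nat_lit 20434219245) (nat_lit 608) (nat_lit 4465949147) (nat_lit 76) (nat_lit 10101511931) (nat_lit 155) (nat_lit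 5) (nat_lit 163) (nat_lit 5) (nat_lit 156) (nat_lit 5) (nat_lit 344) (nat_lit 319) (nat_lit 117)) (XT.lf (nat_lit 0) (nat_lit 12698462095) (nat_lit 532) (nat_lit 11511558871) (nat_lit 608) (nat_lit 11401395332) (nat_lit 148) (nat_lit 5) (nat_lit 155) (nat_lit 5) (nat_lit 156) (nat_lit 5) (nat_lit 345) (nat_lit 319) (nat_lit 116))))) (XT.nd (nat_lit 234) (nat_lit 1064) (nat_lit 0) (XT.nd (nat_lit 78) (nat_lit 456) (nat_lit 0) (XT.lf (nat_lit 0) (nat_lit 28164270391) (nat_lit 608) (nat_lit 5793467216) (nat_lit 76) (nat_lit 2279754306) (nat_lit 148) (nat_lit 5) (nat_lit 156) (nat_lit 5) (nat_lit 149) (nat_lit 5) (nat_lit 346) (nat_lit 319) (nat_lit 115)) (XT.nd (nat_lit 78) (nat_lit 0) (nat_lit 0) (XT.lf (nat_lit 0) (nat_lit 11956636679) (nat_lit 456) (nat_lit 20507212676) (nat_lit 532) (nat_lit 4411702073) (nat_lit 142) (nat_lit 5) (nat_lit 148) (nat_lit 5) (nat_lit 149) (nat_lit 5) (nat_lit 347)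 (nat_lit 319) (nat_lit 114)) (XT.lf (nat_lit 0) (nat_lit 30355717808) (nat_lit 456) (nat_lit 6593034599) (nat_lit 532) (nat_lit 582312831) (nat_lit 142) (nat_lit 5) (nat_lit 148) (nat_lit 5) (nat_lit 149) (nat_lit 5) (nat_lit 348) (nat_lit 319) (nat_lit 113)))) (XT.nd (nat_lit 156) (nat_lit 456) (nat_lit 0) (XT.nd (nat_lit 78) (nat_lit 0) (nat_lit 0) (XT.lf (nat_lit 0) (nat_lit 3478498328) (nat_lit 608) (nat_lit 26991687914) (nat_lit 76) (nat_lit 7729626844) (nat_lit 134) (nat_lit 5) (nat_lit 142) (nat_lit 5) (nat_lit 135) (nat_lit 5) (nat_lit 349) (nat_lit 319) (nat_lit 112)) (XT.lf (nat_lit 0) (nat_lit 7785794526) (nat_lit 608) (nat_lit 8670326287) (nat_lit 76) (nat_lit 22428241046) (nat_lit 134) (nat_lit 5) (nat_lit 142) (nat_lit 5) (nat_lit 135) (nat_lit 5) (nat_lit 350) (nat_lit 319) (nat_lit 111))) (XT.nd (nat_lit 78) (nat_lit 0) (nat_lit 0) (XT.lf (nat_lit 0) (nat_lit 10401406522) (nat_lit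 456) (nat_lit 1918861271) (nat_lit 532) (nat_lit 27266242876) (nat_lit 128) (nat_lit 5) (nat_lit 134) (nat_lit 5) (nat_lit 135) (nat_lit 5) (nat_lit 351) (nat_lit 319) (nat_lit 110)) (XT.lf (nat_lit 0) (nat_lit 17202692442) (nat_lit 532) (nat_lit 10212704051) (nat_lit 76) (nat_lit 12887972190) (nat_lit 128) (nat_lit 5) (nat_lit 135) (nat_lit 5) (nat_lit 129) (nat_lit 5) (nat_lit 352) (nat_lit 319) (nat_lit 109)))))) (XT.nd (nat_lit 546) (nat_lit 1140) (nat_lit 0) (XT.nd (nat_lit 234) (nat_lit 836) (nat_lit 0) (XT.nd (nat_lit 78) (nat_lit 380) (nat_lit 0) (XT.lf (nat_lit 0) (nat_lit 9492900042) (nat_lit 456) (nat_lit 12847006994) (nat_lit 532) (nat_lit 18698578073) (nat_lit 122) (nat_lit 5) (nat_lit 128) (nat_lit 5) (nat_lit 129) (nat_lit 5) (nat_lit 353) (nat_lit 319) (nat_lit 108)) (XT.nd (nat_lit 78) (nat_lit 380) (nat_lit 0) (XT.lf (nat_lit 0) (nat_lit 27754235106) (nat_lit 532) (nat_lit 11817552408)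 (nat_lit 76) (nat_lit 2220179727) (nat_lit 122) (nat_lit 5) (nat_lit 129) (nat_lit 5) (nat_lit 123) (nat_lit 5) (nat_lit 354) (nat_lit 319) (nat_lit 107)) (XT.lf (nat_lit 0) (nat_lit 8539581875) (nat_lit 380) (nat_lit 24998851760) (nat_lit 456) (nat_lit 9023399047) (nat_lit 117) (nat_lit 5) (nat_lit 122) (nat_lit 5) (nat_lit 123) (nat_lit 5) (nat_lit 355) (nat_lit 319) (nat_lit 106)))) (XT.nd (nat_lit 156) (nat_lit 380) (nat_lit 0) (XT.nd (nat_lit 78) (nat_lit 456) (nat_lit 0) (XT.lf (nat_lit 0) (nat_lit 29747520524) (nat_lit 380) (nat_lit 9866159546) (nat_lit 456) (nat_lit 3737590360) (nat_lit 117) (nat_lit 5) (nat_lit 122) (nat_lit 5) (nat_lit 123) (nat_lit 5) (nat_lit 356) (nat_lit 319) (nat_lit 105)) (XT.lf (nat_lit 0) (nat_lit 1800210461) (nat_lit 456) (nat_lit 36661426646) (nat_lit 76) (nat_lit 5698462182) (nat_lit 111) (nat_lit 5) (nat_lit 117) (nat_lit 5) (nat_lit 112) (nat_lit 5) (nat_lit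 357) (nat_lit 319) (nat_lit 104))) (XT.nd (nat_lit 78) (nat_lit 380) (nat_lit 0) (XT.lf (nat_lit 0) (nat_lit 7663688808) (nat_lit 456) (nat_lit 15614253355) (nat_lit 76) (nat_lit 21707102548) (nat_lit 111) (nat_lit 5) (nat_lit 117) (nat_lit 5) (nat_lit 112) (nat_lit 5) (nat_lit 358) (nat_lit 319) (nat_lit 103)) (XT.lf (nat_lit 0) (nat_lit 6182886311) (nat_lit 380) (nat_lit 7577919177) (nat_lit 456) (nat_lit 32072202767) (nat_lit 106) (nat_lit 5) (nat_lit 111) (nat_lit 5) (nat_lit 112) (nat_lit 5) (nat_lit 359) (nat_lit 319) (nat_lit 102))))) (XT.nd (nat_lit 234) (nat_lit 760) (nat_lit 0) (XT.nd (nat_lit 78) (nat_lit 380) (nat_lit 0) (XT.lf (nat_lit 0) (nat_lit 20280998209) (nat_lit 456) (nat_lit 17833953280) (nat_lit 76) (nat_lit 8584256068) (nat_lit 106) (nat_lit 5) (nat_lit 112) (nat_lit 5) (nat_lit 107) (nat_lit 5) (nat_lit 360) (nat_lit 319) (nat_lit 101)) (XT.nd (nat_lit 78) (nat_lit 0) (nat_lit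 0) (XT.lf (nat_lit 0) (nat_lit 4650352068) (nat_lit 380) (nat_lit 22464550232) (nat_lit 456) (nat_lit 20472949047) (nat_lit 101) (nat_lit 5) (nat_lit 106) (nat_lit 5) (nat_lit 107) (nat_lit 5) (nat_lit 361) (nat_lit 319) (nat_lit 100)) (XT.lf (nat_lit 0) (nat_lit 28172720785) (nat_lit 380) (nat_lit 6159593034) (nat_lit 456) (nat_lit 14165487551) (nat_lit 101) (nat_lit 5) (nat_lit 106) (nat_lit 5) (nat_lit 107) (nat_lit 5) (nat_lit 362) (nat_lit 319) (nat_lit 99)))) (XT.nd (nat_lit 156) (nat_lit 456) (nat_lit 0) (XT.nd (nat_lit 78) (nat_lit 0) (nat_lit 0) (XT.lf (nat_lit 0) (nat_lit 2918405066) (nat_lit 304) (nat_lit 38976566266) (nat_lit 380) (nat_lit 7536218433) (nat_lit 97) (nat_lit 5) (nat_lit 101) (nat_lit 5) (nat_lit 102) (nat_lit 5) (nat_lit 363) (nat_lit 319) (nat_lit 98)) (XT.lf (nat_lit 0) (nat_lit 27211630840) (nat_lit 304) (nat_lit 22736980059) (nat_lit 380) (nat_lit 436047379) (nat_lit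 97) (nat_lit 5) (nat_lit 101) (nat_lit 5) (nat_lit 102) (nat_lit 5) (nat_lit 364) (nat_lit 319) (nat_lit 97))) (XT.nd (nat_lit 78) (nat_lit 0) (nat_lit 0) (XT.lf (nat_lit 0) (nat_lit 814732059) (nat_lit 380) (nat_lit 5934529977) (nat_lit 456) (nat_lit 44615297116) (nat_lit 91) (nat_lit 5) (nat_lit 96) (nat_lit 5) (nat_lit 97) (nat_lit 5) (nat_lit 365) (nat_lit 319) (nat_lit 96)) (XT.lf (nat_lit 0) (nat_lit 14485519429) (nat_lit 456) (nat_lit 26487640272) (nat_lit 76) (nat_lit 11390244655) (nat_lit 91) (nat_lit 5) (nat_lit 97) (nat_lit 5) (nat_lit 92) (nat_lit 5) (nat_lit 366) (nat_lit 319) (nat_lit 95))))))))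
noncomputable def xc228 : XT := (XT.nd (nat_lit 37206) (nat_lit 0) (nat_lit 6764) (XT.nd (nat_lit 1014) (nat_lit 988) (nat_lit 0) (XT.nd (nat_lit 468) (nat_lit 912) (nat_lit 0) (XT.nd (nat_lit 234) (nat_lit 684) (nat_lit 0) (XT.nd (nat_lit 78) (nat_lit 304) (nat_lit 0) (XT.lf (nat_lit 0) (nat_lit 22511184655) (nat_lit 456) (nat_lit 1764290476) (nat_lit 76) (nat_lit 29115021544) (nat_lit 91) (nat_lit 5) (nat_lit 97) (nat_lit 5) (nat_lit 92) (nat_lit 5) (nat_lit 367) (nat_lit 319) (nat_lit 94)) (XT.nd (nat_lit 78) (nat_lit 0) (nat_lit 0) (XT.lf (nat_lit 0) (nat_lit 24170525565) (nat_lit 304) (nat_lit 6838040411) (nat_lit 380) (nat_lit 23432908727) (nat_lit 87) (nat_lit 5) (nat_lit 91) (nat_lit 5) (nat_lit 92) (nat_lit 5) (nat_lit 368) (nat_lit 319) (nat_lit 93)) (XT.lf (nat_lit 0) (nat_lit 39884399616) (nat_lit 380) (nat_lit 4712895569) (nat_lit 76) (nat_lit 10922982248) (nat_lit 87) (nat_lit 5)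 (nat_lit 92) (nat_lit 5) (nat_lit 88) (nat_lit 5) (nat_lit 369) (nat_lit 319) (nat_lit 92)))) (XT.nd (nat_lit 78) (nat_lit 380) (nat_lit 0) (XT.lf (nat_lit 0) (nat_lit 21971079236) (nat_lit 304) (nat_lit 27332994150) (nat_lit 380) (nat_lit 7319045151) (nat_lit 83) (nat_lit 5) (nat_lit 87) (nat_lit 5) (nat_lit 88) (nat_lit 5) (nat_lit 370) (nat_lit 319) (nat_lit 91)) (XT.nd (nat_lit 78) (nat_lit 304) (nat_lit 0) (XT.lf (nat_lit 0) (nat_lit 1269684938) (nat_lit 380) (nat_lit 8219756452) (nat_lit 76) (nat_lit 48267843020) (nat_lit 82) (nat_lit 5) (nat_lit 87) (nat_lit 5) (nat_lit 83) (nat_lit 5) (nat_lit 371) (nat_lit 319) (nat_lit 90)) (XT.lf (nat_lit 0) (nat_lit 10241280431) (nat_lit 380) (nat_lit 39697783511) (nat_lit 76) (nat_lit 8976069214) (nat_lit 78) (nat_lit 5) (nat_lit 83) (nat_lit 5) (nat_lit 79) (nat_lit 5) (nat_lit 372) (nat_lit 319) (nat_lit 89))))) (XT.nd (nat_lit 234) (nat_lit 608)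 (nat_lit 0) (XT.nd (nat_lit 78) (nat_lit 304) (nat_lit 0) (XT.lf (nat_lit 0) (nat_lit 19658527504) (nat_lit 380) (nat_lit 12555761802) (nat_lit 76) (nat_lit 27888134057) (nat_lit 78) (nat_lit 5) (nat_lit 83) (nat_lit 5) (nat_lit 79) (nat_lit 5) (nat_lit 373) (nat_lit 319) (nat_lit 88)) (XT.nd (nat_lit 78) (nat_lit 0) (nat_lit 0) (XT.lf (nat_lit 0) (nat_lit 15705215261) (nat_lit 304) (nat_lit 13802805653) (nat_lit 380) (nat_lit 31812820570) (nat_lit 74) (nat_lit 5) (nat_lit 78) (nat_lit 5) (nat_lit 79) (nat_lit 5) (nat_lit 374) (nat_lit 319) (nat_lit 87)) (XT.lf (nat_lit 0) (nat_lit 39829428842) (nat_lit 380) (nat_lit 17553258059) (nat_lit 76) (nat_lit 5187833400) (nat_lit 74) (nat_lit 5) (nat_lit 79) (nat_lit 5) (nat_lit 75) (nat_lit 5) (nat_lit 375) (nat_lit 319) (nat_lit 86)))) (XT.nd (nat_lit 156) (nat_lit 380) (nat_lit 0) (XT.nd (nat_lit 78) (nat_lit 0) (nat_lit 0) (XT.lf (nat_lit 0) (nat_lit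 11435738391) (nat_lit 228) (nat_lit 39270139956) (nat_lit 304) (nat_lit 13144450173) (nat_lit 71) (nat_lit 5) (nat_lit 74) (nat_lit 5) (nat_lit 75) (nat_lit 5) (nat_lit 376) (nat_lit 319) (nat_lit 85)) (XT.lf (nat_lit 0) (nat_lit 41652512553) (nat_lit 228) (nat_lit 20432190997) (nat_lit 304) (nat_lit 3078545952) (nat_lit 71) (nat_lit 5) (nat_lit 74) (nat_lit 5) (nat_lit 75) (nat_lit 5) (nat_lit 377) (nat_lit 319) (nat_lit 84))) (XT.nd (nat_lit 78) (nat_lit 0) (nat_lit 0) (XT.lf (nat_lit 0) (nat_lit 6311634431) (nat_lit 304) (nat_lit 894981709) (nat_lit 380) (nat_lit 59305055158) (nat_lit 66) (nat_lit 5) (nat_lit 70) (nat_lit 5) (nat_lit 71) (nat_lit 5) (nat_lit 378) (nat_lit 319) (nat_lit 83)) (XT.lf (nat_lit 0) (nat_lit 18161917754) (nat_lit 380) (nat_lit 30602168880) (nat_lit 76) (nat_lit 19122841784) (nat_lit 66) (nat_lit 5) (nat_lit 71) (nat_lit 5) (nat_lit 67) (nat_lit 5) (nat_lit 379) (nat_lit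 319) (nat_lit 82)))))) (XT.nd (nat_lit 468) (nat_lit 228) (nat_lit 0) (XT.nd (nat_lit 234) (nat_lit 532) (nat_lit 0) (XT.nd (nat_lit 78) (nat_lit 228) (nat_lit 0) (XT.lf (nat_lit 0) (nat_lit 29453635560) (nat_lit 380) (nat_lit 126880078) (nat_lit 76) (nat_lit 39722695775) (nat_lit 66) (nat_lit 5) (nat_lit 71) (nat_lit 5) (nat_lit 67) (nat_lit 5) (nat_lit 380) (nat_lit 319) (nat_lit 81)) (XT.nd (nat_lit 78) (nat_lit 0) (nat_lit 0) (XT.lf (nat_lit 0) (nat_lit 31883217964) (nat_lit 228) (nat_lit 9506296028) (nat_lit 304) (nat_lit 29363307482) (nat_lit 63) (nat_lit 5) (nat_lit 66) (nat_lit 5) (nat_lit 67) (nat_lit 5) (nat_lit 381) (nat_lit 319) (nat_lit 80)) (XT.lf (nat_lit 0) (nat_lit 53791075918) (nat_lit 304) (nat_lit 7498666009) (nat_lit 76) (nat_lit 10952950522) (nat_lit 63) (nat_lit 5) (nat_lit 67) (nat_lit 5) (nat_lit 64) (nat_lit 5) (nat_lit 382) (nat_lit 319) (nat_lit 79)))) (XT.nd (nat_lit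 78) (nat_lit 304) (nat_lit 0) (XT.lf (nat_lit 0) (nat_lit 25209638360) (nat_lit 228) (nat_lit 41690468353) (nat_lit 304) (nat_lit 6867090980) (nat_lit 60) (nat_lit 5) (nat_lit 63) (nat_lit 5) (nat_lit 64) (nat_lit 5) (nat_lit 383) (nat_lit 319) (nat_lit 78)) (XT.nd (nat_lit 78) (nat_lit 228) (nat_lit 0) (XT.lf (nat_lit 0) (nat_lit 5041580116) (nat_lit 304) (nat_lit 16333272729) (nat_lit 76) (nat_lit 53958862010) (nat_lit 59) (nat_lit 5) (nat_lit 63) (nat_lit 5) (nat_lit 60) (nat_lit 5) (nat_lit 384) (nat_lit 319) (nat_lit 77)) (XT.lf (nat_lit 0) (nat_lit 17122339763) (nat_lit 228) (nat_lit 210744187) (nat_lit 304) (nat_lit 59607196753) (nat_lit 56) (nat_lit 5) (nat_lit 59) (nat_lit 5) (nat_lit 60) (nat_lit 5) (nat_lit 385) (nat_lit 319) (nat_lit 76))))) (XT.nd (nat_lit 234) (nat_lit 0) (nat_lit 0) (XT.nd (nat_lit 78) (nat_lit 228) (nat_lit 0) (XT.lf (nat_lit 0) (nat_lit 30366433016) (nat_lit 304)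 (nat_lit 26884351896) (nat_lit 76) (nat_lit 21333066324) (nat_lit 56) (nat_lit 5) (nat_lit 60) (nat_lit 5) (nat_lit 57) (nat_lit 5) (nat_lit 386) (nat_lit 319) (nat_lit 75)) (XT.nd (nat_lit 78) (nat_lit 0) (nat_lit 0) (XT.lf (nat_lit 0) (nat_lit 7173646528) (nat_lit 228) (nat_lit 36687222068) (nat_lit 304) (nat_lit 36413758399) (nat_lit 53) (nat_lit 5) (nat_lit 56) (nat_lit 5) (nat_lit 57) (nat_lit 5) (nat_lit 387) (nat_lit 319) (nat_lit 74)) (XT.lf (nat_lit 0) (nat_lit 42803007026) (nat_lit 228) (nat_lit 15227665115) (nat_lit 304) (nat_lit 23977338509) (nat_lit 53) (nat_lit 5) (nat_lit 56) (nat_lit 5) (nat_lit 57) (nat_lit 5) (nat_lit 388) (nat_lit 319) (nat_lit 73)))) (XT.nd (nat_lit 35334) (nat_lit 0) (nat_lit 10184) (XT.nd (nat_lit 35256) (nat_lit 0) (nat_lit 10184) (XT.lf (nat_lit 0) (nat_lit 72690741178) (nat_lit 304) (nat_lit 4359701462) (nat_lit 76) (nat_lit 6740998683) (nat_lit 53) (nat_lit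 5) (nat_lit 57) (nat_lit 5) (nat_lit 54) (nat_lit 5) (nat_lit 389) (nat_lit 319) (nat_lit 72)) (XT.lf (nat_lit 0) (nat_lit 1982895126) (nat_lit 0) (nat_lit 1982895126) (nat_lit 1140) (nat_lit 8129104436) (nat_lit 187) (nat_lit 5) (nat_lit 187) (nat_lit 3) (nat_lit 202) (nat_lit 3) (nat_lit 320) (nat_lit 320) (nat_lit 140))) (XT.nd (nat_lit 78) (nat_lit 0) (nat_lit 0) (XT.lf (nat_lit 0) (nat_lit 8224413326) (nat_lit 1140) (nat_lit 9478872404) (nat_lit 1216) (nat_lit 6843990327) (nat_lit 187) (nat_lit 5) (nat_lit 202) (nat_lit 3) (nat_lit 203) (nat_lit 5) (nat_lit 321) (nat_lit 320) (nat_lit 139)) (XT.lf (nat_lit 76) (nat_lit 1577899415) (nat_lit 0) (nat_lit 6998418137) (nat_lit 1216) (nat_lit 16337666830) (nat_lit 188) (nat_lit 5) (nat_lit 187) (nat_lit 5) (nat_lit 203) (nat_lit 5) (nat_lit 322) (nat_lit 320) (nat_lit 138))))))) (XT.nd (nat_lit 1014) (nat_lit 3496) (nat_lit 0) (XT.nd (nat_lit 468)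 (nat_lit 0) (nat_lit 152) (XT.nd (nat_lit 234) (nat_lit 0) (nat_lit 76) (XT.nd (nat_lit 78) (nat_lit 0) (nat_lit 0) (XT.lf (nat_lit 0) (nat_lit 9070130930) (nat_lit 1140) (nat_lit 12170160422) (nat_lit 1216) (nat_lit 4047467513) (nat_lit 188) (nat_lit 5) (nat_lit 203) (nat_lit 5) (nat_lit 204) (nat_lit 5) (nat_lit 323) (nat_lit 320) (nat_lit 137)) (XT.nd (nat_lit 78) (nat_lit 0) (nat_lit 76) (XT.lf (nat_lit 0) (nat_lit 9644137924) (nat_lit 1140) (nat_lit 740837344) (nat_lit 1216) (nat_lit 15285815248) (nat_lit 188) (nat_lit 5) (nat_lit 203) (nat_lit 5) (nat_lit 204) (nat_lit 5) (nat_lit 324) (nat_lit 320) (nat_lit 136)) (XT.lf (nat_lit 0) (nat_lit 10348433265) (nat_lit 1140) (nat_lit 14822280013) (nat_lit 1216) (nat_lit 891212953) (nat_lit 189) (nat_lit 5) (nat_lit 204) (nat_lit 5) (nat_lit 205) (nat_lit 5) (nat_lit 325) (nat_lit 320) (nat_lit 135)))) (XT.nd (nat_lit 78) (nat_lit 0) (nat_lit 0)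 (XT.lf (nat_lit 0) (nat_lit 11180539955) (nat_lit 1140) (nat_lit 2975066758) (nat_lit 1216) (nat_lit 12305993837) (nat_lit 189) (nat_lit 5) (nat_lit 204) (nat_lit 5) (nat_lit 205) (nat_lit 5) (nat_lit 326) (nat_lit 320) (nat_lit 134)) (XT.nd (nat_lit 78) (nat_lit 0) (nat_lit 76) (XT.lf (nat_lit 76) (nat_lit 9408902044) (nat_lit 0) (nat_lit 2715565397) (nat_lit 1216) (nat_lit 14746196788) (nat_lit 190) (nat_lit 5) (nat_lit 189) (nat_lit 5) (nat_lit 205) (nat_lit 5) (nat_lit 327) (nat_lit 320) (nat_lit 133)) (XT.lf (nat_lit 0) (nat_lit 13210725149) (nat_lit 1140) (nat_lit 5155546406) (nat_lit 1216) (nat_lit 8922312613) (nat_lit 190) (nat_lit 5) (nat_lit 205) (nat_lit 5) (nat_lit 206) (nat_lit 5) (nat_lit 328) (nat_lit 320) (nat_lit 132))))) (XT.nd (nat_lit 234) (nat_lit 0) (nat_lit 152) (XT.nd (nat_lit 78) (nat_lit 0) (nat_lit 76) (XT.lf (nat_lit 76) (nat_lit 7639754785) (nat_lit 0) (nat_lit 6786750822)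 (nat_lit 1216) (nat_lit 13289632629) (nat_lit 191) (nat_lit 5) (nat_lit 190) (nat_lit 5) (nat_lit 206) (nat_lit 5) (nat_lit 329) (nat_lit 320) (nat_lit 131)) (XT.nd (nat_lit 78) (nat_lit 0) (nat_lit 0) (XT.lf (nat_lit 0) (nat_lit 15777443320) (nat_lit 1140) (nat_lit 7282668986) (nat_lit 1216) (nat_lit 5093450553) (nat_lit 191) (nat_lit 5) (nat_lit 206) (nat_lit 5) (nat_lit 207) (nat_lit 5) (nat_lit 330) (nat_lit 320) (nat_lit 130)) (XT.lf (nat_lit 76) (nat_lit 5941281855) (nat_lit 0) (nat_lit 11348727451) (nat_lit 1216) (nat_lit 11310472229) (nat_lit 192) (nat_lit 5) (nat_lit 191) (nat_lit 5) (nat_lit 207) (nat_lit 5) (nat_lit 331) (nat_lit 320) (nat_lit 129)))) (XT.nd (nat_lit 156) (nat_lit 0) (nat_lit 0) (XT.nd (nat_lit 78) (nat_lit 0) (nat_lit 0) (XT.lf (nat_lit 0) (nat_lit 18925957285) (nat_lit 1140) (nat_lit 9357353241) (nat_lit 1216) (nat_lit 775161289) (nat_lit 192) (nat_lit 5) (nat_lit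 207) (nat_lit 5) (nat_lit 208) (nat_lit 5) (nat_lit 332) (nat_lit 320) (nat_lit 128)) (XT.lf (nat_lit 76) (nat_lit 4313018383) (nat_lit 0) (nat_lit 16448752226) (nat_lit 1216) (nat_lit 8763911656) (nat_lit 193) (nat_lit 5) (nat_lit 192) (nat_lit 5) (nat_lit 208) (nat_lit 5) (nat_lit 333) (nat_lit 320) (nat_lit 127))) (XT.nd (nat_lit 78) (nat_lit 0) (nat_lit 76) (XT.lf (nat_lit 76) (nat_lit 18583011465) (nat_lit 0) (nat_lit 4161167947) (nat_lit 1216) (nat_lit 7259987938) (nat_lit 193) (nat_lit 5) (nat_lit 192) (nat_lit 5) (nat_lit 208) (nat_lit 5) (nat_lit 334) (nat_lit 320) (nat_lit 126)) (XT.lf (nat_lit 76) (nat_lit 2753839503) (nat_lit 0) (nat_lit 22137474975) (nat_lit 1216) (nat_lit 5602538726) (nat_lit 194) (nat_lit 5) (nat_lit 193) (nat_lit 5) (nat_lit 209) (nat_lit 5) (nat_lit 335) (nat_lit 320) (nat_lit 125)))))) (XT.nd (nat_lit 546) (nat_lit 1520) (nat_lit 0) (XT.nd (nat_lit 234) (nat_lit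 1216) (nat_lit 0) (XT.nd (nat_lit 78) (nat_lit 1140) (nat_lit 0) (XT.lf (nat_lit 76) (nat_lit 17543874897) (nat_lit 0) (nat_lit 9712300166) (nat_lit 1216) (nat_lit 3737458953) (nat_lit 194) (nat_lit 5) (nat_lit 193) (nat_lit 5) (nat_lit 209) (nat_lit 5) (nat_lit 336) (nat_lit 320) (nat_lit 124)) (XT.nd (nat_lit 78) (nat_lit 76) (nat_lit 0) (XT.lf (nat_lit 0) (nat_lit 1261829298) (nat_lit 1140) (nat_lit 28469213725) (nat_lit 1216) (nat_lit 1776196999) (nat_lit 179) (nat_lit 5) (nat_lit 194) (nat_lit 5) (nat_lit 195) (nat_lit 5) (nat_lit 337) (nat_lit 320) (nat_lit 123)) (XT.lf (nat_lit 0) (nat_lit 469764165) (nat_lit 1216) (nat_lit 15443928075) (nat_lit 76) (nat_lit 16115576417) (nat_lit 178) (nat_lit 5) (nat_lit 194) (nat_lit 5) (nat_lit 179) (nat_lit 5) (nat_lit 338) (nat_lit 320) (nat_lit 122)))) (XT.nd (nat_lit 156) (nat_lit 608) (nat_lit 0) (XT.nd (nat_lit 78) (nat_lit 608) (nat_lit 0) (XT.lf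 (nat_lit 0) (nat_lit 2744781525) (nat_lit 1216) (nat_lit 218287979) (nat_lit 76) (nat_lit 29603443060) (nat_lit 178) (nat_lit 5) (nat_lit 194) (nat_lit 5) (nat_lit 179) (nat_lit 5) (nat_lit 339) (nat_lit 320) (nat_lit 121)) (XT.lf (nat_lit 0) (nat_lit 5338335110) (nat_lit 684) (nat_lit 17447041509) (nat_lit 76) (nat_lit 10326991811) (nat_lit 170) (nat_lit 5) (nat_lit 179) (nat_lit 5) (nat_lit 171) (nat_lit 5) (nat_lit 340) (nat_lit 320) (nat_lit 120))) (XT.nd (nat_lit 78) (nat_lit 608) (nat_lit 0) (XT.lf (nat_lit 0) (nat_lit 8038767895) (nat_lit 684) (nat_lit 1676260669) (nat_lit 76) (nat_lit 23958702350) (nat_lit 170) (nat_lit 5) (nat_lit 179) (nat_lit 5) (nat_lit 171) (nat_lit 5) (nat_lit 341) (nat_lit 320) (nat_lit 119)) (XT.lf (nat_lit 0) (nat_lit 10998031875) (nat_lit 684) (nat_lit 19429866082) (nat_lit 76) (nat_lit 3818704800) (nat_lit 162) (nat_lit 5) (nat_lit 171) (nat_lit 5) (nat_lit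 163) (nat_lit 5) (nat_lit 342) (nat_lit 320) (nat_lit 118))))) (XT.nd (nat_lit 234) (nat_lit 988) (nat_lit 0) (XT.nd (nat_lit 78) (nat_lit 532) (nat_lit 0) (XT.lf (nat_lit 0) (nat_lit 14156989265) (nat_lit 684) (nat_lit 3095902937) (nat_lit 76) (nat_lit 17580444027) (nat_lit 162) (nat_lit 5) (nat_lit 171) (nat_lit 5) (nat_lit 163) (nat_lit 5) (nat_lit 343) (nat_lit 320) (nat_lit 117)) (XT.nd (nat_lit 78) (nat_lit 0) (nat_lit 0) (XT.lf (nat_lit 0) (nat_lit 13999037504) (nat_lit 532) (nat_lit 3543946690) (nat_lit 608) (nat_lit 17890722304) (nat_lit 155) (nat_lit 5) (nat_lit 162) (nat_lit 5) (nat_lit 163) (nat_lit 5) (nat_lit 344) (nat_lit 320) (nat_lit 116)) (XT.lf (nat_lit 0) (nat_lit 21161544572) (nat_lit 608) (nat_lit 4485098424) (nat_lit 76) (nat_lit 10401518082) (nat_lit 155) (nat_lit 5) (nat_lit 163) (nat_lit 5) (nat_lit 156) (nat_lit 5) (nat_lit 345) (nat_lit 320) (nat_lit 115)))) (XT.nd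 (nat_lit 156) (nat_lit 456) (nat_lit 0) (XT.nd (nat_lit 78) (nat_lit 0) (nat_lit 0) (XT.lf (nat_lit 0) (nat_lit 13193119379) (nat_lit 532) (nat_lit 11855264863) (nat_lit 608) (nat_lit 11627876071) (nat_lit 148) (nat_lit 5) (nat_lit 155) (nat_lit 5) (nat_lit 156) (nat_lit 5) (nat_lit 346) (nat_lit 320) (nat_lit 114)) (XT.lf (nat_lit 0) (nat_lit 29118012502) (nat_lit 608) (nat_lit 5853498298) (nat_lit 76) (nat_lit 2349708835) (nat_lit 148) (nat_lit 5) (nat_lit 156) (nat_lit 5) (nat_lit 149) (nat_lit 5) (nat_lit 347) (nat_lit 320) (nat_lit 113))) (XT.nd (nat_lit 78) (nat_lit 0) (nat_lit 0) (XT.lf (nat_lit 0) (nat_lit 12427993293) (nat_lit 456) (nat_lit 21116499135) (nat_lit 532) (nat_lit 4433994962) (nat_lit 142) (nat_lit 5) (nat_lit 148) (nat_lit 5) (nat_lit 149) (nat_lit 5) (nat_lit 348) (nat_lit 320) (nat_lit 112)) (XT.lf (nat_lit 0) (nat_lit 31375765569) (nat_lit 456) (nat_lit 6785068432) (nat_lit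 532) (nat_lit 492929620) (nat_lit 142) (nat_lit 5) (nat_lit 148) (nat_lit 5) (nat_lit 149) (nat_lit 5) (nat_lit 349) (nat_lit 320) (nat_lit 111))))))))
noncomputable def xc229 : XT := (XT.nd (nat_lit 2028) (nat_lit 1596) (nat_lit 0) (XT.nd (nat_lit 1014) (nat_lit 2052) (nat_lit 0) (XT.nd (nat_lit 468) (nat_lit 1596) (nat_lit 0) (XT.nd (nat_lit 234) (nat_lit 456) (nat_lit 0) (XT.nd (nat_lit 78) (nat_lit 456) (nat_lit 0) (XT.lf (nat_lit 0) (nat_lit 3685705518) (nat_lit 608) (nat_lit 27687822779) (nat_lit 76) (nat_lit 7969075787) (nat_lit 134) (nat_lit 5) (nat_lit 142) (nat_lit 5) (nat_lit 135) (nat_lit 5) (nat_lit 350) (nat_lit 320) (nat_lit 110)) (XT.nd (nat_lit 78) (nat_lit 456) (nat_lit 0) (XT.lf (nat_lit 0) (nat_lit 8119224905) (nat_lit 608) (nat_lit 8820129500) (nat_lit 76) (nat_lit 23108428217) (nat_lit 134) (nat_lit 5) (nat_lit 142) (nat_lit 5) (nat_lit 135) (nat_lit 5) (nat_lit 351) (nat_lit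 320) (nat_lit 109)) (XT.lf (nat_lit 0) (nat_lit 10822673857) (nat_lit 456) (nat_lit 1965200009) (nat_lit 532) (nat_lit 27983181118) (nat_lit 128) (nat_lit 5) (nat_lit 134) (nat_lit 5) (nat_lit 135) (nat_lit 5) (nat_lit 352) (nat_lit 320) (nat_lit 108)))) (XT.nd (nat_lit 78) (nat_lit 456) (nat_lit 0) (XT.lf (nat_lit 0) (nat_lit 17814021721) (nat_lit 532) (nat_lit 10410183986) (nat_lit 76) (nat_lit 13285298752) (nat_lit 128) (nat_lit 5) (nat_lit 135) (nat_lit 5) (nat_lit 129) (nat_lit 5) (nat_lit 353) (nat_lit 320) (nat_lit 107)) (XT.nd (nat_lit 78) (nat_lit 0) (nat_lit 0) (XT.lf (nat_lit 0) (nat_lit 9885520571) (nat_lit 456) (nat_lit 13218094516) (nat_lit 532) (nat_lit 19163114562) (nat_lit 122) (nat_lit 5) (nat_lit 128) (nat_lit 5) (nat_lit 129) (nat_lit 5) (nat_lit 354) (nat_lit 320) (nat_lit 106)) (XT.lf (nat_lit 0) (nat_lit 28677783051) (nat_lit 532) (nat_lit 12064694648) (nat_lit 76) (nat_lit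 2300419295) (nat_lit 122) (nat_lit 5) (nat_lit 129) (nat_lit 5) (nat_lit 123) (nat_lit 5) (nat_lit 355) (nat_lit 320) (nat_lit 105))))) (XT.nd (nat_lit 234) (nat_lit 760) (nat_lit 0) (XT.nd (nat_lit 78) (nat_lit 456) (nat_lit 0) (XT.lf (nat_lit 0) (nat_lit 8902100876) (nat_lit 380) (nat_lit 25731780601) (nat_lit 456) (nat_lit 9202028661) (nat_lit 117) (nat_lit 5) (nat_lit 122) (nat_lit 5) (nat_lit 123) (nat_lit 5) (nat_lit 356) (nat_lit 320) (nat_lit 104)) (XT.nd (nat_lit 78) (nat_lit 456) (nat_lit 0) (XT.lf (nat_lit 0) (nat_lit 30743180650) (nat_lit 380) (nat_lit 10145603836) (nat_lit 456) (nat_lit 3760327432) (nat_lit 117) (nat_lit 5) (nat_lit 122) (nat_lit 5) (nat_lit 123) (nat_lit 5) (nat_lit 357) (nat_lit 320) (nat_lit 103)) (XT.lf (nat_lit 0) (nat_lit 1940482916) (nat_lit 456) (nat_lit 37654727120) (nat_lit 76) (nat_lit 5887013943) (nat_lit 111) (nat_lit 5) (nat_lit 117) (nat_lit 5) (nat_lit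 112) (nat_lit 5) (nat_lit 358) (nat_lit 320) (nat_lit 102)))) (XT.nd (nat_lit 156) (nat_lit 380) (nat_lit 0) (XT.nd (nat_lit 78) (nat_lit 380) (nat_lit 0) (XT.lf (nat_lit 0) (nat_lit 7977353007) (nat_lit 456) (nat_lit 15979241805) (nat_lit 76) (nat_lit 22375400960) (nat_lit 111) (nat_lit 5) (nat_lit 117) (nat_lit 5) (nat_lit 112) (nat_lit 5) (nat_lit 359) (nat_lit 320) (nat_lit 101)) (XT.lf (nat_lit 0) (nat_lit 6470797943) (nat_lit 380) (nat_lit 7785130394) (nat_lit 456) (nat_lit 32949516085) (nat_lit 106) (nat_lit 5) (nat_lit 111) (nat_lit 5) (nat_lit 112) (nat_lit 5) (nat_lit 360) (nat_lit 320) (nat_lit 100))) (XT.nd (nat_lit 78) (nat_lit 380) (nat_lit 0) (XT.lf (nat_lit 0) (nat_lit 20969517622) (nat_lit 456) (nat_lit 18267238231) (nat_lit 76) (nat_lit 8860942605) (nat_lit 106) (nat_lit 5) (nat_lit 112) (nat_lit 5) (nat_lit 107) (nat_lit 5) (nat_lit 361) (nat_lit 320) (nat_lit 99)) (XT.lf (nat_lit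 0) (nat_lit 4890598889) (nat_lit 380) (nat_lit 23116475582) (nat_lit 456) (nat_lit 21005970429) (nat_lit 101) (nat_lit 5) (nat_lit 106) (nat_lit 5) (nat_lit 107) (nat_lit 5) (nat_lit 362) (nat_lit 320) (nat_lit 98)))))) (XT.nd (nat_lit 468) (nat_lit 1292) (nat_lit 0) (XT.nd (nat_lit 234) (nat_lit 456) (nat_lit 0) (XT.nd (nat_lit 78) (nat_lit 304) (nat_lit 0) (XT.lf (nat_lit 0) (nat_lit 29115704601) (nat_lit 380) (nat_lit 6323010771) (nat_lit 456) (nat_lit 14511649178) (nat_lit 101) (nat_lit 5) (nat_lit 106) (nat_lit 5) (nat_lit 107) (nat_lit 5) (nat_lit 363) (nat_lit 320) (nat_lit 97)) (XT.nd (nat_lit 78) (nat_lit 0) (nat_lit 0) (XT.lf (nat_lit 0) (nat_lit 3104944776) (nat_lit 304) (nat_lit 40122232623) (nat_lit 380) (nat_lit 7684611722) (nat_lit 97) (nat_lit 5) (nat_lit 101) (nat_lit 5) (nat_lit 102) (nat_lit 5) (nat_lit 364) (nat_lit 320) (nat_lit 96)) (XT.lf (nat_lit 0) (nat_lit 28124084191)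 (nat_lit 304) (nat_lit 23396147100) (nat_lit 380) (nat_lit 373698447) (nat_lit 97) (nat_lit 5) (nat_lit 101) (nat_lit 5) (nat_lit 102) (nat_lit 5) (nat_lit 365) (nat_lit 320) (nat_lit 95)))) (XT.nd (nat_lit 78) (nat_lit 0) (nat_lit 0) (XT.lf (nat_lit 0) (nat_lit 935864322) (nat_lit 380) (nat_lit 6088609328) (nat_lit 456) (nat_lit 45878771053) (nat_lit 91) (nat_lit 5) (nat_lit 96) (nat_lit 5) (nat_lit 97) (nat_lit 5) (nat_lit 366) (nat_lit 320) (nat_lit 94)) (XT.nd (nat_lit 78) (nat_lit 0) (nat_lit 0) (XT.lf (nat_lit 0) (nat_lit 14990923883) (nat_lit 456) (nat_lit 27186433326) (nat_lit 76) (nat_lit 11754756916) (nat_lit 91) (nat_lit 5) (nat_lit 97) (nat_lit 5) (nat_lit 92) (nat_lit 5) (nat_lit 367) (nat_lit 320) (nat_lit 93)) (XT.lf (nat_lit 0) (nat_lit 23255295798) (nat_lit 456) (nat_lit 1724174380) (nat_lit 76) (nat_lit 30010612892) (nat_lit 91) (nat_lit 5) (nat_lit 97) (nat_lit 5) (nat_lit 92)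 (nat_lit 5) (nat_lit 368) (nat_lit 320) (nat_lit 92))))) (XT.nd (nat_lit 234) (nat_lit 684) (nat_lit 0) (XT.nd (nat_lit 78) (nat_lit 304) (nat_lit 0) (XT.lf (nat_lit 0) (nat_lit 24987773939) (nat_lit 304) (nat_lit 7018707082) (nat_lit 380) (nat_lit 24066144844) (nat_lit 87) (nat_lit 5) (nat_lit 91) (nat_lit 5) (nat_lit 92) (nat_lit 5) (nat_lit 369) (nat_lit 320) (nat_lit 91)) (XT.nd (nat_lit 78) (nat_lit 304) (nat_lit 0) (XT.lf (nat_lit 0) (nat_lit 41146847458) (nat_lit 380) (nat_lit 4763029598) (nat_lit 76) (nat_lit 11273969730) (nat_lit 87) (nat_lit 5) (nat_lit 92) (nat_lit 5) (nat_lit 88) (nat_lit 5) (nat_lit 370) (nat_lit 320) (nat_lit 90)) (XT.lf (nat_lit 0) (nat_lit 22720569815) (nat_lit 304) (nat_lit 28127490326) (nat_lit 380) (nat_lit 7471746314) (nat_lit 83) (nat_lit 5) (nat_lit 87) (nat_lit 5) (nat_lit 88) (nat_lit 5) (nat_lit 371) (nat_lit 320) (nat_lit 89)))) (XT.nd (nat_lit 156) (nat_lit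 304) (nat_lit 0) (XT.nd (nat_lit 78) (nat_lit 304) (nat_lit 0) (XT.lf (nat_lit 0) (nat_lit 1371431131) (nat_lit 380) (nat_lit 8377299589) (nat_lit 76) (nat_lit 49739306279) (nat_lit 82) (nat_lit 5) (nat_lit 87) (nat_lit 5) (nat_lit 83) (nat_lit 5) (nat_lit 372) (nat_lit 320) (nat_lit 88)) (XT.lf (nat_lit 0) (nat_lit 10611413431) (nat_lit 380) (nat_lit 40798851767) (nat_lit 76) (nat_lit 9270380480) (nat_lit 78) (nat_lit 5) (nat_lit 83) (nat_lit 5) (nat_lit 79) (nat_lit 5) (nat_lit 373) (nat_lit 320) (nat_lit 87))) (XT.nd (nat_lit 78) (nat_lit 304) (nat_lit 0) (XT.lf (nat_lit 0) (nat_lit 20309346036) (nat_lit 380) (nat_lit 12845186840) (nat_lit 76) (nat_lit 28749078262) (nat_lit 78) (nat_lit 5) (nat_lit 83) (nat_lit 5) (nat_lit 79) (nat_lit 5) (nat_lit 374) (nat_lit 320) (nat_lit 86)) (XT.lf (nat_lit 0) (nat_lit 16262764163) (nat_lit 304) (nat_lit 14190612016) (nat_lit 380) (nat_lit 32705235610)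 (nat_lit 74) (nat_lit 5) (nat_lit 78) (nat_lit 5) (nat_lit 79) (nat_lit 5) (nat_lit 375) (nat_lit 320) (nat_lit 85))))))) (XT.nd (nat_lit 36348) (nat_lit 0) (nat_lit 10184) (XT.nd (nat_lit 468) (nat_lit 988) (nat_lit 0) (XT.nd (nat_lit 234) (nat_lit 380) (nat_lit 0) (XT.nd (nat_lit 78) (nat_lit 228) (nat_lit 0) (XT.lf (nat_lit 0) (nat_lit 41082920674) (nat_lit 380) (nat_lit 17994423971) (nat_lit 76) (nat_lit 5368482997) (nat_lit 74) (nat_lit 5) (nat_lit 79) (nat_lit 5) (nat_lit 75) (nat_lit 5) (nat_lit 376) (nat_lit 320) (nat_lit 84)) (XT.nd (nat_lit 78) (nat_lit 0) (nat_lit 0) (XT.lf (nat_lit 0) (nat_lit 11863404805) (nat_lit 228) (nat_lit 40421364973) (nat_lit 304) (nat_lit 13479288600) (nat_lit 71) (nat_lit 5) (nat_lit 74) (nat_lit 5) (nat_lit 75) (nat_lit 5) (nat_lit 377) (nat_lit 320) (nat_lit 83)) (XT.lf (nat_lit 0) (nat_lit 42984218282) (nat_lit 228) (nat_lit 21019060434) (nat_lit 304)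 (nat_lit 3113140119) (nat_lit 71) (nat_lit 5) (nat_lit 74) (nat_lit 5) (nat_lit 75) (nat_lit 5) (nat_lit 378) (nat_lit 320) (nat_lit 82)))) (XT.nd (nat_lit 78) (nat_lit 0) (nat_lit 0) (XT.lf (nat_lit 0) (nat_lit 6583470024) (nat_lit 304) (nat_lit 895123009) (nat_lit 380) (nat_lit 61026710627) (nat_lit 66) (nat_lit 5) (nat_lit 70) (nat_lit 5) (nat_lit 71) (nat_lit 5) (nat_lit 379) (nat_lit 320) (nat_lit 81)) (XT.nd (nat_lit 78) (nat_lit 0) (nat_lit 0) (XT.lf (nat_lit 0) (nat_lit 18761178339) (nat_lit 380) (nat_lit 31438731421) (nat_lit 76) (nat_lit 19721951289) (nat_lit 66) (nat_lit 5) (nat_lit 71) (nat_lit 5) (nat_lit 67) (nat_lit 5) (nat_lit 380) (nat_lit 320) (nat_lit 80)) (XT.lf (nat_lit 0) (nat_lit 30390063124) (nat_lit 380) (nat_lit 51557815) (nat_lit 76) (nat_lit 40939060387) (nat_lit 66) (nat_lit 5) (nat_lit 71) (nat_lit 5) (nat_lit 67) (nat_lit 5) (nat_lit 381) (nat_lit 320) (nat_lit 79)))))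 (XT.nd (nat_lit 234) (nat_lit 532) (nat_lit 0) (XT.nd (nat_lit 78) (nat_lit 228) (nat_lit 0) (XT.lf (nat_lit 0) (nat_lit 32918067397) (nat_lit 228) (nat_lit 9765165286) (nat_lit 304) (nat_lit 30190571784) (nat_lit 63) (nat_lit 5) (nat_lit 66) (nat_lit 5) (nat_lit 67) (nat_lit 5) (nat_lit 382) (nat_lit 320) (nat_lit 78)) (XT.nd (nat_lit 78) (nat_lit 228) (nat_lit 0) (XT.lf (nat_lit 0) (nat_lit 55455571566) (nat_lit 304) (nat_lit 7646245848) (nat_lit 76) (nat_lit 11306593438) (nat_lit 63) (nat_lit 5) (nat_lit 67) (nat_lit 5) (nat_lit 64) (nat_lit 5) (nat_lit 383) (nat_lit 320) (nat_lit 77)) (XT.lf (nat_lit 0) (nat_lit 26042549024) (nat_lit 228) (nat_lit 42914582249) (nat_lit 304) (nat_lit 7021543390) (nat_lit 60) (nat_lit 5) (nat_lit 63) (nat_lit 5) (nat_lit 64) (nat_lit 5) (nat_lit 384) (nat_lit 320) (nat_lit 76)))) (XT.nd (nat_lit 156) (nat_lit 228) (nat_lit 0) (XT.nd (nat_lit 78) (nat_lit 228)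 (nat_lit 0) (XT.lf (nat_lit 0) (nat_lit 5241909259) (nat_lit 304) (nat_lit 16747868149) (nat_lit 76) (nat_lit 55602440320) (nat_lit 59) (nat_lit 5) (nat_lit 63) (nat_lit 5) (nat_lit 60) (nat_lit 5) (nat_lit 385) (nat_lit 320) (nat_lit 75)) (XT.lf (nat_lit 0) (nat_lit 17710673475) (nat_lit 228) (nat_lit 190772879) (nat_lit 304) (nat_lit 61345556605) (nat_lit 56) (nat_lit 5) (nat_lit 59) (nat_lit 5) (nat_lit 60) (nat_lit 5) (nat_lit 386) (nat_lit 320) (nat_lit 74))) (XT.nd (nat_lit 78) (nat_lit 228) (nat_lit 0) (XT.lf (nat_lit 0) (nat_lit 31324632449) (nat_lit 304) (nat_lit 27617196109) (nat_lit 76) (nat_lit 21998087974) (nat_lit 56) (nat_lit 5) (nat_lit 60) (nat_lit 5) (nat_lit 57) (nat_lit 5) (nat_lit 387) (nat_lit 320) (nat_lit 73)) (XT.lf (nat_lit 0) (nat_lit 7461819853) (nat_lit 228) (nat_lit 37761407673) (nat_lit 304) (nat_lit 37458209237) (nat_lit 53) (nat_lit 5) (nat_lit 56) (nat_lit 5)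 (nat_lit 57) (nat_lit 5) (nat_lit 388) (nat_lit 320) (nat_lit 72)))))) (XT.nd (nat_lit 546) (nat_lit 0) (nat_lit 152) (XT.nd (nat_lit 234) (nat_lit 0) (nat_lit 76) (XT.nd (nat_lit 78) (nat_lit 0) (nat_lit 0) (XT.lf (nat_lit 0) (nat_lit 2095249437) (nat_lit 0) (nat_lit 2095249437) (nat_lit 1140) (nat_lit 8263927608) (nat_lit 187) (nat_lit 5) (nat_lit 187) (nat_lit 3) (nat_lit 202) (nat_lit 3) (nat_lit 321) (nat_lit 321) (nat_lit 138)) (XT.nd (nat_lit 78) (nat_lit 0) (nat_lit 0) (XT.lf (nat_lit 0) (nat_lit 8675469455) (nat_lit 1140) (nat_lit 9653159551) (nat_lit 1216) (nat_lit 6948657954) (nat_lit 187) (nat_lit 5) (nat_lit 202) (nat_lit 3) (nat_lit 203) (nat_lit 5) (nat_lit 322) (nat_lit 321) (nat_lit 137)) (XT.lf (nat_lit 76) (nat_lit 1734236217) (nat_lit 0) (nat_lit 7298791186) (nat_lit 1216) (nat_lit 16622124319) (nat_lit 188) (nat_lit 5) (nat_lit 187) (nat_lit 5) (nat_lit 203) (nat_lit 5) (nat_lit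 323) (nat_lit 321) (nat_lit 136)))) (XT.nd (nat_lit 156) (nat_lit 0) (nat_lit 76) (XT.nd (nat_lit 78) (nat_lit 0) (nat_lit 0) (XT.lf (nat_lit 0) (nat_lit 9535002962) (nat_lit 1140) (nat_lit 12422526217) (nat_lit 1216) (nat_lit 4082817678) (nat_lit 188) (nat_lit 5) (nat_lit 203) (nat_lit 5) (nat_lit 204) (nat_lit 5) (nat_lit 324) (nat_lit 321) (nat_lit 135)) (XT.lf (nat_lit 0) (nat_lit 10120615562) (nat_lit 1140) (nat_lit 653607108) (nat_lit 1216) (nat_lit 15660822851) (nat_lit 188) (nat_lit 5) (nat_lit 203) (nat_lit 5) (nat_lit 204) (nat_lit 5) (nat_lit 325) (nat_lit 321) (nat_lit 134))) (XT.nd (nat_lit 78) (nat_lit 0) (nat_lit 0) (XT.lf (nat_lit 0) (nat_lit 10840915713) (nat_lit 1140) (nat_lit 15152122303) (nat_lit 1216) (nat_lit 845038413) (nat_lit 189) (nat_lit 5) (nat_lit 204) (nat_lit 5) (nat_lit 205) (nat_lit 5) (nat_lit 326) (nat_lit 321) (nat_lit 133)) (XT.lf (nat_lit 0) (nat_lit 11692683776)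 (nat_lit 1140) (nat_lit 2952837100) (nat_lit 1216) (nat_lit 12604386342) (nat_lit 189) (nat_lit 5) (nat_lit 204) (nat_lit 5) (nat_lit 205) (nat_lit 5) (nat_lit 327) (nat_lit 321) (nat_lit 132))))) (XT.nd (nat_lit 234) (nat_lit 0) (nat_lit 152) (XT.nd (nat_lit 78) (nat_lit 0) (nat_lit 76) (XT.lf (nat_lit 76) (nat_lit 9801557809) (nat_lit 0) (nat_lit 2859284995) (nat_lit 1216) (nat_lit 15010529570) (nat_lit 190) (nat_lit 5) (nat_lit 189) (nat_lit 5) (nat_lit 205) (nat_lit 5) (nat_lit 328) (nat_lit 321) (nat_lit 131)) (XT.nd (nat_lit 78) (nat_lit 0) (nat_lit 0) (XT.lf (nat_lit 0) (nat_lit 13774078873) (nat_lit 1140) (nat_lit 5197204161) (nat_lit 1216) (nat_lit 9130721930) (nat_lit 190) (nat_lit 5) (nat_lit 205) (nat_lit 5) (nat_lit 206) (nat_lit 5) (nat_lit 329) (nat_lit 321) (nat_lit 130)) (XT.lf (nat_lit 76) (nat_lit 7980848138) (nat_lit 0) (nat_lit 7041695257) (nat_lit 1216) (nat_lit 13519962516)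 (nat_lit 191) (nat_lit 5) (nat_lit 190) (nat_lit 5) (nat_lit 206) (nat_lit 5) (nat_lit 330) (nat_lit 321) (nat_lit 129)))) (XT.nd (nat_lit 156) (nat_lit 0) (nat_lit 76) (XT.nd (nat_lit 78) (nat_lit 0) (nat_lit 0) (XT.lf (nat_lit 0) (nat_lit 16408775444) (nat_lit 1140) (nat_lit 7387060986) (nat_lit 1216) (nat_lit 5197380241) (nat_lit 191) (nat_lit 5) (nat_lit 206) (nat_lit 5) (nat_lit 207) (nat_lit 5) (nat_lit 331) (nat_lit 321) (nat_lit 128)) (XT.lf (nat_lit 76) (nat_lit 6232489870) (nat_lit 0) (nat_lit 11730712273) (nat_lit 1216) (nat_lit 11490452450) (nat_lit 192) (nat_lit 5) (nat_lit 191) (nat_lit 5) (nat_lit 207) (nat_lit 5) (nat_lit 332) (nat_lit 321) (nat_lit 127))) (XT.nd (nat_lit 78) (nat_lit 0) (nat_lit 0) (XT.lf (nat_lit 0) (nat_lit 19643341259) (nat_lit 1140) (nat_lit 9523306759) (nat_lit 1216) (nat_lit 758889199) (nat_lit 192) (nat_lit 5) (nat_lit 207) (nat_lit 5) (nat_lit 208) (nat_lit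 5) (nat_lit 333) (nat_lit 321) (nat_lit 126)) (XT.lf (nat_lit 76) (nat_lit 4556050846) (nat_lit 0) (nat_lit 16974913098) (nat_lit 1216) (nat_lit 8875903832) (nat_lit 193) (nat_lit 5) (nat_lit 192) (nat_lit 5) (nat_lit 208) (nat_lit 5) (nat_lit 334) (nat_lit 321) (nat_lit 125))))))))
noncomputable def xc230 : XT := (XT.nd (nat_lit 2028) (nat_lit 4180) (nat_lit 0) (XT.nd (nat_lit 1014) (nat_lit 2812) (nat_lit 0) (XT.nd (nat_lit 468) (nat_lit 2280) (nat_lit 0) (XT.nd (nat_lit 234) (nat_lit 1064) (nat_lit 0) (XT.nd (nat_lit 78) (nat_lit 0) (nat_lit 76) (XT.lf (nat_lit 76) (nat_lit 19250833762) (nat_lit 0) (nat_lit 4317748912) (nat_lit 1216) (nat_lit 7331258281) (nat_lit 193) (nat_lit 5) (nat_lit 192) (nat_lit 5) (nat_lit 208) (nat_lit 5) (nat_lit 335) (nat_lit 321) (nat_lit 124)) (XT.nd (nat_lit 78) (nat_lit 0) (nat_lit 0) (XT.lf (nat_lit 76) (nat_lit 2950414899) (nat_lit 0) (nat_lit 22826377886)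 (nat_lit 1216) (nat_lit 5627530278) (nat_lit 194) (nat_lit 5) (nat_lit 193) (nat_lit 5) (nat_lit 209) (nat_lit 5) (nat_lit 336) (nat_lit 321) (nat_lit 123)) (XT.lf (nat_lit 76) (nat_lit 18180832125) (nat_lit 0) (nat_lit 10027726123) (nat_lit 1216) (nat_lit 3710665625) (nat_lit 194) (nat_lit 5) (nat_lit 193) (nat_lit 5) (nat_lit 209) (nat_lit 5) (nat_lit 337) (nat_lit 321) (nat_lit 122)))) (XT.nd (nat_lit 78) (nat_lit 76) (nat_lit 0) (XT.lf (nat_lit 0) (nat_lit 1413647224) (nat_lit 1140) (nat_lit 29340972751) (nat_lit 1216) (nat_lit 1693714844) (nat_lit 179) (nat_lit 5) (nat_lit 194) (nat_lit 5) (nat_lit 195) (nat_lit 5) (nat_lit 338) (nat_lit 321) (nat_lit 121)) (XT.nd (nat_lit 78) (nat_lit 0) (nat_lit 0) (XT.lf (nat_lit 0) (nat_lit 613098586) (nat_lit 1216) (nat_lit 15793866922) (nat_lit 76) (nat_lit 16579140863) (nat_lit 178) (nat_lit 5) (nat_lit 194) (nat_lit 5) (nat_lit 179) (nat_lit 5) (nat_lit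 339) (nat_lit 321) (nat_lit 120)) (XT.lf (nat_lit 0) (nat_lit 2952602151) (nat_lit 1216) (nat_lit 114759924) (nat_lit 76) (nat_lit 30472223200) (nat_lit 178) (nat_lit 5) (nat_lit 194) (nat_lit 5) (nat_lit 179) (nat_lit 5) (nat_lit 340) (nat_lit 321) (nat_lit 119))))) (XT.nd (nat_lit 234) (nat_lit 1064) (nat_lit 0) (XT.nd (nat_lit 78) (nat_lit 608) (nat_lit 0) (XT.lf (nat_lit 0) (nat_lit 5621222065) (nat_lit 684) (nat_lit 17857482044) (nat_lit 76) (nat_lit 10623199528) (nat_lit 170) (nat_lit 5) (nat_lit 179) (nat_lit 5) (nat_lit 171) (nat_lit 5) (nat_lit 341) (nat_lit 321) (nat_lit 118)) (XT.nd (nat_lit 78) (nat_lit 608) (nat_lit 0) (XT.lf (nat_lit 0) (nat_lit 8399092974) (nat_lit 684) (nat_lit 1616868188) (nat_lit 76) (nat_lit 24664257559) (nat_lit 170) (nat_lit 5) (nat_lit 179) (nat_lit 5) (nat_lit 171) (nat_lit 5) (nat_lit 342) (nat_lit 321) (nat_lit 117)) (XT.lf (nat_lit 0) (nat_lit 11444629958)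 (nat_lit 684) (nat_lit 19900431936) (nat_lit 76) (nat_lit 3925294319) (nat_lit 162) (nat_lit 5) (nat_lit 171) (nat_lit 5) (nat_lit 163) (nat_lit 5) (nat_lit 343) (nat_lit 321) (nat_lit 116)))) (XT.nd (nat_lit 156) (nat_lit 532) (nat_lit 0) (XT.nd (nat_lit 78) (nat_lit 532) (nat_lit 0) (XT.lf (nat_lit 0) (nat_lit 14694958289) (nat_lit 684) (nat_lit 3079721648) (nat_lit 76) (nat_lit 18100117906) (nat_lit 162) (nat_lit 5) (nat_lit 171) (nat_lit 5) (nat_lit 163) (nat_lit 5) (nat_lit 344) (nat_lit 321) (nat_lit 115)) (XT.lf (nat_lit 0) (nat_lit 14526997806) (nat_lit 532) (nat_lit 3653274501) (nat_lit 608) (nat_lit 18312978833) (nat_lit 155) (nat_lit 5) (nat_lit 162) (nat_lit 5) (nat_lit 163) (nat_lit 5) (nat_lit 345) (nat_lit 321) (nat_lit 114))) (XT.nd (nat_lit 78) (nat_lit 532) (nat_lit 0) (XT.lf (nat_lit 0) (nat_lit 21904128444) (nat_lit 608) (nat_lit 4511413844) (nat_lit 76) (nat_lit 10710698880)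 (nat_lit 155) (nat_lit 5) (nat_lit 163) (nat_lit 5) (nat_lit 156) (nat_lit 5) (nat_lit 346) (nat_lit 321) (nat_lit 113)) (XT.lf (nat_lit 0) (nat_lit 13696089340) (nat_lit 532) (nat_lit 12209376222) (nat_lit 608) (nat_lit 11867784913) (nat_lit 148) (nat_lit 5) (nat_lit 155) (nat_lit 5) (nat_lit 156) (nat_lit 5) (nat_lit 347) (nat_lit 321) (nat_lit 112)))))) (XT.nd (nat_lit 468) (nat_lit 1292) (nat_lit 0) (XT.nd (nat_lit 234) (nat_lit 1064) (nat_lit 0) (XT.nd (nat_lit 78) (nat_lit 456) (nat_lit 0) (XT.lf (nat_lit 0) (nat_lit 30094120508) (nat_lit 608) (nat_lit 5921861344) (nat_lit 76) (nat_lit 2421672340) (nat_lit 148) (nat_lit 5) (nat_lit 156) (nat_lit 5) (nat_lit 149) (nat_lit 5) (nat_lit 348) (nat_lit 321) (nat_lit 111)) (XT.nd (nat_lit 78) (nat_lit 0) (nat_lit 0) (XT.lf (nat_lit 0) (nat_lit 12907023604) (nat_lit 456) (nat_lit 21744404589) (nat_lit 532) (nat_lit 4463274426) (nat_lit 142) (nat_lit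 5) (nat_lit 148) (nat_lit 5) (nat_lit 149) (nat_lit 5) (nat_lit 349) (nat_lit 321) (nat_lit 110)) (XT.lf (nat_lit 0) (nat_lit 32420136121) (nat_lit 456) (nat_lit 6983193767) (nat_lit 532) (nat_lit 406998690) (nat_lit 142) (nat_lit 5) (nat_lit 148) (nat_lit 5) (nat_lit 149) (nat_lit 5) (nat_lit 350) (nat_lit 321) (nat_lit 109)))) (XT.nd (nat_lit 78) (nat_lit 456) (nat_lit 0) (XT.lf (nat_lit 0) (nat_lit 3893224784) (nat_lit 608) (nat_lit 28411363700) (nat_lit 76) (nat_lit 8215274216) (nat_lit 134) (nat_lit 5) (nat_lit 142) (nat_lit 5) (nat_lit 135) (nat_lit 5) (nat_lit 351) (nat_lit 321) (nat_lit 108)) (XT.nd (nat_lit 78) (nat_lit 456) (nat_lit 0) (XT.lf (nat_lit 0) (nat_lit 8456926021) (nat_lit 608) (nat_lit 8980758858) (nat_lit 76) (nat_lit 23808599661) (nat_lit 134) (nat_lit 5) (nat_lit 142) (nat_lit 5) (nat_lit 135) (nat_lit 5) (nat_lit 352) (nat_lit 321) (nat_lit 107)) (XT.lf (nat_lit 0) (nat_lit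 11250309241) (nat_lit 456) (nat_lit 2013573392) (nat_lit 532) (nat_lit 28727428136) (nat_lit 128) (nat_lit 5) (nat_lit 134) (nat_lit 5) (nat_lit 135) (nat_lit 5) (nat_lit 353) (nat_lit 321) (nat_lit 106))))) (XT.nd (nat_lit 234) (nat_lit 836) (nat_lit 0) (XT.nd (nat_lit 78) (nat_lit 456) (nat_lit 0) (XT.lf (nat_lit 0) (nat_lit 18438223225) (nat_lit 532) (nat_lit 10619839694) (nat_lit 76) (nat_lit 13693931610) (nat_lit 128) (nat_lit 5) (nat_lit 135) (nat_lit 5) (nat_lit 129) (nat_lit 5) (nat_lit 354) (nat_lit 321) (nat_lit 105)) (XT.nd (nat_lit 78) (nat_lit 0) (nat_lit 0) (XT.lf (nat_lit 0) (nat_lit 10283729630) (nat_lit 456) (nat_lit 13601136845) (nat_lit 532) (nat_lit 19647122097) (nat_lit 122) (nat_lit 5) (nat_lit 128) (nat_lit 5) (nat_lit 129) (nat_lit 5) (nat_lit 355) (nat_lit 321) (nat_lit 104)) (XT.lf (nat_lit 0) (nat_lit 29623818202) (nat_lit 532) (nat_lit 12325415455) (nat_lit 76) (nat_lit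 2382283392) (nat_lit 122) (nat_lit 5) (nat_lit 129) (nat_lit 5) (nat_lit 123) (nat_lit 5) (nat_lit 356) (nat_lit 321) (nat_lit 103)))) (XT.nd (nat_lit 156) (nat_lit 456) (nat_lit 0) (XT.nd (nat_lit 78) (nat_lit 0) (nat_lit 0) (XT.lf (nat_lit 0) (nat_lit 9269391582) (nat_lit 380) (nat_lit 26487675285) (nat_lit 456) (nat_lit 9391302494) (nat_lit 117) (nat_lit 5) (nat_lit 122) (nat_lit 5) (nat_lit 123) (nat_lit 5) (nat_lit 357) (nat_lit 321) (nat_lit 102)) (XT.lf (nat_lit 0) (nat_lit 31762784496) (nat_lit 380) (nat_lit 10434380947) (nat_lit 456) (nat_lit 3788878005) (nat_lit 117) (nat_lit 5) (nat_lit 122) (nat_lit 5) (nat_lit 123) (nat_lit 5) (nat_lit 358) (nat_lit 321) (nat_lit 101))) (XT.nd (nat_lit 78) (nat_lit 0) (nat_lit 0) (XT.lf (nat_lit 0) (nat_lit 2080011515) (nat_lit 456) (nat_lit 38683942573) (nat_lit 76) (nat_lit 6080212066) (nat_lit 111) (nat_lit 5) (nat_lit 117) (nat_lit 5) (nat_lit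 112) (nat_lit 5) (nat_lit 359) (nat_lit 321) (nat_lit 100)) (XT.lf (nat_lit 0) (nat_lit 8295619337) (nat_lit 456) (nat_lit 16361117738) (nat_lit 76) (nat_lit 23062767556) (nat_lit 111) (nat_lit 5) (nat_lit 117) (nat_lit 5) (nat_lit 112) (nat_lit 5) (nat_lit 360) (nat_lit 321) (nat_lit 99))))))) (XT.nd (nat_lit 1014) (nat_lit 1976) (nat_lit 0) (XT.nd (nat_lit 468) (nat_lit 1140) (nat_lit 0) (XT.nd (nat_lit 234) (nat_lit 304) (nat_lit 0) (XT.nd (nat_lit 78) (nat_lit 380) (nat_lit 0) (XT.lf (nat_lit 0) (nat_lit 6761467307) (nat_lit 380) (nat_lit 7999713283) (nat_lit 456) (nat_lit 33858019697) (nat_lit 106) (nat_lit 5) (nat_lit 111) (nat_lit 5) (nat_lit 112) (nat_lit 5) (nat_lit 361) (nat_lit 321) (nat_lit 98)) (XT.nd (nat_lit 78) (nat_lit 380) (nat_lit 0) (XT.lf (nat_lit 0) (nat_lit 21674095155) (nat_lit 456) (nat_lit 18719361658) (nat_lit 76) (nat_lit 9144829941) (nat_lit 106) (nat_lit 5) (nat_lit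 112) (nat_lit 5) (nat_lit 107) (nat_lit 5) (nat_lit 362) (nat_lit 321) (nat_lit 97)) (XT.lf (nat_lit 0) (nat_lit 5132270440) (nat_lit 380) (nat_lit 23789222224) (nat_lit 456) (nat_lit 21559641774) (nat_lit 101) (nat_lit 5) (nat_lit 106) (nat_lit 5) (nat_lit 107) (nat_lit 5) (nat_lit 363) (nat_lit 321) (nat_lit 96)))) (XT.nd (nat_lit 78) (nat_lit 304) (nat_lit 0) (XT.lf (nat_lit 0) (nat_lit 30081363686) (nat_lit 380) (nat_lit 6492557768) (nat_lit 456) (nat_lit 14872719267) (nat_lit 101) (nat_lit 5) (nat_lit 106) (nat_lit 5) (nat_lit 107) (nat_lit 5) (nat_lit 364) (nat_lit 321) (nat_lit 95)) (XT.nd (nat_lit 78) (nat_lit 0) (nat_lit 0) (XT.lf (nat_lit 0) (nat_lit 3291398386) (nat_lit 304) (nat_lit 41303625466) (nat_lit 380) (nat_lit 7841916721) (nat_lit 97) (nat_lit 5) (nat_lit 101) (nat_lit 5) (nat_lit 102) (nat_lit 5) (nat_lit 365) (nat_lit 321) (nat_lit 94)) (XT.lf (nat_lit 0) (nat_lit 29058394354)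 (nat_lit 304) (nat_lit 24076406139) (nat_lit 380) (nat_lit 313809057) (nat_lit 97) (nat_lit 5) (nat_lit 101) (nat_lit 5) (nat_lit 102) (nat_lit 5) (nat_lit 366) (nat_lit 321) (nat_lit 93))))) (XT.nd (nat_lit 234) (nat_lit 684) (nat_lit 0) (XT.nd (nat_lit 78) (nat_lit 0) (nat_lit 0) (XT.lf (nat_lit 0) (nat_lit 1055080134) (nat_lit 380) (nat_lit 6248686264) (nat_lit 456) (nat_lit 47184453653) (nat_lit 91) (nat_lit 5) (nat_lit 96) (nat_lit 5) (nat_lit 97) (nat_lit 5) (nat_lit 367) (nat_lit 321) (nat_lit 92)) (XT.nd (nat_lit 78) (nat_lit 0) (nat_lit 0) (XT.lf (nat_lit 0) (nat_lit 15507424030) (nat_lit 456) (nat_lit 27911691558) (nat_lit 76) (nat_lit 12128895450) (nat_lit 91) (nat_lit 5) (nat_lit 97) (nat_lit 5) (nat_lit 92) (nat_lit 5) (nat_lit 368) (nat_lit 321) (nat_lit 91)) (XT.lf (nat_lit 0) (nat_lit 24017782274) (nat_lit 456) (nat_lit 1688195953) (nat_lit 76) (nat_lit 30931801013) (nat_lit 91)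 (nat_lit 5) (nat_lit 97) (nat_lit 5) (nat_lit 92) (nat_lit 5) (nat_lit 369) (nat_lit 321) (nat_lit 90)))) (XT.nd (nat_lit 156) (nat_lit 380) (nat_lit 0) (XT.nd (nat_lit 78) (nat_lit 0) (nat_lit 0) (XT.lf (nat_lit 0) (nat_lit 25824250976) (nat_lit 304) (nat_lit 7206198692) (nat_lit 380) (nat_lit 24722382044) (nat_lit 87) (nat_lit 5) (nat_lit 91) (nat_lit 5) (nat_lit 92) (nat_lit 5) (nat_lit 370) (nat_lit 321) (nat_lit 89)) (XT.lf (nat_lit 0) (nat_lit 42443384897) (nat_lit 380) (nat_lit 4819905935) (nat_lit 76) (nat_lit 11634149435) (nat_lit 87) (nat_lit 5) (nat_lit 92) (nat_lit 5) (nat_lit 88) (nat_lit 5) (nat_lit 371) (nat_lit 321) (nat_lit 88))) (XT.nd (nat_lit 78) (nat_lit 76) (nat_lit 0) (XT.lf (nat_lit 0) (nat_lit 23487358181) (nat_lit 304) (nat_lit 28947284826) (nat_lit 380) (nat_lit 7632867134) (nat_lit 83) (nat_lit 5) (nat_lit 87) (nat_lit 5) (nat_lit 88) (nat_lit 5) (nat_lit 372) (nat_lit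 321) (nat_lit 87)) (XT.lf (nat_lit 0) (nat_lit 1472575615) (nat_lit 380) (nat_lit 8544680829) (nat_lit 76) (nat_lit 51253568574) (nat_lit 82) (nat_lit 5) (nat_lit 87) (nat_lit 5) (nat_lit 83) (nat_lit 5) (nat_lit 373) (nat_lit 321) (nat_lit 86)))))) (XT.nd (nat_lit 546) (nat_lit 760) (nat_lit 0) (XT.nd (nat_lit 234) (nat_lit 608) (nat_lit 0) (XT.nd (nat_lit 78) (nat_lit 304) (nat_lit 0) (XT.lf (nat_lit 0) (nat_lit 10989040015) (nat_lit 380) (nat_lit 41938110703) (nat_lit 76) (nat_lit 9572084305) (nat_lit 78) (nat_lit 5) (nat_lit 83) (nat_lit 5) (nat_lit 79) (nat_lit 5) (nat_lit 374) (nat_lit 321) (nat_lit 85)) (XT.nd (nat_lit 78) (nat_lit 304) (nat_lit 0) (XT.lf (nat_lit 0) (nat_lit 20976183874) (nat_lit 380) (nat_lit 13148303012) (nat_lit 76) (nat_lit 29634455863) (nat_lit 78) (nat_lit 5) (nat_lit 83) (nat_lit 5) (nat_lit 79) (nat_lit 5) (nat_lit 375) (nat_lit 321) (nat_lit 84)) (XT.lf (nat_lit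 0) (nat_lit 16832080253) (nat_lit 304) (nat_lit 14591561023) (nat_lit 380) (nat_lit 33627980409) (nat_lit 74) (nat_lit 5) (nat_lit 78) (nat_lit 5) (nat_lit 79) (nat_lit 5) (nat_lit 376) (nat_lit 321) (nat_lit 83)))) (XT.nd (nat_lit 156) (nat_lit 380) (nat_lit 0) (XT.nd (nat_lit 78) (nat_lit 228) (nat_lit 0) (XT.lf (nat_lit 0) (nat_lit 42370652867) (nat_lit 380) (nat_lit 18453728997) (nat_lit 76) (nat_lit 5553116141) (nat_lit 74) (nat_lit 5) (nat_lit 79) (nat_lit 5) (nat_lit 75) (nat_lit 5) (nat_lit 377) (nat_lit 321) (nat_lit 82)) (XT.lf (nat_lit 0) (nat_lit 12299045156) (nat_lit 228) (nat_lit 41608669716) (nat_lit 304) (nat_lit 13827587442) (nat_lit 71) (nat_lit 5) (nat_lit 74) (nat_lit 5) (nat_lit 75) (nat_lit 5) (nat_lit 378) (nat_lit 321) (nat_lit 81))) (XT.nd (nat_lit 78) (nat_lit 380) (nat_lit 0) (XT.lf (nat_lit 0) (nat_lit 44351160565) (nat_lit 228) (nat_lit 21625033989) (nat_lit 304) (nat_lit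 3152087899) (nat_lit 71) (nat_lit 5) (nat_lit 74) (nat_lit 5) (nat_lit 75) (nat_lit 5) (nat_lit 379) (nat_lit 321) (nat_lit 80)) (XT.lf (nat_lit 0) (nat_lit 6858725618) (nat_lit 304) (nat_lit 896801706) (nat_lit 380) (nat_lit 62803316277) (nat_lit 66) (nat_lit 5) (nat_lit 70) (nat_lit 5) (nat_lit 71) (nat_lit 5) (nat_lit 380) (nat_lit 321) (nat_lit 79))))) (XT.nd (nat_lit 234) (nat_lit 532) (nat_lit 0) (XT.nd (nat_lit 78) (nat_lit 228) (nat_lit 0) (XT.lf (nat_lit 0) (nat_lit 19375293783) (nat_lit 380) (nat_lit 32305069417) (nat_lit 76) (nat_lit 20337574623) (nat_lit 66) (nat_lit 5) (nat_lit 71) (nat_lit 5) (nat_lit 67) (nat_lit 5) (nat_lit 381) (nat_lit 321) (nat_lit 78)) (XT.nd (nat_lit 78) (nat_lit 0) (nat_lit 0) (XT.lf (nat_lit 0) (nat_lit 21909335) (nat_lit 228) (nat_lit 31329852787) (nat_lit 304) (nat_lit 42168800260) (nat_lit 63) (nat_lit 5) (nat_lit 66) (nat_lit 5) (nat_lit 67) (nat_lit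 5) (nat_lit 382) (nat_lit 321) (nat_lit 77)) (XT.lf (nat_lit 0) (nat_lit 33979464536) (nat_lit 228) (nat_lit 10033311475) (nat_lit 304) (nat_lit 31045732879) (nat_lit 63) (nat_lit 5) (nat_lit 66) (nat_lit 5) (nat_lit 67) (nat_lit 5) (nat_lit 383) (nat_lit 321) (nat_lit 76)))) (XT.nd (nat_lit 156) (nat_lit 304) (nat_lit 0) (XT.nd (nat_lit 78) (nat_lit 228) (nat_lit 0) (XT.lf (nat_lit 0) (nat_lit 57167088057) (nat_lit 304) (nat_lit 7802695018) (nat_lit 76) (nat_lit 11669407417) (nat_lit 63) (nat_lit 5) (nat_lit 67) (nat_lit 5) (nat_lit 64) (nat_lit 5) (nat_lit 384) (nat_lit 321) (nat_lit 75)) (XT.lf (nat_lit 0) (nat_lit 26896048619) (nat_lit 228) (nat_lit 44176946519) (nat_lit 304) (nat_lit 7183589146) (nat_lit 60) (nat_lit 5) (nat_lit 63) (nat_lit 5) (nat_lit 64) (nat_lit 5) (nat_lit 385) (nat_lit 321) (nat_lit 74))) (XT.nd (nat_lit 78) (nat_lit 228) (nat_lit 0) (XT.lf (nat_lit 0) (nat_lit 5445430783)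 (nat_lit 304) (nat_lit 17179229858) (nat_lit 76) (nat_lit 57293901643) (nat_lit 59) (nat_lit 5) (nat_lit 63) (nat_lit 5) (nat_lit 60) (nat_lit 5) (nat_lit 386) (nat_lit 321) (nat_lit 73)) (XT.lf (nat_lit 0) (nat_lit 18312371207) (nat_lit 228) (nat_lit 171711794) (nat_lit 304) (nat_lit 63138929193) (nat_lit 56) (nat_lit 5) (nat_lit 59) (nat_lit 5) (nat_lit 60) (nat_lit 5) (nat_lit 387) (nat_lit 321) (nat_lit 72))))))))
noncomputable def xc231 : XT := (XT.nd (nat_lit 37518) (nat_lit 0) (nat_lit 1976) (XT.nd (nat_lit 36426) (nat_lit 0) (nat_lit 7524) (XT.nd (nat_lit 35880) (nat_lit 0) (nat_lit 10108) (XT.nd (nat_lit 35646) (nat_lit 0) (nat_lit 9956) (XT.nd (nat_lit 35490) (nat_lit 0) (nat_lit 9956) (XT.lf (nat_lit 0) (nat_lit 32308868023) (nat_lit 304) (nat_lit 28376255546) (nat_lit 76) (nat_lit 22681623469) (nat_lit 56) (nat_lit 5) (nat_lit 60) (nat_lit 5) (nat_lit 57) (nat_lit 5) (nat_lit 388)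 (nat_lit 321) (nat_lit 71)) (XT.nd (nat_lit 78) (nat_lit 0) (nat_lit 0) (XT.lf (nat_lit 0) (nat_lit 2207939569) (nat_lit 0) (nat_lit 2207939569) (nat_lit 1140) (nat_lit 8409055388) (nat_lit 187) (nat_lit 5) (nat_lit 187) (nat_lit 3) (nat_lit 202) (nat_lit 3) (nat_lit 322) (nat_lit 322) (nat_lit 136)) (XT.lf (nat_lit 0) (nat_lit 9128328250) (nat_lit 1140) (nat_lit 9838994298) (nat_lit 1216) (nat_lit 7062243451) (nat_lit 187) (nat_lit 5) (nat_lit 202) (nat_lit 3) (nat_lit 203) (nat_lit 5) (nat_lit 323) (nat_lit 322) (nat_lit 135)))) (XT.nd (nat_lit 78) (nat_lit 0) (nat_lit 76) (XT.lf (nat_lit 76) (nat_lit 1889006087) (nat_lit 0) (nat_lit 7602984921) (nat_lit 1216) (nat_lit 16926921976) (nat_lit 188) (nat_lit 5) (nat_lit 187) (nat_lit 5) (nat_lit 203) (nat_lit 5) (nat_lit 324) (nat_lit 322) (nat_lit 134)) (XT.nd (nat_lit 78) (nat_lit 0) (nat_lit 0) (XT.lf (nat_lit 0) (nat_lit 10002755478) (nat_lit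 1140) (nat_lit 12688934667) (nat_lit 1216) (nat_lit 4124169340) (nat_lit 188) (nat_lit 5) (nat_lit 203) (nat_lit 5) (nat_lit 204) (nat_lit 5) (nat_lit 325) (nat_lit 322) (nat_lit 133)) (XT.lf (nat_lit 0) (nat_lit 10600644152) (nat_lit 1140) (nat_lit 570043150) (nat_lit 1216) (nat_lit 16051877761) (nat_lit 188) (nat_lit 5) (nat_lit 203) (nat_lit 5) (nat_lit 204) (nat_lit 5) (nat_lit 326) (nat_lit 322) (nat_lit 132))))) (XT.nd (nat_lit 234) (nat_lit 0) (nat_lit 76) (XT.nd (nat_lit 78) (nat_lit 0) (nat_lit 0) (XT.lf (nat_lit 0) (nat_lit 11337723400) (nat_lit 1140) (nat_lit 15498451351) (nat_lit 1216) (nat_lit 801664022) (nat_lit 189) (nat_lit 5) (nat_lit 204) (nat_lit 5) (nat_lit 205) (nat_lit 5) (nat_lit 327) (nat_lit 322) (nat_lit 131)) (XT.nd (nat_lit 78) (nat_lit 0) (nat_lit 0) (XT.lf (nat_lit 0) (nat_lit 12210047022) (nat_lit 1140) (nat_lit 2936340056) (nat_lit 1216) (nat_lit 12915794104) (nat_lit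 189) (nat_lit 5) (nat_lit 204) (nat_lit 5) (nat_lit 205) (nat_lit 5) (nat_lit 328) (nat_lit 322) (nat_lit 130)) (XT.lf (nat_lit 76) (nat_lit 10199656483) (nat_lit 0) (nat_lit 3003742626) (nat_lit 1216) (nat_lit 15293013312) (nat_lit 190) (nat_lit 5) (nat_lit 189) (nat_lit 5) (nat_lit 205) (nat_lit 5) (nat_lit 329) (nat_lit 322) (nat_lit 129)))) (XT.nd (nat_lit 156) (nat_lit 0) (nat_lit 76) (XT.nd (nat_lit 78) (nat_lit 0) (nat_lit 0) (XT.lf (nat_lit 0) (nat_lit 14344744891) (nat_lit 1140) (nat_lit 5246598807) (nat_lit 1216) (nat_lit 9348785297) (nat_lit 190) (nat_lit 5) (nat_lit 205) (nat_lit 5) (nat_lit 206) (nat_lit 5) (nat_lit 330) (nat_lit 322) (nat_lit 128)) (XT.lf (nat_lit 76) (nat_lit 8325750733) (nat_lit 0) (nat_lit 7301340788) (nat_lit 1216) (nat_lit 13766866801) (nat_lit 191) (nat_lit 5) (nat_lit 190) (nat_lit 5) (nat_lit 206) (nat_lit 5) (nat_lit 331) (nat_lit 322) (nat_lit 127))) (XT.nd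 (nat_lit 78) (nat_lit 0) (nat_lit 0) (XT.lf (nat_lit 0) (nat_lit 17049977179) (nat_lit 1140) (nat_lit 7501133867) (nat_lit 1216) (nat_lit 5307233377) (nat_lit 191) (nat_lit 5) (nat_lit 206) (nat_lit 5) (nat_lit 207) (nat_lit 5) (nat_lit 332) (nat_lit 322) (nat_lit 126)) (XT.lf (nat_lit 76) (nat_lit 6525949211) (nat_lit 0) (nat_lit 12121773050) (nat_lit 1216) (nat_lit 11684978497) (nat_lit 192) (nat_lit 5) (nat_lit 191) (nat_lit 5) (nat_lit 207) (nat_lit 5) (nat_lit 333) (nat_lit 322) (nat_lit 125)))))) (XT.nd (nat_lit 546) (nat_lit 1748) (nat_lit 0) (XT.nd (nat_lit 234) (nat_lit 1064) (nat_lit 0) (XT.nd (nat_lit 78) (nat_lit 0) (nat_lit 0) (XT.lf (nat_lit 0) (nat_lit 20373658799) (nat_lit 1140) (nat_lit 9700826982) (nat_lit 1216) (nat_lit 744397955) (nat_lit 192) (nat_lit 5) (nat_lit 207) (nat_lit 5) (nat_lit 208) (nat_lit 5) (nat_lit 334) (nat_lit 322) (nat_lit 124)) (XT.nd (nat_lit 78) (nat_lit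 0) (nat_lit 0) (XT.lf (nat_lit 76) (nat_lit 4799850773) (nat_lit 0) (nat_lit 17514981779) (nat_lit 1216) (nat_lit 8999919495) (nat_lit 193) (nat_lit 5) (nat_lit 192) (nat_lit 5) (nat_lit 208) (nat_lit 5) (nat_lit 335) (nat_lit 322) (nat_lit 123)) (XT.lf (nat_lit 76) (nat_lit 19932357222) (nat_lit 0) (nat_lit 4477204961) (nat_lit 1216) (nat_lit 7413078115) (nat_lit 193) (nat_lit 5) (nat_lit 192) (nat_lit 5) (nat_lit 208) (nat_lit 5) (nat_lit 336) (nat_lit 322) (nat_lit 122)))) (XT.nd (nat_lit 156) (nat_lit 1140) (nat_lit 0) (XT.nd (nat_lit 78) (nat_lit 0) (nat_lit 0) (XT.lf (nat_lit 76) (nat_lit 3146345774) (nat_lit 0) (nat_lit 23534525487) (nat_lit 1216) (nat_lit 5661485218) (nat_lit 194) (nat_lit 5) (nat_lit 193) (nat_lit 5) (nat_lit 209) (nat_lit 5) (nat_lit 337) (nat_lit 322) (nat_lit 121)) (XT.lf (nat_lit 76) (nat_lit 18830546825) (nat_lit 0) (nat_lit 10351233892) (nat_lit 1216) (nat_lit 3691042906)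 (nat_lit 194) (nat_lit 5) (nat_lit 193) (nat_lit 5) (nat_lit 209) (nat_lit 5) (nat_lit 338) (nat_lit 322) (nat_lit 120))) (XT.nd (nat_lit 78) (nat_lit 76) (nat_lit 0) (XT.lf (nat_lit 0) (nat_lit 1563477742) (nat_lit 1140) (nat_lit 30237869493) (nat_lit 1216) (nat_lit 1616551867) (nat_lit 179) (nat_lit 5) (nat_lit 194) (nat_lit 5) (nat_lit 195) (nat_lit 5) (nat_lit 339) (nat_lit 322) (nat_lit 119)) (XT.lf (nat_lit 0) (nat_lit 753314048) (nat_lit 1216) (nat_lit 16160812353) (nat_lit 76) (nat_lit 17057754747) (nat_lit 178) (nat_lit 5) (nat_lit 194) (nat_lit 5) (nat_lit 179) (nat_lit 5) (nat_lit 340) (nat_lit 322) (nat_lit 118))))) (XT.nd (nat_lit 234) (nat_lit 1140) (nat_lit 0) (XT.nd (nat_lit 78) (nat_lit 608) (nat_lit 0) (XT.lf (nat_lit 0) (nat_lit 3159454492) (nat_lit 1216) (nat_lit 14444880) (nat_lit 76) (nat_lit 31368175972) (nat_lit 178) (nat_lit 5) (nat_lit 194) (nat_lit 5) (nat_lit 179) (nat_lit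 5) (nat_lit 341) (nat_lit 322) (nat_lit 117)) (XT.nd (nat_lit 78) (nat_lit 0) (nat_lit 0) (XT.lf (nat_lit 0) (nat_lit 5905550030) (nat_lit 684) (nat_lit 18286720776) (nat_lit 76) (nat_lit 10929074289) (nat_lit 170) (nat_lit 5) (nat_lit 179) (nat_lit 5) (nat_lit 171) (nat_lit 5) (nat_lit 342) (nat_lit 322) (nat_lit 116)) (XT.lf (nat_lit 0) (nat_lit 8763387416) (nat_lit 684) (nat_lit 1561990031) (nat_lit 76) (nat_lit 25391737494) (nat_lit 170) (nat_lit 5) (nat_lit 179) (nat_lit 5) (nat_lit 171) (nat_lit 5) (nat_lit 343) (nat_lit 322) (nat_lit 115)))) (XT.nd (nat_lit 156) (nat_lit 532) (nat_lit 0) (XT.nd (nat_lit 78) (nat_lit 0) (nat_lit 0) (XT.lf (nat_lit 0) (nat_lit 11897929387) (nat_lit 684) (nat_lit 20391562974) (nat_lit 76) (nat_lit 4035539127) (nat_lit 162) (nat_lit 5) (nat_lit 171) (nat_lit 5) (nat_lit 163) (nat_lit 5) (nat_lit 344) (nat_lit 322) (nat_lit 114)) (XT.lf (nat_lit 0) (nat_lit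 15242564835) (nat_lit 684) (nat_lit 3069315317) (nat_lit 76) (nat_lit 18635826277) (nat_lit 162) (nat_lit 5) (nat_lit 171) (nat_lit 5) (nat_lit 163) (nat_lit 5) (nat_lit 345) (nat_lit 322) (nat_lit 113))) (XT.nd (nat_lit 78) (nat_lit 0) (nat_lit 0) (XT.lf (nat_lit 0) (nat_lit 15064597898) (nat_lit 532) (nat_lit 3765709395) (nat_lit 608) (nat_lit 18754473824) (nat_lit 155) (nat_lit 5) (nat_lit 162) (nat_lit 5) (nat_lit 163) (nat_lit 5) (nat_lit 346) (nat_lit 322) (nat_lit 112)) (XT.lf (nat_lit 0) (nat_lit 22662805256) (nat_lit 608) (nat_lit 4544732005) (nat_lit 76) (nat_lit 11029319551) (nat_lit 155) (nat_lit 5) (nat_lit 163) (nat_lit 5) (nat_lit 156) (nat_lit 5) (nat_lit 347) (nat_lit 322) (nat_lit 111))))))) (XT.nd (nat_lit 1014) (nat_lit 2204) (nat_lit 0) (XT.nd (nat_lit 468) (nat_lit 1748) (nat_lit 0) (XT.nd (nat_lit 234) (nat_lit 608) (nat_lit 0) (XT.nd (nat_lit 78) (nat_lit 456) (nat_lit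 0) (XT.lf (nat_lit 0) (nat_lit 14207996037) (nat_lit 532) (nat_lit 12574199702) (nat_lit 608) (nat_lit 12121143901) (nat_lit 148) (nat_lit 5) (nat_lit 155) (nat_lit 5) (nat_lit 156) (nat_lit 5) (nat_lit 348) (nat_lit 322) (nat_lit 110)) (XT.nd (nat_lit 78) (nat_lit 456) (nat_lit 0) (XT.lf (nat_lit 0) (nat_lit 31093623952) (nat_lit 608) (nat_lit 5998431405) (nat_lit 76) (nat_lit 2495710238) (nat_lit 148) (nat_lit 5) (nat_lit 156) (nat_lit 5) (nat_lit 149) (nat_lit 5) (nat_lit 349) (nat_lit 322) (nat_lit 109)) (XT.lf (nat_lit 0) (nat_lit 13394329054) (nat_lit 456) (nat_lit 22391468068) (nat_lit 532) (nat_lit 4499387397) (nat_lit 142) (nat_lit 5) (nat_lit 148) (nat_lit 5) (nat_lit 149) (nat_lit 5) (nat_lit 350) (nat_lit 322) (nat_lit 108)))) (XT.nd (nat_lit 78) (nat_lit 608) (nat_lit 0) (XT.lf (nat_lit 0) (nat_lit 33489919565) (nat_lit 456) (nat_lit 7187574378) (nat_lit 532) (nat_lit 324271503) (nat_lit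 142) (nat_lit 5) (nat_lit 148) (nat_lit 5) (nat_lit 149) (nat_lit 5) (nat_lit 351) (nat_lit 322) (nat_lit 107)) (XT.nd (nat_lit 78) (nat_lit 0) (nat_lit 0) (XT.lf (nat_lit 0) (nat_lit 4101404411) (nat_lit 608) (nat_lit 29162758468) (nat_lit 76) (nat_lit 8468449528) (nat_lit 134) (nat_lit 5) (nat_lit 142) (nat_lit 5) (nat_lit 135) (nat_lit 5) (nat_lit 352) (nat_lit 322) (nat_lit 106)) (XT.lf (nat_lit 0) (nat_lit 8799355047) (nat_lit 608) (nat_lit 9152175660) (nat_lit 76) (nat_lit 24529379093) (nat_lit 134) (nat_lit 5) (nat_lit 142) (nat_lit 5) (nat_lit 135) (nat_lit 5) (nat_lit 353) (nat_lit 322) (nat_lit 105))))) (XT.nd (nat_lit 234) (nat_lit 836) (nat_lit 0) (XT.nd (nat_lit 78) (nat_lit 456) (nat_lit 0) (XT.lf (nat_lit 0) (nat_lit 11684863639) (nat_lit 456) (nat_lit 2064005461) (nat_lit 532) (nat_lit 29499470213) (nat_lit 128) (nat_lit 5) (nat_lit 134) (nat_lit 5) (nat_lit 135) (nat_lit 5) (nat_lit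 354) (nat_lit 322) (nat_lit 104)) (XT.nd (nat_lit 78) (nat_lit 456) (nat_lit 0) (XT.lf (nat_lit 0) (nat_lit 19075996985) (nat_lit 532) (nat_lit 10841677591) (nat_lit 76) (nat_lit 14114245172) (nat_lit 128) (nat_lit 5) (nat_lit 135) (nat_lit 5) (nat_lit 129) (nat_lit 5) (nat_lit 355) (nat_lit 322) (nat_lit 103)) (XT.lf (nat_lit 0) (nat_lit 10688050211) (nat_lit 456) (nat_lit 13996445427) (nat_lit 532) (nat_lit 20150867082) (nat_lit 122) (nat_lit 5) (nat_lit 128) (nat_lit 5) (nat_lit 129) (nat_lit 5) (nat_lit 356) (nat_lit 322) (nat_lit 102)))) (XT.nd (nat_lit 156) (nat_lit 456) (nat_lit 0) (XT.nd (nat_lit 78) (nat_lit 380) (nat_lit 0) (XT.lf (nat_lit 0) (nat_lit 30593314782) (nat_lit 532) (nat_lit 12599768330) (nat_lit 76) (nat_lit 2465865682) (nat_lit 122) (nat_lit 5) (nat_lit 129) (nat_lit 5) (nat_lit 123) (nat_lit 5) (nat_lit 357) (nat_lit 322) (nat_lit 101)) (XT.lf (nat_lit 0) (nat_lit 9641947530)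 (nat_lit 380) (nat_lit 27267168646) (nat_lit 456) (nat_lit 9591236471) (nat_lit 117) (nat_lit 5) (nat_lit 122) (nat_lit 5) (nat_lit 123) (nat_lit 5) (nat_lit 358) (nat_lit 322) (nat_lit 100))) (XT.nd (nat_lit 78) (nat_lit 456) (nat_lit 0) (XT.lf (nat_lit 0) (nat_lit 32807390555) (nat_lit 380) (nat_lit 10732716359) (nat_lit 456) (nat_lit 3823121921) (nat_lit 117) (nat_lit 5) (nat_lit 122) (nat_lit 5) (nat_lit 123) (nat_lit 5) (nat_lit 359) (nat_lit 322) (nat_lit 99)) (XT.lf (nat_lit 0) (nat_lit 2219058210) (nat_lit 456) (nat_lit 39749799373) (nat_lit 76) (nat_lit 6278253930) (nat_lit 111) (nat_lit 5) (nat_lit 117) (nat_lit 5) (nat_lit 112) (nat_lit 5) (nat_lit 360) (nat_lit 322) (nat_lit 98)))))) (XT.nd (nat_lit 546) (nat_lit 1140) (nat_lit 0) (XT.nd (nat_lit 234) (nat_lit 684) (nat_lit 0) (XT.nd (nat_lit 78) (nat_lit 380) (nat_lit 0) (XT.lf (nat_lit 0) (nat_lit 8618901848) (nat_lit 456) (nat_lit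 16760046924) (nat_lit 76) (nat_lit 23769830682) (nat_lit 111) (nat_lit 5) (nat_lit 117) (nat_lit 5) (nat_lit 112) (nat_lit 5) (nat_lit 361) (nat_lit 322) (nat_lit 97)) (XT.nd (nat_lit 78) (nat_lit 0) (nat_lit 0) (XT.lf (nat_lit 0) (nat_lit 7055314649) (nat_lit 380) (nat_lit 8221822673) (nat_lit 456) (nat_lit 34798369705) (nat_lit 106) (nat_lit 5) (nat_lit 111) (nat_lit 5) (nat_lit 112) (nat_lit 5) (nat_lit 362) (nat_lit 322) (nat_lit 96)) (XT.lf (nat_lit 0) (nat_lit 22395476463) (nat_lit 456) (nat_lit 19190553480) (nat_lit 76) (nat_lit 9436197233) (nat_lit 106) (nat_lit 5) (nat_lit 112) (nat_lit 5) (nat_lit 107) (nat_lit 5) (nat_lit 363) (nat_lit 322) (nat_lit 95)))) (XT.nd (nat_lit 156) (nat_lit 304) (nat_lit 0) (XT.nd (nat_lit 78) (nat_lit 0) (nat_lit 0) (XT.lf (nat_lit 0) (nat_lit 5375741415) (nat_lit 380) (nat_lit 24483342264) (nat_lit 456) (nat_lit 22134315119) (nat_lit 101) (nat_lit 5) (nat_lit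 106) (nat_lit 5) (nat_lit 107) (nat_lit 5) (nat_lit 364) (nat_lit 322) (nat_lit 94)) (XT.lf (nat_lit 0) (nat_lit 31070700578) (nat_lit 380) (nat_lit 6668347484) (nat_lit 456) (nat_lit 15248885400) (nat_lit 101) (nat_lit 5) (nat_lit 106) (nat_lit 5) (nat_lit 107) (nat_lit 5) (nat_lit 365) (nat_lit 322) (nat_lit 93))) (XT.nd (nat_lit 78) (nat_lit 0) (nat_lit 0) (XT.lf (nat_lit 0) (nat_lit 3478089501) (nat_lit 304) (nat_lit 42521738721) (nat_lit 380) (nat_lit 8008144764) (nat_lit 97) (nat_lit 5) (nat_lit 101) (nat_lit 5) (nat_lit 102) (nat_lit 5) (nat_lit 366) (nat_lit 322) (nat_lit 92)) (XT.lf (nat_lit 0) (nat_lit 30015533722) (nat_lit 304) (nat_lit 24778314334) (nat_lit 380) (nat_lit 256204437) (nat_lit 97) (nat_lit 5) (nat_lit 101) (nat_lit 5) (nat_lit 102) (nat_lit 5) (nat_lit 367) (nat_lit 322) (nat_lit 91))))) (XT.nd (nat_lit 234) (nat_lit 684) (nat_lit 0) (XT.nd (nat_lit 78) (nat_lit 0) (nat_lit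 0) (XT.lf (nat_lit 0) (nat_lit 1172640618) (nat_lit 380) (nat_lit 6414861769) (nat_lit 456) (nat_lit 48533364082) (nat_lit 91) (nat_lit 5) (nat_lit 96) (nat_lit 5) (nat_lit 97) (nat_lit 5) (nat_lit 368) (nat_lit 322) (nat_lit 90)) (XT.nd (nat_lit 78) (nat_lit 0) (nat_lit 0) (XT.lf (nat_lit 0) (nat_lit 16035586171) (nat_lit 456) (nat_lit 28663893122) (nat_lit 76) (nat_lit 12513024191) (nat_lit 91) (nat_lit 5) (nat_lit 97) (nat_lit 5) (nat_lit 92) (nat_lit 5) (nat_lit 369) (nat_lit 322) (nat_lit 89)) (XT.lf (nat_lit 0) (nat_lit 24799421975) (nat_lit 456) (nat_lit 1656172722) (nat_lit 76) (nat_lit 31879426769) (nat_lit 91) (nat_lit 5) (nat_lit 97) (nat_lit 5) (nat_lit 92) (nat_lit 5) (nat_lit 370) (nat_lit 322) (nat_lit 88)))) (XT.nd (nat_lit 156) (nat_lit 380) (nat_lit 0) (XT.nd (nat_lit 78) (nat_lit 0) (nat_lit 0) (XT.lf (nat_lit 0) (nat_lit 26680837133) (nat_lit 304) (nat_lit 7400639340) (nat_lit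 380) (nat_lit 25402080516) (nat_lit 87) (nat_lit 5) (nat_lit 91) (nat_lit 5) (nat_lit 92) (nat_lit 5) (nat_lit 371) (nat_lit 322) (nat_lit 87)) (XT.lf (nat_lit 0) (nat_lit 43775251826) (nat_lit 380) (nat_lit 4883426149) (nat_lit 76) (nat_lit 12003873902) (nat_lit 87) (nat_lit 5) (nat_lit 92) (nat_lit 5) (nat_lit 88) (nat_lit 5) (nat_lit 372) (nat_lit 322) (nat_lit 86))) (XT.nd (nat_lit 78) (nat_lit 76) (nat_lit 0) (XT.lf (nat_lit 0) (nat_lit 24272261018) (nat_lit 304) (nat_lit 29793052595) (nat_lit 380) (nat_lit 7802439848) (nat_lit 83) (nat_lit 5) (nat_lit 87) (nat_lit 5) (nat_lit 88) (nat_lit 5) (nat_lit 373) (nat_lit 322) (nat_lit 85)) (XT.lf (nat_lit 0) (nat_lit 1573310099) (nat_lit 380) (nat_lit 8721901876) (nat_lit 76) (nat_lit 52811991077) (nat_lit 82) (nat_lit 5) (nat_lit 87) (nat_lit 5) (nat_lit 83) (nat_lit 5) (nat_lit 374) (nat_lit 322) (nat_lit 84))))))))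
noncomputable def xc232 : XT := (XT.nd (nat_lit 37518) (nat_lit 0) (nat_lit 4180) (XT.nd (nat_lit 1014) (nat_lit 228) (nat_lit 0) (XT.nd (nat_lit 468) (nat_lit 912) (nat_lit 0) (XT.nd (nat_lit 234) (nat_lit 228) (nat_lit 0) (XT.nd (nat_lit 78) (nat_lit 304) (nat_lit 0) (XT.lf (nat_lit 0) (nat_lit 11374592242) (nat_lit 380) (nat_lit 43116409914) (nat_lit 76) (nat_lit 9881484944) (nat_lit 78) (nat_lit 5) (nat_lit 83) (nat_lit 5) (nat_lit 79) (nat_lit 5) (nat_lit 375) (nat_lit 322) (nat_lit 83)) (XT.nd (nat_lit 78) (nat_lit 304) (nat_lit 0) (XT.lf (nat_lit 0) (nat_lit 21659722814) (nat_lit 380) (nat_lit 13465233548) (nat_lit 76) (nat_lit 30545079937) (nat_lit 78) (nat_lit 5) (nat_lit 83) (nat_lit 5) (nat_lit 79) (nat_lit 5) (nat_lit 376) (nat_lit 322) (nat_lit 82)) (XT.lf (nat_lit 0) (nat_lit 17413801229) (nat_lit 304) (nat_lit 15005960363) (nat_lit 380) (nat_lit 34581760655) (nat_lit 74) (nat_lit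 5) (nat_lit 78) (nat_lit 5) (nat_lit 79) (nat_lit 5) (nat_lit 377) (nat_lit 322) (nat_lit 81)))) (XT.nd (nat_lit 78) (nat_lit 228) (nat_lit 0) (XT.lf (nat_lit 0) (nat_lit 43693845762) (nat_lit 380) (nat_lit 18931435792) (nat_lit 76) (nat_lit 5741934768) (nat_lit 74) (nat_lit 5) (nat_lit 79) (nat_lit 5) (nat_lit 75) (nat_lit 5) (nat_lit 378) (nat_lit 322) (nat_lit 80)) (XT.nd (nat_lit 78) (nat_lit 0) (nat_lit 0) (XT.lf (nat_lit 0) (nat_lit 12743177418) (nat_lit 228) (nat_lit 42833048003) (nat_lit 304) (nat_lit 14189554459) (nat_lit 71) (nat_lit 5) (nat_lit 74) (nat_lit 5) (nat_lit 75) (nat_lit 5) (nat_lit 379) (nat_lit 322) (nat_lit 79)) (XT.lf (nat_lit 0) (nat_lit 45754667136) (nat_lit 228) (nat_lit 22250598790) (nat_lit 304) (nat_lit 3195329559) (nat_lit 71) (nat_lit 5) (nat_lit 74) (nat_lit 5) (nat_lit 75) (nat_lit 5) (nat_lit 380) (nat_lit 322) (nat_lit 78))))) (XT.nd (nat_lit 234) (nat_lit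 304) (nat_lit 0) (XT.nd (nat_lit 78) (nat_lit 228) (nat_lit 0) (XT.lf (nat_lit 0) (nat_lit 7137775627) (nat_lit 304) (nat_lit 899975911) (nat_lit 380) (nat_lit 64636331150) (nat_lit 66) (nat_lit 5) (nat_lit 70) (nat_lit 5) (nat_lit 71) (nat_lit 5) (nat_lit 381) (nat_lit 322) (nat_lit 77)) (XT.nd (nat_lit 78) (nat_lit 228) (nat_lit 0) (XT.lf (nat_lit 0) (nat_lit 20004889004) (nat_lit 380) (nat_lit 33201807562) (nat_lit 76) (nat_lit 20970290979) (nat_lit 66) (nat_lit 5) (nat_lit 71) (nat_lit 5) (nat_lit 67) (nat_lit 5) (nat_lit 382) (nat_lit 322) (nat_lit 76)) (XT.lf (nat_lit 0) (nat_lit 94270613) (nat_lit 228) (nat_lit 32245662187) (nat_lit 304) (nat_lit 43384780716) (nat_lit 63) (nat_lit 5) (nat_lit 66) (nat_lit 5) (nat_lit 67) (nat_lit 5) (nat_lit 383) (nat_lit 322) (nat_lit 75)))) (XT.nd (nat_lit 156) (nat_lit 304) (nat_lit 0) (XT.nd (nat_lit 78) (nat_lit 0) (nat_lit 0) (XT.lf (nat_lit 0) (nat_lit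 35068464003) (nat_lit 228) (nat_lit 10310926175) (nat_lit 304) (nat_lit 31929450931) (nat_lit 63) (nat_lit 5) (nat_lit 66) (nat_lit 5) (nat_lit 67) (nat_lit 5) (nat_lit 384) (nat_lit 322) (nat_lit 74)) (XT.lf (nat_lit 0) (nat_lit 58927203295) (nat_lit 304) (nat_lit 7968024615) (nat_lit 76) (nat_lit 12041750150) (nat_lit 63) (nat_lit 5) (nat_lit 67) (nat_lit 5) (nat_lit 64) (nat_lit 5) (nat_lit 385) (nat_lit 322) (nat_lit 73))) (XT.nd (nat_lit 78) (nat_lit 76) (nat_lit 0) (XT.lf (nat_lit 0) (nat_lit 27771007300) (nat_lit 228) (nat_lit 45478621021) (nat_lit 304) (nat_lit 7353286145) (nat_lit 60) (nat_lit 5) (nat_lit 63) (nat_lit 5) (nat_lit 64) (nat_lit 5) (nat_lit 386) (nat_lit 322) (nat_lit 72)) (XT.lf (nat_lit 0) (nat_lit 5652402197) (nat_lit 304) (nat_lit 17627612377) (nat_lit 76) (nat_lit 59034764232) (nat_lit 59) (nat_lit 5) (nat_lit 63) (nat_lit 5) (nat_lit 60) (nat_lit 5) (nat_lit 387) (nat_lit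 322) (nat_lit 71)))))) (XT.nd (nat_lit 35958) (nat_lit 0) (nat_lit 10108) (XT.nd (nat_lit 35724) (nat_lit 0) (nat_lit 9956) (XT.nd (nat_lit 35568) (nat_lit 0) (nat_lit 9956) (XT.lf (nat_lit 0) (nat_lit 18928079914) (nat_lit 228) (nat_lit 153501595) (nat_lit 304) (nat_lit 64988800614) (nat_lit 56) (nat_lit 5) (nat_lit 59) (nat_lit 5) (nat_lit 60) (nat_lit 5) (nat_lit 388) (nat_lit 322) (nat_lit 70)) (XT.nd (nat_lit 78) (nat_lit 0) (nat_lit 0) (XT.lf (nat_lit 0) (nat_lit 2321149808) (nat_lit 0) (nat_lit 2321149808) (nat_lit 1140) (nat_lit 8564437572) (nat_lit 187) (nat_lit 5) (nat_lit 187) (nat_lit 3) (nat_lit 202) (nat_lit 3) (nat_lit 323) (nat_lit 323) (nat_lit 134)) (XT.lf (nat_lit 0) (nat_lit 9583717084) (nat_lit 1140) (nat_lit 10036360338) (nat_lit 1216) (nat_lit 7184682682) (nat_lit 187) (nat_lit 5) (nat_lit 202) (nat_lit 3) (nat_lit 203) (nat_lit 5) (nat_lit 324) (nat_lit 323) (nat_lit 133))))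 (XT.nd (nat_lit 78) (nat_lit 0) (nat_lit 76) (XT.lf (nat_lit 76) (nat_lit 2042521198) (nat_lit 0) (nat_lit 7911411916) (nat_lit 1216) (nat_lit 17251992269) (nat_lit 188) (nat_lit 5) (nat_lit 187) (nat_lit 5) (nat_lit 203) (nat_lit 5) (nat_lit 325) (nat_lit 323) (nat_lit 132)) (XT.nd (nat_lit 78) (nat_lit 0) (nat_lit 0) (XT.lf (nat_lit 0) (nat_lit 10474110107) (nat_lit 1140) (nat_lit 12969435551) (nat_lit 1216) (nat_lit 4171418911) (nat_lit 188) (nat_lit 5) (nat_lit 203) (nat_lit 5) (nat_lit 204) (nat_lit 5) (nat_lit 326) (nat_lit 323) (nat_lit 131)) (XT.lf (nat_lit 0) (nat_lit 11084946937) (nat_lit 1140) (nat_lit 489894778) (nat_lit 1216) (nat_lit 16459186026) (nat_lit 188) (nat_lit 5) (nat_lit 203) (nat_lit 5) (nat_lit 204) (nat_lit 5) (nat_lit 327) (nat_lit 323) (nat_lit 130))))) (XT.nd (nat_lit 234) (nat_lit 0) (nat_lit 76) (XT.nd (nat_lit 78) (nat_lit 0) (nat_lit 0) (XT.lf (nat_lit 0) (nat_lit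 11839585912) (nat_lit 1140) (nat_lit 15861383380) (nat_lit 1216) (nat_lit 760933527) (nat_lit 189) (nat_lit 5) (nat_lit 204) (nat_lit 5) (nat_lit 205) (nat_lit 5) (nat_lit 328) (nat_lit 323) (nat_lit 129)) (XT.nd (nat_lit 78) (nat_lit 0) (nat_lit 0) (XT.lf (nat_lit 0) (nat_lit 12733368636) (nat_lit 1140) (nat_lit 2925380246) (nat_lit 1216) (nat_lit 13240374320) (nat_lit 189) (nat_lit 5) (nat_lit 204) (nat_lit 5) (nat_lit 205) (nat_lit 5) (nat_lit 329) (nat_lit 323) (nat_lit 128)) (XT.lf (nat_lit 76) (nat_lit 10603725110) (nat_lit 0) (nat_lit 3149165566) (nat_lit 1216) (nat_lit 15593605818) (nat_lit 190) (nat_lit 5) (nat_lit 189) (nat_lit 5) (nat_lit 205) (nat_lit 5) (nat_lit 330) (nat_lit 323) (nat_lit 127)))) (XT.nd (nat_lit 156) (nat_lit 0) (nat_lit 76) (XT.nd (nat_lit 78) (nat_lit 0) (nat_lit 0) (XT.lf (nat_lit 0) (nat_lit 14923492979) (nat_lit 1140) (nat_lit 5303590061) (nat_lit 1216) (nat_lit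 9576597058) (nat_lit 190) (nat_lit 5) (nat_lit 205) (nat_lit 5) (nat_lit 206) (nat_lit 5) (nat_lit 331) (nat_lit 323) (nat_lit 126)) (XT.lf (nat_lit 76) (nat_lit 8674945586) (nat_lit 0) (nat_lit 7565997634) (nat_lit 1216) (nat_lit 14030287932) (nat_lit 191) (nat_lit 5) (nat_lit 190) (nat_lit 5) (nat_lit 206) (nat_lit 5) (nat_lit 332) (nat_lit 323) (nat_lit 125))) (XT.nd (nat_lit 78) (nat_lit 0) (nat_lit 0) (XT.lf (nat_lit 0) (nat_lit 17701865288) (nat_lit 1140) (nat_lit 7624802111) (nat_lit 1216) (nat_lit 5423026614) (nat_lit 191) (nat_lit 5) (nat_lit 206) (nat_lit 5) (nat_lit 207) (nat_lit 5) (nat_lit 333) (nat_lit 323) (nat_lit 124)) (XT.lf (nat_lit 76) (nat_lit 6822099677) (nat_lit 0) (nat_lit 12522318889) (nat_lit 1216) (nat_lit 11893961705) (nat_lit 192) (nat_lit 5) (nat_lit 191) (nat_lit 5) (nat_lit 207) (nat_lit 5) (nat_lit 334) (nat_lit 323) (nat_lit 123))))))) (XT.nd (nat_lit 1014) (nat_lit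 3344) (nat_lit 0) (XT.nd (nat_lit 468) (nat_lit 1824) (nat_lit 0) (XT.nd (nat_lit 234) (nat_lit 988) (nat_lit 0) (XT.nd (nat_lit 78) (nat_lit 0) (nat_lit 0) (XT.lf (nat_lit 0) (nat_lit 21117790896) (nat_lit 1140) (nat_lit 9889882728) (nat_lit 1216) (nat_lit 731610730) (nat_lit 192) (nat_lit 5) (nat_lit 207) (nat_lit 5) (nat_lit 208) (nat_lit 5) (nat_lit 335) (nat_lit 323) (nat_lit 122)) (XT.nd (nat_lit 78) (nat_lit 0) (nat_lit 0) (XT.lf (nat_lit 76) (nat_lit 5044815663) (nat_lit 0) (nat_lit 18069483253) (nat_lit 1216) (nat_lit 9135822017) (nat_lit 193) (nat_lit 5) (nat_lit 192) (nat_lit 5) (nat_lit 208) (nat_lit 5) (nat_lit 336) (nat_lit 323) (nat_lit 121)) (XT.lf (nat_lit 76) (nat_lit 20628356451) (nat_lit 0) (nat_lit 4639726955) (nat_lit 1216) (nat_lit 7505281077) (nat_lit 193) (nat_lit 5) (nat_lit 192) (nat_lit 5) (nat_lit 208) (nat_lit 5) (nat_lit 337) (nat_lit 323) (nat_lit 120)))) (XT.nd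 (nat_lit 78) (nat_lit 1064) (nat_lit 0) (XT.lf (nat_lit 76) (nat_lit 3341988318) (nat_lit 0) (nat_lit 24262576772) (nat_lit 1216) (nat_lit 5704200953) (nat_lit 194) (nat_lit 5) (nat_lit 193) (nat_lit 5) (nat_lit 209) (nat_lit 5) (nat_lit 338) (nat_lit 323) (nat_lit 119)) (XT.nd (nat_lit 78) (nat_lit 1064) (nat_lit 0) (XT.lf (nat_lit 76) (nat_lit 19493766308) (nat_lit 0) (nat_lit 10683145200) (nat_lit 1216) (nat_lit 3678348152) (nat_lit 194) (nat_lit 5) (nat_lit 193) (nat_lit 5) (nat_lit 209) (nat_lit 5) (nat_lit 339) (nat_lit 323) (nat_lit 118)) (XT.lf (nat_lit 0) (nat_lit 1711636766) (nat_lit 1140) (nat_lit 31160716351) (nat_lit 1216) (nat_lit 1544420256) (nat_lit 179) (nat_lit 5) (nat_lit 194) (nat_lit 5) (nat_lit 195) (nat_lit 5) (nat_lit 340) (nat_lit 323) (nat_lit 117))))) (XT.nd (nat_lit 234) (nat_lit 1140) (nat_lit 0) (XT.nd (nat_lit 78) (nat_lit 608) (nat_lit 0) (XT.lf (nat_lit 0) (nat_lit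 890742865) (nat_lit 1216) (nat_lit 16544900955) (nat_lit 76) (nat_lit 17551803968) (nat_lit 178) (nat_lit 5) (nat_lit 194) (nat_lit 5) (nat_lit 179) (nat_lit 5) (nat_lit 341) (nat_lit 323) (nat_lit 116)) (XT.nd (nat_lit 78) (nat_lit 0) (nat_lit 0) (XT.lf (nat_lit 0) (nat_lit 84573829) (nat_lit 608) (nat_lit 3281962122) (nat_lit 684) (nat_lit 32208292026) (nat_lit 170) (nat_lit 5) (nat_lit 178) (nat_lit 5) (nat_lit 179) (nat_lit 5) (nat_lit 342) (nat_lit 323) (nat_lit 115)) (XT.lf (nat_lit 0) (nat_lit 6191766679) (nat_lit 684) (nat_lit 18734949387) (nat_lit 76) (nat_lit 11244861283) (nat_lit 170) (nat_lit 5) (nat_lit 179) (nat_lit 5) (nat_lit 171) (nat_lit 5) (nat_lit 343) (nat_lit 323) (nat_lit 114)))) (XT.nd (nat_lit 156) (nat_lit 532) (nat_lit 0) (XT.nd (nat_lit 78) (nat_lit 608) (nat_lit 0) (XT.lf (nat_lit 0) (nat_lit 9132162968) (nat_lit 684) (nat_lit 1511400205) (nat_lit 76) (nat_lit 26141756382)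 (nat_lit 170) (nat_lit 5) (nat_lit 179) (nat_lit 5) (nat_lit 171) (nat_lit 5) (nat_lit 344) (nat_lit 323) (nat_lit 113)) (XT.lf (nat_lit 0) (nat_lit 12358515615) (nat_lit 684) (nat_lit 20903505999) (nat_lit 76) (nat_lit 4149522615) (nat_lit 162) (nat_lit 5) (nat_lit 171) (nat_lit 5) (nat_lit 163) (nat_lit 5) (nat_lit 345) (nat_lit 323) (nat_lit 112))) (XT.nd (nat_lit 78) (nat_lit 532) (nat_lit 0) (XT.lf (nat_lit 0) (nat_lit 15800471242) (nat_lit 684) (nat_lit 3064497821) (nat_lit 76) (nat_lit 19188024672) (nat_lit 162) (nat_lit 5) (nat_lit 171) (nat_lit 5) (nat_lit 163) (nat_lit 5) (nat_lit 346) (nat_lit 323) (nat_lit 111)) (XT.lf (nat_lit 0) (nat_lit 15612482820) (nat_lit 532) (nat_lit 3881354500) (nat_lit 608) (nat_lit 19215407244) (nat_lit 155) (nat_lit 5) (nat_lit 162) (nat_lit 5) (nat_lit 163) (nat_lit 5) (nat_lit 347) (nat_lit 323) (nat_lit 110)))))) (XT.nd (nat_lit 546) (nat_lit 1748) (nat_lit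 0) (XT.nd (nat_lit 234) (nat_lit 1064) (nat_lit 0) (XT.nd (nat_lit 78) (nat_lit 532) (nat_lit 0) (XT.lf (nat_lit 0) (nat_lit 23438412817) (nat_lit 608) (nat_lit 4584906320) (nat_lit 76) (nat_lit 11357653849) (nat_lit 155) (nat_lit 5) (nat_lit 163) (nat_lit 5) (nat_lit 156) (nat_lit 5) (nat_lit 348) (nat_lit 323) (nat_lit 109)) (XT.nd (nat_lit 78) (nat_lit 0) (nat_lit 0) (XT.lf (nat_lit 0) (nat_lit 14729460743) (nat_lit 532) (nat_lit 12950051571) (nat_lit 608) (nat_lit 12387997599) (nat_lit 148) (nat_lit 5) (nat_lit 155) (nat_lit 5) (nat_lit 156) (nat_lit 5) (nat_lit 349) (nat_lit 323) (nat_lit 108)) (XT.lf (nat_lit 0) (nat_lit 32117562682) (nat_lit 608) (nat_lit 6083101305) (nat_lit 76) (nat_lit 2571889612) (nat_lit 148) (nat_lit 5) (nat_lit 156) (nat_lit 5) (nat_lit 149) (nat_lit 5) (nat_lit 350) (nat_lit 323) (nat_lit 107)))) (XT.nd (nat_lit 156) (nat_lit 608) (nat_lit 0) (XT.nd (nat_lit 78)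 (nat_lit 0) (nat_lit 0) (XT.lf (nat_lit 0) (nat_lit 13890507820) (nat_lit 456) (nat_lit 23058245895) (nat_lit 532) (nat_lit 4542197032) (nat_lit 142) (nat_lit 5) (nat_lit 148) (nat_lit 5) (nat_lit 149) (nat_lit 5) (nat_lit 351) (nat_lit 323) (nat_lit 106)) (XT.lf (nat_lit 0) (nat_lit 34586218021) (nat_lit 456) (nat_lit 7398380040) (nat_lit 532) (nat_lit 244512281) (nat_lit 142) (nat_lit 5) (nat_lit 148) (nat_lit 5) (nat_lit 149) (nat_lit 5) (nat_lit 352) (nat_lit 323) (nat_lit 105))) (XT.nd (nat_lit 78) (nat_lit 0) (nat_lit 0) (XT.lf (nat_lit 0) (nat_lit 4310583674) (nat_lit 608) (nat_lit 29942489801) (nat_lit 76) (nat_lit 8728834511) (nat_lit 134) (nat_lit 5) (nat_lit 142) (nat_lit 5) (nat_lit 135) (nat_lit 5) (nat_lit 353) (nat_lit 323) (nat_lit 104)) (XT.lf (nat_lit 0) (nat_lit 9146963982) (nat_lit 608) (nat_lit 9334360910) (nat_lit 76) (nat_lit 25271407550) (nat_lit 134) (nat_lit 5) (nat_lit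 142) (nat_lit 5) (nat_lit 135) (nat_lit 5) (nat_lit 354) (nat_lit 323) (nat_lit 103))))) (XT.nd (nat_lit 234) (nat_lit 836) (nat_lit 0) (XT.nd (nat_lit 78) (nat_lit 456) (nat_lit 0) (XT.lf (nat_lit 0) (nat_lit 12126883882) (nat_lit 456) (nat_lit 2116523106) (nat_lit 532) (nat_lit 30299827336) (nat_lit 128) (nat_lit 5) (nat_lit 134) (nat_lit 5) (nat_lit 135) (nat_lit 5) (nat_lit 355) (nat_lit 323) (nat_lit 102)) (XT.nd (nat_lit 78) (nat_lit 456) (nat_lit 0) (XT.lf (nat_lit 0) (nat_lit 19728046019) (nat_lit 532) (nat_lit 11075724890) (nat_lit 76) (nat_lit 14546623053) (nat_lit 128) (nat_lit 5) (nat_lit 135) (nat_lit 5) (nat_lit 129) (nat_lit 5) (nat_lit 356) (nat_lit 323) (nat_lit 101)) (XT.lf (nat_lit 0) (nat_lit 11099000599) (nat_lit 456) (nat_lit 14404343764) (nat_lit 532) (nat_lit 20674642148) (nat_lit 122) (nat_lit 5) (nat_lit 128) (nat_lit 5) (nat_lit 129) (nat_lit 5) (nat_lit 357) (nat_lit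 323) (nat_lit 100)))) (XT.nd (nat_lit 156) (nat_lit 456) (nat_lit 0) (XT.nd (nat_lit 78) (nat_lit 380) (nat_lit 0) (XT.lf (nat_lit 0) (nat_lit 31587259041) (nat_lit 532) (nat_lit 12887828692) (nat_lit 76) (nat_lit 2551260060) (nat_lit 122) (nat_lit 5) (nat_lit 129) (nat_lit 5) (nat_lit 123) (nat_lit 5) (nat_lit 358) (nat_lit 323) (nat_lit 99)) (XT.lf (nat_lit 0) (nat_lit 10020256950) (nat_lit 380) (nat_lit 28070915728) (nat_lit 456) (nat_lit 9801864416) (nat_lit 117) (nat_lit 5) (nat_lit 122) (nat_lit 5) (nat_lit 123) (nat_lit 5) (nat_lit 359) (nat_lit 323) (nat_lit 98))) (XT.nd (nat_lit 78) (nat_lit 456) (nat_lit 0) (XT.lf (nat_lit 0) (nat_lit 33878069548) (nat_lit 380) (nat_lit 11040845444) (nat_lit 456) (nat_lit 3862952327) (nat_lit 117) (nat_lit 5) (nat_lit 122) (nat_lit 5) (nat_lit 123) (nat_lit 5) (nat_lit 360) (nat_lit 323) (nat_lit 97)) (XT.lf (nat_lit 0) (nat_lit 2357876491) (nat_lit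 456) (nat_lit 40853065834) (nat_lit 76) (nat_lit 6481339508) (nat_lit 111) (nat_lit 5) (nat_lit 117) (nat_lit 5) (nat_lit 112) (nat_lit 5) (nat_lit 361) (nat_lit 323) (nat_lit 96))))))))
noncomputable def xc233 : XT := (XT.nd (nat_lit 37674) (nat_lit 0) (nat_lit 6688) (XT.nd (nat_lit 1014) (nat_lit 1748) (nat_lit 0) (XT.nd (nat_lit 468) (nat_lit 1064) (nat_lit 0) (XT.nd (nat_lit 234) (nat_lit 684) (nat_lit 0) (XT.nd (nat_lit 78) (nat_lit 380) (nat_lit 0) (XT.lf (nat_lit 0) (nat_lit 8947611171) (nat_lit 456) (nat_lit 17176219671) (nat_lit 76) (nat_lit 24497234302) (nat_lit 111) (nat_lit 5) (nat_lit 117) (nat_lit 5) (nat_lit 112) (nat_lit 5) (nat_lit 362) (nat_lit 323) (nat_lit 95)) (XT.nd (nat_lit 78) (nat_lit 0) (nat_lit 0) (XT.lf (nat_lit 0) (nat_lit 7352753448) (nat_lit 380) (nat_lit 8451621845) (nat_lit 456) (nat_lit 35771257941) (nat_lit 106) (nat_lit 5) (nat_lit 111) (nat_lit 5) (nat_lit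 112) (nat_lit 5) (nat_lit 363) (nat_lit 323) (nat_lit 94)) (XT.lf (nat_lit 0) (nat_lit 23134414425) (nat_lit 456) (nat_lit 19681069756) (nat_lit 76) (nat_lit 9735328390) (nat_lit 106) (nat_lit 5) (nat_lit 112) (nat_lit 5) (nat_lit 107) (nat_lit 5) (nat_lit 364) (nat_lit 323) (nat_lit 93)))) (XT.nd (nat_lit 78) (nat_lit 304) (nat_lit 0) (XT.lf (nat_lit 0) (nat_lit 5621378688) (nat_lit 380) (nat_lit 25199408535) (nat_lit 456) (nat_lit 22730368412) (nat_lit 101) (nat_lit 5) (nat_lit 106) (nat_lit 5) (nat_lit 107) (nat_lit 5) (nat_lit 365) (nat_lit 323) (nat_lit 92)) (XT.nd (nat_lit 78) (nat_lit 304) (nat_lit 0) (XT.lf (nat_lit 0) (nat_lit 32084729392) (nat_lit 380) (nat_lit 6850500825) (nat_lit 456) (nat_lit 15640355690) (nat_lit 101) (nat_lit 5) (nat_lit 106) (nat_lit 5) (nat_lit 107) (nat_lit 5) (nat_lit 366) (nat_lit 323) (nat_lit 91)) (XT.lf (nat_lit 0) (nat_lit 3665332708) (nat_lit 304) (nat_lit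 43777600602) (nat_lit 380) (nat_lit 8183322221) (nat_lit 97) (nat_lit 5) (nat_lit 101) (nat_lit 5) (nat_lit 102) (nat_lit 5) (nat_lit 367) (nat_lit 323) (nat_lit 90))))) (XT.nd (nat_lit 234) (nat_lit 608) (nat_lit 0) (XT.nd (nat_lit 78) (nat_lit 456) (nat_lit 0) (XT.lf (nat_lit 0) (nat_lit 30996485677) (nat_lit 304) (nat_lit 25502449898) (nat_lit 380) (nat_lit 200718837) (nat_lit 97) (nat_lit 5) (nat_lit 101) (nat_lit 5) (nat_lit 102) (nat_lit 5) (nat_lit 368) (nat_lit 323) (nat_lit 89)) (XT.nd (nat_lit 78) (nat_lit 0) (nat_lit 0) (XT.lf (nat_lit 0) (nat_lit 1288796441) (nat_lit 380) (nat_lit 6587244390) (nat_lit 456) (nat_lit 49926566267) (nat_lit 91) (nat_lit 5) (nat_lit 96) (nat_lit 5) (nat_lit 97) (nat_lit 5) (nat_lit 369) (nat_lit 323) (nat_lit 88)) (XT.lf (nat_lit 0) (nat_lit 16575980196) (nat_lit 456) (nat_lit 29443548644) (nat_lit 76) (nat_lit 12907513680) (nat_lit 91) (nat_lit 5) (nat_lit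 97) (nat_lit 5) (nat_lit 92) (nat_lit 5) (nat_lit 370) (nat_lit 323) (nat_lit 87)))) (XT.nd (nat_lit 156) (nat_lit 304) (nat_lit 0) (XT.nd (nat_lit 78) (nat_lit 304) (nat_lit 0) (XT.lf (nat_lit 0) (nat_lit 25601003120) (nat_lit 456) (nat_lit 1627934340) (nat_lit 76) (nat_lit 32854352061) (nat_lit 91) (nat_lit 5) (nat_lit 97) (nat_lit 5) (nat_lit 92) (nat_lit 5) (nat_lit 371) (nat_lit 323) (nat_lit 86)) (XT.lf (nat_lit 0) (nat_lit 27558421854) (nat_lit 304) (nat_lit 7602161477) (nat_lit 380) (nat_lit 26105727445) (nat_lit 87) (nat_lit 5) (nat_lit 91) (nat_lit 5) (nat_lit 92) (nat_lit 5) (nat_lit 372) (nat_lit 323) (nat_lit 85))) (XT.nd (nat_lit 78) (nat_lit 304) (nat_lit 0) (XT.lf (nat_lit 0) (nat_lit 45143712871) (nat_lit 380) (nat_lit 4953506119) (nat_lit 76) (nat_lit 12383501839) (nat_lit 87) (nat_lit 5) (nat_lit 92) (nat_lit 5) (nat_lit 88) (nat_lit 5) (nat_lit 373) (nat_lit 323) (nat_lit 84))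 (XT.lf (nat_lit 0) (nat_lit 25076102420) (nat_lit 304) (nat_lit 30665493643) (nat_lit 380) (nat_lit 7980510310) (nat_lit 83) (nat_lit 5) (nat_lit 87) (nat_lit 5) (nat_lit 88) (nat_lit 5) (nat_lit 374) (nat_lit 323) (nat_lit 83)))))) (XT.nd (nat_lit 468) (nat_lit 836) (nat_lit 0) (XT.nd (nat_lit 234) (nat_lit 532) (nat_lit 0) (XT.nd (nat_lit 78) (nat_lit 304) (nat_lit 0) (XT.lf (nat_lit 0) (nat_lit 1673820002) (nat_lit 380) (nat_lit 8908981330) (nat_lit 76) (nat_lit 54415971364) (nat_lit 82) (nat_lit 5) (nat_lit 87) (nat_lit 5) (nat_lit 83) (nat_lit 5) (nat_lit 375) (nat_lit 323) (nat_lit 82)) (XT.nd (nat_lit 78) (nat_lit 0) (nat_lit 0) (XT.lf (nat_lit 0) (nat_lit 11768503236) (nat_lit 380) (nat_lit 44334641479) (nat_lit 76) (nat_lit 10198891044) (nat_lit 78) (nat_lit 5) (nat_lit 83) (nat_lit 5) (nat_lit 79) (nat_lit 5) (nat_lit 376) (nat_lit 323) (nat_lit 81)) (XT.lf (nat_lit 0) (nat_lit 22360653553)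 (nat_lit 380) (nat_lit 13796121883) (nat_lit 76) (nat_lit 31481783356) (nat_lit 78) (nat_lit 5) (nat_lit 83) (nat_lit 5) (nat_lit 79) (nat_lit 5) (nat_lit 377) (nat_lit 323) (nat_lit 80)))) (XT.nd (nat_lit 78) (nat_lit 228) (nat_lit 0) (XT.lf (nat_lit 0) (nat_lit 18008567578) (nat_lit 304) (nat_lit 15434131924) (nat_lit 380) (nat_lit 35567314930) (nat_lit 74) (nat_lit 5) (nat_lit 78) (nat_lit 5) (nat_lit 79) (nat_lit 5) (nat_lit 378) (nat_lit 323) (nat_lit 79)) (XT.nd (nat_lit 78) (nat_lit 228) (nat_lit 0) (XT.lf (nat_lit 0) (nat_lit 45053745222) (nat_lit 380) (nat_lit 19427831053) (nat_lit 76) (nat_lit 5935142140) (nat_lit 74) (nat_lit 5) (nat_lit 79) (nat_lit 5) (nat_lit 75) (nat_lit 5) (nat_lit 379) (nat_lit 323) (nat_lit 78)) (XT.lf (nat_lit 0) (nat_lit 13196319104) (nat_lit 228) (nat_lit 44095528552) (nat_lit 304) (nat_lit 14565414902) (nat_lit 71) (nat_lit 5) (nat_lit 74) (nat_lit 5) (nat_lit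 75) (nat_lit 5) (nat_lit 380) (nat_lit 323) (nat_lit 77))))) (XT.nd (nat_lit 234) (nat_lit 456) (nat_lit 0) (XT.nd (nat_lit 78) (nat_lit 380) (nat_lit 0) (XT.lf (nat_lit 0) (nat_lit 47196090028) (nat_lit 228) (nat_lit 22896261520) (nat_lit 304) (nat_lit 3242814503) (nat_lit 71) (nat_lit 5) (nat_lit 74) (nat_lit 5) (nat_lit 75) (nat_lit 5) (nat_lit 381) (nat_lit 323) (nat_lit 76)) (XT.nd (nat_lit 78) (nat_lit 0) (nat_lit 0) (XT.lf (nat_lit 0) (nat_lit 7420990090) (nat_lit 304) (nat_lit 904607532) (nat_lit 380) (nat_lit 66527268935) (nat_lit 66) (nat_lit 5) (nat_lit 70) (nat_lit 5) (nat_lit 71) (nat_lit 5) (nat_lit 382) (nat_lit 323) (nat_lit 75)) (XT.lf (nat_lit 0) (nat_lit 20650597374) (nat_lit 380) (nat_lit 34129604707) (nat_lit 76) (nat_lit 21620692119) (nat_lit 66) (nat_lit 5) (nat_lit 71) (nat_lit 5) (nat_lit 67) (nat_lit 5) (nat_lit 383) (nat_lit 323) (nat_lit 74)))) (XT.nd (nat_lit 156)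 (nat_lit 228) (nat_lit 0) (XT.nd (nat_lit 78) (nat_lit 0) (nat_lit 0) (XT.lf (nat_lit 0) (nat_lit 164686626) (nat_lit 228) (nat_lit 33190328515) (nat_lit 304) (nat_lit 44640058181) (nat_lit 63) (nat_lit 5) (nat_lit 66) (nat_lit 5) (nat_lit 67) (nat_lit 5) (nat_lit 384) (nat_lit 323) (nat_lit 73)) (XT.lf (nat_lit 0) (nat_lit 36186137238) (nat_lit 228) (nat_lit 10598211690) (nat_lit 304) (nat_lit 32842416055) (nat_lit 63) (nat_lit 5) (nat_lit 66) (nat_lit 5) (nat_lit 67) (nat_lit 5) (nat_lit 385) (nat_lit 323) (nat_lit 72))) (XT.nd (nat_lit 78) (nat_lit 228) (nat_lit 0) (XT.lf (nat_lit 0) (nat_lit 60737532917) (nat_lit 304) (nat_lit 8142260703) (nat_lit 76) (nat_lit 12423985320) (nat_lit 63) (nat_lit 5) (nat_lit 67) (nat_lit 5) (nat_lit 64) (nat_lit 5) (nat_lit 386) (nat_lit 323) (nat_lit 71)) (XT.lf (nat_lit 0) (nat_lit 28668306830) (nat_lit 228) (nat_lit 46820702441) (nat_lit 304) (nat_lit 7530703773)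 (nat_lit 60) (nat_lit 5) (nat_lit 63) (nat_lit 5) (nat_lit 64) (nat_lit 5) (nat_lit 387) (nat_lit 323) (nat_lit 70))))))) (XT.nd (nat_lit 1014) (nat_lit 2964) (nat_lit 0) (XT.nd (nat_lit 468) (nat_lit 0) (nat_lit 152) (XT.nd (nat_lit 234) (nat_lit 0) (nat_lit 76) (XT.nd (nat_lit 78) (nat_lit 0) (nat_lit 0) (XT.lf (nat_lit 0) (nat_lit 2435059965) (nat_lit 0) (nat_lit 2435059965) (nat_lit 1140) (nat_lit 8730043073) (nat_lit 187) (nat_lit 5) (nat_lit 187) (nat_lit 3) (nat_lit 202) (nat_lit 3) (nat_lit 324) (nat_lit 324) (nat_lit 132)) (XT.nd (nat_lit 78) (nat_lit 0) (nat_lit 0) (XT.lf (nat_lit 0) (nat_lit 10042346502) (nat_lit 1140) (nat_lit 10245261697) (nat_lit 1216) (nat_lit 7315928627) (nat_lit 187) (nat_lit 5) (nat_lit 202) (nat_lit 3) (nat_lit 203) (nat_lit 5) (nat_lit 325) (nat_lit 324) (nat_lit 131)) (XT.lf (nat_lit 76) (nat_lit 2195082467) (nat_lit 0) (nat_lit 8224480024) (nat_lit 1216)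 (nat_lit 17597304543) (nat_lit 188) (nat_lit 5) (nat_lit 187) (nat_lit 5) (nat_lit 203) (nat_lit 5) (nat_lit 326) (nat_lit 324) (nat_lit 130)))) (XT.nd (nat_lit 78) (nat_lit 0) (nat_lit 0) (XT.lf (nat_lit 0) (nat_lit 10949773663) (nat_lit 1140) (nat_lit 13264101466) (nat_lit 1216) (nat_lit 4224475975) (nat_lit 188) (nat_lit 5) (nat_lit 203) (nat_lit 5) (nat_lit 204) (nat_lit 5) (nat_lit 327) (nat_lit 324) (nat_lit 129)) (XT.nd (nat_lit 78) (nat_lit 0) (nat_lit 76) (XT.lf (nat_lit 0) (nat_lit 11574233455) (nat_lit 1140) (nat_lit 412924484) (nat_lit 1216) (nat_lit 16882975682) (nat_lit 188) (nat_lit 5) (nat_lit 203) (nat_lit 5) (nat_lit 204) (nat_lit 5) (nat_lit 328) (nat_lit 324) (nat_lit 128)) (XT.lf (nat_lit 0) (nat_lit 12347220288) (nat_lit 1140) (nat_lit 16241059821) (nat_lit 1216) (nat_lit 722699778) (nat_lit 189) (nat_lit 5) (nat_lit 204) (nat_lit 5) (nat_lit 205) (nat_lit 5) (nat_lit 329)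 (nat_lit 324) (nat_lit 127))))) (XT.nd (nat_lit 234) (nat_lit 0) (nat_lit 76) (XT.nd (nat_lit 78) (nat_lit 0) (nat_lit 0) (XT.lf (nat_lit 0) (nat_lit 13263376296) (nat_lit 1140) (nat_lit 2919777518) (nat_lit 1216) (nat_lit 13578302292) (nat_lit 189) (nat_lit 5) (nat_lit 204) (nat_lit 5) (nat_lit 205) (nat_lit 5) (nat_lit 330) (nat_lit 324) (nat_lit 126)) (XT.nd (nat_lit 78) (nat_lit 0) (nat_lit 76) (XT.lf (nat_lit 76) (nat_lit 11014285664) (nat_lit 0) (nat_lit 3295776135) (nat_lit 1216) (nat_lit 15912297306) (nat_lit 190) (nat_lit 5) (nat_lit 189) (nat_lit 5) (nat_lit 205) (nat_lit 5) (nat_lit 331) (nat_lit 324) (nat_lit 125)) (XT.lf (nat_lit 0) (nat_lit 15511084414) (nat_lit 1140) (nat_lit 5368054808) (nat_lit 1216) (nat_lit 9814265602) (nat_lit 190) (nat_lit 5) (nat_lit 205) (nat_lit 5) (nat_lit 206) (nat_lit 5) (nat_lit 332) (nat_lit 324) (nat_lit 124)))) (XT.nd (nat_lit 156) (nat_lit 0) (nat_lit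 76) (XT.nd (nat_lit 78) (nat_lit 0) (nat_lit 76) (XT.lf (nat_lit 76) (nat_lit 9028909036) (nat_lit 0) (nat_lit 7835975604) (nat_lit 1216) (nat_lit 14310198482) (nat_lit 191) (nat_lit 5) (nat_lit 190) (nat_lit 5) (nat_lit 206) (nat_lit 5) (nat_lit 333) (nat_lit 324) (nat_lit 123)) (XT.lf (nat_lit 0) (nat_lit 18365251150) (nat_lit 1140) (nat_lit 7757999212) (nat_lit 1216) (nat_lit 5544786350) (nat_lit 191) (nat_lit 5) (nat_lit 206) (nat_lit 5) (nat_lit 207) (nat_lit 5) (nat_lit 334) (nat_lit 324) (nat_lit 122))) (XT.nd (nat_lit 78) (nat_lit 0) (nat_lit 76) (XT.lf (nat_lit 76) (nat_lit 7121372895) (nat_lit 0) (nat_lit 12932763313) (nat_lit 1216) (nat_lit 12117340884) (nat_lit 192) (nat_lit 5) (nat_lit 191) (nat_lit 5) (nat_lit 207) (nat_lit 5) (nat_lit 335) (nat_lit 324) (nat_lit 121)) (XT.lf (nat_lit 0) (nat_lit 21876616669) (nat_lit 1140) (nat_lit 10090463588) (nat_lit 1216) (nat_lit 720455872)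 (nat_lit 192) (nat_lit 5) (nat_lit 207) (nat_lit 5) (nat_lit 208) (nat_lit 5) (nat_lit 336) (nat_lit 324) (nat_lit 120)))))) (XT.nd (nat_lit 546) (nat_lit 1672) (nat_lit 0) (XT.nd (nat_lit 234) (nat_lit 1672) (nat_lit 0) (XT.nd (nat_lit 78) (nat_lit 0) (nat_lit 0) (XT.lf (nat_lit 76) (nat_lit 5291333445) (nat_lit 0) (nat_lit 18638952067) (nat_lit 1216) (nat_lit 9283499220) (nat_lit 193) (nat_lit 5) (nat_lit 192) (nat_lit 5) (nat_lit 208) (nat_lit 5) (nat_lit 337) (nat_lit 324) (nat_lit 119)) (XT.nd (nat_lit 78) (nat_lit 0) (nat_lit 76) (XT.lf (nat_lit 76) (nat_lit 21339608418) (nat_lit 0) (nat_lit 4805505478) (nat_lit 1216) (nat_lit 7607723531) (nat_lit 193) (nat_lit 5) (nat_lit 192) (nat_lit 5) (nat_lit 208) (nat_lit 5) (nat_lit 338) (nat_lit 324) (nat_lit 118)) (XT.lf (nat_lit 76) (nat_lit 3537687850) (nat_lit 0) (nat_lit 25011205814) (nat_lit 1216) (nat_lit 5755495873) (nat_lit 194) (nat_lit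 5) (nat_lit 193) (nat_lit 5) (nat_lit 209) (nat_lit 5) (nat_lit 339) (nat_lit 324) (nat_lit 117)))) (XT.nd (nat_lit 156) (nat_lit 684) (nat_lit 0) (XT.nd (nat_lit 78) (nat_lit 1064) (nat_lit 0) (XT.lf (nat_lit 76) (nat_lit 20171239378) (nat_lit 0) (nat_lit 11023786875) (nat_lit 1216) (nat_lit 3672357715) (nat_lit 194) (nat_lit 5) (nat_lit 193) (nat_lit 5) (nat_lit 209) (nat_lit 5) (nat_lit 340) (nat_lit 324) (nat_lit 116)) (XT.lf (nat_lit 0) (nat_lit 1858428126) (nat_lit 1140) (nat_lit 32110346752) (nat_lit 1216) (nat_lit 1477049247) (nat_lit 179) (nat_lit 5) (nat_lit 194) (nat_lit 5) (nat_lit 195) (nat_lit 5) (nat_lit 341) (nat_lit 324) (nat_lit 115))) (XT.nd (nat_lit 78) (nat_lit 608) (nat_lit 0) (XT.lf (nat_lit 0) (nat_lit 1025702869) (nat_lit 1216) (nat_lit 16946294860) (nat_lit 76) (nat_lit 18061689767) (nat_lit 178) (nat_lit 5) (nat_lit 194) (nat_lit 5) (nat_lit 179) (nat_lit 5) (nat_lit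 342) (nat_lit 324) (nat_lit 114)) (XT.lf (nat_lit 0) (nat_lit 181133255) (nat_lit 608) (nat_lit 3392387737) (nat_lit 684) (nat_lit 33065239540) (nat_lit 170) (nat_lit 5) (nat_lit 178) (nat_lit 5) (nat_lit 179) (nat_lit 5) (nat_lit 343) (nat_lit 324) (nat_lit 113))))) (XT.nd (nat_lit 234) (nat_lit 1064) (nat_lit 0) (XT.nd (nat_lit 78) (nat_lit 608) (nat_lit 0) (XT.lf (nat_lit 0) (nat_lit 6480309903) (nat_lit 684) (nat_lit 19202386677) (nat_lit 76) (nat_lit 11570815629) (nat_lit 170) (nat_lit 5) (nat_lit 179) (nat_lit 5) (nat_lit 171) (nat_lit 5) (nat_lit 344) (nat_lit 324) (nat_lit 112)) (XT.nd (nat_lit 78) (nat_lit 608) (nat_lit 0) (XT.lf (nat_lit 0) (nat_lit 9505924191) (nat_lit 684) (nat_lit 1464886685) (nat_lit 76) (nat_lit 26914949372) (nat_lit 170) (nat_lit 5) (nat_lit 179) (nat_lit 5) (nat_lit 171) (nat_lit 5) (nat_lit 345) (nat_lit 324) (nat_lit 111)) (XT.lf (nat_lit 0) (nat_lit 12826969591)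 (nat_lit 684) (nat_lit 21436536465) (nat_lit 76) (nat_lit 4267332183) (nat_lit 162) (nat_lit 5) (nat_lit 171) (nat_lit 5) (nat_lit 163) (nat_lit 5) (nat_lit 346) (nat_lit 324) (nat_lit 110)))) (XT.nd (nat_lit 156) (nat_lit 532) (nat_lit 0) (XT.nd (nat_lit 78) (nat_lit 532) (nat_lit 0) (XT.lf (nat_lit 0) (nat_lit 16369338299) (nat_lit 684) (nat_lit 3065098082) (nat_lit 76) (nat_lit 19757183751) (nat_lit 162) (nat_lit 5) (nat_lit 171) (nat_lit 5) (nat_lit 163) (nat_lit 5) (nat_lit 347) (nat_lit 324) (nat_lit 109)) (XT.lf (nat_lit 0) (nat_lit 16171296541) (nat_lit 532) (nat_lit 4000315469) (nat_lit 608) (nat_lit 19696006708) (nat_lit 155) (nat_lit 5) (nat_lit 162) (nat_lit 5) (nat_lit 163) (nat_lit 5) (nat_lit 348) (nat_lit 324) (nat_lit 108))) (XT.nd (nat_lit 78) (nat_lit 532) (nat_lit 0) (XT.lf (nat_lit 0) (nat_lit 24231793691) (nat_lit 608) (nat_lit 4631806281) (nat_lit 76) (nat_lit 11695984286)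 (nat_lit 155) (nat_lit 5) (nat_lit 163) (nat_lit 5) (nat_lit 156) (nat_lit 5) (nat_lit 349) (nat_lit 324) (nat_lit 107)) (XT.lf (nat_lit 0) (nat_lit 15261103096) (nat_lit 532) (nat_lit 13337257875) (nat_lit 608) (nat_lit 12668412511) (nat_lit 148) (nat_lit 5) (nat_lit 155) (nat_lit 5) (nat_lit 156) (nat_lit 5) (nat_lit 350) (nat_lit 324) (nat_lit 106))))))))
noncomputable def xc234 : XT := (XT.nd (nat_lit 2028) (nat_lit 1444) (nat_lit 0) (XT.nd (nat_lit 1014) (nat_lit 2204) (nat_lit 0) (XT.nd (nat_lit 468) (nat_lit 1292) (nat_lit 0) (XT.nd (nat_lit 234) (nat_lit 1064) (nat_lit 0) (XT.nd (nat_lit 78) (nat_lit 456) (nat_lit 0) (XT.lf (nat_lit 0) (nat_lit 33166988339) (nat_lit 608) (nat_lit 6175780939) (nat_lit 76) (nat_lit 2650279278) (nat_lit 148) (nat_lit 5) (nat_lit 156) (nat_lit 5) (nat_lit 149) (nat_lit 5) (nat_lit 351) (nat_lit 324) (nat_lit 105)) (XT.nd (nat_lit 78) (nat_lit 0) (nat_lit 0)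 (XT.lf (nat_lit 0) (nat_lit 14396155936) (nat_lit 456) (nat_lit 23745312137) (nat_lit 532) (nat_lit 4591582004) (nat_lit 142) (nat_lit 5) (nat_lit 148) (nat_lit 5) (nat_lit 149) (nat_lit 5) (nat_lit 352) (nat_lit 324) (nat_lit 104)) (XT.lf (nat_lit 0) (nat_lit 35710147165) (nat_lit 456) (nat_lit 7615786650) (nat_lit 532) (nat_lit 167497224) (nat_lit 142) (nat_lit 5) (nat_lit 148) (nat_lit 5) (nat_lit 149) (nat_lit 5) (nat_lit 353) (nat_lit 324) (nat_lit 103)))) (XT.nd (nat_lit 78) (nat_lit 456) (nat_lit 0) (XT.lf (nat_lit 0) (nat_lit 4521093692) (nat_lit 608) (nat_lit 30751075155) (nat_lit 76) (nat_lit 8996667589) (nat_lit 134) (nat_lit 5) (nat_lit 142) (nat_lit 5) (nat_lit 135) (nat_lit 5) (nat_lit 354) (nat_lit 324) (nat_lit 102)) (XT.nd (nat_lit 78) (nat_lit 456) (nat_lit 0) (XT.lf (nat_lit 0) (nat_lit 9500200579) (nat_lit 608) (nat_lit 9527314708) (nat_lit 76) (nat_lit 26035343993) (nat_lit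 134) (nat_lit 5) (nat_lit 142) (nat_lit 5) (nat_lit 135) (nat_lit 5) (nat_lit 355) (nat_lit 324) (nat_lit 101)) (XT.lf (nat_lit 0) (nat_lit 12576913732) (nat_lit 456) (nat_lit 2171156024) (nat_lit 532) (nat_lit 31129053107) (nat_lit 128) (nat_lit 5) (nat_lit 134) (nat_lit 5) (nat_lit 135) (nat_lit 5) (nat_lit 356) (nat_lit 324) (nat_lit 100))))) (XT.nd (nat_lit 234) (nat_lit 836) (nat_lit 0) (XT.nd (nat_lit 78) (nat_lit 456) (nat_lit 0) (XT.lf (nat_lit 0) (nat_lit 20395077449) (nat_lit 532) (nat_lit 11322029035) (nat_lit 76) (nat_lit 14991458474) (nat_lit 128) (nat_lit 5) (nat_lit 135) (nat_lit 5) (nat_lit 129) (nat_lit 5) (nat_lit 357) (nat_lit 324) (nat_lit 99)) (XT.nd (nat_lit 78) (nat_lit 0) (nat_lit 0) (XT.lf (nat_lit 0) (nat_lit 11517095399) (nat_lit 456) (nat_lit 14825167615) (nat_lit 532) (nat_lit 21218765901) (nat_lit 122) (nat_lit 5) (nat_lit 128) (nat_lit 5) (nat_lit 129) (nat_lit 5)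 (nat_lit 358) (nat_lit 324) (nat_lit 98)) (XT.lf (nat_lit 0) (nat_lit 32606650603) (nat_lit 532) (nat_lit 13189693369) (nat_lit 76) (nat_lit 2638560806) (nat_lit 122) (nat_lit 5) (nat_lit 129) (nat_lit 5) (nat_lit 123) (nat_lit 5) (nat_lit 359) (nat_lit 324) (nat_lit 97)))) (XT.nd (nat_lit 156) (nat_lit 456) (nat_lit 0) (XT.nd (nat_lit 78) (nat_lit 0) (nat_lit 0) (XT.lf (nat_lit 0) (nat_lit 10404803762) (nat_lit 380) (nat_lit 28899594263) (nat_lit 456) (nat_lit 10023237579) (nat_lit 117) (nat_lit 5) (nat_lit 122) (nat_lit 5) (nat_lit 123) (nat_lit 5) (nat_lit 360) (nat_lit 324) (nat_lit 96)) (XT.lf (nat_lit 0) (nat_lit 34975905910) (nat_lit 380) (nat_lit 11359013587) (nat_lit 456) (nat_lit 3908275101) (nat_lit 117) (nat_lit 5) (nat_lit 122) (nat_lit 5) (nat_lit 123) (nat_lit 5) (nat_lit 361) (nat_lit 324) (nat_lit 95))) (XT.nd (nat_lit 78) (nat_lit 0) (nat_lit 0) (XT.lf (nat_lit 0) (nat_lit 2496712074)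 (nat_lit 456) (nat_lit 41994552313) (nat_lit 76) (nat_lit 6689671635) (nat_lit 111) (nat_lit 5) (nat_lit 117) (nat_lit 5) (nat_lit 112) (nat_lit 5) (nat_lit 362) (nat_lit 324) (nat_lit 94)) (XT.lf (nat_lit 0) (nat_lit 9282155320) (nat_lit 456) (nat_lit 17609850440) (nat_lit 76) (nat_lit 25245638652) (nat_lit 111) (nat_lit 5) (nat_lit 117) (nat_lit 5) (nat_lit 112) (nat_lit 5) (nat_lit 363) (nat_lit 324) (nat_lit 93)))))) (XT.nd (nat_lit 468) (nat_lit 1140) (nat_lit 0) (XT.nd (nat_lit 234) (nat_lit 304) (nat_lit 0) (XT.nd (nat_lit 78) (nat_lit 380) (nat_lit 0) (XT.lf (nat_lit 0) (nat_lit 7654191326) (nat_lit 380) (nat_lit 8689282568) (nat_lit 456) (nat_lit 36777412123) (nat_lit 106) (nat_lit 5) (nat_lit 111) (nat_lit 5) (nat_lit 112) (nat_lit 5) (nat_lit 364) (nat_lit 324) (nat_lit 92)) (XT.nd (nat_lit 78) (nat_lit 380) (nat_lit 0) (XT.lf (nat_lit 0) (nat_lit 23891670222) (nat_lit 456) (nat_lit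 20191192368) (nat_lit 76) (nat_lit 10042512418) (nat_lit 106) (nat_lit 5) (nat_lit 112) (nat_lit 5) (nat_lit 107) (nat_lit 5) (nat_lit 365) (nat_lit 324) (nat_lit 91)) (XT.lf (nat_lit 0) (nat_lit 5869542181) (nat_lit 380) (nat_lit 25938014981) (nat_lit 456) (nat_lit 23348205414) (nat_lit 101) (nat_lit 5) (nat_lit 106) (nat_lit 5) (nat_lit 107) (nat_lit 5) (nat_lit 366) (nat_lit 324) (nat_lit 90)))) (XT.nd (nat_lit 78) (nat_lit 304) (nat_lit 0) (XT.lf (nat_lit 0) (nat_lit 33124477228) (nat_lit 380) (nat_lit 7039146131) (nat_lit 456) (nat_lit 16047358545) (nat_lit 101) (nat_lit 5) (nat_lit 106) (nat_lit 5) (nat_lit 107) (nat_lit 5) (nat_lit 367) (nat_lit 324) (nat_lit 89)) (XT.nd (nat_lit 78) (nat_lit 0) (nat_lit 0) (XT.lf (nat_lit 0) (nat_lit 3853434381) (nat_lit 304) (nat_lit 45072274382) (nat_lit 380) (nat_lit 8367490107) (nat_lit 97) (nat_lit 5) (nat_lit 101) (nat_lit 5) (nat_lit 102) (nat_lit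 5) (nat_lit 368) (nat_lit 324) (nat_lit 88)) (XT.lf (nat_lit 0) (nat_lit 32002245968) (nat_lit 304) (nat_lit 26249412485) (nat_lit 380) (nat_lit 147194984) (nat_lit 97) (nat_lit 5) (nat_lit 101) (nat_lit 5) (nat_lit 102) (nat_lit 5) (nat_lit 369) (nat_lit 324) (nat_lit 87))))) (XT.nd (nat_lit 234) (nat_lit 684) (nat_lit 0) (XT.nd (nat_lit 78) (nat_lit 0) (nat_lit 0) (XT.lf (nat_lit 0) (nat_lit 1403788551) (nat_lit 380) (nat_lit 6765950201) (nat_lit 456) (nat_lit 51365169422) (nat_lit 91) (nat_lit 5) (nat_lit 96) (nat_lit 5) (nat_lit 97) (nat_lit 5) (nat_lit 370) (nat_lit 324) (nat_lit 86)) (XT.nd (nat_lit 78) (nat_lit 0) (nat_lit 0) (XT.lf (nat_lit 0) (nat_lit 17129180461) (nat_lit 456) (nat_lit 30251201158) (nat_lit 76) (nat_lit 13312741507) (nat_lit 91) (nat_lit 5) (nat_lit 97) (nat_lit 5) (nat_lit 92) (nat_lit 5) (nat_lit 371) (nat_lit 324) (nat_lit 85)) (XT.lf (nat_lit 0) (nat_lit 26423325310)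 (nat_lit 456) (nat_lit 1603321937) (nat_lit 76) (nat_lit 33857460696) (nat_lit 91) (nat_lit 5) (nat_lit 97) (nat_lit 5) (nat_lit 92) (nat_lit 5) (nat_lit 372) (nat_lit 324) (nat_lit 84)))) (XT.nd (nat_lit 156) (nat_lit 380) (nat_lit 0) (XT.nd (nat_lit 78) (nat_lit 0) (nat_lit 0) (XT.lf (nat_lit 0) (nat_lit 28457904841) (nat_lit 304) (nat_lit 7810905893) (nat_lit 380) (nat_lit 26833837070) (nat_lit 87) (nat_lit 5) (nat_lit 91) (nat_lit 5) (nat_lit 92) (nat_lit 5) (nat_lit 373) (nat_lit 324) (nat_lit 83)) (XT.lf (nat_lit 0) (nat_lit 46550058841) (nat_lit 380) (nat_lit 5030075470) (nat_lit 76) (nat_lit 12773398562) (nat_lit 87) (nat_lit 5) (nat_lit 92) (nat_lit 5) (nat_lit 88) (nat_lit 5) (nat_lit 374) (nat_lit 324) (nat_lit 82))) (XT.nd (nat_lit 78) (nat_lit 76) (nat_lit 0) (XT.lf (nat_lit 0) (nat_lit 25899715092) (nat_lit 304) (nat_lit 31565333531) (nat_lit 380) (nat_lit 8167137673) (nat_lit 83)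 (nat_lit 5) (nat_lit 87) (nat_lit 5) (nat_lit 88) (nat_lit 5) (nat_lit 375) (nat_lit 324) (nat_lit 81)) (XT.lf (nat_lit 0) (nat_lit 1774284956) (nat_lit 380) (nat_lit 9105954228) (nat_lit 76) (nat_lit 56066944759) (nat_lit 82) (nat_lit 5) (nat_lit 87) (nat_lit 5) (nat_lit 83) (nat_lit 5) (nat_lit 376) (nat_lit 324) (nat_lit 80))))))) (XT.nd (nat_lit 36738) (nat_lit 0) (nat_lit 9424) (XT.nd (nat_lit 468) (nat_lit 608) (nat_lit 0) (XT.nd (nat_lit 234) (nat_lit 228) (nat_lit 0) (XT.nd (nat_lit 78) (nat_lit 304) (nat_lit 0) (XT.lf (nat_lit 0) (nat_lit 12171207901) (nat_lit 380) (nat_lit 45593740266) (nat_lit 76) (nat_lit 10524616048) (nat_lit 78) (nat_lit 5) (nat_lit 83) (nat_lit 5) (nat_lit 79) (nat_lit 5) (nat_lit 377) (nat_lit 324) (nat_lit 79)) (XT.nd (nat_lit 78) (nat_lit 304) (nat_lit 0) (XT.lf (nat_lit 0) (nat_lit 23079676624) (nat_lit 380) (nat_lit 14141131309) (nat_lit 76) (nat_lit 32445419646)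 (nat_lit 78) (nat_lit 5) (nat_lit 83) (nat_lit 5) (nat_lit 79) (nat_lit 5) (nat_lit 378) (nat_lit 324) (nat_lit 78)) (XT.lf (nat_lit 0) (nat_lit 18617023599) (nat_lit 304) (nat_lit 15876411939) (nat_lit 380) (nat_lit 36585415022) (nat_lit 74) (nat_lit 5) (nat_lit 78) (nat_lit 5) (nat_lit 79) (nat_lit 5) (nat_lit 379) (nat_lit 324) (nat_lit 77)))) (XT.nd (nat_lit 78) (nat_lit 228) (nat_lit 0) (XT.lf (nat_lit 0) (nat_lit 46451624038) (nat_lit 380) (nat_lit 19943225309) (nat_lit 76) (nat_lit 6132943156) (nat_lit 74) (nat_lit 5) (nat_lit 79) (nat_lit 5) (nat_lit 75) (nat_lit 5) (nat_lit 380) (nat_lit 324) (nat_lit 76)) (XT.nd (nat_lit 78) (nat_lit 0) (nat_lit 0) (XT.lf (nat_lit 0) (nat_lit 13658988170) (nat_lit 228) (nat_lit 45397175734) (nat_lit 304) (nat_lit 14955411386) (nat_lit 71) (nat_lit 5) (nat_lit 74) (nat_lit 5) (nat_lit 75) (nat_lit 5) (nat_lit 381) (nat_lit 324) (nat_lit 75)) (XT.lf (nat_lit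 0) (nat_lit 48676807187) (nat_lit 228) (nat_lit 23562548711) (nat_lit 304) (nat_lit 3294500916) (nat_lit 71) (nat_lit 5) (nat_lit 74) (nat_lit 5) (nat_lit 75) (nat_lit 5) (nat_lit 382) (nat_lit 324) (nat_lit 74))))) (XT.nd (nat_lit 234) (nat_lit 0) (nat_lit 0) (XT.nd (nat_lit 78) (nat_lit 228) (nat_lit 0) (XT.lf (nat_lit 0) (nat_lit 7708735445) (nat_lit 304) (nat_lit 910662097) (nat_lit 380) (nat_lit 68477698983) (nat_lit 66) (nat_lit 5) (nat_lit 70) (nat_lit 5) (nat_lit 71) (nat_lit 5) (nat_lit 383) (nat_lit 324) (nat_lit 73)) (XT.nd (nat_lit 78) (nat_lit 228) (nat_lit 0) (XT.lf (nat_lit 0) (nat_lit 21313061567) (nat_lit 380) (nat_lit 35089154002) (nat_lit 76) (nat_lit 22289383021) (nat_lit 66) (nat_lit 5) (nat_lit 71) (nat_lit 5) (nat_lit 67) (nat_lit 5) (nat_lit 384) (nat_lit 324) (nat_lit 72)) (XT.lf (nat_lit 0) (nat_lit 233335297) (nat_lit 228) (nat_lit 34164638108) (nat_lit 304) (nat_lit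 45935649826) (nat_lit 63) (nat_lit 5) (nat_lit 66) (nat_lit 5) (nat_lit 67) (nat_lit 5) (nat_lit 385) (nat_lit 324) (nat_lit 71)))) (XT.nd (nat_lit 35880) (nat_lit 0) (nat_lit 9424) (XT.nd (nat_lit 78) (nat_lit 0) (nat_lit 0) (XT.lf (nat_lit 0) (nat_lit 37333573853) (nat_lit 228) (nat_lit 10895381087) (nat_lit 304) (nat_lit 33785348634) (nat_lit 63) (nat_lit 5) (nat_lit 66) (nat_lit 5) (nat_lit 67) (nat_lit 5) (nat_lit 386) (nat_lit 324) (nat_lit 70)) (XT.lf (nat_lit 0) (nat_lit 62599731978) (nat_lit 304) (nat_lit 8325443926) (nat_lit 76) (nat_lit 12816483055) (nat_lit 63) (nat_lit 5) (nat_lit 67) (nat_lit 5) (nat_lit 64) (nat_lit 5) (nat_lit 387) (nat_lit 324) (nat_lit 69))) (XT.nd (nat_lit 78) (nat_lit 0) (nat_lit 0) (XT.lf (nat_lit 0) (nat_lit 2549845823) (nat_lit 0) (nat_lit 2549845823) (nat_lit 1140) (nat_lit 8905859319) (nat_lit 187) (nat_lit 5) (nat_lit 187) (nat_lit 3) (nat_lit 202) (nat_lit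 3) (nat_lit 325) (nat_lit 325) (nat_lit 130)) (XT.lf (nat_lit 0) (nat_lit 10504911936) (nat_lit 1140) (nat_lit 10465722149) (nat_lit 1216) (nat_lit 7455950802) (nat_lit 187) (nat_lit 5) (nat_lit 202) (nat_lit 3) (nat_lit 203) (nat_lit 5) (nat_lit 326) (nat_lit 325) (nat_lit 129)))))) (XT.nd (nat_lit 546) (nat_lit 0) (nat_lit 228) (XT.nd (nat_lit 234) (nat_lit 0) (nat_lit 152) (XT.nd (nat_lit 78) (nat_lit 0) (nat_lit 76) (XT.lf (nat_lit 76) (nat_lit 2346980405) (nat_lit 0) (nat_lit 8542593206) (nat_lit 1216) (nat_lit 17962863896) (nat_lit 188) (nat_lit 5) (nat_lit 187) (nat_lit 5) (nat_lit 203) (nat_lit 5) (nat_lit 327) (nat_lit 325) (nat_lit 128)) (XT.nd (nat_lit 78) (nat_lit 0) (nat_lit 0) (XT.lf (nat_lit 0) (nat_lit 11430439795) (nat_lit 1140) (nat_lit 13573027289) (nat_lit 1216) (nat_lit 4283262755) (nat_lit 188) (nat_lit 5) (nat_lit 203) (nat_lit 5) (nat_lit 204) (nat_lit 5) (nat_lit 328)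 (nat_lit 325) (nat_lit 127)) (XT.lf (nat_lit 0) (nat_lit 12069201160) (nat_lit 1140) (nat_lit 338907150) (nat_lit 1216) (nat_lit 17323496506) (nat_lit 188) (nat_lit 5) (nat_lit 203) (nat_lit 5) (nat_lit 204) (nat_lit 5) (nat_lit 329) (nat_lit 325) (nat_lit 126)))) (XT.nd (nat_lit 156) (nat_lit 0) (nat_lit 0) (XT.nd (nat_lit 78) (nat_lit 0) (nat_lit 0) (XT.lf (nat_lit 0) (nat_lit 12861332626) (nat_lit 1140) (nat_lit 16637646824) (nat_lit 1216) (nat_lit 686824211) (nat_lit 189) (nat_lit 5) (nat_lit 204) (nat_lit 5) (nat_lit 205) (nat_lit 5) (nat_lit 330) (nat_lit 325) (nat_lit 125)) (XT.lf (nat_lit 0) (nat_lit 13800788002) (nat_lit 1140) (nat_lit 2919366191) (nat_lit 1216) (nat_lit 13929771206) (nat_lit 189) (nat_lit 5) (nat_lit 204) (nat_lit 5) (nat_lit 205) (nat_lit 5) (nat_lit 331) (nat_lit 325) (nat_lit 124))) (XT.nd (nat_lit 78) (nat_lit 0) (nat_lit 76) (XT.lf (nat_lit 76) (nat_lit 11431856096)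 (nat_lit 0) (nat_lit 3443792225) (nat_lit 1216) (nat_lit 16249109447) (nat_lit 190) (nat_lit 5) (nat_lit 189) (nat_lit 5) (nat_lit 205) (nat_lit 5) (nat_lit 332) (nat_lit 325) (nat_lit 123)) (XT.lf (nat_lit 0) (nat_lit 16108273525) (nat_lit 1140) (nat_lit 5439886391) (nat_lit 1216) (nat_lit 10061913130) (nat_lit 190) (nat_lit 5) (nat_lit 205) (nat_lit 5) (nat_lit 206) (nat_lit 5) (nat_lit 333) (nat_lit 325) (nat_lit 122))))) (XT.nd (nat_lit 234) (nat_lit 0) (nat_lit 152) (XT.nd (nat_lit 78) (nat_lit 0) (nat_lit 76) (XT.lf (nat_lit 76) (nat_lit 9388111761) (nat_lit 0) (nat_lit 8111584649) (nat_lit 1216) (nat_lit 14606600215) (nat_lit 191) (nat_lit 5) (nat_lit 190) (nat_lit 5) (nat_lit 206) (nat_lit 5) (nat_lit 334) (nat_lit 325) (nat_lit 121)) (XT.nd (nat_lit 78) (nat_lit 0) (nat_lit 0) (XT.lf (nat_lit 0) (nat_lit 19040942309) (nat_lit 1140) (nat_lit 7900677013) (nat_lit 1216) (nat_lit 5672548488)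 (nat_lit 191) (nat_lit 5) (nat_lit 206) (nat_lit 5) (nat_lit 207) (nat_lit 5) (nat_lit 335) (nat_lit 325) (nat_lit 120)) (XT.lf (nat_lit 76) (nat_lit 7424193295) (nat_lit 0) (nat_lit 13353524852) (nat_lit 1216) (nat_lit 12355081422) (nat_lit 192) (nat_lit 5) (nat_lit 191) (nat_lit 5) (nat_lit 207) (nat_lit 5) (nat_lit 336) (nat_lit 325) (nat_lit 119)))) (XT.nd (nat_lit 156) (nat_lit 0) (nat_lit 0) (XT.nd (nat_lit 78) (nat_lit 0) (nat_lit 0) (XT.lf (nat_lit 0) (nat_lit 22651014940) (nat_lit 1140) (nat_lit 10302579303) (nat_lit 1216) (nat_lit 710866626) (nat_lit 192) (nat_lit 5) (nat_lit 207) (nat_lit 5) (nat_lit 208) (nat_lit 5) (nat_lit 337) (nat_lit 325) (nat_lit 118)) (XT.lf (nat_lit 76) (nat_lit 5539783423) (nat_lit 0) (nat_lit 19223932973) (nat_lit 1216) (nat_lit 9442862470) (nat_lit 193) (nat_lit 5) (nat_lit 192) (nat_lit 5) (nat_lit 208) (nat_lit 5) (nat_lit 338) (nat_lit 325) (nat_lit 117)))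 (XT.nd (nat_lit 78) (nat_lit 0) (nat_lit 76) (XT.lf (nat_lit 76) (nat_lit 22066893733) (nat_lit 0) (nat_lit 4974731171) (nat_lit 1216) (nat_lit 7720283658) (nat_lit 193) (nat_lit 5) (nat_lit 192) (nat_lit 5) (nat_lit 208) (nat_lit 5) (nat_lit 339) (nat_lit 325) (nat_lit 116)) (XT.lf (nat_lit 76) (nat_lit 3733779728) (nat_lit 0) (nat_lit 25781102492) (nat_lit 1216) (nat_lit 5815208437) (nat_lit 194) (nat_lit 5) (nat_lit 193) (nat_lit 5) (nat_lit 209) (nat_lit 5) (nat_lit 340) (nat_lit 325) (nat_lit 115))))))))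
noncomputable def xc235 : XT := (XT.nd (nat_lit 2106) (nat_lit 2888) (nat_lit 0) (XT.nd (nat_lit 1014) (nat_lit 3116) (nat_lit 0) (XT.nd (nat_lit 468) (nat_lit 2128) (nat_lit 0) (XT.nd (nat_lit 234) (nat_lit 608) (nat_lit 0) (XT.nd (nat_lit 78) (nat_lit 1140) (nat_lit 0) (XT.lf (nat_lit 76) (nat_lit 20863717571) (nat_lit 0) (nat_lit 11373491262) (nat_lit 1216) (nat_lit 3672866008) (nat_lit 194) (nat_lit 5) (nat_lit 193) (nat_lit 5) (nat_lit 209) (nat_lit 5) (nat_lit 341) (nat_lit 325) (nat_lit 114)) (XT.nd (nat_lit 78) (nat_lit 76) (nat_lit 0) (XT.lf (nat_lit 0) (nat_lit 2004144452) (nat_lit 1140) (nat_lit 33087615974) (nat_lit 1216) (nat_lit 1414184161) (nat_lit 179) (nat_lit 5) (nat_lit 194) (nat_lit 5) (nat_lit 195) (nat_lit 5) (nat_lit 342) (nat_lit 325) (nat_lit 113)) (XT.lf (nat_lit 0) (nat_lit 1158498385) (nat_lit 1216) (nat_lit 17365181281) (nat_lit 76) (nat_lit 18587828969) (nat_lit 178)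 (nat_lit 5) (nat_lit 194) (nat_lit 5) (nat_lit 179) (nat_lit 5) (nat_lit 343) (nat_lit 325) (nat_lit 112)))) (XT.nd (nat_lit 78) (nat_lit 0) (nat_lit 0) (XT.lf (nat_lit 0) (nat_lit 275192203) (nat_lit 608) (nat_lit 3505439181) (nat_lit 684) (nat_lit 33954169818) (nat_lit 170) (nat_lit 5) (nat_lit 178) (nat_lit 5) (nat_lit 179) (nat_lit 5) (nat_lit 344) (nat_lit 325) (nat_lit 111)) (XT.nd (nat_lit 78) (nat_lit 0) (nat_lit 0) (XT.lf (nat_lit 0) (nat_lit 6771608844) (nat_lit 684) (nat_lit 19689278156) (nat_lit 76) (nat_lit 11907202523) (nat_lit 170) (nat_lit 5) (nat_lit 179) (nat_lit 5) (nat_lit 171) (nat_lit 5) (nat_lit 345) (nat_lit 325) (nat_lit 110)) (XT.lf (nat_lit 0) (nat_lit 9885169533) (nat_lit 684) (nat_lit 1422250643) (nat_lit 76) (nat_lit 27711973023) (nat_lit 170) (nat_lit 5) (nat_lit 179) (nat_lit 5) (nat_lit 171) (nat_lit 5) (nat_lit 346) (nat_lit 325) (nat_lit 109))))) (XT.nd (nat_lit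 234) (nat_lit 988) (nat_lit 0) (XT.nd (nat_lit 78) (nat_lit 532) (nat_lit 0) (XT.lf (nat_lit 0) (nat_lit 13303868892) (nat_lit 684) (nat_lit 21990958118) (nat_lit 76) (nat_lit 4389059274) (nat_lit 162) (nat_lit 5) (nat_lit 171) (nat_lit 5) (nat_lit 163) (nat_lit 5) (nat_lit 347) (nat_lit 325) (nat_lit 108)) (XT.nd (nat_lit 78) (nat_lit 532) (nat_lit 0) (XT.lf (nat_lit 0) (nat_lit 16949826422) (nat_lit 684) (nat_lit 3070959334) (nat_lit 76) (nat_lit 20343789677) (nat_lit 162) (nat_lit 5) (nat_lit 171) (nat_lit 5) (nat_lit 163) (nat_lit 5) (nat_lit 348) (nat_lit 325) (nat_lit 107)) (XT.lf (nat_lit 0) (nat_lit 16741683091) (nat_lit 532) (nat_lit 4122700590) (nat_lit 608) (nat_lit 20196527071) (nat_lit 155) (nat_lit 5) (nat_lit 162) (nat_lit 5) (nat_lit 163) (nat_lit 5) (nat_lit 349) (nat_lit 325) (nat_lit 106)))) (XT.nd (nat_lit 156) (nat_lit 456) (nat_lit 0) (XT.nd (nat_lit 78) (nat_lit 532) (nat_lit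 0) (XT.lf (nat_lit 0) (nat_lit 25043796506) (nat_lit 608) (nat_lit 4685316762) (nat_lit 76) (nat_lit 12044602359) (nat_lit 155) (nat_lit 5) (nat_lit 163) (nat_lit 5) (nat_lit 156) (nat_lit 5) (nat_lit 350) (nat_lit 325) (nat_lit 105)) (XT.lf (nat_lit 0) (nat_lit 15803542213) (nat_lit 532) (nat_lit 13736154722) (nat_lit 608) (nat_lit 12962476560) (nat_lit 148) (nat_lit 5) (nat_lit 155) (nat_lit 5) (nat_lit 156) (nat_lit 5) (nat_lit 351) (nat_lit 325) (nat_lit 104))) (XT.nd (nat_lit 78) (nat_lit 456) (nat_lit 0) (XT.lf (nat_lit 0) (nat_lit 34242965823) (nat_lit 608) (nat_lit 6276396619) (nat_lit 76) (nat_lit 2730949856) (nat_lit 148) (nat_lit 5) (nat_lit 156) (nat_lit 5) (nat_lit 149) (nat_lit 5) (nat_lit 352) (nat_lit 325) (nat_lit 103)) (XT.lf (nat_lit 0) (nat_lit 14911868385) (nat_lit 456) (nat_lit 24453259082) (nat_lit 532) (nat_lit 4647435847) (nat_lit 142) (nat_lit 5) (nat_lit 148) (nat_lit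 5) (nat_lit 149) (nat_lit 5) (nat_lit 353) (nat_lit 325) (nat_lit 102)))))) (XT.nd (nat_lit 546) (nat_lit 1596) (nat_lit 0) (XT.nd (nat_lit 234) (nat_lit 912) (nat_lit 0) (XT.nd (nat_lit 78) (nat_lit 608) (nat_lit 0) (XT.lf (nat_lit 0) (nat_lit 36862837765) (nat_lit 456) (nat_lit 7839976348) (nat_lit 532) (nat_lit 93013775) (nat_lit 142) (nat_lit 5) (nat_lit 148) (nat_lit 5) (nat_lit 149) (nat_lit 5) (nat_lit 354) (nat_lit 325) (nat_lit 101)) (XT.nd (nat_lit 78) (nat_lit 0) (nat_lit 0) (XT.lf (nat_lit 0) (nat_lit 4733258229) (nat_lit 608) (nat_lit 31589066604) (nat_lit 76) (nat_lit 9272193070) (nat_lit 134) (nat_lit 5) (nat_lit 142) (nat_lit 5) (nat_lit 135) (nat_lit 5) (nat_lit 355) (nat_lit 325) (nat_lit 100)) (XT.lf (nat_lit 0) (nat_lit 9859509243) (nat_lit 608) (nat_lit 9731055697) (nat_lit 76) (nat_lit 26821865918) (nat_lit 134) (nat_lit 5) (nat_lit 142) (nat_lit 5) (nat_lit 135) (nat_lit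 5) (nat_lit 356) (nat_lit 325) (nat_lit 99)))) (XT.nd (nat_lit 156) (nat_lit 456) (nat_lit 0) (XT.nd (nat_lit 78) (nat_lit 0) (nat_lit 0) (XT.lf (nat_lit 0) (nat_lit 13035494905) (nat_lit 456) (nat_lit 2227936688) (nat_lit 532) (nat_lit 31987734722) (nat_lit 128) (nat_lit 5) (nat_lit 134) (nat_lit 5) (nat_lit 135) (nat_lit 5) (nat_lit 357) (nat_lit 325) (nat_lit 98)) (XT.lf (nat_lit 0) (nat_lit 21077803607) (nat_lit 532) (nat_lit 11580657196) (nat_lit 76) (nat_lit 15449154655) (nat_lit 128) (nat_lit 5) (nat_lit 135) (nat_lit 5) (nat_lit 129) (nat_lit 5) (nat_lit 358) (nat_lit 325) (nat_lit 97))) (XT.nd (nat_lit 78) (nat_lit 0) (nat_lit 0) (XT.lf (nat_lit 0) (nat_lit 11942846533) (nat_lit 456) (nat_lit 15259265218) (nat_lit 532) (nat_lit 21783582708) (nat_lit 122) (nat_lit 5) (nat_lit 128) (nat_lit 5) (nat_lit 129) (nat_lit 5) (nat_lit 359) (nat_lit 325) (nat_lit 96)) (XT.lf (nat_lit 0) (nat_lit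 33652503803) (nat_lit 532) (nat_lit 13505480142) (nat_lit 76) (nat_lit 2727862737) (nat_lit 122) (nat_lit 5) (nat_lit 129) (nat_lit 5) (nat_lit 123) (nat_lit 5) (nat_lit 360) (nat_lit 325) (nat_lit 95))))) (XT.nd (nat_lit 234) (nat_lit 760) (nat_lit 0) (XT.nd (nat_lit 78) (nat_lit 456) (nat_lit 0) (XT.lf (nat_lit 0) (nat_lit 10796068531) (nat_lit 380) (nat_lit 29753905178) (nat_lit 456) (nat_lit 10255424226) (nat_lit 117) (nat_lit 5) (nat_lit 122) (nat_lit 5) (nat_lit 123) (nat_lit 5) (nat_lit 361) (nat_lit 325) (nat_lit 94)) (XT.nd (nat_lit 78) (nat_lit 456) (nat_lit 0) (XT.lf (nat_lit 0) (nat_lit 36101999258) (nat_lit 380) (nat_lit 11687476312) (nat_lit 456) (nat_lit 3959008324) (nat_lit 117) (nat_lit 5) (nat_lit 122) (nat_lit 5) (nat_lit 123) (nat_lit 5) (nat_lit 362) (nat_lit 325) (nat_lit 93)) (XT.lf (nat_lit 0) (nat_lit 2635803547) (nat_lit 456) (nat_lit 43175111387) (nat_lit 76) (nat_lit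 6903456271) (nat_lit 111) (nat_lit 5) (nat_lit 117) (nat_lit 5) (nat_lit 112) (nat_lit 5) (nat_lit 363) (nat_lit 325) (nat_lit 92)))) (XT.nd (nat_lit 156) (nat_lit 380) (nat_lit 0) (XT.nd (nat_lit 78) (nat_lit 380) (nat_lit 0) (XT.lf (nat_lit 0) (nat_lit 9622940475) (nat_lit 456) (nat_lit 18061177510) (nat_lit 76) (nat_lit 26015720906) (nat_lit 111) (nat_lit 5) (nat_lit 117) (nat_lit 5) (nat_lit 112) (nat_lit 5) (nat_lit 364) (nat_lit 325) (nat_lit 91)) (XT.lf (nat_lit 0) (nat_lit 7960030916) (nat_lit 380) (nat_lit 8934985144) (nat_lit 456) (nat_lit 37817596060) (nat_lit 106) (nat_lit 5) (nat_lit 111) (nat_lit 5) (nat_lit 112) (nat_lit 5) (nat_lit 365) (nat_lit 325) (nat_lit 90))) (XT.nd (nat_lit 78) (nat_lit 380) (nat_lit 0) (XT.lf (nat_lit 0) (nat_lit 24668014413) (nat_lit 456) (nat_lit 20721228752) (nat_lit 76) (nat_lit 10358043778) (nat_lit 106) (nat_lit 5) (nat_lit 112) (nat_lit 5) (nat_lit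 107) (nat_lit 5) (nat_lit 366) (nat_lit 325) (nat_lit 89)) (XT.lf (nat_lit 0) (nat_lit 6120585684) (nat_lit 380) (nat_lit 26699777063) (nat_lit 456) (nat_lit 23988255639) (nat_lit 101) (nat_lit 5) (nat_lit 106) (nat_lit 5) (nat_lit 107) (nat_lit 5) (nat_lit 367) (nat_lit 325) (nat_lit 88))))))) (XT.nd (nat_lit 1014) (nat_lit 836) (nat_lit 0) (XT.nd (nat_lit 468) (nat_lit 1292) (nat_lit 0) (XT.nd (nat_lit 234) (nat_lit 456) (nat_lit 0) (XT.nd (nat_lit 78) (nat_lit 304) (nat_lit 0) (XT.lf (nat_lit 0) (nat_lit 34190985561) (nat_lit 380) (nat_lit 7234419187) (nat_lit 456) (nat_lit 16470142468) (nat_lit 101) (nat_lit 5) (nat_lit 106) (nat_lit 5) (nat_lit 107) (nat_lit 5) (nat_lit 368) (nat_lit 325) (nat_lit 87)) (XT.nd (nat_lit 78) (nat_lit 0) (nat_lit 0) (XT.lf (nat_lit 0) (nat_lit 4042693452) (nat_lit 304) (nat_lit 46406859205) (nat_lit 380) (nat_lit 8560703726) (nat_lit 97) (nat_lit 5) (nat_lit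 101) (nat_lit 5) (nat_lit 102) (nat_lit 5) (nat_lit 369) (nat_lit 325) (nat_lit 86)) (XT.lf (nat_lit 0) (nat_lit 33033824065) (nat_lit 304) (nat_lit 27019823589) (nat_lit 380) (nat_lit 95483567) (nat_lit 97) (nat_lit 5) (nat_lit 101) (nat_lit 5) (nat_lit 102) (nat_lit 5) (nat_lit 370) (nat_lit 325) (nat_lit 85)))) (XT.nd (nat_lit 78) (nat_lit 0) (nat_lit 0) (XT.lf (nat_lit 0) (nat_lit 1517848872) (nat_lit 380) (nat_lit 6951102786) (nat_lit 456) (nat_lit 52850328640) (nat_lit 91) (nat_lit 5) (nat_lit 96) (nat_lit 5) (nat_lit 97) (nat_lit 5) (nat_lit 371) (nat_lit 325) (nat_lit 84)) (XT.nd (nat_lit 78) (nat_lit 0) (nat_lit 0) (XT.lf (nat_lit 0) (nat_lit 17695766648) (nat_lit 456) (nat_lit 31087426093) (nat_lit 76) (nat_lit 13729092755) (nat_lit 91) (nat_lit 5) (nat_lit 97) (nat_lit 5) (nat_lit 92) (nat_lit 5) (nat_lit 372) (nat_lit 325) (nat_lit 83)) (XT.lf (nat_lit 0) (nat_lit 27267200577) (nat_lit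 456) (nat_lit 1582187518) (nat_lit 76) (nat_lit 34889659278) (nat_lit 91) (nat_lit 5) (nat_lit 97) (nat_lit 5) (nat_lit 92) (nat_lit 5) (nat_lit 373) (nat_lit 325) (nat_lit 82))))) (XT.nd (nat_lit 234) (nat_lit 684) (nat_lit 0) (XT.nd (nat_lit 78) (nat_lit 304) (nat_lit 0) (XT.lf (nat_lit 0) (nat_lit 29380197298) (nat_lit 304) (nat_lit 8027021712) (nat_lit 380) (nat_lit 27586950779) (nat_lit 87) (nat_lit 5) (nat_lit 91) (nat_lit 5) (nat_lit 92) (nat_lit 5) (nat_lit 374) (nat_lit 325) (nat_lit 81)) (XT.nd (nat_lit 78) (nat_lit 304) (nat_lit 0) (XT.lf (nat_lit 0) (nat_lit 47995608193) (nat_lit 380) (nat_lit 5113077053) (nat_lit 76) (nat_lit 13173936429) (nat_lit 87) (nat_lit 5) (nat_lit 92) (nat_lit 5) (nat_lit 88) (nat_lit 5) (nat_lit 375) (nat_lit 325) (nat_lit 80)) (XT.lf (nat_lit 0) (nat_lit 26743941533) (nat_lit 304) (nat_lit 32493323868) (nat_lit 380) (nat_lit 8362394100) (nat_lit 83) (nat_lit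 5) (nat_lit 87) (nat_lit 5) (nat_lit 88) (nat_lit 5) (nat_lit 376) (nat_lit 325) (nat_lit 79)))) (XT.nd (nat_lit 156) (nat_lit 304) (nat_lit 0) (XT.nd (nat_lit 78) (nat_lit 304) (nat_lit 0) (XT.lf (nat_lit 0) (nat_lit 1874879282) (nat_lit 380) (nat_lit 9312871621) (nat_lit 76) (nat_lit 57766385710) (nat_lit 82) (nat_lit 5) (nat_lit 87) (nat_lit 5) (nat_lit 83) (nat_lit 5) (nat_lit 377) (nat_lit 325) (nat_lit 78)) (XT.lf (nat_lit 0) (nat_lit 12583143618) (nat_lit 380) (nat_lit 46894684288) (nat_lit 76) (nat_lit 10858978596) (nat_lit 78) (nat_lit 5) (nat_lit 83) (nat_lit 5) (nat_lit 79) (nat_lit 5) (nat_lit 378) (nat_lit 325) (nat_lit 77))) (XT.nd (nat_lit 78) (nat_lit 304) (nat_lit 0) (XT.lf (nat_lit 0) (nat_lit 23817503311) (nat_lit 380) (nat_lit 14500444679) (nat_lit 76) (nat_lit 33436863854) (nat_lit 78) (nat_lit 5) (nat_lit 83) (nat_lit 5) (nat_lit 79) (nat_lit 5) (nat_lit 379) (nat_lit 325)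 (nat_lit 76)) (XT.lf (nat_lit 0) (nat_lit 19239818399) (nat_lit 304) (nat_lit 16333151141) (nat_lit 380) (nat_lit 37636866288) (nat_lit 74) (nat_lit 5) (nat_lit 78) (nat_lit 5) (nat_lit 79) (nat_lit 5) (nat_lit 380) (nat_lit 325) (nat_lit 75)))))) (XT.nd (nat_lit 36348) (nat_lit 0) (nat_lit 9424) (XT.nd (nat_lit 234) (nat_lit 608) (nat_lit 0) (XT.nd (nat_lit 78) (nat_lit 228) (nat_lit 0) (XT.lf (nat_lit 0) (nat_lit 47888783335) (nat_lit 380) (nat_lit 20477952764) (nat_lit 76) (nat_lit 6335544658) (nat_lit 74) (nat_lit 5) (nat_lit 79) (nat_lit 5) (nat_lit 75) (nat_lit 5) (nat_lit 381) (nat_lit 325) (nat_lit 74)) (XT.nd (nat_lit 78) (nat_lit 0) (nat_lit 0) (XT.lf (nat_lit 0) (nat_lit 14131703891) (nat_lit 228) (nat_lit 46739090371) (nat_lit 304) (nat_lit 15359803802) (nat_lit 71) (nat_lit 5) (nat_lit 74) (nat_lit 5) (nat_lit 75) (nat_lit 5) (nat_lit 382) (nat_lit 325) (nat_lit 73)) (XT.lf (nat_lit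 0) (nat_lit 50198224098) (nat_lit 228) (nat_lit 24250007080) (nat_lit 304) (nat_lit 3350355433) (nat_lit 71) (nat_lit 5) (nat_lit 74) (nat_lit 5) (nat_lit 75) (nat_lit 5) (nat_lit 383) (nat_lit 325) (nat_lit 72)))) (XT.nd (nat_lit 156) (nat_lit 228) (nat_lit 0) (XT.nd (nat_lit 78) (nat_lit 0) (nat_lit 0) (XT.lf (nat_lit 0) (nat_lit 8001375255) (nat_lit 304) (nat_lit 918108588) (nat_lit 380) (nat_lit 70489247391) (nat_lit 66) (nat_lit 5) (nat_lit 70) (nat_lit 5) (nat_lit 71) (nat_lit 5) (nat_lit 384) (nat_lit 325) (nat_lit 71)) (XT.lf (nat_lit 0) (nat_lit 21992934394) (nat_lit 380) (nat_lit 36081183090) (nat_lit 76) (nat_lit 22976982542) (nat_lit 66) (nat_lit 5) (nat_lit 71) (nat_lit 5) (nat_lit 67) (nat_lit 5) (nat_lit 385) (nat_lit 325) (nat_lit 70))) (XT.nd (nat_lit 78) (nat_lit 0) (nat_lit 0) (XT.lf (nat_lit 0) (nat_lit 300386325) (nat_lit 228) (nat_lit 35169405451) (nat_lit 304) (nat_lit 47272612619)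 (nat_lit 63) (nat_lit 5) (nat_lit 66) (nat_lit 5) (nat_lit 67) (nat_lit 5) (nat_lit 386) (nat_lit 325) (nat_lit 69)) (XT.lf (nat_lit 0) (nat_lit 38511882981) (nat_lit 228) (nat_lit 11202658248) (nat_lit 304) (nat_lit 34758999673) (nat_lit 63) (nat_lit 5) (nat_lit 66) (nat_lit 5) (nat_lit 67) (nat_lit 5) (nat_lit 387) (nat_lit 325) (nat_lit 68))))) (XT.nd (nat_lit 234) (nat_lit 0) (nat_lit 76) (XT.nd (nat_lit 78) (nat_lit 0) (nat_lit 0) (XT.lf (nat_lit 0) (nat_lit 2665679551) (nat_lit 0) (nat_lit 2665679551) (nat_lit 1140) (nat_lit 9091891686) (nat_lit 187) (nat_lit 5) (nat_lit 187) (nat_lit 3) (nat_lit 202) (nat_lit 3) (nat_lit 326) (nat_lit 326) (nat_lit 128)) (XT.nd (nat_lit 78) (nat_lit 0) (nat_lit 0) (XT.lf (nat_lit 0) (nat_lit 10972095337) (nat_lit 1140) (nat_lit 10697784680) (nat_lit 1216) (nat_lit 7604734724) (nat_lit 187) (nat_lit 5) (nat_lit 202) (nat_lit 3) (nat_lit 203) (nat_lit 5)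 (nat_lit 327) (nat_lit 326) (nat_lit 127)) (XT.lf (nat_lit 76) (nat_lit 2498495920) (nat_lit 0) (nat_lit 8866152351) (nat_lit 1216) (nat_lit 18348710145) (nat_lit 188) (nat_lit 5) (nat_lit 187) (nat_lit 5) (nat_lit 203) (nat_lit 5) (nat_lit 328) (nat_lit 326) (nat_lit 126)))) (XT.nd (nat_lit 156) (nat_lit 0) (nat_lit 76) (XT.nd (nat_lit 78) (nat_lit 0) (nat_lit 0) (XT.lf (nat_lit 0) (nat_lit 11916790563) (nat_lit 1140) (nat_lit 13896329691) (nat_lit 1216) (nat_lit 4347713602) (nat_lit 188) (nat_lit 5) (nat_lit 203) (nat_lit 5) (nat_lit 204) (nat_lit 5) (nat_lit 329) (nat_lit 326) (nat_lit 125)) (XT.lf (nat_lit 0) (nat_lit 12570536975) (nat_lit 1140) (nat_lit 267629300) (nat_lit 1216) (nat_lit 17781019814) (nat_lit 188) (nat_lit 5) (nat_lit 203) (nat_lit 5) (nat_lit 204) (nat_lit 5) (nat_lit 330) (nat_lit 326) (nat_lit 124))) (XT.nd (nat_lit 78) (nat_lit 0) (nat_lit 0) (XT.lf (nat_lit 0) (nat_lit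 13382619612) (nat_lit 1140) (nat_lit 17051334819) (nat_lit 1216) (nat_lit 653176359) (nat_lit 189) (nat_lit 5) (nat_lit 204) (nat_lit 5) (nat_lit 205) (nat_lit 5) (nat_lit 331) (nat_lit 326) (nat_lit 123)) (XT.lf (nat_lit 0) (nat_lit 14346313590) (nat_lit 1140) (nat_lit 2923994352) (nat_lit 1216) (nat_lit 14294991936) (nat_lit 189) (nat_lit 5) (nat_lit 204) (nat_lit 5) (nat_lit 205) (nat_lit 5) (nat_lit 332) (nat_lit 326) (nat_lit 122))))))))
noncomputable def xc236 : XT := (XT.nd (nat_lit 2028) (nat_lit 4712) (nat_lit 0) (XT.nd (nat_lit 1014) (nat_lit 3192) (nat_lit 0) (XT.nd (nat_lit 468) (nat_lit 1444) (nat_lit 0) (XT.nd (nat_lit 234) (nat_lit 0) (nat_lit 152) (XT.nd (nat_lit 78) (nat_lit 0) (nat_lit 76) (XT.lf (nat_lit 76) (nat_lit 11856951341) (nat_lit 0) (nat_lit 3593427800) (nat_lit 1216) (nat_lit 16604094485) (nat_lit 190) (nat_lit 5) (nat_lit 189) (nat_lit 5) (nat_lit 205) (nat_lit 5)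 (nat_lit 333) (nat_lit 326) (nat_lit 121)) (XT.nd (nat_lit 78) (nat_lit 0) (nat_lit 0) (XT.lf (nat_lit 0) (nat_lit 16715809203) (nat_lit 1140) (nat_lit 5518993943) (nat_lit 1216) (nat_lit 10319675473) (nat_lit 190) (nat_lit 5) (nat_lit 205) (nat_lit 5) (nat_lit 206) (nat_lit 5) (nat_lit 334) (nat_lit 326) (nat_lit 120)) (XT.lf (nat_lit 76) (nat_lit 9753019750) (nat_lit 0) (nat_lit 8393135391) (nat_lit 1216) (nat_lit 14919523246) (nat_lit 191) (nat_lit 5) (nat_lit 190) (nat_lit 5) (nat_lit 206) (nat_lit 5) (nat_lit 335) (nat_lit 326) (nat_lit 119)))) (XT.nd (nat_lit 78) (nat_lit 0) (nat_lit 0) (XT.lf (nat_lit 0) (nat_lit 19729743983) (nat_lit 1140) (nat_lit 8052805085) (nat_lit 1216) (nat_lit 5806358224) (nat_lit 191) (nat_lit 5) (nat_lit 206) (nat_lit 5) (nat_lit 207) (nat_lit 5) (nat_lit 336) (nat_lit 326) (nat_lit 118)) (XT.nd (nat_lit 78) (nat_lit 0) (nat_lit 76) (XT.lf (nat_lit 76) (nat_lit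 7730979055) (nat_lit 0) (nat_lit 13785027608) (nat_lit 1216) (nat_lit 12607174445) (nat_lit 192) (nat_lit 5) (nat_lit 191) (nat_lit 5) (nat_lit 207) (nat_lit 5) (nat_lit 337) (nat_lit 326) (nat_lit 117)) (XT.lf (nat_lit 0) (nat_lit 23441865749) (nat_lit 1140) (nat_lit 10526259197) (nat_lit 1216) (nat_lit 702780879) (nat_lit 192) (nat_lit 5) (nat_lit 207) (nat_lit 5) (nat_lit 208) (nat_lit 5) (nat_lit 338) (nat_lit 326) (nat_lit 116))))) (XT.nd (nat_lit 234) (nat_lit 1672) (nat_lit 0) (XT.nd (nat_lit 78) (nat_lit 0) (nat_lit 0) (XT.lf (nat_lit 76) (nat_lit 5790537181) (nat_lit 0) (nat_lit 19824981572) (nat_lit 1216) (nat_lit 9613845840) (nat_lit 193) (nat_lit 5) (nat_lit 192) (nat_lit 5) (nat_lit 208) (nat_lit 5) (nat_lit 339) (nat_lit 326) (nat_lit 115)) (XT.nd (nat_lit 78) (nat_lit 0) (nat_lit 76) (XT.lf (nat_lit 76) (nat_lit 22810997880) (nat_lit 0) (nat_lit 5147595057) (nat_lit 1216) (nat_lit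 7842860611) (nat_lit 193) (nat_lit 5) (nat_lit 192) (nat_lit 5) (nat_lit 208) (nat_lit 5) (nat_lit 340) (nat_lit 326) (nat_lit 114)) (XT.lf (nat_lit 76) (nat_lit 3930590219) (nat_lit 0) (nat_lit 26572973218) (nat_lit 1216) (nat_lit 5883196303) (nat_lit 194) (nat_lit 5) (nat_lit 193) (nat_lit 5) (nat_lit 209) (nat_lit 5) (nat_lit 341) (nat_lit 326) (nat_lit 113)))) (XT.nd (nat_lit 156) (nat_lit 684) (nat_lit 0) (XT.nd (nat_lit 78) (nat_lit 1064) (nat_lit 0) (XT.lf (nat_lit 76) (nat_lit 21571956379) (nat_lit 0) (nat_lit 11732596633) (nat_lit 1216) (nat_lit 3679684622) (nat_lit 194) (nat_lit 5) (nat_lit 193) (nat_lit 5) (nat_lit 209) (nat_lit 5) (nat_lit 342) (nat_lit 326) (nat_lit 112)) (XT.lf (nat_lit 0) (nat_lit 2149067995) (nat_lit 1140) (nat_lit 34093401978) (nat_lit 1216) (nat_lit 1355585495) (nat_lit 179) (nat_lit 5) (nat_lit 194) (nat_lit 5) (nat_lit 195) (nat_lit 5) (nat_lit 343) (nat_lit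 326) (nat_lit 111))) (XT.nd (nat_lit 78) (nat_lit 608) (nat_lit 0) (XT.lf (nat_lit 0) (nat_lit 1289421147) (nat_lit 1216) (nat_lit 17801772099) (nat_lit 76) (nat_lit 19130654251) (nat_lit 178) (nat_lit 5) (nat_lit 194) (nat_lit 5) (nat_lit 179) (nat_lit 5) (nat_lit 344) (nat_lit 326) (nat_lit 110)) (XT.lf (nat_lit 0) (nat_lit 366985486) (nat_lit 608) (nat_lit 3621234660) (nat_lit 684) (nat_lit 34875682171) (nat_lit 170) (nat_lit 5) (nat_lit 178) (nat_lit 5) (nat_lit 179) (nat_lit 5) (nat_lit 345) (nat_lit 326) (nat_lit 109)))))) (XT.nd (nat_lit 468) (nat_lit 2052) (nat_lit 0) (XT.nd (nat_lit 234) (nat_lit 532) (nat_lit 0) (XT.nd (nat_lit 78) (nat_lit 608) (nat_lit 0) (XT.lf (nat_lit 0) (nat_lit 7066084892) (nat_lit 684) (nat_lit 20195895683) (nat_lit 76) (nat_lit 12254297406) (nat_lit 170) (nat_lit 5) (nat_lit 179) (nat_lit 5) (nat_lit 171) (nat_lit 5) (nat_lit 346) (nat_lit 326) (nat_lit 108))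 (XT.nd (nat_lit 78) (nat_lit 608) (nat_lit 0) (XT.lf (nat_lit 0) (nat_lit 10270392369) (nat_lit 684) (nat_lit 1383305718) (nat_lit 76) (nat_lit 28533505813) (nat_lit 170) (nat_lit 5) (nat_lit 179) (nat_lit 5) (nat_lit 171) (nat_lit 5) (nat_lit 347) (nat_lit 326) (nat_lit 107)) (XT.lf (nat_lit 0) (nat_lit 13789788817) (nat_lit 684) (nat_lit 22567102696) (nat_lit 76) (nat_lit 4514799415) (nat_lit 162) (nat_lit 5) (nat_lit 171) (nat_lit 5) (nat_lit 163) (nat_lit 5) (nat_lit 348) (nat_lit 326) (nat_lit 106)))) (XT.nd (nat_lit 78) (nat_lit 532) (nat_lit 0) (XT.lf (nat_lit 0) (nat_lit 17542596805) (nat_lit 684) (nat_lit 3081938439) (nat_lit 76) (nat_lit 20948344496) (nat_lit 162) (nat_lit 5) (nat_lit 171) (nat_lit 5) (nat_lit 163) (nat_lit 5) (nat_lit 349) (nat_lit 326) (nat_lit 105)) (XT.nd (nat_lit 78) (nat_lit 0) (nat_lit 0) (XT.lf (nat_lit 0) (nat_lit 17324287673) (nat_lit 532) (nat_lit 4248620892)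 (nat_lit 608) (nat_lit 20717250068) (nat_lit 155) (nat_lit 5) (nat_lit 162) (nat_lit 5) (nat_lit 163) (nat_lit 5) (nat_lit 350) (nat_lit 326) (nat_lit 104)) (XT.lf (nat_lit 0) (nat_lit 25875277245) (nat_lit 608) (nat_lit 4745337376) (nat_lit 76) (nat_lit 12403808791) (nat_lit 155) (nat_lit 5) (nat_lit 163) (nat_lit 5) (nat_lit 156) (nat_lit 5) (nat_lit 351) (nat_lit 326) (nat_lit 103))))) (XT.nd (nat_lit 234) (nat_lit 1064) (nat_lit 0) (XT.nd (nat_lit 78) (nat_lit 456) (nat_lit 0) (XT.lf (nat_lit 0) (nat_lit 16357397771) (nat_lit 532) (nat_lit 14147088558) (nat_lit 608) (nat_lit 13270298611) (nat_lit 148) (nat_lit 5) (nat_lit 155) (nat_lit 5) (nat_lit 156) (nat_lit 5) (nat_lit 352) (nat_lit 326) (nat_lit 102)) (XT.nd (nat_lit 78) (nat_lit 456) (nat_lit 0) (XT.lf (nat_lit 0) (nat_lit 35346574748) (nat_lit 608) (nat_lit 6384890470) (nat_lit 76) (nat_lit 2813973837) (nat_lit 148) (nat_lit 5) (nat_lit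 156) (nat_lit 5) (nat_lit 149) (nat_lit 5) (nat_lit 353) (nat_lit 326) (nat_lit 101)) (XT.lf (nat_lit 0) (nat_lit 15438240150) (nat_lit 456) (nat_lit 25182697727) (nat_lit 532) (nat_lit 4709666334) (nat_lit 142) (nat_lit 5) (nat_lit 148) (nat_lit 5) (nat_lit 149) (nat_lit 5) (nat_lit 354) (nat_lit 326) (nat_lit 100)))) (XT.nd (nat_lit 156) (nat_lit 456) (nat_lit 0) (XT.nd (nat_lit 78) (nat_lit 608) (nat_lit 0) (XT.lf (nat_lit 0) (nat_lit 38045437183) (nat_lit 456) (nat_lit 8071137651) (nat_lit 532) (nat_lit 20859927) (nat_lit 142) (nat_lit 5) (nat_lit 148) (nat_lit 5) (nat_lit 149) (nat_lit 5) (nat_lit 355) (nat_lit 326) (nat_lit 99)) (XT.lf (nat_lit 0) (nat_lit 4947394467) (nat_lit 608) (nat_lit 32457050785) (nat_lit 76) (nat_lit 9555661391) (nat_lit 134) (nat_lit 5) (nat_lit 142) (nat_lit 5) (nat_lit 135) (nat_lit 5) (nat_lit 356) (nat_lit 326) (nat_lit 98))) (XT.nd (nat_lit 78) (nat_lit 456)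 (nat_lit 0) (XT.lf (nat_lit 0) (nat_lit 10225331890) (nat_lit 608) (nat_lit 9945620555) (nat_lit 76) (nat_lit 27631669982) (nat_lit 134) (nat_lit 5) (nat_lit 142) (nat_lit 5) (nat_lit 135) (nat_lit 5) (nat_lit 357) (nat_lit 326) (nat_lit 97)) (XT.lf (nat_lit 0) (nat_lit 13503168066) (nat_lit 456) (nat_lit 2286900327) (nat_lit 532) (nat_lit 32876492997) (nat_lit 128) (nat_lit 5) (nat_lit 134) (nat_lit 5) (nat_lit 135) (nat_lit 5) (nat_lit 358) (nat_lit 326) (nat_lit 96))))))) (XT.nd (nat_lit 1014) (nat_lit 2356) (nat_lit 0) (XT.nd (nat_lit 468) (nat_lit 1064) (nat_lit 0) (XT.nd (nat_lit 234) (nat_lit 836) (nat_lit 0) (XT.nd (nat_lit 78) (nat_lit 456) (nat_lit 0) (XT.lf (nat_lit 0) (nat_lit 21776943100) (nat_lit 532) (nat_lit 11851695811) (nat_lit 76) (nat_lit 15920125219) (nat_lit 128) (nat_lit 5) (nat_lit 135) (nat_lit 5) (nat_lit 129) (nat_lit 5) (nat_lit 359) (nat_lit 326) (nat_lit 95)) (XT.nd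 (nat_lit 78) (nat_lit 0) (nat_lit 0) (XT.lf (nat_lit 0) (nat_lit 12376764195) (nat_lit 456) (nat_lit 15706997530) (nat_lit 532) (nat_lit 22369462543) (nat_lit 122) (nat_lit 5) (nat_lit 128) (nat_lit 5) (nat_lit 129) (nat_lit 5) (nat_lit 360) (nat_lit 326) (nat_lit 94)) (XT.lf (nat_lit 0) (nat_lit 34725849001) (nat_lit 532) (nat_lit 13835327336) (nat_lit 76) (nat_lit 2819261355) (nat_lit 122) (nat_lit 5) (nat_lit 129) (nat_lit 5) (nat_lit 123) (nat_lit 5) (nat_lit 361) (nat_lit 326) (nat_lit 93)))) (XT.nd (nat_lit 78) (nat_lit 456) (nat_lit 0) (XT.lf (nat_lit 0) (nat_lit 11194529393) (nat_lit 380) (nat_lit 30634573127) (nat_lit 456) (nat_lit 10498509254) (nat_lit 117) (nat_lit 5) (nat_lit 122) (nat_lit 5) (nat_lit 123) (nat_lit 5) (nat_lit 362) (nat_lit 326) (nat_lit 92)) (XT.nd (nat_lit 78) (nat_lit 456) (nat_lit 0) (XT.lf (nat_lit 0) (nat_lit 37257465843) (nat_lit 380) (nat_lit 12026499430) (nat_lit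 456) (nat_lit 4015081779) (nat_lit 117) (nat_lit 5) (nat_lit 122) (nat_lit 5) (nat_lit 123) (nat_lit 5) (nat_lit 363) (nat_lit 326) (nat_lit 91)) (XT.lf (nat_lit 0) (nat_lit 2775382989) (nat_lit 456) (nat_lit 44395638084) (nat_lit 76) (nat_lit 7122902769) (nat_lit 111) (nat_lit 5) (nat_lit 117) (nat_lit 5) (nat_lit 112) (nat_lit 5) (nat_lit 364) (nat_lit 326) (nat_lit 90))))) (XT.nd (nat_lit 234) (nat_lit 684) (nat_lit 0) (XT.nd (nat_lit 78) (nat_lit 380) (nat_lit 0) (XT.lf (nat_lit 0) (nat_lit 9970371734) (nat_lit 456) (nat_lit 18530462696) (nat_lit 76) (nat_lit 26808175844) (nat_lit 111) (nat_lit 5) (nat_lit 117) (nat_lit 5) (nat_lit 112) (nat_lit 5) (nat_lit 365) (nat_lit 326) (nat_lit 89)) (XT.nd (nat_lit 78) (nat_lit 0) (nat_lit 0) (XT.lf (nat_lit 0) (nat_lit 8270670707) (nat_lit 380) (nat_lit 9188918476) (nat_lit 456) (nat_lit 38892609919) (nat_lit 106) (nat_lit 5) (nat_lit 111) (nat_lit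 5) (nat_lit 112) (nat_lit 5) (nat_lit 366) (nat_lit 326) (nat_lit 88)) (XT.lf (nat_lit 0) (nat_lit 25464227986) (nat_lit 456) (nat_lit 21271511681) (nat_lit 76) (nat_lit 10682222726) (nat_lit 106) (nat_lit 5) (nat_lit 112) (nat_lit 5) (nat_lit 107) (nat_lit 5) (nat_lit 367) (nat_lit 326) (nat_lit 87)))) (XT.nd (nat_lit 156) (nat_lit 304) (nat_lit 0) (XT.nd (nat_lit 78) (nat_lit 0) (nat_lit 0) (XT.lf (nat_lit 0) (nat_lit 6374857639) (nat_lit 380) (nat_lit 27485332193) (nat_lit 456) (nat_lit 24650974344) (nat_lit 101) (nat_lit 5) (nat_lit 106) (nat_lit 5) (nat_lit 107) (nat_lit 5) (nat_lit 368) (nat_lit 326) (nat_lit 86)) (XT.lf (nat_lit 0) (nat_lit 35285311618) (nat_lit 380) (nat_lit 7436463237) (nat_lit 456) (nat_lit 16908975904) (nat_lit 101) (nat_lit 5) (nat_lit 106) (nat_lit 5) (nat_lit 107) (nat_lit 5) (nat_lit 369) (nat_lit 326) (nat_lit 85))) (XT.nd (nat_lit 78) (nat_lit 0) (nat_lit 0) (XT.lf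 (nat_lit 0) (nat_lit 4233402137) (nat_lit 304) (nat_lit 47782490932) (nat_lit 380) (nat_lit 8763032345) (nat_lit 97) (nat_lit 5) (nat_lit 101) (nat_lit 5) (nat_lit 102) (nat_lit 5) (nat_lit 370) (nat_lit 326) (nat_lit 84)) (XT.lf (nat_lit 0) (nat_lit 34092244497) (nat_lit 304) (nat_lit 27814326987) (nat_lit 380) (nat_lit 45442741) (nat_lit 97) (nat_lit 5) (nat_lit 101) (nat_lit 5) (nat_lit 102) (nat_lit 5) (nat_lit 371) (nat_lit 326) (nat_lit 83)))))) (XT.nd (nat_lit 546) (nat_lit 1216) (nat_lit 0) (XT.nd (nat_lit 234) (nat_lit 684) (nat_lit 0) (XT.nd (nat_lit 78) (nat_lit 0) (nat_lit 0) (XT.lf (nat_lit 0) (nat_lit 1631200970) (nat_lit 380) (nat_lit 7142833228) (nat_lit 456) (nat_lit 54383245545) (nat_lit 91) (nat_lit 5) (nat_lit 96) (nat_lit 5) (nat_lit 97) (nat_lit 5) (nat_lit 372) (nat_lit 326) (nat_lit 82)) (XT.nd (nat_lit 78) (nat_lit 0) (nat_lit 0) (XT.lf (nat_lit 0) (nat_lit 18276324607)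 (nat_lit 456) (nat_lit 31952831324) (nat_lit 76) (nat_lit 14156960452) (nat_lit 91) (nat_lit 5) (nat_lit 97) (nat_lit 5) (nat_lit 92) (nat_lit 5) (nat_lit 373) (nat_lit 326) (nat_lit 81)) (XT.lf (nat_lit 0) (nat_lit 28133454419) (nat_lit 456) (nat_lit 1564393385) (nat_lit 76) (nat_lit 35951878098) (nat_lit 91) (nat_lit 5) (nat_lit 97) (nat_lit 5) (nat_lit 92) (nat_lit 5) (nat_lit 374) (nat_lit 326) (nat_lit 80)))) (XT.nd (nat_lit 156) (nat_lit 380) (nat_lit 0) (XT.nd (nat_lit 78) (nat_lit 0) (nat_lit 0) (XT.lf (nat_lit 0) (nat_lit 30326223174) (nat_lit 304) (nat_lit 8250666413) (nat_lit 380) (nat_lit 28365637253) (nat_lit 87) (nat_lit 5) (nat_lit 91) (nat_lit 5) (nat_lit 92) (nat_lit 5) (nat_lit 375) (nat_lit 326) (nat_lit 79)) (XT.lf (nat_lit 0) (nat_lit 49481708492) (nat_lit 380) (nat_lit 5202466460) (nat_lit 76) (nat_lit 13585495281) (nat_lit 87) (nat_lit 5) (nat_lit 92) (nat_lit 5) (nat_lit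 88) (nat_lit 5) (nat_lit 376) (nat_lit 326) (nat_lit 78))) (XT.nd (nat_lit 78) (nat_lit 76) (nat_lit 0) (XT.lf (nat_lit 0) (nat_lit 27609635204) (nat_lit 304) (nat_lit 33450242852) (nat_lit 380) (nat_lit 8566364516) (nat_lit 83) (nat_lit 5) (nat_lit 87) (nat_lit 5) (nat_lit 88) (nat_lit 5) (nat_lit 377) (nat_lit 326) (nat_lit 77)) (XT.lf (nat_lit 0) (nat_lit 1975772449) (nat_lit 380) (nat_lit 9529800202) (nat_lit 76) (nat_lit 59515809186) (nat_lit 82) (nat_lit 5) (nat_lit 87) (nat_lit 5) (nat_lit 83) (nat_lit 5) (nat_lit 378) (nat_lit 326) (nat_lit 76))))) (XT.nd (nat_lit 234) (nat_lit 608) (nat_lit 0) (XT.nd (nat_lit 78) (nat_lit 304) (nat_lit 0) (XT.lf (nat_lit 0) (nat_lit 13004750925) (nat_lit 380) (nat_lit 48238495139) (nat_lit 76) (nat_lit 11202302924) (nat_lit 78) (nat_lit 5) (nat_lit 83) (nat_lit 5) (nat_lit 79) (nat_lit 5) (nat_lit 379) (nat_lit 326) (nat_lit 75)) (XT.nd (nat_lit 78) (nat_lit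 304) (nat_lit 0) (XT.lf (nat_lit 0) (nat_lit 24574856564) (nat_lit 380) (nat_lit 14874264157) (nat_lit 76) (nat_lit 34457013429) (nat_lit 78) (nat_lit 5) (nat_lit 83) (nat_lit 5) (nat_lit 79) (nat_lit 5) (nat_lit 380) (nat_lit 326) (nat_lit 74)) (XT.lf (nat_lit 0) (nat_lit 19877606873) (nat_lit 304) (nat_lit 16804714950) (nat_lit 380) (nat_lit 38722508062) (nat_lit 74) (nat_lit 5) (nat_lit 78) (nat_lit 5) (nat_lit 79) (nat_lit 5) (nat_lit 381) (nat_lit 326) (nat_lit 73)))) (XT.nd (nat_lit 156) (nat_lit 380) (nat_lit 0) (XT.nd (nat_lit 78) (nat_lit 228) (nat_lit 0) (XT.lf (nat_lit 0) (nat_lit 49366553986) (nat_lit 380) (nat_lit 21032371180) (nat_lit 76) (nat_lit 6543155731) (nat_lit 74) (nat_lit 5) (nat_lit 79) (nat_lit 5) (nat_lit 75) (nat_lit 5) (nat_lit 382) (nat_lit 326) (nat_lit 72)) (XT.lf (nat_lit 0) (nat_lit 14614987722) (nat_lit 228) (nat_lit 48122410565) (nat_lit 304) (nat_lit 15778869266)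 (nat_lit 71) (nat_lit 5) (nat_lit 74) (nat_lit 5) (nat_lit 75) (nat_lit 5) (nat_lit 383) (nat_lit 326) (nat_lit 71))) (XT.nd (nat_lit 78) (nat_lit 380) (nat_lit 0) (XT.lf (nat_lit 0) (nat_lit 51761775398) (nat_lit 228) (nat_lit 24959203877) (nat_lit 304) (nat_lit 3410352844) (nat_lit 71) (nat_lit 5) (nat_lit 74) (nat_lit 5) (nat_lit 75) (nat_lit 5) (nat_lit 384) (nat_lit 326) (nat_lit 70)) (XT.lf (nat_lit 0) (nat_lit 8299270926) (nat_lit 304) (nat_lit 926919286) (nat_lit 380) (nat_lit 72563598146) (nat_lit 66) (nat_lit 5) (nat_lit 70) (nat_lit 5) (nat_lit 71) (nat_lit 5) (nat_lit 385) (nat_lit 326) (nat_lit 69))))))))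
noncomputable def xc237 : XT := (XT.nd (nat_lit 37986) (nat_lit 0) (nat_lit 1292) (XT.nd (nat_lit 36972) (nat_lit 0) (nat_lit 6764) (XT.nd (nat_lit 36426) (nat_lit 0) (nat_lit 9348) (XT.nd (nat_lit 36192) (nat_lit 0) (nat_lit 9196) (XT.nd (nat_lit 36036) (nat_lit 0) (nat_lit 9196) (XT.lf (nat_lit 0) (nat_lit 22690879632) (nat_lit 380) (nat_lit 37106454351) (nat_lit 76) (nat_lit 23684124076) (nat_lit 66) (nat_lit 5) (nat_lit 71) (nat_lit 5) (nat_lit 67) (nat_lit 5) (nat_lit 386) (nat_lit 326) (nat_lit 68)) (XT.nd (nat_lit 78) (nat_lit 0) (nat_lit 0) (XT.lf (nat_lit 0) (nat_lit 2782730109) (nat_lit 0) (nat_lit 2782730109) (nat_lit 1140) (nat_lit 9288162988) (nat_lit 187) (nat_lit 5) (nat_lit 187) (nat_lit 3) (nat_lit 202) (nat_lit 3) (nat_lit 327) (nat_lit 327) (nat_lit 126)) (XT.lf (nat_lit 0) (nat_lit 11444566750) (nat_lit 1140) (nat_lit 10941511006) (nat_lit 1216) (nat_lit 7762281419) (nat_lit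 187) (nat_lit 5) (nat_lit 202) (nat_lit 3) (nat_lit 203) (nat_lit 5) (nat_lit 328) (nat_lit 327) (nat_lit 125)))) (XT.nd (nat_lit 78) (nat_lit 0) (nat_lit 76) (XT.lf (nat_lit 76) (nat_lit 2649901078) (nat_lit 0) (nat_lit 9195556045) (nat_lit 1216) (nat_lit 18754916885) (nat_lit 188) (nat_lit 5) (nat_lit 187) (nat_lit 5) (nat_lit 203) (nat_lit 5) (nat_lit 329) (nat_lit 327) (nat_lit 124)) (XT.nd (nat_lit 78) (nat_lit 0) (nat_lit 0) (XT.lf (nat_lit 0) (nat_lit 12409497950) (nat_lit 1140) (nat_lit 14234146703) (nat_lit 1216) (nat_lit 4417774536) (nat_lit 188) (nat_lit 5) (nat_lit 203) (nat_lit 5) (nat_lit 204) (nat_lit 5) (nat_lit 330) (nat_lit 327) (nat_lit 123)) (XT.lf (nat_lit 0) (nat_lit 13078918784) (nat_lit 1140) (nat_lit 198888394) (nat_lit 1216) (nat_lit 18255838298) (nat_lit 188) (nat_lit 5) (nat_lit 203) (nat_lit 5) (nat_lit 204) (nat_lit 5) (nat_lit 331) (nat_lit 327) (nat_lit 122)))))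 (XT.nd (nat_lit 234) (nat_lit 0) (nat_lit 76) (XT.nd (nat_lit 78) (nat_lit 0) (nat_lit 0) (XT.lf (nat_lit 0) (nat_lit 13911769994) (nat_lit 1140) (nat_lit 17482338140) (nat_lit 1216) (nat_lit 621633392) (nat_lit 189) (nat_lit 5) (nat_lit 204) (nat_lit 5) (nat_lit 205) (nat_lit 5) (nat_lit 332) (nat_lit 327) (nat_lit 121)) (XT.nd (nat_lit 78) (nat_lit 0) (nat_lit 0) (XT.lf (nat_lit 0) (nat_lit 14900656196) (nat_lit 1140) (nat_lit 2933523189) (nat_lit 1216) (nat_lit 14674192899) (nat_lit 189) (nat_lit 5) (nat_lit 204) (nat_lit 5) (nat_lit 205) (nat_lit 5) (nat_lit 333) (nat_lit 327) (nat_lit 120)) (XT.lf (nat_lit 76) (nat_lit 12290084296) (nat_lit 0) (nat_lit 3744893381) (nat_lit 1216) (nat_lit 16977334442) (nat_lit 190) (nat_lit 5) (nat_lit 189) (nat_lit 5) (nat_lit 205) (nat_lit 5) (nat_lit 334) (nat_lit 327) (nat_lit 119)))) (XT.nd (nat_lit 156) (nat_lit 0) (nat_lit 76) (XT.nd (nat_lit 78) (nat_lit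 0) (nat_lit 0) (XT.lf (nat_lit 0) (nat_lit 17334436342) (nat_lit 1140) (nat_lit 5605301777) (nat_lit 1216) (nat_lit 10587701923) (nat_lit 190) (nat_lit 5) (nat_lit 205) (nat_lit 5) (nat_lit 206) (nat_lit 5) (nat_lit 335) (nat_lit 327) (nat_lit 118)) (XT.lf (nat_lit 76) (nat_lit 10124095249) (nat_lit 0) (nat_lit 8680939635) (nat_lit 1216) (nat_lit 15249025264) (nat_lit 191) (nat_lit 5) (nat_lit 190) (nat_lit 5) (nat_lit 206) (nat_lit 5) (nat_lit 336) (nat_lit 327) (nat_lit 117))) (XT.nd (nat_lit 78) (nat_lit 0) (nat_lit 0) (XT.lf (nat_lit 0) (nat_lit 20432460513) (nat_lit 1140) (nat_lit 8214370161) (nat_lit 1216) (nat_lit 5946269850) (nat_lit 191) (nat_lit 5) (nat_lit 206) (nat_lit 5) (nat_lit 207) (nat_lit 5) (nat_lit 337) (nat_lit 327) (nat_lit 116)) (XT.lf (nat_lit 76) (nat_lit 8042143003) (nat_lit 0) (nat_lit 14227701832) (nat_lit 1216) (nat_lit 12873636054) (nat_lit 192) (nat_lit 5) (nat_lit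 191) (nat_lit 5) (nat_lit 207) (nat_lit 5) (nat_lit 338) (nat_lit 327) (nat_lit 115)))))) (XT.nd (nat_lit 468) (nat_lit 1824) (nat_lit 0) (XT.nd (nat_lit 234) (nat_lit 988) (nat_lit 0) (XT.nd (nat_lit 78) (nat_lit 0) (nat_lit 0) (XT.lf (nat_lit 0) (nat_lit 24250051838) (nat_lit 1140) (nat_lit 10761551653) (nat_lit 1216) (nat_lit 696140913) (nat_lit 192) (nat_lit 5) (nat_lit 207) (nat_lit 5) (nat_lit 208) (nat_lit 5) (nat_lit 339) (nat_lit 327) (nat_lit 114)) (XT.nd (nat_lit 78) (nat_lit 0) (nat_lit 0) (XT.lf (nat_lit 76) (nat_lit 6043959446) (nat_lit 0) (nat_lit 20442664952) (nat_lit 1216) (nat_lit 9796405335) (nat_lit 193) (nat_lit 5) (nat_lit 192) (nat_lit 5) (nat_lit 208) (nat_lit 5) (nat_lit 340) (nat_lit 327) (nat_lit 113)) (XT.lf (nat_lit 76) (nat_lit 23572712429) (nat_lit 0) (nat_lit 5324288863) (nat_lit 1216) (nat_lit 7975373729) (nat_lit 193) (nat_lit 5) (nat_lit 192) (nat_lit 5) (nat_lit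 208) (nat_lit 5) (nat_lit 341) (nat_lit 327) (nat_lit 112)))) (XT.nd (nat_lit 78) (nat_lit 1064) (nat_lit 0) (XT.lf (nat_lit 76) (nat_lit 4128437325) (nat_lit 0) (nat_lit 27387541669) (nat_lit 1216) (nat_lit 5959335526) (nat_lit 194) (nat_lit 5) (nat_lit 193) (nat_lit 5) (nat_lit 209) (nat_lit 5) (nat_lit 342) (nat_lit 327) (nat_lit 111)) (XT.nd (nat_lit 78) (nat_lit 1064) (nat_lit 0) (XT.lf (nat_lit 76) (nat_lit 22296716429) (nat_lit 0) (nat_lit 12101447594) (nat_lit 1216) (nat_lit 3692641504) (nat_lit 194) (nat_lit 5) (nat_lit 193) (nat_lit 5) (nat_lit 209) (nat_lit 5) (nat_lit 343) (nat_lit 327) (nat_lit 110)) (XT.lf (nat_lit 0) (nat_lit 2293471424) (nat_lit 1140) (nat_lit 35128606267) (nat_lit 1216) (nat_lit 1301028071) (nat_lit 179) (nat_lit 5) (nat_lit 194) (nat_lit 5) (nat_lit 195) (nat_lit 5) (nat_lit 344) (nat_lit 327) (nat_lit 109))))) (XT.nd (nat_lit 234) (nat_lit 1140) (nat_lit 0)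 (XT.nd (nat_lit 78) (nat_lit 608) (nat_lit 0) (XT.lf (nat_lit 0) (nat_lit 1418751166) (nat_lit 1216) (nat_lit 18256303516) (nat_lit 76) (nat_lit 19690614423) (nat_lit 178) (nat_lit 5) (nat_lit 194) (nat_lit 5) (nat_lit 179) (nat_lit 5) (nat_lit 345) (nat_lit 327) (nat_lit 108)) (XT.nd (nat_lit 78) (nat_lit 0) (nat_lit 0) (XT.lf (nat_lit 0) (nat_lit 456737171) (nat_lit 608) (nat_lit 3739893666) (nat_lit 684) (nat_lit 35830414562) (nat_lit 170) (nat_lit 5) (nat_lit 178) (nat_lit 5) (nat_lit 179) (nat_lit 5) (nat_lit 346) (nat_lit 327) (nat_lit 107)) (XT.lf (nat_lit 0) (nat_lit 7364152633) (nat_lit 684) (nat_lit 20722537170) (nat_lit 76) (nat_lit 12612386132) (nat_lit 170) (nat_lit 5) (nat_lit 179) (nat_lit 5) (nat_lit 171) (nat_lit 5) (nat_lit 347) (nat_lit 327) (nat_lit 106)))) (XT.nd (nat_lit 156) (nat_lit 532) (nat_lit 0) (XT.nd (nat_lit 78) (nat_lit 608) (nat_lit 0) (XT.lf (nat_lit 0) (nat_lit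 10662081998) (nat_lit 684) (nat_lit 1347877333) (nat_lit 76) (nat_lit 29380248661) (nat_lit 170) (nat_lit 5) (nat_lit 179) (nat_lit 5) (nat_lit 171) (nat_lit 5) (nat_lit 348) (nat_lit 327) (nat_lit 105)) (XT.lf (nat_lit 0) (nat_lit 14285303443) (nat_lit 684) (nat_lit 23165329685) (nat_lit 76) (nat_lit 4644652260) (nat_lit 162) (nat_lit 5) (nat_lit 171) (nat_lit 5) (nat_lit 163) (nat_lit 5) (nat_lit 349) (nat_lit 327) (nat_lit 104))) (XT.nd (nat_lit 78) (nat_lit 532) (nat_lit 0) (XT.lf (nat_lit 0) (nat_lit 18148312536) (nat_lit 684) (nat_lit 3097905241) (nat_lit 76) (nat_lit 21571366542) (nat_lit 162) (nat_lit 5) (nat_lit 171) (nat_lit 5) (nat_lit 163) (nat_lit 5) (nat_lit 350) (nat_lit 327) (nat_lit 103)) (XT.lf (nat_lit 0) (nat_lit 17919757740) (nat_lit 532) (nat_lit 4378190259) (nat_lit 608) (nat_lit 21258484024) (nat_lit 155) (nat_lit 5) (nat_lit 162) (nat_lit 5) (nat_lit 163) (nat_lit 5) (nat_lit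 351) (nat_lit 327) (nat_lit 102))))))) (XT.nd (nat_lit 1014) (nat_lit 2584) (nat_lit 0) (XT.nd (nat_lit 468) (nat_lit 1292) (nat_lit 0) (XT.nd (nat_lit 234) (nat_lit 1064) (nat_lit 0) (XT.nd (nat_lit 78) (nat_lit 532) (nat_lit 0) (XT.lf (nat_lit 0) (nat_lit 26727100501) (nat_lit 608) (nat_lit 4811781870) (nat_lit 76) (nat_lit 12773913781) (nat_lit 155) (nat_lit 5) (nat_lit 163) (nat_lit 5) (nat_lit 156) (nat_lit 5) (nat_lit 352) (nat_lit 327) (nat_lit 101)) (XT.nd (nat_lit 78) (nat_lit 0) (nat_lit 0) (XT.lf (nat_lit 0) (nat_lit 16923291061) (nat_lit 532) (nat_lit 14570416469) (nat_lit 608) (nat_lit 13592008055) (nat_lit 148) (nat_lit 5) (nat_lit 155) (nat_lit 5) (nat_lit 156) (nat_lit 5) (nat_lit 353) (nat_lit 327) (nat_lit 100)) (XT.lf (nat_lit 0) (nat_lit 36478910863) (nat_lit 608) (nat_lit 6501219871) (nat_lit 76) (nat_lit 2899425652) (nat_lit 148) (nat_lit 5) (nat_lit 156) (nat_lit 5) (nat_lit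 149) (nat_lit 5) (nat_lit 354) (nat_lit 327) (nat_lit 99)))) (XT.nd (nat_lit 78) (nat_lit 608) (nat_lit 0) (XT.lf (nat_lit 0) (nat_lit 15975867243) (nat_lit 456) (nat_lit 25934258282) (nat_lit 532) (nat_lit 4778194906) (nat_lit 142) (nat_lit 5) (nat_lit 148) (nat_lit 5) (nat_lit 149) (nat_lit 5) (nat_lit 355) (nat_lit 327) (nat_lit 98)) (XT.nd (nat_lit 78) (nat_lit 532) (nat_lit 0) (XT.lf (nat_lit 0) (nat_lit 48197209) (nat_lit 532) (nat_lit 8260781683) (nat_lit 76) (nat_lit 39210426963) (nat_lit 141) (nat_lit 5) (nat_lit 148) (nat_lit 5) (nat_lit 142) (nat_lit 5) (nat_lit 356) (nat_lit 327) (nat_lit 97)) (XT.lf (nat_lit 0) (nat_lit 5163813749) (nat_lit 608) (nat_lit 33355648899) (nat_lit 76) (nat_lit 9847329374) (nat_lit 134) (nat_lit 5) (nat_lit 142) (nat_lit 5) (nat_lit 135) (nat_lit 5) (nat_lit 357) (nat_lit 327) (nat_lit 96))))) (XT.nd (nat_lit 234) (nat_lit 836) (nat_lit 0) (XT.nd (nat_lit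 78) (nat_lit 456) (nat_lit 0) (XT.lf (nat_lit 0) (nat_lit 10598108786) (nat_lit 608) (nat_lit 10171063531) (nat_lit 76) (nat_lit 28465472646) (nat_lit 134) (nat_lit 5) (nat_lit 142) (nat_lit 5) (nat_lit 135) (nat_lit 5) (nat_lit 358) (nat_lit 327) (nat_lit 95)) (XT.nd (nat_lit 78) (nat_lit 0) (nat_lit 0) (XT.lf (nat_lit 0) (nat_lit 13980473792) (nat_lit 456) (nat_lit 2348084902) (nat_lit 532) (nat_lit 33795982464) (nat_lit 128) (nat_lit 5) (nat_lit 134) (nat_lit 5) (nat_lit 135) (nat_lit 5) (nat_lit 359) (nat_lit 327) (nat_lit 94)) (XT.lf (nat_lit 0) (nat_lit 22493221877) (nat_lit 532) (nat_lit 12135250172) (nat_lit 76) (nat_lit 16404794604) (nat_lit 128) (nat_lit 5) (nat_lit 135) (nat_lit 5) (nat_lit 129) (nat_lit 5) (nat_lit 360) (nat_lit 327) (nat_lit 93)))) (XT.nd (nat_lit 156) (nat_lit 380) (nat_lit 0) (XT.nd (nat_lit 78) (nat_lit 0) (nat_lit 0) (XT.lf (nat_lit 0) (nat_lit 12819357786) (nat_lit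 456) (nat_lit 16168738471) (nat_lit 532) (nat_lit 22976800877) (nat_lit 122) (nat_lit 5) (nat_lit 128) (nat_lit 5) (nat_lit 129) (nat_lit 5) (nat_lit 361) (nat_lit 327) (nat_lit 92)) (XT.lf (nat_lit 0) (nat_lit 35827733891) (nat_lit 532) (nat_lit 14179393461) (nat_lit 76) (nat_lit 2912852992) (nat_lit 122) (nat_lit 5) (nat_lit 129) (nat_lit 5) (nat_lit 123) (nat_lit 5) (nat_lit 362) (nat_lit 327) (nat_lit 91))) (XT.nd (nat_lit 78) (nat_lit 0) (nat_lit 0) (XT.lf (nat_lit 0) (nat_lit 11600662952) (nat_lit 380) (nat_lit 31542347047) (nat_lit 456) (nat_lit 10752593856) (nat_lit 117) (nat_lit 5) (nat_lit 122) (nat_lit 5) (nat_lit 123) (nat_lit 5) (nat_lit 363) (nat_lit 327) (nat_lit 90)) (XT.lf (nat_lit 0) (nat_lit 38443439991) (nat_lit 380) (nat_lit 12376359196) (nat_lit 456) (nat_lit 4076436490) (nat_lit 117) (nat_lit 5) (nat_lit 122) (nat_lit 5) (nat_lit 123) (nat_lit 5) (nat_lit 364) (nat_lit 327)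 (nat_lit 89)))))) (XT.nd (nat_lit 546) (nat_lit 1064) (nat_lit 0) (XT.nd (nat_lit 234) (nat_lit 684) (nat_lit 0) (XT.nd (nat_lit 78) (nat_lit 380) (nat_lit 0) (XT.lf (nat_lit 0) (nat_lit 2915676561) (nat_lit 456) (nat_lit 45657070198) (nat_lit 76) (nat_lit 7348224134) (nat_lit 111) (nat_lit 5) (nat_lit 117) (nat_lit 5) (nat_lit 112) (nat_lit 5) (nat_lit 365) (nat_lit 327) (nat_lit 88)) (XT.nd (nat_lit 78) (nat_lit 380) (nat_lit 0) (XT.lf (nat_lit 0) (nat_lit 10324853839) (nat_lit 456) (nat_lit 19017991112) (nat_lit 76) (nat_lit 27623716538) (nat_lit 111) (nat_lit 5) (nat_lit 117) (nat_lit 5) (nat_lit 112) (nat_lit 5) (nat_lit 366) (nat_lit 327) (nat_lit 87)) (XT.lf (nat_lit 0) (nat_lit 8586505847) (nat_lit 380) (nat_lit 9451280137) (nat_lit 456) (nat_lit 40003290543) (nat_lit 106) (nat_lit 5) (nat_lit 111) (nat_lit 5) (nat_lit 112) (nat_lit 5) (nat_lit 367) (nat_lit 327) (nat_lit 86)))) (XT.nd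 (nat_lit 156) (nat_lit 304) (nat_lit 0) (XT.nd (nat_lit 78) (nat_lit 380) (nat_lit 0) (XT.lf (nat_lit 0) (nat_lit 26281103399) (nat_lit 456) (nat_lit 21842399106) (nat_lit 76) (nat_lit 11015355668) (nat_lit 106) (nat_lit 5) (nat_lit 112) (nat_lit 5) (nat_lit 107) (nat_lit 5) (nat_lit 368) (nat_lit 327) (nat_lit 85)) (XT.lf (nat_lit 0) (nat_lit 6632701903) (nat_lit 380) (nat_lit 28295340191) (nat_lit 456) (nat_lit 25336842566) (nat_lit 101) (nat_lit 5) (nat_lit 106) (nat_lit 5) (nat_lit 107) (nat_lit 5) (nat_lit 369) (nat_lit 327) (nat_lit 84))) (XT.nd (nat_lit 78) (nat_lit 304) (nat_lit 0) (XT.lf (nat_lit 0) (nat_lit 36408529738) (nat_lit 380) (nat_lit 7645429010) (nat_lit 456) (nat_lit 17364147114) (nat_lit 101) (nat_lit 5) (nat_lit 106) (nat_lit 5) (nat_lit 107) (nat_lit 5) (nat_lit 370) (nat_lit 327) (nat_lit 83)) (XT.lf (nat_lit 0) (nat_lit 4425846639) (nat_lit 304) (nat_lit 49200343029) (nat_lit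 380) (nat_lit 8974558915) (nat_lit 97) (nat_lit 5) (nat_lit 101) (nat_lit 5) (nat_lit 102) (nat_lit 5) (nat_lit 371) (nat_lit 327) (nat_lit 82))))) (XT.nd (nat_lit 234) (nat_lit 608) (nat_lit 0) (XT.nd (nat_lit 78) (nat_lit 380) (nat_lit 0) (XT.lf (nat_lit 0) (nat_lit 3002568) (nat_lit 380) (nat_lit 28630556305) (nat_lit 76) (nat_lit 35175515290) (nat_lit 96) (nat_lit 5) (nat_lit 101) (nat_lit 5) (nat_lit 97) (nat_lit 5) (nat_lit 372) (nat_lit 327) (nat_lit 81)) (XT.nd (nat_lit 78) (nat_lit 0) (nat_lit 0) (XT.lf (nat_lit 0) (nat_lit 1744060679) (nat_lit 380) (nat_lit 7341280125) (nat_lit 456) (nat_lit 55965169009) (nat_lit 91) (nat_lit 5) (nat_lit 96) (nat_lit 5) (nat_lit 97) (nat_lit 5) (nat_lit 373) (nat_lit 327) (nat_lit 80)) (XT.lf (nat_lit 0) (nat_lit 18871447185) (nat_lit 456) (nat_lit 32848057276) (nat_lit 76) (nat_lit 14596746005) (nat_lit 91) (nat_lit 5) (nat_lit 97) (nat_lit 5) (nat_lit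 92) (nat_lit 5) (nat_lit 374) (nat_lit 327) (nat_lit 79)))) (XT.nd (nat_lit 156) (nat_lit 304) (nat_lit 0) (XT.nd (nat_lit 78) (nat_lit 304) (nat_lit 0) (XT.lf (nat_lit 0) (nat_lit 29022926828) (nat_lit 456) (nat_lit 1549811606) (nat_lit 76) (nat_lit 37045072053) (nat_lit 91) (nat_lit 5) (nat_lit 97) (nat_lit 5) (nat_lit 92) (nat_lit 5) (nat_lit 375) (nat_lit 327) (nat_lit 78)) (XT.lf (nat_lit 0) (nat_lit 31296920376) (nat_lit 304) (nat_lit 8482005850) (nat_lit 380) (nat_lit 29170492646) (nat_lit 87) (nat_lit 5) (nat_lit 91) (nat_lit 5) (nat_lit 92) (nat_lit 5) (nat_lit 376) (nat_lit 327) (nat_lit 77))) (XT.nd (nat_lit 78) (nat_lit 304) (nat_lit 0) (XT.lf (nat_lit 0) (nat_lit 51009737892) (nat_lit 380) (nat_lit 5298211578) (nat_lit 76) (nat_lit 14008462871) (nat_lit 87) (nat_lit 5) (nat_lit 92) (nat_lit 5) (nat_lit 88) (nat_lit 5) (nat_lit 377) (nat_lit 327) (nat_lit 76)) (XT.lf (nat_lit 0) (nat_lit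 28497661676) (nat_lit 304) (nat_lit 34436895833) (nat_lit 380) (nat_lit 8779146376) (nat_lit 83) (nat_lit 5) (nat_lit 87) (nat_lit 5) (nat_lit 88) (nat_lit 5) (nat_lit 378) (nat_lit 327) (nat_lit 75))))))))
noncomputable def xc238 : XT := (XT.nd (nat_lit 38064) (nat_lit 0) (nat_lit 2356) (XT.nd (nat_lit 37050) (nat_lit 0) (nat_lit 8588) (XT.nd (nat_lit 468) (nat_lit 380) (nat_lit 0) (XT.nd (nat_lit 234) (nat_lit 532) (nat_lit 0) (XT.nd (nat_lit 78) (nat_lit 304) (nat_lit 0) (XT.lf (nat_lit 0) (nat_lit 2077129502) (nat_lit 380) (nat_lit 9756821961) (nat_lit 76) (nat_lit 61316772109) (nat_lit 82) (nat_lit 5) (nat_lit 87) (nat_lit 5) (nat_lit 83) (nat_lit 5) (nat_lit 379) (nat_lit 327) (nat_lit 74)) (XT.nd (nat_lit 78) (nat_lit 0) (nat_lit 0) (XT.lf (nat_lit 0) (nat_lit 13436474184) (nat_lit 380) (nat_lit 49626238476) (nat_lit 76) (nat_lit 11554919254) (nat_lit 78) (nat_lit 5) (nat_lit 83) (nat_lit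 5) (nat_lit 79) (nat_lit 5) (nat_lit 380) (nat_lit 327) (nat_lit 73)) (XT.lf (nat_lit 0) (nat_lit 25352471903) (nat_lit 380) (nat_lit 15262810998) (nat_lit 76) (nat_lit 35506789115) (nat_lit 78) (nat_lit 5) (nat_lit 83) (nat_lit 5) (nat_lit 79) (nat_lit 5) (nat_lit 381) (nat_lit 327) (nat_lit 72)))) (XT.nd (nat_lit 78) (nat_lit 228) (nat_lit 0) (XT.lf (nat_lit 0) (nat_lit 20531050663) (nat_lit 304) (nat_lit 17291483673) (nat_lit 380) (nat_lit 39843214113) (nat_lit 74) (nat_lit 5) (nat_lit 78) (nat_lit 5) (nat_lit 79) (nat_lit 5) (nat_lit 382) (nat_lit 327) (nat_lit 71)) (XT.nd (nat_lit 78) (nat_lit 228) (nat_lit 0) (XT.lf (nat_lit 0) (nat_lit 50886298037) (nat_lit 380) (nat_lit 21606861811) (nat_lit 76) (nat_lit 6755987996) (nat_lit 74) (nat_lit 5) (nat_lit 79) (nat_lit 5) (nat_lit 75) (nat_lit 5) (nat_lit 383) (nat_lit 327) (nat_lit 70)) (XT.lf (nat_lit 0) (nat_lit 15109364127) (nat_lit 228)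 (nat_lit 49548312576) (nat_lit 304) (nat_lit 16212902089) (nat_lit 71) (nat_lit 5) (nat_lit 74) (nat_lit 5) (nat_lit 75) (nat_lit 5) (nat_lit 384) (nat_lit 327) (nat_lit 69))))) (XT.nd (nat_lit 36270) (nat_lit 0) (nat_lit 9196) (XT.nd (nat_lit 78) (nat_lit 380) (nat_lit 0) (XT.lf (nat_lit 0) (nat_lit 53368926499) (nat_lit 228) (nat_lit 25690727270) (nat_lit 304) (nat_lit 3474475803) (nat_lit 71) (nat_lit 5) (nat_lit 74) (nat_lit 5) (nat_lit 75) (nat_lit 5) (nat_lit 385) (nat_lit 327) (nat_lit 68)) (XT.nd (nat_lit 36114) (nat_lit 0) (nat_lit 9196) (XT.lf (nat_lit 0) (nat_lit 8602782387) (nat_lit 304) (nat_lit 937069630) (nat_lit 380) (nat_lit 74702494338) (nat_lit 66) (nat_lit 5) (nat_lit 70) (nat_lit 5) (nat_lit 71) (nat_lit 5) (nat_lit 386) (nat_lit 327) (nat_lit 67)) (XT.lf (nat_lit 0) (nat_lit 2901163629) (nat_lit 0) (nat_lit 2901163629) (nat_lit 1140) (nat_lit 9494713006) (nat_lit 187) (nat_lit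 5) (nat_lit 187) (nat_lit 3) (nat_lit 202) (nat_lit 3) (nat_lit 328) (nat_lit 328) (nat_lit 124)))) (XT.nd (nat_lit 156) (nat_lit 0) (nat_lit 76) (XT.nd (nat_lit 78) (nat_lit 0) (nat_lit 0) (XT.lf (nat_lit 0) (nat_lit 11922985808) (nat_lit 1140) (nat_lit 11196981132) (nat_lit 1216) (nat_lit 7928606978) (nat_lit 187) (nat_lit 5) (nat_lit 202) (nat_lit 3) (nat_lit 203) (nat_lit 5) (nat_lit 329) (nat_lit 328) (nat_lit 123)) (XT.lf (nat_lit 76) (nat_lit 2801459832) (nat_lit 0) (nat_lit 9531201332) (nat_lit 1216) (nat_lit 19181590629) (nat_lit 188) (nat_lit 5) (nat_lit 187) (nat_lit 5) (nat_lit 203) (nat_lit 5) (nat_lit 330) (nat_lit 328) (nat_lit 122))) (XT.nd (nat_lit 78) (nat_lit 0) (nat_lit 0) (XT.lf (nat_lit 0) (nat_lit 12909225315) (nat_lit 1140) (nat_lit 14586637333) (nat_lit 1216) (nat_lit 4493402811) (nat_lit 188) (nat_lit 5) (nat_lit 203) (nat_lit 5) (nat_lit 204) (nat_lit 5) (nat_lit 331)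 (nat_lit 328) (nat_lit 121)) (XT.lf (nat_lit 0) (nat_lit 13595016858) (nat_lit 1140) (nat_lit 132492161) (nat_lit 1216) (nat_lit 18748265911) (nat_lit 188) (nat_lit 5) (nat_lit 203) (nat_lit 5) (nat_lit 204) (nat_lit 5) (nat_lit 332) (nat_lit 328) (nat_lit 120)))))) (XT.nd (nat_lit 468) (nat_lit 760) (nat_lit 0) (XT.nd (nat_lit 234) (nat_lit 0) (nat_lit 76) (XT.nd (nat_lit 78) (nat_lit 0) (nat_lit 0) (XT.lf (nat_lit 0) (nat_lit 14449466005) (nat_lit 1140) (nat_lit 17930894699) (nat_lit 1216) (nat_lit 592079680) (nat_lit 189) (nat_lit 5) (nat_lit 204) (nat_lit 5) (nat_lit 205) (nat_lit 5) (nat_lit 333) (nat_lit 328) (nat_lit 119)) (XT.nd (nat_lit 78) (nat_lit 0) (nat_lit 0) (XT.lf (nat_lit 0) (nat_lit 15464513660) (nat_lit 1140) (nat_lit 2947826374) (nat_lit 1216) (nat_lit 15067619935) (nat_lit 189) (nat_lit 5) (nat_lit 204) (nat_lit 5) (nat_lit 205) (nat_lit 5) (nat_lit 334) (nat_lit 328) (nat_lit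 118)) (XT.lf (nat_lit 76) (nat_lit 12731766762) (nat_lit 0) (nat_lit 3898396509) (nat_lit 1216) (nat_lit 17368940386) (nat_lit 190) (nat_lit 5) (nat_lit 189) (nat_lit 5) (nat_lit 205) (nat_lit 5) (nat_lit 335) (nat_lit 328) (nat_lit 117)))) (XT.nd (nat_lit 78) (nat_lit 0) (nat_lit 0) (XT.lf (nat_lit 0) (nat_lit 17964897242) (nat_lit 1140) (nat_lit 5698748808) (nat_lit 1216) (nat_lit 10866155099) (nat_lit 190) (nat_lit 5) (nat_lit 205) (nat_lit 5) (nat_lit 206) (nat_lit 5) (nat_lit 336) (nat_lit 328) (nat_lit 116)) (XT.nd (nat_lit 78) (nat_lit 0) (nat_lit 76) (XT.lf (nat_lit 76) (nat_lit 10501797658) (nat_lit 0) (nat_lit 8975310875) (nat_lit 1216) (nat_lit 15595190828) (nat_lit 191) (nat_lit 5) (nat_lit 190) (nat_lit 5) (nat_lit 206) (nat_lit 5) (nat_lit 337) (nat_lit 328) (nat_lit 115)) (XT.lf (nat_lit 0) (nat_lit 21149896776) (nat_lit 1140) (nat_lit 8385375612) (nat_lit 1216) (nat_lit 6092346587)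 (nat_lit 191) (nat_lit 5) (nat_lit 206) (nat_lit 5) (nat_lit 207) (nat_lit 5) (nat_lit 338) (nat_lit 328) (nat_lit 114))))) (XT.nd (nat_lit 234) (nat_lit 912) (nat_lit 0) (XT.nd (nat_lit 78) (nat_lit 0) (nat_lit 76) (XT.lf (nat_lit 76) (nat_lit 8358093480) (nat_lit 0) (nat_lit 14681984481) (nat_lit 1216) (nat_lit 13154506627) (nat_lit 192) (nat_lit 5) (nat_lit 191) (nat_lit 5) (nat_lit 207) (nat_lit 5) (nat_lit 339) (nat_lit 328) (nat_lit 113)) (XT.nd (nat_lit 78) (nat_lit 0) (nat_lit 0) (XT.lf (nat_lit 0) (nat_lit 25076460092) (nat_lit 1140) (nat_lit 11008523642) (nat_lit 1216) (nat_lit 690893185) (nat_lit 192) (nat_lit 5) (nat_lit 207) (nat_lit 5) (nat_lit 208) (nat_lit 5) (nat_lit 340) (nat_lit 328) (nat_lit 112)) (XT.lf (nat_lit 76) (nat_lit 6300408921) (nat_lit 0) (nat_lit 21077562333) (nat_lit 1216) (nat_lit 9990518175) (nat_lit 193) (nat_lit 5) (nat_lit 192) (nat_lit 5) (nat_lit 208) (nat_lit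 5) (nat_lit 341) (nat_lit 328) (nat_lit 111)))) (XT.nd (nat_lit 156) (nat_lit 988) (nat_lit 0) (XT.nd (nat_lit 78) (nat_lit 0) (nat_lit 76) (XT.lf (nat_lit 76) (nat_lit 24352836221) (nat_lit 0) (nat_lit 5505005327) (nat_lit 1216) (nat_lit 8117761815) (nat_lit 193) (nat_lit 5) (nat_lit 192) (nat_lit 5) (nat_lit 208) (nat_lit 5) (nat_lit 342) (nat_lit 328) (nat_lit 110)) (XT.lf (nat_lit 76) (nat_lit 4327631569) (nat_lit 0) (nat_lit 28225549534) (nat_lit 1216) (nat_lit 6043519808) (nat_lit 194) (nat_lit 5) (nat_lit 193) (nat_lit 5) (nat_lit 209) (nat_lit 5) (nat_lit 343) (nat_lit 328) (nat_lit 109))) (XT.nd (nat_lit 78) (nat_lit 1064) (nat_lit 0) (XT.lf (nat_lit 76) (nat_lit 23038764644) (nat_lit 0) (nat_lit 12480395502) (nat_lit 1216) (nat_lit 3711580183) (nat_lit 194) (nat_lit 5) (nat_lit 193) (nat_lit 5) (nat_lit 209) (nat_lit 5) (nat_lit 344) (nat_lit 328) (nat_lit 108)) (XT.lf (nat_lit 0) (nat_lit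 2437618566) (nat_lit 1140) (nat_lit 36194154746) (nat_lit 1216) (nat_lit 1250300228) (nat_lit 179) (nat_lit 5) (nat_lit 194) (nat_lit 5) (nat_lit 195) (nat_lit 5) (nat_lit 345) (nat_lit 328) (nat_lit 107))))))) (XT.nd (nat_lit 1014) (nat_lit 2812) (nat_lit 0) (XT.nd (nat_lit 468) (nat_lit 2128) (nat_lit 0) (XT.nd (nat_lit 234) (nat_lit 608) (nat_lit 0) (XT.nd (nat_lit 78) (nat_lit 608) (nat_lit 0) (XT.lf (nat_lit 0) (nat_lit 1546757555) (nat_lit 1216) (nat_lit 18729035749) (nat_lit 76) (nat_lit 20268174729) (nat_lit 178) (nat_lit 5) (nat_lit 194) (nat_lit 5) (nat_lit 179) (nat_lit 5) (nat_lit 346) (nat_lit 328) (nat_lit 106)) (XT.nd (nat_lit 78) (nat_lit 0) (nat_lit 0) (XT.lf (nat_lit 0) (nat_lit 544661287) (nat_lit 608) (nat_lit 3861537140) (nat_lit 684) (nat_lit 36819043585) (nat_lit 170) (nat_lit 5) (nat_lit 178) (nat_lit 5) (nat_lit 179) (nat_lit 5) (nat_lit 347) (nat_lit 328) (nat_lit 105))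 (XT.lf (nat_lit 0) (nat_lit 7666220764) (nat_lit 684) (nat_lit 21269526337) (nat_lit 76) (nat_lit 12981765167) (nat_lit 170) (nat_lit 5) (nat_lit 179) (nat_lit 5) (nat_lit 171) (nat_lit 5) (nat_lit 348) (nat_lit 328) (nat_lit 104)))) (XT.nd (nat_lit 78) (nat_lit 608) (nat_lit 0) (XT.lf (nat_lit 0) (nat_lit 11060724605) (nat_lit 684) (nat_lit 1315802053) (nat_lit 76) (nat_lit 30252925491) (nat_lit 170) (nat_lit 5) (nat_lit 179) (nat_lit 5) (nat_lit 171) (nat_lit 5) (nat_lit 349) (nat_lit 328) (nat_lit 103)) (XT.nd (nat_lit 78) (nat_lit 0) (nat_lit 0) (XT.lf (nat_lit 0) (nat_lit 14790986650) (nat_lit 684) (nat_lit 23786026127) (nat_lit 76) (nat_lit 4778721644) (nat_lit 162) (nat_lit 5) (nat_lit 171) (nat_lit 5) (nat_lit 163) (nat_lit 5) (nat_lit 350) (nat_lit 328) (nat_lit 102)) (XT.lf (nat_lit 0) (nat_lit 18767639683) (nat_lit 684) (nat_lit 3118741963) (nat_lit 76) (nat_lit 22213390855) (nat_lit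 162) (nat_lit 5) (nat_lit 171) (nat_lit 5) (nat_lit 163) (nat_lit 5) (nat_lit 351) (nat_lit 328) (nat_lit 101))))) (XT.nd (nat_lit 234) (nat_lit 1064) (nat_lit 0) (XT.nd (nat_lit 78) (nat_lit 532) (nat_lit 0) (XT.lf (nat_lit 0) (nat_lit 18528744040) (nat_lit 532) (nat_lit 4511525542) (nat_lit 608) (nat_lit 21820563602) (nat_lit 155) (nat_lit 5) (nat_lit 162) (nat_lit 5) (nat_lit 163) (nat_lit 5) (nat_lit 352) (nat_lit 328) (nat_lit 100)) (XT.nd (nat_lit 78) (nat_lit 532) (nat_lit 0) (XT.lf (nat_lit 0) (nat_lit 27600140718) (nat_lit 608) (nat_lit 4884577566) (nat_lit 76) (nat_lit 13155237261) (nat_lit 155) (nat_lit 5) (nat_lit 163) (nat_lit 5) (nat_lit 156) (nat_lit 5) (nat_lit 353) (nat_lit 328) (nat_lit 99)) (XT.lf (nat_lit 0) (nat_lit 17501846005) (nat_lit 532) (nat_lit 15006506487) (nat_lit 608) (nat_lit 13927754426) (nat_lit 148) (nat_lit 5) (nat_lit 155) (nat_lit 5) (nat_lit 156) (nat_lit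 5) (nat_lit 354) (nat_lit 328) (nat_lit 98)))) (XT.nd (nat_lit 156) (nat_lit 608) (nat_lit 0) (XT.nd (nat_lit 78) (nat_lit 456) (nat_lit 0) (XT.lf (nat_lit 0) (nat_lit 37641087476) (nat_lit 608) (nat_lit 6625356936) (nat_lit 76) (nat_lit 2987381745) (nat_lit 148) (nat_lit 5) (nat_lit 156) (nat_lit 5) (nat_lit 149) (nat_lit 5) (nat_lit 355) (nat_lit 328) (nat_lit 97)) (XT.lf (nat_lit 0) (nat_lit 16525347698) (nat_lit 456) (nat_lit 26708590700) (nat_lit 532) (nat_lit 4852956138) (nat_lit 142) (nat_lit 5) (nat_lit 148) (nat_lit 5) (nat_lit 149) (nat_lit 5) (nat_lit 356) (nat_lit 328) (nat_lit 96))) (XT.nd (nat_lit 78) (nat_lit 532) (nat_lit 0) (XT.lf (nat_lit 0) (nat_lit 114930778) (nat_lit 532) (nat_lit 8439070504) (nat_lit 76) (nat_lit 40388952491) (nat_lit 141) (nat_lit 5) (nat_lit 148) (nat_lit 5) (nat_lit 142) (nat_lit 5) (nat_lit 357) (nat_lit 328) (nat_lit 95)) (XT.lf (nat_lit 0) (nat_lit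 5382822276) (nat_lit 608) (nat_lit 34285516772) (nat_lit 76) (nat_lit 10147460484) (nat_lit 134) (nat_lit 5) (nat_lit 142) (nat_lit 5) (nat_lit 135) (nat_lit 5) (nat_lit 358) (nat_lit 328) (nat_lit 94)))))) (XT.nd (nat_lit 546) (nat_lit 1520) (nat_lit 0) (XT.nd (nat_lit 234) (nat_lit 836) (nat_lit 0) (XT.nd (nat_lit 78) (nat_lit 456) (nat_lit 0) (XT.lf (nat_lit 0) (nat_lit 10978279346) (nat_lit 608) (nat_lit 10407456026) (nat_lit 76) (nat_lit 29324010834) (nat_lit 134) (nat_lit 5) (nat_lit 142) (nat_lit 5) (nat_lit 135) (nat_lit 5) (nat_lit 359) (nat_lit 328) (nat_lit 93)) (XT.nd (nat_lit 78) (nat_lit 0) (nat_lit 0) (XT.lf (nat_lit 0) (nat_lit 14467953501) (nat_lit 456) (nat_lit 2411531092) (nat_lit 532) (nat_lit 34746891515) (nat_lit 128) (nat_lit 5) (nat_lit 134) (nat_lit 5) (nat_lit 135) (nat_lit 5) (nat_lit 360) (nat_lit 328) (nat_lit 92)) (XT.lf (nat_lit 0) (nat_lit 23227374253) (nat_lit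 532) (nat_lit 12431444058) (nat_lit 76) (nat_lit 16903598474) (nat_lit 128) (nat_lit 5) (nat_lit 135) (nat_lit 5) (nat_lit 129) (nat_lit 5) (nat_lit 361) (nat_lit 328) (nat_lit 91)))) (XT.nd (nat_lit 156) (nat_lit 380) (nat_lit 0) (XT.nd (nat_lit 78) (nat_lit 0) (nat_lit 0) (XT.lf (nat_lit 0) (nat_lit 13271136809) (nat_lit 456) (nat_lit 16644875200) (nat_lit 532) (nat_lit 23606018615) (nat_lit 122) (nat_lit 5) (nat_lit 128) (nat_lit 5) (nat_lit 129) (nat_lit 5) (nat_lit 362) (nat_lit 328) (nat_lit 90)) (XT.lf (nat_lit 0) (nat_lit 36959224801) (nat_lit 532) (nat_lit 14537856900) (nat_lit 76) (nat_lit 3008734950) (nat_lit 122) (nat_lit 5) (nat_lit 129) (nat_lit 5) (nat_lit 123) (nat_lit 5) (nat_lit 363) (nat_lit 328) (nat_lit 89))) (XT.nd (nat_lit 78) (nat_lit 0) (nat_lit 0) (XT.lf (nat_lit 0) (nat_lit 12014945144) (nat_lit 380) (nat_lit 32478000744) (nat_lit 456) (nat_lit 11017795223) (nat_lit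 117) (nat_lit 5) (nat_lit 122) (nat_lit 5) (nat_lit 123) (nat_lit 5) (nat_lit 364) (nat_lit 328) (nat_lit 88)) (XT.lf (nat_lit 0) (nat_lit 39661075524) (nat_lit 380) (nat_lit 12737342481) (nat_lit 456) (nat_lit 4143024294) (nat_lit 117) (nat_lit 5) (nat_lit 122) (nat_lit 5) (nat_lit 123) (nat_lit 5) (nat_lit 365) (nat_lit 328) (nat_lit 87))))) (XT.nd (nat_lit 234) (nat_lit 684) (nat_lit 0) (XT.nd (nat_lit 78) (nat_lit 380) (nat_lit 0) (XT.lf (nat_lit 0) (nat_lit 3056905065) (nat_lit 456) (nat_lit 46960388649) (nat_lit 76) (nat_lit 7579637284) (nat_lit 111) (nat_lit 5) (nat_lit 117) (nat_lit 5) (nat_lit 112) (nat_lit 5) (nat_lit 366) (nat_lit 328) (nat_lit 86)) (XT.nd (nat_lit 78) (nat_lit 380) (nat_lit 0) (XT.lf (nat_lit 0) (nat_lit 10686791888) (nat_lit 456) (nat_lit 19524070986) (nat_lit 76) (nat_lit 28463075051) (nat_lit 111) (nat_lit 5) (nat_lit 117) (nat_lit 5) (nat_lit 112) (nat_lit 5) (nat_lit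 367) (nat_lit 328) (nat_lit 85)) (XT.lf (nat_lit 0) (nat_lit 8907928923) (nat_lit 380) (nat_lit 9722276460) (nat_lit 456) (nat_lit 41150511821) (nat_lit 106) (nat_lit 5) (nat_lit 111) (nat_lit 5) (nat_lit 112) (nat_lit 5) (nat_lit 368) (nat_lit 328) (nat_lit 84)))) (XT.nd (nat_lit 156) (nat_lit 304) (nat_lit 0) (XT.nd (nat_lit 78) (nat_lit 380) (nat_lit 0) (XT.lf (nat_lit 0) (nat_lit 27119445608) (nat_lit 456) (nat_lit 22434274033) (nat_lit 76) (nat_lit 11357755503) (nat_lit 106) (nat_lit 5) (nat_lit 112) (nat_lit 5) (nat_lit 107) (nat_lit 5) (nat_lit 369) (nat_lit 328) (nat_lit 83)) (XT.lf (nat_lit 0) (nat_lit 6894458466) (nat_lit 380) (nat_lit 29130483772) (nat_lit 456) (nat_lit 26046367195) (nat_lit 101) (nat_lit 5) (nat_lit 106) (nat_lit 5) (nat_lit 107) (nat_lit 5) (nat_lit 370) (nat_lit 328) (nat_lit 82))) (XT.nd (nat_lit 78) (nat_lit 304) (nat_lit 0) (XT.lf (nat_lit 0) (nat_lit 37561732723)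 (nat_lit 380) (nat_lit 7861474769) (nat_lit 456) (nat_lit 17835964103) (nat_lit 101) (nat_lit 5) (nat_lit 106) (nat_lit 5) (nat_lit 107) (nat_lit 5) (nat_lit 371) (nat_lit 328) (nat_lit 81)) (XT.lf (nat_lit 0) (nat_lit 4620307811) (nat_lit 304) (nat_lit 50661627492) (nat_lit 380) (nat_lit 9195379809) (nat_lit 97) (nat_lit 5) (nat_lit 101) (nat_lit 5) (nat_lit 102) (nat_lit 5) (nat_lit 372) (nat_lit 328) (nat_lit 80))))))))
noncomputable def xc239 : XT := (XT.nd (nat_lit 38220) (nat_lit 0) (nat_lit 3040) (XT.nd (nat_lit 1014) (nat_lit 0) (nat_lit 0) (XT.nd (nat_lit 468) (nat_lit 1216) (nat_lit 0) (XT.nd (nat_lit 234) (nat_lit 304) (nat_lit 0) (XT.nd (nat_lit 78) (nat_lit 380) (nat_lit 0) (XT.lf (nat_lit 0) (nat_lit 49181097) (nat_lit 380) (nat_lit 29428622219) (nat_lit 76) (nat_lit 36244115994) (nat_lit 96) (nat_lit 5) (nat_lit 101) (nat_lit 5) (nat_lit 97) (nat_lit 5) (nat_lit 373) (nat_lit 328)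 (nat_lit 79)) (XT.nd (nat_lit 78) (nat_lit 0) (nat_lit 0) (XT.lf (nat_lit 0) (nat_lit 1856636698) (nat_lit 380) (nat_lit 7546589600) (nat_lit 456) (nat_lit 57597395920) (nat_lit 91) (nat_lit 5) (nat_lit 96) (nat_lit 5) (nat_lit 97) (nat_lit 5) (nat_lit 374) (nat_lit 328) (nat_lit 78)) (XT.lf (nat_lit 0) (nat_lit 19481735043) (nat_lit 456) (nat_lit 33773777070) (nat_lit 76) (nat_lit 15048859659) (nat_lit 91) (nat_lit 5) (nat_lit 97) (nat_lit 5) (nat_lit 92) (nat_lit 5) (nat_lit 375) (nat_lit 328) (nat_lit 77)))) (XT.nd (nat_lit 78) (nat_lit 304) (nat_lit 0) (XT.lf (nat_lit 0) (nat_lit 29936473315) (nat_lit 456) (nat_lit 1538323504) (nat_lit 76) (nat_lit 38170221568) (nat_lit 91) (nat_lit 5) (nat_lit 97) (nat_lit 5) (nat_lit 92) (nat_lit 5) (nat_lit 376) (nat_lit 328) (nat_lit 76)) (XT.nd (nat_lit 78) (nat_lit 0) (nat_lit 0) (XT.lf (nat_lit 0) (nat_lit 32293241982) (nat_lit 304) (nat_lit 8721214301)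 (nat_lit 380) (nat_lit 30002140817) (nat_lit 87) (nat_lit 5) (nat_lit 91) (nat_lit 5) (nat_lit 92) (nat_lit 5) (nat_lit 377) (nat_lit 328) (nat_lit 75)) (XT.lf (nat_lit 0) (nat_lit 52581106610) (nat_lit 380) (nat_lit 5400292174) (nat_lit 76) (nat_lit 14443235310) (nat_lit 87) (nat_lit 5) (nat_lit 92) (nat_lit 5) (nat_lit 88) (nat_lit 5) (nat_lit 378) (nat_lit 328) (nat_lit 74))))) (XT.nd (nat_lit 234) (nat_lit 532) (nat_lit 0) (XT.nd (nat_lit 78) (nat_lit 380) (nat_lit 0) (XT.lf (nat_lit 0) (nat_lit 29408899770) (nat_lit 304) (nat_lit 35454115909) (nat_lit 380) (nat_lit 9000849475) (nat_lit 83) (nat_lit 5) (nat_lit 87) (nat_lit 5) (nat_lit 88) (nat_lit 5) (nat_lit 379) (nat_lit 328) (nat_lit 73)) (XT.nd (nat_lit 78) (nat_lit 304) (nat_lit 0) (XT.lf (nat_lit 0) (nat_lit 2179111481) (nat_lit 380) (nat_lit 9994033880) (nat_lit 76) (nat_lit 63170874807) (nat_lit 82) (nat_lit 5) (nat_lit 87) (nat_lit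 5) (nat_lit 83) (nat_lit 5) (nat_lit 380) (nat_lit 328) (nat_lit 72)) (XT.lf (nat_lit 0) (nat_lit 13878762237) (nat_lit 380) (nat_lit 51059024578) (nat_lit 76) (nat_lit 11917164194) (nat_lit 78) (nat_lit 5) (nat_lit 83) (nat_lit 5) (nat_lit 79) (nat_lit 5) (nat_lit 381) (nat_lit 328) (nat_lit 71)))) (XT.nd (nat_lit 156) (nat_lit 228) (nat_lit 0) (XT.nd (nat_lit 78) (nat_lit 304) (nat_lit 0) (XT.lf (nat_lit 0) (nat_lit 26151098320) (nat_lit 380) (nat_lit 15666325374) (nat_lit 76) (nat_lit 36587135860) (nat_lit 78) (nat_lit 5) (nat_lit 83) (nat_lit 5) (nat_lit 79) (nat_lit 5) (nat_lit 382) (nat_lit 328) (nat_lit 70)) (XT.lf (nat_lit 0) (nat_lit 21200819098) (nat_lit 304) (nat_lit 17793852723) (nat_lit 380) (nat_lit 40999893145) (nat_lit 74) (nat_lit 5) (nat_lit 78) (nat_lit 5) (nat_lit 79) (nat_lit 5) (nat_lit 383) (nat_lit 328) (nat_lit 69))) (XT.nd (nat_lit 78) (nat_lit 228) (nat_lit 0) (XT.lf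 (nat_lit 0) (nat_lit 52449410149) (nat_lit 380) (nat_lit 22201829373) (nat_lit 76) (nat_lit 6974255904) (nat_lit 74) (nat_lit 5) (nat_lit 79) (nat_lit 5) (nat_lit 75) (nat_lit 5) (nat_lit 384) (nat_lit 328) (nat_lit 68)) (XT.lf (nat_lit 0) (nat_lit 15615361399) (nat_lit 228) (nat_lit 51018011736) (nat_lit 304) (nat_lit 16662213786) (nat_lit 71) (nat_lit 5) (nat_lit 74) (nat_lit 5) (nat_lit 75) (nat_lit 5) (nat_lit 385) (nat_lit 328) (nat_lit 67)))))) (XT.nd (nat_lit 36660) (nat_lit 0) (nat_lit 8968) (XT.nd (nat_lit 36348) (nat_lit 0) (nat_lit 8816) (XT.nd (nat_lit 36192) (nat_lit 0) (nat_lit 8816) (XT.lf (nat_lit 0) (nat_lit 55021175214) (nat_lit 228) (nat_lit 26445186741) (nat_lit 304) (nat_lit 3542714576) (nat_lit 71) (nat_lit 5) (nat_lit 74) (nat_lit 5) (nat_lit 75) (nat_lit 5) (nat_lit 386) (nat_lit 328) (nat_lit 66)) (XT.nd (nat_lit 78) (nat_lit 0) (nat_lit 0) (XT.lf (nat_lit 0) (nat_lit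 3021143790) (nat_lit 0) (nat_lit 3021143790) (nat_lit 1140) (nat_lit 9711598066) (nat_lit 187) (nat_lit 5) (nat_lit 187) (nat_lit 3) (nat_lit 202) (nat_lit 3) (nat_lit 329) (nat_lit 329) (nat_lit 122)) (XT.lf (nat_lit 0) (nat_lit 12408003175) (nat_lit 1140) (nat_lit 11464292957) (nat_lit 1216) (nat_lit 8103742136) (nat_lit 187) (nat_lit 5) (nat_lit 202) (nat_lit 3) (nat_lit 203) (nat_lit 5) (nat_lit 330) (nat_lit 329) (nat_lit 121)))) (XT.nd (nat_lit 156) (nat_lit 0) (nat_lit 76) (XT.nd (nat_lit 78) (nat_lit 0) (nat_lit 76) (XT.lf (nat_lit 76) (nat_lit 2953428711) (nat_lit 0) (nat_lit 9873484442) (nat_lit 1216) (nat_lit 19628870036) (nat_lit 188) (nat_lit 5) (nat_lit 187) (nat_lit 5) (nat_lit 203) (nat_lit 5) (nat_lit 331) (nat_lit 329) (nat_lit 120)) (XT.lf (nat_lit 0) (nat_lit 13416628785) (nat_lit 1140) (nat_lit 14953981225) (nat_lit 1216) (nat_lit 4574566511) (nat_lit 188) (nat_lit 5) (nat_lit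 203) (nat_lit 5) (nat_lit 204) (nat_lit 5) (nat_lit 332) (nat_lit 329) (nat_lit 119))) (XT.nd (nat_lit 78) (nat_lit 0) (nat_lit 76) (XT.lf (nat_lit 0) (nat_lit 14119495238) (nat_lit 1140) (nat_lit 68257966) (nat_lit 1216) (nat_lit 19258637788) (nat_lit 188) (nat_lit 5) (nat_lit 203) (nat_lit 5) (nat_lit 204) (nat_lit 5) (nat_lit 333) (nat_lit 329) (nat_lit 118)) (XT.lf (nat_lit 0) (nat_lit 14996384721) (nat_lit 1140) (nat_lit 18397265704) (nat_lit 1216) (nat_lit 564406390) (nat_lit 189) (nat_lit 5) (nat_lit 204) (nat_lit 5) (nat_lit 205) (nat_lit 5) (nat_lit 334) (nat_lit 329) (nat_lit 117))))) (XT.nd (nat_lit 234) (nat_lit 0) (nat_lit 76) (XT.nd (nat_lit 78) (nat_lit 0) (nat_lit 0) (XT.lf (nat_lit 0) (nat_lit 16038579881) (nat_lit 1140) (nat_lit 2966789480) (nat_lit 1216) (nat_lit 15475536223) (nat_lit 189) (nat_lit 5) (nat_lit 204) (nat_lit 5) (nat_lit 205) (nat_lit 5) (nat_lit 335) (nat_lit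 329) (nat_lit 116)) (XT.nd (nat_lit 78) (nat_lit 0) (nat_lit 76) (XT.lf (nat_lit 76) (nat_lit 13182510355) (nat_lit 0) (nat_lit 4054142189) (nat_lit 1216) (nat_lit 17779051778) (nat_lit 190) (nat_lit 5) (nat_lit 189) (nat_lit 5) (nat_lit 205) (nat_lit 5) (nat_lit 336) (nat_lit 329) (nat_lit 115)) (XT.lf (nat_lit 0) (nat_lit 18607932961) (nat_lit 1140) (nat_lit 5799288026) (nat_lit 1216) (nat_lit 11155210840) (nat_lit 190) (nat_lit 5) (nat_lit 205) (nat_lit 5) (nat_lit 206) (nat_lit 5) (nat_lit 337) (nat_lit 329) (nat_lit 114)))) (XT.nd (nat_lit 156) (nat_lit 0) (nat_lit 76) (XT.nd (nat_lit 78) (nat_lit 0) (nat_lit 76) (XT.lf (nat_lit 76) (nat_lit 10886584410) (nat_lit 0) (nat_lit 9276564782) (nat_lit 1216) (nat_lit 15958130734) (nat_lit 191) (nat_lit 5) (nat_lit 190) (nat_lit 5) (nat_lit 206) (nat_lit 5) (nat_lit 338) (nat_lit 329) (nat_lit 113)) (XT.lf (nat_lit 0) (nat_lit 21882859555) (nat_lit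 1140) (nat_lit 8565840967) (nat_lit 1216) (nat_lit 6244660430) (nat_lit 191) (nat_lit 5) (nat_lit 206) (nat_lit 5) (nat_lit 207) (nat_lit 5) (nat_lit 339) (nat_lit 329) (nat_lit 112))) (XT.nd (nat_lit 78) (nat_lit 0) (nat_lit 76) (XT.lf (nat_lit 76) (nat_lit 8679235179) (nat_lit 0) (nat_lit 15148319776) (nat_lit 1216) (nat_lit 13449850178) (nat_lit 192) (nat_lit 5) (nat_lit 191) (nat_lit 5) (nat_lit 207) (nat_lit 5) (nat_lit 340) (nat_lit 329) (nat_lit 111)) (XT.lf (nat_lit 0) (nat_lit 25921982944) (nat_lit 1140) (nat_lit 11267260302) (nat_lit 1216) (nat_lit 686988105) (nat_lit 192) (nat_lit 5) (nat_lit 207) (nat_lit 5) (nat_lit 208) (nat_lit 5) (nat_lit 341) (nat_lit 329) (nat_lit 110))))))) (XT.nd (nat_lit 1014) (nat_lit 3344) (nat_lit 0) (XT.nd (nat_lit 468) (nat_lit 1748) (nat_lit 0) (XT.nd (nat_lit 234) (nat_lit 1064) (nat_lit 0) (XT.nd (nat_lit 78) (nat_lit 0) (nat_lit 0) (XT.lf (nat_lit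 76) (nat_lit 6560239071) (nat_lit 0) (nat_lit 21730265705) (nat_lit 1216) (nat_lit 10196182141) (nat_lit 193) (nat_lit 5) (nat_lit 192) (nat_lit 5) (nat_lit 208) (nat_lit 5) (nat_lit 342) (nat_lit 329) (nat_lit 109)) (XT.nd (nat_lit 78) (nat_lit 0) (nat_lit 76) (XT.lf (nat_lit 76) (nat_lit 25152176533) (nat_lit 0) (nat_lit 5689938499) (nat_lit 1216) (nat_lit 8269982457) (nat_lit 193) (nat_lit 5) (nat_lit 192) (nat_lit 5) (nat_lit 208) (nat_lit 5) (nat_lit 343) (nat_lit 329) (nat_lit 108)) (XT.lf (nat_lit 76) (nat_lit 4528476752) (nat_lit 0) (nat_lit 29087757263) (nat_lit 1216) (nat_lit 6135659804) (nat_lit 194) (nat_lit 5) (nat_lit 193) (nat_lit 5) (nat_lit 209) (nat_lit 5) (nat_lit 344) (nat_lit 329) (nat_lit 107)))) (XT.nd (nat_lit 78) (nat_lit 1140) (nat_lit 0) (XT.lf (nat_lit 76) (nat_lit 23798875385) (nat_lit 0) (nat_lit 12869798865) (nat_lit 1216) (nat_lit 3736359046) (nat_lit 194) (nat_lit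 5) (nat_lit 193) (nat_lit 5) (nat_lit 209) (nat_lit 5) (nat_lit 345) (nat_lit 329) (nat_lit 106)) (XT.nd (nat_lit 78) (nat_lit 76) (nat_lit 0) (XT.lf (nat_lit 0) (nat_lit 2581765126) (nat_lit 1140) (nat_lit 37290998609) (nat_lit 1216) (nat_lit 1203203066) (nat_lit 179) (nat_lit 5) (nat_lit 194) (nat_lit 5) (nat_lit 195) (nat_lit 5) (nat_lit 346) (nat_lit 329) (nat_lit 105)) (XT.lf (nat_lit 0) (nat_lit 1673699309) (nat_lit 1216) (nat_lit 19220252780) (nat_lit 76) (nat_lit 20863817175) (nat_lit 178) (nat_lit 5) (nat_lit 194) (nat_lit 5) (nat_lit 179) (nat_lit 5) (nat_lit 347) (nat_lit 329) (nat_lit 104))))) (XT.nd (nat_lit 234) (nat_lit 1140) (nat_lit 0) (XT.nd (nat_lit 78) (nat_lit 0) (nat_lit 0) (XT.lf (nat_lit 0) (nat_lit 630962481) (nat_lit 608) (nat_lit 3986287642) (nat_lit 684) (nat_lit 37842284500) (nat_lit 170) (nat_lit 5) (nat_lit 178) (nat_lit 5) (nat_lit 179) (nat_lit 5) (nat_lit 348)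 (nat_lit 329) (nat_lit 103)) (XT.nd (nat_lit 78) (nat_lit 0) (nat_lit 0) (XT.lf (nat_lit 0) (nat_lit 7972692967) (nat_lit 684) (nat_lit 21837212516) (nat_lit 76) (nat_lit 13362741782) (nat_lit 170) (nat_lit 5) (nat_lit 179) (nat_lit 5) (nat_lit 171) (nat_lit 5) (nat_lit 349) (nat_lit 329) (nat_lit 102)) (XT.lf (nat_lit 0) (nat_lit 11466804188) (nat_lit 684) (nat_lit 1286926977) (nat_lit 76) (nat_lit 31152283799) (nat_lit 170) (nat_lit 5) (nat_lit 179) (nat_lit 5) (nat_lit 171) (nat_lit 5) (nat_lit 350) (nat_lit 329) (nat_lit 101)))) (XT.nd (nat_lit 156) (nat_lit 532) (nat_lit 0) (XT.nd (nat_lit 78) (nat_lit 0) (nat_lit 0) (XT.lf (nat_lit 0) (nat_lit 15307413114) (nat_lit 684) (nat_lit 24429606489) (nat_lit 76) (nat_lit 4917115640) (nat_lit 162) (nat_lit 5) (nat_lit 171) (nat_lit 5) (nat_lit 163) (nat_lit 5) (nat_lit 351) (nat_lit 329) (nat_lit 100)) (XT.lf (nat_lit 0) (nat_lit 19401248354) (nat_lit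 684) (nat_lit 3144342647) (nat_lit 76) (nat_lit 22874969617) (nat_lit 162) (nat_lit 5) (nat_lit 171) (nat_lit 5) (nat_lit 163) (nat_lit 5) (nat_lit 352) (nat_lit 329) (nat_lit 99))) (XT.nd (nat_lit 78) (nat_lit 0) (nat_lit 0) (XT.lf (nat_lit 0) (nat_lit 19151901647) (nat_lit 532) (nat_lit 4648746674) (nat_lit 608) (nat_lit 22403849618) (nat_lit 155) (nat_lit 5) (nat_lit 162) (nat_lit 5) (nat_lit 163) (nat_lit 5) (nat_lit 353) (nat_lit 329) (nat_lit 98)) (XT.lf (nat_lit 0) (nat_lit 28495283409) (nat_lit 608) (nat_lit 4963664842) (nat_lit 76) (nat_lit 13548109165) (nat_lit 155) (nat_lit 5) (nat_lit 163) (nat_lit 5) (nat_lit 156) (nat_lit 5) (nat_lit 354) (nat_lit 329) (nat_lit 97)))))) (XT.nd (nat_lit 546) (nat_lit 1292) (nat_lit 0) (XT.nd (nat_lit 234) (nat_lit 1064) (nat_lit 0) (XT.nd (nat_lit 78) (nat_lit 456) (nat_lit 0) (XT.lf (nat_lit 0) (nat_lit 18093690162) (nat_lit 532) (nat_lit 15455737900)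 (nat_lit 608) (nat_lit 14277707080) (nat_lit 148) (nat_lit 5) (nat_lit 155) (nat_lit 5) (nat_lit 156) (nat_lit 5) (nat_lit 355) (nat_lit 329) (nat_lit 96)) (XT.nd (nat_lit 78) (nat_lit 456) (nat_lit 0) (XT.lf (nat_lit 0) (nat_lit 38834236856) (nat_lit 608) (nat_lit 6757288036) (nat_lit 76) (nat_lit 3077920649) (nat_lit 148) (nat_lit 5) (nat_lit 156) (nat_lit 5) (nat_lit 149) (nat_lit 5) (nat_lit 356) (nat_lit 329) (nat_lit 95)) (XT.lf (nat_lit 0) (nat_lit 17087282545) (nat_lit 456) (nat_lit 27506365217) (nat_lit 532) (nat_lit 4933897244) (nat_lit 142) (nat_lit 5) (nat_lit 148) (nat_lit 5) (nat_lit 149) (nat_lit 5) (nat_lit 357) (nat_lit 329) (nat_lit 94)))) (XT.nd (nat_lit 156) (nat_lit 456) (nat_lit 0) (XT.nd (nat_lit 78) (nat_lit 532) (nat_lit 0) (XT.lf (nat_lit 0) (nat_lit 179918575) (nat_lit 532) (nat_lit 8626699561) (nat_lit 76) (nat_lit 41602706765) (nat_lit 141) (nat_lit 5) (nat_lit 148)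 (nat_lit 5) (nat_lit 142) (nat_lit 5) (nat_lit 358) (nat_lit 329) (nat_lit 93)) (XT.lf (nat_lit 0) (nat_lit 5604721796) (nat_lit 608) (nat_lit 35247344983) (nat_lit 76) (nat_lit 10456325083) (nat_lit 134) (nat_lit 5) (nat_lit 142) (nat_lit 5) (nat_lit 135) (nat_lit 5) (nat_lit 359) (nat_lit 329) (nat_lit 92))) (XT.nd (nat_lit 78) (nat_lit 456) (nat_lit 0) (XT.lf (nat_lit 0) (nat_lit 11366282922) (nat_lit 608) (nat_lit 10654886219) (nat_lit 76) (nat_lit 30208042600) (nat_lit 134) (nat_lit 5) (nat_lit 142) (nat_lit 5) (nat_lit 135) (nat_lit 5) (nat_lit 360) (nat_lit 329) (nat_lit 91)) (XT.lf (nat_lit 0) (nat_lit 14966150364) (nat_lit 456) (nat_lit 2477282287) (nat_lit 532) (nat_lit 35729942597) (nat_lit 128) (nat_lit 5) (nat_lit 134) (nat_lit 5) (nat_lit 135) (nat_lit 5) (nat_lit 361) (nat_lit 329) (nat_lit 90))))) (XT.nd (nat_lit 234) (nat_lit 836) (nat_lit 0) (XT.nd (nat_lit 78) (nat_lit 456)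 (nat_lit 0) (XT.lf (nat_lit 0) (nat_lit 23980143939) (nat_lit 532) (nat_lit 12740419410) (nat_lit 76) (nat_lit 17416984147) (nat_lit 128) (nat_lit 5) (nat_lit 135) (nat_lit 5) (nat_lit 129) (nat_lit 5) (nat_lit 362) (nat_lit 329) (nat_lit 89)) (XT.nd (nat_lit 78) (nat_lit 0) (nat_lit 0) (XT.lf (nat_lit 0) (nat_lit 13732611746) (nat_lit 456) (nat_lit 17135808386) (nat_lit 532) (nat_lit 24257562085) (nat_lit 122) (nat_lit 5) (nat_lit 128) (nat_lit 5) (nat_lit 129) (nat_lit 5) (nat_lit 363) (nat_lit 329) (nat_lit 88)) (XT.lf (nat_lit 0) (nat_lit 38121407986) (nat_lit 532) (nat_lit 14910915629) (nat_lit 76) (nat_lit 3107005639) (nat_lit 122) (nat_lit 5) (nat_lit 129) (nat_lit 5) (nat_lit 123) (nat_lit 5) (nat_lit 364) (nat_lit 329) (nat_lit 87)))) (XT.nd (nat_lit 156) (nat_lit 456) (nat_lit 0) (XT.nd (nat_lit 78) (nat_lit 0) (nat_lit 0) (XT.lf (nat_lit 0) (nat_lit 12437852075) (nat_lit 380) (nat_lit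 33442333494) (nat_lit 456) (nat_lit 11294246273) (nat_lit 117) (nat_lit 5) (nat_lit 122) (nat_lit 5) (nat_lit 123) (nat_lit 5) (nat_lit 365) (nat_lit 329) (nat_lit 86)) (XT.lf (nat_lit 0) (nat_lit 40911547184) (nat_lit 380) (nat_lit 13109746958) (nat_lit 456) (nat_lit 4214807444) (nat_lit 117) (nat_lit 5) (nat_lit 122) (nat_lit 5) (nat_lit 123) (nat_lit 5) (nat_lit 366) (nat_lit 329) (nat_lit 85))) (XT.nd (nat_lit 78) (nat_lit 0) (nat_lit 0) (XT.lf (nat_lit 0) (nat_lit 3199284483) (nat_lit 456) (nat_lit 48306617921) (nat_lit 76) (nat_lit 7817363312) (nat_lit 111) (nat_lit 5) (nat_lit 117) (nat_lit 5) (nat_lit 112) (nat_lit 5) (nat_lit 367) (nat_lit 329) (nat_lit 84)) (XT.lf (nat_lit 0) (nat_lit 11056592020) (nat_lit 456) (nat_lit 20049033516) (nat_lit 76) (nat_lit 29327003136) (nat_lit 111) (nat_lit 5) (nat_lit 117) (nat_lit 5) (nat_lit 112) (nat_lit 5) (nat_lit 368) (nat_lit 329) (nat_lit 83))))))))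
noncomputable def xc240 : XT := (XT.nd (nat_lit 38220) (nat_lit 0) (nat_lit 3876) (XT.nd (nat_lit 1014) (nat_lit 836) (nat_lit 0) (XT.nd (nat_lit 468) (nat_lit 1064) (nat_lit 0) (XT.nd (nat_lit 234) (nat_lit 380) (nat_lit 0) (XT.nd (nat_lit 78) (nat_lit 380) (nat_lit 0) (XT.lf (nat_lit 0) (nat_lit 9235330708) (nat_lit 380) (nat_lit 10002122639) (nat_lit 456) (nat_lit 42335185119) (nat_lit 106) (nat_lit 5) (nat_lit 111) (nat_lit 5) (nat_lit 112) (nat_lit 5) (nat_lit 369) (nat_lit 329) (nat_lit 82)) (XT.nd (nat_lit 78) (nat_lit 380) (nat_lit 0) (XT.lf (nat_lit 0) (nat_lit 27980073098) (nat_lit 456) (nat_lit 23047544458) (nat_lit 76) (nat_lit 11709741976) (nat_lit 106) (nat_lit 5) (nat_lit 112) (nat_lit 5) (nat_lit 107) (nat_lit 5) (nat_lit 370) (nat_lit 329) (nat_lit 81)) (XT.lf (nat_lit 0) (nat_lit 7160464155) (nat_lit 380) (nat_lit 29991469051) (nat_lit 456) (nat_lit 26780081100) (nat_lit 101)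 (nat_lit 5) (nat_lit 106) (nat_lit 5) (nat_lit 107) (nat_lit 5) (nat_lit 371) (nat_lit 329) (nat_lit 80)))) (XT.nd (nat_lit 78) (nat_lit 380) (nat_lit 0) (XT.lf (nat_lit 0) (nat_lit 38746033186) (nat_lit 380) (nat_lit 8084766357) (nat_lit 456) (nat_lit 18324754569) (nat_lit 101) (nat_lit 5) (nat_lit 106) (nat_lit 5) (nat_lit 107) (nat_lit 5) (nat_lit 372) (nat_lit 329) (nat_lit 79)) (XT.nd (nat_lit 78) (nat_lit 76) (nat_lit 0) (XT.lf (nat_lit 0) (nat_lit 4817061803) (nat_lit 304) (nat_lit 52167595812) (nat_lit 380) (nat_lit 9425604599) (nat_lit 97) (nat_lit 5) (nat_lit 101) (nat_lit 5) (nat_lit 102) (nat_lit 5) (nat_lit 373) (nat_lit 329) (nat_lit 78)) (XT.lf (nat_lit 0) (nat_lit 94099316) (nat_lit 380) (nat_lit 30254123194) (nat_lit 76) (nat_lit 37344009222) (nat_lit 96) (nat_lit 5) (nat_lit 101) (nat_lit 5) (nat_lit 97) (nat_lit 5) (nat_lit 374) (nat_lit 329) (nat_lit 77))))) (XT.nd (nat_lit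 234) (nat_lit 684) (nat_lit 0) (XT.nd (nat_lit 78) (nat_lit 0) (nat_lit 0) (XT.lf (nat_lit 0) (nat_lit 1969131160) (nat_lit 380) (nat_lit 7758915340) (nat_lit 456) (nat_lit 59281272027) (nat_lit 91) (nat_lit 5) (nat_lit 96) (nat_lit 5) (nat_lit 97) (nat_lit 5) (nat_lit 375) (nat_lit 329) (nat_lit 76)) (XT.nd (nat_lit 78) (nat_lit 0) (nat_lit 0) (XT.lf (nat_lit 0) (nat_lit 20107797466) (nat_lit 456) (nat_lit 34730696742) (nat_lit 76) (nat_lit 15513720937) (nat_lit 91) (nat_lit 5) (nat_lit 97) (nat_lit 5) (nat_lit 92) (nat_lit 5) (nat_lit 376) (nat_lit 329) (nat_lit 75)) (XT.lf (nat_lit 0) (nat_lit 30874965933) (nat_lit 456) (nat_lit 1529819189) (nat_lit 76) (nat_lit 39328333543) (nat_lit 91) (nat_lit 5) (nat_lit 97) (nat_lit 5) (nat_lit 92) (nat_lit 5) (nat_lit 377) (nat_lit 329) (nat_lit 74)))) (XT.nd (nat_lit 156) (nat_lit 380) (nat_lit 0) (XT.nd (nat_lit 78) (nat_lit 0) (nat_lit 0) (XT.lf (nat_lit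 0) (nat_lit 33316157437) (nat_lit 304) (nat_lit 8968474516) (nat_lit 380) (nat_lit 30861233595) (nat_lit 87) (nat_lit 5) (nat_lit 91) (nat_lit 5) (nat_lit 92) (nat_lit 5) (nat_lit 378) (nat_lit 329) (nat_lit 73)) (XT.lf (nat_lit 0) (nat_lit 54197258425) (nat_lit 380) (nat_lit 5508699515) (nat_lit 76) (nat_lit 14890217497) (nat_lit 87) (nat_lit 5) (nat_lit 92) (nat_lit 5) (nat_lit 88) (nat_lit 5) (nat_lit 379) (nat_lit 329) (nat_lit 72))) (XT.nd (nat_lit 78) (nat_lit 76) (nat_lit 0) (XT.lf (nat_lit 0) (nat_lit 30344242684) (nat_lit 304) (nat_lit 36502764554) (nat_lit 380) (nat_lit 9231595769) (nat_lit 83) (nat_lit 5) (nat_lit 87) (nat_lit 5) (nat_lit 88) (nat_lit 5) (nat_lit 380) (nat_lit 329) (nat_lit 71)) (XT.lf (nat_lit 0) (nat_lit 2281875807) (nat_lit 380) (nat_lit 10241547667) (nat_lit 76) (nat_lit 65079762513) (nat_lit 82) (nat_lit 5) (nat_lit 87) (nat_lit 5) (nat_lit 83) (nat_lit 5) (nat_lit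 381) (nat_lit 329) (nat_lit 70)))))) (XT.nd (nat_lit 36660) (nat_lit 0) (nat_lit 8816) (XT.nd (nat_lit 234) (nat_lit 228) (nat_lit 0) (XT.nd (nat_lit 78) (nat_lit 304) (nat_lit 0) (XT.lf (nat_lit 0) (nat_lit 14332069046) (nat_lit 380) (nat_lit 52538008952) (nat_lit 76) (nat_lit 12289381131) (nat_lit 78) (nat_lit 5) (nat_lit 83) (nat_lit 5) (nat_lit 79) (nat_lit 5) (nat_lit 382) (nat_lit 329) (nat_lit 69)) (XT.nd (nat_lit 78) (nat_lit 304) (nat_lit 0) (XT.lf (nat_lit 0) (nat_lit 26971499174) (nat_lit 380) (nat_lit 16085066239) (nat_lit 76) (nat_lit 37699023732) (nat_lit 78) (nat_lit 5) (nat_lit 83) (nat_lit 5) (nat_lit 79) (nat_lit 5) (nat_lit 383) (nat_lit 329) (nat_lit 68)) (XT.lf (nat_lit 0) (nat_lit 21887590127) (nat_lit 304) (nat_lit 18312232862) (nat_lit 380) (nat_lit 42193489345) (nat_lit 74) (nat_lit 5) (nat_lit 78) (nat_lit 5) (nat_lit 79) (nat_lit 5) (nat_lit 384) (nat_lit 329) (nat_lit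 67)))) (XT.nd (nat_lit 78) (nat_lit 228) (nat_lit 0) (XT.lf (nat_lit 0) (nat_lit 54057319045) (nat_lit 380) (nat_lit 22817702058) (nat_lit 76) (nat_lit 7198177019) (nat_lit 74) (nat_lit 5) (nat_lit 79) (nat_lit 5) (nat_lit 75) (nat_lit 5) (nat_lit 385) (nat_lit 329) (nat_lit 66)) (XT.nd (nat_lit 36270) (nat_lit 0) (nat_lit 8816) (XT.lf (nat_lit 0) (nat_lit 16133512455) (nat_lit 228) (nat_lit 52532763402) (nat_lit 304) (nat_lit 17127133112) (nat_lit 71) (nat_lit 5) (nat_lit 74) (nat_lit 5) (nat_lit 75) (nat_lit 5) (nat_lit 386) (nat_lit 329) (nat_lit 65)) (XT.lf (nat_lit 0) (nat_lit 3142832163) (nat_lit 0) (nat_lit 3142832163) (nat_lit 1140) (nat_lit 9938890649) (nat_lit 187) (nat_lit 5) (nat_lit 187) (nat_lit 3) (nat_lit 202) (nat_lit 3) (nat_lit 330) (nat_lit 330) (nat_lit 120))))) (XT.nd (nat_lit 234) (nat_lit 0) (nat_lit 76) (XT.nd (nat_lit 78) (nat_lit 0) (nat_lit 0) (XT.lf (nat_lit 0) (nat_lit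 12900261927) (nat_lit 1140) (nat_lit 11743561919) (nat_lit 1216) (nat_lit 8287731909) (nat_lit 187) (nat_lit 5) (nat_lit 202) (nat_lit 3) (nat_lit 203) (nat_lit 5) (nat_lit 331) (nat_lit 330) (nat_lit 119)) (XT.nd (nat_lit 78) (nat_lit 0) (nat_lit 76) (XT.lf (nat_lit 76) (nat_lit 3106057479) (nat_lit 0) (nat_lit 10222801492) (nat_lit 1216) (nat_lit 20096925211) (nat_lit 188) (nat_lit 5) (nat_lit 187) (nat_lit 5) (nat_lit 203) (nat_lit 5) (nat_lit 332) (nat_lit 330) (nat_lit 118)) (XT.lf (nat_lit 0) (nat_lit 13932358594) (nat_lit 1140) (nat_lit 15336378371) (nat_lit 1216) (nat_lit 4661244185) (nat_lit 188) (nat_lit 5) (nat_lit 203) (nat_lit 5) (nat_lit 204) (nat_lit 5) (nat_lit 333) (nat_lit 330) (nat_lit 117)))) (XT.nd (nat_lit 156) (nat_lit 0) (nat_lit 76) (XT.nd (nat_lit 78) (nat_lit 0) (nat_lit 76) (XT.lf (nat_lit 0) (nat_lit 14653013052) (nat_lit 1140) (nat_lit 6012219) (nat_lit 1216) (nat_lit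 19787310202) (nat_lit 188) (nat_lit 5) (nat_lit 203) (nat_lit 5) (nat_lit 204) (nat_lit 5) (nat_lit 334) (nat_lit 330) (nat_lit 116)) (XT.lf (nat_lit 0) (nat_lit 15553199380) (nat_lit 1140) (nat_lit 18881735437) (nat_lit 1216) (nat_lit 538511096) (nat_lit 189) (nat_lit 5) (nat_lit 204) (nat_lit 5) (nat_lit 205) (nat_lit 5) (nat_lit 335) (nat_lit 330) (nat_lit 115))) (XT.nd (nat_lit 78) (nat_lit 0) (nat_lit 0) (XT.lf (nat_lit 0) (nat_lit 16623546130) (nat_lit 1140) (nat_lit 2990309438) (nat_lit 1216) (nat_lit 15898222225) (nat_lit 189) (nat_lit 5) (nat_lit 204) (nat_lit 5) (nat_lit 205) (nat_lit 5) (nat_lit 336) (nat_lit 330) (nat_lit 114)) (XT.lf (nat_lit 76) (nat_lit 13642827395) (nat_lit 0) (nat_lit 4212333317) (nat_lit 1216) (nat_lit 18207835888) (nat_lit 190) (nat_lit 5) (nat_lit 189) (nat_lit 5) (nat_lit 205) (nat_lit 5) (nat_lit 337) (nat_lit 330) (nat_lit 113))))))) (XT.nd (nat_lit 1014)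 (nat_lit 3648) (nat_lit 0) (XT.nd (nat_lit 468) (nat_lit 1520) (nat_lit 0) (XT.nd (nat_lit 234) (nat_lit 0) (nat_lit 76) (XT.nd (nat_lit 78) (nat_lit 0) (nat_lit 0) (XT.lf (nat_lit 0) (nat_lit 19264284628) (nat_lit 1140) (nat_lit 5906886002) (nat_lit 1216) (nat_lit 11455058125) (nat_lit 190) (nat_lit 5) (nat_lit 205) (nat_lit 5) (nat_lit 206) (nat_lit 5) (nat_lit 338) (nat_lit 330) (nat_lit 112)) (XT.nd (nat_lit 78) (nat_lit 0) (nat_lit 76) (XT.lf (nat_lit 76) (nat_lit 11278911816) (nat_lit 0) (nat_lit 9585019686) (nat_lit 1216) (nat_lit 16337981433) (nat_lit 191) (nat_lit 5) (nat_lit 190) (nat_lit 5) (nat_lit 206) (nat_lit 5) (nat_lit 339) (nat_lit 330) (nat_lit 111)) (XT.lf (nat_lit 0) (nat_lit 22632158873) (nat_lit 1140) (nat_lit 8755801479) (nat_lit 1216) (nat_lit 6403292019) (nat_lit 191) (nat_lit 5) (nat_lit 206) (nat_lit 5) (nat_lit 207) (nat_lit 5) (nat_lit 340) (nat_lit 330) (nat_lit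 110)))) (XT.nd (nat_lit 78) (nat_lit 0) (nat_lit 76) (XT.lf (nat_lit 76) (nat_lit 9005969944) (nat_lit 0) (nat_lit 15627159755) (nat_lit 1216) (nat_lit 13759753783) (nat_lit 192) (nat_lit 5) (nat_lit 191) (nat_lit 5) (nat_lit 207) (nat_lit 5) (nat_lit 341) (nat_lit 330) (nat_lit 109)) (XT.nd (nat_lit 78) (nat_lit 0) (nat_lit 0) (XT.lf (nat_lit 0) (nat_lit 26787519753) (nat_lit 1140) (nat_lit 11537864548) (nat_lit 1216) (nat_lit 684379844) (nat_lit 192) (nat_lit 5) (nat_lit 207) (nat_lit 5) (nat_lit 208) (nat_lit 5) (nat_lit 342) (nat_lit 330) (nat_lit 108)) (XT.lf (nat_lit 76) (nat_lit 6823798890) (nat_lit 0) (nat_lit 22401380485) (nat_lit 1216) (nat_lit 10413414972) (nat_lit 193) (nat_lit 5) (nat_lit 192) (nat_lit 5) (nat_lit 208) (nat_lit 5) (nat_lit 343) (nat_lit 330) (nat_lit 107))))) (XT.nd (nat_lit 234) (nat_lit 1672) (nat_lit 0) (XT.nd (nat_lit 78) (nat_lit 0) (nat_lit 76) (XT.lf (nat_lit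 76) (nat_lit 25971550223) (nat_lit 0) (nat_lit 5879284041) (nat_lit 1216) (nat_lit 8432011412) (nat_lit 193) (nat_lit 5) (nat_lit 192) (nat_lit 5) (nat_lit 208) (nat_lit 5) (nat_lit 344) (nat_lit 330) (nat_lit 106)) (XT.nd (nat_lit 78) (nat_lit 0) (nat_lit 0) (XT.lf (nat_lit 76) (nat_lit 4731270668) (nat_lit 0) (nat_lit 29974944833) (nat_lit 1216) (nat_lit 6235682470) (nat_lit 194) (nat_lit 5) (nat_lit 193) (nat_lit 5) (nat_lit 209) (nat_lit 5) (nat_lit 345) (nat_lit 330) (nat_lit 105)) (XT.lf (nat_lit 76) (nat_lit 24577831562) (nat_lit 0) (nat_lit 13270023755) (nat_lit 1216) (nat_lit 3766850664) (nat_lit 194) (nat_lit 5) (nat_lit 193) (nat_lit 5) (nat_lit 209) (nat_lit 5) (nat_lit 346) (nat_lit 330) (nat_lit 104)))) (XT.nd (nat_lit 156) (nat_lit 608) (nat_lit 0) (XT.nd (nat_lit 78) (nat_lit 76) (nat_lit 0) (XT.lf (nat_lit 0) (nat_lit 2726159359) (nat_lit 1140) (nat_lit 38420115240) (nat_lit 1216)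 (nat_lit 1159549729) (nat_lit 179) (nat_lit 5) (nat_lit 194) (nat_lit 5) (nat_lit 195) (nat_lit 5) (nat_lit 347) (nat_lit 330) (nat_lit 103)) (XT.lf (nat_lit 0) (nat_lit 1799826046) (nat_lit 1216) (nat_lit 19730262153) (nat_lit 76) (nat_lit 21478040866) (nat_lit 178) (nat_lit 5) (nat_lit 194) (nat_lit 5) (nat_lit 179) (nat_lit 5) (nat_lit 348) (nat_lit 330) (nat_lit 102))) (XT.nd (nat_lit 78) (nat_lit 0) (nat_lit 0) (XT.lf (nat_lit 0) (nat_lit 715836642) (nat_lit 608) (nat_lit 4114269510) (nat_lit 684) (nat_lit 38900891340) (nat_lit 170) (nat_lit 5) (nat_lit 178) (nat_lit 5) (nat_lit 179) (nat_lit 5) (nat_lit 349) (nat_lit 330) (nat_lit 101)) (XT.lf (nat_lit 0) (nat_lit 8283968750) (nat_lit 684) (nat_lit 22425970505) (nat_lit 76) (nat_lit 13755634271) (nat_lit 170) (nat_lit 5) (nat_lit 179) (nat_lit 5) (nat_lit 171) (nat_lit 5) (nat_lit 350) (nat_lit 330) (nat_lit 100)))))) (XT.nd (nat_lit 546)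 (nat_lit 1976) (nat_lit 0) (XT.nd (nat_lit 234) (nat_lit 1064) (nat_lit 0) (XT.nd (nat_lit 78) (nat_lit 608) (nat_lit 0) (XT.lf (nat_lit 0) (nat_lit 11880803454) (nat_lit 684) (nat_lit 1261109169) (nat_lit 76) (nat_lit 32079095261) (nat_lit 170) (nat_lit 5) (nat_lit 179) (nat_lit 5) (nat_lit 171) (nat_lit 5) (nat_lit 351) (nat_lit 330) (nat_lit 99)) (XT.nd (nat_lit 78) (nat_lit 0) (nat_lit 0) (XT.lf (nat_lit 0) (nat_lit 15835159275) (nat_lit 684) (nat_lit 25096512571) (nat_lit 76) (nat_lit 5059946620) (nat_lit 162) (nat_lit 5) (nat_lit 171) (nat_lit 5) (nat_lit 163) (nat_lit 5) (nat_lit 352) (nat_lit 330) (nat_lit 98)) (XT.lf (nat_lit 0) (nat_lit 20049813734) (nat_lit 684) (nat_lit 3174612624) (nat_lit 76) (nat_lit 23556672599) (nat_lit 162) (nat_lit 5) (nat_lit 171) (nat_lit 5) (nat_lit 163) (nat_lit 5) (nat_lit 353) (nat_lit 330) (nat_lit 97)))) (XT.nd (nat_lit 156) (nat_lit 532) (nat_lit 0)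 (XT.nd (nat_lit 78) (nat_lit 0) (nat_lit 0) (XT.lf (nat_lit 0) (nat_lit 19789890957) (nat_lit 532) (nat_lit 4789976786) (nat_lit 608) (nat_lit 23008728901) (nat_lit 155) (nat_lit 5) (nat_lit 162) (nat_lit 5) (nat_lit 163) (nat_lit 5) (nat_lit 354) (nat_lit 330) (nat_lit 96)) (XT.lf (nat_lit 0) (nat_lit 29413426358) (nat_lit 608) (nat_lit 5048996645) (nat_lit 76) (nat_lit 13952869704) (nat_lit 155) (nat_lit 5) (nat_lit 163) (nat_lit 5) (nat_lit 156) (nat_lit 5) (nat_lit 355) (nat_lit 330) (nat_lit 95))) (XT.nd (nat_lit 78) (nat_lit 0) (nat_lit 0) (XT.lf (nat_lit 0) (nat_lit 18699455694) (nat_lit 532) (nat_lit 15918501580) (nat_lit 608) (nat_lit 14642054902) (nat_lit 148) (nat_lit 5) (nat_lit 155) (nat_lit 5) (nat_lit 156) (nat_lit 5) (nat_lit 356) (nat_lit 330) (nat_lit 94)) (XT.lf (nat_lit 0) (nat_lit 40059511635) (nat_lit 608) (nat_lit 6897013361) (nat_lit 76) (nat_lit 3171123055) (nat_lit 148)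 (nat_lit 5) (nat_lit 156) (nat_lit 5) (nat_lit 149) (nat_lit 5) (nat_lit 357) (nat_lit 330) (nat_lit 93))))) (XT.nd (nat_lit 234) (nat_lit 912) (nat_lit 0) (XT.nd (nat_lit 78) (nat_lit 608) (nat_lit 0) (XT.lf (nat_lit 0) (nat_lit 17662276755) (nat_lit 456) (nat_lit 28328272920) (nat_lit 532) (nat_lit 5020977619) (nat_lit 142) (nat_lit 5) (nat_lit 148) (nat_lit 5) (nat_lit 149) (nat_lit 5) (nat_lit 358) (nat_lit 330) (nat_lit 92)) (XT.nd (nat_lit 78) (nat_lit 532) (nat_lit 0) (XT.lf (nat_lit 0) (nat_lit 243323366) (nat_lit 532) (nat_lit 8823719930) (nat_lit 76) (nat_lit 42852753940) (nat_lit 141) (nat_lit 5) (nat_lit 148) (nat_lit 5) (nat_lit 142) (nat_lit 5) (nat_lit 359) (nat_lit 330) (nat_lit 91)) (XT.lf (nat_lit 0) (nat_lit 5829810241) (nat_lit 608) (nat_lit 36241859034) (nat_lit 76) (nat_lit 10774200701) (nat_lit 134) (nat_lit 5) (nat_lit 142) (nat_lit 5) (nat_lit 135) (nat_lit 5) (nat_lit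 360) (nat_lit 330) (nat_lit 90)))) (XT.nd (nat_lit 156) (nat_lit 456) (nat_lit 0) (XT.nd (nat_lit 78) (nat_lit 456) (nat_lit 0) (XT.lf (nat_lit 0) (nat_lit 11762559556) (nat_lit 608) (nat_lit 10913458729) (nat_lit 76) (nat_lit 31118347825) (nat_lit 134) (nat_lit 5) (nat_lit 142) (nat_lit 5) (nat_lit 135) (nat_lit 5) (nat_lit 361) (nat_lit 330) (nat_lit 89)) (XT.lf (nat_lit 0) (nat_lit 15475610186) (nat_lit 456) (nat_lit 2545384583) (nat_lit 532) (nat_lit 36745892469) (nat_lit 128) (nat_lit 5) (nat_lit 134) (nat_lit 5) (nat_lit 135) (nat_lit 5) (nat_lit 362) (nat_lit 330) (nat_lit 88))) (XT.nd (nat_lit 78) (nat_lit 456) (nat_lit 0) (XT.lf (nat_lit 0) (nat_lit 24752285046) (nat_lit 532) (nat_lit 13062336046) (nat_lit 76) (nat_lit 17945411023) (nat_lit 128) (nat_lit 5) (nat_lit 135) (nat_lit 5) (nat_lit 129) (nat_lit 5) (nat_lit 363) (nat_lit 330) (nat_lit 87)) (XT.lf (nat_lit 0) (nat_lit 14204294908)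 (nat_lit 456) (nat_lit 17641952512) (nat_lit 532) (nat_lit 24931903059) (nat_lit 122) (nat_lit 5) (nat_lit 128) (nat_lit 5) (nat_lit 129) (nat_lit 5) (nat_lit 364) (nat_lit 330) (nat_lit 86))))))))
noncomputable def xc241 : XT := (XT.nd (nat_lit 38376) (nat_lit 0) (nat_lit 4560) (XT.nd (nat_lit 1014) (nat_lit 1292) (nat_lit 0) (XT.nd (nat_lit 468) (nat_lit 1140) (nat_lit 0) (XT.nd (nat_lit 234) (nat_lit 836) (nat_lit 0) (XT.nd (nat_lit 78) (nat_lit 380) (nat_lit 0) (XT.lf (nat_lit 0) (nat_lit 39315390919) (nat_lit 532) (nat_lit 15298786996) (nat_lit 76) (nat_lit 3207764721) (nat_lit 122) (nat_lit 5) (nat_lit 129) (nat_lit 5) (nat_lit 123) (nat_lit 5) (nat_lit 365) (nat_lit 330) (nat_lit 85)) (XT.nd (nat_lit 78) (nat_lit 0) (nat_lit 0) (XT.lf (nat_lit 0) (nat_lit 12869860835) (nat_lit 380) (nat_lit 34436170685) (nat_lit 456) (nat_lit 11582095430) (nat_lit 117) (nat_lit 5) (nat_lit 122) (nat_lit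 5) (nat_lit 123) (nat_lit 5) (nat_lit 366) (nat_lit 330) (nat_lit 84)) (XT.lf (nat_lit 0) (nat_lit 42196052045) (nat_lit 380) (nat_lit 13493881295) (nat_lit 456) (nat_lit 4291758238) (nat_lit 117) (nat_lit 5) (nat_lit 122) (nat_lit 5) (nat_lit 123) (nat_lit 5) (nat_lit 367) (nat_lit 330) (nat_lit 83)))) (XT.nd (nat_lit 78) (nat_lit 380) (nat_lit 0) (XT.lf (nat_lit 0) (nat_lit 3343026488) (nat_lit 456) (nat_lit 49696826556) (nat_lit 76) (nat_lit 8061627739) (nat_lit 111) (nat_lit 5) (nat_lit 117) (nat_lit 5) (nat_lit 112) (nat_lit 5) (nat_lit 368) (nat_lit 330) (nat_lit 82)) (XT.nd (nat_lit 78) (nat_lit 380) (nat_lit 0) (XT.lf (nat_lit 0) (nat_lit 11434662082) (nat_lit 456) (nat_lit 20593232772) (nat_lit 76) (nat_lit 30216272966) (nat_lit 111) (nat_lit 5) (nat_lit 117) (nat_lit 5) (nat_lit 112) (nat_lit 5) (nat_lit 369) (nat_lit 330) (nat_lit 81)) (XT.lf (nat_lit 0) (nat_lit 9569100891) (nat_lit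 380) (nat_lit 10291042842) (nat_lit 456) (nat_lit 43558259753) (nat_lit 106) (nat_lit 5) (nat_lit 111) (nat_lit 5) (nat_lit 112) (nat_lit 5) (nat_lit 370) (nat_lit 330) (nat_lit 80))))) (XT.nd (nat_lit 234) (nat_lit 760) (nat_lit 0) (XT.nd (nat_lit 78) (nat_lit 380) (nat_lit 0) (XT.lf (nat_lit 0) (nat_lit 28863818886) (nat_lit 456) (nat_lit 23682643338) (nat_lit 76) (nat_lit 12071642029) (nat_lit 106) (nat_lit 5) (nat_lit 112) (nat_lit 5) (nat_lit 107) (nat_lit 5) (nat_lit 371) (nat_lit 330) (nat_lit 79)) (XT.nd (nat_lit 78) (nat_lit 0) (nat_lit 0) (XT.lf (nat_lit 0) (nat_lit 7431053303) (nat_lit 380) (nat_lit 30879026079) (nat_lit 456) (nat_lit 27538543283) (nat_lit 101) (nat_lit 5) (nat_lit 106) (nat_lit 5) (nat_lit 107) (nat_lit 5) (nat_lit 372) (nat_lit 330) (nat_lit 78)) (XT.lf (nat_lit 0) (nat_lit 39962564884) (nat_lit 380) (nat_lit 8315477267) (nat_lit 456) (nat_lit 18830865895) (nat_lit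 101) (nat_lit 5) (nat_lit 106) (nat_lit 5) (nat_lit 107) (nat_lit 5) (nat_lit 373) (nat_lit 330) (nat_lit 77)))) (XT.nd (nat_lit 156) (nat_lit 380) (nat_lit 0) (XT.nd (nat_lit 78) (nat_lit 76) (nat_lit 0) (XT.lf (nat_lit 0) (nat_lit 5016380668) (nat_lit 304) (nat_lit 53719539979) (nat_lit 380) (nat_lit 9665355860) (nat_lit 97) (nat_lit 5) (nat_lit 101) (nat_lit 5) (nat_lit 102) (nat_lit 5) (nat_lit 374) (nat_lit 330) (nat_lit 76)) (XT.lf (nat_lit 0) (nat_lit 137871289) (nat_lit 380) (nat_lit 31107681764) (nat_lit 76) (nat_lit 38476177691) (nat_lit 96) (nat_lit 5) (nat_lit 101) (nat_lit 5) (nat_lit 97) (nat_lit 5) (nat_lit 375) (nat_lit 330) (nat_lit 75))) (XT.nd (nat_lit 78) (nat_lit 0) (nat_lit 0) (XT.lf (nat_lit 0) (nat_lit 2081740170) (nat_lit 380) (nat_lit 7978418641) (nat_lit 456) (nat_lit 61018192825) (nat_lit 91) (nat_lit 5) (nat_lit 96) (nat_lit 5) (nat_lit 97) (nat_lit 5) (nat_lit 376)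 (nat_lit 330) (nat_lit 74)) (XT.lf (nat_lit 0) (nat_lit 20750253155) (nat_lit 456) (nat_lit 35719555489) (nat_lit 76) (nat_lit 15991759097) (nat_lit 91) (nat_lit 5) (nat_lit 97) (nat_lit 5) (nat_lit 92) (nat_lit 5) (nat_lit 377) (nat_lit 330) (nat_lit 73)))))) (XT.nd (nat_lit 468) (nat_lit 304) (nat_lit 0) (XT.nd (nat_lit 234) (nat_lit 684) (nat_lit 0) (XT.nd (nat_lit 78) (nat_lit 304) (nat_lit 0) (XT.lf (nat_lit 0) (nat_lit 31839294295) (nat_lit 456) (nat_lit 1524197109) (nat_lit 76) (nat_lit 40520442319) (nat_lit 91) (nat_lit 5) (nat_lit 97) (nat_lit 5) (nat_lit 92) (nat_lit 5) (nat_lit 378) (nat_lit 330) (nat_lit 72)) (XT.nd (nat_lit 78) (nat_lit 0) (nat_lit 0) (XT.lf (nat_lit 0) (nat_lit 34366653751) (nat_lit 304) (nat_lit 9223977792) (nat_lit 380) (nat_lit 31748451085) (nat_lit 87) (nat_lit 5) (nat_lit 91) (nat_lit 5) (nat_lit 92) (nat_lit 5) (nat_lit 379) (nat_lit 330) (nat_lit 71)) (XT.lf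 (nat_lit 0) (nat_lit 55859672189) (nat_lit 380) (nat_lit 5623436017) (nat_lit 76) (nat_lit 15349823568) (nat_lit 87) (nat_lit 5) (nat_lit 92) (nat_lit 5) (nat_lit 88) (nat_lit 5) (nat_lit 380) (nat_lit 330) (nat_lit 70)))) (XT.nd (nat_lit 78) (nat_lit 380) (nat_lit 0) (XT.lf (nat_lit 0) (nat_lit 31304599110) (nat_lit 304) (nat_lit 37583732276) (nat_lit 380) (nat_lit 9471519238) (nat_lit 83) (nat_lit 5) (nat_lit 87) (nat_lit 5) (nat_lit 88) (nat_lit 5) (nat_lit 381) (nat_lit 330) (nat_lit 69)) (XT.nd (nat_lit 78) (nat_lit 304) (nat_lit 0) (XT.lf (nat_lit 0) (nat_lit 2385576669) (nat_lit 380) (nat_lit 10499489517) (nat_lit 76) (nat_lit 67045126887) (nat_lit 82) (nat_lit 5) (nat_lit 87) (nat_lit 5) (nat_lit 83) (nat_lit 5) (nat_lit 382) (nat_lit 330) (nat_lit 68)) (XT.lf (nat_lit 0) (nat_lit 14796854325) (nat_lit 380) (nat_lit 54064393011) (nat_lit 76) (nat_lit 12671920619) (nat_lit 78) (nat_lit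 5) (nat_lit 83) (nat_lit 5) (nat_lit 79) (nat_lit 5) (nat_lit 383) (nat_lit 330) (nat_lit 67))))) (XT.nd (nat_lit 36582) (nat_lit 0) (nat_lit 8588) (XT.nd (nat_lit 78) (nat_lit 304) (nat_lit 0) (XT.lf (nat_lit 0) (nat_lit 27814453089) (nat_lit 380) (nat_lit 16519311226) (nat_lit 76) (nat_lit 38843448866) (nat_lit 78) (nat_lit 5) (nat_lit 83) (nat_lit 5) (nat_lit 79) (nat_lit 5) (nat_lit 384) (nat_lit 330) (nat_lit 66)) (XT.nd (nat_lit 36426) (nat_lit 0) (nat_lit 8588) (XT.lf (nat_lit 0) (nat_lit 22592051233) (nat_lit 304) (nat_lit 18847050464) (nat_lit 380) (nat_lit 43424982973) (nat_lit 74) (nat_lit 5) (nat_lit 78) (nat_lit 5) (nat_lit 79) (nat_lit 5) (nat_lit 385) (nat_lit 330) (nat_lit 65)) (XT.lf (nat_lit 0) (nat_lit 3266388557) (nat_lit 0) (nat_lit 3266388557) (nat_lit 1140) (nat_lit 10176679049) (nat_lit 187) (nat_lit 5) (nat_lit 187) (nat_lit 3) (nat_lit 202) (nat_lit 3) (nat_lit 331) (nat_lit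 331) (nat_lit 118)))) (XT.nd (nat_lit 156) (nat_lit 0) (nat_lit 76) (XT.nd (nat_lit 78) (nat_lit 0) (nat_lit 0) (XT.lf (nat_lit 0) (nat_lit 13400398879) (nat_lit 1140) (nat_lit 12034920689) (nat_lit 1216) (nat_lit 8480635249) (nat_lit 187) (nat_lit 5) (nat_lit 202) (nat_lit 3) (nat_lit 203) (nat_lit 5) (nat_lit 332) (nat_lit 331) (nat_lit 117)) (XT.lf (nat_lit 76) (nat_lit 3259589760) (nat_lit 0) (nat_lit 10579549179) (nat_lit 1216) (nat_lit 20585957082) (nat_lit 188) (nat_lit 5) (nat_lit 187) (nat_lit 5) (nat_lit 203) (nat_lit 5) (nat_lit 333) (nat_lit 331) (nat_lit 116))) (XT.nd (nat_lit 78) (nat_lit 0) (nat_lit 0) (XT.lf (nat_lit 0) (nat_lit 14457060377) (nat_lit 1140) (nat_lit 15734048862) (nat_lit 1216) (nat_lit 4753424502) (nat_lit 188) (nat_lit 5) (nat_lit 203) (nat_lit 5) (nat_lit 204) (nat_lit 5) (nat_lit 334) (nat_lit 331) (nat_lit 115)) (XT.lf (nat_lit 76) (nat_lit 55493060) (nat_lit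 0) (nat_lit 15141266171) (nat_lit 1216) (nat_lit 20279700940) (nat_lit 189) (nat_lit 5) (nat_lit 188) (nat_lit 5) (nat_lit 204) (nat_lit 5) (nat_lit 335) (nat_lit 331) (nat_lit 114))))))) (XT.nd (nat_lit 1014) (nat_lit 3420) (nat_lit 0) (XT.nd (nat_lit 468) (nat_lit 760) (nat_lit 0) (XT.nd (nat_lit 234) (nat_lit 0) (nat_lit 76) (XT.nd (nat_lit 78) (nat_lit 0) (nat_lit 0) (XT.lf (nat_lit 0) (nat_lit 16120580655) (nat_lit 1140) (nat_lit 19384611067) (nat_lit 1216) (nat_lit 514297415) (nat_lit 189) (nat_lit 5) (nat_lit 204) (nat_lit 5) (nat_lit 205) (nat_lit 5) (nat_lit 336) (nat_lit 331) (nat_lit 113)) (XT.nd (nat_lit 78) (nat_lit 0) (nat_lit 0) (XT.lf (nat_lit 0) (nat_lit 17220102313) (nat_lit 1140) (nat_lit 3018294029) (nat_lit 1216) (nat_lit 16335975675) (nat_lit 189) (nat_lit 5) (nat_lit 204) (nat_lit 5) (nat_lit 205) (nat_lit 5) (nat_lit 337) (nat_lit 331) (nat_lit 112)) (XT.lf (nat_lit 76)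 (nat_lit 14113231765) (nat_lit 0) (nat_lit 4373171092) (nat_lit 1216) (nat_lit 18655487268) (nat_lit 190) (nat_lit 5) (nat_lit 189) (nat_lit 5) (nat_lit 205) (nat_lit 5) (nat_lit 338) (nat_lit 331) (nat_lit 111)))) (XT.nd (nat_lit 78) (nat_lit 0) (nat_lit 0) (XT.lf (nat_lit 0) (nat_lit 19934694719) (nat_lit 1140) (nat_lit 6021522440) (nat_lit 1216) (nat_lit 11765899010) (nat_lit 190) (nat_lit 5) (nat_lit 205) (nat_lit 5) (nat_lit 206) (nat_lit 5) (nat_lit 339) (nat_lit 331) (nat_lit 110)) (XT.nd (nat_lit 78) (nat_lit 0) (nat_lit 76) (XT.lf (nat_lit 76) (nat_lit 11679235880) (nat_lit 0) (nat_lit 9900997047) (nat_lit 1216) (nat_lit 16734904529) (nat_lit 191) (nat_lit 5) (nat_lit 190) (nat_lit 5) (nat_lit 206) (nat_lit 5) (nat_lit 340) (nat_lit 331) (nat_lit 109)) (XT.lf (nat_lit 0) (nat_lit 23398609294) (nat_lit 1140) (nat_lit 8955307725) (nat_lit 1216) (nat_lit 6568330526) (nat_lit 191) (nat_lit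 5) (nat_lit 206) (nat_lit 5) (nat_lit 207) (nat_lit 5) (nat_lit 341) (nat_lit 331) (nat_lit 108))))) (XT.nd (nat_lit 234) (nat_lit 912) (nat_lit 0) (XT.nd (nat_lit 78) (nat_lit 0) (nat_lit 76) (XT.lf (nat_lit 76) (nat_lit 9338697548) (nat_lit 0) (nat_lit 16118964826) (nat_lit 1216) (nat_lit 14084327054) (nat_lit 192) (nat_lit 5) (nat_lit 191) (nat_lit 5) (nat_lit 207) (nat_lit 5) (nat_lit 342) (nat_lit 331) (nat_lit 107)) (XT.nd (nat_lit 78) (nat_lit 0) (nat_lit 0) (XT.lf (nat_lit 0) (nat_lit 27673978149) (nat_lit 1140) (nat_lit 11820456735) (nat_lit 1216) (nat_lit 683026138) (nat_lit 192) (nat_lit 5) (nat_lit 207) (nat_lit 5) (nat_lit 208) (nat_lit 5) (nat_lit 343) (nat_lit 331) (nat_lit 106)) (XT.lf (nat_lit 76) (nat_lit 7091433628) (nat_lit 0) (nat_lit 23091526158) (nat_lit 1216) (nat_lit 10642253811) (nat_lit 193) (nat_lit 5) (nat_lit 192) (nat_lit 5) (nat_lit 208) (nat_lit 5) (nat_lit 344)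 (nat_lit 331) (nat_lit 105)))) (XT.nd (nat_lit 156) (nat_lit 988) (nat_lit 0) (XT.nd (nat_lit 78) (nat_lit 0) (nat_lit 76) (XT.lf (nat_lit 76) (nat_lit 26811784857) (nat_lit 0) (nat_lit 6073239512) (nat_lit 1216) (nat_lit 8603842036) (nat_lit 193) (nat_lit 5) (nat_lit 192) (nat_lit 5) (nat_lit 208) (nat_lit 5) (nat_lit 345) (nat_lit 331) (nat_lit 104)) (XT.lf (nat_lit 76) (nat_lit 4936305793) (nat_lit 0) (nat_lit 30887912522) (nat_lit 1216) (nat_lit 6343530465) (nat_lit 194) (nat_lit 5) (nat_lit 193) (nat_lit 5) (nat_lit 209) (nat_lit 5) (nat_lit 346) (nat_lit 331) (nat_lit 103))) (XT.nd (nat_lit 78) (nat_lit 1064) (nat_lit 0) (XT.lf (nat_lit 76) (nat_lit 25376425738) (nat_lit 0) (nat_lit 13681444219) (nat_lit 1216) (nat_lit 3802941156) (nat_lit 194) (nat_lit 5) (nat_lit 193) (nat_lit 5) (nat_lit 209) (nat_lit 5) (nat_lit 347) (nat_lit 331) (nat_lit 102)) (XT.lf (nat_lit 0) (nat_lit 2871042716)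 (nat_lit 1140) (nat_lit 39582509132) (nat_lit 1216) (nat_lit 1119164735) (nat_lit 179) (nat_lit 5) (nat_lit 194) (nat_lit 5) (nat_lit 195) (nat_lit 5) (nat_lit 348) (nat_lit 331) (nat_lit 101)))))) (XT.nd (nat_lit 546) (nat_lit 1596) (nat_lit 0) (XT.nd (nat_lit 234) (nat_lit 1140) (nat_lit 0) (XT.nd (nat_lit 78) (nat_lit 608) (nat_lit 0) (XT.lf (nat_lit 0) (nat_lit 1925378710) (nat_lit 1216) (nat_lit 20259394817) (nat_lit 76) (nat_lit 22111362369) (nat_lit 178) (nat_lit 5) (nat_lit 194) (nat_lit 5) (nat_lit 179) (nat_lit 5) (nat_lit 349) (nat_lit 331) (nat_lit 100)) (XT.nd (nat_lit 78) (nat_lit 0) (nat_lit 0) (XT.lf (nat_lit 0) (nat_lit 799471499) (nat_lit 608) (nat_lit 4245609028) (nat_lit 684) (nat_lit 39995657080) (nat_lit 170) (nat_lit 5) (nat_lit 178) (nat_lit 5) (nat_lit 179) (nat_lit 5) (nat_lit 350) (nat_lit 331) (nat_lit 99)) (XT.lf (nat_lit 0) (nat_lit 8600444260) (nat_lit 684) (nat_lit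 23036200477) (nat_lit 76) (nat_lit 14160772181) (nat_lit 170) (nat_lit 5) (nat_lit 179) (nat_lit 5) (nat_lit 171) (nat_lit 5) (nat_lit 351) (nat_lit 331) (nat_lit 98)))) (XT.nd (nat_lit 156) (nat_lit 532) (nat_lit 0) (XT.nd (nat_lit 78) (nat_lit 608) (nat_lit 0) (XT.lf (nat_lit 0) (nat_lit 12303204691) (nat_lit 684) (nat_lit 1238215121) (nat_lit 76) (nat_lit 33034156353) (nat_lit 170) (nat_lit 5) (nat_lit 179) (nat_lit 5) (nat_lit 171) (nat_lit 5) (nat_lit 352) (nat_lit 331) (nat_lit 97)) (XT.lf (nat_lit 0) (nat_lit 16374804276) (nat_lit 684) (nat_lit 25787213480) (nat_lit 76) (nat_lit 5207331323) (nat_lit 162) (nat_lit 5) (nat_lit 171) (nat_lit 5) (nat_lit 163) (nat_lit 5) (nat_lit 353) (nat_lit 331) (nat_lit 96))) (XT.nd (nat_lit 78) (nat_lit 532) (nat_lit 0) (XT.lf (nat_lit 0) (nat_lit 20714017100) (nat_lit 684) (nat_lit 3209468023) (nat_lit 76) (nat_lit 24259087635) (nat_lit 162) (nat_lit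 5) (nat_lit 171) (nat_lit 5) (nat_lit 163) (nat_lit 5) (nat_lit 354) (nat_lit 331) (nat_lit 95)) (XT.lf (nat_lit 0) (nat_lit 20443378675) (nat_lit 532) (nat_lit 4935342328) (nat_lit 608) (nat_lit 23635614195) (nat_lit 155) (nat_lit 5) (nat_lit 162) (nat_lit 5) (nat_lit 163) (nat_lit 5) (nat_lit 355) (nat_lit 331) (nat_lit 94))))) (XT.nd (nat_lit 234) (nat_lit 1064) (nat_lit 0) (XT.nd (nat_lit 78) (nat_lit 532) (nat_lit 0) (XT.lf (nat_lit 0) (nat_lit 30355480809) (nat_lit 608) (nat_lit 5140538047) (nat_lit 76) (nat_lit 14369869656) (nat_lit 155) (nat_lit 5) (nat_lit 163) (nat_lit 5) (nat_lit 156) (nat_lit 5) (nat_lit 356) (nat_lit 331) (nat_lit 93)) (XT.nd (nat_lit 78) (nat_lit 0) (nat_lit 0) (XT.lf (nat_lit 0) (nat_lit 19319780328) (nat_lit 532) (nat_lit 16395200320) (nat_lit 608) (nat_lit 15021006066) (nat_lit 148) (nat_lit 5) (nat_lit 155) (nat_lit 5) (nat_lit 156) (nat_lit 5) (nat_lit 357)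 (nat_lit 331) (nat_lit 92)) (XT.lf (nat_lit 0) (nat_lit 41318086194) (nat_lit 608) (nat_lit 7044546521) (nat_lit 76) (nat_lit 3267071890) (nat_lit 148) (nat_lit 5) (nat_lit 156) (nat_lit 5) (nat_lit 149) (nat_lit 5) (nat_lit 358) (nat_lit 331) (nat_lit 91)))) (XT.nd (nat_lit 156) (nat_lit 532) (nat_lit 0) (XT.nd (nat_lit 78) (nat_lit 76) (nat_lit 0) (XT.lf (nat_lit 0) (nat_lit 18250940170) (nat_lit 456) (nat_lit 29175026326) (nat_lit 532) (nat_lit 5114168413) (nat_lit 142) (nat_lit 5) (nat_lit 148) (nat_lit 5) (nat_lit 149) (nat_lit 5) (nat_lit 359) (nat_lit 331) (nat_lit 90)) (XT.lf (nat_lit 0) (nat_lit 305300449) (nat_lit 532) (nat_lit 9030197370) (nat_lit 76) (nat_lit 44140189675) (nat_lit 141) (nat_lit 5) (nat_lit 148) (nat_lit 5) (nat_lit 142) (nat_lit 5) (nat_lit 360) (nat_lit 331) (nat_lit 89))) (XT.nd (nat_lit 78) (nat_lit 0) (nat_lit 0) (XT.lf (nat_lit 0) (nat_lit 6058382361) (nat_lit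 608) (nat_lit 37269819585) (nat_lit 76) (nat_lit 11101372301) (nat_lit 134) (nat_lit 5) (nat_lit 142) (nat_lit 5) (nat_lit 135) (nat_lit 5) (nat_lit 361) (nat_lit 331) (nat_lit 88)) (XT.lf (nat_lit 0) (nat_lit 12167550724) (nat_lit 608) (nat_lit 11183294316) (nat_lit 76) (nat_lit 32055728919) (nat_lit 134) (nat_lit 5) (nat_lit 142) (nat_lit 5) (nat_lit 135) (nat_lit 5) (nat_lit 362) (nat_lit 331) (nat_lit 87))))))))
noncomputable def xc242 : XT := (XT.nd (nat_lit 38532) (nat_lit 0) (nat_lit 4256) (XT.nd (nat_lit 1014) (nat_lit 1444) (nat_lit 0) (XT.nd (nat_lit 468) (nat_lit 1520) (nat_lit 0) (XT.nd (nat_lit 234) (nat_lit 380) (nat_lit 0) (XT.nd (nat_lit 78) (nat_lit 456) (nat_lit 0) (XT.lf (nat_lit 0) (nat_lit 15996882272) (nat_lit 456) (nat_lit 2615886782) (nat_lit 532) (nat_lit 37795532504) (nat_lit 128) (nat_lit 5) (nat_lit 134) (nat_lit 5) (nat_lit 135) (nat_lit 5) (nat_lit 363) (nat_lit 331)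 (nat_lit 86)) (XT.nd (nat_lit 78) (nat_lit 456) (nat_lit 0) (XT.lf (nat_lit 0) (nat_lit 25544563078) (nat_lit 532) (nat_lit 13397371415) (nat_lit 76) (nat_lit 18489351026) (nat_lit 128) (nat_lit 5) (nat_lit 135) (nat_lit 5) (nat_lit 129) (nat_lit 5) (nat_lit 364) (nat_lit 331) (nat_lit 85)) (XT.lf (nat_lit 0) (nat_lit 14686701265) (nat_lit 456) (nat_lit 18163736184) (nat_lit 532) (nat_lit 25629538831) (nat_lit 122) (nat_lit 5) (nat_lit 128) (nat_lit 5) (nat_lit 129) (nat_lit 5) (nat_lit 365) (nat_lit 331) (nat_lit 84)))) (XT.nd (nat_lit 78) (nat_lit 380) (nat_lit 0) (XT.lf (nat_lit 0) (nat_lit 40542303577) (nat_lit 532) (nat_lit 15701707528) (nat_lit 76) (nat_lit 3311113237) (nat_lit 122) (nat_lit 5) (nat_lit 129) (nat_lit 5) (nat_lit 123) (nat_lit 5) (nat_lit 366) (nat_lit 331) (nat_lit 83)) (XT.nd (nat_lit 78) (nat_lit 0) (nat_lit 0) (XT.lf (nat_lit 0) (nat_lit 13311450296) (nat_lit 380) (nat_lit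 35460364473) (nat_lit 456) (nat_lit 11881506420) (nat_lit 117) (nat_lit 5) (nat_lit 122) (nat_lit 5) (nat_lit 123) (nat_lit 5) (nat_lit 367) (nat_lit 331) (nat_lit 82)) (XT.lf (nat_lit 0) (nat_lit 43515810923) (nat_lit 380) (nat_lit 13890065372) (nat_lit 456) (nat_lit 4373858682) (nat_lit 117) (nat_lit 5) (nat_lit 122) (nat_lit 5) (nat_lit 123) (nat_lit 5) (nat_lit 368) (nat_lit 331) (nat_lit 81))))) (XT.nd (nat_lit 234) (nat_lit 684) (nat_lit 0) (XT.nd (nat_lit 78) (nat_lit 380) (nat_lit 0) (XT.lf (nat_lit 0) (nat_lit 3488338935) (nat_lit 456) (nat_lit 51132127712) (nat_lit 76) (nat_lit 8312660781) (nat_lit 111) (nat_lit 5) (nat_lit 117) (nat_lit 5) (nat_lit 112) (nat_lit 5) (nat_lit 369) (nat_lit 331) (nat_lit 80)) (XT.nd (nat_lit 78) (nat_lit 380) (nat_lit 0) (XT.lf (nat_lit 0) (nat_lit 11821412287) (nat_lit 456) (nat_lit 21157045638) (nat_lit 76) (nat_lit 31131677864) (nat_lit 111) (nat_lit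 5) (nat_lit 117) (nat_lit 5) (nat_lit 112) (nat_lit 5) (nat_lit 370) (nat_lit 331) (nat_lit 79)) (XT.lf (nat_lit 0) (nat_lit 9909628779) (nat_lit 380) (nat_lit 10589270332) (nat_lit 456) (nat_lit 44820723524) (nat_lit 106) (nat_lit 5) (nat_lit 111) (nat_lit 5) (nat_lit 112) (nat_lit 5) (nat_lit 371) (nat_lit 331) (nat_lit 78)))) (XT.nd (nat_lit 156) (nat_lit 304) (nat_lit 0) (XT.nd (nat_lit 78) (nat_lit 380) (nat_lit 0) (XT.lf (nat_lit 0) (nat_lit 29771531545) (nat_lit 456) (nat_lit 24340028611) (nat_lit 76) (nat_lit 12443790152) (nat_lit 106) (nat_lit 5) (nat_lit 112) (nat_lit 5) (nat_lit 107) (nat_lit 5) (nat_lit 372) (nat_lit 331) (nat_lit 77)) (XT.lf (nat_lit 0) (nat_lit 7706558400) (nat_lit 380) (nat_lit 31793909404) (nat_lit 456) (nat_lit 28322339086) (nat_lit 101) (nat_lit 5) (nat_lit 106) (nat_lit 5) (nat_lit 107) (nat_lit 5) (nat_lit 373) (nat_lit 331) (nat_lit 76))) (XT.nd (nat_lit 78)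 (nat_lit 304) (nat_lit 0) (XT.lf (nat_lit 0) (nat_lit 41212484062) (nat_lit 380) (nat_lit 8553788714) (nat_lit 456) (nat_lit 19354665177) (nat_lit 101) (nat_lit 5) (nat_lit 106) (nat_lit 5) (nat_lit 107) (nat_lit 5) (nat_lit 374) (nat_lit 331) (nat_lit 75)) (XT.lf (nat_lit 0) (nat_lit 5218532952) (nat_lit 304) (nat_lit 55318793530) (nat_lit 380) (nat_lit 9914769004) (nat_lit 97) (nat_lit 5) (nat_lit 101) (nat_lit 5) (nat_lit 102) (nat_lit 5) (nat_lit 375) (nat_lit 331) (nat_lit 74)))))) (XT.nd (nat_lit 468) (nat_lit 684) (nat_lit 0) (XT.nd (nat_lit 234) (nat_lit 304) (nat_lit 0) (XT.nd (nat_lit 78) (nat_lit 380) (nat_lit 0) (XT.lf (nat_lit 0) (nat_lit 180605780) (nat_lit 380) (nat_lit 31989950651) (nat_lit 76) (nat_lit 39641631080) (nat_lit 96) (nat_lit 5) (nat_lit 101) (nat_lit 5) (nat_lit 97) (nat_lit 5) (nat_lit 376) (nat_lit 331) (nat_lit 73)) (XT.nd (nat_lit 78) (nat_lit 0) (nat_lit 0) (XT.lf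 (nat_lit 0) (nat_lit 2194654319) (nat_lit 380) (nat_lit 8205268457) (nat_lit 456) (nat_lit 62809604512) (nat_lit 91) (nat_lit 5) (nat_lit 96) (nat_lit 5) (nat_lit 97) (nat_lit 5) (nat_lit 377) (nat_lit 331) (nat_lit 72)) (XT.lf (nat_lit 0) (nat_lit 21409731026) (nat_lit 456) (nat_lit 36741125983) (nat_lit 76) (nat_lit 16483413588) (nat_lit 91) (nat_lit 5) (nat_lit 97) (nat_lit 5) (nat_lit 92) (nat_lit 5) (nat_lit 378) (nat_lit 331) (nat_lit 71)))) (XT.nd (nat_lit 78) (nat_lit 304) (nat_lit 0) (XT.lf (nat_lit 0) (nat_lit 32830366596) (nat_lit 456) (nat_lit 1521363633) (nat_lit 76) (nat_lit 41747610654) (nat_lit 91) (nat_lit 5) (nat_lit 97) (nat_lit 5) (nat_lit 92) (nat_lit 5) (nat_lit 379) (nat_lit 331) (nat_lit 70)) (XT.nd (nat_lit 78) (nat_lit 0) (nat_lit 0) (XT.lf (nat_lit 0) (nat_lit 35445736680) (nat_lit 304) (nat_lit 9487924046) (nat_lit 380) (nat_lit 32664502018) (nat_lit 87) (nat_lit 5)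 (nat_lit 91) (nat_lit 5) (nat_lit 92) (nat_lit 5) (nat_lit 380) (nat_lit 331) (nat_lit 69)) (XT.lf (nat_lit 0) (nat_lit 57569863344) (nat_lit 380) (nat_lit 5744514926) (nat_lit 76) (nat_lit 15822477334) (nat_lit 87) (nat_lit 5) (nat_lit 92) (nat_lit 5) (nat_lit 88) (nat_lit 5) (nat_lit 381) (nat_lit 331) (nat_lit 68))))) (XT.nd (nat_lit 36738) (nat_lit 0) (nat_lit 8284) (XT.nd (nat_lit 78) (nat_lit 380) (nat_lit 0) (XT.lf (nat_lit 0) (nat_lit 32290894351) (nat_lit 304) (nat_lit 38697939300) (nat_lit 380) (nat_lit 9720765763) (nat_lit 83) (nat_lit 5) (nat_lit 87) (nat_lit 5) (nat_lit 88) (nat_lit 5) (nat_lit 382) (nat_lit 331) (nat_lit 67)) (XT.nd (nat_lit 78) (nat_lit 304) (nat_lit 0) (XT.lf (nat_lit 0) (nat_lit 2490365372) (nat_lit 380) (nat_lit 10767999906) (nat_lit 76) (nat_lit 69068707574) (nat_lit 82) (nat_lit 5) (nat_lit 87) (nat_lit 5) (nat_lit 83) (nat_lit 5) (nat_lit 383) (nat_lit 331)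 (nat_lit 66)) (XT.lf (nat_lit 0) (nat_lit 15273584169) (nat_lit 380) (nat_lit 55639424801) (nat_lit 76) (nat_lit 13065140784) (nat_lit 78) (nat_lit 5) (nat_lit 83) (nat_lit 5) (nat_lit 79) (nat_lit 5) (nat_lit 384) (nat_lit 331) (nat_lit 65)))) (XT.nd (nat_lit 156) (nat_lit 0) (nat_lit 0) (XT.nd (nat_lit 78) (nat_lit 0) (nat_lit 0) (XT.lf (nat_lit 0) (nat_lit 3391971343) (nat_lit 0) (nat_lit 3391971343) (nat_lit 1140) (nat_lit 10425067063) (nat_lit 187) (nat_lit 5) (nat_lit 187) (nat_lit 3) (nat_lit 202) (nat_lit 3) (nat_lit 332) (nat_lit 332) (nat_lit 116)) (XT.lf (nat_lit 0) (nat_lit 13909045867) (nat_lit 1140) (nat_lit 12338518892) (nat_lit 1216) (nat_lit 8682524739) (nat_lit 187) (nat_lit 5) (nat_lit 202) (nat_lit 3) (nat_lit 203) (nat_lit 5) (nat_lit 333) (nat_lit 332) (nat_lit 115))) (XT.nd (nat_lit 78) (nat_lit 0) (nat_lit 76) (XT.lf (nat_lit 76) (nat_lit 3414263642) (nat_lit 0) (nat_lit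 10944125438) (nat_lit 1216) (nat_lit 21096196850) (nat_lit 188) (nat_lit 5) (nat_lit 187) (nat_lit 5) (nat_lit 203) (nat_lit 5) (nat_lit 334) (nat_lit 332) (nat_lit 114)) (XT.lf (nat_lit 0) (nat_lit 14991376417) (nat_lit 1140) (nat_lit 16147232680) (nat_lit 1216) (nat_lit 4851105935) (nat_lit 188) (nat_lit 5) (nat_lit 203) (nat_lit 5) (nat_lit 204) (nat_lit 5) (nat_lit 335) (nat_lit 332) (nat_lit 113))))))) (XT.nd (nat_lit 1014) (nat_lit 4104) (nat_lit 0) (XT.nd (nat_lit 468) (nat_lit 0) (nat_lit 228) (XT.nd (nat_lit 234) (nat_lit 0) (nat_lit 76) (XT.nd (nat_lit 78) (nat_lit 0) (nat_lit 76) (XT.lf (nat_lit 76) (nat_lit 115418660) (nat_lit 0) (nat_lit 15635477395) (nat_lit 1216) (nat_lit 20786778284) (nat_lit 189) (nat_lit 5) (nat_lit 188) (nat_lit 5) (nat_lit 204) (nat_lit 5) (nat_lit 336) (nat_lit 332) (nat_lit 112)) (XT.nd (nat_lit 78) (nat_lit 0) (nat_lit 0) (XT.lf (nat_lit 0) (nat_lit 16699197880)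 (nat_lit 1140) (nat_lit 19906222513) (nat_lit 1216) (nat_lit 491674671) (nat_lit 189) (nat_lit 5) (nat_lit 204) (nat_lit 5) (nat_lit 205) (nat_lit 5) (nat_lit 337) (nat_lit 332) (nat_lit 111)) (XT.lf (nat_lit 0) (nat_lit 17828938203) (nat_lit 1140) (nat_lit 3050661408) (nat_lit 1216) (nat_lit 16789111580) (nat_lit 189) (nat_lit 5) (nat_lit 204) (nat_lit 5) (nat_lit 205) (nat_lit 5) (nat_lit 338) (nat_lit 332) (nat_lit 110)))) (XT.nd (nat_lit 78) (nat_lit 0) (nat_lit 76) (XT.lf (nat_lit 76) (nat_lit 14594239754) (nat_lit 0) (nat_lit 4536855409) (nat_lit 1216) (nat_lit 19122227296) (nat_lit 190) (nat_lit 5) (nat_lit 189) (nat_lit 5) (nat_lit 205) (nat_lit 5) (nat_lit 339) (nat_lit 332) (nat_lit 109)) (XT.nd (nat_lit 78) (nat_lit 0) (nat_lit 0) (XT.lf (nat_lit 0) (nat_lit 20619908293) (nat_lit 1140) (nat_lit 6143189753) (nat_lit 1216) (nat_lit 12087948598) (nat_lit 190) (nat_lit 5) (nat_lit 205)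 (nat_lit 5) (nat_lit 206) (nat_lit 5) (nat_lit 340) (nat_lit 332) (nat_lit 108)) (XT.lf (nat_lit 76) (nat_lit 12088013098) (nat_lit 0) (nat_lit 10224821917) (nat_lit 1216) (nat_lit 17149086318) (nat_lit 191) (nat_lit 5) (nat_lit 190) (nat_lit 5) (nat_lit 206) (nat_lit 5) (nat_lit 341) (nat_lit 332) (nat_lit 107))))) (XT.nd (nat_lit 234) (nat_lit 0) (nat_lit 76) (XT.nd (nat_lit 78) (nat_lit 0) (nat_lit 0) (XT.lf (nat_lit 0) (nat_lit 24183031194) (nat_lit 1140) (nat_lit 9164425249) (nat_lit 1216) (nat_lit 6739873557) (nat_lit 191) (nat_lit 5) (nat_lit 206) (nat_lit 5) (nat_lit 207) (nat_lit 5) (nat_lit 342) (nat_lit 332) (nat_lit 106)) (XT.nd (nat_lit 78) (nat_lit 0) (nat_lit 76) (XT.lf (nat_lit 76) (nat_lit 9677816441) (nat_lit 0) (nat_lit 16624204312) (nat_lit 1216) (nat_lit 14423701674) (nat_lit 192) (nat_lit 5) (nat_lit 191) (nat_lit 5) (nat_lit 207) (nat_lit 5) (nat_lit 343) (nat_lit 332) (nat_lit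 105)) (XT.lf (nat_lit 0) (nat_lit 28582275354) (nat_lit 1140) (nat_lit 12115174359) (nat_lit 1216) (nat_lit 682888115) (nat_lit 192) (nat_lit 5) (nat_lit 207) (nat_lit 5) (nat_lit 208) (nat_lit 5) (nat_lit 344) (nat_lit 332) (nat_lit 104)))) (XT.nd (nat_lit 156) (nat_lit 0) (nat_lit 76) (XT.nd (nat_lit 78) (nat_lit 0) (nat_lit 0) (XT.lf (nat_lit 76) (nat_lit 7363485498) (nat_lit 0) (nat_lit 23801336943) (nat_lit 1216) (nat_lit 10882754709) (nat_lit 193) (nat_lit 5) (nat_lit 192) (nat_lit 5) (nat_lit 208) (nat_lit 5) (nat_lit 345) (nat_lit 332) (nat_lit 103)) (XT.lf (nat_lit 76) (nat_lit 27673719822) (nat_lit 0) (nat_lit 6272004659) (nat_lit 1216) (nat_lit 8785484757) (nat_lit 193) (nat_lit 5) (nat_lit 192) (nat_lit 5) (nat_lit 208) (nat_lit 5) (nat_lit 346) (nat_lit 332) (nat_lit 102))) (XT.nd (nat_lit 78) (nat_lit 0) (nat_lit 0) (XT.lf (nat_lit 76) (nat_lit 5143869946) (nat_lit 0) (nat_lit 31827481695)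 (nat_lit 1216) (nat_lit 6459161595) (nat_lit 194) (nat_lit 5) (nat_lit 193) (nat_lit 5) (nat_lit 209) (nat_lit 5) (nat_lit 347) (nat_lit 332) (nat_lit 101)) (XT.lf (nat_lit 76) (nat_lit 26195461209) (nat_lit 0) (nat_lit 14104442689) (nat_lit 1216) (nat_lit 3844529599) (nat_lit 194) (nat_lit 5) (nat_lit 193) (nat_lit 5) (nat_lit 209) (nat_lit 5) (nat_lit 348) (nat_lit 332) (nat_lit 100)))))) (XT.nd (nat_lit 546) (nat_lit 2128) (nat_lit 0) (XT.nd (nat_lit 234) (nat_lit 608) (nat_lit 0) (XT.nd (nat_lit 78) (nat_lit 684) (nat_lit 0) (XT.lf (nat_lit 0) (nat_lit 3016650457) (nat_lit 1140) (nat_lit 40779212829) (nat_lit 1216) (nat_lit 1081883342) (nat_lit 179) (nat_lit 5) (nat_lit 194) (nat_lit 5) (nat_lit 195) (nat_lit 5) (nat_lit 349) (nat_lit 332) (nat_lit 99)) (XT.nd (nat_lit 78) (nat_lit 608) (nat_lit 0) (XT.lf (nat_lit 0) (nat_lit 2050590239) (nat_lit 1216) (nat_lit 20808005014) (nat_lit 76) (nat_lit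 22764316093) (nat_lit 178) (nat_lit 5) (nat_lit 194) (nat_lit 5) (nat_lit 179) (nat_lit 5) (nat_lit 350) (nat_lit 332) (nat_lit 98)) (XT.lf (nat_lit 0) (nat_lit 882047177) (nat_lit 608) (nat_lit 4380434583) (nat_lit 684) (nat_lit 41127413869) (nat_lit 170) (nat_lit 5) (nat_lit 178) (nat_lit 5) (nat_lit 179) (nat_lit 5) (nat_lit 351) (nat_lit 332) (nat_lit 97)))) (XT.nd (nat_lit 156) (nat_lit 608) (nat_lit 0) (XT.nd (nat_lit 78) (nat_lit 0) (nat_lit 0) (XT.lf (nat_lit 0) (nat_lit 8922513057) (nat_lit 684) (nat_lit 23668327925) (nat_lit 76) (nat_lit 14578496545) (nat_lit 170) (nat_lit 5) (nat_lit 179) (nat_lit 5) (nat_lit 171) (nat_lit 5) (nat_lit 352) (nat_lit 332) (nat_lit 96)) (XT.lf (nat_lit 0) (nat_lit 12734490607) (nat_lit 684) (nat_lit 1218120248) (nat_lit 76) (nat_lit 34018289003) (nat_lit 170) (nat_lit 5) (nat_lit 179) (nat_lit 5) (nat_lit 171) (nat_lit 5) (nat_lit 353) (nat_lit 332) (nat_lit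 95))) (XT.nd (nat_lit 78) (nat_lit 0) (nat_lit 0) (XT.lf (nat_lit 0) (nat_lit 16926930884) (nat_lit 684) (nat_lit 26502205633) (nat_lit 76) (nat_lit 5359390932) (nat_lit 162) (nat_lit 5) (nat_lit 171) (nat_lit 5) (nat_lit 163) (nat_lit 5) (nat_lit 354) (nat_lit 332) (nat_lit 94)) (XT.lf (nat_lit 0) (nat_lit 21394546816) (nat_lit 684) (nat_lit 3248835315) (nat_lit 76) (nat_lit 24982821108) (nat_lit 162) (nat_lit 5) (nat_lit 171) (nat_lit 5) (nat_lit 163) (nat_lit 5) (nat_lit 355) (nat_lit 332) (nat_lit 93))))) (XT.nd (nat_lit 234) (nat_lit 1064) (nat_lit 0) (XT.nd (nat_lit 78) (nat_lit 532) (nat_lit 0) (XT.lf (nat_lit 0) (nat_lit 21113038777) (nat_lit 532) (nat_lit 5084973187) (nat_lit 608) (nat_lit 24284944122) (nat_lit 155) (nat_lit 5) (nat_lit 162) (nat_lit 5) (nat_lit 163) (nat_lit 5) (nat_lit 356) (nat_lit 332) (nat_lit 92)) (XT.nd (nat_lit 78) (nat_lit 532) (nat_lit 0) (XT.lf (nat_lit 0)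 (nat_lit 31322372645) (nat_lit 608) (nat_lit 5238265832) (nat_lit 76) (nat_lit 14799470657) (nat_lit 155) (nat_lit 5) (nat_lit 163) (nat_lit 5) (nat_lit 156) (nat_lit 5) (nat_lit 357) (nat_lit 332) (nat_lit 91)) (XT.lf (nat_lit 0) (nat_lit 19955308287) (nat_lit 532) (nat_lit 16886249178) (nat_lit 608) (nat_lit 15414787834) (nat_lit 148) (nat_lit 5) (nat_lit 155) (nat_lit 5) (nat_lit 156) (nat_lit 5) (nat_lit 358) (nat_lit 332) (nat_lit 90)))) (XT.nd (nat_lit 156) (nat_lit 608) (nat_lit 0) (XT.nd (nat_lit 78) (nat_lit 456) (nat_lit 0) (XT.lf (nat_lit 0) (nat_lit 42611158057) (nat_lit 608) (nat_lit 7199914171) (nat_lit 76) (nat_lit 3365852398) (nat_lit 148) (nat_lit 5) (nat_lit 156) (nat_lit 5) (nat_lit 149) (nat_lit 5) (nat_lit 359) (nat_lit 332) (nat_lit 89)) (XT.lf (nat_lit 0) (nat_lit 18853888407) (nat_lit 456) (nat_lit 30047359987) (nat_lit 532) (nat_lit 5213452137) (nat_lit 142) (nat_lit 5)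 (nat_lit 148) (nat_lit 5) (nat_lit 149) (nat_lit 5) (nat_lit 360) (nat_lit 332) (nat_lit 88))) (XT.nd (nat_lit 78) (nat_lit 532) (nat_lit 0) (XT.lf (nat_lit 0) (nat_lit 365998138) (nat_lit 532) (nat_lit 9246212012) (nat_lit 76) (nat_lit 45466142106) (nat_lit 141) (nat_lit 5) (nat_lit 148) (nat_lit 5) (nat_lit 142) (nat_lit 5) (nat_lit 361) (nat_lit 332) (nat_lit 87)) (XT.lf (nat_lit 0) (nat_lit 6290730318) (nat_lit 608) (nat_lit 38332022741) (nat_lit 76) (nat_lit 11438132557) (nat_lit 134) (nat_lit 5) (nat_lit 142) (nat_lit 5) (nat_lit 135) (nat_lit 5) (nat_lit 362) (nat_lit 332) (nat_lit 86))))))))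
noncomputable def xc243 : XT := (XT.nd (nat_lit 38766) (nat_lit 0) (nat_lit 3420) (XT.nd (nat_lit 1014) (nat_lit 1368) (nat_lit 0) (XT.nd (nat_lit 468) (nat_lit 1216) (nat_lit 0) (XT.nd (nat_lit 234) (nat_lit 836) (nat_lit 0) (XT.nd (nat_lit 78) (nat_lit 456) (nat_lit 0) (XT.lf (nat_lit 0) (nat_lit 12581700049) (nat_lit 608) (nat_lit 11464529620) (nat_lit 76) (nat_lit 33021011551) (nat_lit 134) (nat_lit 5) (nat_lit 142) (nat_lit 5) (nat_lit 135) (nat_lit 5) (nat_lit 363) (nat_lit 332) (nat_lit 85)) (XT.nd (nat_lit 78) (nat_lit 0) (nat_lit 0) (XT.lf (nat_lit 0) (nat_lit 16530520271) (nat_lit 456) (nat_lit 2688840396) (nat_lit 532) (nat_lit 38879689046) (nat_lit 128) (nat_lit 5) (nat_lit 134) (nat_lit 5) (nat_lit 135) (nat_lit 5) (nat_lit 364) (nat_lit 332) (nat_lit 84)) (XT.lf (nat_lit 0) (nat_lit 26357755924) (nat_lit 532) (nat_lit 13745720390) (nat_lit 76) (nat_lit 19049289048) (nat_lit 128)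 (nat_lit 5) (nat_lit 135) (nat_lit 5) (nat_lit 129) (nat_lit 5) (nat_lit 365) (nat_lit 332) (nat_lit 83)))) (XT.nd (nat_lit 78) (nat_lit 380) (nat_lit 0) (XT.lf (nat_lit 0) (nat_lit 15180349253) (nat_lit 456) (nat_lit 18701602456) (nat_lit 532) (nat_lit 26350992325) (nat_lit 122) (nat_lit 5) (nat_lit 128) (nat_lit 5) (nat_lit 129) (nat_lit 5) (nat_lit 366) (nat_lit 332) (nat_lit 82)) (XT.nd (nat_lit 78) (nat_lit 380) (nat_lit 0) (XT.lf (nat_lit 0) (nat_lit 41803299738) (nat_lit 532) (nat_lit 16119932778) (nat_lit 76) (nat_lit 3417153745) (nat_lit 122) (nat_lit 5) (nat_lit 129) (nat_lit 5) (nat_lit 123) (nat_lit 5) (nat_lit 367) (nat_lit 332) (nat_lit 81)) (XT.lf (nat_lit 0) (nat_lit 13763101879) (nat_lit 380) (nat_lit 36515794474) (nat_lit 456) (nat_lit 12192658114) (nat_lit 117) (nat_lit 5) (nat_lit 122) (nat_lit 5) (nat_lit 123) (nat_lit 5) (nat_lit 368) (nat_lit 332) (nat_lit 80))))) (XT.nd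 (nat_lit 234) (nat_lit 760) (nat_lit 0) (XT.nd (nat_lit 78) (nat_lit 456) (nat_lit 0) (XT.lf (nat_lit 0) (nat_lit 44872069788) (nat_lit 380) (nat_lit 14298630505) (nat_lit 456) (nat_lit 4461100172) (nat_lit 117) (nat_lit 5) (nat_lit 122) (nat_lit 5) (nat_lit 123) (nat_lit 5) (nat_lit 369) (nat_lit 332) (nat_lit 79)) (XT.nd (nat_lit 78) (nat_lit 0) (nat_lit 0) (XT.lf (nat_lit 0) (nat_lit 3635426328) (nat_lit 456) (nat_lit 52613679779) (nat_lit 76) (nat_lit 8570697603) (nat_lit 111) (nat_lit 5) (nat_lit 117) (nat_lit 5) (nat_lit 112) (nat_lit 5) (nat_lit 370) (nat_lit 332) (nat_lit 78)) (XT.lf (nat_lit 0) (nat_lit 12217255845) (nat_lit 456) (nat_lit 21740871799) (nat_lit 76) (nat_lit 32074033052) (nat_lit 111) (nat_lit 5) (nat_lit 117) (nat_lit 5) (nat_lit 112) (nat_lit 5) (nat_lit 371) (nat_lit 332) (nat_lit 77)))) (XT.nd (nat_lit 156) (nat_lit 380) (nat_lit 0) (XT.nd (nat_lit 78) (nat_lit 0) (nat_lit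 0) (XT.lf (nat_lit 0) (nat_lit 10257303976) (nat_lit 380) (nat_lit 10897047608) (nat_lit 456) (nat_lit 46123603292) (nat_lit 106) (nat_lit 5) (nat_lit 111) (nat_lit 5) (nat_lit 112) (nat_lit 5) (nat_lit 372) (nat_lit 332) (nat_lit 76)) (XT.lf (nat_lit 0) (nat_lit 30704076202) (nat_lit 456) (nat_lit 25020183256) (nat_lit 76) (nat_lit 12826528744) (nat_lit 106) (nat_lit 5) (nat_lit 112) (nat_lit 5) (nat_lit 107) (nat_lit 5) (nat_lit 373) (nat_lit 332) (nat_lit 75))) (XT.nd (nat_lit 78) (nat_lit 0) (nat_lit 0) (XT.lf (nat_lit 0) (nat_lit 7987310716) (nat_lit 380) (nat_lit 32736898656) (nat_lit 456) (nat_lit 29132080429) (nat_lit 101) (nat_lit 5) (nat_lit 106) (nat_lit 5) (nat_lit 107) (nat_lit 5) (nat_lit 374) (nat_lit 332) (nat_lit 74)) (XT.lf (nat_lit 0) (nat_lit 42496970781) (nat_lit 380) (nat_lit 8799889724) (nat_lit 456) (nat_lit 19896539278) (nat_lit 101) (nat_lit 5) (nat_lit 106) (nat_lit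 5) (nat_lit 107) (nat_lit 5) (nat_lit 375) (nat_lit 332) (nat_lit 73)))))) (XT.nd (nat_lit 546) (nat_lit 304) (nat_lit 0) (XT.nd (nat_lit 234) (nat_lit 304) (nat_lit 0) (XT.nd (nat_lit 78) (nat_lit 456) (nat_lit 0) (XT.lf (nat_lit 0) (nat_lit 5423784260) (nat_lit 304) (nat_lit 56966732631) (nat_lit 380) (nat_lit 10173992137) (nat_lit 97) (nat_lit 5) (nat_lit 101) (nat_lit 5) (nat_lit 102) (nat_lit 5) (nat_lit 376) (nat_lit 332) (nat_lit 72)) (XT.nd (nat_lit 78) (nat_lit 380) (nat_lit 0) (XT.lf (nat_lit 0) (nat_lit 222406603) (nat_lit 380) (nat_lit 32901613007) (nat_lit 76) (nat_lit 40841406979) (nat_lit 96) (nat_lit 5) (nat_lit 101) (nat_lit 5) (nat_lit 97) (nat_lit 5) (nat_lit 377) (nat_lit 332) (nat_lit 71)) (XT.lf (nat_lit 0) (nat_lit 2308059169) (nat_lit 380) (nat_lit 8439641477) (nat_lit 456) (nat_lit 64657005008) (nat_lit 91) (nat_lit 5) (nat_lit 96) (nat_lit 5) (nat_lit 97) (nat_lit 5)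 (nat_lit 378) (nat_lit 332) (nat_lit 70)))) (XT.nd (nat_lit 156) (nat_lit 304) (nat_lit 0) (XT.nd (nat_lit 78) (nat_lit 0) (nat_lit 0) (XT.lf (nat_lit 0) (nat_lit 22086870987) (nat_lit 456) (nat_lit 37796214724) (nat_lit 76) (nat_lit 16989134506) (nat_lit 91) (nat_lit 5) (nat_lit 97) (nat_lit 5) (nat_lit 92) (nat_lit 5) (nat_lit 379) (nat_lit 332) (nat_lit 69)) (XT.lf (nat_lit 0) (nat_lit 33849110633) (nat_lit 456) (nat_lit 1521232661) (nat_lit 76) (nat_lit 43010930731) (nat_lit 91) (nat_lit 5) (nat_lit 97) (nat_lit 5) (nat_lit 92) (nat_lit 5) (nat_lit 380) (nat_lit 332) (nat_lit 68))) (XT.nd (nat_lit 78) (nat_lit 0) (nat_lit 0) (XT.lf (nat_lit 0) (nat_lit 36554431918) (nat_lit 304) (nat_lit 9760521915) (nat_lit 380) (nat_lit 33610124137) (nat_lit 87) (nat_lit 5) (nat_lit 91) (nat_lit 5) (nat_lit 92) (nat_lit 5) (nat_lit 381) (nat_lit 332) (nat_lit 67)) (XT.lf (nat_lit 0) (nat_lit 59329385477)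 (nat_lit 380) (nat_lit 5871960024) (nat_lit 76) (nat_lit 16308612733) (nat_lit 87) (nat_lit 5) (nat_lit 92) (nat_lit 5) (nat_lit 88) (nat_lit 5) (nat_lit 382) (nat_lit 332) (nat_lit 66))))) (XT.nd (nat_lit 36894) (nat_lit 0) (nat_lit 7904) (XT.nd (nat_lit 36738) (nat_lit 0) (nat_lit 7904) (XT.lf (nat_lit 0) (nat_lit 33304071429) (nat_lit 304) (nat_lit 39846336293) (nat_lit 380) (nat_lit 9979493033) (nat_lit 83) (nat_lit 5) (nat_lit 87) (nat_lit 5) (nat_lit 88) (nat_lit 5) (nat_lit 383) (nat_lit 332) (nat_lit 65)) (XT.nd (nat_lit 78) (nat_lit 0) (nat_lit 0) (XT.lf (nat_lit 0) (nat_lit 3519737769) (nat_lit 0) (nat_lit 3519737769) (nat_lit 1140) (nat_lit 10684173720) (nat_lit 187) (nat_lit 5) (nat_lit 187) (nat_lit 3) (nat_lit 202) (nat_lit 3) (nat_lit 333) (nat_lit 333) (nat_lit 114)) (XT.lf (nat_lit 0) (nat_lit 14426830979) (nat_lit 1140) (nat_lit 12654522872) (nat_lit 1216) (nat_lit 8893486326)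 (nat_lit 187) (nat_lit 5) (nat_lit 202) (nat_lit 3) (nat_lit 203) (nat_lit 5) (nat_lit 334) (nat_lit 333) (nat_lit 113)))) (XT.nd (nat_lit 156) (nat_lit 0) (nat_lit 76) (XT.nd (nat_lit 78) (nat_lit 0) (nat_lit 76) (XT.lf (nat_lit 76) (nat_lit 3570312240) (nat_lit 0) (nat_lit 11316930098) (nat_lit 1216) (nat_lit 21627905507) (nat_lit 188) (nat_lit 5) (nat_lit 187) (nat_lit 5) (nat_lit 203) (nat_lit 5) (nat_lit 335) (nat_lit 333) (nat_lit 112)) (XT.lf (nat_lit 0) (nat_lit 15535946844) (nat_lit 1140) (nat_lit 16576189535) (nat_lit 1216) (nat_lit 4954296477) (nat_lit 188) (nat_lit 5) (nat_lit 203) (nat_lit 5) (nat_lit 204) (nat_lit 5) (nat_lit 336) (nat_lit 333) (nat_lit 111))) (XT.nd (nat_lit 78) (nat_lit 0) (nat_lit 76) (XT.lf (nat_lit 76) (nat_lit 173797618) (nat_lit 0) (nat_lit 16142220328) (nat_lit 1216) (nat_lit 21314883768) (nat_lit 189) (nat_lit 5) (nat_lit 188) (nat_lit 5) (nat_lit 204) (nat_lit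 5) (nat_lit 337) (nat_lit 333) (nat_lit 110)) (XT.lf (nat_lit 0) (nat_lit 17289720244) (nat_lit 1140) (nat_lit 20446922351) (nat_lit 1216) (nat_lit 470557565) (nat_lit 189) (nat_lit 5) (nat_lit 204) (nat_lit 5) (nat_lit 205) (nat_lit 5) (nat_lit 338) (nat_lit 333) (nat_lit 109))))))) (XT.nd (nat_lit 1014) (nat_lit 3800) (nat_lit 0) (XT.nd (nat_lit 468) (nat_lit 836) (nat_lit 0) (XT.nd (nat_lit 234) (nat_lit 0) (nat_lit 76) (XT.nd (nat_lit 78) (nat_lit 0) (nat_lit 0) (XT.lf (nat_lit 0) (nat_lit 18450744629) (nat_lit 1140) (nat_lit 3087339660) (nat_lit 1216) (nat_lit 17257962261) (nat_lit 189) (nat_lit 5) (nat_lit 204) (nat_lit 5) (nat_lit 205) (nat_lit 5) (nat_lit 339) (nat_lit 333) (nat_lit 108)) (XT.nd (nat_lit 78) (nat_lit 0) (nat_lit 76) (XT.lf (nat_lit 76) (nat_lit 15086370874) (nat_lit 0) (nat_lit 4703585243) (nat_lit 1216) (nat_lit 19608303777) (nat_lit 190) (nat_lit 5) (nat_lit 189) (nat_lit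 5) (nat_lit 205) (nat_lit 5) (nat_lit 340) (nat_lit 333) (nat_lit 107)) (XT.lf (nat_lit 0) (nat_lit 21320674202) (nat_lit 1140) (nat_lit 6271892684) (nat_lit 1216) (nat_lit 12421435033) (nat_lit 190) (nat_lit 5) (nat_lit 205) (nat_lit 5) (nat_lit 206) (nat_lit 5) (nat_lit 341) (nat_lit 333) (nat_lit 106)))) (XT.nd (nat_lit 78) (nat_lit 0) (nat_lit 76) (XT.lf (nat_lit 76) (nat_lit 12505701225) (nat_lit 0) (nat_lit 10556823391) (nat_lit 1216) (nat_lit 17580737390) (nat_lit 191) (nat_lit 5) (nat_lit 190) (nat_lit 5) (nat_lit 206) (nat_lit 5) (nat_lit 342) (nat_lit 333) (nat_lit 105)) (XT.nd (nat_lit 78) (nat_lit 0) (nat_lit 0) (XT.lf (nat_lit 0) (nat_lit 24986252001) (nat_lit 1140) (nat_lit 9383234236) (nat_lit 1216) (nat_lit 6918027078) (nat_lit 191) (nat_lit 5) (nat_lit 206) (nat_lit 5) (nat_lit 207) (nat_lit 5) (nat_lit 343) (nat_lit 333) (nat_lit 104)) (XT.lf (nat_lit 76) (nat_lit 10023724471)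 (nat_lit 0) (nat_lit 17143357006) (nat_lit 1216) (nat_lit 14778030980) (nat_lit 192) (nat_lit 5) (nat_lit 191) (nat_lit 5) (nat_lit 207) (nat_lit 5) (nat_lit 344) (nat_lit 333) (nat_lit 103))))) (XT.nd (nat_lit 234) (nat_lit 1064) (nat_lit 0) (XT.nd (nat_lit 78) (nat_lit 0) (nat_lit 0) (XT.lf (nat_lit 0) (nat_lit 29513339487) (nat_lit 1140) (nat_lit 12422171792) (nat_lit 1216) (nat_lit 683930129) (nat_lit 192) (nat_lit 5) (nat_lit 207) (nat_lit 5) (nat_lit 208) (nat_lit 5) (nat_lit 345) (nat_lit 333) (nat_lit 102)) (XT.nd (nat_lit 78) (nat_lit 0) (nat_lit 0) (XT.lf (nat_lit 76) (nat_lit 7640294353) (nat_lit 0) (nat_lit 24531462451) (nat_lit 1216) (nat_lit 11134992165) (nat_lit 193) (nat_lit 5) (nat_lit 192) (nat_lit 5) (nat_lit 208) (nat_lit 5) (nat_lit 346) (nat_lit 333) (nat_lit 101)) (XT.lf (nat_lit 76) (nat_lit 28558207427) (nat_lit 0) (nat_lit 6475781692) (nat_lit 1216) (nat_lit 8976966596)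 (nat_lit 193) (nat_lit 5) (nat_lit 192) (nat_lit 5) (nat_lit 208) (nat_lit 5) (nat_lit 347) (nat_lit 333) (nat_lit 100)))) (XT.nd (nat_lit 156) (nat_lit 1140) (nat_lit 0) (XT.nd (nat_lit 78) (nat_lit 0) (nat_lit 0) (XT.lf (nat_lit 76) (nat_lit 5354246917) (nat_lit 0) (nat_lit 32794495605) (nat_lit 1216) (nat_lit 6582548296) (nat_lit 194) (nat_lit 5) (nat_lit 193) (nat_lit 5) (nat_lit 209) (nat_lit 5) (nat_lit 348) (nat_lit 333) (nat_lit 99)) (XT.lf (nat_lit 76) (nat_lit 27035753076) (nat_lit 0) (nat_lit 14539410397) (nat_lit 1216) (nat_lit 3891527481) (nat_lit 194) (nat_lit 5) (nat_lit 193) (nat_lit 5) (nat_lit 209) (nat_lit 5) (nat_lit 349) (nat_lit 333) (nat_lit 98))) (XT.nd (nat_lit 78) (nat_lit 76) (nat_lit 0) (XT.lf (nat_lit 0) (nat_lit 3163212238) (nat_lit 1140) (nat_lit 42011287888) (nat_lit 1216) (nat_lit 1047550952) (nat_lit 179) (nat_lit 5) (nat_lit 194) (nat_lit 5) (nat_lit 195) (nat_lit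 5) (nat_lit 350) (nat_lit 333) (nat_lit 97)) (XT.lf (nat_lit 0) (nat_lit 2175686198) (nat_lit 1216) (nat_lit 21376470212) (nat_lit 76) (nat_lit 23437454695) (nat_lit 178) (nat_lit 5) (nat_lit 194) (nat_lit 5) (nat_lit 179) (nat_lit 5) (nat_lit 351) (nat_lit 333) (nat_lit 96)))))) (XT.nd (nat_lit 546) (nat_lit 2052) (nat_lit 0) (XT.nd (nat_lit 234) (nat_lit 1140) (nat_lit 0) (XT.nd (nat_lit 78) (nat_lit 0) (nat_lit 0) (XT.lf (nat_lit 0) (nat_lit 963736731) (nat_lit 608) (nat_lit 4518876825) (nat_lit 684) (nat_lit 42297033322) (nat_lit 170) (nat_lit 5) (nat_lit 178) (nat_lit 5) (nat_lit 179) (nat_lit 5) (nat_lit 352) (nat_lit 333) (nat_lit 95)) (XT.nd (nat_lit 78) (nat_lit 0) (nat_lit 0) (XT.lf (nat_lit 0) (nat_lit 9250566872) (nat_lit 684) (nat_lit 24322803659) (nat_lit 76) (nat_lit 15009160140) (nat_lit 170) (nat_lit 5) (nat_lit 179) (nat_lit 5) (nat_lit 171) (nat_lit 5) (nat_lit 353) (nat_lit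 333) (nat_lit 94)) (XT.lf (nat_lit 0) (nat_lit 13175145154) (nat_lit 684) (nat_lit 1200708415) (nat_lit 76) (nat_lit 35032341264) (nat_lit 170) (nat_lit 5) (nat_lit 179) (nat_lit 5) (nat_lit 171) (nat_lit 5) (nat_lit 354) (nat_lit 333) (nat_lit 93)))) (XT.nd (nat_lit 156) (nat_lit 532) (nat_lit 0) (XT.nd (nat_lit 78) (nat_lit 0) (nat_lit 0) (XT.lf (nat_lit 0) (nat_lit 17492126387) (nat_lit 684) (nat_lit 27242012822) (nat_lit 76) (nat_lit 5516251148) (nat_lit 162) (nat_lit 5) (nat_lit 171) (nat_lit 5) (nat_lit 163) (nat_lit 5) (nat_lit 355) (nat_lit 333) (nat_lit 92)) (XT.lf (nat_lit 0) (nat_lit 22092099314) (nat_lit 684) (nat_lit 3292650879) (nat_lit 76) (nat_lit 25728498449) (nat_lit 162) (nat_lit 5) (nat_lit 171) (nat_lit 5) (nat_lit 163) (nat_lit 5) (nat_lit 356) (nat_lit 333) (nat_lit 91))) (XT.nd (nat_lit 78) (nat_lit 0) (nat_lit 0) (XT.lf (nat_lit 0) (nat_lit 21799553460) (nat_lit 532) (nat_lit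 5239002813) (nat_lit 608) (nat_lit 24957183181) (nat_lit 155) (nat_lit 5) (nat_lit 162) (nat_lit 5) (nat_lit 163) (nat_lit 5) (nat_lit 357) (nat_lit 333) (nat_lit 90)) (XT.lf (nat_lit 0) (nat_lit 32315043552) (nat_lit 608) (nat_lit 5342168114) (nat_lit 76) (nat_lit 15242045512) (nat_lit 155) (nat_lit 5) (nat_lit 163) (nat_lit 5) (nat_lit 156) (nat_lit 5) (nat_lit 358) (nat_lit 333) (nat_lit 89))))) (XT.nd (nat_lit 234) (nat_lit 1064) (nat_lit 0) (XT.nd (nat_lit 78) (nat_lit 456) (nat_lit 0) (XT.lf (nat_lit 0) (nat_lit 20606691212) (nat_lit 532) (nat_lit 17392075835) (nat_lit 608) (nat_lit 15823646387) (nat_lit 148) (nat_lit 5) (nat_lit 155) (nat_lit 5) (nat_lit 156) (nat_lit 5) (nat_lit 359) (nat_lit 333) (nat_lit 88)) (XT.nd (nat_lit 78) (nat_lit 456) (nat_lit 0) (XT.lf (nat_lit 0) (nat_lit 43939949277) (nat_lit 608) (nat_lit 7363155686) (nat_lit 76) (nat_lit 3467552214) (nat_lit 148) (nat_lit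 5) (nat_lit 156) (nat_lit 5) (nat_lit 149) (nat_lit 5) (nat_lit 360) (nat_lit 333) (nat_lit 87)) (XT.lf (nat_lit 0) (nat_lit 19471743754) (nat_lit 456) (nat_lit 30946031114) (nat_lit 532) (nat_lit 5318822306) (nat_lit 142) (nat_lit 5) (nat_lit 148) (nat_lit 5) (nat_lit 149) (nat_lit 5) (nat_lit 361) (nat_lit 333) (nat_lit 86)))) (XT.nd (nat_lit 156) (nat_lit 456) (nat_lit 0) (XT.nd (nat_lit 78) (nat_lit 532) (nat_lit 0) (XT.lf (nat_lit 0) (nat_lit 425558227) (nat_lit 532) (nat_lit 9471858078) (nat_lit 76) (nat_lit 46831772840) (nat_lit 141) (nat_lit 5) (nat_lit 148) (nat_lit 5) (nat_lit 142) (nat_lit 5) (nat_lit 362) (nat_lit 333) (nat_lit 85)) (XT.lf (nat_lit 0) (nat_lit 6527144269) (nat_lit 608) (nat_lit 39429300388) (nat_lit 76) (nat_lit 11784782130) (nat_lit 134) (nat_lit 5) (nat_lit 142) (nat_lit 5) (nat_lit 135) (nat_lit 5) (nat_lit 363) (nat_lit 333) (nat_lit 84))) (XT.nd (nat_lit 78) (nat_lit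 456) (nat_lit 0) (XT.lf (nat_lit 0) (nat_lit 13005454003) (nat_lit 608) (nat_lit 11757316931) (nat_lit 76) (nat_lit 34015045389) (nat_lit 134) (nat_lit 5) (nat_lit 142) (nat_lit 5) (nat_lit 135) (nat_lit 5) (nat_lit 364) (nat_lit 333) (nat_lit 83)) (XT.lf (nat_lit 0) (nat_lit 17077083000) (nat_lit 456) (nat_lit 2764299662) (nat_lit 532) (nat_lit 39999223808) (nat_lit 128) (nat_lit 5) (nat_lit 134) (nat_lit 5) (nat_lit 135) (nat_lit 5) (nat_lit 365) (nat_lit 333) (nat_lit 82))))))))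
noncomputable def xc244 : XT := (XT.nd (nat_lit 38844) (nat_lit 0) (nat_lit 2660) (XT.nd (nat_lit 1014) (nat_lit 684) (nat_lit 0) (XT.nd (nat_lit 468) (nat_lit 1140) (nat_lit 0) (XT.nd (nat_lit 234) (nat_lit 836) (nat_lit 0) (XT.nd (nat_lit 78) (nat_lit 456) (nat_lit 0) (XT.lf (nat_lit 0) (nat_lit 27192654831) (nat_lit 532) (nat_lit 14107595096) (nat_lit 76) (nat_lit 19625723408) (nat_lit 128) (nat_lit 5) (nat_lit 135) (nat_lit 5) (nat_lit 129) (nat_lit 5) (nat_lit 366) (nat_lit 333) (nat_lit 81)) (XT.nd (nat_lit 78) (nat_lit 0) (nat_lit 0) (XT.lf (nat_lit 0) (nat_lit 15685761568) (nat_lit 456) (nat_lit 19256009175) (nat_lit 532) (nat_lit 27096812254) (nat_lit 122) (nat_lit 5) (nat_lit 128) (nat_lit 5) (nat_lit 129) (nat_lit 5) (nat_lit 367) (nat_lit 333) (nat_lit 80)) (XT.lf (nat_lit 0) (nat_lit 43099558268) (nat_lit 532) (nat_lit 16553737213) (nat_lit 76) (nat_lit 3525990452) (nat_lit 122) (nat_lit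 5) (nat_lit 129) (nat_lit 5) (nat_lit 123) (nat_lit 5) (nat_lit 368) (nat_lit 333) (nat_lit 79)))) (XT.nd (nat_lit 78) (nat_lit 456) (nat_lit 0) (XT.lf (nat_lit 0) (nat_lit 14225300312) (nat_lit 380) (nat_lit 37603368475) (nat_lit 456) (nat_lit 12515744390) (nat_lit 117) (nat_lit 5) (nat_lit 122) (nat_lit 5) (nat_lit 123) (nat_lit 5) (nat_lit 369) (nat_lit 333) (nat_lit 78)) (XT.nd (nat_lit 78) (nat_lit 456) (nat_lit 0) (XT.lf (nat_lit 0) (nat_lit 46266101180) (nat_lit 380) (nat_lit 14719919680) (nat_lit 456) (nat_lit 4553483209) (nat_lit 117) (nat_lit 5) (nat_lit 122) (nat_lit 5) (nat_lit 123) (nat_lit 5) (nat_lit 370) (nat_lit 333) (nat_lit 77)) (XT.lf (nat_lit 0) (nat_lit 3784490273) (nat_lit 456) (nat_lit 54142687058) (nat_lit 76) (nat_lit 8835978582) (nat_lit 111) (nat_lit 5) (nat_lit 117) (nat_lit 5) (nat_lit 112) (nat_lit 5) (nat_lit 371) (nat_lit 333) (nat_lit 76))))) (XT.nd (nat_lit 234)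 (nat_lit 760) (nat_lit 0) (XT.nd (nat_lit 78) (nat_lit 380) (nat_lit 0) (XT.lf (nat_lit 0) (nat_lit 12622609593) (nat_lit 456) (nat_lit 22345133764) (nat_lit 76) (nat_lit 33044176424) (nat_lit 111) (nat_lit 5) (nat_lit 117) (nat_lit 5) (nat_lit 112) (nat_lit 5) (nat_lit 372) (nat_lit 333) (nat_lit 75)) (XT.nd (nat_lit 78) (nat_lit 0) (nat_lit 0) (XT.lf (nat_lit 0) (nat_lit 10612517048) (nat_lit 380) (nat_lit 11214626550) (nat_lit 456) (nat_lit 47467965610) (nat_lit 106) (nat_lit 5) (nat_lit 111) (nat_lit 5) (nat_lit 112) (nat_lit 5) (nat_lit 373) (nat_lit 333) (nat_lit 74)) (XT.lf (nat_lit 0) (nat_lit 31662335552) (nat_lit 456) (nat_lit 25723615398) (nat_lit 76) (nat_lit 13220208466) (nat_lit 106) (nat_lit 5) (nat_lit 112) (nat_lit 5) (nat_lit 107) (nat_lit 5) (nat_lit 374) (nat_lit 333) (nat_lit 73)))) (XT.nd (nat_lit 156) (nat_lit 380) (nat_lit 0) (XT.nd (nat_lit 78) (nat_lit 0) (nat_lit 0)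 (XT.lf (nat_lit 0) (nat_lit 8273640910) (nat_lit 380) (nat_lit 33708799159) (nat_lit 456) (nat_lit 29968406090) (nat_lit 101) (nat_lit 5) (nat_lit 106) (nat_lit 5) (nat_lit 107) (nat_lit 5) (nat_lit 375) (nat_lit 333) (nat_lit 72)) (XT.lf (nat_lit 0) (nat_lit 43817230266) (nat_lit 380) (nat_lit 9053977234) (nat_lit 456) (nat_lit 20456894921) (nat_lit 101) (nat_lit 5) (nat_lit 106) (nat_lit 5) (nat_lit 107) (nat_lit 5) (nat_lit 376) (nat_lit 333) (nat_lit 71))) (XT.nd (nat_lit 78) (nat_lit 76) (nat_lit 0) (XT.lf (nat_lit 0) (nat_lit 5632397797) (nat_lit 304) (nat_lit 58664777211) (nat_lit 380) (nat_lit 10443185944) (nat_lit 97) (nat_lit 5) (nat_lit 101) (nat_lit 5) (nat_lit 102) (nat_lit 5) (nat_lit 377) (nat_lit 333) (nat_lit 70)) (XT.lf (nat_lit 0) (nat_lit 263372938) (nat_lit 380) (nat_lit 33843382706) (nat_lit 76) (nat_lit 42076571863) (nat_lit 96) (nat_lit 5) (nat_lit 101) (nat_lit 5) (nat_lit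 97) (nat_lit 5) (nat_lit 378) (nat_lit 333) (nat_lit 69)))))) (XT.nd (nat_lit 37284) (nat_lit 0) (nat_lit 7600) (XT.nd (nat_lit 234) (nat_lit 304) (nat_lit 0) (XT.nd (nat_lit 78) (nat_lit 0) (nat_lit 0) (XT.lf (nat_lit 0) (nat_lit 2422135727) (nat_lit 380) (nat_lit 8681722196) (nat_lit 456) (nat_lit 66561945020) (nat_lit 91) (nat_lit 5) (nat_lit 96) (nat_lit 5) (nat_lit 97) (nat_lit 5) (nat_lit 379) (nat_lit 333) (nat_lit 68)) (XT.nd (nat_lit 78) (nat_lit 0) (nat_lit 0) (XT.lf (nat_lit 0) (nat_lit 22782324728) (nat_lit 456) (nat_lit 38885662446) (nat_lit 76) (nat_lit 17509383063) (nat_lit 91) (nat_lit 5) (nat_lit 97) (nat_lit 5) (nat_lit 92) (nat_lit 5) (nat_lit 380) (nat_lit 333) (nat_lit 67)) (XT.lf (nat_lit 0) (nat_lit 34896474837) (nat_lit 456) (nat_lit 1523725252) (nat_lit 76) (nat_lit 44311525180) (nat_lit 91) (nat_lit 5) (nat_lit 97) (nat_lit 5) (nat_lit 92) (nat_lit 5) (nat_lit 381) (nat_lit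 333) (nat_lit 66)))) (XT.nd (nat_lit 36894) (nat_lit 0) (nat_lit 7600) (XT.lf (nat_lit 0) (nat_lit 37693786280) (nat_lit 304) (nat_lit 10041988857) (nat_lit 380) (nat_lit 34586084622) (nat_lit 87) (nat_lit 5) (nat_lit 91) (nat_lit 5) (nat_lit 92) (nat_lit 5) (nat_lit 382) (nat_lit 333) (nat_lit 65)) (XT.nd (nat_lit 78) (nat_lit 0) (nat_lit 0) (XT.lf (nat_lit 0) (nat_lit 3649844264) (nat_lit 0) (nat_lit 3649844264) (nat_lit 1140) (nat_lit 10954133039) (nat_lit 187) (nat_lit 5) (nat_lit 187) (nat_lit 3) (nat_lit 202) (nat_lit 3) (nat_lit 334) (nat_lit 334) (nat_lit 112)) (XT.lf (nat_lit 0) (nat_lit 14954379744) (nat_lit 1140) (nat_lit 12983115495) (nat_lit 1216) (nat_lit 9113619075) (nat_lit 187) (nat_lit 5) (nat_lit 202) (nat_lit 3) (nat_lit 203) (nat_lit 5) (nat_lit 335) (nat_lit 334) (nat_lit 111))))) (XT.nd (nat_lit 234) (nat_lit 0) (nat_lit 152) (XT.nd (nat_lit 78) (nat_lit 0) (nat_lit 76)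 (XT.lf (nat_lit 76) (nat_lit 3727964248) (nat_lit 0) (nat_lit 11698365513) (nat_lit 1216) (nat_lit 22181373411) (nat_lit 188) (nat_lit 5) (nat_lit 187) (nat_lit 5) (nat_lit 203) (nat_lit 5) (nat_lit 336) (nat_lit 334) (nat_lit 110)) (XT.nd (nat_lit 78) (nat_lit 0) (nat_lit 0) (XT.lf (nat_lit 0) (nat_lit 16091410803) (nat_lit 1140) (nat_lit 17021198733) (nat_lit 1216) (nat_lit 5063013376) (nat_lit 188) (nat_lit 5) (nat_lit 203) (nat_lit 5) (nat_lit 204) (nat_lit 5) (nat_lit 337) (nat_lit 334) (nat_lit 109)) (XT.lf (nat_lit 76) (nat_lit 230775520) (nat_lit 0) (nat_lit 16662002643) (nat_lit 1216) (nat_lit 21864314386) (nat_lit 189) (nat_lit 5) (nat_lit 188) (nat_lit 5) (nat_lit 204) (nat_lit 5) (nat_lit 338) (nat_lit 334) (nat_lit 108)))) (XT.nd (nat_lit 156) (nat_lit 0) (nat_lit 0) (XT.nd (nat_lit 78) (nat_lit 0) (nat_lit 0) (XT.lf (nat_lit 0) (nat_lit 17892817948) (nat_lit 1140) (nat_lit 21007085760)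 (nat_lit 1216) (nat_lit 450865879) (nat_lit 189) (nat_lit 5) (nat_lit 204) (nat_lit 5) (nat_lit 205) (nat_lit 5) (nat_lit 339) (nat_lit 334) (nat_lit 107)) (XT.lf (nat_lit 0) (nat_lit 19086214634) (nat_lit 1140) (nat_lit 3128266392) (nat_lit 1216) (nat_lit 17742877427) (nat_lit 189) (nat_lit 5) (nat_lit 204) (nat_lit 5) (nat_lit 205) (nat_lit 5) (nat_lit 340) (nat_lit 334) (nat_lit 106))) (XT.nd (nat_lit 78) (nat_lit 0) (nat_lit 76) (XT.lf (nat_lit 76) (nat_lit 15590148659) (nat_lit 0) (nat_lit 4873559020) (nat_lit 1216) (nat_lit 20113990597) (nat_lit 190) (nat_lit 5) (nat_lit 189) (nat_lit 5) (nat_lit 205) (nat_lit 5) (nat_lit 341) (nat_lit 334) (nat_lit 105)) (XT.lf (nat_lit 0) (nat_lit 22037746272) (nat_lit 1140) (nat_lit 6407647955) (nat_lit 1216) (nat_lit 12766599506) (nat_lit 190) (nat_lit 5) (nat_lit 205) (nat_lit 5) (nat_lit 206) (nat_lit 5) (nat_lit 342) (nat_lit 334) (nat_lit 104)))))))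 (XT.nd (nat_lit 1014) (nat_lit 3648) (nat_lit 0) (XT.nd (nat_lit 468) (nat_lit 1520) (nat_lit 0) (XT.nd (nat_lit 234) (nat_lit 0) (nat_lit 152) (XT.nd (nat_lit 78) (nat_lit 0) (nat_lit 76) (XT.lf (nat_lit 76) (nat_lit 12932760030) (nat_lit 0) (nat_lit 10897335066) (nat_lit 1216) (nat_lit 18030092289) (nat_lit 191) (nat_lit 5) (nat_lit 190) (nat_lit 5) (nat_lit 206) (nat_lit 5) (nat_lit 343) (nat_lit 334) (nat_lit 103)) (XT.nd (nat_lit 78) (nat_lit 0) (nat_lit 0) (XT.lf (nat_lit 0) (nat_lit 25809107420) (nat_lit 1140) (nat_lit 9611829227) (nat_lit 1216) (nat_lit 7102905354) (nat_lit 191) (nat_lit 5) (nat_lit 206) (nat_lit 5) (nat_lit 207) (nat_lit 5) (nat_lit 344) (nat_lit 334) (nat_lit 102)) (XT.lf (nat_lit 76) (nat_lit 10376819594) (nat_lit 0) (nat_lit 17676911711) (nat_lit 1216) (nat_lit 15147489599) (nat_lit 192) (nat_lit 5) (nat_lit 191) (nat_lit 5) (nat_lit 207) (nat_lit 5) (nat_lit 345)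 (nat_lit 334) (nat_lit 101)))) (XT.nd (nat_lit 78) (nat_lit 0) (nat_lit 0) (XT.lf (nat_lit 0) (nat_lit 30468110840) (nat_lit 1140) (nat_lit 12741620056) (nat_lit 1216) (nat_lit 686119605) (nat_lit 192) (nat_lit 5) (nat_lit 207) (nat_lit 5) (nat_lit 208) (nat_lit 5) (nat_lit 346) (nat_lit 334) (nat_lit 100)) (XT.nd (nat_lit 78) (nat_lit 0) (nat_lit 0) (XT.lf (nat_lit 76) (nat_lit 7922198339) (nat_lit 0) (nat_lit 25282568356) (nat_lit 1216) (nat_lit 11399058722) (nat_lit 193) (nat_lit 5) (nat_lit 192) (nat_lit 5) (nat_lit 208) (nat_lit 5) (nat_lit 347) (nat_lit 334) (nat_lit 99)) (XT.lf (nat_lit 76) (nat_lit 29466113995) (nat_lit 0) (nat_lit 6684775561) (nat_lit 1216) (nat_lit 9178330732) (nat_lit 193) (nat_lit 5) (nat_lit 192) (nat_lit 5) (nat_lit 208) (nat_lit 5) (nat_lit 348) (nat_lit 334) (nat_lit 98))))) (XT.nd (nat_lit 234) (nat_lit 684) (nat_lit 0) (XT.nd (nat_lit 78) (nat_lit 1064) (nat_lit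 0) (XT.lf (nat_lit 76) (nat_lit 5567717073) (nat_lit 0) (nat_lit 33789820208) (nat_lit 1216) (nat_lit 6713677166) (nat_lit 194) (nat_lit 5) (nat_lit 193) (nat_lit 5) (nat_lit 209) (nat_lit 5) (nat_lit 349) (nat_lit 334) (nat_lit 97)) (XT.nd (nat_lit 78) (nat_lit 1064) (nat_lit 0) (XT.lf (nat_lit 76) (nat_lit 27898129308) (nat_lit 0) (nat_lit 14986747791) (nat_lit 1216) (nat_lit 3943858180) (nat_lit 194) (nat_lit 5) (nat_lit 193) (nat_lit 5) (nat_lit 209) (nat_lit 5) (nat_lit 350) (nat_lit 334) (nat_lit 96)) (XT.lf (nat_lit 0) (nat_lit 3310952670) (nat_lit 1140) (nat_lit 43279825860) (nat_lit 1216) (nat_lit 1016022544) (nat_lit 179) (nat_lit 5) (nat_lit 194) (nat_lit 5) (nat_lit 195) (nat_lit 5) (nat_lit 351) (nat_lit 334) (nat_lit 95)))) (XT.nd (nat_lit 156) (nat_lit 0) (nat_lit 0) (XT.nd (nat_lit 78) (nat_lit 608) (nat_lit 0) (XT.lf (nat_lit 0) (nat_lit 2300885384) (nat_lit 1216) (nat_lit 21965191076)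 (nat_lit 76) (nat_lit 24131349490) (nat_lit 178) (nat_lit 5) (nat_lit 194) (nat_lit 5) (nat_lit 179) (nat_lit 5) (nat_lit 352) (nat_lit 334) (nat_lit 94)) (XT.lf (nat_lit 0) (nat_lit 1044706651) (nat_lit 608) (nat_lit 4661068830) (nat_lit 684) (nat_lit 43505426871) (nat_lit 170) (nat_lit 5) (nat_lit 178) (nat_lit 5) (nat_lit 179) (nat_lit 5) (nat_lit 353) (nat_lit 334) (nat_lit 93))) (XT.nd (nat_lit 78) (nat_lit 0) (nat_lit 0) (XT.lf (nat_lit 0) (nat_lit 9584996332) (nat_lit 684) (nat_lit 25000103846) (nat_lit 76) (nat_lit 15453127751) (nat_lit 170) (nat_lit 5) (nat_lit 179) (nat_lit 5) (nat_lit 171) (nat_lit 5) (nat_lit 354) (nat_lit 334) (nat_lit 92)) (XT.lf (nat_lit 0) (nat_lit 13625654319) (nat_lit 684) (nat_lit 1185871490) (nat_lit 76) (nat_lit 36077188014) (nat_lit 170) (nat_lit 5) (nat_lit 179) (nat_lit 5) (nat_lit 171) (nat_lit 5) (nat_lit 355) (nat_lit 334) (nat_lit 91)))))) (XT.nd (nat_lit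 546) (nat_lit 1520) (nat_lit 0) (XT.nd (nat_lit 234) (nat_lit 988) (nat_lit 0) (XT.nd (nat_lit 78) (nat_lit 532) (nat_lit 0) (XT.lf (nat_lit 0) (nat_lit 18070983473) (nat_lit 684) (nat_lit 28007186318) (nat_lit 76) (nat_lit 5678042282) (nat_lit 162) (nat_lit 5) (nat_lit 171) (nat_lit 5) (nat_lit 163) (nat_lit 5) (nat_lit 356) (nat_lit 334) (nat_lit 90)) (XT.nd (nat_lit 78) (nat_lit 532) (nat_lit 0) (XT.lf (nat_lit 0) (nat_lit 22807380056) (nat_lit 684) (nat_lit 3340860611) (nat_lit 76) (nat_lit 26496764664) (nat_lit 162) (nat_lit 5) (nat_lit 171) (nat_lit 5) (nat_lit 163) (nat_lit 5) (nat_lit 357) (nat_lit 334) (nat_lit 89)) (XT.lf (nat_lit 0) (nat_lit 22503614076) (nat_lit 532) (nat_lit 5397568346) (nat_lit 608) (nat_lit 25652821795) (nat_lit 155) (nat_lit 5) (nat_lit 162) (nat_lit 5) (nat_lit 163) (nat_lit 5) (nat_lit 358) (nat_lit 334) (nat_lit 88)))) (XT.nd (nat_lit 156) (nat_lit 456) (nat_lit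 0) (XT.nd (nat_lit 78) (nat_lit 532) (nat_lit 0) (XT.lf (nat_lit 0) (nat_lit 33334452185) (nat_lit 608) (nat_lit 5452243984) (nat_lit 76) (nat_lit 15697978511) (nat_lit 155) (nat_lit 5) (nat_lit 163) (nat_lit 5) (nat_lit 156) (nat_lit 5) (nat_lit 359) (nat_lit 334) (nat_lit 87)) (XT.lf (nat_lit 0) (nat_lit 21274589071) (nat_lit 532) (nat_lit 17913120966) (nat_lit 608) (nat_lit 16247846699) (nat_lit 148) (nat_lit 5) (nat_lit 155) (nat_lit 5) (nat_lit 156) (nat_lit 5) (nat_lit 360) (nat_lit 334) (nat_lit 86))) (XT.nd (nat_lit 78) (nat_lit 456) (nat_lit 0) (XT.lf (nat_lit 0) (nat_lit 45305707825) (nat_lit 608) (nat_lit 7534322852) (nat_lit 76) (nat_lit 3572261451) (nat_lit 148) (nat_lit 5) (nat_lit 156) (nat_lit 5) (nat_lit 149) (nat_lit 5) (nat_lit 361) (nat_lit 334) (nat_lit 85)) (XT.lf (nat_lit 0) (nat_lit 20105136047) (nat_lit 456) (nat_lit 31871820216) (nat_lit 532) (nat_lit 5430283106) (nat_lit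 142) (nat_lit 5) (nat_lit 148) (nat_lit 5) (nat_lit 149) (nat_lit 5) (nat_lit 362) (nat_lit 334) (nat_lit 84))))) (XT.nd (nat_lit 234) (nat_lit 912) (nat_lit 0) (XT.nd (nat_lit 78) (nat_lit 532) (nat_lit 0) (XT.lf (nat_lit 0) (nat_lit 484116420) (nat_lit 532) (nat_lit 9707243629) (nat_lit 76) (nat_lit 48238277981) (nat_lit 141) (nat_lit 5) (nat_lit 148) (nat_lit 5) (nat_lit 142) (nat_lit 5) (nat_lit 363) (nat_lit 334) (nat_lit 83)) (XT.nd (nat_lit 78) (nat_lit 0) (nat_lit 0) (XT.lf (nat_lit 0) (nat_lit 6767912920) (nat_lit 608) (nat_lit 40562520587) (nat_lit 76) (nat_lit 12141629955) (nat_lit 134) (nat_lit 5) (nat_lit 142) (nat_lit 5) (nat_lit 135) (nat_lit 5) (nat_lit 364) (nat_lit 334) (nat_lit 82)) (XT.lf (nat_lit 0) (nat_lit 13439262597) (nat_lit 608) (nat_lit 12061823999) (nat_lit 76) (nat_lit 35038704868) (nat_lit 134) (nat_lit 5) (nat_lit 142) (nat_lit 5) (nat_lit 135) (nat_lit 5) (nat_lit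 365) (nat_lit 334) (nat_lit 81)))) (XT.nd (nat_lit 156) (nat_lit 456) (nat_lit 0) (XT.nd (nat_lit 78) (nat_lit 0) (nat_lit 0) (XT.lf (nat_lit 0) (nat_lit 17637135259) (nat_lit 456) (nat_lit 2842321547) (nat_lit 532) (nat_lit 41155034334) (nat_lit 128) (nat_lit 5) (nat_lit 134) (nat_lit 5) (nat_lit 135) (nat_lit 5) (nat_lit 366) (nat_lit 334) (nat_lit 80)) (XT.lf (nat_lit 0) (nat_lit 28050065384) (nat_lit 532) (nat_lit 14483224772) (nat_lit 76) (nat_lit 20219166323) (nat_lit 128) (nat_lit 5) (nat_lit 135) (nat_lit 5) (nat_lit 129) (nat_lit 5) (nat_lit 367) (nat_lit 334) (nat_lit 79))) (XT.nd (nat_lit 78) (nat_lit 0) (nat_lit 0) (XT.lf (nat_lit 0) (nat_lit 16203465943) (nat_lit 456) (nat_lit 19827429336) (nat_lit 532) (nat_lit 27867573308) (nat_lit 122) (nat_lit 5) (nat_lit 128) (nat_lit 5) (nat_lit 129) (nat_lit 5) (nat_lit 368) (nat_lit 334) (nat_lit 78)) (XT.lf (nat_lit 0) (nat_lit 44432284424)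 (nat_lit 532) (nat_lit 17003414134) (nat_lit 76) (nat_lit 3637729347) (nat_lit 122) (nat_lit 5) (nat_lit 129) (nat_lit 5) (nat_lit 123) (nat_lit 5) (nat_lit 369) (nat_lit 334) (nat_lit 77))))))))
noncomputable def xc245 : XT := (XT.nd (nat_lit 39000) (nat_lit 0) (nat_lit 1140) (XT.nd (nat_lit 37986) (nat_lit 0) (nat_lit 7296) (XT.nd (nat_lit 468) (nat_lit 1140) (nat_lit 0) (XT.nd (nat_lit 234) (nat_lit 380) (nat_lit 0) (XT.nd (nat_lit 78) (nat_lit 456) (nat_lit 0) (XT.lf (nat_lit 0) (nat_lit 14698534368) (nat_lit 380) (nat_lit 38724023179) (nat_lit 456) (nat_lit 12850974035) (nat_lit 117) (nat_lit 5) (nat_lit 122) (nat_lit 5) (nat_lit 123) (nat_lit 5) (nat_lit 370) (nat_lit 334) (nat_lit 76)) (XT.nd (nat_lit 78) (nat_lit 456) (nat_lit 0) (XT.lf (nat_lit 0) (nat_lit 47699205619) (nat_lit 380) (nat_lit 15154287804) (nat_lit 456) (nat_lit 4651017136) (nat_lit 117) (nat_lit 5) (nat_lit 122) (nat_lit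 5) (nat_lit 123) (nat_lit 5) (nat_lit 371) (nat_lit 334) (nat_lit 75)) (XT.lf (nat_lit 0) (nat_lit 3935729906) (nat_lit 456) (nat_lit 55720400496) (nat_lit 76) (nat_lit 9108749571) (nat_lit 111) (nat_lit 5) (nat_lit 117) (nat_lit 5) (nat_lit 112) (nat_lit 5) (nat_lit 372) (nat_lit 334) (nat_lit 74)))) (XT.nd (nat_lit 78) (nat_lit 380) (nat_lit 0) (XT.lf (nat_lit 0) (nat_lit 13037894604) (nat_lit 456) (nat_lit 22970276928) (nat_lit 76) (nat_lit 34042969320) (nat_lit 111) (nat_lit 5) (nat_lit 117) (nat_lit 5) (nat_lit 112) (nat_lit 5) (nat_lit 373) (nat_lit 334) (nat_lit 73)) (XT.nd (nat_lit 78) (nat_lit 0) (nat_lit 0) (XT.lf (nat_lit 0) (nat_lit 10975660164) (nat_lit 380) (nat_lit 11542268583) (nat_lit 456) (nat_lit 48854917408) (nat_lit 106) (nat_lit 5) (nat_lit 111) (nat_lit 5) (nat_lit 112) (nat_lit 5) (nat_lit 374) (nat_lit 334) (nat_lit 72)) (XT.lf (nat_lit 0) (nat_lit 32647210862) (nat_lit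 456) (nat_lit 26450858448) (nat_lit 76) (nat_lit 13625188610) (nat_lit 106) (nat_lit 5) (nat_lit 112) (nat_lit 5) (nat_lit 107) (nat_lit 5) (nat_lit 375) (nat_lit 334) (nat_lit 71))))) (XT.nd (nat_lit 234) (nat_lit 456) (nat_lit 0) (XT.nd (nat_lit 78) (nat_lit 304) (nat_lit 0) (XT.lf (nat_lit 0) (nat_lit 8565879614) (nat_lit 380) (nat_lit 34710442569) (nat_lit 456) (nat_lit 30831982024) (nat_lit 101) (nat_lit 5) (nat_lit 106) (nat_lit 5) (nat_lit 107) (nat_lit 5) (nat_lit 376) (nat_lit 334) (nat_lit 70)) (XT.nd (nat_lit 78) (nat_lit 304) (nat_lit 0) (XT.lf (nat_lit 0) (nat_lit 45174494239) (nat_lit 380) (nat_lit 9316256197) (nat_lit 456) (nat_lit 21036158809) (nat_lit 101) (nat_lit 5) (nat_lit 106) (nat_lit 5) (nat_lit 107) (nat_lit 5) (nat_lit 377) (nat_lit 334) (nat_lit 69)) (XT.lf (nat_lit 0) (nat_lit 5844634891) (nat_lit 304) (nat_lit 60414392128) (nat_lit 380) (nat_lit 10722523603) (nat_lit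 97) (nat_lit 5) (nat_lit 101) (nat_lit 5) (nat_lit 102) (nat_lit 5) (nat_lit 378) (nat_lit 334) (nat_lit 68)))) (XT.nd (nat_lit 156) (nat_lit 0) (nat_lit 0) (XT.nd (nat_lit 78) (nat_lit 380) (nat_lit 0) (XT.lf (nat_lit 0) (nat_lit 303599639) (nat_lit 380) (nat_lit 34816004677) (nat_lit 76) (nat_lit 43348222092) (nat_lit 96) (nat_lit 5) (nat_lit 101) (nat_lit 5) (nat_lit 97) (nat_lit 5) (nat_lit 379) (nat_lit 334) (nat_lit 67)) (XT.lf (nat_lit 0) (nat_lit 2537060882) (nat_lit 380) (nat_lit 8931703011) (nat_lit 456) (nat_lit 68526029181) (nat_lit 91) (nat_lit 5) (nat_lit 96) (nat_lit 5) (nat_lit 97) (nat_lit 5) (nat_lit 380) (nat_lit 334) (nat_lit 66))) (XT.nd (nat_lit 37050) (nat_lit 0) (nat_lit 7296) (XT.lf (nat_lit 0) (nat_lit 23496756494) (nat_lit 456) (nat_lit 40010344564) (nat_lit 76) (nat_lit 18044632057) (nat_lit 91) (nat_lit 5) (nat_lit 97) (nat_lit 5) (nat_lit 92) (nat_lit 5) (nat_lit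 381) (nat_lit 334) (nat_lit 65)) (XT.lf (nat_lit 0) (nat_lit 3782446728) (nat_lit 0) (nat_lit 3782446728) (nat_lit 1140) (nat_lit 11235093828) (nat_lit 187) (nat_lit 5) (nat_lit 187) (nat_lit 3) (nat_lit 202) (nat_lit 3) (nat_lit 335) (nat_lit 335) (nat_lit 110)))))) (XT.nd (nat_lit 468) (nat_lit 0) (nat_lit 152) (XT.nd (nat_lit 234) (nat_lit 0) (nat_lit 76) (XT.nd (nat_lit 78) (nat_lit 0) (nat_lit 0) (XT.lf (nat_lit 0) (nat_lit 15492316288) (nat_lit 1140) (nat_lit 13324495976) (nat_lit 1216) (nat_lit 9343034962) (nat_lit 187) (nat_lit 5) (nat_lit 202) (nat_lit 3) (nat_lit 203) (nat_lit 5) (nat_lit 336) (nat_lit 335) (nat_lit 109)) (XT.nd (nat_lit 78) (nat_lit 0) (nat_lit 76) (XT.lf (nat_lit 76) (nat_lit 3887444463) (nat_lit 0) (nat_lit 12088837179) (nat_lit 1216) (nat_lit 22756919938) (nat_lit 188) (nat_lit 5) (nat_lit 187) (nat_lit 5) (nat_lit 203) (nat_lit 5) (nat_lit 337) (nat_lit 335) (nat_lit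 108)) (XT.lf (nat_lit 0) (nat_lit 16658407584) (nat_lit 1140) (nat_lit 17482559091) (nat_lit 1216) (nat_lit 5177282895) (nat_lit 188) (nat_lit 5) (nat_lit 203) (nat_lit 5) (nat_lit 204) (nat_lit 5) (nat_lit 338) (nat_lit 335) (nat_lit 107)))) (XT.nd (nat_lit 78) (nat_lit 0) (nat_lit 76) (XT.lf (nat_lit 76) (nat_lit 286491295) (nat_lit 0) (nat_lit 17195339681) (nat_lit 1216) (nat_lit 22435395202) (nat_lit 189) (nat_lit 5) (nat_lit 188) (nat_lit 5) (nat_lit 204) (nat_lit 5) (nat_lit 339) (nat_lit 335) (nat_lit 106)) (XT.nd (nat_lit 78) (nat_lit 0) (nat_lit 0) (XT.lf (nat_lit 0) (nat_lit 18509163328) (nat_lit 1140) (nat_lit 21587110509) (nat_lit 1216) (nat_lit 432524183) (nat_lit 189) (nat_lit 5) (nat_lit 204) (nat_lit 5) (nat_lit 205) (nat_lit 5) (nat_lit 340) (nat_lit 335) (nat_lit 105)) (XT.lf (nat_lit 0) (nat_lit 19736044608) (nat_lit 1140) (nat_lit 3173388341) (nat_lit 1216) (nat_lit 18244224263)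 (nat_lit 189) (nat_lit 5) (nat_lit 204) (nat_lit 5) (nat_lit 205) (nat_lit 5) (nat_lit 341) (nat_lit 335) (nat_lit 104))))) (XT.nd (nat_lit 234) (nat_lit 0) (nat_lit 152) (XT.nd (nat_lit 78) (nat_lit 0) (nat_lit 76) (XT.lf (nat_lit 76) (nat_lit 16106101455) (nat_lit 0) (nat_lit 5046974971) (nat_lit 1216) (nat_lit 20639587434) (nat_lit 190) (nat_lit 5) (nat_lit 189) (nat_lit 5) (nat_lit 205) (nat_lit 5) (nat_lit 342) (nat_lit 335) (nat_lit 103)) (XT.nd (nat_lit 78) (nat_lit 0) (nat_lit 0) (XT.lf (nat_lit 0) (nat_lit 22771884451) (nat_lit 1140) (nat_lit 6550483946) (nat_lit 1216) (nat_lit 13123696296) (nat_lit 190) (nat_lit 5) (nat_lit 205) (nat_lit 5) (nat_lit 206) (nat_lit 5) (nat_lit 343) (nat_lit 335) (nat_lit 102)) (XT.lf (nat_lit 76) (nat_lit 13369652030) (nat_lit 0) (nat_lit 11246695473) (nat_lit 1216) (nat_lit 18497409213) (nat_lit 191) (nat_lit 5) (nat_lit 190) (nat_lit 5) (nat_lit 206)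 (nat_lit 5) (nat_lit 344) (nat_lit 335) (nat_lit 101)))) (XT.nd (nat_lit 156) (nat_lit 0) (nat_lit 76) (XT.nd (nat_lit 78) (nat_lit 0) (nat_lit 0) (XT.lf (nat_lit 0) (nat_lit 26652442626) (nat_lit 1140) (nat_lit 9850318861) (nat_lit 1216) (nat_lit 7294630900) (nat_lit 191) (nat_lit 5) (nat_lit 206) (nat_lit 5) (nat_lit 207) (nat_lit 5) (nat_lit 345) (nat_lit 335) (nat_lit 100)) (XT.lf (nat_lit 76) (nat_lit 10737500550) (nat_lit 0) (nat_lit 18225367800) (nat_lit 1216) (nat_lit 15532273123) (nat_lit 192) (nat_lit 5) (nat_lit 191) (nat_lit 5) (nat_lit 207) (nat_lit 5) (nat_lit 346) (nat_lit 335) (nat_lit 99))) (XT.nd (nat_lit 78) (nat_lit 0) (nat_lit 0) (XT.lf (nat_lit 0) (nat_lit 31447543145) (nat_lit 1140) (nat_lit 13073706635) (nat_lit 1216) (nat_lit 689426892) (nat_lit 192) (nat_lit 5) (nat_lit 207) (nat_lit 5) (nat_lit 208) (nat_lit 5) (nat_lit 347) (nat_lit 335) (nat_lit 98)) (XT.lf (nat_lit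 76) (nat_lit 8209534527) (nat_lit 0) (nat_lit 26055337075) (nat_lit 1216) (nat_lit 11675064599) (nat_lit 193) (nat_lit 5) (nat_lit 192) (nat_lit 5) (nat_lit 208) (nat_lit 5) (nat_lit 348) (nat_lit 335) (nat_lit 97))))))) (XT.nd (nat_lit 1014) (nat_lit 3192) (nat_lit 0) (XT.nd (nat_lit 468) (nat_lit 1672) (nat_lit 0) (XT.nd (nat_lit 234) (nat_lit 1672) (nat_lit 0) (XT.nd (nat_lit 78) (nat_lit 0) (nat_lit 76) (XT.lf (nat_lit 76) (nat_lit 30398320946) (nat_lit 0) (nat_lit 6899194235) (nat_lit 1216) (nat_lit 9389636105) (nat_lit 193) (nat_lit 5) (nat_lit 192) (nat_lit 5) (nat_lit 208) (nat_lit 5) (nat_lit 349) (nat_lit 335) (nat_lit 96)) (XT.nd (nat_lit 78) (nat_lit 0) (nat_lit 0) (XT.lf (nat_lit 76) (nat_lit 5784557944) (nat_lit 0) (nat_lit 34814344991) (nat_lit 1216) (nat_lit 6852548524) (nat_lit 194) (nat_lit 5) (nat_lit 193) (nat_lit 5) (nat_lit 209) (nat_lit 5) (nat_lit 350) (nat_lit 335) (nat_lit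 95)) (XT.lf (nat_lit 76) (nat_lit 28783431788) (nat_lit 0) (nat_lit 15446864959) (nat_lit 1216) (nat_lit 4001456492) (nat_lit 194) (nat_lit 5) (nat_lit 193) (nat_lit 5) (nat_lit 209) (nat_lit 5) (nat_lit 351) (nat_lit 335) (nat_lit 94)))) (XT.nd (nat_lit 78) (nat_lit 684) (nat_lit 0) (XT.lf (nat_lit 0) (nat_lit 3460091848) (nat_lit 1140) (nat_lit 44585949295) (nat_lit 1216) (nat_lit 987162156) (nat_lit 179) (nat_lit 5) (nat_lit 194) (nat_lit 5) (nat_lit 195) (nat_lit 5) (nat_lit 352) (nat_lit 335) (nat_lit 93)) (XT.nd (nat_lit 78) (nat_lit 608) (nat_lit 0) (XT.lf (nat_lit 0) (nat_lit 2426400399) (nat_lit 1216) (nat_lit 22574591486) (nat_lit 76) (nat_lit 24846590904) (nat_lit 178) (nat_lit 5) (nat_lit 194) (nat_lit 5) (nat_lit 179) (nat_lit 5) (nat_lit 353) (nat_lit 335) (nat_lit 92)) (XT.lf (nat_lit 0) (nat_lit 1125117338) (nat_lit 608) (nat_lit 4807146253) (nat_lit 684) (nat_lit 44753546176)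 (nat_lit 170) (nat_lit 5) (nat_lit 178) (nat_lit 5) (nat_lit 179) (nat_lit 5) (nat_lit 354) (nat_lit 335) (nat_lit 91))))) (XT.nd (nat_lit 234) (nat_lit 1064) (nat_lit 0) (XT.nd (nat_lit 78) (nat_lit 608) (nat_lit 0) (XT.lf (nat_lit 0) (nat_lit 9926191669) (nat_lit 684) (nat_lit 25700730091) (nat_lit 76) (nat_lit 15910776449) (nat_lit 170) (nat_lit 5) (nat_lit 179) (nat_lit 5) (nat_lit 171) (nat_lit 5) (nat_lit 355) (nat_lit 335) (nat_lit 90)) (XT.nd (nat_lit 78) (nat_lit 608) (nat_lit 0) (XT.lf (nat_lit 0) (nat_lit 14086506907) (nat_lit 684) (nat_lit 1173508925) (nat_lit 76) (nat_lit 37153731679) (nat_lit 170) (nat_lit 5) (nat_lit 179) (nat_lit 5) (nat_lit 171) (nat_lit 5) (nat_lit 356) (nat_lit 335) (nat_lit 89)) (XT.lf (nat_lit 0) (nat_lit 18664101095) (nat_lit 684) (nat_lit 28798305020) (nat_lit 76) (nat_lit 5844899339) (nat_lit 162) (nat_lit 5) (nat_lit 171) (nat_lit 5) (nat_lit 163) (nat_lit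 5) (nat_lit 357) (nat_lit 335) (nat_lit 88)))) (XT.nd (nat_lit 156) (nat_lit 532) (nat_lit 0) (XT.nd (nat_lit 78) (nat_lit 532) (nat_lit 0) (XT.lf (nat_lit 0) (nat_lit 23541104485) (nat_lit 684) (nat_lit 3393419548) (nat_lit 76) (nat_lit 27288284874) (nat_lit 162) (nat_lit 5) (nat_lit 171) (nat_lit 5) (nat_lit 163) (nat_lit 5) (nat_lit 358) (nat_lit 335) (nat_lit 87)) (XT.lf (nat_lit 0) (nat_lit 23225922057) (nat_lit 532) (nat_lit 5560810740) (nat_lit 608) (nat_lit 26372376396) (nat_lit 155) (nat_lit 5) (nat_lit 162) (nat_lit 5) (nat_lit 163) (nat_lit 5) (nat_lit 359) (nat_lit 335) (nat_lit 86))) (XT.nd (nat_lit 78) (nat_lit 532) (nat_lit 0) (XT.lf (nat_lit 0) (nat_lit 34381575322) (nat_lit 608) (nat_lit 5568503195) (nat_lit 76) (nat_lit 16167665753) (nat_lit 155) (nat_lit 5) (nat_lit 163) (nat_lit 5) (nat_lit 156) (nat_lit 5) (nat_lit 360) (nat_lit 335) (nat_lit 85)) (XT.lf (nat_lit 0) (nat_lit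 21959671047) (nat_lit 532) (nat_lit 18449838617) (nat_lit 608) (nat_lit 16687672448) (nat_lit 148) (nat_lit 5) (nat_lit 155) (nat_lit 5) (nat_lit 156) (nat_lit 5) (nat_lit 361) (nat_lit 335) (nat_lit 84)))))) (XT.nd (nat_lit 546) (nat_lit 1672) (nat_lit 0) (XT.nd (nat_lit 234) (nat_lit 988) (nat_lit 0) (XT.nd (nat_lit 78) (nat_lit 532) (nat_lit 0) (XT.lf (nat_lit 0) (nat_lit 46709708986) (nat_lit 608) (nat_lit 7713479595) (nat_lit 76) (nat_lit 3680072776) (nat_lit 148) (nat_lit 5) (nat_lit 156) (nat_lit 5) (nat_lit 149) (nat_lit 5) (nat_lit 362) (nat_lit 335) (nat_lit 83)) (XT.nd (nat_lit 78) (nat_lit 76) (nat_lit 0) (XT.lf (nat_lit 0) (nat_lit 20754703533) (nat_lit 456) (nat_lit 32825531774) (nat_lit 532) (nat_lit 5547849089) (nat_lit 142) (nat_lit 5) (nat_lit 148) (nat_lit 5) (nat_lit 149) (nat_lit 5) (nat_lit 363) (nat_lit 335) (nat_lit 82)) (XT.lf (nat_lit 0) (nat_lit 541802742) (nat_lit 532)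 (nat_lit 9952490356) (nat_lit 76) (nat_lit 49686889188) (nat_lit 141) (nat_lit 5) (nat_lit 148) (nat_lit 5) (nat_lit 142) (nat_lit 5) (nat_lit 364) (nat_lit 335) (nat_lit 81)))) (XT.nd (nat_lit 156) (nat_lit 456) (nat_lit 0) (XT.nd (nat_lit 78) (nat_lit 0) (nat_lit 0) (XT.lf (nat_lit 0) (nat_lit 7013324069) (nat_lit 608) (nat_lit 41732588010) (nat_lit 76) (nat_lit 12508993531) (nat_lit 134) (nat_lit 5) (nat_lit 142) (nat_lit 5) (nat_lit 135) (nat_lit 5) (nat_lit 365) (nat_lit 335) (nat_lit 80)) (XT.lf (nat_lit 0) (nat_lit 13883580048) (nat_lit 608) (nat_lit 12378233870) (nat_lit 76) (nat_lit 36092889972) (nat_lit 134) (nat_lit 5) (nat_lit 142) (nat_lit 5) (nat_lit 135) (nat_lit 5) (nat_lit 366) (nat_lit 335) (nat_lit 79))) (XT.nd (nat_lit 78) (nat_lit 0) (nat_lit 0) (XT.lf (nat_lit 0) (nat_lit 18211248627) (nat_lit 456) (nat_lit 2922965778) (nat_lit 532) (nat_lit 42348054496) (nat_lit 128) (nat_lit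 5) (nat_lit 134) (nat_lit 5) (nat_lit 135) (nat_lit 5) (nat_lit 367) (nat_lit 335) (nat_lit 78)) (XT.lf (nat_lit 0) (nat_lit 28930808469) (nat_lit 532) (nat_lit 14872855669) (nat_lit 76) (nat_lit 20830144378) (nat_lit 128) (nat_lit 5) (nat_lit 135) (nat_lit 5) (nat_lit 129) (nat_lit 5) (nat_lit 368) (nat_lit 335) (nat_lit 77))))) (XT.nd (nat_lit 234) (nat_lit 836) (nat_lit 0) (XT.nd (nat_lit 78) (nat_lit 380) (nat_lit 0) (XT.lf (nat_lit 0) (nat_lit 16733995907) (nat_lit 456) (nat_lit 20416351459) (nat_lit 532) (nat_lit 28663876393) (nat_lit 122) (nat_lit 5) (nat_lit 128) (nat_lit 5) (nat_lit 129) (nat_lit 5) (nat_lit 369) (nat_lit 335) (nat_lit 76)) (XT.nd (nat_lit 78) (nat_lit 380) (nat_lit 0) (XT.lf (nat_lit 0) (nat_lit 45802711160) (nat_lit 532) (nat_lit 17469275635) (nat_lit 76) (nat_lit 3752478327) (nat_lit 122) (nat_lit 5) (nat_lit 129) (nat_lit 5) (nat_lit 123) (nat_lit 5) (nat_lit 370)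 (nat_lit 335) (nat_lit 75)) (XT.lf (nat_lit 0) (nat_lit 15183297588) (nat_lit 380) (nat_lit 39878724975) (nat_lit 456) (nat_lit 13198570664) (nat_lit 117) (nat_lit 5) (nat_lit 122) (nat_lit 5) (nat_lit 123) (nat_lit 5) (nat_lit 371) (nat_lit 335) (nat_lit 74)))) (XT.nd (nat_lit 156) (nat_lit 380) (nat_lit 0) (XT.nd (nat_lit 78) (nat_lit 456) (nat_lit 0) (XT.lf (nat_lit 0) (nat_lit 49172713039) (nat_lit 380) (nat_lit 15602101972) (nat_lit 456) (nat_lit 4753719890) (nat_lit 117) (nat_lit 5) (nat_lit 122) (nat_lit 5) (nat_lit 123) (nat_lit 5) (nat_lit 372) (nat_lit 335) (nat_lit 73)) (XT.lf (nat_lit 0) (nat_lit 4089342311) (nat_lit 456) (nat_lit 57348118483) (nat_lit 76) (nat_lit 9389262158) (nat_lit 111) (nat_lit 5) (nat_lit 117) (nat_lit 5) (nat_lit 112) (nat_lit 5) (nat_lit 373) (nat_lit 335) (nat_lit 72))) (XT.nd (nat_lit 78) (nat_lit 380) (nat_lit 0) (XT.lf (nat_lit 0) (nat_lit 13463536789)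 (nat_lit 456) (nat_lit 23616769675) (nat_lit 76) (nat_lit 35071297331) (nat_lit 111) (nat_lit 5) (nat_lit 117) (nat_lit 5) (nat_lit 112) (nat_lit 5) (nat_lit 374) (nat_lit 335) (nat_lit 71)) (XT.lf (nat_lit 0) (nat_lit 11347127730) (nat_lit 380) (nat_lit 11880244848) (nat_lit 456) (nat_lit 50285606714) (nat_lit 106) (nat_lit 5) (nat_lit 111) (nat_lit 5) (nat_lit 112) (nat_lit 5) (nat_lit 375) (nat_lit 335) (nat_lit 70))))))))
noncomputable def xc246 : XT := (XT.nd (nat_lit 39156) (nat_lit 0) (nat_lit 380) (XT.nd (nat_lit 38142) (nat_lit 0) (nat_lit 5624) (XT.nd (nat_lit 37596) (nat_lit 0) (nat_lit 6916) (XT.nd (nat_lit 234) (nat_lit 380) (nat_lit 0) (XT.nd (nat_lit 78) (nat_lit 380) (nat_lit 0) (XT.lf (nat_lit 0) (nat_lit 33659622988) (nat_lit 456) (nat_lit 27202471285) (nat_lit 76) (nat_lit 14041837462) (nat_lit 106) (nat_lit 5) (nat_lit 112) (nat_lit 5) (nat_lit 107) (nat_lit 5) (nat_lit 376)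 (nat_lit 335) (nat_lit 69)) (XT.nd (nat_lit 78) (nat_lit 0) (nat_lit 0) (XT.lf (nat_lit 0) (nat_lit 8864358007) (nat_lit 380) (nat_lit 35742687541) (nat_lit 456) (nat_lit 31723501718) (nat_lit 101) (nat_lit 5) (nat_lit 106) (nat_lit 5) (nat_lit 107) (nat_lit 5) (nat_lit 377) (nat_lit 335) (nat_lit 68)) (XT.lf (nat_lit 0) (nat_lit 46570022275) (nat_lit 380) (nat_lit 9586939704) (nat_lit 456) (nat_lit 21634777781) (nat_lit 101) (nat_lit 5) (nat_lit 106) (nat_lit 5) (nat_lit 107) (nat_lit 5) (nat_lit 378) (nat_lit 335) (nat_lit 67)))) (XT.nd (nat_lit 78) (nat_lit 76) (nat_lit 0) (XT.lf (nat_lit 0) (nat_lit 6060755501) (nat_lit 304) (nat_lit 62217088385) (nat_lit 380) (nat_lit 11012190715) (nat_lit 97) (nat_lit 5) (nat_lit 101) (nat_lit 5) (nat_lit 102) (nat_lit 5) (nat_lit 379) (nat_lit 335) (nat_lit 66)) (XT.nd (nat_lit 37206) (nat_lit 0) (nat_lit 6916) (XT.lf (nat_lit 0) (nat_lit 343177524) (nat_lit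 380) (nat_lit 35820255287) (nat_lit 76) (nat_lit 44657484923) (nat_lit 96) (nat_lit 5) (nat_lit 101) (nat_lit 5) (nat_lit 97) (nat_lit 5) (nat_lit 380) (nat_lit 335) (nat_lit 65)) (XT.lf (nat_lit 0) (nat_lit 3917700823) (nat_lit 0) (nat_lit 3917700823) (nat_lit 1140) (nat_lit 11527219502) (nat_lit 187) (nat_lit 5) (nat_lit 187) (nat_lit 3) (nat_lit 202) (nat_lit 3) (nat_lit 336) (nat_lit 336) (nat_lit 108))))) (XT.nd (nat_lit 234) (nat_lit 0) (nat_lit 76) (XT.nd (nat_lit 78) (nat_lit 0) (nat_lit 0) (XT.lf (nat_lit 0) (nat_lit 16041264448) (nat_lit 1140) (nat_lit 13678879754) (nat_lit 1216) (nat_lit 9581858685) (nat_lit 187) (nat_lit 5) (nat_lit 202) (nat_lit 3) (nat_lit 203) (nat_lit 5) (nat_lit 337) (nat_lit 336) (nat_lit 107)) (XT.nd (nat_lit 78) (nat_lit 0) (nat_lit 76) (XT.lf (nat_lit 76) (nat_lit 4048974280) (nat_lit 0) (nat_lit 12488754346) (nat_lit 1216) (nat_lit 23354893182) (nat_lit 188)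 (nat_lit 5) (nat_lit 187) (nat_lit 5) (nat_lit 203) (nat_lit 5) (nat_lit 338) (nat_lit 336) (nat_lit 106)) (XT.lf (nat_lit 0) (nat_lit 17237577719) (nat_lit 1140) (nat_lit 17960588882) (nat_lit 1216) (nat_lit 5297140091) (nat_lit 188) (nat_lit 5) (nat_lit 203) (nat_lit 5) (nat_lit 204) (nat_lit 5) (nat_lit 339) (nat_lit 336) (nat_lit 105)))) (XT.nd (nat_lit 156) (nat_lit 0) (nat_lit 76) (XT.nd (nat_lit 78) (nat_lit 0) (nat_lit 76) (XT.lf (nat_lit 76) (nat_lit 341077654) (nat_lit 0) (nat_lit 17742755115) (nat_lit 1216) (nat_lit 23028479100) (nat_lit 189) (nat_lit 5) (nat_lit 188) (nat_lit 5) (nat_lit 204) (nat_lit 5) (nat_lit 340) (nat_lit 336) (nat_lit 104)) (XT.lf (nat_lit 0) (nat_lit 19139431951) (nat_lit 1140) (nat_lit 22187416987) (nat_lit 1216) (nat_lit 415461572) (nat_lit 189) (nat_lit 5) (nat_lit 204) (nat_lit 5) (nat_lit 205) (nat_lit 5) (nat_lit 341) (nat_lit 336) (nat_lit 103))) (XT.nd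 (nat_lit 78) (nat_lit 0) (nat_lit 0) (XT.lf (nat_lit 0) (nat_lit 20400935387) (nat_lit 1140) (nat_lit 3222661024) (nat_lit 1216) (nat_lit 18762387556) (nat_lit 189) (nat_lit 5) (nat_lit 204) (nat_lit 5) (nat_lit 205) (nat_lit 5) (nat_lit 342) (nat_lit 336) (nat_lit 102)) (XT.lf (nat_lit 76) (nat_lit 16634763183) (nat_lit 0) (nat_lit 5224031482) (nat_lit 1216) (nat_lit 21185419528) (nat_lit 190) (nat_lit 5) (nat_lit 189) (nat_lit 5) (nat_lit 205) (nat_lit 5) (nat_lit 343) (nat_lit 336) (nat_lit 101)))))) (XT.nd (nat_lit 468) (nat_lit 1520) (nat_lit 0) (XT.nd (nat_lit 234) (nat_lit 0) (nat_lit 76) (XT.nd (nat_lit 78) (nat_lit 0) (nat_lit 0) (XT.lf (nat_lit 0) (nat_lit 23523855945) (nat_lit 1140) (nat_lit 6700440402) (nat_lit 1216) (nat_lit 13492992824) (nat_lit 190) (nat_lit 5) (nat_lit 205) (nat_lit 5) (nat_lit 206) (nat_lit 5) (nat_lit 344) (nat_lit 336) (nat_lit 100)) (XT.nd (nat_lit 78) (nat_lit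 0) (nat_lit 76) (XT.lf (nat_lit 76) (nat_lit 13816843202) (nat_lit 0) (nat_lit 11605248524) (nat_lit 1216) (nat_lit 18982969772) (nat_lit 191) (nat_lit 5) (nat_lit 190) (nat_lit 5) (nat_lit 206) (nat_lit 5) (nat_lit 345) (nat_lit 336) (nat_lit 99)) (XT.lf (nat_lit 0) (nat_lit 27517113448) (nat_lit 1140) (nat_lit 10098825652) (nat_lit 1216) (nat_lit 7493334456) (nat_lit 191) (nat_lit 5) (nat_lit 206) (nat_lit 5) (nat_lit 207) (nat_lit 5) (nat_lit 346) (nat_lit 336) (nat_lit 98)))) (XT.nd (nat_lit 78) (nat_lit 0) (nat_lit 76) (XT.lf (nat_lit 76) (nat_lit 11106167529) (nat_lit 0) (nat_lit 18789235760) (nat_lit 1216) (nat_lit 15932597841) (nat_lit 192) (nat_lit 5) (nat_lit 191) (nat_lit 5) (nat_lit 207) (nat_lit 5) (nat_lit 347) (nat_lit 336) (nat_lit 97)) (XT.nd (nat_lit 78) (nat_lit 0) (nat_lit 0) (XT.lf (nat_lit 0) (nat_lit 32452604824) (nat_lit 1140) (nat_lit 13418635317) (nat_lit 1216) (nat_lit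 693825128) (nat_lit 192) (nat_lit 5) (nat_lit 207) (nat_lit 5) (nat_lit 208) (nat_lit 5) (nat_lit 348) (nat_lit 336) (nat_lit 96)) (XT.lf (nat_lit 76) (nat_lit 8502639526) (nat_lit 0) (nat_lit 26850468457) (nat_lit 1216) (nat_lit 11963137363) (nat_lit 193) (nat_lit 5) (nat_lit 192) (nat_lit 5) (nat_lit 208) (nat_lit 5) (nat_lit 349) (nat_lit 336) (nat_lit 95))))) (XT.nd (nat_lit 234) (nat_lit 1672) (nat_lit 0) (XT.nd (nat_lit 78) (nat_lit 0) (nat_lit 76) (XT.lf (nat_lit 76) (nat_lit 31355725879) (nat_lit 0) (nat_lit 7119248964) (nat_lit 1216) (nat_lit 9610957059) (nat_lit 193) (nat_lit 5) (nat_lit 192) (nat_lit 5) (nat_lit 208) (nat_lit 5) (nat_lit 350) (nat_lit 336) (nat_lit 94)) (XT.nd (nat_lit 78) (nat_lit 0) (nat_lit 0) (XT.lf (nat_lit 76) (nat_lit 6005044781) (nat_lit 0) (nat_lit 35868983821) (nat_lit 1216) (nat_lit 6999176015) (nat_lit 194) (nat_lit 5) (nat_lit 193) (nat_lit 5) (nat_lit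 209) (nat_lit 5) (nat_lit 351) (nat_lit 336) (nat_lit 93)) (XT.lf (nat_lit 76) (nat_lit 29692517361) (nat_lit 0) (nat_lit 15920182054) (nat_lit 1216) (nat_lit 4064268182) (nat_lit 194) (nat_lit 5) (nat_lit 193) (nat_lit 5) (nat_lit 209) (nat_lit 5) (nat_lit 352) (nat_lit 336) (nat_lit 92)))) (XT.nd (nat_lit 156) (nat_lit 608) (nat_lit 0) (XT.nd (nat_lit 78) (nat_lit 76) (nat_lit 0) (XT.lf (nat_lit 0) (nat_lit 3610845870) (nat_lit 1140) (nat_lit 45930812777) (nat_lit 1216) (nat_lit 960842376) (nat_lit 179) (nat_lit 5) (nat_lit 194) (nat_lit 5) (nat_lit 195) (nat_lit 5) (nat_lit 353) (nat_lit 336) (nat_lit 91)) (XT.lf (nat_lit 0) (nat_lit 2552438196) (nat_lit 1216) (nat_lit 23205118585) (nat_lit 76) (nat_lit 25583788922) (nat_lit 178) (nat_lit 5) (nat_lit 194) (nat_lit 5) (nat_lit 179) (nat_lit 5) (nat_lit 354) (nat_lit 336) (nat_lit 90))) (XT.nd (nat_lit 78) (nat_lit 0) (nat_lit 0) (XT.lf (nat_lit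 0) (nat_lit 1205123555) (nat_lit 608) (nat_lit 4957247490) (nat_lit 684) (nat_lit 46042383591) (nat_lit 170) (nat_lit 5) (nat_lit 178) (nat_lit 5) (nat_lit 179) (nat_lit 5) (nat_lit 355) (nat_lit 336) (nat_lit 89)) (XT.lf (nat_lit 0) (nat_lit 10274543398) (nat_lit 684) (nat_lit 26425209557) (nat_lit 76) (nat_lit 16382495883) (nat_lit 170) (nat_lit 5) (nat_lit 179) (nat_lit 5) (nat_lit 171) (nat_lit 5) (nat_lit 356) (nat_lit 336) (nat_lit 88))))))) (XT.nd (nat_lit 1014) (nat_lit 2052) (nat_lit 0) (XT.nd (nat_lit 468) (nat_lit 1520) (nat_lit 0) (XT.nd (nat_lit 234) (nat_lit 1064) (nat_lit 0) (XT.nd (nat_lit 78) (nat_lit 608) (nat_lit 0) (XT.lf (nat_lit 0) (nat_lit 14558195297) (nat_lit 684) (nat_lit 1163527361) (nat_lit 76) (nat_lit 38262902989) (nat_lit 170) (nat_lit 5) (nat_lit 179) (nat_lit 5) (nat_lit 171) (nat_lit 5) (nat_lit 357) (nat_lit 336) (nat_lit 87)) (XT.nd (nat_lit 78) (nat_lit 0)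 (nat_lit 0) (XT.lf (nat_lit 0) (nat_lit 19272085320) (nat_lit 684) (nat_lit 29615975645) (nat_lit 76) (nat_lit 6016962115) (nat_lit 162) (nat_lit 5) (nat_lit 171) (nat_lit 5) (nat_lit 163) (nat_lit 5) (nat_lit 358) (nat_lit 336) (nat_lit 86)) (XT.lf (nat_lit 0) (nat_lit 24293998971) (nat_lit 684) (nat_lit 3450291527) (nat_lit 76) (nat_lit 28103744872) (nat_lit 162) (nat_lit 5) (nat_lit 171) (nat_lit 5) (nat_lit 163) (nat_lit 5) (nat_lit 359) (nat_lit 336) (nat_lit 85)))) (XT.nd (nat_lit 78) (nat_lit 532) (nat_lit 0) (XT.lf (nat_lit 0) (nat_lit 23967189830) (nat_lit 532) (nat_lit 5728874899) (nat_lit 608) (nat_lit 27116389566) (nat_lit 155) (nat_lit 5) (nat_lit 162) (nat_lit 5) (nat_lit 163) (nat_lit 5) (nat_lit 360) (nat_lit 336) (nat_lit 84)) (XT.nd (nat_lit 78) (nat_lit 532) (nat_lit 0) (XT.lf (nat_lit 0) (nat_lit 35457409020) (nat_lit 608) (nat_lit 5690965861) (nat_lit 76) (nat_lit 16651515489)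 (nat_lit 155) (nat_lit 5) (nat_lit 163) (nat_lit 5) (nat_lit 156) (nat_lit 5) (nat_lit 361) (nat_lit 336) (nat_lit 83)) (XT.lf (nat_lit 0) (nat_lit 22662616428) (nat_lit 532) (nat_lit 19002696603) (nat_lit 608) (nat_lit 17143425959) (nat_lit 148) (nat_lit 5) (nat_lit 155) (nat_lit 5) (nat_lit 156) (nat_lit 5) (nat_lit 362) (nat_lit 336) (nat_lit 82))))) (XT.nd (nat_lit 234) (nat_lit 988) (nat_lit 0) (XT.nd (nat_lit 78) (nat_lit 532) (nat_lit 0) (XT.lf (nat_lit 0) (nat_lit 48153256762) (nat_lit 608) (nat_lit 7900701739) (nat_lit 76) (nat_lit 3791081503) (nat_lit 148) (nat_lit 5) (nat_lit 156) (nat_lit 5) (nat_lit 149) (nat_lit 5) (nat_lit 363) (nat_lit 336) (nat_lit 81)) (XT.nd (nat_lit 78) (nat_lit 76) (nat_lit 0) (XT.lf (nat_lit 0) (nat_lit 21421093723) (nat_lit 456) (nat_lit 33807994919) (nat_lit 532) (nat_lit 5671544897) (nat_lit 142) (nat_lit 5) (nat_lit 148) (nat_lit 5) (nat_lit 149) (nat_lit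 5) (nat_lit 364) (nat_lit 336) (nat_lit 80)) (XT.lf (nat_lit 0) (nat_lit 598741931) (nat_lit 532) (nat_lit 10207733385) (nat_lit 76) (nat_lit 51178874757) (nat_lit 141) (nat_lit 5) (nat_lit 148) (nat_lit 5) (nat_lit 142) (nat_lit 5) (nat_lit 365) (nat_lit 336) (nat_lit 79)))) (XT.nd (nat_lit 156) (nat_lit 456) (nat_lit 0) (XT.nd (nat_lit 78) (nat_lit 0) (nat_lit 0) (XT.lf (nat_lit 0) (nat_lit 7263665125) (nat_lit 608) (nat_lit 42940444439) (nat_lit 76) (nat_lit 12887199218) (nat_lit 134) (nat_lit 5) (nat_lit 142) (nat_lit 5) (nat_lit 135) (nat_lit 5) (nat_lit 366) (nat_lit 336) (nat_lit 78)) (XT.lf (nat_lit 0) (nat_lit 14338865444) (nat_lit 608) (nat_lit 12706744758) (nat_lit 76) (nat_lit 37178527042) (nat_lit 134) (nat_lit 5) (nat_lit 142) (nat_lit 5) (nat_lit 135) (nat_lit 5) (nat_lit 367) (nat_lit 336) (nat_lit 77))) (XT.nd (nat_lit 78) (nat_lit 0) (nat_lit 0) (XT.lf (nat_lit 0) (nat_lit 18800002253)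 (nat_lit 456) (nat_lit 3006294852) (nat_lit 532) (nat_lit 43579255045) (nat_lit 128) (nat_lit 5) (nat_lit 134) (nat_lit 5) (nat_lit 135) (nat_lit 5) (nat_lit 368) (nat_lit 336) (nat_lit 76)) (XT.lf (nat_lit 0) (nat_lit 29835721245) (nat_lit 532) (nat_lit 15276750975) (nat_lit 76) (nat_lit 21459199022) (nat_lit 128) (nat_lit 5) (nat_lit 135) (nat_lit 5) (nat_lit 129) (nat_lit 5) (nat_lit 369) (nat_lit 336) (nat_lit 75)))))) (XT.nd (nat_lit 546) (nat_lit 380) (nat_lit 0) (XT.nd (nat_lit 234) (nat_lit 836) (nat_lit 0) (XT.nd (nat_lit 78) (nat_lit 380) (nat_lit 0) (XT.lf (nat_lit 0) (nat_lit 17277891537) (nat_lit 456) (nat_lit 21023279972) (nat_lit 532) (nat_lit 29486348897) (nat_lit 122) (nat_lit 5) (nat_lit 128) (nat_lit 5) (nat_lit 129) (nat_lit 5) (nat_lit 370) (nat_lit 336) (nat_lit 74)) (XT.nd (nat_lit 78) (nat_lit 380) (nat_lit 0) (XT.lf (nat_lit 0) (nat_lit 47212100444) (nat_lit 532) (nat_lit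 17951652591) (nat_lit 76) (nat_lit 3870347332) (nat_lit 122) (nat_lit 5) (nat_lit 129) (nat_lit 5) (nat_lit 123) (nat_lit 5) (nat_lit 371) (nat_lit 336) (nat_lit 73)) (XT.lf (nat_lit 0) (nat_lit 15680088992) (nat_lit 380) (nat_lit 41068470739) (nat_lit 456) (nat_lit 13558772678) (nat_lit 117) (nat_lit 5) (nat_lit 122) (nat_lit 5) (nat_lit 123) (nat_lit 5) (nat_lit 372) (nat_lit 336) (nat_lit 72)))) (XT.nd (nat_lit 156) (nat_lit 380) (nat_lit 0) (XT.nd (nat_lit 78) (nat_lit 456) (nat_lit 0) (XT.lf (nat_lit 0) (nat_lit 50687984213) (nat_lit 380) (nat_lit 16063741744) (nat_lit 456) (nat_lit 4861617792) (nat_lit 117) (nat_lit 5) (nat_lit 122) (nat_lit 5) (nat_lit 123) (nat_lit 5) (nat_lit 373) (nat_lit 336) (nat_lit 71)) (XT.lf (nat_lit 0) (nat_lit 4245522918) (nat_lit 456) (nat_lit 59027187707) (nat_lit 76) (nat_lit 9677773937) (nat_lit 111) (nat_lit 5) (nat_lit 117) (nat_lit 5) (nat_lit 112) (nat_lit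 5) (nat_lit 374) (nat_lit 336) (nat_lit 70))) (XT.nd (nat_lit 78) (nat_lit 380) (nat_lit 0) (XT.lf (nat_lit 0) (nat_lit 13899967492) (nat_lit 456) (nat_lit 24285103512) (nat_lit 76) (nat_lit 36130071120) (nat_lit 111) (nat_lit 5) (nat_lit 117) (nat_lit 5) (nat_lit 112) (nat_lit 5) (nat_lit 375) (nat_lit 336) (nat_lit 69)) (XT.lf (nat_lit 0) (nat_lit 11727316999) (nat_lit 380) (nat_lit 12228836383) (nat_lit 456) (nat_lit 51761223444) (nat_lit 106) (nat_lit 5) (nat_lit 111) (nat_lit 5) (nat_lit 112) (nat_lit 5) (nat_lit 376) (nat_lit 336) (nat_lit 68))))) (XT.nd (nat_lit 37518) (nat_lit 0) (nat_lit 6536) (XT.nd (nat_lit 78) (nat_lit 380) (nat_lit 0) (XT.lf (nat_lit 0) (nat_lit 34700513384) (nat_lit 456) (nat_lit 27979038481) (nat_lit 76) (nat_lit 14470532679) (nat_lit 106) (nat_lit 5) (nat_lit 112) (nat_lit 5) (nat_lit 107) (nat_lit 5) (nat_lit 377) (nat_lit 336) (nat_lit 67)) (XT.nd (nat_lit 78)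 (nat_lit 0) (nat_lit 0) (XT.lf (nat_lit 0) (nat_lit 9169408367) (nat_lit 380) (nat_lit 36806420420) (nat_lit 456) (nat_lit 32643686583) (nat_lit 101) (nat_lit 5) (nat_lit 106) (nat_lit 5) (nat_lit 107) (nat_lit 5) (nat_lit 378) (nat_lit 336) (nat_lit 66)) (XT.lf (nat_lit 0) (nat_lit 48005103156) (nat_lit 380) (nat_lit 9866249111) (nat_lit 456) (nat_lit 22253218991) (nat_lit 101) (nat_lit 5) (nat_lit 106) (nat_lit 5) (nat_lit 107) (nat_lit 5) (nat_lit 379) (nat_lit 336) (nat_lit 65)))) (XT.nd (nat_lit 156) (nat_lit 0) (nat_lit 0) (XT.nd (nat_lit 78) (nat_lit 0) (nat_lit 0) (XT.lf (nat_lit 0) (nat_lit 4055762239) (nat_lit 0) (nat_lit 4055762239) (nat_lit 1140) (nat_lit 11830687949) (nat_lit 187) (nat_lit 5) (nat_lit 187) (nat_lit 3) (nat_lit 202) (nat_lit 3) (nat_lit 337) (nat_lit 337) (nat_lit 106)) (XT.lf (nat_lit 0) (nat_lit 16601848852) (nat_lit 1140) (nat_lit 14046498385) (nat_lit 1216) (nat_lit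 9830227514) (nat_lit 187) (nat_lit 5) (nat_lit 202) (nat_lit 3) (nat_lit 203) (nat_lit 5) (nat_lit 338) (nat_lit 337) (nat_lit 105))) (XT.nd (nat_lit 78) (nat_lit 0) (nat_lit 76) (XT.lf (nat_lit 76) (nat_lit 4212772175) (nat_lit 0) (nat_lit 12898530607) (nat_lit 1216) (nat_lit 23975669723) (nat_lit 188) (nat_lit 5) (nat_lit 187) (nat_lit 5) (nat_lit 203) (nat_lit 5) (nat_lit 339) (nat_lit 337) (nat_lit 104)) (XT.lf (nat_lit 0) (nat_lit 17829564044) (nat_lit 1140) (nat_lit 18455625813) (nat_lit 1216) (nat_lit 5422628626) (nat_lit 188) (nat_lit 5) (nat_lit 203) (nat_lit 5) (nat_lit 204) (nat_lit 5) (nat_lit 340) (nat_lit 337) (nat_lit 103))))))))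
noncomputable def xc247 : XT := (XT.nd (nat_lit 2106) (nat_lit 2508) (nat_lit 0) (XT.nd (nat_lit 1014) (nat_lit 4104) (nat_lit 0) (XT.nd (nat_lit 468) (nat_lit 0) (nat_lit 228) (XT.nd (nat_lit 234) (nat_lit 0) (nat_lit 76) (XT.nd (nat_lit 78) (nat_lit 0) (nat_lit 76) (XT.lf (nat_lit 76) (nat_lit 394661496) (nat_lit 0) (nat_lit 18304781612) (nat_lit 1216) (nat_lit 23643946578) (nat_lit 189) (nat_lit 5) (nat_lit 188) (nat_lit 5) (nat_lit 204) (nat_lit 5) (nat_lit 341) (nat_lit 337) (nat_lit 102)) (XT.nd (nat_lit 78) (nat_lit 0) (nat_lit 0) (XT.lf (nat_lit 0) (nat_lit 19784303687) (nat_lit 1140) (nat_lit 22808448266) (nat_lit 1216) (nat_lit 399611405) (nat_lit 189) (nat_lit 5) (nat_lit 204) (nat_lit 5) (nat_lit 205) (nat_lit 5) (nat_lit 342) (nat_lit 337) (nat_lit 101)) (XT.lf (nat_lit 0) (nat_lit 21081593329) (nat_lit 1140) (nat_lit 3276048397) (nat_lit 1216) (nat_lit 19297769849) (nat_lit 189)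 (nat_lit 5) (nat_lit 204) (nat_lit 5) (nat_lit 205) (nat_lit 5) (nat_lit 343) (nat_lit 337) (nat_lit 100)))) (XT.nd (nat_lit 78) (nat_lit 0) (nat_lit 76) (XT.lf (nat_lit 76) (nat_lit 17176674100) (nat_lit 0) (nat_lit 5404927430) (nat_lit 1216) (nat_lit 21751837493) (nat_lit 190) (nat_lit 5) (nat_lit 189) (nat_lit 5) (nat_lit 205) (nat_lit 5) (nat_lit 344) (nat_lit 337) (nat_lit 99)) (XT.nd (nat_lit 78) (nat_lit 0) (nat_lit 0) (XT.lf (nat_lit 0) (nat_lit 24294436323) (nat_lit 1140) (nat_lit 6857568175) (nat_lit 1216) (nat_lit 13874769733) (nat_lit 190) (nat_lit 5) (nat_lit 205) (nat_lit 5) (nat_lit 206) (nat_lit 5) (nat_lit 345) (nat_lit 337) (nat_lit 98)) (XT.lf (nat_lit 76) (nat_lit 14274803687) (nat_lit 0) (nat_lit 11973343945) (nat_lit 1216) (nat_lit 19487078795) (nat_lit 191) (nat_lit 5) (nat_lit 190) (nat_lit 5) (nat_lit 206) (nat_lit 5) (nat_lit 346) (nat_lit 337) (nat_lit 97))))) (XT.nd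 (nat_lit 234) (nat_lit 0) (nat_lit 76) (XT.nd (nat_lit 78) (nat_lit 0) (nat_lit 0) (XT.lf (nat_lit 0) (nat_lit 28403987530) (nat_lit 1140) (nat_lit 10357485799) (nat_lit 1216) (nat_lit 7699154972) (nat_lit 191) (nat_lit 5) (nat_lit 206) (nat_lit 5) (nat_lit 207) (nat_lit 5) (nat_lit 347) (nat_lit 337) (nat_lit 96)) (XT.nd (nat_lit 78) (nat_lit 0) (nat_lit 76) (XT.lf (nat_lit 76) (nat_lit 11483222819) (nat_lit 0) (nat_lit 19369037751) (nat_lit 1216) (nat_lit 16348700504) (nat_lit 192) (nat_lit 5) (nat_lit 191) (nat_lit 5) (nat_lit 207) (nat_lit 5) (nat_lit 348) (nat_lit 337) (nat_lit 95)) (XT.lf (nat_lit 0) (nat_lit 33484280230) (nat_lit 1140) (nat_lit 13776626070) (nat_lit 1216) (nat_lit 699290111) (nat_lit 192) (nat_lit 5) (nat_lit 207) (nat_lit 5) (nat_lit 208) (nat_lit 5) (nat_lit 349) (nat_lit 337) (nat_lit 94)))) (XT.nd (nat_lit 156) (nat_lit 0) (nat_lit 76) (XT.nd (nat_lit 78) (nat_lit 0)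 (nat_lit 0) (XT.lf (nat_lit 76) (nat_lit 8801850075) (nat_lit 0) (nat_lit 27668680473) (nat_lit 1216) (nat_lit 12263421649) (nat_lit 193) (nat_lit 5) (nat_lit 192) (nat_lit 5) (nat_lit 208) (nat_lit 5) (nat_lit 350) (nat_lit 337) (nat_lit 93)) (XT.lf (nat_lit 76) (nat_lit 32339243639) (nat_lit 0) (nat_lit 7345154552) (nat_lit 1216) (nat_lit 9842383018) (nat_lit 193) (nat_lit 5) (nat_lit 192) (nat_lit 5) (nat_lit 208) (nat_lit 5) (nat_lit 351) (nat_lit 337) (nat_lit 92))) (XT.nd (nat_lit 78) (nat_lit 0) (nat_lit 0) (XT.lf (nat_lit 76) (nat_lit 6229451094) (nat_lit 0) (nat_lit 36954675808) (nat_lit 1216) (nat_lit 7153586243) (nat_lit 194) (nat_lit 5) (nat_lit 193) (nat_lit 5) (nat_lit 209) (nat_lit 5) (nat_lit 352) (nat_lit 337) (nat_lit 91)) (XT.lf (nat_lit 76) (nat_lit 30626258872) (nat_lit 0) (nat_lit 16407129721) (nat_lit 1216) (nat_lit 4132249574) (nat_lit 194) (nat_lit 5) (nat_lit 193) (nat_lit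 5) (nat_lit 209) (nat_lit 5) (nat_lit 353) (nat_lit 337) (nat_lit 90)))))) (XT.nd (nat_lit 546) (nat_lit 2128) (nat_lit 0) (XT.nd (nat_lit 234) (nat_lit 608) (nat_lit 0) (XT.nd (nat_lit 78) (nat_lit 684) (nat_lit 0) (XT.lf (nat_lit 0) (nat_lit 3763427318) (nat_lit 1140) (nat_lit 47315603974) (nat_lit 1216) (nat_lit 936943879) (nat_lit 179) (nat_lit 5) (nat_lit 194) (nat_lit 5) (nat_lit 195) (nat_lit 5) (nat_lit 354) (nat_lit 337) (nat_lit 89)) (XT.nd (nat_lit 78) (nat_lit 608) (nat_lit 0) (XT.lf (nat_lit 0) (nat_lit 2679200601) (nat_lit 1216) (nat_lit 23857242880) (nat_lit 76) (nat_lit 26343573577) (nat_lit 178) (nat_lit 5) (nat_lit 194) (nat_lit 5) (nat_lit 179) (nat_lit 5) (nat_lit 355) (nat_lit 337) (nat_lit 88)) (XT.lf (nat_lit 0) (nat_lit 1284874865) (nat_lit 608) (nat_lit 5111513834) (nat_lit 684) (nat_lit 47372972686) (nat_lit 170) (nat_lit 5) (nat_lit 178) (nat_lit 5) (nat_lit 179) (nat_lit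 5) (nat_lit 356) (nat_lit 337) (nat_lit 87)))) (XT.nd (nat_lit 156) (nat_lit 608) (nat_lit 0) (XT.nd (nat_lit 78) (nat_lit 0) (nat_lit 0) (XT.lf (nat_lit 0) (nat_lit 10630442985) (nat_lit 684) (nat_lit 27174095133) (nat_lit 76) (nat_lit 16868688585) (nat_lit 170) (nat_lit 5) (nat_lit 179) (nat_lit 5) (nat_lit 171) (nat_lit 5) (nat_lit 357) (nat_lit 337) (nat_lit 86)) (XT.lf (nat_lit 0) (nat_lit 15041216190) (nat_lit 684) (nat_lit 1155840259) (nat_lit 76) (nat_lit 39405661753) (nat_lit 170) (nat_lit 5) (nat_lit 179) (nat_lit 5) (nat_lit 171) (nat_lit 5) (nat_lit 358) (nat_lit 337) (nat_lit 85))) (XT.nd (nat_lit 78) (nat_lit 0) (nat_lit 0) (XT.lf (nat_lit 0) (nat_lit 19895550162) (nat_lit 684) (nat_lit 30460832965) (nat_lit 76) (nat_lit 6194375301) (nat_lit 162) (nat_lit 5) (nat_lit 171) (nat_lit 5) (nat_lit 163) (nat_lit 5) (nat_lit 359) (nat_lit 337) (nat_lit 84)) (XT.lf (nat_lit 0) (nat_lit 25066801738)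 (nat_lit 684) (nat_lit 3511448866) (nat_lit 76) (nat_lit 28943851706) (nat_lit 162) (nat_lit 5) (nat_lit 171) (nat_lit 5) (nat_lit 163) (nat_lit 5) (nat_lit 360) (nat_lit 337) (nat_lit 83))))) (XT.nd (nat_lit 234) (nat_lit 1064) (nat_lit 0) (XT.nd (nat_lit 78) (nat_lit 532) (nat_lit 0) (XT.lf (nat_lit 0) (nat_lit 24728141722) (nat_lit 532) (nat_lit 5901909812) (nat_lit 608) (nat_lit 27885430200) (nat_lit 155) (nat_lit 5) (nat_lit 162) (nat_lit 5) (nat_lit 163) (nat_lit 5) (nat_lit 361) (nat_lit 337) (nat_lit 82)) (XT.nd (nat_lit 78) (nat_lit 532) (nat_lit 0) (XT.lf (nat_lit 0) (nat_lit 36562969765) (nat_lit 608) (nat_lit 5819662194) (nat_lit 76) (nat_lit 17149948468) (nat_lit 155) (nat_lit 5) (nat_lit 163) (nat_lit 5) (nat_lit 156) (nat_lit 5) (nat_lit 362) (nat_lit 337) (nat_lit 81)) (XT.lf (nat_lit 0) (nat_lit 23384115478) (nat_lit 532) (nat_lit 19572176904) (nat_lit 608) (nat_lit 17615428178)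 (nat_lit 148) (nat_lit 5) (nat_lit 155) (nat_lit 5) (nat_lit 156) (nat_lit 5) (nat_lit 363) (nat_lit 337) (nat_lit 80)))) (XT.nd (nat_lit 156) (nat_lit 608) (nat_lit 0) (XT.nd (nat_lit 78) (nat_lit 456) (nat_lit 0) (XT.lf (nat_lit 0) (nat_lit 49637685274) (nat_lit 608) (nat_lit 8096076788) (nat_lit 76) (nat_lit 3905385674) (nat_lit 148) (nat_lit 5) (nat_lit 156) (nat_lit 5) (nat_lit 149) (nat_lit 5) (nat_lit 364) (nat_lit 337) (nat_lit 79)) (XT.lf (nat_lit 0) (nat_lit 22104964243) (nat_lit 456) (nat_lit 34820064149) (nat_lit 532) (nat_lit 5801405011) (nat_lit 142) (nat_lit 5) (nat_lit 148) (nat_lit 5) (nat_lit 149) (nat_lit 5) (nat_lit 365) (nat_lit 337) (nat_lit 78))) (XT.nd (nat_lit 78) (nat_lit 532) (nat_lit 0) (XT.lf (nat_lit 0) (nat_lit 655053804) (nat_lit 532) (nat_lit 10473121119) (nat_lit 76) (nat_lit 52715540739) (nat_lit 141) (nat_lit 5) (nat_lit 148) (nat_lit 5) (nat_lit 142) (nat_lit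 5) (nat_lit 366) (nat_lit 337) (nat_lit 77)) (XT.lf (nat_lit 0) (nat_lit 7519223616) (nat_lit 608) (nat_lit 44187069298) (nat_lit 76) (nat_lit 13276582545) (nat_lit 134) (nat_lit 5) (nat_lit 142) (nat_lit 5) (nat_lit 135) (nat_lit 5) (nat_lit 367) (nat_lit 337) (nat_lit 76))))))) (XT.nd (nat_lit 38376) (nat_lit 0) (nat_lit 6536) (XT.nd (nat_lit 468) (nat_lit 1216) (nat_lit 0) (XT.nd (nat_lit 234) (nat_lit 836) (nat_lit 0) (XT.nd (nat_lit 78) (nat_lit 456) (nat_lit 0) (XT.lf (nat_lit 0) (nat_lit 14805583385) (nat_lit 608) (nat_lit 13047569942) (nat_lit 76) (nat_lit 38296569601) (nat_lit 134) (nat_lit 5) (nat_lit 142) (nat_lit 5) (nat_lit 135) (nat_lit 5) (nat_lit 368) (nat_lit 337) (nat_lit 75)) (XT.nd (nat_lit 78) (nat_lit 0) (nat_lit 0) (XT.lf (nat_lit 0) (nat_lit 19403983625) (nat_lit 456) (nat_lit 3092374076) (nat_lit 532) (nat_lit 44849644209) (nat_lit 128) (nat_lit 5) (nat_lit 134) (nat_lit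 5) (nat_lit 135) (nat_lit 5) (nat_lit 369) (nat_lit 337) (nat_lit 74)) (XT.lf (nat_lit 0) (nat_lit 30765658112) (nat_lit 532) (nat_lit 15695190781) (nat_lit 76) (nat_lit 22106887059) (nat_lit 128) (nat_lit 5) (nat_lit 135) (nat_lit 5) (nat_lit 129) (nat_lit 5) (nat_lit 370) (nat_lit 337) (nat_lit 73)))) (XT.nd (nat_lit 78) (nat_lit 380) (nat_lit 0) (XT.lf (nat_lit 0) (nat_lit 17835700196) (nat_lit 456) (nat_lit 21648735625) (nat_lit 532) (nat_lit 30335645002) (nat_lit 122) (nat_lit 5) (nat_lit 128) (nat_lit 5) (nat_lit 129) (nat_lit 5) (nat_lit 371) (nat_lit 337) (nat_lit 72)) (XT.nd (nat_lit 78) (nat_lit 380) (nat_lit 0) (XT.lf (nat_lit 0) (nat_lit 48661744586) (nat_lit 532) (nat_lit 18450894681) (nat_lit 76) (nat_lit 3991448473) (nat_lit 122) (nat_lit 5) (nat_lit 129) (nat_lit 5) (nat_lit 123) (nat_lit 5) (nat_lit 372) (nat_lit 337) (nat_lit 71)) (XT.lf (nat_lit 0) (nat_lit 16189413782) (nat_lit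 380) (nat_lit 42294288660) (nat_lit 456) (nat_lit 13931833241) (nat_lit 117) (nat_lit 5) (nat_lit 122) (nat_lit 5) (nat_lit 123) (nat_lit 5) (nat_lit 373) (nat_lit 337) (nat_lit 70))))) (XT.nd (nat_lit 234) (nat_lit 760) (nat_lit 0) (XT.nd (nat_lit 78) (nat_lit 456) (nat_lit 0) (XT.lf (nat_lit 0) (nat_lit 52246412206) (nat_lit 380) (nat_lit 16539599432) (nat_lit 456) (nat_lit 4974745338) (nat_lit 117) (nat_lit 5) (nat_lit 122) (nat_lit 5) (nat_lit 123) (nat_lit 5) (nat_lit 374) (nat_lit 337) (nat_lit 69)) (XT.nd (nat_lit 78) (nat_lit 0) (nat_lit 0) (XT.lf (nat_lit 0) (nat_lit 4404465886) (nat_lit 456) (nat_lit 60759004063) (nat_lit 76) (nat_lit 9974548775) (nat_lit 111) (nat_lit 5) (nat_lit 117) (nat_lit 5) (nat_lit 112) (nat_lit 5) (nat_lit 375) (nat_lit 337) (nat_lit 68)) (XT.lf (nat_lit 0) (nat_lit 14347624071) (nat_lit 456) (nat_lit 24975793244) (nat_lit 76) (nat_lit 37220227253) (nat_lit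 111) (nat_lit 5) (nat_lit 117) (nat_lit 5) (nat_lit 112) (nat_lit 5) (nat_lit 376) (nat_lit 337) (nat_lit 67)))) (XT.nd (nat_lit 156) (nat_lit 380) (nat_lit 0) (XT.nd (nat_lit 78) (nat_lit 0) (nat_lit 0) (XT.lf (nat_lit 0) (nat_lit 12116628673) (nat_lit 380) (nat_lit 12588334324) (nat_lit 456) (nat_lit 53283000225) (nat_lit 106) (nat_lit 5) (nat_lit 111) (nat_lit 5) (nat_lit 112) (nat_lit 5) (nat_lit 377) (nat_lit 337) (nat_lit 66)) (XT.lf (nat_lit 0) (nat_lit 35770845126) (nat_lit 456) (nat_lit 28781170553) (nat_lit 76) (nat_lit 14911661661) (nat_lit 106) (nat_lit 5) (nat_lit 112) (nat_lit 5) (nat_lit 107) (nat_lit 5) (nat_lit 378) (nat_lit 337) (nat_lit 65))) (XT.nd (nat_lit 37440) (nat_lit 0) (nat_lit 6536) (XT.lf (nat_lit 0) (nat_lit 9481364612) (nat_lit 380) (nat_lit 37902555961) (nat_lit 456) (nat_lit 33593286381) (nat_lit 101) (nat_lit 5) (nat_lit 106) (nat_lit 5) (nat_lit 107) (nat_lit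 5) (nat_lit 379) (nat_lit 337) (nat_lit 64)) (XT.lf (nat_lit 0) (nat_lit 4196786969) (nat_lit 0) (nat_lit 4196786969) (nat_lit 1140) (nat_lit 12145691405) (nat_lit 187) (nat_lit 5) (nat_lit 187) (nat_lit 3) (nat_lit 202) (nat_lit 3) (nat_lit 338) (nat_lit 338) (nat_lit 104)))))) (XT.nd (nat_lit 546) (nat_lit 0) (nat_lit 228) (XT.nd (nat_lit 234) (nat_lit 0) (nat_lit 76) (XT.nd (nat_lit 78) (nat_lit 0) (nat_lit 0) (XT.lf (nat_lit 0) (nat_lit 17174695977) (nat_lit 1140) (nat_lit 14427599470) (nat_lit 1216) (nat_lit 10088291158) (nat_lit 187) (nat_lit 5) (nat_lit 202) (nat_lit 3) (nat_lit 203) (nat_lit 5) (nat_lit 339) (nat_lit 338) (nat_lit 103)) (XT.nd (nat_lit 78) (nat_lit 0) (nat_lit 76) (XT.lf (nat_lit 76) (nat_lit 4379054168) (nat_lit 0) (nat_lit 13318584490) (nat_lit 1216) (nat_lit 24619654439) (nat_lit 188) (nat_lit 5) (nat_lit 187) (nat_lit 5) (nat_lit 203) (nat_lit 5) (nat_lit 340) (nat_lit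 338) (nat_lit 102)) (XT.lf (nat_lit 0) (nat_lit 18435012747) (nat_lit 1140) (nat_lit 18968027045) (nat_lit 1216) (nat_lit 5553800587) (nat_lit 188) (nat_lit 5) (nat_lit 203) (nat_lit 5) (nat_lit 204) (nat_lit 5) (nat_lit 341) (nat_lit 338) (nat_lit 101)))) (XT.nd (nat_lit 156) (nat_lit 0) (nat_lit 76) (XT.nd (nat_lit 78) (nat_lit 0) (nat_lit 76) (XT.lf (nat_lit 76) (nat_lit 447364299) (nat_lit 0) (nat_lit 18881961486) (nat_lit 1216) (nat_lit 24282205595) (nat_lit 189) (nat_lit 5) (nat_lit 188) (nat_lit 5) (nat_lit 204) (nat_lit 5) (nat_lit 342) (nat_lit 338) (nat_lit 100)) (XT.lf (nat_lit 0) (nat_lit 20444463749) (nat_lit 1140) (nat_lit 23450670202) (nat_lit 1216) (nat_lit 384911074) (nat_lit 189) (nat_lit 5) (nat_lit 204) (nat_lit 5) (nat_lit 205) (nat_lit 5) (nat_lit 343) (nat_lit 338) (nat_lit 99))) (XT.nd (nat_lit 78) (nat_lit 0) (nat_lit 0) (XT.lf (nat_lit 0) (nat_lit 21778731374) (nat_lit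 1140) (nat_lit 3333522556) (nat_lit 1216) (nat_lit 19850791611) (nat_lit 189) (nat_lit 5) (nat_lit 204) (nat_lit 5) (nat_lit 205) (nat_lit 5) (nat_lit 344) (nat_lit 338) (nat_lit 98)) (XT.lf (nat_lit 76) (nat_lit 17732381544) (nat_lit 0) (nat_lit 5589862513) (nat_lit 1216) (nat_lit 22339217180) (nat_lit 190) (nat_lit 5) (nat_lit 189) (nat_lit 5) (nat_lit 205) (nat_lit 5) (nat_lit 345) (nat_lit 338) (nat_lit 97))))) (XT.nd (nat_lit 234) (nat_lit 0) (nat_lit 76) (XT.nd (nat_lit 78) (nat_lit 0) (nat_lit 0) (XT.lf (nat_lit 0) (nat_lit 25084410613) (nat_lit 1140) (nat_lit 7021928985) (nat_lit 1216) (nat_lit 14269320981) (nat_lit 190) (nat_lit 5) (nat_lit 205) (nat_lit 5) (nat_lit 206) (nat_lit 5) (nat_lit 346) (nat_lit 338) (nat_lit 96)) (XT.nd (nat_lit 78) (nat_lit 0) (nat_lit 76) (XT.lf (nat_lit 76) (nat_lit 14744008482) (nat_lit 0) (nat_lit 12351337707) (nat_lit 1216) (nat_lit 20010064172) (nat_lit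 191) (nat_lit 5) (nat_lit 190) (nat_lit 5) (nat_lit 206) (nat_lit 5) (nat_lit 347) (nat_lit 338) (nat_lit 95)) (XT.lf (nat_lit 0) (nat_lit 29313945480) (nat_lit 1140) (nat_lit 10626449017) (nat_lit 1216) (nat_lit 7912239605) (nat_lit 191) (nat_lit 5) (nat_lit 206) (nat_lit 5) (nat_lit 207) (nat_lit 5) (nat_lit 348) (nat_lit 338) (nat_lit 94)))) (XT.nd (nat_lit 156) (nat_lit 0) (nat_lit 76) (XT.nd (nat_lit 78) (nat_lit 0) (nat_lit 76) (XT.lf (nat_lit 76) (nat_lit 11869071434) (nat_lit 0) (nat_lit 19965308166) (nat_lit 1216) (nat_lit 16780838140) (nat_lit 192) (nat_lit 5) (nat_lit 191) (nat_lit 5) (nat_lit 207) (nat_lit 5) (nat_lit 349) (nat_lit 338) (nat_lit 93)) (XT.lf (nat_lit 0) (nat_lit 34543570878) (nat_lit 1140) (nat_lit 14147914948) (nat_lit 1216) (nat_lit 705800184) (nat_lit 192) (nat_lit 5) (nat_lit 207) (nat_lit 5) (nat_lit 208) (nat_lit 5) (nat_lit 350) (nat_lit 338) (nat_lit 92))) (XT.nd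 (nat_lit 78) (nat_lit 0) (nat_lit 0) (XT.lf (nat_lit 76) (nat_lit 9107503619) (nat_lit 0) (nat_lit 28510709935) (nat_lit 1216) (nat_lit 12576078909) (nat_lit 193) (nat_lit 5) (nat_lit 192) (nat_lit 5) (nat_lit 208) (nat_lit 5) (nat_lit 351) (nat_lit 338) (nat_lit 91)) (XT.lf (nat_lit 76) (nat_lit 33349807396) (nat_lit 0) (nat_lit 7577129624) (nat_lit 1216) (nat_lit 10084018208) (nat_lit 193) (nat_lit 5) (nat_lit 192) (nat_lit 5) (nat_lit 208) (nat_lit 5) (nat_lit 352) (nat_lit 338) (nat_lit 90))))))))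
noncomputable def xc248 : XT := (XT.nd (nat_lit 39546) (nat_lit 0) (nat_lit 3192) (XT.nd (nat_lit 1014) (nat_lit 3192) (nat_lit 0) (XT.nd (nat_lit 468) (nat_lit 1672) (nat_lit 0) (XT.nd (nat_lit 234) (nat_lit 684) (nat_lit 0) (XT.nd (nat_lit 78) (nat_lit 1064) (nat_lit 0) (XT.lf (nat_lit 76) (nat_lit 6458049181) (nat_lit 0) (nat_lit 38072386185) (nat_lit 1216) (nat_lit 7315818438) (nat_lit 194) (nat_lit 5) (nat_lit 193) (nat_lit 5) (nat_lit 209) (nat_lit 5) (nat_lit 353) (nat_lit 338) (nat_lit 89)) (XT.nd (nat_lit 78) (nat_lit 1064) (nat_lit 0) (XT.lf (nat_lit 76) (nat_lit 31585546205) (nat_lit 0) (nat_lit 16908149538) (nat_lit 1216) (nat_lit 4205367167) (nat_lit 194) (nat_lit 5) (nat_lit 193) (nat_lit 5) (nat_lit 209) (nat_lit 5) (nat_lit 354) (nat_lit 338) (nat_lit 88)) (XT.lf (nat_lit 0) (nat_lit 3918045730) (nat_lit 1140) (nat_lit 48741544724) (nat_lit 1216) (nat_lit 915354988) (nat_lit 179)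 (nat_lit 5) (nat_lit 194) (nat_lit 5) (nat_lit 195) (nat_lit 5) (nat_lit 355) (nat_lit 338) (nat_lit 87)))) (XT.nd (nat_lit 78) (nat_lit 608) (nat_lit 0) (XT.lf (nat_lit 0) (nat_lit 2806884810) (nat_lit 1216) (nat_lit 24531458364) (nat_lit 76) (nat_lit 27126595449) (nat_lit 178) (nat_lit 5) (nat_lit 194) (nat_lit 5) (nat_lit 179) (nat_lit 5) (nat_lit 356) (nat_lit 338) (nat_lit 86)) (XT.nd (nat_lit 78) (nat_lit 0) (nat_lit 0) (XT.lf (nat_lit 0) (nat_lit 1364516033) (nat_lit 608) (nat_lit 5270089638) (nat_lit 684) (nat_lit 48746388833) (nat_lit 170) (nat_lit 5) (nat_lit 178) (nat_lit 5) (nat_lit 179) (nat_lit 5) (nat_lit 357) (nat_lit 338) (nat_lit 85)) (XT.lf (nat_lit 0) (nat_lit 10994283492) (nat_lit 684) (nat_lit 27947965635) (nat_lit 76) (nat_lit 17369770286) (nat_lit 170) (nat_lit 5) (nat_lit 179) (nat_lit 5) (nat_lit 171) (nat_lit 5) (nat_lit 358) (nat_lit 338) (nat_lit 84))))) (XT.nd (nat_lit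 234) (nat_lit 1064) (nat_lit 0) (XT.nd (nat_lit 78) (nat_lit 608) (nat_lit 0) (XT.lf (nat_lit 0) (nat_lit 15536071333) (nat_lit 684) (nat_lit 1150367552) (nat_lit 76) (nat_lit 40582997668) (nat_lit 170) (nat_lit 5) (nat_lit 179) (nat_lit 5) (nat_lit 171) (nat_lit 5) (nat_lit 359) (nat_lit 338) (nat_lit 83)) (XT.nd (nat_lit 78) (nat_lit 0) (nat_lit 0) (XT.lf (nat_lit 0) (nat_lit 20535118413) (nat_lit 684) (nat_lit 31333540083) (nat_lit 76) (nat_lit 6377288587) (nat_lit 162) (nat_lit 5) (nat_lit 171) (nat_lit 5) (nat_lit 163) (nat_lit 5) (nat_lit 360) (nat_lit 338) (nat_lit 82)) (XT.lf (nat_lit 0) (nat_lit 25860263797) (nat_lit 684) (nat_lit 3576872069) (nat_lit 76) (nat_lit 29809334274) (nat_lit 162) (nat_lit 5) (nat_lit 171) (nat_lit 5) (nat_lit 163) (nat_lit 5) (nat_lit 361) (nat_lit 338) (nat_lit 81)))) (XT.nd (nat_lit 156) (nat_lit 532) (nat_lit 0) (XT.nd (nat_lit 78) (nat_lit 0) (nat_lit 0)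 (XT.lf (nat_lit 0) (nat_lit 25509514861) (nat_lit 532) (nat_lit 6080068686) (nat_lit 608) (nat_lit 28680093725) (nat_lit 155) (nat_lit 5) (nat_lit 162) (nat_lit 5) (nat_lit 163) (nat_lit 5) (nat_lit 362) (nat_lit 338) (nat_lit 80)) (XT.lf (nat_lit 0) (nat_lit 37699295633) (nat_lit 608) (nat_lit 5954632264) (nat_lit 76) (nat_lit 17663398297) (nat_lit 155) (nat_lit 5) (nat_lit 163) (nat_lit 5) (nat_lit 156) (nat_lit 5) (nat_lit 363) (nat_lit 338) (nat_lit 79))) (XT.nd (nat_lit 78) (nat_lit 0) (nat_lit 0) (XT.lf (nat_lit 0) (nat_lit 24124870309) (nat_lit 532) (nat_lit 20158776091) (nat_lit 608) (nat_lit 18104018690) (nat_lit 148) (nat_lit 5) (nat_lit 155) (nat_lit 5) (nat_lit 156) (nat_lit 5) (nat_lit 364) (nat_lit 338) (nat_lit 78)) (XT.lf (nat_lit 0) (nat_lit 51164360190) (nat_lit 608) (nat_lit 8299703741) (nat_lit 76) (nat_lit 4023086150) (nat_lit 148) (nat_lit 5) (nat_lit 156) (nat_lit 5) (nat_lit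 149) (nat_lit 5) (nat_lit 365) (nat_lit 338) (nat_lit 77)))))) (XT.nd (nat_lit 468) (nat_lit 1672) (nat_lit 0) (XT.nd (nat_lit 234) (nat_lit 456) (nat_lit 0) (XT.nd (nat_lit 78) (nat_lit 608) (nat_lit 0) (XT.lf (nat_lit 0) (nat_lit 22806983666) (nat_lit 456) (nat_lit 35862620058) (nat_lit 532) (nat_lit 5937473522) (nat_lit 142) (nat_lit 5) (nat_lit 148) (nat_lit 5) (nat_lit 149) (nat_lit 5) (nat_lit 366) (nat_lit 338) (nat_lit 76)) (XT.nd (nat_lit 78) (nat_lit 532) (nat_lit 0) (XT.lf (nat_lit 0) (nat_lit 710853609) (nat_lit 532) (nat_lit 10748815114) (nat_lit 76) (nat_lit 54298232090) (nat_lit 141) (nat_lit 5) (nat_lit 148) (nat_lit 5) (nat_lit 142) (nat_lit 5) (nat_lit 367) (nat_lit 338) (nat_lit 75)) (XT.lf (nat_lit 0) (nat_lit 7780287683) (nat_lit 608) (nat_lit 45473480251) (nat_lit 76) (nat_lit 13677488514) (nat_lit 134) (nat_lit 5) (nat_lit 142) (nat_lit 5) (nat_lit 135) (nat_lit 5) (nat_lit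 368) (nat_lit 338) (nat_lit 74)))) (XT.nd (nat_lit 78) (nat_lit 456) (nat_lit 0) (XT.lf (nat_lit 0) (nat_lit 15284204632) (nat_lit 608) (nat_lit 13400937695) (nat_lit 76) (nat_lit 39447999206) (nat_lit 134) (nat_lit 5) (nat_lit 142) (nat_lit 5) (nat_lit 135) (nat_lit 5) (nat_lit 369) (nat_lit 338) (nat_lit 73)) (XT.nd (nat_lit 78) (nat_lit 0) (nat_lit 0) (XT.lf (nat_lit 0) (nat_lit 20023789348) (nat_lit 456) (nat_lit 3181271585) (nat_lit 532) (nat_lit 46160268338) (nat_lit 128) (nat_lit 5) (nat_lit 134) (nat_lit 5) (nat_lit 135) (nat_lit 5) (nat_lit 370) (nat_lit 338) (nat_lit 72)) (XT.lf (nat_lit 0) (nat_lit 31721491679) (nat_lit 532) (nat_lit 16128472064) (nat_lit 76) (nat_lit 22773781169) (nat_lit 128) (nat_lit 5) (nat_lit 135) (nat_lit 5) (nat_lit 129) (nat_lit 5) (nat_lit 371) (nat_lit 338) (nat_lit 71))))) (XT.nd (nat_lit 234) (nat_lit 836) (nat_lit 0) (XT.nd (nat_lit 78) (nat_lit 380) (nat_lit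 0) (XT.lf (nat_lit 0) (nat_lit 18407977265) (nat_lit 456) (nat_lit 22293255902) (nat_lit 532) (nat_lit 31212446032) (nat_lit 122) (nat_lit 5) (nat_lit 128) (nat_lit 5) (nat_lit 129) (nat_lit 5) (nat_lit 372) (nat_lit 338) (nat_lit 70)) (XT.nd (nat_lit 78) (nat_lit 380) (nat_lit 0) (XT.lf (nat_lit 0) (nat_lit 50152967579) (nat_lit 532) (nat_lit 18967370445) (nat_lit 76) (nat_lit 4115896160) (nat_lit 122) (nat_lit 5) (nat_lit 129) (nat_lit 5) (nat_lit 123) (nat_lit 5) (nat_lit 373) (nat_lit 338) (nat_lit 69)) (XT.lf (nat_lit 0) (nat_lit 16711784026) (nat_lit 380) (nat_lit 43557239102) (nat_lit 456) (nat_lit 14318020290) (nat_lit 117) (nat_lit 5) (nat_lit 122) (nat_lit 5) (nat_lit 123) (nat_lit 5) (nat_lit 374) (nat_lit 338) (nat_lit 68)))) (XT.nd (nat_lit 156) (nat_lit 380) (nat_lit 0) (XT.nd (nat_lit 78) (nat_lit 456) (nat_lit 0) (XT.lf (nat_lit 0) (nat_lit 53849423825) (nat_lit 380) (nat_lit 17030080408)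 (nat_lit 456) (nat_lit 5093145030) (nat_lit 117) (nat_lit 5) (nat_lit 122) (nat_lit 5) (nat_lit 123) (nat_lit 5) (nat_lit 375) (nat_lit 338) (nat_lit 67)) (XT.lf (nat_lit 0) (nat_lit 4566364479) (nat_lit 456) (nat_lit 62545013628) (nat_lit 76) (nat_lit 10279857083) (nat_lit 111) (nat_lit 5) (nat_lit 117) (nat_lit 5) (nat_lit 112) (nat_lit 5) (nat_lit 376) (nat_lit 338) (nat_lit 66))) (XT.nd (nat_lit 78) (nat_lit 380) (nat_lit 0) (XT.lf (nat_lit 0) (nat_lit 14806950479) (nat_lit 456) (nat_lit 25689377180) (nat_lit 76) (nat_lit 38342729065) (nat_lit 111) (nat_lit 5) (nat_lit 117) (nat_lit 5) (nat_lit 112) (nat_lit 5) (nat_lit 377) (nat_lit 338) (nat_lit 65)) (XT.lf (nat_lit 0) (nat_lit 12515467494) (nat_lit 380) (nat_lit 12959040107) (nat_lit 456) (nat_lit 54852213277) (nat_lit 106) (nat_lit 5) (nat_lit 111) (nat_lit 5) (nat_lit 112) (nat_lit 5) (nat_lit 378) (nat_lit 338) (nat_lit 64))))))) (XT.nd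 (nat_lit 1014) (nat_lit 2964) (nat_lit 0) (XT.nd (nat_lit 468) (nat_lit 0) (nat_lit 152) (XT.nd (nat_lit 234) (nat_lit 0) (nat_lit 76) (XT.nd (nat_lit 78) (nat_lit 0) (nat_lit 0) (XT.lf (nat_lit 0) (nat_lit 4340931565) (nat_lit 0) (nat_lit 4340931565) (nat_lit 1140) (nat_lit 12472436375) (nat_lit 187) (nat_lit 5) (nat_lit 187) (nat_lit 3) (nat_lit 202) (nat_lit 3) (nat_lit 339) (nat_lit 339) (nat_lit 102)) (XT.nd (nat_lit 78) (nat_lit 0) (nat_lit 0) (XT.lf (nat_lit 0) (nat_lit 17760435168) (nat_lit 1140) (nat_lit 14822446621) (nat_lit 1216) (nat_lit 10356211660) (nat_lit 187) (nat_lit 5) (nat_lit 202) (nat_lit 3) (nat_lit 203) (nat_lit 5) (nat_lit 340) (nat_lit 339) (nat_lit 101)) (XT.lf (nat_lit 76) (nat_lit 4548034265) (nat_lit 0) (nat_lit 13749340031) (nat_lit 1216) (nat_lit 25287280386) (nat_lit 188) (nat_lit 5) (nat_lit 187) (nat_lit 5) (nat_lit 203) (nat_lit 5) (nat_lit 341) (nat_lit 339)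 (nat_lit 100)))) (XT.nd (nat_lit 78) (nat_lit 0) (nat_lit 0) (XT.lf (nat_lit 0) (nat_lit 19054574376) (nat_lit 1140) (nat_lit 19498169240) (nat_lit 1216) (nat_lit 5690716332) (nat_lit 188) (nat_lit 5) (nat_lit 203) (nat_lit 5) (nat_lit 204) (nat_lit 5) (nat_lit 342) (nat_lit 339) (nat_lit 99)) (XT.nd (nat_lit 78) (nat_lit 0) (nat_lit 76) (XT.lf (nat_lit 76) (nat_lit 499302486) (nat_lit 0) (nat_lit 19474847350) (nat_lit 1216) (nat_lit 24943691483) (nat_lit 189) (nat_lit 5) (nat_lit 188) (nat_lit 5) (nat_lit 204) (nat_lit 5) (nat_lit 343) (nat_lit 339) (nat_lit 98)) (XT.lf (nat_lit 0) (nat_lit 21120603725) (nat_lit 1140) (nat_lit 24114571577) (nat_lit 1216) (nat_lit 371301771) (nat_lit 189) (nat_lit 5) (nat_lit 204) (nat_lit 5) (nat_lit 205) (nat_lit 5) (nat_lit 344) (nat_lit 339) (nat_lit 97))))) (XT.nd (nat_lit 234) (nat_lit 0) (nat_lit 76) (XT.nd (nat_lit 78) (nat_lit 0) (nat_lit 0) (XT.lf (nat_lit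 0) (nat_lit 22493070075) (nat_lit 1140) (nat_lit 3395063445) (nat_lit 1216) (nat_lit 20421891443) (nat_lit 189) (nat_lit 5) (nat_lit 204) (nat_lit 5) (nat_lit 205) (nat_lit 5) (nat_lit 345) (nat_lit 339) (nat_lit 96)) (XT.nd (nat_lit 78) (nat_lit 0) (nat_lit 76) (XT.lf (nat_lit 76) (nat_lit 18302440673) (nat_lit 0) (nat_lit 5779037567) (nat_lit 1216) (nat_lit 22947959595) (nat_lit 190) (nat_lit 5) (nat_lit 189) (nat_lit 5) (nat_lit 205) (nat_lit 5) (nat_lit 346) (nat_lit 339) (nat_lit 95)) (XT.lf (nat_lit 0) (nat_lit 25894574377) (nat_lit 1140) (nat_lit 7193595210) (nat_lit 1216) (nat_lit 14676953968) (nat_lit 190) (nat_lit 5) (nat_lit 205) (nat_lit 5) (nat_lit 206) (nat_lit 5) (nat_lit 347) (nat_lit 339) (nat_lit 94)))) (XT.nd (nat_lit 156) (nat_lit 0) (nat_lit 76) (XT.nd (nat_lit 78) (nat_lit 0) (nat_lit 76) (XT.lf (nat_lit 76) (nat_lit 15224938110) (nat_lit 0) (nat_lit 12739592462) (nat_lit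 1216) (nat_lit 20552276752) (nat_lit 191) (nat_lit 5) (nat_lit 190) (nat_lit 5) (nat_lit 206) (nat_lit 5) (nat_lit 348) (nat_lit 339) (nat_lit 93)) (XT.lf (nat_lit 0) (nat_lit 30247882013) (nat_lit 1140) (nat_lit 10905878404) (nat_lit 1216) (nat_lit 8132743738) (nat_lit 191) (nat_lit 5) (nat_lit 206) (nat_lit 5) (nat_lit 207) (nat_lit 5) (nat_lit 349) (nat_lit 339) (nat_lit 92))) (XT.nd (nat_lit 78) (nat_lit 0) (nat_lit 76) (XT.lf (nat_lit 76) (nat_lit 12264121738) (nat_lit 0) (nat_lit 20578594192) (nat_lit 1216) (nat_lit 17229287907) (nat_lit 192) (nat_lit 5) (nat_lit 191) (nat_lit 5) (nat_lit 207) (nat_lit 5) (nat_lit 350) (nat_lit 339) (nat_lit 91)) (XT.lf (nat_lit 0) (nat_lit 35631496669) (nat_lit 1140) (nat_lit 14532754032) (nat_lit 1216) (nat_lit 713336118) (nat_lit 192) (nat_lit 5) (nat_lit 207) (nat_lit 5) (nat_lit 208) (nat_lit 5) (nat_lit 351) (nat_lit 339) (nat_lit 90)))))) (XT.nd (nat_lit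 546) (nat_lit 1672) (nat_lit 0) (XT.nd (nat_lit 234) (nat_lit 1672) (nat_lit 0) (XT.nd (nat_lit 78) (nat_lit 0) (nat_lit 0) (XT.lf (nat_lit 76) (nat_lit 9419938872) (nat_lit 0) (nat_lit 29377313209) (nat_lit 1216) (nat_lit 12901287197) (nat_lit 193) (nat_lit 5) (nat_lit 192) (nat_lit 5) (nat_lit 208) (nat_lit 5) (nat_lit 352) (nat_lit 339) (nat_lit 89)) (XT.nd (nat_lit 78) (nat_lit 0) (nat_lit 76) (XT.lf (nat_lit 76) (nat_lit 34388369720) (nat_lit 0) (nat_lit 7815396887) (nat_lit 1216) (nat_lit 10335981396) (nat_lit 193) (nat_lit 5) (nat_lit 192) (nat_lit 5) (nat_lit 208) (nat_lit 5) (nat_lit 353) (nat_lit 339) (nat_lit 88)) (XT.lf (nat_lit 76) (nat_lit 6691110624) (nat_lit 0) (nat_lit 39223107212) (nat_lit 1216) (nat_lit 7485924162) (nat_lit 194) (nat_lit 5) (nat_lit 193) (nat_lit 5) (nat_lit 209) (nat_lit 5) (nat_lit 354) (nat_lit 339) (nat_lit 87)))) (XT.nd (nat_lit 156) (nat_lit 684) (nat_lit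 0) (XT.nd (nat_lit 78) (nat_lit 1064) (nat_lit 0) (XT.lf (nat_lit 76) (nat_lit 32571287318) (nat_lit 0) (nat_lit 17423694453) (nat_lit 1216) (nat_lit 4283597279) (nat_lit 194) (nat_lit 5) (nat_lit 193) (nat_lit 5) (nat_lit 209) (nat_lit 5) (nat_lit 355) (nat_lit 339) (nat_lit 86)) (XT.lf (nat_lit 0) (nat_lit 4074908048) (nat_lit 1140) (nat_lit 50209892141) (nat_lit 1216) (nat_lit 895971253) (nat_lit 179) (nat_lit 5) (nat_lit 194) (nat_lit 5) (nat_lit 195) (nat_lit 5) (nat_lit 356) (nat_lit 339) (nat_lit 85))) (XT.nd (nat_lit 78) (nat_lit 608) (nat_lit 0) (XT.lf (nat_lit 0) (nat_lit 2935683861) (nat_lit 1216) (nat_lit 25228282685) (nat_lit 76) (nat_lit 27933526185) (nat_lit 178) (nat_lit 5) (nat_lit 194) (nat_lit 5) (nat_lit 179) (nat_lit 5) (nat_lit 357) (nat_lit 339) (nat_lit 84)) (XT.lf (nat_lit 0) (nat_lit 1444187420) (nat_lit 608) (nat_lit 5433122471) (nat_lit 684) (nat_lit 50163749831) (nat_lit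 170) (nat_lit 5) (nat_lit 178) (nat_lit 5) (nat_lit 179) (nat_lit 5) (nat_lit 358) (nat_lit 339) (nat_lit 83))))) (XT.nd (nat_lit 234) (nat_lit 1064) (nat_lit 0) (XT.nd (nat_lit 78) (nat_lit 608) (nat_lit 0) (XT.lf (nat_lit 0) (nat_lit 11366460208) (nat_lit 684) (nat_lit 28747426046) (nat_lit 76) (nat_lit 17886170250) (nat_lit 170) (nat_lit 5) (nat_lit 179) (nat_lit 5) (nat_lit 171) (nat_lit 5) (nat_lit 359) (nat_lit 339) (nat_lit 82)) (XT.nd (nat_lit 78) (nat_lit 608) (nat_lit 0) (XT.lf (nat_lit 0) (nat_lit 16043268241) (nat_lit 684) (nat_lit 1147035318) (nat_lit 76) (nat_lit 41795931147) (nat_lit 170) (nat_lit 5) (nat_lit 179) (nat_lit 5) (nat_lit 171) (nat_lit 5) (nat_lit 360) (nat_lit 339) (nat_lit 81)) (XT.lf (nat_lit 0) (nat_lit 21191422457) (nat_lit 684) (nat_lit 32234788749) (nat_lit 76) (nat_lit 6565856776) (nat_lit 162) (nat_lit 5) (nat_lit 171) (nat_lit 5) (nat_lit 163) (nat_lit 5)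 (nat_lit 361) (nat_lit 339) (nat_lit 80)))) (XT.nd (nat_lit 156) (nat_lit 532) (nat_lit 0) (XT.nd (nat_lit 78) (nat_lit 532) (nat_lit 0) (XT.lf (nat_lit 0) (nat_lit 26675149858) (nat_lit 684) (nat_lit 3646549555) (nat_lit 76) (nat_lit 30700943944) (nat_lit 162) (nat_lit 5) (nat_lit 171) (nat_lit 5) (nat_lit 163) (nat_lit 5) (nat_lit 362) (nat_lit 339) (nat_lit 79)) (XT.lf (nat_lit 0) (nat_lit 26312060075) (nat_lit 532) (nat_lit 6263509091) (nat_lit 608) (nat_lit 29501002352) (nat_lit 155) (nat_lit 5) (nat_lit 162) (nat_lit 5) (nat_lit 163) (nat_lit 5) (nat_lit 363) (nat_lit 339) (nat_lit 78))) (XT.nd (nat_lit 78) (nat_lit 532) (nat_lit 0) (XT.lf (nat_lit 0) (nat_lit 38867447445) (nat_lit 608) (nat_lit 6095925773) (nat_lit 76) (nat_lit 18192311816) (nat_lit 155) (nat_lit 5) (nat_lit 163) (nat_lit 5) (nat_lit 156) (nat_lit 5) (nat_lit 364) (nat_lit 339) (nat_lit 77)) (XT.lf (nat_lit 0) (nat_lit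 24885595745) (nat_lit 532) (nat_lit 20763005751) (nat_lit 608) (nat_lit 18609555752) (nat_lit 148) (nat_lit 5) (nat_lit 155) (nat_lit 5) (nat_lit 156) (nat_lit 5) (nat_lit 365) (nat_lit 339) (nat_lit 76))))))))
noncomputable def xc249 : XT := (XT.nd (nat_lit 39702) (nat_lit 0) (nat_lit 456) (XT.nd (nat_lit 38688) (nat_lit 0) (nat_lit 5776) (XT.nd (nat_lit 468) (nat_lit 1292) (nat_lit 0) (XT.nd (nat_lit 234) (nat_lit 988) (nat_lit 0) (XT.nd (nat_lit 78) (nat_lit 532) (nat_lit 0) (XT.lf (nat_lit 0) (nat_lit 52734680154) (nat_lit 608) (nat_lit 8511692919) (nat_lit 76) (nat_lit 4144286705) (nat_lit 148) (nat_lit 5) (nat_lit 156) (nat_lit 5) (nat_lit 149) (nat_lit 5) (nat_lit 366) (nat_lit 339) (nat_lit 75)) (XT.nd (nat_lit 78) (nat_lit 76) (nat_lit 0) (XT.lf (nat_lit 0) (nat_lit 23527832346) (nat_lit 456) (nat_lit 36936570094) (nat_lit 532) (nat_lit 6079803932) (nat_lit 142) (nat_lit 5) (nat_lit 148)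 (nat_lit 5) (nat_lit 149) (nat_lit 5) (nat_lit 367) (nat_lit 339) (nat_lit 74)) (XT.lf (nat_lit 0) (nat_lit 766252353) (nat_lit 532) (nat_lit 11034989966) (nat_lit 76) (nat_lit 55928333854) (nat_lit 141) (nat_lit 5) (nat_lit 148) (nat_lit 5) (nat_lit 142) (nat_lit 5) (nat_lit 368) (nat_lit 339) (nat_lit 73)))) (XT.nd (nat_lit 78) (nat_lit 456) (nat_lit 0) (XT.lf (nat_lit 0) (nat_lit 8047146551) (nat_lit 608) (nat_lit 46800733838) (nat_lit 76) (nat_lit 14090271924) (nat_lit 134) (nat_lit 5) (nat_lit 142) (nat_lit 5) (nat_lit 135) (nat_lit 5) (nat_lit 369) (nat_lit 339) (nat_lit 72)) (XT.nd (nat_lit 78) (nat_lit 456) (nat_lit 0) (XT.lf (nat_lit 0) (nat_lit 15775206731) (nat_lit 608) (nat_lit 13767091242) (nat_lit 76) (nat_lit 40633826323) (nat_lit 134) (nat_lit 5) (nat_lit 142) (nat_lit 5) (nat_lit 135) (nat_lit 5) (nat_lit 370) (nat_lit 339) (nat_lit 71)) (XT.lf (nat_lit 0) (nat_lit 20660025900)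 (nat_lit 456) (nat_lit 3273058386) (nat_lit 532) (nat_lit 47512212597) (nat_lit 128) (nat_lit 5) (nat_lit 134) (nat_lit 5) (nat_lit 135) (nat_lit 5) (nat_lit 371) (nat_lit 339) (nat_lit 70))))) (XT.nd (nat_lit 234) (nat_lit 836) (nat_lit 0) (XT.nd (nat_lit 78) (nat_lit 456) (nat_lit 0) (XT.lf (nat_lit 0) (nat_lit 32704113734) (nat_lit 532) (nat_lit 16576908712) (nat_lit 76) (nat_lit 23460470425) (nat_lit 128) (nat_lit 5) (nat_lit 135) (nat_lit 5) (nat_lit 129) (nat_lit 5) (nat_lit 372) (nat_lit 339) (nat_lit 69)) (XT.nd (nat_lit 78) (nat_lit 0) (nat_lit 0) (XT.lf (nat_lit 0) (nat_lit 18995286866) (nat_lit 456) (nat_lit 22957395466) (nat_lit 532) (nat_lit 32117460830) (nat_lit 122) (nat_lit 5) (nat_lit 128) (nat_lit 5) (nat_lit 129) (nat_lit 5) (nat_lit 373) (nat_lit 339) (nat_lit 68)) (XT.lf (nat_lit 0) (nat_lit 51687126458) (nat_lit 532) (nat_lit 19501467365) (nat_lit 76) (nat_lit 4243807235)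 (nat_lit 122) (nat_lit 5) (nat_lit 129) (nat_lit 5) (nat_lit 123) (nat_lit 5) (nat_lit 374) (nat_lit 339) (nat_lit 67)))) (XT.nd (nat_lit 156) (nat_lit 456) (nat_lit 0) (XT.nd (nat_lit 78) (nat_lit 0) (nat_lit 0) (XT.lf (nat_lit 0) (nat_lit 17247719346) (nat_lit 380) (nat_lit 44858415491) (nat_lit 456) (nat_lit 14717616560) (nat_lit 117) (nat_lit 5) (nat_lit 122) (nat_lit 5) (nat_lit 123) (nat_lit 5) (nat_lit 375) (nat_lit 339) (nat_lit 66)) (XT.lf (nat_lit 0) (nat_lit 55498481102) (nat_lit 380) (nat_lit 17535603418) (nat_lit 456) (nat_lit 5216867207) (nat_lit 117) (nat_lit 5) (nat_lit 122) (nat_lit 5) (nat_lit 123) (nat_lit 5) (nat_lit 376) (nat_lit 339) (nat_lit 65))) (XT.nd (nat_lit 37752) (nat_lit 0) (nat_lit 5776) (XT.lf (nat_lit 0) (nat_lit 4731411418) (nat_lit 456) (nat_lit 64386713686) (nat_lit 76) (nat_lit 10593976091) (nat_lit 111) (nat_lit 5) (nat_lit 117) (nat_lit 5) (nat_lit 112)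 (nat_lit 5) (nat_lit 377) (nat_lit 339) (nat_lit 64)) (XT.lf (nat_lit 0) (nat_lit 4488353392) (nat_lit 0) (nat_lit 4488353392) (nat_lit 1140) (nat_lit 12811143567) (nat_lit 187) (nat_lit 5) (nat_lit 187) (nat_lit 3) (nat_lit 202) (nat_lit 3) (nat_lit 340) (nat_lit 340) (nat_lit 100)))))) (XT.nd (nat_lit 468) (nat_lit 0) (nat_lit 152) (XT.nd (nat_lit 234) (nat_lit 0) (nat_lit 76) (XT.nd (nat_lit 78) (nat_lit 0) (nat_lit 0) (XT.lf (nat_lit 0) (nat_lit 18359699643) (nat_lit 1140) (nat_lit 15231319442) (nat_lit 1216) (nat_lit 10634163320) (nat_lit 187) (nat_lit 5) (nat_lit 202) (nat_lit 3) (nat_lit 203) (nat_lit 5) (nat_lit 341) (nat_lit 340) (nat_lit 99)) (XT.nd (nat_lit 78) (nat_lit 0) (nat_lit 76) (XT.lf (nat_lit 76) (nat_lit 4719924885) (nat_lit 0) (nat_lit 14191227345) (nat_lit 1216) (nat_lit 25979008716) (nat_lit 188) (nat_lit 5) (nat_lit 187) (nat_lit 5) (nat_lit 203) (nat_lit 5) (nat_lit 342)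 (nat_lit 340) (nat_lit 98)) (XT.lf (nat_lit 0) (nat_lit 19688904837) (nat_lit 1140) (nat_lit 20046448640) (nat_lit 1216) (nat_lit 5833444352) (nat_lit 188) (nat_lit 5) (nat_lit 203) (nat_lit 5) (nat_lit 204) (nat_lit 5) (nat_lit 343) (nat_lit 340) (nat_lit 97)))) (XT.nd (nat_lit 78) (nat_lit 0) (nat_lit 76) (XT.lf (nat_lit 76) (nat_lit 550587770) (nat_lit 0) (nat_lit 20084002772) (nat_lit 1216) (nat_lit 25628866889) (nat_lit 189) (nat_lit 5) (nat_lit 188) (nat_lit 5) (nat_lit 204) (nat_lit 5) (nat_lit 344) (nat_lit 340) (nat_lit 96)) (XT.nd (nat_lit 78) (nat_lit 0) (nat_lit 0) (XT.lf (nat_lit 0) (nat_lit 21813422574) (nat_lit 1140) (nat_lit 24800664270) (nat_lit 1216) (nat_lit 358728284) (nat_lit 189) (nat_lit 5) (nat_lit 204) (nat_lit 5) (nat_lit 205) (nat_lit 5) (nat_lit 345) (nat_lit 340) (nat_lit 95)) (XT.lf (nat_lit 0) (nat_lit 23225338622) (nat_lit 1140) (nat_lit 3460658597) (nat_lit 1216)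 (nat_lit 21011526302) (nat_lit 189) (nat_lit 5) (nat_lit 204) (nat_lit 5) (nat_lit 205) (nat_lit 5) (nat_lit 346) (nat_lit 340) (nat_lit 94))))) (XT.nd (nat_lit 234) (nat_lit 0) (nat_lit 152) (XT.nd (nat_lit 78) (nat_lit 0) (nat_lit 76) (XT.lf (nat_lit 76) (nat_lit 18887415186) (nat_lit 0) (nat_lit 5972654879) (nat_lit 1216) (nat_lit 23578490851) (nat_lit 190) (nat_lit 5) (nat_lit 189) (nat_lit 5) (nat_lit 205) (nat_lit 5) (nat_lit 347) (nat_lit 340) (nat_lit 93)) (XT.nd (nat_lit 78) (nat_lit 0) (nat_lit 0) (XT.lf (nat_lit 0) (nat_lit 26725734774) (nat_lit 1140) (nat_lit 7372649703) (nat_lit 1216) (nat_lit 15097989665) (nat_lit 190) (nat_lit 5) (nat_lit 205) (nat_lit 5) (nat_lit 206) (nat_lit 5) (nat_lit 348) (nat_lit 340) (nat_lit 92)) (XT.lf (nat_lit 76) (nat_lit 15718079290) (nat_lit 0) (nat_lit 13138477968) (nat_lit 1216) (nat_lit 21114090275) (nat_lit 191) (nat_lit 5) (nat_lit 190) (nat_lit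 5) (nat_lit 206) (nat_lit 5) (nat_lit 349) (nat_lit 340) (nat_lit 91)))) (XT.nd (nat_lit 156) (nat_lit 0) (nat_lit 76) (XT.nd (nat_lit 78) (nat_lit 0) (nat_lit 0) (XT.lf (nat_lit 0) (nat_lit 31206707075) (nat_lit 1140) (nat_lit 11195950333) (nat_lit 1216) (nat_lit 8360831002) (nat_lit 191) (nat_lit 5) (nat_lit 206) (nat_lit 5) (nat_lit 207) (nat_lit 5) (nat_lit 350) (nat_lit 340) (nat_lit 90)) (XT.lf (nat_lit 76) (nat_lit 12668786046) (nat_lit 0) (nat_lit 21209456383) (nat_lit 1216) (nat_lit 17694346978) (nat_lit 192) (nat_lit 5) (nat_lit 191) (nat_lit 5) (nat_lit 207) (nat_lit 5) (nat_lit 351) (nat_lit 340) (nat_lit 89))) (XT.nd (nat_lit 78) (nat_lit 0) (nat_lit 0) (XT.lf (nat_lit 0) (nat_lit 36749097111) (nat_lit 1140) (nat_lit 14931411398) (nat_lit 1216) (nat_lit 721881011) (nat_lit 192) (nat_lit 5) (nat_lit 207) (nat_lit 5) (nat_lit 208) (nat_lit 5) (nat_lit 352) (nat_lit 340) (nat_lit 88))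 (XT.lf (nat_lit 76) (nat_lit 9739496360) (nat_lit 0) (nat_lit 30269266949) (nat_lit 1216) (nat_lit 13239240999) (nat_lit 193) (nat_lit 5) (nat_lit 192) (nat_lit 5) (nat_lit 208) (nat_lit 5) (nat_lit 353) (nat_lit 340) (nat_lit 87))))))) (XT.nd (nat_lit 1014) (nat_lit 2356) (nat_lit 0) (XT.nd (nat_lit 468) (nat_lit 1672) (nat_lit 0) (XT.nd (nat_lit 234) (nat_lit 1672) (nat_lit 0) (XT.nd (nat_lit 78) (nat_lit 0) (nat_lit 76) (XT.lf (nat_lit 76) (nat_lit 35455903648) (nat_lit 0) (nat_lit 8060183399) (nat_lit 1216) (nat_lit 10598405679) (nat_lit 193) (nat_lit 5) (nat_lit 192) (nat_lit 5) (nat_lit 208) (nat_lit 5) (nat_lit 354) (nat_lit 340) (nat_lit 86)) (XT.nd (nat_lit 78) (nat_lit 0) (nat_lit 0) (XT.lf (nat_lit 76) (nat_lit 6928906784) (nat_lit 0) (nat_lit 40407859097) (nat_lit 1216) (nat_lit 7663967029) (nat_lit 194) (nat_lit 5) (nat_lit 193) (nat_lit 5) (nat_lit 209) (nat_lit 5) (nat_lit 355)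 (nat_lit 340) (nat_lit 85)) (XT.lf (nat_lit 76) (nat_lit 33584409278) (nat_lit 0) (nat_lit 17954229237) (nat_lit 1216) (nat_lit 4366925725) (nat_lit 194) (nat_lit 5) (nat_lit 193) (nat_lit 5) (nat_lit 209) (nat_lit 5) (nat_lit 356) (nat_lit 340) (nat_lit 84)))) (XT.nd (nat_lit 78) (nat_lit 684) (nat_lit 0) (XT.lf (nat_lit 0) (nat_lit 4234219053) (nat_lit 1140) (nat_lit 51721939754) (nat_lit 1216) (nat_lit 878695066) (nat_lit 179) (nat_lit 5) (nat_lit 194) (nat_lit 5) (nat_lit 195) (nat_lit 5) (nat_lit 357) (nat_lit 340) (nat_lit 83)) (XT.nd (nat_lit 78) (nat_lit 608) (nat_lit 0) (XT.lf (nat_lit 0) (nat_lit 3065787091) (nat_lit 1216) (nat_lit 25948257351) (nat_lit 76) (nat_lit 28765059044) (nat_lit 178) (nat_lit 5) (nat_lit 194) (nat_lit 5) (nat_lit 179) (nat_lit 5) (nat_lit 358) (nat_lit 340) (nat_lit 82)) (XT.lf (nat_lit 0) (nat_lit 1524025349) (nat_lit 608) (nat_lit 5600763278) (nat_lit 684)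 (nat_lit 51626216604) (nat_lit 170) (nat_lit 5) (nat_lit 178) (nat_lit 5) (nat_lit 179) (nat_lit 5) (nat_lit 359) (nat_lit 340) (nat_lit 81))))) (XT.nd (nat_lit 234) (nat_lit 1064) (nat_lit 0) (XT.nd (nat_lit 78) (nat_lit 608) (nat_lit 0) (XT.lf (nat_lit 0) (nat_lit 11747371264) (nat_lit 684) (nat_lit 29573107798) (nat_lit 76) (nat_lit 18418331619) (nat_lit 170) (nat_lit 5) (nat_lit 179) (nat_lit 5) (nat_lit 171) (nat_lit 5) (nat_lit 360) (nat_lit 340) (nat_lit 80)) (XT.nd (nat_lit 78) (nat_lit 608) (nat_lit 0) (XT.lf (nat_lit 0) (nat_lit 16563320901) (nat_lit 684) (nat_lit 1145775475) (nat_lit 76) (nat_lit 43045514190) (nat_lit 170) (nat_lit 5) (nat_lit 179) (nat_lit 5) (nat_lit 171) (nat_lit 5) (nat_lit 361) (nat_lit 340) (nat_lit 79)) (XT.lf (nat_lit 0) (nat_lit 21865105080) (nat_lit 684) (nat_lit 33165299716) (nat_lit 76) (nat_lit 6760239898) (nat_lit 162) (nat_lit 5) (nat_lit 171) (nat_lit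 5) (nat_lit 163) (nat_lit 5) (nat_lit 362) (nat_lit 340) (nat_lit 78)))) (XT.nd (nat_lit 156) (nat_lit 532) (nat_lit 0) (XT.nd (nat_lit 78) (nat_lit 532) (nat_lit 0) (XT.lf (nat_lit 0) (nat_lit 27512239255) (nat_lit 684) (nat_lit 3720477405) (nat_lit 76) (nat_lit 31619455194) (nat_lit 162) (nat_lit 5) (nat_lit 171) (nat_lit 5) (nat_lit 163) (nat_lit 5) (nat_lit 363) (nat_lit 340) (nat_lit 77)) (XT.lf (nat_lit 0) (nat_lit 27136542782) (nat_lit 532) (nat_lit 6452393103) (nat_lit 608) (nat_lit 30348805365) (nat_lit 155) (nat_lit 5) (nat_lit 162) (nat_lit 5) (nat_lit 163) (nat_lit 5) (nat_lit 364) (nat_lit 340) (nat_lit 76))) (XT.nd (nat_lit 78) (nat_lit 532) (nat_lit 0) (XT.lf (nat_lit 0) (nat_lit 40068509932) (nat_lit 608) (nat_lit 6243601871) (nat_lit 76) (nat_lit 18737149480) (nat_lit 155) (nat_lit 5) (nat_lit 163) (nat_lit 5) (nat_lit 156) (nat_lit 5) (nat_lit 365) (nat_lit 340) (nat_lit 75))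 (XT.lf (nat_lit 0) (nat_lit 25667020179) (nat_lit 532) (nat_lit 21385392933) (nat_lit 608) (nat_lit 19132416372) (nat_lit 148) (nat_lit 5) (nat_lit 155) (nat_lit 5) (nat_lit 156) (nat_lit 5) (nat_lit 366) (nat_lit 340) (nat_lit 74)))))) (XT.nd (nat_lit 546) (nat_lit 836) (nat_lit 0) (XT.nd (nat_lit 234) (nat_lit 988) (nat_lit 0) (XT.nd (nat_lit 78) (nat_lit 532) (nat_lit 0) (XT.lf (nat_lit 0) (nat_lit 54350078235) (nat_lit 608) (nat_lit 8732165835) (nat_lit 76) (nat_lit 4269094117) (nat_lit 148) (nat_lit 5) (nat_lit 156) (nat_lit 5) (nat_lit 149) (nat_lit 5) (nat_lit 367) (nat_lit 340) (nat_lit 73)) (XT.nd (nat_lit 78) (nat_lit 76) (nat_lit 0) (XT.lf (nat_lit 0) (nat_lit 24268203248) (nat_lit 456) (nat_lit 38042849339) (nat_lit 532) (nat_lit 6228458964) (nat_lit 142) (nat_lit 5) (nat_lit 148) (nat_lit 5) (nat_lit 149) (nat_lit 5) (nat_lit 368) (nat_lit 340) (nat_lit 72)) (XT.lf (nat_lit 0) (nat_lit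 821357123) (nat_lit 532) (nat_lit 11331833235) (nat_lit 76) (nat_lit 57607272381) (nat_lit 141) (nat_lit 5) (nat_lit 148) (nat_lit 5) (nat_lit 142) (nat_lit 5) (nat_lit 369) (nat_lit 340) (nat_lit 71)))) (XT.nd (nat_lit 156) (nat_lit 456) (nat_lit 0) (XT.nd (nat_lit 78) (nat_lit 0) (nat_lit 0) (XT.lf (nat_lit 0) (nat_lit 8320091005) (nat_lit 608) (nat_lit 48169926161) (nat_lit 76) (nat_lit 14515297694) (nat_lit 134) (nat_lit 5) (nat_lit 142) (nat_lit 5) (nat_lit 135) (nat_lit 5) (nat_lit 370) (nat_lit 340) (nat_lit 70)) (XT.lf (nat_lit 0) (nat_lit 16279074639) (nat_lit 608) (nat_lit 14146288744) (nat_lit 76) (nat_lit 41855091222) (nat_lit 134) (nat_lit 5) (nat_lit 142) (nat_lit 5) (nat_lit 135) (nat_lit 5) (nat_lit 371) (nat_lit 340) (nat_lit 69))) (XT.nd (nat_lit 78) (nat_lit 0) (nat_lit 0) (XT.lf (nat_lit 0) (nat_lit 21313310391) (nat_lit 456) (nat_lit 3367808393) (nat_lit 532) (nat_lit 48906601699)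 (nat_lit 128) (nat_lit 5) (nat_lit 134) (nat_lit 5) (nat_lit 135) (nat_lit 5) (nat_lit 372) (nat_lit 340) (nat_lit 68)) (XT.lf (nat_lit 0) (nat_lit 33714436227) (nat_lit 532) (nat_lit 17040831570) (nat_lit 76) (nat_lit 24167560832) (nat_lit 128) (nat_lit 5) (nat_lit 135) (nat_lit 5) (nat_lit 129) (nat_lit 5) (nat_lit 373) (nat_lit 340) (nat_lit 67))))) (XT.nd (nat_lit 38064) (nat_lit 0) (nat_lit 5320) (XT.nd (nat_lit 78) (nat_lit 380) (nat_lit 0) (XT.lf (nat_lit 0) (nat_lit 19598202578) (nat_lit 456) (nat_lit 23641726612) (nat_lit 532) (nat_lit 33051426183) (nat_lit 122) (nat_lit 5) (nat_lit 128) (nat_lit 5) (nat_lit 129) (nat_lit 5) (nat_lit 374) (nat_lit 340) (nat_lit 66)) (XT.nd (nat_lit 78) (nat_lit 380) (nat_lit 0) (XT.lf (nat_lit 0) (nat_lit 53265612673) (nat_lit 532) (nat_lit 20053591985) (nat_lit 76) (nat_lit 4375301102) (nat_lit 122) (nat_lit 5) (nat_lit 129) (nat_lit 5) (nat_lit 123)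 (nat_lit 5) (nat_lit 375) (nat_lit 340) (nat_lit 65)) (XT.lf (nat_lit 0) (nat_lit 17797747589) (nat_lit 380) (nat_lit 46198945235) (nat_lit 456) (nat_lit 15130919646) (nat_lit 117) (nat_lit 5) (nat_lit 122) (nat_lit 5) (nat_lit 123) (nat_lit 5) (nat_lit 376) (nat_lit 340) (nat_lit 64)))) (XT.nd (nat_lit 156) (nat_lit 0) (nat_lit 0) (XT.nd (nat_lit 78) (nat_lit 0) (nat_lit 0) (XT.lf (nat_lit 0) (nat_lit 4639210874) (nat_lit 0) (nat_lit 4639210874) (nat_lit 1140) (nat_lit 13162047862) (nat_lit 187) (nat_lit 5) (nat_lit 187) (nat_lit 3) (nat_lit 202) (nat_lit 3) (nat_lit 341) (nat_lit 341) (nat_lit 98)) (XT.lf (nat_lit 0) (nat_lit 18973127469) (nat_lit 1140) (nat_lit 15654513546) (nat_lit 1216) (nat_lit 10922332635) (nat_lit 187) (nat_lit 5) (nat_lit 202) (nat_lit 3) (nat_lit 203) (nat_lit 5) (nat_lit 342) (nat_lit 341) (nat_lit 97))) (XT.nd (nat_lit 78) (nat_lit 0) (nat_lit 76) (XT.lf (nat_lit 76)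 (nat_lit 4894937272) (nat_lit 0) (nat_lit 14644683190) (nat_lit 1216) (nat_lit 26695328661) (nat_lit 188) (nat_lit 5) (nat_lit 187) (nat_lit 5) (nat_lit 203) (nat_lit 5) (nat_lit 343) (nat_lit 341) (nat_lit 96)) (XT.lf (nat_lit 0) (nat_lit 20338666363) (nat_lit 1140) (nat_lit 20613281183) (nat_lit 1216) (nat_lit 5982061152) (nat_lit 188) (nat_lit 5) (nat_lit 203) (nat_lit 5) (nat_lit 204) (nat_lit 5) (nat_lit 344) (nat_lit 341) (nat_lit 95))))))))
noncomputable def xc250 : XT := (XT.nd (nat_lit 2028) (nat_lit 1444) (nat_lit 0) (XT.nd (nat_lit 1014) (nat_lit 3572) (nat_lit 0) (XT.nd (nat_lit 468) (nat_lit 0) (nat_lit 228) (XT.nd (nat_lit 234) (nat_lit 0) (nat_lit 76) (XT.nd (nat_lit 78) (nat_lit 0) (nat_lit 76) (XT.lf (nat_lit 76) (nat_lit 601327487) (nat_lit 0) (nat_lit 20710002920) (nat_lit 1216) (nat_lit 26338221784) (nat_lit 189) (nat_lit 5) (nat_lit 188) (nat_lit 5) (nat_lit 204) (nat_lit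 5) (nat_lit 345) (nat_lit 341) (nat_lit 94)) (XT.nd (nat_lit 78) (nat_lit 0) (nat_lit 0) (XT.lf (nat_lit 0) (nat_lit 22523627625) (nat_lit 1140) (nat_lit 25509483469) (nat_lit 1216) (nat_lit 347138788) (nat_lit 189) (nat_lit 5) (nat_lit 204) (nat_lit 5) (nat_lit 205) (nat_lit 5) (nat_lit 346) (nat_lit 341) (nat_lit 93)) (XT.lf (nat_lit 0) (nat_lit 23976275842) (nat_lit 1140) (nat_lit 3530302889) (nat_lit 1216) (nat_lit 21620171757) (nat_lit 189) (nat_lit 5) (nat_lit 204) (nat_lit 5) (nat_lit 205) (nat_lit 5) (nat_lit 347) (nat_lit 341) (nat_lit 92)))) (XT.nd (nat_lit 78) (nat_lit 0) (nat_lit 76) (XT.lf (nat_lit 76) (nat_lit 19487878054) (nat_lit 0) (nat_lit 6170918497) (nat_lit 1216) (nat_lit 24231262174) (nat_lit 190) (nat_lit 5) (nat_lit 189) (nat_lit 5) (nat_lit 205) (nat_lit 5) (nat_lit 348) (nat_lit 341) (nat_lit 91)) (XT.nd (nat_lit 78) (nat_lit 0) (nat_lit 0) (XT.lf (nat_lit 0) (nat_lit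 27578711610) (nat_lit 1140) (nat_lit 7559185623) (nat_lit 1216) (nat_lit 15532762778) (nat_lit 190) (nat_lit 5) (nat_lit 205) (nat_lit 5) (nat_lit 206) (nat_lit 5) (nat_lit 349) (nat_lit 341) (nat_lit 90)) (XT.lf (nat_lit 76) (nat_lit 16223925597) (nat_lit 0) (nat_lit 13548371521) (nat_lit 1216) (nat_lit 21695901352) (nat_lit 191) (nat_lit 5) (nat_lit 190) (nat_lit 5) (nat_lit 206) (nat_lit 5) (nat_lit 350) (nat_lit 341) (nat_lit 89))))) (XT.nd (nat_lit 234) (nat_lit 0) (nat_lit 76) (XT.nd (nat_lit 78) (nat_lit 0) (nat_lit 0) (XT.lf (nat_lit 0) (nat_lit 32191346973) (nat_lit 1140) (nat_lit 11496854364) (nat_lit 1216) (nat_lit 8596673326) (nat_lit 191) (nat_lit 5) (nat_lit 206) (nat_lit 5) (nat_lit 207) (nat_lit 5) (nat_lit 351) (nat_lit 341) (nat_lit 88)) (XT.nd (nat_lit 78) (nat_lit 0) (nat_lit 76) (XT.lf (nat_lit 76) (nat_lit 13083481218) (nat_lit 0) (nat_lit 21858469234) (nat_lit 1216) (nat_lit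 18176332476) (nat_lit 192) (nat_lit 5) (nat_lit 191) (nat_lit 5) (nat_lit 207) (nat_lit 5) (nat_lit 352) (nat_lit 341) (nat_lit 87)) (XT.lf (nat_lit 0) (nat_lit 37897432539) (nat_lit 1140) (nat_lit 15344171107) (nat_lit 1216) (nat_lit 731420191) (nat_lit 192) (nat_lit 5) (nat_lit 207) (nat_lit 5) (nat_lit 208) (nat_lit 5) (nat_lit 353) (nat_lit 341) (nat_lit 86)))) (XT.nd (nat_lit 156) (nat_lit 0) (nat_lit 76) (XT.nd (nat_lit 78) (nat_lit 0) (nat_lit 0) (XT.lf (nat_lit 76) (nat_lit 10066518957) (nat_lit 0) (nat_lit 31187368847) (nat_lit 1216) (nat_lit 13590151084) (nat_lit 193) (nat_lit 5) (nat_lit 192) (nat_lit 5) (nat_lit 208) (nat_lit 5) (nat_lit 354) (nat_lit 341) (nat_lit 85)) (XT.lf (nat_lit 76) (nat_lit 36553403772) (nat_lit 0) (nat_lit 8311720832) (nat_lit 1216) (nat_lit 10871438291) (nat_lit 193) (nat_lit 5) (nat_lit 192) (nat_lit 5) (nat_lit 208) (nat_lit 5) (nat_lit 355) (nat_lit 341)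 (nat_lit 84))) (XT.nd (nat_lit 78) (nat_lit 0) (nat_lit 0) (XT.lf (nat_lit 76) (nat_lit 7171709269) (nat_lit 0) (nat_lit 41627690938) (nat_lit 1216) (nat_lit 7850022474) (nat_lit 194) (nat_lit 5) (nat_lit 193) (nat_lit 5) (nat_lit 209) (nat_lit 5) (nat_lit 356) (nat_lit 341) (nat_lit 83)) (XT.lf (nat_lit 76) (nat_lit 34625859306) (nat_lit 0) (nat_lit 18500230937) (nat_lit 1216) (nat_lit 4455347510) (nat_lit 194) (nat_lit 5) (nat_lit 193) (nat_lit 5) (nat_lit 209) (nat_lit 5) (nat_lit 357) (nat_lit 341) (nat_lit 82)))))) (XT.nd (nat_lit 468) (nat_lit 1596) (nat_lit 0) (XT.nd (nat_lit 234) (nat_lit 608) (nat_lit 0) (XT.nd (nat_lit 78) (nat_lit 684) (nat_lit 0) (XT.lf (nat_lit 0) (nat_lit 4396181776) (nat_lit 1140) (nat_lit 53279018673) (nat_lit 1216) (nat_lit 863435289) (nat_lit 179) (nat_lit 5) (nat_lit 194) (nat_lit 5) (nat_lit 195) (nat_lit 5) (nat_lit 358) (nat_lit 341) (nat_lit 81)) (XT.nd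 (nat_lit 78) (nat_lit 608) (nat_lit 0) (XT.lf (nat_lit 0) (nat_lit 3197380568) (nat_lit 1216) (nat_lit 26691947965) (nat_lit 76) (nat_lit 29621909462) (nat_lit 178) (nat_lit 5) (nat_lit 194) (nat_lit 5) (nat_lit 179) (nat_lit 5) (nat_lit 359) (nat_lit 341) (nat_lit 80)) (XT.lf (nat_lit 0) (nat_lit 1604162460) (nat_lit 608) (nat_lit 5773166544) (nat_lit 684) (nat_lit 53134993939) (nat_lit 170) (nat_lit 5) (nat_lit 178) (nat_lit 5) (nat_lit 179) (nat_lit 5) (nat_lit 360) (nat_lit 341) (nat_lit 79)))) (XT.nd (nat_lit 78) (nat_lit 608) (nat_lit 0) (XT.lf (nat_lit 0) (nat_lit 12137418240) (nat_lit 684) (nat_lit 30425669087) (nat_lit 76) (nat_lit 18966711770) (nat_lit 170) (nat_lit 5) (nat_lit 179) (nat_lit 5) (nat_lit 171) (nat_lit 5) (nat_lit 361) (nat_lit 341) (nat_lit 78)) (XT.nd (nat_lit 78) (nat_lit 608) (nat_lit 0) (XT.lf (nat_lit 0) (nat_lit 17096750466) (nat_lit 684) (nat_lit 1146525493) (nat_lit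 76) (nat_lit 44332831268) (nat_lit 170) (nat_lit 5) (nat_lit 179) (nat_lit 5) (nat_lit 171) (nat_lit 5) (nat_lit 362) (nat_lit 341) (nat_lit 77)) (XT.lf (nat_lit 0) (nat_lit 22556820272) (nat_lit 684) (nat_lit 34125823138) (nat_lit 76) (nat_lit 6960603339) (nat_lit 162) (nat_lit 5) (nat_lit 171) (nat_lit 5) (nat_lit 163) (nat_lit 5) (nat_lit 363) (nat_lit 341) (nat_lit 76))))) (XT.nd (nat_lit 234) (nat_lit 1064) (nat_lit 0) (XT.nd (nat_lit 78) (nat_lit 532) (nat_lit 0) (XT.lf (nat_lit 0) (nat_lit 28372326860) (nat_lit 684) (nat_lit 3798659135) (nat_lit 76) (nat_lit 32565666271) (nat_lit 162) (nat_lit 5) (nat_lit 171) (nat_lit 5) (nat_lit 163) (nat_lit 5) (nat_lit 364) (nat_lit 341) (nat_lit 75)) (XT.nd (nat_lit 78) (nat_lit 0) (nat_lit 0) (XT.lf (nat_lit 0) (nat_lit 27983743887) (nat_lit 532) (nat_lit 6646887452) (nat_lit 608) (nat_lit 31224179454) (nat_lit 155) (nat_lit 5) (nat_lit 162) (nat_lit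 5) (nat_lit 163) (nat_lit 5) (nat_lit 365) (nat_lit 341) (nat_lit 74)) (XT.lf (nat_lit 0) (nat_lit 41303592908) (nat_lit 608) (nat_lit 6397728971) (nat_lit 76) (nat_lit 19298385758) (nat_lit 155) (nat_lit 5) (nat_lit 163) (nat_lit 5) (nat_lit 156) (nat_lit 5) (nat_lit 366) (nat_lit 341) (nat_lit 73)))) (XT.nd (nat_lit 156) (nat_lit 532) (nat_lit 0) (XT.nd (nat_lit 78) (nat_lit 0) (nat_lit 0) (XT.lf (nat_lit 0) (nat_lit 26469886437) (nat_lit 532) (nat_lit 22026480604) (nat_lit 608) (nat_lit 19672996412) (nat_lit 148) (nat_lit 5) (nat_lit 155) (nat_lit 5) (nat_lit 156) (nat_lit 5) (nat_lit 367) (nat_lit 341) (nat_lit 72)) (XT.lf (nat_lit 0) (nat_lit 56012023391) (nat_lit 608) (nat_lit 8961255071) (nat_lit 76) (nat_lit 4397618266) (nat_lit 148) (nat_lit 5) (nat_lit 156) (nat_lit 5) (nat_lit 149) (nat_lit 5) (nat_lit 368) (nat_lit 341) (nat_lit 71))) (XT.nd (nat_lit 78) (nat_lit 76) (nat_lit 0) (XT.lf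 (nat_lit 0) (nat_lit 25028802773) (nat_lit 456) (nat_lit 39182421314) (nat_lit 532) (nat_lit 6383510408) (nat_lit 142) (nat_lit 5) (nat_lit 148) (nat_lit 5) (nat_lit 149) (nat_lit 5) (nat_lit 369) (nat_lit 341) (nat_lit 70)) (XT.lf (nat_lit 0) (nat_lit 876271377) (nat_lit 532) (nat_lit 11639545390) (nat_lit 76) (nat_lit 59336516578) (nat_lit 141) (nat_lit 5) (nat_lit 148) (nat_lit 5) (nat_lit 142) (nat_lit 5) (nat_lit 370) (nat_lit 341) (nat_lit 69))))))) (XT.nd (nat_lit 39000) (nat_lit 0) (nat_lit 3648) (XT.nd (nat_lit 38454) (nat_lit 0) (nat_lit 4940) (XT.nd (nat_lit 234) (nat_lit 456) (nat_lit 0) (XT.nd (nat_lit 78) (nat_lit 456) (nat_lit 0) (XT.lf (nat_lit 0) (nat_lit 8599413839) (nat_lit 608) (nat_lit 49582193620) (nat_lit 76) (nat_lit 14952941197) (nat_lit 134) (nat_lit 5) (nat_lit 142) (nat_lit 5) (nat_lit 135) (nat_lit 5) (nat_lit 371) (nat_lit 341) (nat_lit 68)) (XT.nd (nat_lit 78) (nat_lit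 456) (nat_lit 0) (XT.lf (nat_lit 0) (nat_lit 16796301348) (nat_lit 608) (nat_lit 14538803304) (nat_lit 76) (nat_lit 43112864902) (nat_lit 134) (nat_lit 5) (nat_lit 142) (nat_lit 5) (nat_lit 135) (nat_lit 5) (nat_lit 372) (nat_lit 341) (nat_lit 67)) (XT.lf (nat_lit 0) (nat_lit 21984271314) (nat_lit 456) (nat_lit 3465598471) (nat_lit 532) (nat_lit 50344600696) (nat_lit 128) (nat_lit 5) (nat_lit 134) (nat_lit 5) (nat_lit 135) (nat_lit 5) (nat_lit 373) (nat_lit 341) (nat_lit 66)))) (XT.nd (nat_lit 78) (nat_lit 456) (nat_lit 0) (XT.lf (nat_lit 0) (nat_lit 34753392248) (nat_lit 532) (nat_lit 17520588515) (nat_lit 76) (nat_lit 24895675879) (nat_lit 128) (nat_lit 5) (nat_lit 135) (nat_lit 5) (nat_lit 129) (nat_lit 5) (nat_lit 374) (nat_lit 341) (nat_lit 65)) (XT.nd (nat_lit 38064) (nat_lit 0) (nat_lit 4940) (XT.lf (nat_lit 0) (nat_lit 20217308147) (nat_lit 456) (nat_lit 24346839737) (nat_lit 532) (nat_lit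 34015107273) (nat_lit 122) (nat_lit 5) (nat_lit 128) (nat_lit 5) (nat_lit 129) (nat_lit 5) (nat_lit 375) (nat_lit 341) (nat_lit 64)) (XT.lf (nat_lit 0) (nat_lit 4793663740) (nat_lit 0) (nat_lit 4793663740) (nat_lit 1140) (nat_lit 13525398306) (nat_lit 187) (nat_lit 5) (nat_lit 187) (nat_lit 3) (nat_lit 202) (nat_lit 3) (nat_lit 342) (nat_lit 342) (nat_lit 96))))) (XT.nd (nat_lit 234) (nat_lit 0) (nat_lit 76) (XT.nd (nat_lit 78) (nat_lit 0) (nat_lit 0) (XT.lf (nat_lit 0) (nat_lit 19601362519) (nat_lit 1140) (nat_lit 16092340603) (nat_lit 1216) (nat_lit 11220918266) (nat_lit 187) (nat_lit 5) (nat_lit 202) (nat_lit 3) (nat_lit 203) (nat_lit 5) (nat_lit 343) (nat_lit 342) (nat_lit 95)) (XT.nd (nat_lit 78) (nat_lit 0) (nat_lit 76) (XT.lf (nat_lit 76) (nat_lit 5073281894) (nat_lit 0) (nat_lit 15110151525) (nat_lit 1216) (nat_lit 27436757550) (nat_lit 188) (nat_lit 5) (nat_lit 187) (nat_lit 5) (nat_lit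 203) (nat_lit 5) (nat_lit 344) (nat_lit 342) (nat_lit 94)) (XT.lf (nat_lit 0) (nat_lit 21004528476) (nat_lit 1140) (nat_lit 21199102639) (nat_lit 1216) (nat_lit 6136651151) (nat_lit 188) (nat_lit 5) (nat_lit 203) (nat_lit 5) (nat_lit 204) (nat_lit 5) (nat_lit 345) (nat_lit 342) (nat_lit 93)))) (XT.nd (nat_lit 156) (nat_lit 0) (nat_lit 76) (XT.nd (nat_lit 78) (nat_lit 0) (nat_lit 76) (XT.lf (nat_lit 76) (nat_lit 651624909) (nat_lit 0) (nat_lit 21353435221) (nat_lit 1216) (nat_lit 27072273507) (nat_lit 189) (nat_lit 5) (nat_lit 188) (nat_lit 5) (nat_lit 204) (nat_lit 5) (nat_lit 346) (nat_lit 342) (nat_lit 92)) (XT.lf (nat_lit 0) (nat_lit 23251935542) (nat_lit 1140) (nat_lit 26241587909) (nat_lit 1216) (nat_lit 336484667) (nat_lit 189) (nat_lit 5) (nat_lit 204) (nat_lit 5) (nat_lit 205) (nat_lit 5) (nat_lit 347) (nat_lit 342) (nat_lit 91))) (XT.nd (nat_lit 78) (nat_lit 0) (nat_lit 0) (XT.lf (nat_lit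 0) (nat_lit 24746631194) (nat_lit 1140) (nat_lit 3603998322) (nat_lit 1216) (nat_lit 22248322263) (nat_lit 189) (nat_lit 5) (nat_lit 204) (nat_lit 5) (nat_lit 205) (nat_lit 5) (nat_lit 348) (nat_lit 342) (nat_lit 90)) (XT.lf (nat_lit 76) (nat_lit 20104412229) (nat_lit 0) (nat_lit 6374034526) (nat_lit 1216) (nat_lit 24906749947) (nat_lit 190) (nat_lit 5) (nat_lit 189) (nat_lit 5) (nat_lit 205) (nat_lit 5) (nat_lit 349) (nat_lit 342) (nat_lit 89)))))) (XT.nd (nat_lit 546) (nat_lit 1520) (nat_lit 0) (XT.nd (nat_lit 234) (nat_lit 0) (nat_lit 76) (XT.nd (nat_lit 78) (nat_lit 0) (nat_lit 0) (XT.lf (nat_lit 0) (nat_lit 28454338386) (nat_lit 1140) (nat_lit 7753306303) (nat_lit 1216) (nat_lit 15981621920) (nat_lit 190) (nat_lit 5) (nat_lit 205) (nat_lit 5) (nat_lit 206) (nat_lit 5) (nat_lit 350) (nat_lit 342) (nat_lit 88)) (XT.nd (nat_lit 78) (nat_lit 0) (nat_lit 76) (XT.lf (nat_lit 76) (nat_lit 16742978107)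 (nat_lit 0) (nat_lit 13969658384) (nat_lit 1216) (nat_lit 22298129480) (nat_lit 191) (nat_lit 5) (nat_lit 190) (nat_lit 5) (nat_lit 206) (nat_lit 5) (nat_lit 351) (nat_lit 342) (nat_lit 87)) (XT.lf (nat_lit 0) (nat_lit 33202745490) (nat_lit 1140) (nat_lit 11808793195) (nat_lit 1216) (nat_lit 8840450982) (nat_lit 191) (nat_lit 5) (nat_lit 206) (nat_lit 5) (nat_lit 207) (nat_lit 5) (nat_lit 352) (nat_lit 342) (nat_lit 86)))) (XT.nd (nat_lit 156) (nat_lit 0) (nat_lit 76) (XT.nd (nat_lit 78) (nat_lit 0) (nat_lit 76) (XT.lf (nat_lit 76) (nat_lit 13508629251) (nat_lit 0) (nat_lit 22526221764) (nat_lit 1216) (nat_lit 18675581437) (nat_lit 192) (nat_lit 5) (nat_lit 191) (nat_lit 5) (nat_lit 207) (nat_lit 5) (nat_lit 353) (nat_lit 342) (nat_lit 85)) (XT.lf (nat_lit 0) (nat_lit 39077585334) (nat_lit 1140) (nat_lit 15771333234) (nat_lit 1216) (nat_lit 741941127) (nat_lit 192) (nat_lit 5) (nat_lit 207) (nat_lit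 5) (nat_lit 208) (nat_lit 5) (nat_lit 354) (nat_lit 342) (nat_lit 84))) (XT.nd (nat_lit 78) (nat_lit 0) (nat_lit 0) (XT.lf (nat_lit 76) (nat_lit 10401352404) (nat_lit 0) (nat_lit 32132438389) (nat_lit 1216) (nat_lit 13954244396) (nat_lit 193) (nat_lit 5) (nat_lit 192) (nat_lit 5) (nat_lit 208) (nat_lit 5) (nat_lit 355) (nat_lit 342) (nat_lit 83)) (XT.lf (nat_lit 76) (nat_lit 37681887321) (nat_lit 0) (nat_lit 8570245736) (nat_lit 1216) (nat_lit 11155240448) (nat_lit 193) (nat_lit 5) (nat_lit 192) (nat_lit 5) (nat_lit 208) (nat_lit 5) (nat_lit 356) (nat_lit 342) (nat_lit 82))))) (XT.nd (nat_lit 234) (nat_lit 684) (nat_lit 0) (XT.nd (nat_lit 78) (nat_lit 1064) (nat_lit 0) (XT.lf (nat_lit 76) (nat_lit 7419790401) (nat_lit 0) (nat_lit 42883681689) (nat_lit 1216) (nat_lit 8044177531) (nat_lit 194) (nat_lit 5) (nat_lit 193) (nat_lit 5) (nat_lit 209) (nat_lit 5) (nat_lit 357) (nat_lit 342) (nat_lit 81))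 (XT.nd (nat_lit 78) (nat_lit 1064) (nat_lit 0) (XT.lf (nat_lit 76) (nat_lit 35696605817) (nat_lit 0) (nat_lit 19062189344) (nat_lit 1216) (nat_lit 4548866559) (nat_lit 194) (nat_lit 5) (nat_lit 193) (nat_lit 5) (nat_lit 209) (nat_lit 5) (nat_lit 358) (nat_lit 342) (nat_lit 80)) (XT.lf (nat_lit 0) (nat_lit 4560997903) (nat_lit 1140) (nat_lit 54882498787) (nat_lit 1216) (nat_lit 850106913) (nat_lit 179) (nat_lit 5) (nat_lit 194) (nat_lit 5) (nat_lit 195) (nat_lit 5) (nat_lit 359) (nat_lit 342) (nat_lit 79)))) (XT.nd (nat_lit 156) (nat_lit 0) (nat_lit 0) (XT.nd (nat_lit 78) (nat_lit 608) (nat_lit 0) (XT.lf (nat_lit 0) (nat_lit 3330647508) (nat_lit 1216) (nat_lit 27459944498) (nat_lit 76) (nat_lit 30504815635) (nat_lit 178) (nat_lit 5) (nat_lit 194) (nat_lit 5) (nat_lit 179) (nat_lit 5) (nat_lit 360) (nat_lit 342) (nat_lit 78)) (XT.lf (nat_lit 0) (nat_lit 1684728045) (nat_lit 608) (nat_lit 5950490458)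 (nat_lit 684) (nat_lit 54691331282) (nat_lit 170) (nat_lit 5) (nat_lit 178) (nat_lit 5) (nat_lit 179) (nat_lit 5) (nat_lit 361) (nat_lit 342) (nat_lit 77))) (XT.nd (nat_lit 78) (nat_lit 0) (nat_lit 0) (XT.lf (nat_lit 0) (nat_lit 12537006747) (nat_lit 684) (nat_lit 31305795231) (nat_lit 76) (nat_lit 19531782689) (nat_lit 170) (nat_lit 5) (nat_lit 179) (nat_lit 5) (nat_lit 171) (nat_lit 5) (nat_lit 362) (nat_lit 342) (nat_lit 76)) (XT.lf (nat_lit 0) (nat_lit 17644085951) (nat_lit 684) (nat_lit 1149228123) (nat_lit 76) (nat_lit 45659000251) (nat_lit 170) (nat_lit 5) (nat_lit 179) (nat_lit 5) (nat_lit 171) (nat_lit 5) (nat_lit 363) (nat_lit 342) (nat_lit 75))))))))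
noncomputable def xc251 : XT := (XT.nd (nat_lit 40248) (nat_lit 0) (nat_lit 456) (XT.nd (nat_lit 39156) (nat_lit 0) (nat_lit 4484) (XT.nd (nat_lit 468) (nat_lit 1520) (nat_lit 0) (XT.nd (nat_lit 234) (nat_lit 532) (nat_lit 0) (XT.nd (nat_lit 78) (nat_lit 532) (nat_lit 0) (XT.lf (nat_lit 0) (nat_lit 23267234033) (nat_lit 684) (nat_lit 35117139006) (nat_lit 76) (nat_lit 7167117965) (nat_lit 162) (nat_lit 5) (nat_lit 171) (nat_lit 5) (nat_lit 163) (nat_lit 5) (nat_lit 364) (nat_lit 342) (nat_lit 74)) (XT.nd (nat_lit 78) (nat_lit 532) (nat_lit 0) (XT.lf (nat_lit 0) (nat_lit 29256223999) (nat_lit 684) (nat_lit 3881105485) (nat_lit 76) (nat_lit 33540399876) (nat_lit 162) (nat_lit 5) (nat_lit 171) (nat_lit 5) (nat_lit 163) (nat_lit 5) (nat_lit 365) (nat_lit 342) (nat_lit 73)) (XT.lf (nat_lit 0) (nat_lit 28854460672) (nat_lit 532) (nat_lit 6847163672) (nat_lit 608) (nat_lit 32127829079) (nat_lit 155)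 (nat_lit 5) (nat_lit 162) (nat_lit 5) (nat_lit 163) (nat_lit 5) (nat_lit 366) (nat_lit 342) (nat_lit 72)))) (XT.nd (nat_lit 78) (nat_lit 532) (nat_lit 0) (XT.lf (nat_lit 0) (nat_lit 42573832449) (nat_lit 608) (nat_lit 6558384607) (nat_lit 76) (nat_lit 19876509536) (nat_lit 155) (nat_lit 5) (nat_lit 163) (nat_lit 5) (nat_lit 156) (nat_lit 5) (nat_lit 367) (nat_lit 342) (nat_lit 71)) (XT.nd (nat_lit 78) (nat_lit 0) (nat_lit 0) (XT.lf (nat_lit 0) (nat_lit 27294952633) (nat_lit 532) (nat_lit 22686828122) (nat_lit 608) (nat_lit 20231710716) (nat_lit 148) (nat_lit 5) (nat_lit 155) (nat_lit 5) (nat_lit 156) (nat_lit 5) (nat_lit 368) (nat_lit 342) (nat_lit 70)) (XT.lf (nat_lit 0) (nat_lit 57722021955) (nat_lit 608) (nat_lit 9199104186) (nat_lit 76) (nat_lit 4529972231) (nat_lit 148) (nat_lit 5) (nat_lit 156) (nat_lit 5) (nat_lit 149) (nat_lit 5) (nat_lit 369) (nat_lit 342) (nat_lit 69))))) (XT.nd (nat_lit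 234) (nat_lit 456) (nat_lit 0) (XT.nd (nat_lit 78) (nat_lit 608) (nat_lit 0) (XT.lf (nat_lit 0) (nat_lit 25810351584) (nat_lit 456) (nat_lit 40356278810) (nat_lit 532) (nat_lit 6545038980) (nat_lit 142) (nat_lit 5) (nat_lit 148) (nat_lit 5) (nat_lit 149) (nat_lit 5) (nat_lit 370) (nat_lit 342) (nat_lit 68)) (XT.nd (nat_lit 78) (nat_lit 532) (nat_lit 0) (XT.lf (nat_lit 0) (nat_lit 931095234) (nat_lit 532) (nat_lit 11958339782) (nat_lit 76) (nat_lit 61117579203) (nat_lit 141) (nat_lit 5) (nat_lit 148) (nat_lit 5) (nat_lit 142) (nat_lit 5) (nat_lit 371) (nat_lit 342) (nat_lit 67)) (XT.lf (nat_lit 0) (nat_lit 8885410302) (nat_lit 608) (nat_lit 51038713698) (nat_lit 76) (nat_lit 15403588601) (nat_lit 134) (nat_lit 5) (nat_lit 142) (nat_lit 5) (nat_lit 135) (nat_lit 5) (nat_lit 372) (nat_lit 342) (nat_lit 66)))) (XT.nd (nat_lit 38298) (nat_lit 0) (nat_lit 4484) (XT.nd (nat_lit 78) (nat_lit 456) (nat_lit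 0) (XT.lf (nat_lit 0) (nat_lit 17327388493) (nat_lit 608) (nat_lit 14944923005) (nat_lit 76) (nat_lit 44408250041) (nat_lit 134) (nat_lit 5) (nat_lit 142) (nat_lit 5) (nat_lit 135) (nat_lit 5) (nat_lit 373) (nat_lit 342) (nat_lit 65)) (XT.lf (nat_lit 0) (nat_lit 22673549299) (nat_lit 456) (nat_lit 3566508480) (nat_lit 532) (nat_lit 51827415809) (nat_lit 128) (nat_lit 5) (nat_lit 134) (nat_lit 5) (nat_lit 135) (nat_lit 5) (nat_lit 374) (nat_lit 342) (nat_lit 64))) (XT.nd (nat_lit 78) (nat_lit 0) (nat_lit 0) (XT.lf (nat_lit 0) (nat_lit 4951873256) (nat_lit 0) (nat_lit 4951873256) (nat_lit 1140) (nat_lit 13901458123) (nat_lit 187) (nat_lit 5) (nat_lit 187) (nat_lit 3) (nat_lit 202) (nat_lit 3) (nat_lit 343) (nat_lit 343) (nat_lit 94)) (XT.lf (nat_lit 0) (nat_lit 20245055413) (nat_lit 1140) (nat_lit 16545128401) (nat_lit 1216) (nat_lit 11530131027) (nat_lit 187) (nat_lit 5) (nat_lit 202) (nat_lit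 3) (nat_lit 203) (nat_lit 5) (nat_lit 344) (nat_lit 343) (nat_lit 93)))))) (XT.nd (nat_lit 546) (nat_lit 0) (nat_lit 228) (XT.nd (nat_lit 234) (nat_lit 0) (nat_lit 152) (XT.nd (nat_lit 78) (nat_lit 0) (nat_lit 76) (XT.lf (nat_lit 76) (nat_lit 5255168826) (nat_lit 0) (nat_lit 15588084065) (nat_lit 1216) (nat_lit 28203840887) (nat_lit 188) (nat_lit 5) (nat_lit 187) (nat_lit 5) (nat_lit 203) (nat_lit 5) (nat_lit 345) (nat_lit 343) (nat_lit 92)) (XT.nd (nat_lit 78) (nat_lit 0) (nat_lit 0) (XT.lf (nat_lit 0) (nat_lit 21687168923) (nat_lit 1140) (nat_lit 21804368791) (nat_lit 1216) (nat_lit 6297306595) (nat_lit 188) (nat_lit 5) (nat_lit 203) (nat_lit 5) (nat_lit 204) (nat_lit 5) (nat_lit 346) (nat_lit 343) (nat_lit 91)) (XT.lf (nat_lit 76) (nat_lit 701579535) (nat_lit 0) (nat_lit 22014900011) (nat_lit 1216) (nat_lit 27831566861) (nat_lit 189) (nat_lit 5) (nat_lit 188) (nat_lit 5) (nat_lit 204) (nat_lit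 5) (nat_lit 347) (nat_lit 343) (nat_lit 90)))) (XT.nd (nat_lit 156) (nat_lit 0) (nat_lit 0) (XT.nd (nat_lit 78) (nat_lit 0) (nat_lit 0) (XT.lf (nat_lit 0) (nat_lit 23999073295) (nat_lit 1140) (nat_lit 26997560154) (nat_lit 1216) (nat_lit 326720327) (nat_lit 189) (nat_lit 5) (nat_lit 204) (nat_lit 5) (nat_lit 205) (nat_lit 5) (nat_lit 348) (nat_lit 343) (nat_lit 89)) (XT.lf (nat_lit 0) (nat_lit 25537165747) (nat_lit 1140) (nat_lit 3681753813) (nat_lit 1216) (nat_lit 22896491466) (nat_lit 189) (nat_lit 5) (nat_lit 204) (nat_lit 5) (nat_lit 205) (nat_lit 5) (nat_lit 349) (nat_lit 343) (nat_lit 88))) (XT.nd (nat_lit 78) (nat_lit 0) (nat_lit 76) (XT.lf (nat_lit 76) (nat_lit 20737611364) (nat_lit 0) (nat_lit 6582211423) (nat_lit 1216) (nat_lit 25605455799) (nat_lit 190) (nat_lit 5) (nat_lit 189) (nat_lit 5) (nat_lit 205) (nat_lit 5) (nat_lit 350) (nat_lit 343) (nat_lit 87)) (XT.lf (nat_lit 0) (nat_lit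 29353463333) (nat_lit 1140) (nat_lit 7955125129) (nat_lit 1216) (nat_lit 16444929809) (nat_lit 190) (nat_lit 5) (nat_lit 205) (nat_lit 5) (nat_lit 206) (nat_lit 5) (nat_lit 351) (nat_lit 343) (nat_lit 86))))) (XT.nd (nat_lit 234) (nat_lit 0) (nat_lit 152) (XT.nd (nat_lit 78) (nat_lit 0) (nat_lit 76) (XT.lf (nat_lit 76) (nat_lit 17275746046) (nat_lit 0) (nat_lit 14402732223) (nat_lit 1216) (nat_lit 22921217099) (nat_lit 191) (nat_lit 5) (nat_lit 190) (nat_lit 5) (nat_lit 206) (nat_lit 5) (nat_lit 352) (nat_lit 343) (nat_lit 85)) (XT.nd (nat_lit 78) (nat_lit 0) (nat_lit 0) (XT.lf (nat_lit 0) (nat_lit 34241865000) (nat_lit 1140) (nat_lit 12131982620) (nat_lit 1216) (nat_lit 9092352659) (nat_lit 191) (nat_lit 5) (nat_lit 206) (nat_lit 5) (nat_lit 207) (nat_lit 5) (nat_lit 353) (nat_lit 343) (nat_lit 84)) (XT.lf (nat_lit 76) (nat_lit 13944657849) (nat_lit 0) (nat_lit 23213318111) (nat_lit 1216) (nat_lit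 19192450809) (nat_lit 192) (nat_lit 5) (nat_lit 191) (nat_lit 5) (nat_lit 207) (nat_lit 5) (nat_lit 354) (nat_lit 343) (nat_lit 83)))) (XT.nd (nat_lit 156) (nat_lit 0) (nat_lit 0) (XT.nd (nat_lit 78) (nat_lit 0) (nat_lit 0) (XT.lf (nat_lit 0) (nat_lit 40290661144) (nat_lit 1140) (nat_lit 16213213917) (nat_lit 1216) (nat_lit 753433341) (nat_lit 192) (nat_lit 5) (nat_lit 207) (nat_lit 5) (nat_lit 208) (nat_lit 5) (nat_lit 355) (nat_lit 343) (nat_lit 82)) (XT.lf (nat_lit 76) (nat_lit 10744345826) (nat_lit 0) (nat_lit 33105317636) (nat_lit 1216) (nat_lit 14331763969) (nat_lit 193) (nat_lit 5) (nat_lit 192) (nat_lit 5) (nat_lit 208) (nat_lit 5) (nat_lit 356) (nat_lit 343) (nat_lit 81))) (XT.nd (nat_lit 78) (nat_lit 0) (nat_lit 76) (XT.lf (nat_lit 76) (nat_lit 38842395252) (nat_lit 0) (nat_lit 8835999803) (nat_lit 1216) (nat_lit 11449987216) (nat_lit 193) (nat_lit 5) (nat_lit 192) (nat_lit 5) (nat_lit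 208) (nat_lit 5) (nat_lit 357) (nat_lit 343) (nat_lit 80)) (XT.lf (nat_lit 76) (nat_lit 7673423659) (nat_lit 0) (nat_lit 44176941148) (nat_lit 1216) (nat_lit 8246530647) (nat_lit 194) (nat_lit 5) (nat_lit 193) (nat_lit 5) (nat_lit 209) (nat_lit 5) (nat_lit 358) (nat_lit 343) (nat_lit 79))))))) (XT.nd (nat_lit 1014) (nat_lit 608) (nat_lit 0) (XT.nd (nat_lit 468) (nat_lit 2128) (nat_lit 0) (XT.nd (nat_lit 234) (nat_lit 608) (nat_lit 0) (XT.nd (nat_lit 78) (nat_lit 1140) (nat_lit 0) (XT.lf (nat_lit 76) (nat_lit 36797639473) (nat_lit 0) (nat_lit 19640607459) (nat_lit 1216) (nat_lit 4647495458) (nat_lit 194) (nat_lit 5) (nat_lit 193) (nat_lit 5) (nat_lit 209) (nat_lit 5) (nat_lit 359) (nat_lit 343) (nat_lit 78)) (XT.nd (nat_lit 78) (nat_lit 76) (nat_lit 0) (XT.lf (nat_lit 0) (nat_lit 4728868159) (nat_lit 1140) (nat_lit 56533789996) (nat_lit 1216) (nat_lit 838630730) (nat_lit 179) (nat_lit 5) (nat_lit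 194) (nat_lit 5) (nat_lit 195) (nat_lit 5) (nat_lit 360) (nat_lit 343) (nat_lit 77)) (XT.lf (nat_lit 0) (nat_lit 3465768669) (nat_lit 1216) (nat_lit 28252861594) (nat_lit 76) (nat_lit 31414539130) (nat_lit 178) (nat_lit 5) (nat_lit 194) (nat_lit 5) (nat_lit 179) (nat_lit 5) (nat_lit 361) (nat_lit 343) (nat_lit 76)))) (XT.nd (nat_lit 78) (nat_lit 0) (nat_lit 0) (XT.lf (nat_lit 0) (nat_lit 1765848368) (nat_lit 608) (nat_lit 6132897073) (nat_lit 684) (nat_lit 56296523597) (nat_lit 170) (nat_lit 5) (nat_lit 178) (nat_lit 5) (nat_lit 179) (nat_lit 5) (nat_lit 362) (nat_lit 343) (nat_lit 75)) (XT.nd (nat_lit 78) (nat_lit 0) (nat_lit 0) (XT.lf (nat_lit 0) (nat_lit 12946547018) (nat_lit 684) (nat_lit 32214199055) (nat_lit 76) (nat_lit 20114031358) (nat_lit 170) (nat_lit 5) (nat_lit 179) (nat_lit 5) (nat_lit 171) (nat_lit 5) (nat_lit 363) (nat_lit 343) (nat_lit 74)) (XT.lf (nat_lit 0) (nat_lit 18205864908)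 (nat_lit 684) (nat_lit 1153831148) (nat_lit 76) (nat_lit 47025173354) (nat_lit 170) (nat_lit 5) (nat_lit 179) (nat_lit 5) (nat_lit 171) (nat_lit 5) (nat_lit 364) (nat_lit 343) (nat_lit 73))))) (XT.nd (nat_lit 234) (nat_lit 988) (nat_lit 0) (XT.nd (nat_lit 78) (nat_lit 532) (nat_lit 0) (XT.lf (nat_lit 0) (nat_lit 23997025164) (nat_lit 684) (nat_lit 36140057619) (nat_lit 76) (nat_lit 7379960258) (nat_lit 162) (nat_lit 5) (nat_lit 171) (nat_lit 5) (nat_lit 163) (nat_lit 5) (nat_lit 365) (nat_lit 343) (nat_lit 72)) (XT.nd (nat_lit 78) (nat_lit 532) (nat_lit 0) (XT.lf (nat_lit 0) (nat_lit 30164759369) (nat_lit 684) (nat_lit 3967834225) (nat_lit 76) (nat_lit 34544503867) (nat_lit 162) (nat_lit 5) (nat_lit 171) (nat_lit 5) (nat_lit 163) (nat_lit 5) (nat_lit 366) (nat_lit 343) (nat_lit 71)) (XT.lf (nat_lit 0) (nat_lit 29749507697) (nat_lit 532) (nat_lit 7053398261) (nat_lit 608) (nat_lit 33060486877)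 (nat_lit 155) (nat_lit 5) (nat_lit 162) (nat_lit 5) (nat_lit 163) (nat_lit 5) (nat_lit 367) (nat_lit 343) (nat_lit 70)))) (XT.nd (nat_lit 156) (nat_lit 456) (nat_lit 0) (XT.nd (nat_lit 78) (nat_lit 532) (nat_lit 0) (XT.lf (nat_lit 0) (nat_lit 43880392087) (nat_lit 608) (nat_lit 6725655296) (nat_lit 76) (nat_lit 20472024547) (nat_lit 155) (nat_lit 5) (nat_lit 163) (nat_lit 5) (nat_lit 156) (nat_lit 5) (nat_lit 368) (nat_lit 343) (nat_lit 69)) (XT.lf (nat_lit 0) (nat_lit 28142993034) (nat_lit 532) (nat_lit 23367011719) (nat_lit 608) (nat_lit 20808993276) (nat_lit 148) (nat_lit 5) (nat_lit 155) (nat_lit 5) (nat_lit 156) (nat_lit 5) (nat_lit 369) (nat_lit 343) (nat_lit 68))) (XT.nd (nat_lit 78) (nat_lit 456) (nat_lit 0) (XT.lf (nat_lit 0) (nat_lit 59481619142) (nat_lit 608) (nat_lit 9445867644) (nat_lit 76) (nat_lit 4666272395) (nat_lit 148) (nat_lit 5) (nat_lit 156) (nat_lit 5) (nat_lit 149) (nat_lit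 5) (nat_lit 370) (nat_lit 343) (nat_lit 67)) (XT.lf (nat_lit 0) (nat_lit 26613585430) (nat_lit 456) (nat_lit 41565444747) (nat_lit 532) (nat_lit 6713134196) (nat_lit 142) (nat_lit 5) (nat_lit 148) (nat_lit 5) (nat_lit 149) (nat_lit 5) (nat_lit 371) (nat_lit 343) (nat_lit 66)))))) (XT.nd (nat_lit 38844) (nat_lit 0) (nat_lit 4180) (XT.nd (nat_lit 38532) (nat_lit 0) (nat_lit 4028) (XT.nd (nat_lit 78) (nat_lit 532) (nat_lit 0) (XT.lf (nat_lit 0) (nat_lit 985925739) (nat_lit 532) (nat_lit 12288442628) (nat_lit 76) (nat_lit 62952018190) (nat_lit 141) (nat_lit 5) (nat_lit 148) (nat_lit 5) (nat_lit 142) (nat_lit 5) (nat_lit 372) (nat_lit 343) (nat_lit 65)) (XT.nd (nat_lit 38376) (nat_lit 0) (nat_lit 4028) (XT.lf (nat_lit 0) (nat_lit 9178378538) (nat_lit 608) (nat_lit 52540705790) (nat_lit 76) (nat_lit 15867637223) (nat_lit 134) (nat_lit 5) (nat_lit 142) (nat_lit 5) (nat_lit 135) (nat_lit 5) (nat_lit 373)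 (nat_lit 343) (nat_lit 64)) (XT.lf (nat_lit 0) (nat_lit 5114002461) (nat_lit 0) (nat_lit 5114002461) (nat_lit 1140) (nat_lit 14290504758) (nat_lit 187) (nat_lit 5) (nat_lit 187) (nat_lit 3) (nat_lit 202) (nat_lit 3) (nat_lit 344) (nat_lit 344) (nat_lit 92)))) (XT.nd (nat_lit 156) (nat_lit 0) (nat_lit 76) (XT.nd (nat_lit 78) (nat_lit 0) (nat_lit 0) (XT.lf (nat_lit 0) (nat_lit 20904864440) (nat_lit 1140) (nat_lit 17013220946) (nat_lit 1216) (nat_lit 11850193892) (nat_lit 187) (nat_lit 5) (nat_lit 202) (nat_lit 3) (nat_lit 203) (nat_lit 5) (nat_lit 345) (nat_lit 344) (nat_lit 91)) (XT.lf (nat_lit 76) (nat_lit 5440808126) (nat_lit 0) (nat_lit 16078940834) (nat_lit 1216) (nat_lit 28997152466) (nat_lit 188) (nat_lit 5) (nat_lit 187) (nat_lit 5) (nat_lit 203) (nat_lit 5) (nat_lit 346) (nat_lit 344) (nat_lit 90))) (XT.nd (nat_lit 78) (nat_lit 0) (nat_lit 0) (XT.lf (nat_lit 0) (nat_lit 22387274604) (nat_lit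 1140) (nat_lit 22429555631) (nat_lit 1216) (nat_lit 6464127488) (nat_lit 188) (nat_lit 5) (nat_lit 203) (nat_lit 5) (nat_lit 204) (nat_lit 5) (nat_lit 347) (nat_lit 344) (nat_lit 89)) (XT.lf (nat_lit 76) (nat_lit 751287377) (nat_lit 0) (nat_lit 22695011196) (nat_lit 1216) (nat_lit 28616674247) (nat_lit 189) (nat_lit 5) (nat_lit 188) (nat_lit 5) (nat_lit 204) (nat_lit 5) (nat_lit 348) (nat_lit 344) (nat_lit 88))))) (XT.nd (nat_lit 234) (nat_lit 0) (nat_lit 76) (XT.nd (nat_lit 78) (nat_lit 0) (nat_lit 0) (XT.lf (nat_lit 0) (nat_lit 24765779103) (nat_lit 1140) (nat_lit 27778006902) (nat_lit 1216) (nat_lit 317803038) (nat_lit 189) (nat_lit 5) (nat_lit 204) (nat_lit 5) (nat_lit 205) (nat_lit 5) (nat_lit 349) (nat_lit 344) (nat_lit 87)) (XT.nd (nat_lit 78) (nat_lit 0) (nat_lit 0) (XT.lf (nat_lit 0) (nat_lit 26348653155) (nat_lit 1140) (nat_lit 3763585013) (nat_lit 1216) (nat_lit 23565212522) (nat_lit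 189) (nat_lit 5) (nat_lit 204) (nat_lit 5) (nat_lit 205) (nat_lit 5) (nat_lit 350) (nat_lit 344) (nat_lit 86)) (XT.lf (nat_lit 76) (nat_lit 21388080517) (nat_lit 0) (nat_lit 6795660291) (nat_lit 1216) (nat_lit 26327906733) (nat_lit 190) (nat_lit 5) (nat_lit 189) (nat_lit 5) (nat_lit 205) (nat_lit 5) (nat_lit 351) (nat_lit 344) (nat_lit 85)))) (XT.nd (nat_lit 156) (nat_lit 0) (nat_lit 76) (XT.nd (nat_lit 78) (nat_lit 0) (nat_lit 0) (XT.lf (nat_lit 0) (nat_lit 30276950441) (nat_lit 1140) (nat_lit 8164765437) (nat_lit 1216) (nat_lit 16923063481) (nat_lit 190) (nat_lit 5) (nat_lit 205) (nat_lit 5) (nat_lit 206) (nat_lit 5) (nat_lit 352) (nat_lit 344) (nat_lit 84)) (XT.lf (nat_lit 76) (nat_lit 17822747427) (nat_lit 0) (nat_lit 14847995534) (nat_lit 1216) (nat_lit 23565629683) (nat_lit 191) (nat_lit 5) (nat_lit 190) (nat_lit 5) (nat_lit 206) (nat_lit 5) (nat_lit 353) (nat_lit 344) (nat_lit 83))) (XT.nd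 (nat_lit 78) (nat_lit 0) (nat_lit 0) (XT.lf (nat_lit 0) (nat_lit 35309687587) (nat_lit 1140) (nat_lit 12466651524) (nat_lit 1216) (nat_lit 9352575542) (nat_lit 191) (nat_lit 5) (nat_lit 206) (nat_lit 5) (nat_lit 207) (nat_lit 5) (nat_lit 354) (nat_lit 344) (nat_lit 82)) (XT.lf (nat_lit 76) (nat_lit 14392000997) (nat_lit 0) (nat_lit 23920378125) (nat_lit 1216) (nat_lit 19727317489) (nat_lit 192) (nat_lit 5) (nat_lit 191) (nat_lit 5) (nat_lit 207) (nat_lit 5) (nat_lit 355) (nat_lit 344) (nat_lit 81))))))))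
noncomputable def xc252 : XT := (XT.nd (nat_lit 40482) (nat_lit 0) (nat_lit 456) (XT.nd (nat_lit 1014) (nat_lit 988) (nat_lit 0) (XT.nd (nat_lit 468) (nat_lit 1824) (nat_lit 0) (XT.nd (nat_lit 234) (nat_lit 988) (nat_lit 0) (XT.nd (nat_lit 78) (nat_lit 0) (nat_lit 0) (XT.lf (nat_lit 0) (nat_lit 41537790112) (nat_lit 1140) (nat_lit 16670145433) (nat_lit 1216) (nat_lit 765888335) (nat_lit 192) (nat_lit 5) (nat_lit 207) (nat_lit 5) (nat_lit 208) (nat_lit 5) (nat_lit 356) (nat_lit 344) (nat_lit 80)) (XT.nd (nat_lit 78) (nat_lit 0) (nat_lit 0) (XT.lf (nat_lit 76) (nat_lit 11095852231) (nat_lit 0) (nat_lit 34106872015) (nat_lit 1216) (nat_lit 14722968882) (nat_lit 193) (nat_lit 5) (nat_lit 192) (nat_lit 5) (nat_lit 208) (nat_lit 5) (nat_lit 357) (nat_lit 344) (nat_lit 79)) (XT.lf (nat_lit 76) (nat_lit 40035993352) (nat_lit 0) (nat_lit 9109230136) (nat_lit 1216) (nat_lit 11755867410) (nat_lit 193) (nat_lit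 5) (nat_lit 192) (nat_lit 5) (nat_lit 208) (nat_lit 5) (nat_lit 358) (nat_lit 344) (nat_lit 78)))) (XT.nd (nat_lit 78) (nat_lit 1064) (nat_lit 0) (XT.lf (nat_lit 76) (nat_lit 7932884118) (nat_lit 0) (nat_lit 45508610970) (nat_lit 1216) (nat_lit 8457191520) (nat_lit 194) (nat_lit 5) (nat_lit 193) (nat_lit 5) (nat_lit 209) (nat_lit 5) (nat_lit 359) (nat_lit 344) (nat_lit 77)) (XT.nd (nat_lit 78) (nat_lit 1064) (nat_lit 0) (XT.lf (nat_lit 76) (nat_lit 37929974238) (nat_lit 0) (nat_lit 20236001982) (nat_lit 1216) (nat_lit 4751255229) (nat_lit 194) (nat_lit 5) (nat_lit 193) (nat_lit 5) (nat_lit 209) (nat_lit 5) (nat_lit 360) (nat_lit 344) (nat_lit 76)) (XT.lf (nat_lit 0) (nat_lit 4899992680) (nat_lit 1140) (nat_lit 58234343469) (nat_lit 1216) (nat_lit 828933031) (nat_lit 179) (nat_lit 5) (nat_lit 194) (nat_lit 5) (nat_lit 195) (nat_lit 5) (nat_lit 361) (nat_lit 344) (nat_lit 75))))) (XT.nd (nat_lit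 234) (nat_lit 1140) (nat_lit 0) (XT.nd (nat_lit 78) (nat_lit 608) (nat_lit 0) (XT.lf (nat_lit 0) (nat_lit 3602922742) (nat_lit 1216) (nat_lit 29071338912) (nat_lit 76) (nat_lit 32351865516) (nat_lit 178) (nat_lit 5) (nat_lit 194) (nat_lit 5) (nat_lit 179) (nat_lit 5) (nat_lit 362) (nat_lit 344) (nat_lit 74)) (XT.nd (nat_lit 78) (nat_lit 0) (nat_lit 0) (XT.lf (nat_lit 0) (nat_lit 1847646971) (nat_lit 608) (nat_lit 6320552474) (nat_lit 684) (nat_lit 57951912260) (nat_lit 170) (nat_lit 5) (nat_lit 178) (nat_lit 5) (nat_lit 179) (nat_lit 5) (nat_lit 363) (nat_lit 344) (nat_lit 73)) (XT.lf (nat_lit 0) (nat_lit 13366454475) (nat_lit 684) (nat_lit 33151621318) (nat_lit 76) (nat_lit 20713960159) (nat_lit 170) (nat_lit 5) (nat_lit 179) (nat_lit 5) (nat_lit 171) (nat_lit 5) (nat_lit 364) (nat_lit 344) (nat_lit 72)))) (XT.nd (nat_lit 156) (nat_lit 532) (nat_lit 0) (XT.nd (nat_lit 78) (nat_lit 608) (nat_lit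 0) (XT.lf (nat_lit 0) (nat_lit 18782634104) (nat_lit 684) (nat_lit 1160287143) (nat_lit 76) (nat_lit 48432538128) (nat_lit 170) (nat_lit 5) (nat_lit 179) (nat_lit 5) (nat_lit 171) (nat_lit 5) (nat_lit 365) (nat_lit 344) (nat_lit 71)) (XT.lf (nat_lit 0) (nat_lit 24746886064) (nat_lit 684) (nat_lit 37195420100) (nat_lit 76) (nat_lit 7599312458) (nat_lit 162) (nat_lit 5) (nat_lit 171) (nat_lit 5) (nat_lit 163) (nat_lit 5) (nat_lit 366) (nat_lit 344) (nat_lit 70))) (XT.nd (nat_lit 78) (nat_lit 532) (nat_lit 0) (XT.lf (nat_lit 0) (nat_lit 31098779961) (nat_lit 684) (nat_lit 4058869983) (nat_lit 76) (nat_lit 35578851985) (nat_lit 162) (nat_lit 5) (nat_lit 171) (nat_lit 5) (nat_lit 163) (nat_lit 5) (nat_lit 367) (nat_lit 344) (nat_lit 69)) (XT.lf (nat_lit 0) (nat_lit 30669717695) (nat_lit 532) (nat_lit 7265772835) (nat_lit 608) (nat_lit 34022914101) (nat_lit 155) (nat_lit 5) (nat_lit 162) (nat_lit 5)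 (nat_lit 163) (nat_lit 5) (nat_lit 368) (nat_lit 344) (nat_lit 68)))))) (XT.nd (nat_lit 38922) (nat_lit 0) (nat_lit 3420) (XT.nd (nat_lit 234) (nat_lit 456) (nat_lit 0) (XT.nd (nat_lit 78) (nat_lit 532) (nat_lit 0) (XT.lf (nat_lit 0) (nat_lit 45224464010) (nat_lit 608) (nat_lit 6899636426) (nat_lit 76) (nat_lit 21085449799) (nat_lit 155) (nat_lit 5) (nat_lit 163) (nat_lit 5) (nat_lit 156) (nat_lit 5) (nat_lit 369) (nat_lit 344) (nat_lit 67)) (XT.nd (nat_lit 78) (nat_lit 0) (nat_lit 0) (XT.lf (nat_lit 0) (nat_lit 29014798916) (nat_lit 532) (nat_lit 24067625005) (nat_lit 608) (nat_lit 21405297422) (nat_lit 148) (nat_lit 5) (nat_lit 155) (nat_lit 5) (nat_lit 156) (nat_lit 5) (nat_lit 370) (nat_lit 344) (nat_lit 66)) (XT.lf (nat_lit 0) (nat_lit 61292400574) (nat_lit 608) (nat_lit 9701710759) (nat_lit 76) (nat_lit 4806638545) (nat_lit 148) (nat_lit 5) (nat_lit 156) (nat_lit 5) (nat_lit 149) (nat_lit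 5) (nat_lit 371) (nat_lit 344) (nat_lit 65)))) (XT.nd (nat_lit 38532) (nat_lit 0) (nat_lit 3420) (XT.lf (nat_lit 0) (nat_lit 27439255977) (nat_lit 456) (nat_lit 42810973055) (nat_lit 532) (nat_lit 6887894276) (nat_lit 142) (nat_lit 5) (nat_lit 148) (nat_lit 5) (nat_lit 149) (nat_lit 5) (nat_lit 372) (nat_lit 344) (nat_lit 64)) (XT.nd (nat_lit 78) (nat_lit 0) (nat_lit 0) (XT.lf (nat_lit 0) (nat_lit 5280216396) (nat_lit 0) (nat_lit 5280216396) (nat_lit 1140) (nat_lit 14692829941) (nat_lit 187) (nat_lit 5) (nat_lit 187) (nat_lit 3) (nat_lit 202) (nat_lit 3) (nat_lit 345) (nat_lit 345) (nat_lit 90)) (XT.lf (nat_lit 0) (nat_lit 21581456471) (nat_lit 1140) (nat_lit 17496978582) (nat_lit 1216) (nat_lit 12181342025) (nat_lit 187) (nat_lit 5) (nat_lit 202) (nat_lit 3) (nat_lit 203) (nat_lit 5) (nat_lit 346) (nat_lit 345) (nat_lit 89))))) (XT.nd (nat_lit 234) (nat_lit 0) (nat_lit 152) (XT.nd (nat_lit 78)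 (nat_lit 0) (nat_lit 76) (XT.lf (nat_lit 76) (nat_lit 5630410195) (nat_lit 0) (nat_lit 16583190713) (nat_lit 1216) (nat_lit 29817294538) (nat_lit 188) (nat_lit 5) (nat_lit 187) (nat_lit 5) (nat_lit 203) (nat_lit 5) (nat_lit 347) (nat_lit 345) (nat_lit 88)) (XT.nd (nat_lit 78) (nat_lit 0) (nat_lit 0) (XT.lf (nat_lit 0) (nat_lit 23105542493) (nat_lit 1140) (nat_lit 23075159593) (nat_lit 1216) (nat_lit 6637221542) (nat_lit 188) (nat_lit 5) (nat_lit 203) (nat_lit 5) (nat_lit 204) (nat_lit 5) (nat_lit 348) (nat_lit 345) (nat_lit 87)) (XT.lf (nat_lit 76) (nat_lit 800841228) (nat_lit 0) (nat_lit 23394396912) (nat_lit 1216) (nat_lit 29428195854) (nat_lit 189) (nat_lit 5) (nat_lit 188) (nat_lit 5) (nat_lit 204) (nat_lit 5) (nat_lit 349) (nat_lit 345) (nat_lit 86)))) (XT.nd (nat_lit 156) (nat_lit 0) (nat_lit 0) (XT.nd (nat_lit 78) (nat_lit 0) (nat_lit 0) (XT.lf (nat_lit 0) (nat_lit 25552803385) (nat_lit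 1140) (nat_lit 28583559328) (nat_lit 1216) (nat_lit 309692772) (nat_lit 189) (nat_lit 5) (nat_lit 204) (nat_lit 5) (nat_lit 205) (nat_lit 5) (nat_lit 350) (nat_lit 345) (nat_lit 85)) (XT.lf (nat_lit 0) (nat_lit 27181880623) (nat_lit 1140) (nat_lit 3849514135) (nat_lit 1216) (nat_lit 24255038453) (nat_lit 189) (nat_lit 5) (nat_lit 204) (nat_lit 5) (nat_lit 205) (nat_lit 5) (nat_lit 351) (nat_lit 345) (nat_lit 84))) (XT.nd (nat_lit 78) (nat_lit 0) (nat_lit 76) (XT.lf (nat_lit 76) (nat_lit 22056436866) (nat_lit 0) (nat_lit 7014595163) (nat_lit 1216) (nat_lit 27074655293) (nat_lit 190) (nat_lit 5) (nat_lit 189) (nat_lit 5) (nat_lit 205) (nat_lit 5) (nat_lit 352) (nat_lit 345) (nat_lit 83)) (XT.lf (nat_lit 0) (nat_lit 31225680491) (nat_lit 1140) (nat_lit 8382360446) (nat_lit 1216) (nat_lit 17416414522) (nat_lit 190) (nat_lit 5) (nat_lit 205) (nat_lit 5) (nat_lit 206) (nat_lit 5) (nat_lit 353) (nat_lit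 345) (nat_lit 82))))))) (XT.nd (nat_lit 1014) (nat_lit 1672) (nat_lit 0) (XT.nd (nat_lit 468) (nat_lit 1520) (nat_lit 0) (XT.nd (nat_lit 234) (nat_lit 0) (nat_lit 152) (XT.nd (nat_lit 78) (nat_lit 0) (nat_lit 76) (XT.lf (nat_lit 76) (nat_lit 18384509687) (nat_lit 0) (nat_lit 15305860080) (nat_lit 1216) (nat_lit 24231855875) (nat_lit 191) (nat_lit 5) (nat_lit 190) (nat_lit 5) (nat_lit 206) (nat_lit 5) (nat_lit 354) (nat_lit 345) (nat_lit 81)) (XT.nd (nat_lit 78) (nat_lit 0) (nat_lit 0) (XT.lf (nat_lit 0) (nat_lit 36407216161) (nat_lit 1140) (nat_lit 12813041894) (nat_lit 1216) (nat_lit 9621325400) (nat_lit 191) (nat_lit 5) (nat_lit 206) (nat_lit 5) (nat_lit 207) (nat_lit 5) (nat_lit 355) (nat_lit 345) (nat_lit 80)) (XT.lf (nat_lit 76) (nat_lit 14851099524) (nat_lit 0) (nat_lit 24648037984) (nat_lit 1216) (nat_lit 20280578390) (nat_lit 192) (nat_lit 5) (nat_lit 191) (nat_lit 5) (nat_lit 207) (nat_lit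 5) (nat_lit 356) (nat_lit 345) (nat_lit 79)))) (XT.nd (nat_lit 78) (nat_lit 0) (nat_lit 0) (XT.lf (nat_lit 0) (nat_lit 42820128108) (nat_lit 1140) (nat_lit 17142476300) (nat_lit 1216) (nat_lit 779299516) (nat_lit 192) (nat_lit 5) (nat_lit 207) (nat_lit 5) (nat_lit 208) (nat_lit 5) (nat_lit 357) (nat_lit 345) (nat_lit 78)) (XT.nd (nat_lit 78) (nat_lit 0) (nat_lit 0) (XT.lf (nat_lit 76) (nat_lit 11456229004) (nat_lit 0) (nat_lit 35137991126) (nat_lit 1216) (nat_lit 15128134238) (nat_lit 193) (nat_lit 5) (nat_lit 192) (nat_lit 5) (nat_lit 208) (nat_lit 5) (nat_lit 358) (nat_lit 345) (nat_lit 77)) (XT.lf (nat_lit 76) (nat_lit 41263773353) (nat_lit 0) (nat_lit 9390189516) (nat_lit 1216) (nat_lit 12073083519) (nat_lit 193) (nat_lit 5) (nat_lit 192) (nat_lit 5) (nat_lit 208) (nat_lit 5) (nat_lit 359) (nat_lit 345) (nat_lit 76))))) (XT.nd (nat_lit 234) (nat_lit 684) (nat_lit 0) (XT.nd (nat_lit 78) (nat_lit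 1064) (nat_lit 0) (XT.lf (nat_lit 76) (nat_lit 8198448876) (nat_lit 0) (nat_lit 46879865705) (nat_lit 1216) (nat_lit 8676280962) (nat_lit 194) (nat_lit 5) (nat_lit 193) (nat_lit 5) (nat_lit 209) (nat_lit 5) (nat_lit 360) (nat_lit 345) (nat_lit 75)) (XT.nd (nat_lit 78) (nat_lit 1064) (nat_lit 0) (XT.lf (nat_lit 76) (nat_lit 39094648450) (nat_lit 0) (nat_lit 20848903795) (nat_lit 1216) (nat_lit 4860175115) (nat_lit 194) (nat_lit 5) (nat_lit 193) (nat_lit 5) (nat_lit 209) (nat_lit 5) (nat_lit 361) (nat_lit 345) (nat_lit 74)) (XT.lf (nat_lit 0) (nat_lit 5074571381) (nat_lit 1140) (nat_lit 59985652944) (nat_lit 1216) (nat_lit 820945313) (nat_lit 179) (nat_lit 5) (nat_lit 194) (nat_lit 5) (nat_lit 195) (nat_lit 5) (nat_lit 362) (nat_lit 345) (nat_lit 73)))) (XT.nd (nat_lit 156) (nat_lit 0) (nat_lit 0) (XT.nd (nat_lit 78) (nat_lit 608) (nat_lit 0) (XT.lf (nat_lit 0) (nat_lit 3742286712) (nat_lit 1216)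 (nat_lit 29916041499) (nat_lit 76) (nat_lit 33317605017) (nat_lit 178) (nat_lit 5) (nat_lit 194) (nat_lit 5) (nat_lit 179) (nat_lit 5) (nat_lit 363) (nat_lit 345) (nat_lit 72)) (XT.lf (nat_lit 0) (nat_lit 1930244965) (nat_lit 608) (nat_lit 6513626952) (nat_lit 684) (nat_lit 59658886024) (nat_lit 170) (nat_lit 5) (nat_lit 178) (nat_lit 5) (nat_lit 179) (nat_lit 5) (nat_lit 364) (nat_lit 345) (nat_lit 71))) (XT.nd (nat_lit 78) (nat_lit 0) (nat_lit 0) (XT.lf (nat_lit 0) (nat_lit 13797150293) (nat_lit 684) (nat_lit 34118831182) (nat_lit 76) (nat_lit 21332087287) (nat_lit 170) (nat_lit 5) (nat_lit 179) (nat_lit 5) (nat_lit 171) (nat_lit 5) (nat_lit 365) (nat_lit 345) (nat_lit 70)) (XT.lf (nat_lit 0) (nat_lit 19374950198) (nat_lit 684) (nat_lit 1168553256) (nat_lit 76) (nat_lit 49882318469) (nat_lit 170) (nat_lit 5) (nat_lit 179) (nat_lit 5) (nat_lit 171) (nat_lit 5) (nat_lit 366) (nat_lit 345) (nat_lit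 69)))))) (XT.nd (nat_lit 39156) (nat_lit 0) (nat_lit 2964) (XT.nd (nat_lit 234) (nat_lit 532) (nat_lit 0) (XT.nd (nat_lit 78) (nat_lit 532) (nat_lit 0) (XT.lf (nat_lit 0) (nat_lit 25517523531) (nat_lit 684) (nat_lit 38284098946) (nat_lit 76) (nat_lit 7825362708) (nat_lit 162) (nat_lit 5) (nat_lit 171) (nat_lit 5) (nat_lit 163) (nat_lit 5) (nat_lit 367) (nat_lit 345) (nat_lit 68)) (XT.nd (nat_lit 78) (nat_lit 532) (nat_lit 0) (XT.lf (nat_lit 0) (nat_lit 32059151986) (nat_lit 684) (nat_lit 4154244086) (nat_lit 76) (nat_lit 36644344609) (nat_lit 162) (nat_lit 5) (nat_lit 171) (nat_lit 5) (nat_lit 163) (nat_lit 5) (nat_lit 368) (nat_lit 345) (nat_lit 67)) (XT.lf (nat_lit 0) (nat_lit 31615942477) (nat_lit 532) (nat_lit 7484474294) (nat_lit 608) (nat_lit 35015901097) (nat_lit 155) (nat_lit 5) (nat_lit 162) (nat_lit 5) (nat_lit 163) (nat_lit 5) (nat_lit 369) (nat_lit 345) (nat_lit 66)))) (XT.nd (nat_lit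 38766) (nat_lit 0) (nat_lit 2964) (XT.nd (nat_lit 78) (nat_lit 532) (nat_lit 0) (XT.lf (nat_lit 0) (nat_lit 46607270285) (nat_lit 608) (nat_lit 7080432166) (nat_lit 76) (nat_lit 21717320028) (nat_lit 155) (nat_lit 5) (nat_lit 163) (nat_lit 5) (nat_lit 156) (nat_lit 5) (nat_lit 370) (nat_lit 345) (nat_lit 65)) (XT.lf (nat_lit 0) (nat_lit 29911179439) (nat_lit 532) (nat_lit 24789279483) (nat_lit 608) (nat_lit 22021096035) (nat_lit 148) (nat_lit 5) (nat_lit 155) (nat_lit 5) (nat_lit 156) (nat_lit 5) (nat_lit 371) (nat_lit 345) (nat_lit 64))) (XT.nd (nat_lit 78) (nat_lit 0) (nat_lit 0) (XT.lf (nat_lit 0) (nat_lit 5450682330) (nat_lit 0) (nat_lit 5450682330) (nat_lit 1140) (nat_lit 15108739771) (nat_lit 187) (nat_lit 5) (nat_lit 187) (nat_lit 3) (nat_lit 202) (nat_lit 3) (nat_lit 346) (nat_lit 346) (nat_lit 88)) (XT.lf (nat_lit 0) (nat_lit 22275507854) (nat_lit 1140) (nat_lit 17996778134) (nat_lit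 1216) (nat_lit 12523822833) (nat_lit 187) (nat_lit 5) (nat_lit 202) (nat_lit 3) (nat_lit 203) (nat_lit 5) (nat_lit 347) (nat_lit 346) (nat_lit 87))))) (XT.nd (nat_lit 234) (nat_lit 0) (nat_lit 152) (XT.nd (nat_lit 78) (nat_lit 0) (nat_lit 76) (XT.lf (nat_lit 76) (nat_lit 5824186132) (nat_lit 0) (nat_lit 17101311991) (nat_lit 1216) (nat_lit 30664898017) (nat_lit 188) (nat_lit 5) (nat_lit 187) (nat_lit 5) (nat_lit 203) (nat_lit 5) (nat_lit 348) (nat_lit 346) (nat_lit 86)) (XT.nd (nat_lit 78) (nat_lit 0) (nat_lit 0) (XT.lf (nat_lit 0) (nat_lit 23842680537) (nat_lit 1140) (nat_lit 23741697813) (nat_lit 1216) (nat_lit 6816704132) (nat_lit 188) (nat_lit 5) (nat_lit 203) (nat_lit 5) (nat_lit 204) (nat_lit 5) (nat_lit 349) (nat_lit 346) (nat_lit 85)) (XT.lf (nat_lit 76) (nat_lit 850330910) (nat_lit 0) (nat_lit 24113700193) (nat_lit 1216) (nat_lit 30266759873) (nat_lit 189) (nat_lit 5) (nat_lit 188) (nat_lit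 5) (nat_lit 204) (nat_lit 5) (nat_lit 350) (nat_lit 346) (nat_lit 84)))) (XT.nd (nat_lit 156) (nat_lit 0) (nat_lit 0) (XT.nd (nat_lit 78) (nat_lit 0) (nat_lit 0) (XT.lf (nat_lit 0) (nat_lit 26360909693) (nat_lit 1140) (nat_lit 29414873459) (nat_lit 1216) (nat_lit 302352056) (nat_lit 189) (nat_lit 5) (nat_lit 204) (nat_lit 5) (nat_lit 205) (nat_lit 5) (nat_lit 351) (nat_lit 346) (nat_lit 83)) (XT.lf (nat_lit 0) (nat_lit 28037649863) (nat_lit 1140) (nat_lit 3939569803) (nat_lit 1216) (nat_lit 24966542521) (nat_lit 189) (nat_lit 5) (nat_lit 204) (nat_lit 5) (nat_lit 205) (nat_lit 5) (nat_lit 352) (nat_lit 346) (nat_lit 82))) (XT.nd (nat_lit 78) (nat_lit 0) (nat_lit 76) (XT.lf (nat_lit 76) (nat_lit 22743310417) (nat_lit 0) (nat_lit 7239233285) (nat_lit 1216) (nat_lit 27846279774) (nat_lit 190) (nat_lit 5) (nat_lit 189) (nat_lit 5) (nat_lit 205) (nat_lit 5) (nat_lit 353) (nat_lit 346) (nat_lit 81))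 (XT.lf (nat_lit 0) (nat_lit 32200552081) (nat_lit 1140) (nat_lit 8608053189) (nat_lit 1216) (nat_lit 17925389318) (nat_lit 190) (nat_lit 5) (nat_lit 205) (nat_lit 5) (nat_lit 206) (nat_lit 5) (nat_lit 354) (nat_lit 346) (nat_lit 80))))))))
noncomputable def xc253 : XT := (XT.nd (nat_lit 40794) (nat_lit 0) (nat_lit 532) (XT.nd (nat_lit 1014) (nat_lit 1140) (nat_lit 0) (XT.nd (nat_lit 468) (nat_lit 1520) (nat_lit 0) (XT.nd (nat_lit 234) (nat_lit 0) (nat_lit 152) (XT.nd (nat_lit 78) (nat_lit 0) (nat_lit 76) (XT.lf (nat_lit 76) (nat_lit 18961570322) (nat_lit 0) (nat_lit 15776747336) (nat_lit 1216) (nat_lit 24920407651) (nat_lit 191) (nat_lit 5) (nat_lit 190) (nat_lit 5) (nat_lit 206) (nat_lit 5) (nat_lit 355) (nat_lit 346) (nat_lit 79)) (XT.nd (nat_lit 78) (nat_lit 0) (nat_lit 0) (XT.lf (nat_lit 0) (nat_lit 37535475577) (nat_lit 1140) (nat_lit 13171408854) (nat_lit 1216) (nat_lit 9898816696) (nat_lit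 191) (nat_lit 5) (nat_lit 206) (nat_lit 5) (nat_lit 207) (nat_lit 5) (nat_lit 356) (nat_lit 346) (nat_lit 78)) (XT.lf (nat_lit 76) (nat_lit 15322401666) (nat_lit 0) (nat_lit 25396950814) (nat_lit 1216) (nat_lit 20852650540) (nat_lit 192) (nat_lit 5) (nat_lit 191) (nat_lit 5) (nat_lit 207) (nat_lit 5) (nat_lit 357) (nat_lit 346) (nat_lit 77)))) (XT.nd (nat_lit 78) (nat_lit 0) (nat_lit 0) (XT.lf (nat_lit 0) (nat_lit 44138857970) (nat_lit 1140) (nat_lit 17630571406) (nat_lit 1216) (nat_lit 793662129) (nat_lit 192) (nat_lit 5) (nat_lit 207) (nat_lit 5) (nat_lit 208) (nat_lit 5) (nat_lit 358) (nat_lit 346) (nat_lit 76)) (XT.nd (nat_lit 78) (nat_lit 0) (nat_lit 0) (XT.lf (nat_lit 76) (nat_lit 11825838399) (nat_lit 0) (nat_lit 36199589574) (nat_lit 1216) (nat_lit 15547551164) (nat_lit 193) (nat_lit 5) (nat_lit 192) (nat_lit 5) (nat_lit 208) (nat_lit 5) (nat_lit 359) (nat_lit 346) (nat_lit 75)) (XT.lf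 (nat_lit 76) (nat_lit 42526854053) (nat_lit 0) (nat_lit 9679136672) (nat_lit 1216) (nat_lit 12401851655) (nat_lit 193) (nat_lit 5) (nat_lit 192) (nat_lit 5) (nat_lit 208) (nat_lit 5) (nat_lit 360) (nat_lit 346) (nat_lit 74))))) (XT.nd (nat_lit 234) (nat_lit 684) (nat_lit 0) (XT.nd (nat_lit 78) (nat_lit 1064) (nat_lit 0) (XT.lf (nat_lit 76) (nat_lit 8470397473) (nat_lit 0) (nat_lit 48291913865) (nat_lit 1216) (nat_lit 8903930778) (nat_lit 194) (nat_lit 5) (nat_lit 193) (nat_lit 5) (nat_lit 209) (nat_lit 5) (nat_lit 361) (nat_lit 346) (nat_lit 73)) (XT.nd (nat_lit 78) (nat_lit 1064) (nat_lit 0) (XT.lf (nat_lit 76) (nat_lit 40292725895) (nat_lit 0) (nat_lit 21479858470) (nat_lit 1216) (nat_lit 4974292395) (nat_lit 194) (nat_lit 5) (nat_lit 193) (nat_lit 5) (nat_lit 209) (nat_lit 5) (nat_lit 362) (nat_lit 346) (nat_lit 72)) (XT.lf (nat_lit 0) (nat_lit 5252804301) (nat_lit 1140) (nat_lit 61789256062)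 (nat_lit 1216) (nat_lit 814604016) (nat_lit 179) (nat_lit 5) (nat_lit 194) (nat_lit 5) (nat_lit 195) (nat_lit 5) (nat_lit 363) (nat_lit 346) (nat_lit 71)))) (XT.nd (nat_lit 156) (nat_lit 0) (nat_lit 0) (XT.nd (nat_lit 78) (nat_lit 608) (nat_lit 0) (XT.lf (nat_lit 0) (nat_lit 3884036213) (nat_lit 1216) (nat_lit 30787660192) (nat_lit 76) (nat_lit 34312593187) (nat_lit 178) (nat_lit 5) (nat_lit 194) (nat_lit 5) (nat_lit 179) (nat_lit 5) (nat_lit 364) (nat_lit 346) (nat_lit 70)) (XT.lf (nat_lit 0) (nat_lit 2013761311) (nat_lit 608) (nat_lit 6712295166) (nat_lit 684) (nat_lit 61418882030) (nat_lit 170) (nat_lit 5) (nat_lit 178) (nat_lit 5) (nat_lit 179) (nat_lit 5) (nat_lit 365) (nat_lit 346) (nat_lit 69))) (XT.nd (nat_lit 78) (nat_lit 0) (nat_lit 0) (XT.lf (nat_lit 0) (nat_lit 14239061958) (nat_lit 684) (nat_lit 35116626698) (nat_lit 76) (nat_lit 21968947185) (nat_lit 170) (nat_lit 5) (nat_lit 179)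 (nat_lit 5) (nat_lit 171) (nat_lit 5) (nat_lit 366) (nat_lit 346) (nat_lit 68)) (XT.lf (nat_lit 0) (nat_lit 19983380409) (nat_lit 684) (nat_lit 1178591000) (nat_lit 76) (nat_lit 51375775672) (nat_lit 170) (nat_lit 5) (nat_lit 179) (nat_lit 5) (nat_lit 171) (nat_lit 5) (nat_lit 367) (nat_lit 346) (nat_lit 67)))))) (XT.nd (nat_lit 39234) (nat_lit 0) (nat_lit 2508) (XT.nd (nat_lit 39000) (nat_lit 0) (nat_lit 2432) (XT.nd (nat_lit 78) (nat_lit 532) (nat_lit 0) (XT.lf (nat_lit 0) (nat_lit 26309659554) (nat_lit 684) (nat_lit 39406998617) (nat_lit 76) (nat_lit 8058305206) (nat_lit 162) (nat_lit 5) (nat_lit 171) (nat_lit 5) (nat_lit 163) (nat_lit 5) (nat_lit 368) (nat_lit 346) (nat_lit 66)) (XT.nd (nat_lit 78) (nat_lit 532) (nat_lit 0) (XT.lf (nat_lit 0) (nat_lit 33046761804) (nat_lit 684) (nat_lit 4253994421) (nat_lit 76) (nat_lit 37741909526) (nat_lit 162) (nat_lit 5) (nat_lit 171) (nat_lit 5) (nat_lit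 163) (nat_lit 5) (nat_lit 369) (nat_lit 346) (nat_lit 65)) (XT.lf (nat_lit 0) (nat_lit 32589053847) (nat_lit 532) (nat_lit 7709694991) (nat_lit 608) (nat_lit 36040267821) (nat_lit 155) (nat_lit 5) (nat_lit 162) (nat_lit 5) (nat_lit 163) (nat_lit 5) (nat_lit 370) (nat_lit 346) (nat_lit 64)))) (XT.nd (nat_lit 78) (nat_lit 0) (nat_lit 0) (XT.lf (nat_lit 0) (nat_lit 5625569979) (nat_lit 0) (nat_lit 5625569979) (nat_lit 1140) (nat_lit 15538554826) (nat_lit 187) (nat_lit 5) (nat_lit 187) (nat_lit 3) (nat_lit 202) (nat_lit 3) (nat_lit 347) (nat_lit 347) (nat_lit 86)) (XT.nd (nat_lit 78) (nat_lit 0) (nat_lit 0) (XT.lf (nat_lit 0) (nat_lit 22987705307) (nat_lit 1140) (nat_lit 18513013079) (nat_lit 1216) (nat_lit 12877896032) (nat_lit 187) (nat_lit 5) (nat_lit 202) (nat_lit 3) (nat_lit 203) (nat_lit 5) (nat_lit 348) (nat_lit 347) (nat_lit 85)) (XT.lf (nat_lit 76) (nat_lit 6022348072) (nat_lit 0) (nat_lit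 17633792917) (nat_lit 1216) (nat_lit 31540622734) (nat_lit 188) (nat_lit 5) (nat_lit 187) (nat_lit 5) (nat_lit 203) (nat_lit 5) (nat_lit 349) (nat_lit 347) (nat_lit 84))))) (XT.nd (nat_lit 234) (nat_lit 0) (nat_lit 76) (XT.nd (nat_lit 78) (nat_lit 0) (nat_lit 0) (XT.lf (nat_lit 0) (nat_lit 24599408563) (nat_lit 1140) (nat_lit 24429708416) (nat_lit 1216) (nat_lit 7002698274) (nat_lit 188) (nat_lit 5) (nat_lit 203) (nat_lit 5) (nat_lit 204) (nat_lit 5) (nat_lit 350) (nat_lit 347) (nat_lit 83)) (XT.nd (nat_lit 78) (nat_lit 0) (nat_lit 76) (XT.lf (nat_lit 76) (nat_lit 899843519) (nat_lit 0) (nat_lit 24853579643) (nat_lit 1216) (nat_lit 31133022773) (nat_lit 189) (nat_lit 5) (nat_lit 188) (nat_lit 5) (nat_lit 204) (nat_lit 5) (nat_lit 351) (nat_lit 347) (nat_lit 82)) (XT.lf (nat_lit 0) (nat_lit 27190875645) (nat_lit 1140) (nat_lit 30272630579) (nat_lit 1216) (nat_lit 295745835) (nat_lit 189) (nat_lit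 5) (nat_lit 204) (nat_lit 5) (nat_lit 205) (nat_lit 5) (nat_lit 352) (nat_lit 347) (nat_lit 81)))) (XT.nd (nat_lit 156) (nat_lit 0) (nat_lit 76) (XT.nd (nat_lit 78) (nat_lit 0) (nat_lit 0) (XT.lf (nat_lit 0) (nat_lit 28916778060) (nat_lit 1140) (nat_lit 4033786913) (nat_lit 1216) (nat_lit 25700318619) (nat_lit 189) (nat_lit 5) (nat_lit 204) (nat_lit 5) (nat_lit 205) (nat_lit 5) (nat_lit 353) (nat_lit 347) (nat_lit 80)) (XT.lf (nat_lit 76) (nat_lit 23449344714) (nat_lit 0) (nat_lit 7469795398) (nat_lit 1216) (nat_lit 28643384467) (nat_lit 190) (nat_lit 5) (nat_lit 189) (nat_lit 5) (nat_lit 205) (nat_lit 5) (nat_lit 354) (nat_lit 347) (nat_lit 79))) (XT.nd (nat_lit 78) (nat_lit 0) (nat_lit 0) (XT.lf (nat_lit 0) (nat_lit 33202482655) (nat_lit 1140) (nat_lit 8841996481) (nat_lit 1216) (nat_lit 18450409326) (nat_lit 190) (nat_lit 5) (nat_lit 205) (nat_lit 5) (nat_lit 206) (nat_lit 5) (nat_lit 355)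 (nat_lit 347) (nat_lit 78)) (XT.lf (nat_lit 76) (nat_lit 19554477516) (nat_lit 0) (nat_lit 16261088924) (nat_lit 1216) (nat_lit 25631820521) (nat_lit 191) (nat_lit 5) (nat_lit 190) (nat_lit 5) (nat_lit 206) (nat_lit 5) (nat_lit 356) (nat_lit 347) (nat_lit 77))))))) (XT.nd (nat_lit 39936) (nat_lit 0) (nat_lit 1900) (XT.nd (nat_lit 468) (nat_lit 2204) (nat_lit 0) (XT.nd (nat_lit 234) (nat_lit 0) (nat_lit 76) (XT.nd (nat_lit 78) (nat_lit 0) (nat_lit 0) (XT.lf (nat_lit 0) (nat_lit 38695513764) (nat_lit 1140) (nat_lit 13542020724) (nat_lit 1216) (nat_lit 10185272698) (nat_lit 191) (nat_lit 5) (nat_lit 206) (nat_lit 5) (nat_lit 207) (nat_lit 5) (nat_lit 357) (nat_lit 347) (nat_lit 76)) (XT.nd (nat_lit 78) (nat_lit 0) (nat_lit 76) (XT.lf (nat_lit 76) (nat_lit 15806363618) (nat_lit 0) (nat_lit 26167787315) (nat_lit 1216) (nat_lit 21443971219) (nat_lit 192) (nat_lit 5) (nat_lit 191) (nat_lit 5) (nat_lit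 207) (nat_lit 5) (nat_lit 358) (nat_lit 347) (nat_lit 75)) (XT.lf (nat_lit 0) (nat_lit 45495190754) (nat_lit 1140) (nat_lit 18134812157) (nat_lit 1216) (nat_lit 808973197) (nat_lit 192) (nat_lit 5) (nat_lit 207) (nat_lit 5) (nat_lit 208) (nat_lit 5) (nat_lit 359) (nat_lit 347) (nat_lit 74)))) (XT.nd (nat_lit 78) (nat_lit 0) (nat_lit 0) (XT.lf (nat_lit 76) (nat_lit 12205048017) (nat_lit 0) (nat_lit 37292607816) (nat_lit 1216) (nat_lit 15981526855) (nat_lit 193) (nat_lit 5) (nat_lit 192) (nat_lit 5) (nat_lit 208) (nat_lit 5) (nat_lit 360) (nat_lit 347) (nat_lit 73)) (XT.nd (nat_lit 78) (nat_lit 0) (nat_lit 76) (XT.lf (nat_lit 76) (nat_lit 43826382457) (nat_lit 0) (nat_lit 9976336553) (nat_lit 1216) (nat_lit 12742401530) (nat_lit 193) (nat_lit 5) (nat_lit 192) (nat_lit 5) (nat_lit 208) (nat_lit 5) (nat_lit 361) (nat_lit 347) (nat_lit 72)) (XT.lf (nat_lit 76) (nat_lit 8749012301) (nat_lit 0) (nat_lit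 49745999010) (nat_lit 1216) (nat_lit 9140283679) (nat_lit 194) (nat_lit 5) (nat_lit 193) (nat_lit 5) (nat_lit 209) (nat_lit 5) (nat_lit 362) (nat_lit 347) (nat_lit 71))))) (XT.nd (nat_lit 234) (nat_lit 1216) (nat_lit 0) (XT.nd (nat_lit 78) (nat_lit 1140) (nat_lit 0) (XT.lf (nat_lit 76) (nat_lit 41525296899) (nat_lit 0) (nat_lit 22129426777) (nat_lit 1216) (nat_lit 5093652213) (nat_lit 194) (nat_lit 5) (nat_lit 193) (nat_lit 5) (nat_lit 209) (nat_lit 5) (nat_lit 363) (nat_lit 347) (nat_lit 70)) (XT.nd (nat_lit 78) (nat_lit 76) (nat_lit 0) (XT.lf (nat_lit 0) (nat_lit 5434891944) (nat_lit 1140) (nat_lit 63646735732) (nat_lit 1216) (nat_lit 809850264) (nat_lit 179) (nat_lit 5) (nat_lit 194) (nat_lit 5) (nat_lit 195) (nat_lit 5) (nat_lit 364) (nat_lit 347) (nat_lit 69)) (XT.lf (nat_lit 0) (nat_lit 4028345876) (nat_lit 1216) (nat_lit 31686912063) (nat_lit 76) (nat_lit 35337691616) (nat_lit 178) (nat_lit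 5) (nat_lit 194) (nat_lit 5) (nat_lit 179) (nat_lit 5) (nat_lit 365) (nat_lit 347) (nat_lit 68)))) (XT.nd (nat_lit 156) (nat_lit 608) (nat_lit 0) (XT.nd (nat_lit 78) (nat_lit 0) (nat_lit 0) (XT.lf (nat_lit 0) (nat_lit 2098313086) (nat_lit 608) (nat_lit 6916736323) (nat_lit 684) (nat_lit 63233386868) (nat_lit 170) (nat_lit 5) (nat_lit 178) (nat_lit 5) (nat_lit 179) (nat_lit 5) (nat_lit 366) (nat_lit 347) (nat_lit 67)) (XT.lf (nat_lit 0) (nat_lit 14692623822) (nat_lit 684) (nat_lit 36145835351) (nat_lit 76) (nat_lit 22625090988) (nat_lit 170) (nat_lit 5) (nat_lit 179) (nat_lit 5) (nat_lit 171) (nat_lit 5) (nat_lit 367) (nat_lit 347) (nat_lit 66))) (XT.nd (nat_lit 78) (nat_lit 608) (nat_lit 0) (XT.lf (nat_lit 0) (nat_lit 20608503186) (nat_lit 684) (nat_lit 1190366061) (nat_lit 76) (nat_lit 52914209513) (nat_lit 170) (nat_lit 5) (nat_lit 179) (nat_lit 5) (nat_lit 171) (nat_lit 5) (nat_lit 368) (nat_lit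 347) (nat_lit 65)) (XT.lf (nat_lit 0) (nat_lit 27124032116) (nat_lit 684) (nat_lit 40565056160) (nat_lit 76) (nat_lit 8298340360) (nat_lit 162) (nat_lit 5) (nat_lit 171) (nat_lit 5) (nat_lit 163) (nat_lit 5) (nat_lit 369) (nat_lit 347) (nat_lit 64)))))) (XT.nd (nat_lit 546) (nat_lit 0) (nat_lit 152) (XT.nd (nat_lit 234) (nat_lit 0) (nat_lit 76) (XT.nd (nat_lit 78) (nat_lit 0) (nat_lit 0) (XT.lf (nat_lit 0) (nat_lit 5805051736) (nat_lit 0) (nat_lit 5805051736) (nat_lit 1140) (nat_lit 15982610295) (nat_lit 187) (nat_lit 5) (nat_lit 187) (nat_lit 3) (nat_lit 202) (nat_lit 3) (nat_lit 348) (nat_lit 348) (nat_lit 84)) (XT.nd (nat_lit 78) (nat_lit 0) (nat_lit 0) (XT.lf (nat_lit 0) (nat_lit 23718746794) (nat_lit 1140) (nat_lit 19046093734) (nat_lit 1216) (nat_lit 13243833736) (nat_lit 187) (nat_lit 5) (nat_lit 202) (nat_lit 3) (nat_lit 203) (nat_lit 5) (nat_lit 349) (nat_lit 348) (nat_lit 83)) (XT.lf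 (nat_lit 76) (nat_lit 6225109528) (nat_lit 0) (nat_lit 18181132246) (nat_lit 1216) (nat_lit 32445157729) (nat_lit 188) (nat_lit 5) (nat_lit 187) (nat_lit 5) (nat_lit 203) (nat_lit 5) (nat_lit 350) (nat_lit 348) (nat_lit 82)))) (XT.nd (nat_lit 156) (nat_lit 0) (nat_lit 76) (XT.nd (nat_lit 78) (nat_lit 0) (nat_lit 0) (XT.lf (nat_lit 0) (nat_lit 25376459168) (nat_lit 1140) (nat_lit 25139750831) (nat_lit 1216) (nat_lit 7195334617) (nat_lit 188) (nat_lit 5) (nat_lit 203) (nat_lit 5) (nat_lit 204) (nat_lit 5) (nat_lit 351) (nat_lit 348) (nat_lit 81)) (XT.lf (nat_lit 76) (nat_lit 949463653) (nat_lit 0) (nat_lit 25614710122) (nat_lit 1216) (nat_lit 32027669601) (nat_lit 189) (nat_lit 5) (nat_lit 188) (nat_lit 5) (nat_lit 204) (nat_lit 5) (nat_lit 352) (nat_lit 348) (nat_lit 80))) (XT.nd (nat_lit 78) (nat_lit 0) (nat_lit 0) (XT.lf (nat_lit 0) (nat_lit 28043493857) (nat_lit 1140) (nat_lit 31157537668) (nat_lit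 1216) (nat_lit 289841339) (nat_lit 189) (nat_lit 5) (nat_lit 204) (nat_lit 5) (nat_lit 205) (nat_lit 5) (nat_lit 353) (nat_lit 348) (nat_lit 79)) (XT.lf (nat_lit 0) (nat_lit 29820098822) (nat_lit 1140) (nat_lit 4132206512) (nat_lit 1216) (nat_lit 26456981700) (nat_lit 189) (nat_lit 5) (nat_lit 204) (nat_lit 5) (nat_lit 205) (nat_lit 5) (nat_lit 354) (nat_lit 348) (nat_lit 78))))) (XT.nd (nat_lit 234) (nat_lit 0) (nat_lit 152) (XT.nd (nat_lit 78) (nat_lit 0) (nat_lit 76) (XT.lf (nat_lit 76) (nat_lit 24175197554) (nat_lit 0) (nat_lit 7706506013) (nat_lit 1216) (nat_lit 29466599941) (nat_lit 190) (nat_lit 5) (nat_lit 189) (nat_lit 5) (nat_lit 205) (nat_lit 5) (nat_lit 355) (nat_lit 348) (nat_lit 77)) (XT.nd (nat_lit 78) (nat_lit 0) (nat_lit 0) (XT.lf (nat_lit 0) (nat_lit 34232409535) (nat_lit 1140) (nat_lit 9084352894) (nat_lit 1216) (nat_lit 18991911358) (nat_lit 190) (nat_lit 5) (nat_lit 205) (nat_lit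 5) (nat_lit 206) (nat_lit 5) (nat_lit 356) (nat_lit 348) (nat_lit 76)) (XT.lf (nat_lit 76) (nat_lit 20163790779) (nat_lit 0) (nat_lit 16759327066) (nat_lit 1216) (nat_lit 26366653768) (nat_lit 191) (nat_lit 5) (nat_lit 190) (nat_lit 5) (nat_lit 206) (nat_lit 5) (nat_lit 357) (nat_lit 348) (nat_lit 75)))) (XT.nd (nat_lit 156) (nat_lit 0) (nat_lit 76) (XT.nd (nat_lit 78) (nat_lit 0) (nat_lit 0) (XT.lf (nat_lit 0) (nat_lit 39888402855) (nat_lit 1140) (nat_lit 13925159096) (nat_lit 1216) (nat_lit 10480925611) (nat_lit 191) (nat_lit 5) (nat_lit 206) (nat_lit 5) (nat_lit 207) (nat_lit 5) (nat_lit 358) (nat_lit 348) (nat_lit 74)) (XT.lf (nat_lit 76) (nat_lit 16303450088) (nat_lit 0) (nat_lit 26961236408) (nat_lit 1216) (nat_lit 22054998115) (nat_lit 192) (nat_lit 5) (nat_lit 191) (nat_lit 5) (nat_lit 207) (nat_lit 5) (nat_lit 359) (nat_lit 348) (nat_lit 73))) (XT.nd (nat_lit 78) (nat_lit 0) (nat_lit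 0) (XT.lf (nat_lit 0) (nat_lit 46890367001) (nat_lit 1140) (nat_lit 18655596656) (nat_lit 1216) (nat_lit 825231464) (nat_lit 192) (nat_lit 5) (nat_lit 207) (nat_lit 5) (nat_lit 208) (nat_lit 5) (nat_lit 360) (nat_lit 348) (nat_lit 72)) (XT.lf (nat_lit 76) (nat_lit 12594231285) (nat_lit 0) (nat_lit 38418013022) (nat_lit 1216) (nat_lit 16430384627) (nat_lit 193) (nat_lit 5) (nat_lit 192) (nat_lit 5) (nat_lit 208) (nat_lit 5) (nat_lit 361) (nat_lit 348) (nat_lit 71))))))))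
noncomputable def xc254 : XT := (XT.nd (nat_lit 80340) (nat_lit 0) (nat_lit 1292) (XT.nd (nat_lit 40092) (nat_lit 0) (nat_lit 608) (XT.nd (nat_lit 468) (nat_lit 0) (nat_lit 0) (XT.nd (nat_lit 234) (nat_lit 1672) (nat_lit 0) (XT.nd (nat_lit 78) (nat_lit 0) (nat_lit 76) (XT.lf (nat_lit 76) (nat_lit 45163534928) (nat_lit 0) (nat_lit 10282060603) (nat_lit 1216) (nat_lit 13094976456) (nat_lit 193) (nat_lit 5) (nat_lit 192) (nat_lit 5) (nat_lit 208) (nat_lit 5) (nat_lit 362) (nat_lit 348) (nat_lit 70)) (XT.nd (nat_lit 78) (nat_lit 0) (nat_lit 0) (XT.lf (nat_lit 76) (nat_lit 9034579007) (nat_lit 0) (nat_lit 51243400876) (nat_lit 1216) (nat_lit 9385493205) (nat_lit 194) (nat_lit 5) (nat_lit 193) (nat_lit 5) (nat_lit 209) (nat_lit 5) (nat_lit 363) (nat_lit 348) (nat_lit 69)) (XT.lf (nat_lit 76) (nat_lit 42793479434) (nat_lit 0) (nat_lit 22798185207) (nat_lit 1216) (nat_lit 5218307426) (nat_lit 194) (nat_lit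 5) (nat_lit 193) (nat_lit 5) (nat_lit 209) (nat_lit 5) (nat_lit 364) (nat_lit 348) (nat_lit 68)))) (XT.nd (nat_lit 78) (nat_lit 684) (nat_lit 0) (XT.lf (nat_lit 0) (nat_lit 5621035614) (nat_lit 1140) (nat_lit 65559721543) (nat_lit 1216) (nat_lit 806629633) (nat_lit 179) (nat_lit 5) (nat_lit 194) (nat_lit 5) (nat_lit 195) (nat_lit 5) (nat_lit 365) (nat_lit 348) (nat_lit 67)) (XT.nd (nat_lit 78) (nat_lit 608) (nat_lit 0) (XT.lf (nat_lit 0) (nat_lit 4175389650) (nat_lit 1216) (nat_lit 32614540883) (nat_lit 76) (nat_lit 36393788651) (nat_lit 178) (nat_lit 5) (nat_lit 194) (nat_lit 5) (nat_lit 179) (nat_lit 5) (nat_lit 366) (nat_lit 348) (nat_lit 66)) (XT.lf (nat_lit 0) (nat_lit 2184015741) (nat_lit 608) (nat_lit 7127134352) (nat_lit 684) (nat_lit 65103937703) (nat_lit 170) (nat_lit 5) (nat_lit 178) (nat_lit 5) (nat_lit 179) (nat_lit 5) (nat_lit 367) (nat_lit 348) (nat_lit 65))))) (XT.nd (nat_lit 39312)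 (nat_lit 0) (nat_lit 1292) (XT.nd (nat_lit 39156) (nat_lit 0) (nat_lit 1292) (XT.lf (nat_lit 0) (nat_lit 15158277647) (nat_lit 684) (nat_lit 37207314616) (nat_lit 76) (nat_lit 23301086990) (nat_lit 170) (nat_lit 5) (nat_lit 179) (nat_lit 5) (nat_lit 171) (nat_lit 5) (nat_lit 368) (nat_lit 348) (nat_lit 64)) (XT.nd (nat_lit 78) (nat_lit 0) (nat_lit 0) (XT.lf (nat_lit 0) (nat_lit 5989302881) (nat_lit 0) (nat_lit 5989302881) (nat_lit 1140) (nat_lit 16441256126) (nat_lit 187) (nat_lit 5) (nat_lit 187) (nat_lit 3) (nat_lit 202) (nat_lit 3) (nat_lit 349) (nat_lit 349) (nat_lit 82)) (XT.lf (nat_lit 0) (nat_lit 24469342404) (nat_lit 1140) (nat_lit 19596447480) (nat_lit 1216) (nat_lit 13621920568) (nat_lit 187) (nat_lit 5) (nat_lit 202) (nat_lit 3) (nat_lit 203) (nat_lit 5) (nat_lit 350) (nat_lit 349) (nat_lit 81)))) (XT.nd (nat_lit 156) (nat_lit 0) (nat_lit 76) (XT.nd (nat_lit 78) (nat_lit 0) (nat_lit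 76) (XT.lf (nat_lit 76) (nat_lit 6432685713) (nat_lit 0) (nat_lit 18743839793) (nat_lit 1216) (nat_lit 33379221588) (nat_lit 188) (nat_lit 5) (nat_lit 187) (nat_lit 5) (nat_lit 203) (nat_lit 5) (nat_lit 351) (nat_lit 349) (nat_lit 80)) (XT.lf (nat_lit 0) (nat_lit 26174578607) (nat_lit 1140) (nat_lit 25872406135) (nat_lit 1216) (nat_lit 7394751442) (nat_lit 188) (nat_lit 5) (nat_lit 203) (nat_lit 5) (nat_lit 204) (nat_lit 5) (nat_lit 352) (nat_lit 349) (nat_lit 79))) (XT.nd (nat_lit 78) (nat_lit 0) (nat_lit 76) (XT.lf (nat_lit 76) (nat_lit 999273635) (nat_lit 0) (nat_lit 26397783426) (nat_lit 1216) (nat_lit 32951414332) (nat_lit 189) (nat_lit 5) (nat_lit 188) (nat_lit 5) (nat_lit 204) (nat_lit 5) (nat_lit 353) (nat_lit 349) (nat_lit 78)) (XT.lf (nat_lit 0) (nat_lit 28919572867) (nat_lit 1140) (nat_lit 32070327867) (nat_lit 1216) (nat_lit 284607960) (nat_lit 189) (nat_lit 5) (nat_lit 204) (nat_lit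 5) (nat_lit 205) (nat_lit 5) (nat_lit 354) (nat_lit 349) (nat_lit 77)))))) (XT.nd (nat_lit 468) (nat_lit 836) (nat_lit 0) (XT.nd (nat_lit 234) (nat_lit 0) (nat_lit 76) (XT.nd (nat_lit 78) (nat_lit 0) (nat_lit 0) (XT.lf (nat_lit 0) (nat_lit 30748463140) (nat_lit 1140) (nat_lit 4234875687) (nat_lit 1216) (nat_lit 27237168220) (nat_lit 189) (nat_lit 5) (nat_lit 204) (nat_lit 5) (nat_lit 205) (nat_lit 5) (nat_lit 355) (nat_lit 349) (nat_lit 76)) (XT.nd (nat_lit 78) (nat_lit 0) (nat_lit 76) (XT.lf (nat_lit 76) (nat_lit 24921541707) (nat_lit 0) (nat_lit 7949593693) (nat_lit 1216) (nat_lit 30316583367) (nat_lit 190) (nat_lit 5) (nat_lit 189) (nat_lit 5) (nat_lit 205) (nat_lit 5) (nat_lit 356) (nat_lit 349) (nat_lit 75)) (XT.lf (nat_lit 0) (nat_lit 35291290955) (nat_lit 1140) (nat_lit 9335294753) (nat_lit 1216) (nat_lit 19550347888) (nat_lit 190) (nat_lit 5) (nat_lit 205) (nat_lit 5) (nat_lit 206) (nat_lit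 5) (nat_lit 357) (nat_lit 349) (nat_lit 74)))) (XT.nd (nat_lit 78) (nat_lit 0) (nat_lit 76) (XT.lf (nat_lit 76) (nat_lit 20790081577) (nat_lit 0) (nat_lit 17271915035) (nat_lit 1216) (nat_lit 27125490719) (nat_lit 191) (nat_lit 5) (nat_lit 190) (nat_lit 5) (nat_lit 206) (nat_lit 5) (nat_lit 358) (nat_lit 349) (nat_lit 73)) (XT.nd (nat_lit 78) (nat_lit 0) (nat_lit 0) (XT.lf (nat_lit 0) (nat_lit 41115240328) (nat_lit 1140) (nat_lit 14321118930) (nat_lit 1216) (nat_lit 10786016714) (nat_lit 191) (nat_lit 5) (nat_lit 206) (nat_lit 5) (nat_lit 207) (nat_lit 5) (nat_lit 359) (nat_lit 349) (nat_lit 72)) (XT.lf (nat_lit 76) (nat_lit 16814134853) (nat_lit 0) (nat_lit 27778005892) (nat_lit 1216) (nat_lit 22686209524) (nat_lit 192) (nat_lit 5) (nat_lit 191) (nat_lit 5) (nat_lit 207) (nat_lit 5) (nat_lit 360) (nat_lit 349) (nat_lit 71))))) (XT.nd (nat_lit 234) (nat_lit 1064) (nat_lit 0) (XT.nd (nat_lit 78)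 (nat_lit 0) (nat_lit 0) (XT.lf (nat_lit 0) (nat_lit 48325658014) (nat_lit 1140) (nat_lit 19193339902) (nat_lit 1216) (nat_lit 842437338) (nat_lit 192) (nat_lit 5) (nat_lit 207) (nat_lit 5) (nat_lit 208) (nat_lit 5) (nat_lit 361) (nat_lit 349) (nat_lit 70)) (XT.nd (nat_lit 78) (nat_lit 0) (nat_lit 0) (XT.lf (nat_lit 76) (nat_lit 12993767930) (nat_lit 0) (nat_lit 39576799969) (nat_lit 1216) (nat_lit 16894464011) (nat_lit 193) (nat_lit 5) (nat_lit 192) (nat_lit 5) (nat_lit 208) (nat_lit 5) (nat_lit 362) (nat_lit 349) (nat_lit 69)) (XT.lf (nat_lit 76) (nat_lit 46539518361) (nat_lit 0) (nat_lit 10596587039) (nat_lit 1216) (nat_lit 13459833367) (nat_lit 193) (nat_lit 5) (nat_lit 192) (nat_lit 5) (nat_lit 208) (nat_lit 5) (nat_lit 363) (nat_lit 349) (nat_lit 68)))) (XT.nd (nat_lit 156) (nat_lit 1140) (nat_lit 0) (XT.nd (nat_lit 78) (nat_lit 0) (nat_lit 0) (XT.lf (nat_lit 76) (nat_lit 9327386890) (nat_lit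 0) (nat_lit 52785436521) (nat_lit 1216) (nat_lit 9639723677) (nat_lit 194) (nat_lit 5) (nat_lit 193) (nat_lit 5) (nat_lit 209) (nat_lit 5) (nat_lit 364) (nat_lit 349) (nat_lit 67)) (XT.lf (nat_lit 76) (nat_lit 44098420238) (nat_lit 0) (nat_lit 23486726510) (nat_lit 1216) (nat_lit 5348318470) (nat_lit 194) (nat_lit 5) (nat_lit 193) (nat_lit 5) (nat_lit 209) (nat_lit 5) (nat_lit 365) (nat_lit 349) (nat_lit 66))) (XT.nd (nat_lit 78) (nat_lit 76) (nat_lit 0) (XT.lf (nat_lit 0) (nat_lit 5811437737) (nat_lit 1140) (nat_lit 67529891207) (nat_lit 1216) (nat_lit 804891922) (nat_lit 179) (nat_lit 5) (nat_lit 194) (nat_lit 5) (nat_lit 195) (nat_lit 5) (nat_lit 366) (nat_lit 349) (nat_lit 65)) (XT.lf (nat_lit 0) (nat_lit 4325341129) (nat_lit 1216) (nat_lit 33571317630) (nat_lit 76) (nat_lit 37481800149) (nat_lit 178) (nat_lit 5) (nat_lit 194) (nat_lit 5) (nat_lit 179) (nat_lit 5) (nat_lit 367) (nat_lit 349)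 (nat_lit 64))))))) (XT.nd (nat_lit 1014) (nat_lit 0) (nat_lit 0) (XT.nd (nat_lit 468) (nat_lit 0) (nat_lit 152) (XT.nd (nat_lit 234) (nat_lit 0) (nat_lit 76) (XT.nd (nat_lit 78) (nat_lit 0) (nat_lit 0) (XT.lf (nat_lit 0) (nat_lit 6178501801) (nat_lit 0) (nat_lit 6178501801) (nat_lit 1140) (nat_lit 16914857201) (nat_lit 187) (nat_lit 5) (nat_lit 187) (nat_lit 3) (nat_lit 202) (nat_lit 3) (nat_lit 350) (nat_lit 350) (nat_lit 80)) (XT.nd (nat_lit 78) (nat_lit 0) (nat_lit 0) (XT.lf (nat_lit 0) (nat_lit 25240215216) (nat_lit 1140) (nat_lit 20164518992) (nat_lit 1216) (nat_lit 14012453781) (nat_lit 187) (nat_lit 5) (nat_lit 202) (nat_lit 3) (nat_lit 203) (nat_lit 5) (nat_lit 351) (nat_lit 350) (nat_lit 79)) (XT.lf (nat_lit 76) (nat_lit 6645293864) (nat_lit 0) (nat_lit 19322436992) (nat_lit 1216) (nat_lit 34343562820) (nat_lit 188) (nat_lit 5) (nat_lit 187) (nat_lit 5) (nat_lit 203) (nat_lit 5) (nat_lit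 352) (nat_lit 350) (nat_lit 78)))) (XT.nd (nat_lit 78) (nat_lit 0) (nat_lit 0) (XT.lf (nat_lit 0) (nat_lit 26994527686) (nat_lit 1140) (nat_lit 26628277423) (nat_lit 1216) (nat_lit 7601094679) (nat_lit 188) (nat_lit 5) (nat_lit 203) (nat_lit 5) (nat_lit 204) (nat_lit 5) (nat_lit 353) (nat_lit 350) (nat_lit 77)) (XT.nd (nat_lit 78) (nat_lit 0) (nat_lit 76) (XT.lf (nat_lit 76) (nat_lit 1049353712) (nat_lit 0) (nat_lit 27203508992) (nat_lit 1216) (nat_lit 33905000255) (nat_lit 189) (nat_lit 5) (nat_lit 188) (nat_lit 5) (nat_lit 204) (nat_lit 5) (nat_lit 354) (nat_lit 350) (nat_lit 76)) (XT.lf (nat_lit 0) (nat_lit 29819938066) (nat_lit 1140) (nat_lit 33011760984) (nat_lit 1216) (nat_lit 280017140) (nat_lit 189) (nat_lit 5) (nat_lit 204) (nat_lit 5) (nat_lit 205) (nat_lit 5) (nat_lit 355) (nat_lit 350) (nat_lit 75))))) (XT.nd (nat_lit 234) (nat_lit 0) (nat_lit 76) (XT.nd (nat_lit 78) (nat_lit 0) (nat_lit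 0) (XT.lf (nat_lit 0) (nat_lit 31702740348) (nat_lit 1140) (nat_lit 4341847473) (nat_lit 1216) (nat_lit 28041536608) (nat_lit 189) (nat_lit 5) (nat_lit 204) (nat_lit 5) (nat_lit 205) (nat_lit 5) (nat_lit 356) (nat_lit 350) (nat_lit 74)) (XT.nd (nat_lit 78) (nat_lit 0) (nat_lit 76) (XT.lf (nat_lit 76) (nat_lit 25689065633) (nat_lit 0) (nat_lit 8199291326) (nat_lit 1216) (nat_lit 31194018872) (nat_lit 190) (nat_lit 5) (nat_lit 189) (nat_lit 5) (nat_lit 205) (nat_lit 5) (nat_lit 357) (nat_lit 350) (nat_lit 73)) (XT.lf (nat_lit 0) (nat_lit 36380107103) (nat_lit 1140) (nat_lit 9595004149) (nat_lit 1216) (nat_lit 20126187376) (nat_lit 190) (nat_lit 5) (nat_lit 205) (nat_lit 5) (nat_lit 206) (nat_lit 5) (nat_lit 358) (nat_lit 350) (nat_lit 72)))) (XT.nd (nat_lit 156) (nat_lit 0) (nat_lit 76) (XT.nd (nat_lit 78) (nat_lit 0) (nat_lit 76) (XT.lf (nat_lit 76) (nat_lit 21433933966) (nat_lit 0) (nat_lit 17799317616)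 (nat_lit 1216) (nat_lit 27908939047) (nat_lit 191) (nat_lit 5) (nat_lit 190) (nat_lit 5) (nat_lit 206) (nat_lit 5) (nat_lit 359) (nat_lit 350) (nat_lit 71)) (XT.lf (nat_lit 0) (nat_lit 42377150161) (nat_lit 1140) (nat_lit 14730208678) (nat_lit 1216) (nat_lit 11100796513) (nat_lit 191) (nat_lit 5) (nat_lit 206) (nat_lit 5) (nat_lit 207) (nat_lit 5) (nat_lit 360) (nat_lit 350) (nat_lit 70))) (XT.nd (nat_lit 78) (nat_lit 0) (nat_lit 76) (XT.lf (nat_lit 76) (nat_lit 17338901309) (nat_lit 0) (nat_lit 28618823108) (nat_lit 1216) (nat_lit 23338104573) (nat_lit 192) (nat_lit 5) (nat_lit 191) (nat_lit 5) (nat_lit 207) (nat_lit 5) (nat_lit 361) (nat_lit 350) (nat_lit 69)) (XT.lf (nat_lit 0) (nat_lit 49802367149) (nat_lit 1140) (nat_lit 19748474010) (nat_lit 1216) (nat_lit 860592850) (nat_lit 192) (nat_lit 5) (nat_lit 207) (nat_lit 5) (nat_lit 208) (nat_lit 5) (nat_lit 362) (nat_lit 350) (nat_lit 68))))))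 (XT.nd (nat_lit 39936) (nat_lit 0) (nat_lit 76) (XT.nd (nat_lit 234) (nat_lit 380) (nat_lit 0) (XT.nd (nat_lit 78) (nat_lit 0) (nat_lit 0) (XT.lf (nat_lit 76) (nat_lit 13404044448) (nat_lit 0) (nat_lit 40769991946) (nat_lit 1216) (nat_lit 17374120860) (nat_lit 193) (nat_lit 5) (nat_lit 192) (nat_lit 5) (nat_lit 208) (nat_lit 5) (nat_lit 363) (nat_lit 350) (nat_lit 67)) (XT.nd (nat_lit 78) (nat_lit 0) (nat_lit 76) (XT.lf (nat_lit 76) (nat_lit 47955571368) (nat_lit 0) (nat_lit 10920201134) (nat_lit 1216) (nat_lit 13837242862) (nat_lit 193) (nat_lit 5) (nat_lit 192) (nat_lit 5) (nat_lit 208) (nat_lit 5) (nat_lit 364) (nat_lit 350) (nat_lit 66)) (XT.lf (nat_lit 76) (nat_lit 9627729293) (nat_lit 0) (nat_lit 54373461506) (nat_lit 1216) (nat_lit 9903150165) (nat_lit 194) (nat_lit 5) (nat_lit 193) (nat_lit 5) (nat_lit 209) (nat_lit 5) (nat_lit 365) (nat_lit 350) (nat_lit 65)))) (XT.nd (nat_lit 39546)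 (nat_lit 0) (nat_lit 0) (XT.nd (nat_lit 39468) (nat_lit 456) (nat_lit 0) (XT.lf (nat_lit 76) (nat_lit 45441295948) (nat_lit 0) (nat_lit 24195660236) (nat_lit 1216) (nat_lit 5483753245) (nat_lit 194) (nat_lit 5) (nat_lit 193) (nat_lit 5) (nat_lit 209) (nat_lit 5) (nat_lit 366) (nat_lit 350) (nat_lit 64)) (XT.lf (nat_lit 0) (nat_lit 6372830212) (nat_lit 0) (nat_lit 6372830212) (nat_lit 1140) (nat_lit 17403793530) (nat_lit 187) (nat_lit 5) (nat_lit 187) (nat_lit 3) (nat_lit 202) (nat_lit 3) (nat_lit 351) (nat_lit 351) (nat_lit 78))) (XT.nd (nat_lit 78) (nat_lit 0) (nat_lit 0) (XT.lf (nat_lit 0) (nat_lit 26032102170) (nat_lit 1140) (nat_lit 20750770509) (nat_lit 1216) (nat_lit 14415743405) (nat_lit 187) (nat_lit 5) (nat_lit 202) (nat_lit 3) (nat_lit 203) (nat_lit 5) (nat_lit 352) (nat_lit 351) (nat_lit 77)) (XT.lf (nat_lit 76) (nat_lit 6863153556) (nat_lit 0) (nat_lit 19917457454) (nat_lit 1216) (nat_lit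 35338960273) (nat_lit 188) (nat_lit 5) (nat_lit 187) (nat_lit 5) (nat_lit 203) (nat_lit 5) (nat_lit 353) (nat_lit 351) (nat_lit 76))))) (XT.nd (nat_lit 234) (nat_lit 0) (nat_lit 76) (XT.nd (nat_lit 78) (nat_lit 0) (nat_lit 0) (XT.lf (nat_lit 0) (nat_lit 27837082643) (nat_lit 1140) (nat_lit 27407990204) (nat_lit 1216) (nat_lit 7814517938) (nat_lit 188) (nat_lit 5) (nat_lit 203) (nat_lit 5) (nat_lit 204) (nat_lit 5) (nat_lit 354) (nat_lit 351) (nat_lit 75)) (XT.nd (nat_lit 78) (nat_lit 0) (nat_lit 76) (XT.lf (nat_lit 76) (nat_lit 1099782261) (nat_lit 0) (nat_lit 28032614604) (nat_lit 1216) (nat_lit 34889200404) (nat_lit 189) (nat_lit 5) (nat_lit 188) (nat_lit 5) (nat_lit 204) (nat_lit 5) (nat_lit 355) (nat_lit 351) (nat_lit 74)) (XT.lf (nat_lit 0) (nat_lit 30745432630) (nat_lit 1140) (nat_lit 33982624023) (nat_lit 1216) (nat_lit 276042257) (nat_lit 189) (nat_lit 5) (nat_lit 204) (nat_lit 5) (nat_lit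 205) (nat_lit 5) (nat_lit 356) (nat_lit 351) (nat_lit 73)))) (XT.nd (nat_lit 156) (nat_lit 0) (nat_lit 76) (XT.nd (nat_lit 78) (nat_lit 0) (nat_lit 0) (XT.lf (nat_lit 0) (nat_lit 32683819084) (nat_lit 1140) (nat_lit 4453180771) (nat_lit 1216) (nat_lit 28870767757) (nat_lit 189) (nat_lit 5) (nat_lit 204) (nat_lit 5) (nat_lit 205) (nat_lit 5) (nat_lit 357) (nat_lit 351) (nat_lit 72)) (XT.lf (nat_lit 76) (nat_lit 26478474218) (nat_lit 0) (nat_lit 8455836398) (nat_lit 1216) (nat_lit 32099617932) (nat_lit 190) (nat_lit 5) (nat_lit 189) (nat_lit 5) (nat_lit 205) (nat_lit 5) (nat_lit 358) (nat_lit 351) (nat_lit 71))) (XT.nd (nat_lit 78) (nat_lit 0) (nat_lit 0) (XT.lf (nat_lit 0) (nat_lit 37499861168) (nat_lit 1140) (nat_lit 9863672968) (nat_lit 1216) (nat_lit 20719914604) (nat_lit 190) (nat_lit 5) (nat_lit 205) (nat_lit 5) (nat_lit 206) (nat_lit 5) (nat_lit 359) (nat_lit 351) (nat_lit 70)) (XT.lf (nat_lit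 76) (nat_lit 22095945238) (nat_lit 0) (nat_lit 18342011565) (nat_lit 1216) (nat_lit 28717631109) (nat_lit 191) (nat_lit 5) (nat_lit 190) (nat_lit 5) (nat_lit 206) (nat_lit 5) (nat_lit 360) (nat_lit 351) (nat_lit 69))))))))
noncomputable def xc255 : XT := (XT.nd (nat_lit 81354) (nat_lit 0) (nat_lit 0) (XT.nd (nat_lit 40560) (nat_lit 0) (nat_lit 0) (XT.nd (nat_lit 40014) (nat_lit 0) (nat_lit 0) (XT.nd (nat_lit 234) (nat_lit 304) (nat_lit 0) (XT.nd (nat_lit 78) (nat_lit 0) (nat_lit 0) (XT.lf (nat_lit 0) (nat_lit 43675283992) (nat_lit 1140) (nat_lit 15152750418) (nat_lit 1216) (nat_lit 11425524902) (nat_lit 191) (nat_lit 5) (nat_lit 206) (nat_lit 5) (nat_lit 207) (nat_lit 5) (nat_lit 361) (nat_lit 351) (nat_lit 68)) (XT.nd (nat_lit 78) (nat_lit 0) (nat_lit 76) (XT.lf (nat_lit 76) (nat_lit 17878243020) (nat_lit 0) (nat_lit 29484435628) (nat_lit 1216) (nat_lit 24011203467) (nat_lit 192) (nat_lit 5)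 (nat_lit 191) (nat_lit 5) (nat_lit 207) (nat_lit 5) (nat_lit 362) (nat_lit 351) (nat_lit 67)) (XT.lf (nat_lit 0) (nat_lit 51321831126) (nat_lit 1140) (nat_lit 20321448460) (nat_lit 1216) (nat_lit 879701608) (nat_lit 192) (nat_lit 5) (nat_lit 207) (nat_lit 5) (nat_lit 208) (nat_lit 5) (nat_lit 363) (nat_lit 351) (nat_lit 66)))) (XT.nd (nat_lit 78) (nat_lit 380) (nat_lit 0) (XT.lf (nat_lit 76) (nat_lit 13825454574) (nat_lit 0) (nat_lit 41998641689) (nat_lit 1216) (nat_lit 17869727490) (nat_lit 193) (nat_lit 5) (nat_lit 192) (nat_lit 5) (nat_lit 208) (nat_lit 5) (nat_lit 364) (nat_lit 351) (nat_lit 65)) (XT.nd (nat_lit 39624) (nat_lit 380) (nat_lit 0) (XT.lf (nat_lit 76) (nat_lit 49412965493) (nat_lit 0) (nat_lit 11253195502) (nat_lit 1216) (nat_lit 14227489277) (nat_lit 193) (nat_lit 5) (nat_lit 192) (nat_lit 5) (nat_lit 208) (nat_lit 5) (nat_lit 365) (nat_lit 351) (nat_lit 64)) (XT.lf (nat_lit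 0) (nat_lit 6572473368) (nat_lit 0) (nat_lit 6572473368) (nat_lit 1140) (nat_lit 17908460464) (nat_lit 187) (nat_lit 5) (nat_lit 187) (nat_lit 3) (nat_lit 202) (nat_lit 3) (nat_lit 352) (nat_lit 352) (nat_lit 76))))) (XT.nd (nat_lit 234) (nat_lit 0) (nat_lit 76) (XT.nd (nat_lit 78) (nat_lit 0) (nat_lit 0) (XT.lf (nat_lit 0) (nat_lit 26845754931) (nat_lit 1140) (nat_lit 21355682112) (nat_lit 1216) (nat_lit 14832112409) (nat_lit 187) (nat_lit 5) (nat_lit 202) (nat_lit 3) (nat_lit 203) (nat_lit 5) (nat_lit 353) (nat_lit 352) (nat_lit 75)) (XT.nd (nat_lit 78) (nat_lit 0) (nat_lit 76) (XT.lf (nat_lit 76) (nat_lit 7086487013) (nat_lit 0) (nat_lit 20529447528) (nat_lit 1216) (nat_lit 36366223593) (nat_lit 188) (nat_lit 5) (nat_lit 187) (nat_lit 5) (nat_lit 203) (nat_lit 5) (nat_lit 354) (nat_lit 352) (nat_lit 74)) (XT.lf (nat_lit 0) (nat_lit 28703036037) (nat_lit 1140) (nat_lit 28212192827) (nat_lit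 1216) (nat_lit 8035182543) (nat_lit 188) (nat_lit 5) (nat_lit 203) (nat_lit 5) (nat_lit 204) (nat_lit 5) (nat_lit 355) (nat_lit 352) (nat_lit 73)))) (XT.nd (nat_lit 156) (nat_lit 0) (nat_lit 76) (XT.nd (nat_lit 78) (nat_lit 0) (nat_lit 76) (XT.lf (nat_lit 76) (nat_lit 1150635978) (nat_lit 0) (nat_lit 28885847112) (nat_lit 1216) (nat_lit 35904818013) (nat_lit 189) (nat_lit 5) (nat_lit 188) (nat_lit 5) (nat_lit 204) (nat_lit 5) (nat_lit 356) (nat_lit 352) (nat_lit 72)) (XT.lf (nat_lit 0) (nat_lit 31696918449) (nat_lit 1140) (nat_lit 34983731747) (nat_lit 1216) (nat_lit 272658526) (nat_lit 189) (nat_lit 5) (nat_lit 204) (nat_lit 5) (nat_lit 205) (nat_lit 5) (nat_lit 357) (nat_lit 352) (nat_lit 71))) (XT.nd (nat_lit 78) (nat_lit 0) (nat_lit 0) (XT.lf (nat_lit 0) (nat_lit 33692608259) (nat_lit 1140) (nat_lit 4568940274) (nat_lit 1216) (nat_lit 29725565549) (nat_lit 189) (nat_lit 5) (nat_lit 204) (nat_lit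 5) (nat_lit 205) (nat_lit 5) (nat_lit 358) (nat_lit 352) (nat_lit 70)) (XT.lf (nat_lit 76) (nat_lit 27290489502) (nat_lit 0) (nat_lit 8719471272) (nat_lit 1216) (nat_lit 33034119801) (nat_lit 190) (nat_lit 5) (nat_lit 189) (nat_lit 5) (nat_lit 205) (nat_lit 5) (nat_lit 359) (nat_lit 352) (nat_lit 69)))))) (XT.nd (nat_lit 40248) (nat_lit 0) (nat_lit 0) (XT.nd (nat_lit 234) (nat_lit 228) (nat_lit 0) (XT.nd (nat_lit 78) (nat_lit 0) (nat_lit 0) (XT.lf (nat_lit 0) (nat_lit 38651580401) (nat_lit 1140) (nat_lit 10141502937) (nat_lit 1216) (nat_lit 21332031041) (nat_lit 190) (nat_lit 5) (nat_lit 205) (nat_lit 5) (nat_lit 206) (nat_lit 5) (nat_lit 360) (nat_lit 352) (nat_lit 68)) (XT.nd (nat_lit 78) (nat_lit 0) (nat_lit 76) (XT.lf (nat_lit 76) (nat_lit 22776726558) (nat_lit 0) (nat_lit 18900486090) (nat_lit 1216) (nat_lit 29552224319) (nat_lit 191) (nat_lit 5) (nat_lit 190) (nat_lit 5) (nat_lit 206) (nat_lit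 5) (nat_lit 361) (nat_lit 352) (nat_lit 67)) (XT.lf (nat_lit 0) (nat_lit 45010822299) (nat_lit 1140) (nat_lit 15589080013) (nat_lit 1216) (nat_lit 11760471339) (nat_lit 191) (nat_lit 5) (nat_lit 206) (nat_lit 5) (nat_lit 207) (nat_lit 5) (nat_lit 362) (nat_lit 352) (nat_lit 66)))) (XT.nd (nat_lit 39858) (nat_lit 304) (nat_lit 0) (XT.nd (nat_lit 78) (nat_lit 0) (nat_lit 76) (XT.lf (nat_lit 76) (nat_lit 18432664279) (nat_lit 0) (nat_lit 30375611950) (nat_lit 1216) (nat_lit 24706047778) (nat_lit 192) (nat_lit 5) (nat_lit 191) (nat_lit 5) (nat_lit 207) (nat_lit 5) (nat_lit 363) (nat_lit 352) (nat_lit 65)) (XT.lf (nat_lit 0) (nat_lit 52885421362) (nat_lit 1140) (nat_lit 20912730361) (nat_lit 1216) (nat_lit 899768755) (nat_lit 192) (nat_lit 5) (nat_lit 207) (nat_lit 5) (nat_lit 208) (nat_lit 5) (nat_lit 364) (nat_lit 352) (nat_lit 64))) (XT.nd (nat_lit 78) (nat_lit 0) (nat_lit 0) (XT.lf (nat_lit 0)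 (nat_lit 6777620281) (nat_lit 0) (nat_lit 6777620281) (nat_lit 1140) (nat_lit 18429268927) (nat_lit 187) (nat_lit 5) (nat_lit 187) (nat_lit 3) (nat_lit 202) (nat_lit 3) (nat_lit 353) (nat_lit 353) (nat_lit 74)) (XT.lf (nat_lit 0) (nat_lit 27681940752) (nat_lit 1140) (nat_lit 21979752036) (nat_lit 1216) (nat_lit 15261896879) (nat_lit 187) (nat_lit 5) (nat_lit 202) (nat_lit 3) (nat_lit 203) (nat_lit 5) (nat_lit 354) (nat_lit 353) (nat_lit 73))))) (XT.nd (nat_lit 234) (nat_lit 0) (nat_lit 152) (XT.nd (nat_lit 78) (nat_lit 0) (nat_lit 76) (XT.lf (nat_lit 76) (nat_lit 7315519412) (nat_lit 0) (nat_lit 21158966877) (nat_lit 1216) (nat_lit 37426193723) (nat_lit 188) (nat_lit 5) (nat_lit 187) (nat_lit 5) (nat_lit 203) (nat_lit 5) (nat_lit 355) (nat_lit 353) (nat_lit 72)) (XT.nd (nat_lit 78) (nat_lit 0) (nat_lit 0) (XT.lf (nat_lit 0) (nat_lit 29593197638) (nat_lit 1140) (nat_lit 29041556931) (nat_lit 1216)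 (nat_lit 8263257595) (nat_lit 188) (nat_lit 5) (nat_lit 203) (nat_lit 5) (nat_lit 204) (nat_lit 5) (nat_lit 356) (nat_lit 353) (nat_lit 71)) (XT.lf (nat_lit 76) (nat_lit 1201990056) (nat_lit 0) (nat_lit 29763973162) (nat_lit 1216) (nat_lit 36952687030) (nat_lit 189) (nat_lit 5) (nat_lit 188) (nat_lit 5) (nat_lit 204) (nat_lit 5) (nat_lit 357) (nat_lit 353) (nat_lit 70)))) (XT.nd (nat_lit 156) (nat_lit 0) (nat_lit 0) (XT.nd (nat_lit 78) (nat_lit 0) (nat_lit 0) (XT.lf (nat_lit 0) (nat_lit 32675277072) (nat_lit 1140) (nat_lit 36015927273) (nat_lit 1216) (nat_lit 269842902) (nat_lit 189) (nat_lit 5) (nat_lit 204) (nat_lit 5) (nat_lit 205) (nat_lit 5) (nat_lit 358) (nat_lit 353) (nat_lit 69)) (XT.lf (nat_lit 0) (nat_lit 34730038031) (nat_lit 1140) (nat_lit 4689196418) (nat_lit 1216) (nat_lit 30606657389) (nat_lit 189) (nat_lit 5) (nat_lit 204) (nat_lit 5) (nat_lit 205) (nat_lit 5) (nat_lit 359) (nat_lit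 353) (nat_lit 68))) (XT.nd (nat_lit 78) (nat_lit 0) (nat_lit 76) (XT.lf (nat_lit 76) (nat_lit 28125851427) (nat_lit 0) (nat_lit 8990443460) (nat_lit 1216) (nat_lit 33998291978) (nat_lit 190) (nat_lit 5) (nat_lit 189) (nat_lit 5) (nat_lit 205) (nat_lit 5) (nat_lit 360) (nat_lit 353) (nat_lit 67)) (XT.lf (nat_lit 0) (nat_lit 39836317178) (nat_lit 1140) (nat_lit 10428705684) (nat_lit 1216) (nat_lit 21963055220) (nat_lit 190) (nat_lit 5) (nat_lit 205) (nat_lit 5) (nat_lit 206) (nat_lit 5) (nat_lit 361) (nat_lit 353) (nat_lit 66))))))) (XT.nd (nat_lit 80886) (nat_lit 0) (nat_lit 0) (XT.nd (nat_lit 40326) (nat_lit 0) (nat_lit 0) (XT.nd (nat_lit 40092) (nat_lit 0) (nat_lit 0) (XT.nd (nat_lit 78) (nat_lit 228) (nat_lit 0) (XT.lf (nat_lit 76) (nat_lit 23476903615) (nat_lit 0) (nat_lit 19475243322) (nat_lit 1216) (nat_lit 30413401546) (nat_lit 191) (nat_lit 5) (nat_lit 190) (nat_lit 5) (nat_lit 206) (nat_lit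 5) (nat_lit 362) (nat_lit 353) (nat_lit 65)) (XT.nd (nat_lit 39936) (nat_lit 304) (nat_lit 0) (XT.lf (nat_lit 0) (nat_lit 46384975591) (nat_lit 1140) (nat_lit 16039547287) (nat_lit 1216) (nat_lit 12105915030) (nat_lit 191) (nat_lit 5) (nat_lit 206) (nat_lit 5) (nat_lit 207) (nat_lit 5) (nat_lit 363) (nat_lit 353) (nat_lit 64)) (XT.lf (nat_lit 0) (nat_lit 6988463934) (nat_lit 0) (nat_lit 6988463934) (nat_lit 1140) (nat_lit 18966645675) (nat_lit 187) (nat_lit 5) (nat_lit 187) (nat_lit 3) (nat_lit 202) (nat_lit 3) (nat_lit 354) (nat_lit 354) (nat_lit 72)))) (XT.nd (nat_lit 78) (nat_lit 0) (nat_lit 0) (XT.lf (nat_lit 0) (nat_lit 28541443346) (nat_lit 1140) (nat_lit 22623496997) (nat_lit 1216) (nat_lit 15705446213) (nat_lit 187) (nat_lit 5) (nat_lit 202) (nat_lit 3) (nat_lit 203) (nat_lit 5) (nat_lit 355) (nat_lit 354) (nat_lit 71)) (XT.nd (nat_lit 78) (nat_lit 0) (nat_lit 76) (XT.lf (nat_lit 76) (nat_lit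 7550479187) (nat_lit 0) (nat_lit 21806589049) (nat_lit 1216) (nat_lit 38519743435) (nat_lit 188) (nat_lit 5) (nat_lit 187) (nat_lit 5) (nat_lit 203) (nat_lit 5) (nat_lit 356) (nat_lit 354) (nat_lit 70)) (XT.lf (nat_lit 0) (nat_lit 30508395320) (nat_lit 1140) (nat_lit 29896777924) (nat_lit 1216) (nat_lit 8498920028) (nat_lit 188) (nat_lit 5) (nat_lit 203) (nat_lit 5) (nat_lit 204) (nat_lit 5) (nat_lit 357) (nat_lit 354) (nat_lit 69))))) (XT.nd (nat_lit 234) (nat_lit 76) (nat_lit 0) (XT.nd (nat_lit 78) (nat_lit 0) (nat_lit 76) (XT.lf (nat_lit 76) (nat_lit 1253918357) (nat_lit 0) (nat_lit 30667779939) (nat_lit 1216) (nat_lit 38033672652) (nat_lit 189) (nat_lit 5) (nat_lit 188) (nat_lit 5) (nat_lit 204) (nat_lit 5) (nat_lit 358) (nat_lit 354) (nat_lit 68)) (XT.nd (nat_lit 78) (nat_lit 0) (nat_lit 0) (XT.lf (nat_lit 0) (nat_lit 33681410651) (nat_lit 1140) (nat_lit 37080082698) (nat_lit 1216) (nat_lit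 267573988) (nat_lit 189) (nat_lit 5) (nat_lit 204) (nat_lit 5) (nat_lit 205) (nat_lit 5) (nat_lit 359) (nat_lit 354) (nat_lit 67)) (XT.lf (nat_lit 0) (nat_lit 35797060789) (nat_lit 1140) (nat_lit 4814025328) (nat_lit 1216) (nat_lit 31514794780) (nat_lit 189) (nat_lit 5) (nat_lit 204) (nat_lit 5) (nat_lit 205) (nat_lit 5) (nat_lit 360) (nat_lit 354) (nat_lit 66)))) (XT.nd (nat_lit 40170) (nat_lit 152) (nat_lit 0) (XT.nd (nat_lit 78) (nat_lit 0) (nat_lit 76) (XT.lf (nat_lit 76) (nat_lit 28985318591) (nat_lit 0) (nat_lit 9269005900) (nat_lit 1216) (nat_lit 34992930701) (nat_lit 190) (nat_lit 5) (nat_lit 189) (nat_lit 5) (nat_lit 205) (nat_lit 5) (nat_lit 361) (nat_lit 354) (nat_lit 65)) (XT.lf (nat_lit 0) (nat_lit 41055150086) (nat_lit 1140) (nat_lit 10725502813) (nat_lit 1216) (nat_lit 22613523131) (nat_lit 190) (nat_lit 5) (nat_lit 205) (nat_lit 5) (nat_lit 206) (nat_lit 5) (nat_lit 362) (nat_lit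 354) (nat_lit 64))) (XT.nd (nat_lit 78) (nat_lit 0) (nat_lit 0) (XT.lf (nat_lit 0) (nat_lit 7205201503) (nat_lit 0) (nat_lit 7205201503) (nat_lit 1140) (nat_lit 19521033564) (nat_lit 187) (nat_lit 5) (nat_lit 187) (nat_lit 3) (nat_lit 202) (nat_lit 3) (nat_lit 355) (nat_lit 355) (nat_lit 70)) (XT.lf (nat_lit 0) (nat_lit 29425063751) (nat_lit 1140) (nat_lit 23287452543) (nat_lit 1216) (nat_lit 16163123341) (nat_lit 187) (nat_lit 5) (nat_lit 202) (nat_lit 3) (nat_lit 203) (nat_lit 5) (nat_lit 356) (nat_lit 355) (nat_lit 69)))))) (XT.nd (nat_lit 40716) (nat_lit 0) (nat_lit 0) (XT.nd (nat_lit 234) (nat_lit 0) (nat_lit 0) (XT.nd (nat_lit 78) (nat_lit 0) (nat_lit 76) (XT.lf (nat_lit 76) (nat_lit 7791598325) (nat_lit 0) (nat_lit 22472902062) (nat_lit 1216) (nat_lit 39647777911) (nat_lit 188) (nat_lit 5) (nat_lit 187) (nat_lit 5) (nat_lit 203) (nat_lit 5) (nat_lit 357) (nat_lit 355) (nat_lit 68)) (XT.nd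 (nat_lit 78) (nat_lit 0) (nat_lit 0) (XT.lf (nat_lit 0) (nat_lit 31449475960) (nat_lit 1140) (nat_lit 30778575488) (nat_lit 1216) (nat_lit 8742354690) (nat_lit 188) (nat_lit 5) (nat_lit 203) (nat_lit 5) (nat_lit 204) (nat_lit 5) (nat_lit 358) (nat_lit 355) (nat_lit 67)) (XT.lf (nat_lit 76) (nat_lit 1306493586) (nat_lit 0) (nat_lit 31598075928) (nat_lit 1216) (nat_lit 39148671908) (nat_lit 189) (nat_lit 5) (nat_lit 188) (nat_lit 5) (nat_lit 204) (nat_lit 5) (nat_lit 359) (nat_lit 355) (nat_lit 66)))) (XT.nd (nat_lit 40326) (nat_lit 152) (nat_lit 0) (XT.nd (nat_lit 78) (nat_lit 0) (nat_lit 0) (XT.lf (nat_lit 0) (nat_lit 34716242890) (nat_lit 1140) (nat_lit 38177099759) (nat_lit 1216) (nat_lit 265831955) (nat_lit 189) (nat_lit 5) (nat_lit 204) (nat_lit 5) (nat_lit 205) (nat_lit 5) (nat_lit 360) (nat_lit 355) (nat_lit 65)) (XT.lf (nat_lit 0) (nat_lit 36894652147) (nat_lit 1140) (nat_lit 4943508786)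 (nat_lit 1216) (nat_lit 32450753912) (nat_lit 189) (nat_lit 5) (nat_lit 204) (nat_lit 5) (nat_lit 205) (nat_lit 5) (nat_lit 361) (nat_lit 355) (nat_lit 64))) (XT.nd (nat_lit 78) (nat_lit 0) (nat_lit 0) (XT.lf (nat_lit 0) (nat_lit 7428034568) (nat_lit 0) (nat_lit 7428034568) (nat_lit 1140) (nat_lit 20092891849) (nat_lit 187) (nat_lit 5) (nat_lit 187) (nat_lit 3) (nat_lit 202) (nat_lit 3) (nat_lit 356) (nat_lit 356) (nat_lit 68)) (XT.lf (nat_lit 0) (nat_lit 30333621211) (nat_lit 1140) (nat_lit 23972173429) (nat_lit 1216) (nat_lit 16635304949) (nat_lit 187) (nat_lit 5) (nat_lit 202) (nat_lit 3) (nat_lit 203) (nat_lit 5) (nat_lit 357) (nat_lit 356) (nat_lit 67))))) (XT.nd (nat_lit 40560) (nat_lit 0) (nat_lit 0) (XT.nd (nat_lit 78) (nat_lit 0) (nat_lit 76) (XT.lf (nat_lit 76) (nat_lit 8039112664) (nat_lit 0) (nat_lit 23158508995) (nat_lit 1216) (nat_lit 40811235353) (nat_lit 188) (nat_lit 5) (nat_lit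 187) (nat_lit 5) (nat_lit 203) (nat_lit 5) (nat_lit 358) (nat_lit 356) (nat_lit 66)) (XT.nd (nat_lit 78) (nat_lit 0) (nat_lit 0) (XT.lf (nat_lit 0) (nat_lit 32417306341) (nat_lit 1140) (nat_lit 31687694112) (nat_lit 1216) (nat_lit 8993754429) (nat_lit 188) (nat_lit 5) (nat_lit 203) (nat_lit 5) (nat_lit 204) (nat_lit 5) (nat_lit 359) (nat_lit 356) (nat_lit 65)) (XT.lf (nat_lit 76) (nat_lit 1359787439) (nat_lit 0) (nat_lit 32555691681) (nat_lit 1216) (nat_lit 40298614275) (nat_lit 189) (nat_lit 5) (nat_lit 188) (nat_lit 5) (nat_lit 204) (nat_lit 5) (nat_lit 360) (nat_lit 356) (nat_lit 64)))) (XT.nd (nat_lit 156) (nat_lit 0) (nat_lit 0) (XT.nd (nat_lit 78) (nat_lit 0) (nat_lit 0) (XT.lf (nat_lit 0) (nat_lit 7657169337) (nat_lit 0) (nat_lit 7657169337) (nat_lit 1140) (nat_lit 20682696493) (nat_lit 187) (nat_lit 5) (nat_lit 187) (nat_lit 3) (nat_lit 202) (nat_lit 3) (nat_lit 357) (nat_lit 357) (nat_lit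 66)) (XT.lf (nat_lit 0) (nat_lit 31267954051) (nat_lit 1140) (nat_lit 24678234013) (nat_lit 1216) (nat_lit 17122381731) (nat_lit 187) (nat_lit 5) (nat_lit 202) (nat_lit 3) (nat_lit 203) (nat_lit 5) (nat_lit 358) (nat_lit 357) (nat_lit 65))) (XT.nd (nat_lit 40560) (nat_lit 0) (nat_lit 0) (XT.lf (nat_lit 76) (nat_lit 8293262187) (nat_lit 0) (nat_lit 23864028589) (nat_lit 1216) (nat_lit 42011087640) (nat_lit 188) (nat_lit 5) (nat_lit 187) (nat_lit 5) (nat_lit 203) (nat_lit 5) (nat_lit 359) (nat_lit 357) (nat_lit 64)) (XT.lf (nat_lit 0) (nat_lit 7892816864) (nat_lit 0) (nat_lit 7892816864) (nat_lit 1140) (nat_lit 21290940503) (nat_lit 187) (nat_lit 5) (nat_lit 187) (nat_lit 3) (nat_lit 202) (nat_lit 3) (nat_lit 358) (nat_lit 358) (nat_lit 64))))))))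

set_option maxRecDepth 10000000 in
noncomputable def Tp : PT := (PT.nd (nat_lit 5495412) (PT.nd (nat_lit 4886544) (PT.nd (nat_lit 4278378) (PT.nd (nat_lit 3790722) (PT.nd (nat_lit 3344406) pc0 pc1) (PT.nd (nat_lit 284232) pc2 pc3)) (PT.nd (nat_lit 364494) (PT.nd (nat_lit 202488) pc4 pc5) (PT.nd (nat_lit 122148) pc6 pc7))) (PT.nd (nat_lit 326352) (PT.nd (nat_lit 163800) (PT.nd (nat_lit 82056) pc8 pc9) (PT.nd (nat_lit 119886) pc10 pc11)) (PT.nd (nat_lit 160914) (PT.nd (nat_lit 80730) pc12 pc13) (PT.nd (nat_lit 42120) pc14 pc15)))) (PT.nd (nat_lit 366288) (PT.nd (nat_lit 203112) (PT.nd (nat_lit 83382) (PT.nd (nat_lit 41730) pc16 pc17) (PT.nd (nat_lit 78546) pc18 pc19)) (PT.nd (nat_lit 81900) (PT.nd (nat_lit 41028) pc20 pc21) (PT.nd (nat_lit 40716) pc22 pc23))) (PT.nd (nat_lit 204672) (PT.nd (nat_lit 81822) (PT.nd (nat_lit 40404) pc24 pc25) (PT.nd (nat_lit 41964) pc26 pc27)) (PT.nd (nat_lit 203580)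 (PT.nd (nat_lit 81744) pc28 pc29) (PT.nd (nat_lit 156702) pc30 pc31)))))

set_option maxRecDepth 10000000 in
noncomputable def Tx : XT := (XT.nd (nat_lit 7590492) (nat_lit 0) (nat_lit 152) XT.nil (XT.nd (nat_lit 6985914) (nat_lit 0) (nat_lit 0) (XT.nd (nat_lit 3329274) (nat_lit 0) (nat_lit 532) (XT.nd (nat_lit 2313870) (nat_lit 0) (nat_lit 228) (XT.nd (nat_lit 1621854) (nat_lit 0) (nat_lit 152) (XT.nd (nat_lit 1134354) (nat_lit 0) (nat_lit 0) (XT.nd (nat_lit 771186) (nat_lit 0) (nat_lit 0) (XT.nd (nat_lit 527592) (nat_lit 0) (nat_lit 0) (XT.nd (nat_lit 364884) (nat_lit 0) (nat_lit 0) (XT.nd (nat_lit 243282) (nat_lit 0) (nat_lit 0) xc0 xc1) (XT.nd (nat_lit 81666) (nat_lit 0) (nat_lit 0) xc2 xc3)) (XT.nd (nat_lit 122460) (nat_lit 0) (nat_lit 0) (XT.nd (nat_lit 80418) (nat_lit 0) (nat_lit 0) xc4 xc5) (XT.nd (nat_lit 79482) (nat_lit 0) (nat_lit 0) xc6 xc7))) (XT.nd (nat_lit 201474) (nat_lit 0) (nat_lit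 0) (XT.nd (nat_lit 119652) (nat_lit 0) (nat_lit 0) (XT.nd (nat_lit 41418) (nat_lit 0) (nat_lit 0) xc8 xc9) (XT.nd (nat_lit 40950) (nat_lit 0) (nat_lit 0) xc10 xc11)) (XT.nd (nat_lit 81120) (nat_lit 0) (nat_lit 0) (XT.nd (nat_lit 40638) (nat_lit 0) (nat_lit 0) xc12 xc13) (XT.nd (nat_lit 40326) (nat_lit 0) (nat_lit 0) xc14 xc15)))) (XT.nd (nat_lit 246480) (nat_lit 0) (nat_lit 152) (XT.nd (nat_lit 123864) (nat_lit 0) (nat_lit 76) (XT.nd (nat_lit 44148) (nat_lit 0) (nat_lit 0) (XT.nd (nat_lit 40014) (nat_lit 0) (nat_lit 76) xc16 xc17) (XT.nd (nat_lit 39936) (nat_lit 0) (nat_lit 0) xc18 xc19)) (XT.nd (nat_lit 79092) (nat_lit 0) (nat_lit 0) (XT.nd (nat_lit 39624) (nat_lit 0) (nat_lit 0) xc20 xc21) (XT.nd (nat_lit 39312) (nat_lit 0) (nat_lit 76) xc22 xc23))) (XT.nd (nat_lit 121212) (nat_lit 0) (nat_lit 0) (XT.nd (nat_lit 78156) (nat_lit 0) (nat_lit 0) (XT.nd (nat_lit 39156) (nat_lit 0) (nat_lit 0) xc24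 xc25) (XT.nd (nat_lit 38844) (nat_lit 0) (nat_lit 76) xc26 xc27)) (XT.nd (nat_lit 77220) (nat_lit 0) (nat_lit 0) (XT.nd (nat_lit 38688) (nat_lit 0) (nat_lit 0) xc28 xc29) (XT.nd (nat_lit 4134) (nat_lit 152) (nat_lit 0) xc30 xc31))))) (XT.nd (nat_lit 367848) (nat_lit 0) (nat_lit 0) (XT.nd (nat_lit 202020) (nat_lit 0) (nat_lit 0) (XT.nd (nat_lit 84552) (nat_lit 0) (nat_lit 0) (XT.nd (nat_lit 42354) (nat_lit 0) (nat_lit 0) (XT.nd (nat_lit 38220) (nat_lit 0) (nat_lit 228) xc32 xc33) (XT.nd (nat_lit 38064) (nat_lit 0) (nat_lit 0) xc34 xc35)) (XT.nd (nat_lit 75660) (nat_lit 0) (nat_lit 0) (XT.nd (nat_lit 37908) (nat_lit 0) (nat_lit 0) xc36 xc37) (XT.nd (nat_lit 4134) (nat_lit 304) (nat_lit 0) xc38 xc39))) (XT.nd (nat_lit 83226) (nat_lit 0) (nat_lit 0) (XT.nd (nat_lit 41652) (nat_lit 0) (nat_lit 0) (XT.nd (nat_lit 4134) (nat_lit 76) (nat_lit 0) xc40 xc41) (XT.nd (nat_lit 37362) (nat_lit 0) (nat_lit 532)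 xc42 xc43)) (XT.nd (nat_lit 41340) (nat_lit 0) (nat_lit 0) (XT.nd (nat_lit 37206) (nat_lit 0) (nat_lit 304) xc44 xc45) (XT.nd (nat_lit 37050) (nat_lit 0) (nat_lit 228) xc46 xc47)))) (XT.nd (nat_lit 163332) (nat_lit 0) (nat_lit 76) (XT.nd (nat_lit 81978) (nat_lit 0) (nat_lit 76) (XT.nd (nat_lit 41028) (nat_lit 0) (nat_lit 0) (XT.nd (nat_lit 36894) (nat_lit 0) (nat_lit 228) xc48 xc49) (XT.nd (nat_lit 36738) (nat_lit 0) (nat_lit 152) xc50 xc51)) (XT.nd (nat_lit 40716) (nat_lit 0) (nat_lit 0) (XT.nd (nat_lit 36582) (nat_lit 0) (nat_lit 76) xc52 xc53) (XT.nd (nat_lit 36426) (nat_lit 0) (nat_lit 76) xc54 xc55))) (XT.nd (nat_lit 80730) (nat_lit 0) (nat_lit 0) (XT.nd (nat_lit 40404) (nat_lit 0) (nat_lit 0) (XT.nd (nat_lit 36270) (nat_lit 0) (nat_lit 152) xc56 xc57) (XT.nd (nat_lit 36114) (nat_lit 0) (nat_lit 228) xc58 xc59)) (XT.nd (nat_lit 40092) (nat_lit 0) (nat_lit 0) (XT.nd (nat_lit 35958) (nat_lit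 0) (nat_lit 304) xc60 xc61) (XT.nd (nat_lit 35802) (nat_lit 0) (nat_lit 456) xc62 xc63)))))) (XT.nd (nat_lit 530244) (nat_lit 0) (nat_lit 152) (XT.nd (nat_lit 283686) (nat_lit 0) (nat_lit 76) (XT.nd (nat_lit 158262) (nat_lit 0) (nat_lit 0) (XT.nd (nat_lit 79404) (nat_lit 0) (nat_lit 0) (XT.nd (nat_lit 39780) (nat_lit 0) (nat_lit 0) (XT.nd (nat_lit 35646) (nat_lit 0) (nat_lit 760) xc64 xc65) (XT.nd (nat_lit 35490) (nat_lit 0) (nat_lit 1368) xc66 xc67)) (XT.nd (nat_lit 39468) (nat_lit 0) (nat_lit 0) (XT.nd (nat_lit 4134) (nat_lit 0) (nat_lit 0) xc68 xc69) (XT.nd (nat_lit 4134) (nat_lit 228) (nat_lit 0) xc70 xc71))) (XT.nd (nat_lit 78234) (nat_lit 0) (nat_lit 0) (XT.nd (nat_lit 39156) (nat_lit 0) (nat_lit 0) (XT.nd (nat_lit 4134) (nat_lit 608) (nat_lit 0) xc72 xc73) (XT.nd (nat_lit 4134) (nat_lit 1368) (nat_lit 0) xc74 xc75)) (XT.nd (nat_lit 8268) (nat_lit 380) (nat_lit 0) (XT.nd (nat_lit 4134) (nat_lit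 2432) (nat_lit 0) xc76 xc77) (XT.nd (nat_lit 34710) (nat_lit 0) (nat_lit 988) xc78 xc79)))) (XT.nd (nat_lit 123942) (nat_lit 0) (nat_lit 0) (XT.nd (nat_lit 77220) (nat_lit 0) (nat_lit 0) (XT.nd (nat_lit 38688) (nat_lit 0) (nat_lit 0) (XT.nd (nat_lit 34554) (nat_lit 0) (nat_lit 2356) xc80 xc81) (XT.nd (nat_lit 4134) (nat_lit 152) (nat_lit 0) xc82 xc83)) (XT.nd (nat_lit 38376) (nat_lit 0) (nat_lit 304) (XT.nd (nat_lit 4134) (nat_lit 912) (nat_lit 0) xc84 xc85) (XT.nd (nat_lit 4134) (nat_lit 2432) (nat_lit 0) xc86 xc87))) (XT.nd (nat_lit 76362) (nat_lit 0) (nat_lit 76) (XT.nd (nat_lit 38220) (nat_lit 0) (nat_lit 76) (XT.nd (nat_lit 34086) (nat_lit 0) (nat_lit 1216) xc88 xc89) (XT.nd (nat_lit 33930) (nat_lit 0) (nat_lit 3800) xc90 xc91)) (XT.nd (nat_lit 37908) (nat_lit 0) (nat_lit 76) (XT.nd (nat_lit 4134) (nat_lit 380) (nat_lit 0) xc92 xc93) (XT.nd (nat_lit 4134) (nat_lit 1976) (nat_lit 0) xc94 xc95)))))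 (XT.nd (nat_lit 241644) (nat_lit 0) (nat_lit 76) (XT.nd (nat_lit 121134) (nat_lit 0) (nat_lit 0) (XT.nd (nat_lit 75348) (nat_lit 0) (nat_lit 0) (XT.nd (nat_lit 37752) (nat_lit 0) (nat_lit 0) (XT.nd (nat_lit 33618) (nat_lit 0) (nat_lit 1140) xc96 xc97) (XT.nd (nat_lit 33462) (nat_lit 0) (nat_lit 4560) xc98 xc99)) (XT.nd (nat_lit 37440) (nat_lit 0) (nat_lit 304) (XT.nd (nat_lit 4134) (nat_lit 608) (nat_lit 0) xc100 xc101) (XT.nd (nat_lit 4134) (nat_lit 2736) (nat_lit 0) xc102 xc103))) (XT.nd (nat_lit 74724) (nat_lit 0) (nat_lit 76) (XT.nd (nat_lit 37284) (nat_lit 0) (nat_lit 76) (XT.nd (nat_lit 33150) (nat_lit 0) (nat_lit 2280) xc104 xc105) (XT.nd (nat_lit 4134) (nat_lit 76) (nat_lit 0) xc106 xc107)) (XT.nd (nat_lit 37440) (nat_lit 0) (nat_lit 836) (XT.nd (nat_lit 4134) (nat_lit 1444) (nat_lit 0) xc108 xc109) (XT.nd (nat_lit 4134) (nat_lit 4864) (nat_lit 0) xc110 xc111)))) (XT.nd (nat_lit 121368)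 (nat_lit 0) (nat_lit 0) (XT.nd (nat_lit 75270) (nat_lit 0) (nat_lit 0) (XT.nd (nat_lit 37518) (nat_lit 0) (nat_lit 0) (XT.nd (nat_lit 33384) (nat_lit 0) (nat_lit 3724) xc112 xc113) (XT.nd (nat_lit 4134) (nat_lit 456) (nat_lit 0) xc114 xc115)) (XT.nd (nat_lit 8268) (nat_lit 152) (nat_lit 0) (XT.nd (nat_lit 4134) (nat_lit 2204) (nat_lit 0) xc116 xc117) (XT.nd (nat_lit 33618) (nat_lit 0) (nat_lit 1292) xc118 xc119))) (XT.nd (nat_lit 75816) (nat_lit 0) (nat_lit 76) (XT.nd (nat_lit 37830) (nat_lit 0) (nat_lit 0) (XT.nd (nat_lit 33696) (nat_lit 0) (nat_lit 4484) xc120 xc121) (XT.nd (nat_lit 4134) (nat_lit 532) (nat_lit 0) xc122 xc123)) (XT.nd (nat_lit 8268) (nat_lit 152) (nat_lit 0) (XT.nd (nat_lit 4134) (nat_lit 2280) (nat_lit 0) xc124 xc125) (XT.nd (nat_lit 33852) (nat_lit 0) (nat_lit 1216) xc126 xc127))))))) (XT.nd (nat_lit 1174290) (nat_lit 0) (nat_lit 1216) (XT.nd (nat_lit 528372) (nat_lit 0) (nat_lit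 380) (XT.nd (nat_lit 246480) (nat_lit 0) (nat_lit 152) (XT.nd (nat_lit 122772) (nat_lit 0) (nat_lit 76) (XT.nd (nat_lit 76206) (nat_lit 0) (nat_lit 76) (XT.nd (nat_lit 38064) (nat_lit 0) (nat_lit 0) (XT.nd (nat_lit 33930) (nat_lit 0) (nat_lit 3876) xc128 xc129) (XT.nd (nat_lit 4134) (nat_lit 456) (nat_lit 0) xc130 xc131)) (XT.nd (nat_lit 38220) (nat_lit 0) (nat_lit 684) (XT.nd (nat_lit 4134) (nat_lit 1976) (nat_lit 0) xc132 xc133) (XT.nd (nat_lit 4134) (nat_lit 4864) (nat_lit 0) xc134 xc135))) (XT.nd (nat_lit 76830) (nat_lit 0) (nat_lit 76) (XT.nd (nat_lit 38298) (nat_lit 0) (nat_lit 0) (XT.nd (nat_lit 34164) (nat_lit 0) (nat_lit 2660) xc136 xc137) (XT.nd (nat_lit 4134) (nat_lit 76) (nat_lit 0) xc138 xc139)) (XT.nd (nat_lit 38532) (nat_lit 0) (nat_lit 76) (XT.nd (nat_lit 4134) (nat_lit 912) (nat_lit 0) xc140 xc141) (XT.nd (nat_lit 4134) (nat_lit 2660) (nat_lit 0) xc142 xc143)))) (XT.nd (nat_lit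 155610) (nat_lit 0) (nat_lit 76) (XT.nd (nat_lit 77610) (nat_lit 0) (nat_lit 0) (XT.nd (nat_lit 38766) (nat_lit 0) (nat_lit 0) (XT.nd (nat_lit 34632) (nat_lit 0) (nat_lit 912) xc144 xc145) (XT.nd (nat_lit 34710) (nat_lit 0) (nat_lit 2280) xc146 xc147)) (XT.nd (nat_lit 38922) (nat_lit 0) (nat_lit 76) (XT.nd (nat_lit 34788) (nat_lit 0) (nat_lit 4788) xc148 xc149) (XT.nd (nat_lit 4134) (nat_lit 532) (nat_lit 0) xc150 xc151))) (XT.nd (nat_lit 47502) (nat_lit 0) (nat_lit 152) (XT.nd (nat_lit 39156) (nat_lit 0) (nat_lit 152) (XT.nd (nat_lit 4134) (nat_lit 1672) (nat_lit 0) xc152 xc153) (XT.nd (nat_lit 4134) (nat_lit 3192) (nat_lit 0) xc154 xc155)) (XT.nd (nat_lit 39312) (nat_lit 0) (nat_lit 0) (XT.nd (nat_lit 35178) (nat_lit 0) (nat_lit 608) xc156 xc157) (XT.nd (nat_lit 35256) (nat_lit 0) (nat_lit 1520) xc158 xc159))))) (XT.nd (nat_lit 319488) (nat_lit 0) (nat_lit 380) (XT.nd (nat_lit 158886) (nat_lit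 0) (nat_lit 76) (XT.nd (nat_lit 79170) (nat_lit 0) (nat_lit 76) (XT.nd (nat_lit 39546) (nat_lit 0) (nat_lit 0) (XT.nd (nat_lit 35412) (nat_lit 0) (nat_lit 2736) xc160 xc161) (XT.nd (nat_lit 35490) (nat_lit 0) (nat_lit 4332) xc162 xc163)) (XT.nd (nat_lit 39780) (nat_lit 0) (nat_lit 0) (XT.nd (nat_lit 4134) (nat_lit 228) (nat_lit 0) xc164 xc165) (XT.nd (nat_lit 4134) (nat_lit 760) (nat_lit 0) xc166 xc167))) (XT.nd (nat_lit 80106) (nat_lit 0) (nat_lit 228) (XT.nd (nat_lit 39936) (nat_lit 0) (nat_lit 228) (XT.nd (nat_lit 4134) (nat_lit 1292) (nat_lit 0) xc168 xc169) (XT.nd (nat_lit 4134) (nat_lit 1748) (nat_lit 0) xc170 xc171)) (XT.nd (nat_lit 40170) (nat_lit 0) (nat_lit 0) (XT.nd (nat_lit 4134) (nat_lit 2204) (nat_lit 0) xc172 xc173) (XT.nd (nat_lit 4134) (nat_lit 2888) (nat_lit 0) xc174 xc175)))) (XT.nd (nat_lit 162396) (nat_lit 0) (nat_lit 228) (XT.nd (nat_lit 80964) (nat_lit 0) (nat_lit 152) (XT.nd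 (nat_lit 40404) (nat_lit 0) (nat_lit 0) (XT.nd (nat_lit 4134) (nat_lit 3572) (nat_lit 0) xc176 xc177) (XT.nd (nat_lit 4134) (nat_lit 4180) (nat_lit 0) xc178 xc179)) (XT.nd (nat_lit 40638) (nat_lit 0) (nat_lit 76) (XT.nd (nat_lit 4134) (nat_lit 4028) (nat_lit 0) xc180 xc181) (XT.nd (nat_lit 4134) (nat_lit 4256) (nat_lit 0) xc182 xc183))) (XT.nd (nat_lit 81822) (nat_lit 0) (nat_lit 76) (XT.nd (nat_lit 40794) (nat_lit 0) (nat_lit 76) (XT.nd (nat_lit 4134) (nat_lit 3952) (nat_lit 0) xc184 xc185) (XT.nd (nat_lit 4134) (nat_lit 3876) (nat_lit 0) xc186 xc187)) (XT.nd (nat_lit 41028) (nat_lit 0) (nat_lit 0) (XT.nd (nat_lit 4134) (nat_lit 3268) (nat_lit 0) xc188 xc189) (XT.nd (nat_lit 4134) (nat_lit 2812) (nat_lit 0) xc190 xc191)))))) (XT.nd (nat_lit 776490) (nat_lit 0) (nat_lit 1672) (XT.nd (nat_lit 366600) (nat_lit 0) (nat_lit 684) (XT.nd (nat_lit 165516) (nat_lit 0) (nat_lit 304) (XT.nd (nat_lit 82524)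 (nat_lit 0) (nat_lit 152) (XT.nd (nat_lit 41184) (nat_lit 0) (nat_lit 76) (XT.nd (nat_lit 4134) (nat_lit 2128) (nat_lit 0) xc192 xc193) (XT.nd (nat_lit 4134) (nat_lit 1444) (nat_lit 0) xc194 xc195)) (XT.nd (nat_lit 41418) (nat_lit 0) (nat_lit 0) (XT.nd (nat_lit 4134) (nat_lit 684) (nat_lit 0) xc196 xc197) (XT.nd (nat_lit 4134) (nat_lit 152) (nat_lit 0) xc198 xc199))) (XT.nd (nat_lit 83460) (nat_lit 0) (nat_lit 0) (XT.nd (nat_lit 41652) (nat_lit 0) (nat_lit 0) (XT.nd (nat_lit 37518) (nat_lit 0) (nat_lit 2584) xc200 xc201) (XT.nd (nat_lit 37596) (nat_lit 0) (nat_lit 1216) xc202 xc203)) (XT.nd (nat_lit 75504) (nat_lit 0) (nat_lit 228) (XT.nd (nat_lit 37674) (nat_lit 0) (nat_lit 228) xc204 xc205) (XT.nd (nat_lit 4134) (nat_lit 3496) (nat_lit 0) xc206 xc207)))) (XT.nd (nat_lit 203658) (nat_lit 0) (nat_lit 380) (XT.nd (nat_lit 84474) (nat_lit 0) (nat_lit 152) (XT.nd (nat_lit 42120) (nat_lit 0) (nat_lit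 152) (XT.nd (nat_lit 4134) (nat_lit 1216) (nat_lit 0) xc208 xc209) (XT.nd (nat_lit 38142) (nat_lit 0) (nat_lit 2660) xc210 xc211)) (XT.nd (nat_lit 42354) (nat_lit 0) (nat_lit 76) (XT.nd (nat_lit 38220) (nat_lit 0) (nat_lit 380) xc212 xc213) (XT.nd (nat_lit 38298) (nat_lit 0) (nat_lit 152) xc214 xc215))) (XT.nd (nat_lit 85488) (nat_lit 0) (nat_lit 456) (XT.nd (nat_lit 42666) (nat_lit 0) (nat_lit 152) (XT.nd (nat_lit 4134) (nat_lit 608) (nat_lit 0) xc216 xc217) (XT.nd (nat_lit 38610) (nat_lit 0) (nat_lit 684) xc218 xc219)) (XT.nd (nat_lit 77610) (nat_lit 0) (nat_lit 0) (XT.nd (nat_lit 38766) (nat_lit 0) (nat_lit 0) xc220 xc221) (XT.nd (nat_lit 38922) (nat_lit 0) (nat_lit 2508) xc222 xc223))))) (XT.nd (nat_lit 528138) (nat_lit 0) (nat_lit 1824) (XT.nd (nat_lit 244140) (nat_lit 0) (nat_lit 684) (XT.nd (nat_lit 121602) (nat_lit 0) (nat_lit 456) (XT.nd (nat_lit 78234) (nat_lit 0) (nat_lit 228) (XT.nd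 (nat_lit 39078) (nat_lit 0) (nat_lit 228) xc224 xc225) (XT.nd (nat_lit 4134) (nat_lit 456) (nat_lit 0) xc226 xc227)) (XT.nd (nat_lit 78780) (nat_lit 0) (nat_lit 228) (XT.nd (nat_lit 39312) (nat_lit 0) (nat_lit 0) xc228 xc229) (XT.nd (nat_lit 4134) (nat_lit 0) (nat_lit 0) xc230 xc231))) (XT.nd (nat_lit 159276) (nat_lit 0) (nat_lit 760) (XT.nd (nat_lit 79404) (nat_lit 0) (nat_lit 532) (XT.nd (nat_lit 39624) (nat_lit 0) (nat_lit 304) xc232 xc233) (XT.nd (nat_lit 39858) (nat_lit 0) (nat_lit 0) xc234 xc235)) (XT.nd (nat_lit 44226) (nat_lit 0) (nat_lit 0) (XT.nd (nat_lit 4134) (nat_lit 0) (nat_lit 0) xc236 xc237) (XT.nd (nat_lit 40170) (nat_lit 0) (nat_lit 380) xc238 xc239)))) (XT.nd (nat_lit 364494) (nat_lit 0) (nat_lit 2660) (XT.nd (nat_lit 162318) (nat_lit 0) (nat_lit 1216) (XT.nd (nat_lit 80808) (nat_lit 0) (nat_lit 532) (XT.nd (nat_lit 40326) (nat_lit 0) (nat_lit 228) xc240 xc241) (XT.nd (nat_lit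 40638) (nat_lit 0) (nat_lit 380) xc242 xc243)) (XT.nd (nat_lit 82056) (nat_lit 0) (nat_lit 684) (XT.nd (nat_lit 40950) (nat_lit 0) (nat_lit 304) xc244 xc245) (XT.nd (nat_lit 78546) (nat_lit 0) (nat_lit 380) xc246 xc247))) (XT.nd (nat_lit 244062) (nat_lit 0) (nat_lit 2736) (XT.nd (nat_lit 121290) (nat_lit 0) (nat_lit 1216) (XT.nd (nat_lit 41652) (nat_lit 0) (nat_lit 380) xc248 xc249) (XT.nd (nat_lit 42120) (nat_lit 0) (nat_lit 456) xc250 xc251)) (XT.nd (nat_lit 163020) (nat_lit 0) (nat_lit 2128) (XT.nd (nat_lit 81198) (nat_lit 0) (nat_lit 988) xc252 xc253) (XT.nd (nat_lit 121836) (nat_lit 0) (nat_lit 1292) xc254 xc255)))))))) XT.nil))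

set_option maxRecDepth 10000000 in
noncomputable def Te : XT := XT.nil

set_option maxRecDepth 10000000 in
noncomputable def Tz : ZL := (ZL.cons (nat_lit 76) (nat_lit 3) (nat_lit 100476081042185332159) (ZL.cons (nat_lit 152) (nat_lit 6) (nat_lit 198259379472381623032) (ZL.cons (nat_lit 228) (nat_lit 6) (nat_lit 195654329804774923902) (ZL.cons (nat_lit 304) (nat_lit 3) (nat_lit 97785658394322926633) (ZL.cons (nat_lit 380) (nat_lit 6) (nat_lit 192971128647140023798) (ZL.cons (nat_lit 456) (nat_lit 6) (nat_lit 190456543038808449926) (ZL.cons (nat_lit 532) (nat_lit 3) (nat_lit 95187973938759045042) (ZL.cons (nat_lit 608) (nat_lit 6) (nat_lit 187866519862226928838) (ZL.cons (nat_lit 684) (nat_lit 6) (nat_lit 185440651897175508952) (ZL.cons (nat_lit 760) (nat_lit 3) (nat_lit 92681202083883696299) (ZL.cons (nat_lit 836) (nat_lit 6) (nat_lit 182942007893172546468) (ZL.cons (nat_lit 912) (nat_lit 6) (nat_lit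 180603216129076239606) (ZL.cons (nat_lit 988) (nat_lit 3) (nat_lit 90263623729873985653) (ZL.cons (nat_lit 1064) (nat_lit 6) (nat_lit 178194260612057043540) (ZL.cons (nat_lit 1140) (nat_lit 6) (nat_lit 175941008817902751688) (ZL.cons (nat_lit 1216) (nat_lit 3) (nat_lit 87933626414131828123) (ZL.cons (nat_lit 1292) (nat_lit 6) (nat_lit 173765523216494087140) (ZL.cons (nat_lit 1368) (nat_lit 6) (nat_lit 173620159469923831076) (ZL.cons (nat_lit 1444) (nat_lit 6) (nat_lit 171451017057404067214) (ZL.cons (nat_lit 1520) (nat_lit 3) (nat_lit 85689704650236453296) (ZL.cons (nat_lit 1596) (nat_lit 6) (nat_lit 169357930223547793990) (ZL.cons (nat_lit 1672) (nat_lit 6) (nat_lit 169216800372508710436) (ZL.cons (nat_lit 1748) (nat_lit 6) (nat_lit 167130443027744671946) (ZL.cons (nat_lit 1824) (nat_lit 3) (nat_lit 83530460466818374507) (ZL.cons (nat_lit 1900) (nat_lit 6) (nat_lit 165118514235491191480) (ZL.cons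 (nat_lit 1976) (nat_lit 6) (nat_lit 164981494962637712304) (ZL.cons (nat_lit 2052) (nat_lit 6) (nat_lit 162976705485362183670) (ZL.cons (nat_lit 2128) (nat_lit 3) (nat_lit 81454604153308313713) (ZL.cons (nat_lit 2204) (nat_lit 6) (nat_lit 161044800744014485468) (ZL.cons (nat_lit 2280) (nat_lit 6) (nat_lit 160911772323768389178) (ZL.cons (nat_lit 2356) (nat_lit 6) (nat_lit 159184092666490527478) (ZL.cons (nat_lit 2432) (nat_lit 6) (nat_lit 158987441681680800076) (ZL.cons (nat_lit 2508) (nat_lit 3) (nat_lit 79460955220090130015) (ZL.cons (nat_lit 2584) (nat_lit 6) (nat_lit 157134534926394754456) (ZL.cons (nat_lit 2660) (nat_lit 6) (nat_lit 157005381120330583298) (ZL.cons (nat_lit 2736) (nat_lit 6) (nat_lit 155351433013172623734) (ZL.cons (nat_lit 2812) (nat_lit 6) (nat_lit 155160509726949587420) (ZL.cons (nat_lit 2888) (nat_lit 3) (nat_lit 77548443581192978154) (ZL.cons (nat_lit 2964) (nat_lit 6)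 (nat_lit 153385684236489657934) (ZL.cons (nat_lit 3040) (nat_lit 6) (nat_lit 153260292191767161666) (ZL.cons (nat_lit 3116) (nat_lit 6) (nat_lit 151679353830561072568) (ZL.cons (nat_lit 3192) (nat_lit 6) (nat_lit 151493991416752299450) (ZL.cons (nat_lit 3268) (nat_lit 3) (nat_lit 75716110968296717147) (ZL.cons (nat_lit 3344) (nat_lit 6) (nat_lit 150040027540847971398) (ZL.cons (nat_lit 3420) (nat_lit 6) (nat_lit 149796441467732133376) (ZL.cons (nat_lit 3496) (nat_lit 6) (nat_lit 149674701618486991370) (ZL.cons (nat_lit 3572) (nat_lit 6) (nat_lit 148166159048634704074) (ZL.cons (nat_lit 3648) (nat_lit 6) (nat_lit 147986195540082497164) (ZL.cons (nat_lit 3724) (nat_lit 3) (nat_lit 73963112585498110157) (ZL.cons (nat_lit 3800) (nat_lit 6) (nat_lit 146601719640841382722) (ZL.cons (nat_lit 3876) (nat_lit 6) (nat_lit 146365228307719209886) (ZL.cons (nat_lit 3952) (nat_lit 6) (nat_lit 146247034279325868132)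 (ZL.cons (nat_lit 4028) (nat_lit 6) (nat_lit 144810383542262054820) (ZL.cons (nat_lit 4104) (nat_lit 6) (nat_lit 144635661689298747140) (ZL.cons (nat_lit 4180) (nat_lit 3) (nat_lit 72288719014995841118) (ZL.cons (nat_lit 4256) (nat_lit 6) (nat_lit 143320302641488787850) (ZL.cons (nat_lit 4332) (nat_lit 6) (nat_lit 143090699405447843348) (ZL.cons (nat_lit 4408) (nat_lit 6) (nat_lit 142975947921570812518) (ZL.cons (nat_lit 4484) (nat_lit 6) (nat_lit 141893683592961840102) (ZL.cons (nat_lit 4560) (nat_lit 6) (nat_lit 141610797460729015190) (ZL.cons (nat_lit 4636) (nat_lit 6) (nat_lit 141441164593774347538) (ZL.cons (nat_lit 4712) (nat_lit 3) (nat_lit 70692318384602190806) (ZL.cons (nat_lit 4788) (nat_lit 6) (nat_lit 140194662736938139420) (ZL.cons (nat_lit 4864) (nat_lit 6) (nat_lit 139971746973791591358) (ZL.cons (nat_lit 4940) (nat_lit 6) (nat_lit 139860337766143988610) (ZL.cons (nat_lit 5016)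 (nat_lit 6) (nat_lit 138841057834802000704) (ZL.cons (nat_lit 5092) (nat_lit 6) (nat_lit 138566411104478869722) (ZL.cons (nat_lit 5168) (nat_lit 6) (nat_lit 138401719000639386564) (ZL.cons (nat_lit 5244) (nat_lit 3) (nat_lit 69173418808780874871) (ZL.cons (nat_lit 5320) (nat_lit 6) (nat_lit 137548799992755625720) (ZL.cons (nat_lit 5396) (nat_lit 6) (nat_lit 137223929022455229766) (ZL.cons (nat_lit 5472) (nat_lit 6) (nat_lit 137007505951439163688) (ZL.cons (nat_lit 5548) (nat_lit 6) (nat_lit 136899341672169646456) (ZL.cons (nat_lit 5624) (nat_lit 6) (nat_lit 135943127685124728506) (ZL.cons (nat_lit 5700) (nat_lit 6) (nat_lit 135676480374131397456) (ZL.cons (nat_lit 5776) (nat_lit 6) (nat_lit 135516585127685297304) (ZL.cons (nat_lit 5852) (nat_lit 3) (nat_lit 67731651115746708447) (ZL.cons (nat_lit 5928) (nat_lit 6) (nat_lit 134722887945687756764) (ZL.cons (nat_lit 6004) (nat_lit 6) (nat_lit 134407479236658246130)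 (ZL.cons (nat_lit 6080) (nat_lit 6) (nat_lit 134197359750234881006) (ZL.cons (nat_lit 6156) (nat_lit 6) (nat_lit 134092345886866417676) (ZL.cons (nat_lit 6232) (nat_lit 6) (nat_lit 133562143575245777382) (ZL.cons (nat_lit 6308) (nat_lit 6) (nat_lit 133199393703074344820) (ZL.cons (nat_lit 6384) (nat_lit 6) (nat_lit 132940512818614800112) (ZL.cons (nat_lit 6460) (nat_lit 6) (nat_lit 132785274715269071810) (ZL.cons (nat_lit 6536) (nat_lit 3) (nat_lit 66366771874046244445) (ZL.cons (nat_lit 6612) (nat_lit 6) (nat_lit 132051168164661027984) (ZL.cons (nat_lit 6688) (nat_lit 6) (nat_lit 131744946117059561348) (ZL.cons (nat_lit 6764) (nat_lit 6) (nat_lit 131540946615677653462) (ZL.cons (nat_lit 6840) (nat_lit 6) (nat_lit 131438991408523805570) (ZL.cons (nat_lit 6916) (nat_lit 6) (nat_lit 130961799317549779132) (ZL.cons (nat_lit 6992) (nat_lit 6) (nat_lit 130609614975635766934) (ZL.cons (nat_lit 7068)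 (nat_lit 6) (nat_lit 130358274311111937120) (ZL.cons (nat_lit 7144) (nat_lit 6) (nat_lit 130207557705921909644) (ZL.cons (nat_lit 7220) (nat_lit 3) (nat_lit 65078666732972322336) (ZL.cons (nat_lit 7296) (nat_lit 6) (nat_lit 129930335286048947652) (ZL.cons (nat_lit 7372) (nat_lit 6) (nat_lit 129533527357423726176) (ZL.cons (nat_lit 7448) (nat_lit 6) (nat_lit 129236224398587350800) (ZL.cons (nat_lit 7524) (nat_lit 6) (nat_lit 129038166630255401396) (ZL.cons (nat_lit 7600) (nat_lit 6) (nat_lit 128939180992241956840) (ZL.cons (nat_lit 7676) (nat_lit 6) (nat_lit 128515742991689079034) (ZL.cons (nat_lit 7752) (nat_lit 6) (nat_lit 128173816446141494380) (ZL.cons (nat_lit 7828) (nat_lit 6) (nat_lit 127929796383496999414) (ZL.cons (nat_lit 7904) (nat_lit 6) (nat_lit 127783469582341632930) (ZL.cons (nat_lit 7980) (nat_lit 3) (nat_lit 63867354092152726673) (ZL.cons (nat_lit 8056) (nat_lit 6) (nat_lit 127555372552287008832)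 (ZL.cons (nat_lit 8132) (nat_lit 6) (nat_lit 127170122136146017106) (ZL.cons (nat_lit 8208) (nat_lit 6) (nat_lit 126881478486790312862) (ZL.cons (nat_lit 8284) (nat_lit 6) (nat_lit 126689189391322400816) (ZL.cons (nat_lit 8360) (nat_lit 6) (nat_lit 126593086830144299304) (ZL.cons (nat_lit 8436) (nat_lit 6) (nat_lit 126651576880581144824) (ZL.cons (nat_lit 8512) (nat_lit 6) (nat_lit 126224264454155291866) (ZL.cons (nat_lit 8588) (nat_lit 6) (nat_lit 125892296934206180550) (ZL.cons (nat_lit 8664) (nat_lit 6) (nat_lit 125655384252027059226) (ZL.cons (nat_lit 8740) (nat_lit 6) (nat_lit 125513319396536412152) (ZL.cons (nat_lit 8816) (nat_lit 3) (nat_lit 62732989116697245112) (ZL.cons (nat_lit 8892) (nat_lit 6) (nat_lit 125335416922583113172) (ZL.cons (nat_lit 8968) (nat_lit 6) (nat_lit 124961387392349140624) (ZL.cons (nat_lit 9044) (nat_lit 6) (nat_lit 124681150839576612228) (ZL.cons (nat_lit 9120)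 (nat_lit 6) (nat_lit 124494462397374755876) (ZL.cons (nat_lit 9196) (nat_lit 6) (nat_lit 124401158939920288386) (ZL.cons (nat_lit 9272) (nat_lit 6) (nat_lit 124502802878537816010) (ZL.cons (nat_lit 9348) (nat_lit 6) (nat_lit 124087936445114657800) (ZL.cons (nat_lit 9424) (nat_lit 6) (nat_lit 123765637882057268172) (ZL.cons (nat_lit 9500) (nat_lit 6) (nat_lit 123535625569262004748) (ZL.cons (nat_lit 9576) (nat_lit 6) (nat_lit 123397698525096327980) (ZL.cons (nat_lit 9652) (nat_lit 3) (nat_lit 61675868115391891209) (ZL.cons (nat_lit 9728) (nat_lit 6) (nat_lit 123725694795184797698) (ZL.cons (nat_lit 9804) (nat_lit 6) (nat_lit 123271180882937187386) (ZL.cons (nat_lit 9880) (nat_lit 6) (nat_lit 122908045416690612096) (ZL.cons (nat_lit 9956) (nat_lit 6) (nat_lit 122635971093610487440) (ZL.cons (nat_lit 10032) (nat_lit 6) (nat_lit 122454720178851403600) (ZL.cons (nat_lit 10108) (nat_lit 6) (nat_lit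 122364134297827648760) (ZL.cons (nat_lit 10184) (nat_lit 6) (nat_lit 123003413646043458508) (ZL.cons (nat_lit 10260) (nat_lit 6) (nat_lit 122510407035908030626) (ZL.cons (nat_lit 10336) (nat_lit 6) (nat_lit 122107624090837003234) (ZL.cons (nat_lit 10412) (nat_lit 6) (nat_lit 121794712864567692916) (ZL.cons (nat_lit 10488) (nat_lit 6) (nat_lit 121571399939523747844) (ZL.cons (nat_lit 10564) (nat_lit 6) (nat_lit 121437490187906585932) (ZL.cons (nat_lit 10640) (nat_lit 3) (nat_lit 60696433300597688327) (ZL.cons (nat_lit 10716) (nat_lit 6) (nat_lit 122335328311663092414) (ZL.cons (nat_lit 10792) (nat_lit 6) (nat_lit 121804950150180268830) (ZL.cons (nat_lit 10868) (nat_lit 6) (nat_lit 121363674507221423868) (ZL.cons (nat_lit 10944) (nat_lit 6) (nat_lit 121011115802127661448) (ZL.cons (nat_lit 11020) (nat_lit 6) (nat_lit 120746965973894530714) (ZL.cons (nat_lit 11096) (nat_lit 6) (nat_lit 120570994211992507570)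 (ZL.cons (nat_lit 11172) (nat_lit 6) (nat_lit 120483046754687891220) (ZL.cons (nat_lit 11248) (nat_lit 6) (nat_lit 121154193807115887458) (ZL.cons (nat_lit 11324) (nat_lit 6) (nat_lit 120675546612809646794) (ZL.cons (nat_lit 11400) (nat_lit 6) (nat_lit 120284495209828066804) (ZL.cons (nat_lit 11476) (nat_lit 6) (nat_lit 119980697902770483968) (ZL.cons (nat_lit 11552) (nat_lit 6) (nat_lit 119763889237679275162) (ZL.cons (nat_lit 11628) (nat_lit 6) (nat_lit 119633879770089797580) (ZL.cons (nat_lit 11704) (nat_lit 3) (nat_lit 59795277949748195254) (ZL.cons (nat_lit 11780) (nat_lit 6) (nat_lit 120557569384667548696) (ZL.cons (nat_lit 11856) (nat_lit 6) (nat_lit 120042639130800729680) (ZL.cons (nat_lit 11932) (nat_lit 6) (nat_lit 119614216176471753988) (ZL.cons (nat_lit 12008) (nat_lit 6) (nat_lit 119271926171526353582) (ZL.cons (nat_lit 12084) (nat_lit 6) (nat_lit 119015470027610692674) (ZL.cons (nat_lit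 12160) (nat_lit 6) (nat_lit 118844623656832029430) (ZL.cons (nat_lit 12236) (nat_lit 6) (nat_lit 118759237775953761126) (ZL.cons (nat_lit 12312) (nat_lit 6) (nat_lit 120014555560524375358) (ZL.cons (nat_lit 12388) (nat_lit 6) (nat_lit 119464399035239519108) (ZL.cons (nat_lit 12464) (nat_lit 6) (nat_lit 118999693021349965064) (ZL.cons (nat_lit 12540) (nat_lit 6) (nat_lit 118620031465057168956) (ZL.cons (nat_lit 12616) (nat_lit 6) (nat_lit 118325082623253690478) (ZL.cons (nat_lit 12692) (nat_lit 6) (nat_lit 118114588773650575132) (ZL.cons (nat_lit 12768) (nat_lit 6) (nat_lit 117988365989583121166) (ZL.cons (nat_lit 12844) (nat_lit 3) (nat_lit 58973151989649129967) (ZL.cons (nat_lit 12920) (nat_lit 6) (nat_lit 119524677856587601560) (ZL.cons (nat_lit 12996) (nat_lit 6) (nat_lit 118940321067790087802) (ZL.cons (nat_lit 13072) (nat_lit 6) (nat_lit 118440388782482496524) (ZL.cons (nat_lit 13148) (nat_lit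 6) (nat_lit 118024444166629122064) (ZL.cons (nat_lit 13224) (nat_lit 6) (nat_lit 117692123773478247884) (ZL.cons (nat_lit 13300) (nat_lit 6) (nat_lit 117443137225987314968) (ZL.cons (nat_lit 13376) (nat_lit 6) (nat_lit 117277266963095408900) (ZL.cons (nat_lit 13452) (nat_lit 6) (nat_lit 117194368049621362006) (ZL.cons (nat_lit 13528) (nat_lit 6) (nat_lit 119087508224378059252) (ZL.cons (nat_lit 13604) (nat_lit 6) (nat_lit 118469947296247868300) (ZL.cons (nat_lit 13680) (nat_lit 6) (nat_lit 117935814747427619514) (ZL.cons (nat_lit 13756) (nat_lit 6) (nat_lit 117484643860156207820) (ZL.cons (nat_lit 13832) (nat_lit 6) (nat_lit 117116040407444755288) (ZL.cons (nat_lit 13908) (nat_lit 6) (nat_lit 116829682308606426670) (ZL.cons (nat_lit 13984) (nat_lit 6) (nat_lit 116625319347826703032) (ZL.cons (nat_lit 14060) (nat_lit 6) (nat_lit 116502772955528204036) (ZL.cons (nat_lit 14136) (nat_lit 3) (nat_lit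 58230968026169509187) (ZL.cons (nat_lit 14212) (nat_lit 6) (nat_lit 116600694684562950272) (ZL.cons (nat_lit 14288) (nat_lit 6) (nat_lit 116652354546737245160) (ZL.cons (nat_lit 14364) (nat_lit 6) (nat_lit 116755719410771229948) (ZL.cons (nat_lit 14440) (nat_lit 6) (nat_lit 116910879595478138218) (ZL.cons (nat_lit 14516) (nat_lit 6) (nat_lit 117117970677718393482) (ZL.cons (nat_lit 14592) (nat_lit 6) (nat_lit 117377173610864827030) (ZL.cons (nat_lit 14668) (nat_lit 6) (nat_lit 117688714882917275552) (ZL.cons (nat_lit 14744) (nat_lit 6) (nat_lit 118052866714404716914) (ZL.cons (nat_lit 14820) (nat_lit 6) (nat_lit 117485530026251790934) (ZL.cons (nat_lit 14896) (nat_lit 6) (nat_lit 117000158875467721732) (ZL.cons (nat_lit 14972) (nat_lit 6) (nat_lit 116596329151338231966) (ZL.cons (nat_lit 15048) (nat_lit 6) (nat_lit 116273687992939324996) (ZL.cons (nat_lit 15124) (nat_lit 6) (nat_lit 116031953480812205656)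 (ZL.cons (nat_lit 15200) (nat_lit 6) (nat_lit 115870914390625889090) (ZL.cons (nat_lit 15276) (nat_lit 6) (nat_lit 115790430008612251326) (ZL.cons (nat_lit 15352) (nat_lit 3) (nat_lit 57900137579438091228) (ZL.cons (nat_lit 15428) (nat_lit 6) (nat_lit 115826486813082844396) (ZL.cons (nat_lit 15504) (nat_lit 6) (nat_lit 115905144679090001078) (ZL.cons (nat_lit 15580) (nat_lit 6) (nat_lit 116036317487071833516) (ZL.cons (nat_lit 15656) (nat_lit 6) (nat_lit 116220119854045024868) (ZL.cons (nat_lit 15732) (nat_lit 6) (nat_lit 116456712384019551702) (ZL.cons (nat_lit 15808) (nat_lit 6) (nat_lit 116746301808332284968) (ZL.cons (nat_lit 15884) (nat_lit 6) (nat_lit 117089141166286022202) (ZL.cons (nat_lit 15960) (nat_lit 6) (nat_lit 116570565876169275806) (ZL.cons (nat_lit 16036) (nat_lit 6) (nat_lit 116132535888527128532) (ZL.cons (nat_lit 16112) (nat_lit 6) (nat_lit 115774668458710184328) (ZL.cons (nat_lit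 16188) (nat_lit 6) (nat_lit 115496650887022486636) (ZL.cons (nat_lit 16264) (nat_lit 6) (nat_lit 115298240245488774368) (ZL.cons (nat_lit 16340) (nat_lit 6) (nat_lit 115179263165587319034) (ZL.cons (nat_lit 16416) (nat_lit 3) (nat_lit 57569807843381433466) (ZL.cons (nat_lit 16492) (nat_lit 6) (nat_lit 115074828685432256164) (ZL.cons (nat_lit 16568) (nat_lit 6) (nat_lit 115128038343471779898) (ZL.cons (nat_lit 16644) (nat_lit 6) (nat_lit 115234504153426784230) (ZL.cons (nat_lit 16720) (nat_lit 6) (nat_lit 115394319143674899750) (ZL.cons (nat_lit 16796) (nat_lit 6) (nat_lit 115607622958382362672) (ZL.cons (nat_lit 16872) (nat_lit 6) (nat_lit 115874601979523189224) (ZL.cons (nat_lit 16948) (nat_lit 6) (nat_lit 116195489489737211202) (ZL.cons (nat_lit 17024) (nat_lit 6) (nat_lit 115724255362762386734) (ZL.cons (nat_lit 17100) (nat_lit 6) (nat_lit 115332187669432785022) (ZL.cons (nat_lit 17176) (nat_lit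 6) (nat_lit 115018943826327050096) (ZL.cons (nat_lit 17252) (nat_lit 6) (nat_lit 114784250125232759476) (ZL.cons (nat_lit 17328) (nat_lit 6) (nat_lit 114627901493983908440) (ZL.cons (nat_lit 17404) (nat_lit 6) (nat_lit 114549761317271638768) (ZL.cons (nat_lit 17480) (nat_lit 3) (nat_lit 57198361687565125900) (ZL.cons (nat_lit 17556) (nat_lit 6) (nat_lit 114423721378963113594) (ZL.cons (nat_lit 17632) (nat_lit 6) (nat_lit 114504738980950484978) (ZL.cons (nat_lit 17708) (nat_lit 6) (nat_lit 114639846973171772392) (ZL.cons (nat_lit 17784) (nat_lit 6) (nat_lit 114829163411154159482) (ZL.cons (nat_lit 17860) (nat_lit 6) (nat_lit 115072853717027922122) (ZL.cons (nat_lit 17936) (nat_lit 6) (nat_lit 115371130824070037386) (ZL.cons (nat_lit 18012) (nat_lit 6) (nat_lit 114945858991407758480) (ZL.cons (nat_lit 18088) (nat_lit 6) (nat_lit 114598414884789366046) (ZL.cons (nat_lit 18164) (nat_lit 6) (nat_lit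 114328494912277038192) (ZL.cons (nat_lit 18240) (nat_lit 6) (nat_lit 114135863221467608804) (ZL.cons (nat_lit 18316) (nat_lit 6) (nat_lit 114020351493407943430) (ZL.cons (nat_lit 18392) (nat_lit 3) (nat_lit 56990929397760062930) (ZL.cons (nat_lit 18468) (nat_lit 6) (nat_lit 113791578362973654792) (ZL.cons (nat_lit 18544) (nat_lit 6) (nat_lit 113846384310754364236) (ZL.cons (nat_lit 18620) (nat_lit 6) (nat_lit 113956044095008018702) (ZL.cons (nat_lit 18696) (nat_lit 6) (nat_lit 114120653534963577686) (ZL.cons (nat_lit 18772) (nat_lit 6) (nat_lit 114340356464112264494) (ZL.cons (nat_lit 18848) (nat_lit 6) (nat_lit 114615344855887315846) (ZL.cons (nat_lit 18924) (nat_lit 6) (nat_lit 114234696609936246218) (ZL.cons (nat_lit 19000) (nat_lit 6) (nat_lit 113930576373911260856) (ZL.cons (nat_lit 19076) (nat_lit 6) (nat_lit 113702718411683794234) (ZL.cons (nat_lit 19152) (nat_lit 6) (nat_lit 113550923624063550508)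 (ZL.cons (nat_lit 19228) (nat_lit 6) (nat_lit 113475059374828337236) (ZL.cons (nat_lit 19304) (nat_lit 3) (nat_lit 56615528468764133531) (ZL.cons (nat_lit 19380) (nat_lit 6) (nat_lit 113258864881476114712) (ZL.cons (nat_lit 19456) (nat_lit 6) (nat_lit 113342313011523107238) (ZL.cons (nat_lit 19532) (nat_lit 6) (nat_lit 113481474243511033274) (ZL.cons (nat_lit 19608) (nat_lit 6) (nat_lit 113676470174632891976) (ZL.cons (nat_lit 19684) (nat_lit 6) (nat_lit 113927471189682867496) (ZL.cons (nat_lit 19760) (nat_lit 6) (nat_lit 113590146814325204940) (ZL.cons (nat_lit 19836) (nat_lit 6) (nat_lit 113328088588585080810) (ZL.cons (nat_lit 19912) (nat_lit 6) (nat_lit 113141067529546799850) (ZL.cons (nat_lit 19988) (nat_lit 6) (nat_lit 113028920220751008226) (ZL.cons (nat_lit 20064) (nat_lit 3) (nat_lit 56495774334701806262) (ZL.cons (nat_lit 20140) (nat_lit 6) (nat_lit 112741667326624134054) (ZL.cons (nat_lit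 20216) (nat_lit 6) (nat_lit 112798117452838264786) (ZL.cons (nat_lit 20292) (nat_lit 6) (nat_lit 112911067030619528882) (ZL.cons (nat_lit 20368) (nat_lit 6) (nat_lit 113080614753773754636) (ZL.cons (nat_lit 20444) (nat_lit 6) (nat_lit 113306908770796902050) (ZL.cons (nat_lit 20520) (nat_lit 6) (nat_lit 113011646405724100726) (ZL.cons (nat_lit 20596) (nat_lit 6) (nat_lit 112790425083173162258) (ZL.cons (nat_lit 20672) (nat_lit 6) (nat_lit 112643051502959333400) (ZL.cons (nat_lit 20748) (nat_lit 6) (nat_lit 112569396892051359346) (ZL.cons (nat_lit 20824) (nat_lit 3) (nat_lit 56147169863002431139) (ZL.cons (nat_lit 20900) (nat_lit 6) (nat_lit 112322981908271145360) (ZL.cons (nat_lit 20976) (nat_lit 6) (nat_lit 112408933482219547662) (ZL.cons (nat_lit 21052) (nat_lit 6) (nat_lit 112552269551167111476) (ZL.cons (nat_lit 21128) (nat_lit 6) (nat_lit 112753115360222625942) (ZL.cons (nat_lit 21204) (nat_lit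 6) (nat_lit 112498689898339010280) (ZL.cons (nat_lit 21280) (nat_lit 6) (nat_lit 112317116054612523914) (ZL.cons (nat_lit 21356) (nat_lit 6) (nat_lit 112208235172286512626) (ZL.cons (nat_lit 21432) (nat_lit 3) (nat_lit 56085976056362967137) (ZL.cons (nat_lit 21508) (nat_lit 6) (nat_lit 111916491210841059246) (ZL.cons (nat_lit 21584) (nat_lit 6) (nat_lit 111974634840841613898) (ZL.cons (nat_lit 21660) (nat_lit 6) (nat_lit 112090972905956315918) (ZL.cons (nat_lit 21736) (nat_lit 6) (nat_lit 112265607060805168444) (ZL.cons (nat_lit 21812) (nat_lit 6) (nat_lit 112050829077746004884) (ZL.cons (nat_lit 21888) (nat_lit 6) (nat_lit 111907747931907336088) (ZL.cons (nat_lit 21964) (nat_lit 6) (nat_lit 111836238600928720502) (ZL.cons (nat_lit 22040) (nat_lit 3) (nat_lit 55789145087250854158) (ZL.cons (nat_lit 22116) (nat_lit 6) (nat_lit 111607791622235979886) (ZL.cons (nat_lit 22192) (nat_lit 6) (nat_lit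 111696321743402834256) (ZL.cons (nat_lit 22268) (nat_lit 6) (nat_lit 111843957894418824988) (ZL.cons (nat_lit 22344) (nat_lit 6) (nat_lit 111667672609247478998) (ZL.cons (nat_lit 22420) (nat_lit 6) (nat_lit 111561963014756205904) (ZL.cons (nat_lit 22496) (nat_lit 3) (nat_lit 55763368371669084335) (ZL.cons (nat_lit 22572) (nat_lit 6) (nat_lit 111308083283784446526) (ZL.cons (nat_lit 22648) (nat_lit 6) (nat_lit 111367971222685017814) (ZL.cons (nat_lit 22724) (nat_lit 6) (nat_lit 111487799429753160896) (ZL.cons (nat_lit 22800) (nat_lit 6) (nat_lit 111348885695929210608) (ZL.cons (nat_lit 22876) (nat_lit 6) (nat_lit 111279459160998515866) (ZL.cons (nat_lit 22952) (nat_lit 3) (nat_lit 55537623972207290219) (ZL.cons (nat_lit 23028) (nat_lit 6) (nat_lit 111105634435580880156) (ZL.cons (nat_lit 23104) (nat_lit 6) (nat_lit 111196820460382740156) (ZL.cons (nat_lit 23180) (nat_lit 6) (nat_lit 111094189786119368220)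 (ZL.cons (nat_lit 23256) (nat_lit 3) (nat_lit 55529994761303355356) (ZL.cons (nat_lit 23332) (nat_lit 6) (nat_lit 110909082155771592420) (ZL.cons (nat_lit 23408) (nat_lit 6) (nat_lit 110970766732839180850) (ZL.cons (nat_lit 23484) (nat_lit 6) (nat_lit 110903362329993846148) (ZL.cons (nat_lit 23560) (nat_lit 3) (nat_lit 55389071319273320818) (ZL.cons (nat_lit 23636) (nat_lit 6) (nat_lit 110809440724447930348) (ZL.cons (nat_lit 23712) (nat_lit 3) (nat_lit 55388118292557626577) (ZL.cons (nat_lit 23788) (nat_lit 6) (nat_lit 110712701470735637072) (ZL.cons (nat_lit 23864) (nat_lit 1) (nat_lit 18446744073709551617) ZL.nil))))))))))))))))))))))))))))))))))))))))))))))))))))))))))))))))))))))))))))))))))))))))))))))))))))))))))))))))))))))))))))))))))))))))))))))))))))))))))))))))))))))))))))))))))))))))))))))))))))))))))))))))))))))))))))))))))))))))))))))))))))))))))))))))))))))))))))))))))))))))))))))))))))))))))))))))))))))))))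

noncomputable def vl : XL := ⟨(nat_lit 0), (nat_lit 76), (nat_lit 298233451), (nat_lit 152), (nat_lit 148572004), (nat_lit 152), (nat_lit 148572004), (nat_lit 1), (nat_lit 4), (nat_lit 2), (nat_lit 5), (nat_lit 2), (nat_lit 4), (nat_lit 0), (nat_lit 0), (nat_lit 0)⟩

noncomputable def cp0 : Nat := (nat_lit 18880316292258645026927048997982780305165700884457981281817664319404775459247034784056650673992212751941456921800475374693966243295053994080492608267175524212262166851311446770819033023189465322749164513860878450364884822318844265348916810005754308351896450851055432980134916504382498735395236663496812313569683704145020513511973892188972054193385617462422226762786249206833943908575488520098802814015403247962111011814927275172757646139405695185161008155740004433136422286297522282774828219016950944871980977491041422917354777466663017422436819744409770453088690811194054070856944410397183364052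897622647478300801067153811687920304983746860073101797819632942102923978421182701141671996539277411717576394431504034942150833832563910976554599412311675048154533173592211025715472353965329572680705615590532142844376515565942725108028396613292957200631143852450676717522805245093470232414693387367502864124676614673864786549904740706557550469318521258718397431067590505613019184647959300229289134110475120053687473227521074986888562798365719986038688234637033715934664546345901989950310184301122373604639461537452350292113806035044963010804458600641157804534264115351318621391602801155971219289603480848450174636312427606865139337913683800010679821167198052791558787233303739537477671684896968176796913172157926099481735857591470091395518996142920971322401303502748017929453091055961257238303286207021374693218787675937387419559094834898909369014329574859578139065863815050316637694371087967541300749562574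797012014774594199374229183593658264902784900129217277853896027135243259411204431643608998288416079174910474448643350098117575108587764186707232717407395479455835537822600754424565258789966819241152746417194243160432317739861119661718364792499015270518154908872032158791069734040970032516702345665784418393507975869260211425852642023092885247419330101851806420621335571588128999087745215469707291650274791459137808808877874037580412881248839927033108650692277735793636229044659439727303653957120108008612320435198303761391987850249069577775390982473681390789603701040726135153090178943873453292709008661132014285886551676204063854368186850145486575605740367714994661849001309594007821173740209922210637883068855989727064398782632636760806685744566118490978316805634175338471850737977126069465486639730753344146563970476882593668778245159570297414815303586239419237118449925389536059473744788665529078591870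417482945569366495252817585585622037159191488052807049050413770334777583102541994836964968707898646673453646915519857448704898270514907814172476171727781865545941907319803904058823669317594364999208912894084094246664509940450480654998365468829229347860088993940954307086315153570937787464418398697242838480850776909984212230256339612253017791453628863564349448282947488738267000534754254363645439186859475068108947639360102384797869459113669693305327522430382287613946230013530966648867039443505162962790047222227458906462073850141605843998563724027371347244086147719332357392918892419420164371062138329803034616340779761594913960712069344482201653371276202205358763561524623666400292439953268537553075401379142392775356009527705717992101800685219820542726035577554173358880330851185444505411934387676236114555199921407814411176945329231494538638382840093912006317458290644630041690137972920996652159607814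485110795567381544504539675769298530039177043649300283828796783605743914231949871350598463490754195521360232965108527159760858476664559503435841631189731506095802418419093695665461010973830289999391524665275575477124415307644267494839858235364231663524484375530130169109004835359972563268846356704999516411621546510406149338811855591591984174787765279905181060196728437438406438203334609278243594121870597019652499524281239929141423065425319930071975929455034467294744881874472451351035908370534791800263970170973019703127404492023580144545205421373637904075051278245863259523803774843841960717122913319811554691864679691784112554558050044603989847418731307799575942020605943028481932686663317647558247850094306567601964661697812518227903420825742894820884994686543622139880551018809255975553500659313257667208705762191321369835979416746027871953237387563034647893121941799249925163597678210260587201733048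204966381621647318553813026033712346852056179263503411369335813909116163323585061357877271312418275822802276756435448424652503844074859211987507190040165707952511984998766580015857982901048641947289724077710713269332813722044521785412206983261853767103756629755850018399341723311970047218015281848906870798756625550188213659225257950433096254022590296955447520728256778359624969785862101058711385605897296295908147558169681248161401428307024464902172393272356805856940985987078076613730743928539971083428802204459315156716925069387894151717407102518728591431148231446919126689080474758148656666980986570898976183502338659950962424401752820142500813953166933410896712024414168621847758445578485954003445234528936114874538323946862590946009642855353444043342352253055112139349722648684915288487752183031084588191746130227931939460665036380057423405584624126473663613694978248796215981696788603878459446244899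579498327073629397468197807006351654862102771078390814975681678007203421880029514850442858116865052992072757501604705509724902325248756536306812802714983727903814999412853885961784305058056839356551116102375604284978308659096945995895841497144657388022887333745196681659354191610645954288716519226601377518490491437233456982601108857274047097797578583258029733232326993316010768372591264292948137367760428680378935686306355024919473586814180879103057498598880305245344807441299220117254408617283133745265342665041016836748649743593877128021323524328684064144041792734176682010001009312183370627288481093645010594318839674936608497501831925096811412971030942880162165765752227532274852512052616977962113419172507321613017389692065098781594762570974324829612485371258853531724141116708774163318568197053517796813375505477782021295457663298416500525683408385893069878908541160774470270619284503319277631759332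0371753876560237258528845188668245283865841799896665501371271588567194560889559643900411537847501496676099564546379348041819198522326270469249998168902890445661586415325745060235243915043942904121832094593029165722866082690503538259435365056737854098983294091102938164008995765687865252835932667191441686553275576326649872388446533695423763614091178967216360700688091949219781530448154510783513342506057156275563561079880019318861641381527388475129743659246489237787149523398522707507008581863527732996088157115622299057431164921176465834103846073716623648149787993735495928122505731703362162839680895124760817614821964379865076722454691755889960657560819445250963120320480962556235962145650637918999507356246556675115593830018188717959708032594265881836449195379322533319106838963571010535363884790398320854042673960061309144217491685755215697209744761593620927455082808042741532589150101364211775550153916027247593564774226923912020414763945399879987469807103800406723849235040608113638067753818626138267023883028806741601100481721297541690345734895945724420723205230284226309478966412062339450619579534695709310061999044316323526614622476702697693302427978520265228288)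

noncomputable def cp1 : Nat := (nat_lit 243394026538907992555860528009725157255674672180108711559420487093592954909481060152442448354987498416868339257327778123115455728285350906245969748501982961906491535130605823728201283520439693165818324194900363368368970227041721431933638041737620932575990760946346090666378645302848940673486882855309095211080427380026623645732799420124647488011715917922813537725763098298567106734252344014813140357412007095053295303670510830529690775551144390361236933459439611892590075319606351059774492189030263820528522399006930851983268039058229452884757410166025416991638063207730883405908917443102325650756092406543658064832209733429155471928242085584003574369022526018556207876944708121266818742512671463165590593674611297570511013197691327027076367183089348867607248162721528238796812325667702322647686241880844037789607124398110787072366541739813090226453972219776774473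983017465140700588573329154595401255923541662739511039898528066801592314332541149398336617232459565181801280133840040050364144931077766712313116900013070188689769764685549115545899599058818806956907298702623186078686884603040643318422221107099324757830929621793156052518870039421982242648615326103500097426170984321989330166404565083663519022587346027171380608823340166018882206970735127977353415984578357350851259777639593536396462213477067897194603660185404321426106095983788645977803553056596783649308177854614360328235407726879948513046914652750308567205988544044345253218543051699559188113690250400121200007231539678034515912157554449968656713677440157480120681396678586658823738041377020658337197381594796703093790439361282369931626485150564054346333780375223429139726296282641108053347644096754221360267566517794732776753665962893842034756641461510763941587876452350664913509119035685609354196594985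256723384073214844256139397491295636269597765497127794341610826170215167949124956556887352891667854380627622758486491290039630769224577212792802306329341762608542283102804274880725078150246138980487902950559558702753678132352567283480281129033797318823199982802449449083816480812974431583312599818371588782152924779413884706960422891275495964604229803313362906384406321782053491408966962998985541169567080986826601516156118326626957126707267717376214727340876983193114008188051037109083807238491486936556589671260235518680445155448007729606885366210007537911274720228848035789497650821490988778098346690888289021046459911781182169927919619558098320203591690074376069089037765976613793735756421353554140486610222376590281610361725995675517729827021282584210142917814960424248833776037722211569609169176041237343479799694971348687114435009603336970967406184198620998350151948913389944603874973544858933842120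018408360346928590004576053286426802024783973648980037361849557184753531799927561836518740987593562890916810591321078641048302519749469014154341725826835946491832388565606777528871636689668723639373055699364891040220367961291834818557093873112396486794777384249163507607166393278799769041258037705274926865085414114955493840228465664181013551686493683754540127358658415962275477240741331381020132987282068971832653641653962777923269567832162154621040429305028491582050726640500634869174516533122960414033100894293872912170517786629786433365633982223413085538931045553301220696110196643643599524840017883939696568178928167456088045881012917314133394566712632715455272028908817760904419847175495265247804961634152613024463488776094369024732927442862366185217456470498144173043640782787687088030108475076674876858792338499833595315886051233217308950256353418225391529820488000032862858108760921238754783182597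346285902376805023333935695902525283187354345849807379981687281082567777743709634510380602209901031764274372395493897896987742609414528968948755370144335933761967747784305367006246711850597368463366267088934321613491491599328677738459389586262562985724872575036881766394959608453730053988276593449065610279715756027142843363224784580142999033661656311426572984880660402204606615411114410782615439939299123431841627826924396499338348532427117652202302628108399002386812880448948624558979197241987090309211202498952486956500371291183995145187828711122719136448971750617163618634563125410473767942613375659690182907543940441494928406677435017278906822070355024835449219267986928526187388301506303953359891981517759278134657351792915784718597519359006531314560276813535488389644639434525839266394907061519304728735881055134777874726964764943650144393552686396163458062223851636298588088689266594569020670682125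876272492521145881176296060157204965997832144884058278485077504424820300405949616296172032122470228219755124878696489028199381599542727910135180728955774278863085183544376522258440417945091961041507513946718406068756206341390860835754863074248520004107016152414747053758324525654832863002770949813033567936886831661590075240908561002752705896670829976075772077684315636423706821876421252843266565461102559656519674749525041079291355060459349125860502384938139279818229738691012015765117862072416631589856008315541517284252682846345710764389886439929516513939685540407863883083598566144846662248994403662826839445963089700545769306023822981322777844194320473461647930356306475222573715352652096606398674432056244905966169030240677613776102932347496570149108984032715128040598417343133802575104697550130212934476248284895098917517855042279779300088156301992099266597729503011842474528801203571037653323207060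878103988273446669696564674531944011391082450878461153256198520580989927082522621181481099362419142859961180259989805867575163171961024054091890241686058811841403194555179965364956822168622654584004154945023098506428595830343385619669036099755696462592870780626310527858313797475663836173218290675716468383458314519061487035479927635723480128421109704445180146586658263116383875432250411824282619656005612419229489438775288419462271158284220975616440079323527563783087173544498556172056127480984048090240412834167846615913184510987090634548668765376634196628125487697139120888810188048669583601361637078251768969444313840394188448335852273808825558283423323884503626855417179584026313470566487215519223180577294254764876193442736766673021504530850266890149264963521641605718362325305919926928675105971732709518506652475897821762370395132656552818472666111326870136567250151404278052856354451398101935560824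274198019397763305475343806529456663026235506874486091343875635770092999032439825882254128114328590287610756207367911216734869709534006563734049598753561709011234273817144979361556466265016934858742469111943982103327934566767011511756357716427894816845857311072890126647286028790922735093713103826034141334977375340098299070979415106914667918638227023839833478185652540940807291214625232086195535629954790356329719421892525112745873568792653441280744889818482106500022913247451123462074269094490065994504612810996937547044038948000212756747468551887282356898540734226937140870802872861045928394253867584588043210163211744690963816976161374957993867547591503809959492362801892360973708829437625376811018327209192596188125945904174760910502901818160693135326109725089728261622234758438246678262292273112728950766961602357569390428999085500043081269641150609823452088805192065125315709766620579768473485312)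

noncomputable def rc0 : Nat := (nat_lit 187446357350019571467484288384558842463282467085387531340358890024699061033095352823791982198055852906420534348232981110058573943949457982129835134508221823873192014806420954153605134791960153364192790694775741546304363511584103717436195628763305594390037405845679940070743959536275228505027737576021163138817785966974109789006474449948641676937660995550800440704853905666737040881640851028766772718506418777163561839448119588973753345105030952582122472296986689844135907582388926304149303487580770113397237080197606917400524952439122495334409061974622641318361756195456228661037800569204127555738222970405416034210261499548328491231724583135860809251154219645388644562139791366194231018832328253522695102694939069465644907251640360348182892753444359944926294779712876942600219627006793191825020959201249215319381461377580316759916979043980228241914617786521811064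089009677236150714736019783453084035376881263719678047767782260980292088065555023507577086321069077494110089677297865171241303657378249390842803985439341289052740313182740267188041688861541943601506869333988963768677428436567760756452731556290607435003360429751476886993629464226332448505963064678962708266150347439166964984316907571934450526439566509319265586209775138738432879791603148256316515882904389548857244128950355450105398287212559729753567593465969471018993341338697559125163706484635974572011871726551420935094914441194934605877980328481309774456417363818459039609905985026090639088245687143384893250826831089022148671822010007802201943959712662257504662811057619972547810883503682002662287185255824765911312397319638798001547465160395558397587855249361847462216225331426629929695722791194654398891383917471916606802675360827494441225958786268421998936593199434288980939272036370276385871335560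886549112118219416450907853422753774649150891906489831211280874663488081135491527333486235635984020263160408244219109081990457325544810570523222749879512234319285662876714166462371166256391463745110843766534117022207440927048827553733768911357433011811463434367201851328003353143355736583086431283809787623866170408870203980106034700673490172296168123224981175363451442724472901238448394395252887598801336411972235213728354808504846224059760530042654496550356917490526875291962497849216227264613889231982353974148776711936952385050713745890883538141931459654292037087149506882733670653627035474856745716144585381075602353629944773566623005318618393630179043766637976971783229843549283268163252589536777549249726778126396469626151407762707939632496179720888051330450436582067966711103174113207037426799959735391234320279923399769645801163868300810906684167181069720768676896807898143105631582522947211882191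107556969109691785032780888743493432899225783908619945524738082625481790851058908931992898497347504042801028865408650651085482576791068568196174969475798044513691674396585610035631597660906308289892327598524047439916041586047983104961088749934257168118529945562923939347774332930826248451960277872956644820102046929847045063610889438496676297932147164685029202636444002568187527402636723803328708131442929611792905385285311442082620210610590239907769293054447566162527485552542222792499847278504785042888575557910925069169548442267122137959580981432353789889658571731052379206358924196710921046620334237760862697816160746356927641906856581462104237639714918664980154566886150280211809221927154629145791971279039328584027177137534499901064255576456104523080386716416199536821683015903268203717635526084356510890753318163663962492364675204565015562678017852615015932332980766728609022333802526828268678488812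013849778283337625715698806833024998644331957151582215779695373100876017581265302690266511539793176684093588286465534770812509235725422201581888080390055605595169873505654862684132488830812489215988696169999708940657109166679620518158290305928905403624690448179762958087129378277048680437532954264907949385346913094170592749607546028841932564755937253719323983799587078397957121240323770863102536052111821753902747100582716496623783715077081528803913463610913189260583109239881229709442328991558623489626650565415969431978993365970608746756340560302484444927144018112997766448365251713926746048229700299825375744795147847171230905673253460743404388821166774230810012177423050434353623191332504560351285651316810877433694425136023863990444383437834435976737694792629795416853617602424859465506454524424028861823294788037474577240437386107831921952291419256959813655894952111400371224821960267296940092402148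588388744977530180858141694245595988784020752029575849113694045427708205030980481141129198014668101498255197430379746225204007511136413306594793186104175639419965917899450023913444641404163606108169394169123351992247305876230931326512540645981854086962002820817230785186282415525870197350274610152530625378874123679696230853457345465533943222689163214447931275369007392781744850645747048006565287216474911305889136258198579179758141055708213803251200041210794622911865013195210483470740780772801492516339520291119120251294461113598875684090312660247866156078305418313475384467893231411926811036371057914811635992417483663147671062118231325404901758516983577612214881363465591871791269723693022815582007038058985380136185877432150254716709860192452707182618369819022913649036188955643655599965778704936656781202504464233492931320519495977947624594382543897450857881513539542092513608723089612035172220638796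812399054348519355926874465022251164936127345199851886717448122618782655006360297343572230353371267399329371534970918040425510790145424541703600944053466456287035164277871041545958250331550451509027192664715781333484055616859143676682472937210036017137173443749544971432301305585226569916423588743642827721540128435442377314721598411491172045182995376412656743688117643040357861059959428583086853216791312259553044941422736703895090885582391875520602700477926834104920781213022478675258187198591043081309128023142082769326588830485642370515715911845997697154367404038062246795620607413992990496439557518394413248069194671920109916554935095363617168843543828868173951040687220062239649958153431456292859668171075208526870905621674810293055748506211344348005346418726816615712233970890758185381303387173869363838046902252992660863427068387098193381387742613069060999956379025097311426978455162655006532587137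513981899069889810532169276241598945055252289858799522023816825477773355197509986551981200224817229579017676359689372797147133825020210101437896675892371931102667830917598063504712995421510024660668797240881197454890886639794928375616847991505512694379543332721470512609407802932676107638339811546375608075297294782369900092370049974524606902340248045306974737962299719372732844818138713235256997760581318404333210373235851511553657913352674247283453176286895663195258755635713988040430741589710521888625952987058216854777592825615964390053814046247825495669733832331975695580366290764643198310731874290999387929818556833298810680961599227220383400708808524447445247351542737589266987268367718966384183187816548188491061755659250274002881096980557875062851311785145422287124289231572295158037730459965859842716837004313353534955029461670283642891013085929590822872951649086737538567338259222326612590592)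

noncomputable def rc1 : Nat := (nat_lit 191758568191685841289831432689140651145000781276133113902511176215872856415310592299909701964143598651203334685141237268850294677269888009429242603516094246974540587663454751559081214284063287155633797087481048489032293428747290772479714240546935092383432188780911527007859890031624184137720131897552013891003085102544596360053049880987519732406895583642535320556147033238912957753974537170758269212402559595431959511651307567489143086207894571360745186655323158208089353209834368449477976272496720485011880650001619394132387628242997671412424214349900654817313837474736539832119035103720264426239452109418574033468481433958246837915204045734025874957651844426400454219898814174404770584122974734899634431945042094931465707981298462401091780421965542614342252584479993412984777800312273555284160166987155942176227812338071090827892001717420046918107522865942285755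113239636909675060354265063754763717443739824475144031753843721715937060159652802353275790738744484721733775863664319931623316943306234749337507648572146294139585760430125470153876490484973472392013778862066818213983845040782778946947840547291887204585216249205194374010235416452073006552477096579741067126192223670782536551114112872665267098507287501872945086655268920817573070066309945908423020162906497700927530143384411874971490230137077368010978656512493580633640823196098115018926792024015160242280986827132204924958967743271726050312200996244514793553011846626957007526220626583768212462420964526552403169731330687284939998971050163185482974409645493694426025213406873728967302549773368557613682072382465402159598545846230946259552451984277472596474815086429726211345548361523360483531945175540381707415584759023489569787635584825329712522164323471246511176454606243417428512559644151560653537256859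208744920295090029690318981119189533107766234155668490362473758643795049830023866065851053555603171626302981675765453333121044051656951371485221073408845346363610846061853198498005221082385227797325800446051967681543216370975681539988433820741926469250659578316150698635671666012274533003762026841117413258085434712549640433082159781386312215645630235125081822084501586587265113390632597449023251565628276657648298481316099879405430277830041909761648642520155560466885250246066444585012593605258906451700590278567498817235160533324802772722138448953741100460469984577427233567003428252322204280279685990311496018345337312993018728317184982107821343342951816156781430021364759137076142322969732500492878613060223073946643317201459285264264465145282948384479267065568890186337616692754497538852613762158773379650878353839768102435270038743608077557548561972871798336192790543126660287921694563415600752523214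760430204513839034508862584649731781847792952953838656356873959711275401110710096645302391549526512213753296071467926550114495703580900848418241674302132864410717368100822503112119291125664514790092254181693388568439427462781154349889662426608168618889533133578129582599091837079703820761490805994538299118934729584641742805417576303023810637961011729032756169001922656101067445596869759518152278316947524411096035059000061653397822484371245233281503501636171761810761743485682024373108373224074538288848122142604128413722371300560634526927255844044160293819864364122017868333966375944246009557746750208334627313228861138173503793072271442578279730038500115157161968137695022184183816356877713047420595853519393567771265969972158154717127429565748408365298080772682284602335327231689844358148907068926862007054647029711561327294381556665147113243616268482542045713450669248197144860194534720054455785548826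984618557124632393231614356586587226193151425165391324311689360095218126572046367284654460414987775862854088408628127867564365832142015893504277208324151657158507463170270315070557877134815248421876527755712304104186672610377178331746556311209156031666932196715091642801522920226566236072863167302149990533954013302788467754370150364249689600251954949363281976060332942376614076539131916938144908661253331770033301096268836219104351840157234305257199510408079351737506025941036733642518199740744773109837325332957334359956011312494662702381317825132364851465034111846923009832861168947101046302417277013305995856734649473842256685335655496163507742102496648692562600530566366530510935869840906200989184836728487977476941443373765442329182877727187624375814308872682051066426709236990758076029074821046632195667690623651046226512914180798028435924763569919851969777140533442063145517301828062532022145338396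300460957089331279869787725260186576421915379466437115319565825493972438234281187137602463118646933708450897749143457338132240808600293030335342120710863227394634702286066501003050347342275970406871740014798544392043781720367421260569951960566149748065234670755060320254873037245199932002582942214441168365871442947391037222079960583148869245479196053888188128013157058508938754582392128389150987714926130135253777890762699743870449127845400284918493824447807675072998122896131956283522165594168339858686798442243456179753835739598302961989091507100978381626695703507379043132968630847797599019231411562568515931171715676291961858272702483248734725909976462614852447861428380899524474939866538156645715049677424195147959851337680610406129712526027574258412428112150058305125549058124868831511552487801188901008031089929134117638966228027405982818971099121358657590232397366798563492586325892321581207523560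381188452650671091051317979038139721620779531893018482441843014861887935140244224836453730745369246115984884846692657581948690431699550472748557639025179437501610592451083067301438180584135979886401244636489983974997004271225630491037120236397511225380753517516952946287657522238047010939815292325778625757252344338898215706570191108229401465021898611824050183895239604415477198725276016951244041553617577667828941758789432864439534659288571046713792781291094728282601109447905332647417309684022844656534843668234614186581950317006131810466317763577862846514463881245404080487812232170276272081608795633880906175014908673945361576188109105426664601039082955609331736167683215953329438527654739032301895700958336551948205141517243030594641902803660635001278373263427863576261604749039967908548989390147648406666338895906741735727313129460791100540825949233439588314786735580036329755439707861134086630342441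228831812318125333139015201156476565717047330671869567357842476589693271917484252150569825679644389027583011142051676248380100520540270480402268935290514606592148449503577187386505017345046758509376953613690574378345616302731180845908296407483723433573216123037853263777066212538951566949546953073931169786597578992135396669606506928845748500924385665938653296135111176486489010845629498552601387398974488195283236252083978011099386838085693051790236514547779118145897441506384401470781169808940395117030089644984624338817459042178293685303162364616081934767440699395904384632656470749073872457831636388838177249434896921345908616514435398820169649747492156678846865938039797515127275686157236636100231952220041100348761803762564033374898534124418545004273059712351547499512623857080128384974028933590966736432845061019972415806712551667948137156761445269608305369706609057225093964283322000630207217664)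

noncomputable def rc2 : Nat := (nat_lit 196122675687060288648479441045138056379538376472018390680974174868337962645633240577592289561109258863253474269132849611932798775490590472357640720774552289789740998327365379731484213434728844184357300797533310659580557362280149429059051551642305240406801633315811061468284254895716269182603338402519762349758834733486346079743312527915451814083361407290392287957467649196932908880893497192769470607922733880625373466990584269995245839751043502969967117795792470654916314682303289364124526177863297343232069060597002804510380114850283809122995972341479953814877093525594184670776702873422179543703852752857313506064357305150000017934316384688526465350787323486600909058355059152017532169156340131676901354999058576772328442357755205876142423749380260738733728366367250486685215760945752822319271712901285409567442501825051852619533251642013588989256577265885476342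062135262788957731248134038914294544560118405979040104851522688353889108653661284875967001708338188034513849994898163033247334524412208297621782010405897366961058452371002943621512212395163905920989342315571698169621682848229617809281220211983493108982392641453123181279105253468686082999412969008243209070287996413730434513172793615852681667870448474925025977593255753614176051192385734797602208694246905540502538738376262880994868630197112725578353864213860741951635353709581458266479164332372796820926947548112755747470853087644196091221494507057994085608156676916534486222195974429963171448032442799381637178578153105772397325550342418470297501231677603800197014900189529981730366074811081144319352399057421960290243437567314226448056279603899509484148590196540601670695414522076463743189991745116870769349689886118633870967765141623158098841093647687742492575547076871577990847611929510263697251657181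371493555018670795203390755763043099032914437284487304448934351508710055795868045867955013227549414984156012797982852191562028107555501506995248580899736568545424536847722866517512521774943809971768947406255981907308645621953403276325581731365376561742913930246236066735456456804089984520477395049044035410813022085346061932422951512674722788963727129325537407227196105050852462880416969767399408354404304183659135957168504579923316390258100629400883079010958393455770302015632669191105601429656028533312167606507587814883418370587965332389825363237709846166863756570407342987877700453766017794344828505417330454104157586276416137299535763125012498249488940151216376273965594141277073637472755599787292534418651098687365197223808607425510335840364078706292108947096302269210477529086156995034383709429482828690375054990330407836793859098882749513876989034646832996152070063634722521493303692217345023829861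103865215944708011113205217385695571863598676604416773807109372737947595853189338084136729286657883643326695309199433856105890164604289708493321624054291102999161465031697249087816243409463346222966308821772844117284631137615732768660561772183088989656922385855805906634681868810692301924225664568913320257992849786011122106879267012494481204965591044195734138420157759496799989648582954516420879740219811904044906492759711455716661268794072558154659130728787157597106211349518539592134159847995668924805298070847725631479350518806358891819092436965504739490986724063272401981868445844790303489967166772555935078095238089939912802646312277056770726741961079878911861314933079983657764287332967738791491634680137522672688277124419984832471500108739964096548247653930053139629618512849711129538143530487703776404186721460281156796875007680620504380771880488306977072305032548476145962050460437853974570941092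296721303084508480646276966216131357883108094534560190068682764731186426725503505907593463474196788779209385809144518413226256385050781516619739781274820026010236962039151688248956204568969685302816333756235840220764176363066874120957535399456495512391211511254450498934712496096873456452860248049583247780249989865497403609288053648858566415575554811032040411276196497061754910299958116993681821816723566515902071605847536904451867841568254151293928181480841148163043900452146601773412123282006520762975635012867287377294481205232349569389121670267366108983278347364856415185127309653526410682482292374973832275725097534540760291805111046040883447186279395204979241403369338687239411219130653088417198668605808889503546693836156418361788509293738895704696250547782454645835547344732367445501969229122177947413918705214796512951930496319911140612055718126648503585007892142519847071089013445596050166010077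775931297323674567308483568197560274188738552370171386623742233685993530081953016349380484086511689591082137048906100369703404401743083207446862104684516332278594162188384227583493471914673640519419764361427527995641101771505694214246284840735952152497168939222336123130836734970846712748554746105598624291311234372588941826535828623065153174855715190352095208680737738174444705227348721384817017353929094986294420664491859362949555758835506559551684294375567811535171406019718797894426970486015739618604019882424350470963589414045089125228553799502279964548754240739620250424484370215047836469797030406117672577194959845216924321529332765394812944027298730486238549491056721865015100058244040298802357514658751132930743723231059890778001733046205414002603801538734073264150774867908863850644255591445024480695156687910357681166847711205117887601287509663368100822782493618039767131929401848634077828055770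918028892680327254238374339590157918971758181707364859618677531774261641691632384334483190446146658562978022627121539127051405247974988799309184859689814511823725085818815262683806470331996054453600541766258842990477143792022955204794501887100625988326231681485253222495100755028264070173198142304893786444539988718829529091130874669693756752187695642848548984718776900462304409768874169671863603816106336358515900745123244398603867156911994638281734485229924404159555581060135783925423446041125674381034309081984029403082791305704970839213558118711625517870203146171099210195221047103812244796917590890262628653847845361018856555268608176439431108940442895692333011405173104371085986801362310341977724991945250571679209604480604193690198495265468329024523351016441435446754660011898316389105551036281774393633893219745120549717038979732209604626358582371482863961608780428683179531395791312211955734515600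259528144033500623547172134180378876700623556741441152239888735943881209426554771781129863942474139737795685196596667323981858457631453437220251829096098615640839495224316319709673459862663196913589248730320545761780867375390173212910626877090535934148311794724526771542670210903492781278736366111885827803349447787063523347286346522285313766321227718347731148918106127042243072855213508712132071813715597948801314538799333747796277647383427447270805761059228310156623541361165313338231800647730389311743918489164392949035133860725394677352500102852244167026121096795863258029341705373857489687359608936966723477767865689595530406968133926415239450861642248324540615546076705887342216702156343939070260273892289611030450336003686543205041517106497113792514733218550991152648973164605234348181011793865119444954660434187523180760451755828046315298804905451425688760031024720703352503520334509478105841664)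

noncomputable def rc3 : Nat := (nat_lit 201275783471918897780531306461869587429179316931159336794007359749979145891383771070066009950553308981504906792528772004987833884681706850746084284743993626310611391462826900119492995536811106941062600801799778402230949139820153274501520810288159291330027433235906781269181933364267440654889091442036975675706331368929710250776413576126728256301204609991923395704561097796449147138674881309839748658162798437894969030275307531299041031593771312584565441244856481030202784285334689046040975214987082599737727829980932376276393531678424782309551606034253780776578134090683994670318982915859700452967668346436180066546495683407529603865258766185455225449878339994650259492698091862078138683047983340718089381006835825087126465942473610054406114854416145048852822764689766791813387252655282358163137702302632088507680692921392269256599121314918939059888236215960670646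105752274746747458662744698028169718669627350189014540195796722953741565171109745292246485331075026365470456150368528049858872435773475046490728705510448464330453329262522366142583481597007806881160982477051695971534988622415391994855336240415451707715910045974804589758729934136920614375089917943505136508381649535490578425481197200222500377784755959022757355329314208387244077154199746198442623922965935892030707278896252121254847322108370453966783421811542217482514097626884918233902687423703298728483400492848543772275160172982915861357706316414045638346034594107801024117018158375777457614314548543123367831852956857272880388645205977580312541138533798797812404632373472553972841243285870289531793857857351880625121361293362789746411025617674316863867470838414798194247653578190990782295112265916479303719403846186660399685661692088320602762300370953851754862400188059861969431321036892317832844240470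168287127826819923964254557938420505765317700831811684248016974852142081425950643722547868892043110012235386239640244977595681939836523938297460350335344882478446506241644851992385690847290192324495669586707294284269706940033675605814669036551191244937224522786572299309807610268707479647724351372540200397293182360492779978731846702306296020392199861777756203828292264214924924864156140657389131553845593332834792405003879305110498168317266453386094846915402566077258766891743927295454506072627025781628951203963812417272256726122546530588368760250309534198970792389757935056405504194799579110540196174085398855776282999039769372115995903843023855067670001796318223754507601465562210552096630561981319137124418087035883580179379577470645588793186391747409356000302771816982497901288002889213051036321457396900786027619693939168038365150373173261966245696653229832047066183311931657734085376472799573482560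680936139426006538689891505409406859231959695815584497593220168975735087781258962472010999949104637556540604356019438774485092079398613483304701716465364664670183377498567346807041384229935502632539004838489325231443309487468242795093953184435178764216751060612253318422310041008343692503934468962879975295471585431803540212084532009059104098642670619429036924084108927644368242237096945411669196794013857400801293973107658858286998538855252408014096954965490629919609426993776128610248432358878390129151145365370614130160907971393369458251873267464486129759968746118181166963434656503827032416371552054876503227791795266545751161346637189347300880463741993248672223671158072484114510707535299429440361621105983119169241664812257092152799810057283441690465687964479636693597479873545471286804691136612811748210999814385063415429100603025364972500173828173220912334995159648891934466441547120460975308605528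133852260137990014392375387443113978966630373625509439330294882510174108883614599222143940714192583886675562289889770409709905166272885686817519650797877208591080338504157436209556213187473074994925017495780779951211309353706070677709866224765008172519888572114318949753094356856033747207469652567719829437041056840509191139514128407914183896145777478876910155303124619834272780600110375716724943654874350267184931104266186649548796513838943191857099366713522367302118752629352461873351568803078955908198897702448579009288663071016292993663663086102176580069276752229832247148872478806096503820207517395030340354978669512254407059886784770857003736214245146635146031229957006731622760617299376331798398666573025829703257783474846319164014617766569765892429420588038880030862853791223325560730416129851247115949635419450334197510700090123324581302921827400699410665368861827994764408631442755668752466042388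686609979452075316830561303954870805031745218465282817930424769429487643766485407540394356534078791269850480984809582014057546634461328601787629423629736098543459225544285002651771180867376348517904061471387924586578361418309463741702409557411637943734618739975856455079867601662803269770061351358622772516775046559921299531751076714179119957605682841043840042335035830481464967722630573685156677532842460658504908136416408123633571135953701074637006515315824963656972485267313412262520235040348147991238717163332938053715175339596332541195850872546193821812105344505731234816444347815118908148017429420932439940707008248063696140541404791520190255920146272447334221626774155418106424258229241912619929270079377635430803524113284154096231141285762228892548160002580071839983479707351206453485733091354816758711116266924966686221848069594221006285022676070688280767421673654665629594890081995902673389791984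163796072715318046386678196045972514978567422582970597290833309362686831640120769037944937432623453478867581425560818510754957392095160835898882538754589741164036685525546993130210681824248538595846266156825873621950849589400755412539827752281317728770084626133225936782436366101245106506545469642583673222935840424495151588932196942819709641890930745463935857756081837884179614048531885141432147416567264983319058096130335549810971630061826615765582530099167545501746665597124455930421223952122080195650008911938773156962315707007640677647081570942490852191997637019954334517843344547405707471103870924233893545655079843647292947781631998690631315064184371045668863075330178996844074908171216038403790707094828729199245580065527364549341322531757192073440072546937301250067269067585089201597190874198207946743963705371307173148982398364608671392448382717505444010002582261403181621905680997747011081486491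757229125179261287054557267537585901590432190182419398669333493261107114321939648635946859108095374015302810020155580674565549732030501813040720421909679185379735178127536618166707271421479237028857948540016098039581078414387662869189802016165204282965390836541188983804361273968964684813701465869968279216763527451393981320113190540592122491821942898109777273134725634650188372050506015990205872392100450498130789666629877905357085733875622895766650320564062475013094228233668365386017159042065597405173269688084616856094353839631095582754536096416149965999971109952521611522085820173099551668339342217772396089836303173035374131418248600037459515391607966463284960948578269623537646939167445339329374012461002181676985720731984686907434630616359416905222966707881257036108262555455654689978995168249182185190401079081808414514461275554313613208419932572142770167147547055033580499821923967495988838400)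

noncomputable def rc4 : Nat := (nat_lit 207131667123135981370667689583155752271558852001079443179646695904102020765091997148912424417308604569580389668547282746822681910433898040849392648714225868218583106800072297476234345377446612722875891901101151489007208344889254693465112990890199549787571378044715134708701026690167534605546839536572968145955956954323335337646791311475137236457993976295695306922603981172054132822703658584669274548371954721904266292436829228060771626758237631795973322794012521179668210855478369408991869350403804698801731560033059081251622350212136666644991782202482261729835552371748534347826490807676546423670670227362355424522588919954722731191545055731143312720810940585344349935647653153299057065203520866494326507161342253570153553575033700601578342591732520577873717357959279426044961139133783127895346644629000421619053708571304527668094868411612415945456139689161372802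306469067578920179648535803357050601028587600205050638149577639676372797984073112834840353799154083655123298755880749259545792747729579424187585029153537895446130761032032958758413491861904202687610079623847566475943230666673612456473636426914917987203059950524751919896212051322416247521463096928859335033221250516348356060415352428509044799706014274206163270760466243200802416249476335264634486493458248163384670588529125302605544578918630667844134643064345180228394791399820186524254432035546515499796307972460726239673518726118382521171982709538395418800684968369197666695023449289545203767538516809051631522159631117957014255698920001415077220222536857229162816821408636281457559698194787857565129912252859994697541626916790947480469509054646808323101025858371044142306641462463225292850254230666088895926543024267435757735594686184705467012676810808602654698276822483442162835187636515279375056731486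026824405041735869480127164080773886945252751109221510213940464462139576568174242164681084926679372496746772585628409408142168398299268753011171076286109285789969721591688356081018332916374483908020676364544999914061827810209861637148518222467645641973243650912994729918486410981860687455982931392822594758441300478551875247023363942503269619871279046141435222517952092188537048083090426135539328960678565037892386575152724666164402305329016221393037491136276606983393004694032465585950255823007255147502561637013721109363227509403893825929980772630776892827083122973999276393535706606707031805095212616395549386116808766882339352244571025662626387486977519056030946977762793893655682817778758289139990201715407440390907669280048928916164425819233234000916495409793738074796673770198970048507429211930546687254597450629216633939828208308513275125307131506003378435251387717684791686291070232372795113904227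583362281134689977563843208694582845938282006030001705511998444156924959596858677210507742933058768209283503517216860176861783268867828130185191313497178252531670030984360990319927595763331081396179258428187183880577217191223322437442785409692850263045754207586805709425212515179706968105210524918725485483893064782266256168029903149503975177611117982431816299896344118791107719547505286368352932440767655134932207485467578186008350836092971162193354851057666379898620104809028001758461876115156001247586295751629273585775159481037779413856892745521602838223245087388307717982692893891243353692271639575900282587990583186940698395929294523273276965797671967111668900538312833106427024139027833938069090500334228606923511894571019432102218750198362153788445251708917706194961828971123078575685164447953154634850310330300422199577684132213598960892362880122744219794586299800736601838036443821210716396434558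657403729560298157783016785650569580378052681631594405665616909471052961594051594450511074128500382872655298934736220267046165074142657100096229814719506696983638057076318022428501387625057880398429341731271839159268914254226101811184580512735884637071712460322729494385855164506451580177819740709862656605621993832073401412886008362273309437261007411804345182525790193425436184738574957826093753293960145288833979871532712306204799682635905524981025584237249729996435243576163639389663664323070505777808572497202459754136161381031281454019220511338512655592649486275424882425476780161129394812547782439801503782868126300606401521060672147760915738227413047643086641237239437681112168184994575056531314550283517052721329586837172366375567283857198258906446444595321384796202224930899974691351583059586826021161925189335732545876701989595614661562546327980079860756296525697849468478440547042469279445497990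899604843202071122886523379713977546270287984025680558095763256901751906919368062642836128110051161061382704107676358986428551633682956160048741550919694597348192875543506965609479274411838689784780622161895688481849925478289799261463842333293055756448702746284121302777859739020710158656965888996220839053155571628756381116929777501027105892655734377702846893920999500503131343759198787302899962247881625143622021843662668547050651707236645112102918594552305794679857686193519445248917820313629056554211334281934623725645818958232410010368168356983119720960468672092544019369479130830737361126995574278449339027206597746647412099747926254562926185306943191667639307828896152989223739269232264637611683566221082572453563457232080614715933638684697221785626629462774848866181631115190996290538742368951812919299967816087623895647063080799888708830481022231872858402442552845254733434004249945467460000960859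542936054486905741902703491380032638426657197311153451573060009621968330286875970100859781184339414036967921714832008042535438418570079532414038239018575342746249962014030684297110751497136607898395455896707442913300709836806587778963512840132442697900605279098456867381487466563306535014747322769612879778179663086061644631478081583793677822673500881084091564314184794158777283970933514153789427482374572174776612650799389614236497023046700186762052440567740812241989681993264812569900032590211373604904380117813856931730346841676848760617918204739599801528210624741283609484113130974286928903863185131841151089559387828470926636715664640141800005382119927815486225489150532761806095364793389535805420739310196463163530940055231073837542000140878815886937580580222836028297729571994210182448257350916829071763679680691101883278222409708482426602503825661841296412138455554102453239190715423640338710921911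670462426011852464733709980915103132132865987500208740193404911534710751612909933766025324737923352907935166272736630403248088738760212540604650175187308432844220793173621127090876894071170931544808783152722157495883566715971512283459149266164338303263595639289479492160719341651660555696356593654838213368070911373261059637382057337046734340423343052516359662084736324993729896411958834277509772321599318018122077161597696921360123945984960761255704478116212483808678883889451166889027303579339805769880262576759944360265917539230741050187380185878389437060240489584490623607596991326673440549602050395542483543120390827823363787315666118869189704827018249788360264959197576261087797952038565216968225812220207626880815517047156498648749134809092091695441268374763838303288267124353563983743016638150420814746811896990011690603354360389580562488197686173306453219664245362204904411513104491912487763968)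

noncomputable def rc5 : Nat := (nat_lit 215563292323543889257752841273572977250836038853083147174928543205327382736509939841678984601709369838981837248224769553183115456581595875942362854525535893360972179020932943848942406182084919701227269841785719263685596865090833672360696065911800627718340821947673801753722348811817733132403050047443829607464190982676557403057183233125731003002980575471990853333435616838451061638087540034488636457394720436200881919466137708884580823579642531967297990835633802019882182149831861284444869631016677205756500064304033221611217199324890529696988173999997457577463525094741446169492291201345393317056625956919466149126415655639159466190043472672316637290125295273231832498743077752362031873414563641784894735513391745867011966178105306098737251245597696542635228654059551552074979443857379039481873012282845408469152289411736951075272555924290247879791092611881851689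332684740571333527937097123278305129114386880652426346449241495596414255591368092679340313848481416099824353426013179427340006458065079546248813422645326792999904155024182868345684939629492878220060475682909175650252111208538399426707639436379592541998417887085379891619333329831752377764245186507910910255479331282618016350277306654130628424177732098551555117879589831421349135359333477617031644514192543199460664501394173513715589698494164425009621297032010392380501158063811299748904203931054647309019739904081251768645954837851290609399779455785997750970754900857789146014296951115523037780737915405497502707337438698014275508405029717546908658542349706941784644796530158173176970012997591592737028085182724939469384458039113754641117321325772536380477917265788257563807671284424576270682737005081975112557601214530525143837730827901033886487608101261522998170863716503111540726206906881281224922714807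122475714927902182820238964725800317098863541532535003819223555811923358665169475470232190397440634816446450988867633837773487000905092585166477482010329335640681668991123425670806327615244137080344540013224232075193191933010442366765713775241963727325070541136718559889562289363951750010778089797254348578555320777896922589990420112783235980799557588661134141957401488789326684394369010307339890578272081275315096115631417307358480891857205457138420596540861330552983679905271541180486225116001945829032399814548900959094129992364020926345850508698604426465720449068936786201406101822365789000791240951602036660372098258756901759745792898982793877842512653691013104928857530461574430800640445423271342279471996766631469766275116382108510648271365178668584140648831664725298340156496476647460855583367750020013755651824373526889579278945794970448046361379457019052785457222648865759832233935070779822204619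655326181251461313342264586689837646418261314970446567657115986813806420683422873479296320475414130219854394493484561457185216069357941878985401570049650882983425666738885865336443655114075860559684917615680298996808366447592694045817239395637232546562169173157600573657383048096720970673782700388669046352918424780506828039035084438232232847930306405871915242405227274092008900501182564851877286505058437746798743894769623196570310991553421579365383008054584220963588628446079018323710835864396319770046570565514830868911125712339860472904537862520779242180250305367189762044069226780079096924651239580244015012068724231500497728707100097553053446037426842527073921577323298605453125496903855492762637247868661733179759840311661145547266010773632538519041336869516816462463334649313547610965758193806819696294882003463971900868628397716808349664397790589167272046454071912617778828737016724418740573329412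569155200943820032933467943627843424235180821276591695227331182747373562855728355739831914775441776550443455946122829821588151053587782527294353625813058292547305980980257806854519970986809665626920757318224288211785144834054643296173539818223284641680550380293994879395670541598801533946987159043180888402476313846427842260576625006313517446517508555745701069428053831649770608581675623780696720324622309757585689517988427572429758814332303409675292490563181261998788999983943556668058411269819892671382691330399046902885388464221587883213526319490412481778995196833671744331939757471944491803783885434153397653209239076945670692256170018704662786992763762058104250935690364969433492310399660946519195043221039605676364176584297429764308117791794085559342850170089653324388564375059257072837719700091359116682385447609245047797877092195904194604533087473587259298935806071644548368565558754259092745475160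262401940866473024841667349938211711575420747300643869495201111318842940002171687599360638028581734794949254301099346030509025262925376436055208500158757152974623510819615123472980676921937672493675363808226259821168553267178519943509005958935916346171475503107226896321135180898397915012392519877303957650724073224486420057992321125489806060240192262661879406946636274772478324904047045817759437151973689122869654369288400340660649434519572970980558575801921485314198280065720006977311505430582983580246929061093267943347248170825811325176551263808319686639545594385737618402034775295875528763348287385147854031492504480162875032698817222000391786274797412016478972640290418565084117529630508501679739079637485650166121806660050372381753133611456895434754606884054521796664582512855780708695745946743840773294775146141397383812858699641273628481870884759530104027300194529849994996351885609311083952676254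979703113932151590101734420802153642209770394522791673816949424219988953927786101522917449559099211491125683367009319224345565008730482601252166289760546163161457064361236762651850622904558298018601402918926015100995938136802577998119669404641126583526742448837291023782221046848295872226343887224239675407351217589538061173150671232481405342103758532087055316227115830072282534727499512761901921064657921705584754615501952703955477694684326726894229450361494451927597892744060174395417816644120880090640301123180990658793858718853738558049291140280522285656357767422591808194446660559512023403871658318960912884585155905557621660957911422773161859553593205475789978746571937946674828415888337579864131902103049748768900170257502977451850464229940678527467496726535787424016935266237912157103092762179836372921457483081721004166180140091529051755180301172670838014477299934145510712511337875703232880119653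476485441089664520860100588857102545160080217726719211849275535270306189188370907443044322402508997018401063611115820713318546057231010270447656269389672756799869842287666157702131808747834061197538909055943351692856890558599860559011642805114081711470454546514162245306746500764828381716125335863039855220467851353625468653332113159238992906850636669901957747445520219286732212554851158416937608837123002166018078541989251904875242927406648714760357544403161743721069597647827682997164270607209056344294268285906220240462487327043819357302473803054335032879741646340648782273886190171939014114855558583910209266728030581398282378493082575492717827357679705608831823300710287152551984251979165519503061844271852422871061595993131871232956478902452802933927817057380611610956952218143164246266849015642761988858832879326963711946835349635916038312588855976172148865578167442790064622818199888171108401152)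

noncomputable def rc6 : Nat := (nat_lit 224239267425618158674626910544448952169803329085199665824159664645025994627628610911736915119167712743852478267198867835012657764661226638726640520044701213286052244572388843074265646375698405174853782354271632404527150579317197729469048286236344047531199387621829622973942066803263680869581691639415816085438045471536712118196743014951815641535381944104745624565708277578865464738088109474825652362431763455752296903456331268927584827828091807582098520190739189119831694773428340293926602617147960400975226650438450346360084846640960956132278860866155096808025387313105499564906846817350436664245728234363494178649772143224241942903265062388758753373357135624219286621968739409317762063498330989801444442098286786517794547057802146419272684436001858960839450646509316714922236334739619210255909181005000184451266420392063536813587406241577567774947207484609241889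228707640641037180778681717051236425295581065536103752769424581946264545765592659252697646465348014202200269877412902533498776283284244184254095581704474479834014455458890635625207861294688886262206143752762979274869332488267709033057497383690849697681899184299943920513203763875488087133182401738103187538564087934951402768897942154400080681148834342268104291971610948260436527940293379827384840976236350255459386009565630043519352264392749516232943780594184440543020687928977109061236277954957476163675143726714368656727396291142240035592471124968362743610745597861427950076105291671577871392579272860968809669410883262241153277538816363583683372542098852488094484262572609884224139893557228682297815187771328765534104268162786754222949777937768590905789220271662328166599077105716914646655238269575383105988635646259663939418169585624026281689646217261473132504584830186682290731728386743082640464090651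948529869142470180851881588682203538847345809410910044675057556798337158140642800972580256760391430583562102640294198810296455188750269824730867157980549531096978940235864806538907528062383965621366621206824670748944409575477912215276165858863668868347182720307881281048720767688187204773125241557352127789752045741747757483061457424027052415511363886858684658191459124343165590913942951895767726943891191828922527096124969903034860000930972182430624866396706090740575508746995149622308917276399379638600908803625651338827969410983993463409624804423894232285429094245816768309711391983994938141601959376737370731761417803443812266523788664366070573083962925418480484190138727739616349686917998907921323601210970946338079706506199438984930461971439495557763544348101047290889239558418674533388259028929124852484265771007580861042793565872556166744447393866091006450969481765799971877213081209707677444522787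770703794739863577481203040499467245010655405885812281566322530786791931086789123535602397755679865105618373515125069013154188632322754119108876761373871645703493420130887398113705401433988886949669274200445925155740640488601675419201617790425137994711928972606319392329320365313293969070468244574275936385442507802673593386579432200633225907785850951613359854407933853470492086111970831638190460290960487390659412612125114563364077023487271188544735618557177827308537371105139224718806572729820664327220611172811611820024756559163476020362041983434507277826064208982707833204024859438735804311595769975074227707983392631368800102405617704358195372460854924133610461080330357034450372414659392743965504754839511597760396476529339484573979641637139323783050960077800616355264263642756040273408021468138218209336463310871941872336876107325455924417822839478522699340213670394464590423079729975233888671039605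475816424314102717012289404613247983506227147912647433318638015609024603436020942049686416929062991499997623578753416840717783430106717755197151152257643597100284129535115190846083728842988036150083951463790852686898298521688777371565818652829073381062395269467836713337031306743705315378639306836625891878721249052095508999677648430620977880854123482990884289424655203033208375320064379189696575618249869962142123719750884241378591245463213727599100952914896943230030922177650684836297637668724675488733282702181624481055689311872879916329499075330432136410116249936919324621300187806832102984122713473392185670589706444477800525264708395042205297372154413473848359237025158628438616597076538279512218476090453225532125771132357300585723893570834257295203022123656350657667829965234969420453633343789148531930745555925327678473452550829534593015679561668262924079137591715483504502169038879282832492394991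204758898178203372863184406605127455702911771940101887274380412812692383592216690427436128685788621122412071885003063615113792876231106167738477521838488283869504163806501220281777351363435568088237144332086909476217187054994311639076091841530264813831732019366528389270905604432845234080200402601050598804716538963773543642266608799897489189137924942839269909438642790959358001712156771084306548224280653065866095182508852017607889098090125734877085795971307834591956085490217838493353977014380092617965315654818846449077159632969414214543591414433720850132598665143583870126575704905392600796021621420585911834962927669050388092849628394564234226541383541162958440866738046114533733073809793764534327345962595335062804320120257678085405707038624716297611001596175098933389356097135603595747474957209560321990355691915812200818496505492135567466395984016731553893186843363127692169340602856910826516596023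543763344795324384800042117026868339228282245038231730101863203062001611596782034009237372344419006992686731058050448377905756320567874962432972366319341392649632439619440941734296057543171558848472848769462614996125062764096172956566984595734451862809998591745098820186812139148474326596632831823669313617281958835404023310713956880945953136488123719124087467574957142535785315349081360230277483876624420326142903566803769721071240269357435040006762091561509294833491059455158644490995493496172745118479622791890362733638177468699001725062395192926845966041522194697210458447526023541667364361997907647886565070567502140594691801268851405503736687402265725992314178641163906883985491876609030192150027846187913569605042427822140232167607991649518573547045048808902646889872497857765456746120719844781846066600909413817424686712416879716374058173174239669449276956508366077594396576907309851318348702939738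679887796596720452942586242146651120658339091419316727160857874150521452425830941956136271035512414587194654919560968145334104790663829796441746726915347654950355742173943234721126898565054827314565086029847618302932748093281090686034348754854153463049458918005097694030918112735396724663578072929841975431468790936520805599009043139283715131974499423607410850611328144073882037082477772583829140068569394101330150346192183375858837251125886157101042351316846596441821214130803943504269631927065057641318111065941136010129223873873813525571111115618524979659908145343115786311208677450645230203867854060598583827649959512519156091016888177419457051067315008906311732135127059045608203301654592071378280294725762891257570646762954839407707251793384582790267063903557987160921383182418221323852759798262362973708005611495762980900927625971707835083845006958055352523989963009470884348149183363255506042880)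

noncomputable def rc7 : Nat := (nat_lit 232874720629663483693577718951466846670013722738013273938117996644927767973369040622337404001415005238008382909829563778701157048775361434219947377585472684199379458171755064898035472619322166481058211473521297314968069228637078583096691278291439328086214977879238356179204087477259596266742051265767203423071133427796340035510896099229208601791584134483808208928649707863881525118796989646092290659879210880735658337727786116955456177078831032721258599419268618052287541417369003683381893113332683539357524086908652509760019460292970294699813663794154070387748475517222679421260762147843019821601599202613304024972298804968139201108020481566582522210779061011448226010425317277263881275777644300191548453088887914110888582945473412243926974086495161040065322503038233114116714636635584846723867990116707594879488000312897621485822581730755478776718391878347875840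412331182296859813916603883006055498552213026819892039961944807412263269718766949995071961227677695046494804225096798714034500616936054484690661183232678142271332918474046182797408344788583430526676564579517352120403014708994312794968940948290313591263214505532435587867000568944864831541487523211844923851763476467428040633559320984023204987707136589897382777965612104652917190506819942551739688935539602758548613530500274751564786560284175334220302723587443433682147147151401655212809204946163430554074573682125590841334972684645486549242465490377327501321118216607736378149263653881484032421975208396795124479910364277415825401007733691997101747212810719591732144240616800166874674530906989031808799213767547867714118303800349686800964361269852722706496823627184568746211505690565193204184259361927596359270531171094966801704102803998827747986574011689590637916741731476979667888097177265255845612240144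831720941952353691643546381015883070869916701375772674102532815418037055104185624863219304439334254840567812863225839552374294944647118649322359055259196805109135910971042406048029960800965234203307832339476493889497524298232683502331168809063667952102842679700732011339805843718529081748010196301724378148480621478166787085430802973719382102031688220936401187830082011257171560776521995069938751973673334066086392333701039886969093020699024664939348786016918176410982848618546637976549235219403877027216124820429580215090031826091248254115246046322088333998267946486906730346291353823401185060683543969893864689858950269857335179183110924656528881622384893482074589636771570404302885318910130954975346301617319918960695480399715843166482601045843564239972200702708022154193269974489066269582827539864251525679508299653483186201151451438595274619351179427371780897539892740764557060063776784926309570141506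389668134419265845405951948465838949331570405980012621757470615329657518770663585152455927591037039858811129526350349285618429517646592013866148896042187358786754170102114825482147749172429538442998783003438793442582241882860672625433561421893121130724817887236595697859111786175516975418604346296632539731123063973014147663131839156487751564352402212743921705007093436876692342813840279457566425393473323779685673623644675237773412673549882605203111214140586647155397229382113708414450895033772877730529709637968164846716411398819742069903840734160375808125596686250445125913800759741053361912047607809249614934010078912853485560267558073125786150858648166656565867520665776052930489902030465796581058582000240723035433972359230346698481439300676355022864300161754311594861552686496230762199736281604828128468219093766218380398651478314122676265776997399929761181870172879895570120968910216214695053916381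266214118883507586134480933806514410367272663535303590319130420832675753682871208817889596377643417456404840413241394830872857811121675227732988003468643223552096806936855181936307464395804773707087504796854183973706884803135795858839182078337297809322809278221446181852905785822508727108525943351906242126326763998252837329027934601148262534813611344128512773643029941254690585157598330191680378289376512095065935397983729640029112666874803292749190267001804188583802662648698082876494770199262097130296510383368428586079860535992755719300253734034270935342916419108278080171974398283396563156522292832534753366437871598319336769114226204276096330397414591798814609617485251826979707859487783208298578628101959636631973247525630086849961321400021998029923578875017627534089972310035812339288862991346018745900886301363285138791780322230214426937501100289850108529491587997353455755181737459853912312544867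172607987956458076504087335758021492914858028393352952882974875576272695581212692872223948923390798493163976032873882460819887043962554990969076216024208777008747444029506765078491515956354898939568895104040452803179760253642752046889557934228733887182394460012530253310227218274906913736182407330503449675686409532834597756259148353935061061992549794474846571439272967900422385178319456626037341839430771866110174736378670254844252534867803042404222803298367212231001869284549378864877560029252763898340058547318811845631309681921486495255297315803171817396846981314732449487530188196254884291351365624702394138498892581936395076098723595529251732021761032670684448011698989699925512825623105636445670609142448448622546256345120886787717188729373529032692189666840060963877026777257137270701228683199418182239886199143691785066150269823073494007813708878510297788628117069545875420908770958256734304909567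253932241344305982098162563019697961068606786906128676868909217204143208031866842582759070523839791682719065778053702185259089121793163577814793274007440522195284893594928364393976302907829062340092910989184401087091442949560123330194946662289842387067480295639131864008131251657820848413921503753672847748799190655092794411562069158501362211199182902908407240116150208363538940227449197824361253008951482753686151394541202874641286212513399833612184064094452945462024799110909789114131757860721340640924118295602344787462033032195930704159265429446894878710984681819530874274515065322174856472333662631137811040722708641649251293027575551068100668734838947250993630595276408501918003525119126963734179315283657386553883157052482440736938389465630424473908630462146749299123326355327782218333739684303013081414102478197732173357418357312318725133507475499825913662219884460956549931663300300874633399948873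494882898549746216520471811536790475049104629926093464960545513637616898601844730461540615617935371624427502656277404393755029860189966883427481424520665699360289569820657846776742205737093237656958364405513906261511710496978073396526983287017735054591848551087055865741502136756117789416442156735321329211452259751178121306115618683714820515338525748733508903939224332489210357735064180403697965717849878038689273423056192829635667109018495811943888463289941474221749210275084156408513925709429153174298473874392185164336151475481944667009587537547625783414826626162619850193610797069648092507330357529501811426258857984199845326431854675293352608588970336547619212589954234099406005256234592645831428626429092084389274919920566963421651963918174479080366539218781420026973841837289747006489184847233164438746531115720167475050708103947716974336328628708108981197481649181361727104667568843644152578048)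

noncomputable def rc8 : Nat := (nat_lit 241322259734599413796944222278885727963823613288078197266434881623814837389779452463191077434399081731001799886202858341282698850897283267671503559015887340198585530745908207862049171532287196060757979389525253395262489530456363988571838792252727123089118695362821927663273403263808121922292358175359436177083794305449725518716001659328688132442768344270963896685170263633871687666253147100413398706486841105053705803823920371828980598491332780513498708932347021461303144236930634175507725861882174686477509178660080826166194118715590879865121295552853562680456363528900714561266459855671400206311847549837029367710192703028074839587005891432826079107207071146260126678704852963747193365737168960875379797626186856107792406933011346844613824338284934831491636092341347269554712371110412622213993369644696010545103051941845662017718859198757872973516383181713488690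529512515925516034415762543977189237397396797888695293778785631418396212694199864918089650533975709089911456821398252836898042737500716962526784401714354802544902319602493874907849076249249775104056009397499937607957135221723800835968834023264200309944675838421273299332250665476648365336097173739915751514459834794688923294831119104751902346858328586606174130451808355867457867611353065823433200891971752798081663002110986167547879455462023997682365017616801239655236388591284298554568604129295089848262809808731196138581125541662745417884962291515432803507189646713236656147842938259736459323379750031193649968240293985167053457799359031463758849781164306085152460650464910127105641505103888221685573991935058497479075158233561391277826920138278524205390569511119911530612141214402271071433858697321441927293465627654160990874065620729924047999487487646179778973584831398120851655973144705153277336765180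578027938496525478387178716632769038309424580481889151805568519585852336053693173553131925524046651403483591183101693402275917314248696815879663071256369544180715325545688302244943020220802742790546480667693539037230059721462719943363663820702937336658225379359241877585543916870328845490957455187658153133946749966447520295238309620733988225460511717379996421979428712082253790372281509693569246459528607758036161556884315512552198560815823607536902643925124829627180177172995917046948173963492684986517425171613377555432999081861069760209158858094879095329062657734010653803287953828863404921057896370413286191803748053405616570805171718700527513255981752473499132231990569201314991427411614736111804903266624600144902204439604633459294724862066974718157542754872923873352343085666162380000519564560924493840947425807698283848422962795595461832282525419688999198088831656066912251273110626006913476320631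327020744205172953382563388991154701078818765861748395592117137169079858598075739004573758043246697594336857743551198032384545578890464234305473234798412461219229006421590855248285979644927299155391945107942025478033418327236779215893876077352247764725267860467459312474973078292549020708580633228926356704738140821534415499848524797116791357594502201756840251287850302801537256967669532752899880432940851497498163153667586772242205272898624295006077087898801575659458200631268161044011406402910727323231049605059693800279874056312207640505341169150359094288588171804598251251504843442177401917819346923756828837059122753798701515443584822590954199235830562178743167091308453785886860754759361389806967989380329046223087716559831494029724368763410033442602593737042727627916083809788076824988634881196855894131620590945095973235787514103178123222169886566736676341271532386096539044653493406763224771600099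139716236155147884883743210400670787496582115572726268353853638777546723642561248560687265612404158269950094809661854470125319153910240670928519902814444916774628917902860887104617652276940404792679304100051447368686610886084519744654052580319662358654950447379872593719227424242807093860547020614734943760142201554931320126688381845181146501668305482756955653906498727837689954588769360823193812738454743300237942046424068768095522684863973012500181624112440034051812507388697651162872495268087252721181865200893202608753652263098559769299086852599982116950505368307623654545359642516901112984546813343268048959090626556508140029441422050446092904308924500255915915913172747881416234041882382174177794149274484858404804794825142188408756980521783133446332524733354711735549410250250545973091503207640291129932394307298111906157062514057776644911454062838779963548262638951159370162424379153884586465321835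205879939329985295987623608199402795084309458165785023820877148177885154680015972652217670016325729930439660737623422320466341309832385546042790285451345195299484102809121199383124603030167735689601046635064909916443045528499118711174595419917580339199049000444454325618941854408738242266998006184686273526013204658560853299485901134862459817052467246021800590727926228913052692038274208497362006113071426655023333215946742333073247877520468650963162830109047060872460078377236133950489526459862104319393339331054298857668934271603499241395458049258480520316411316914470010399257128932462505915123458531094088770162109171748444014958546352776076126410241882704314826163495773578711641929983314796643601550308146215514693636665008419302315287809407715462867306269094476018058109572639165128592725314255850820129994937927598373978231149467873445505304384851291734985037929225299687739010416863464580175465823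947844911078872956633576788706389285436631631245869508803708714401189855083673315490183689414719563162157052644649374347343651806787306179947793762240277167878251674698830829592748776096198280242839889911395730665903996694032216360432619149265280879200982414485759483419698044350592809442124428790619489328368586835136004255818854987578736945749023550802403415094556782105339702229252076920146684751359372794663419881367302936307006925779705760220856424102474065866576911507751171962305665446159326909910366943408406540887543643515230689133606753639366900358763639538899576970073030589750546597427559317115305191241922136400949639456691717979495183004146735412583077995846780331635528289623315285506078050407001111770907997415517508440521682093362360962868461975727423795053701666284529112702639834113681828327747599835770174161986305215655859274547105327309575493917662212223720254374339888012721292644785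771339482061911371938547197199537072320140752395885269328847317154176228863071575079155518223786209548179263413539693184909217005818036218202405147800345180223827490842448969330287669463212832112314599911886727648133484021091597228111378491305143356846857711108376200117797206668746948526541229809584828674095458730485661588469967202578498491721771467463734420446278388652573590771463358458735736573749093141353596841915639553900622946803750128373184066392237242586231436259167963409132369542137700703716675753135270228949816278696055662671085809133811783618893632093192249249768051368555125250657691886873534905724282918347302822953276351629551135616170808296702181061648295017146776626192776682157704955925275892848133509453198163339706846479274203418262152902018843062124479290298457668348453319309239765687269120348232154461354048969838134678969196343180046326042837888069286617311432367647605391360)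

noncomputable def rc9 : Nat := (nat_lit 243394026538907992555860528009725157255674672180108711559420487093592954909481060152442448354987498416868339257327778123115455728285350906245969748501982961906491535130605823728201283520439693165818324194900363368368970227041721431933638041737620932575990760946346090666378645302848940673486882855309095211080427380026623645732799420124647488011715917922813537725763098298567106734252344014813140357412007095053295303670510830529690775551144390361236933459439611892590075319606351059774492189030263820528522399006930851983268039058229452884757410166025416991638063207730883405908917443102325650756092406543658064832209733429155471928242085584003574369022526018556207876944708121266818742512671463165590593674611297570511013197691327027076367183089348867607248162721528238796812325667702322647686241880844037789607124398110787072366541739813090226453972219776774473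983017465140700588573329154595401255923541662739511039898528066801592314332541149398336617232459565181801280133840040050364144931077766712313116900013070188689769764685549115545899599058818806956907298702623186078686884603040643318422221107099324757830929621793156052518870039421982242648615326103500097426170984321989330166404565083663519022587346027171380608823340166018882206970735127977353415984578357350851259777639593536396462213477067897194603660185404321426106095983788645977803553056596783649308177854614360328235407726879948513046914652750308567205988544044345253218543051699559188113690250400121200007231539678034515912157554449968656713677440157480120681396678586658823738041377020658337197381594796703093790439361282369931626485150564054346333780375223429139726296282641108053347644096754221360267566517794732776753665962893842034756641461510763941587876452350664913509119035685609354196594985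256723384073214844256139397491295636269597765497127794341610826170215167949124956556887352891667854380627622758486491290039630769224577212792802306329341762608542283102804274880725078150246138980487902950559558702753678132352567283480281129033797318823199982802449449083816480812974431583312599818371588782152924779413884706960422891275495964604229803313362906384406321782053491408966962998985541169567080986826601516156118326626957126707267717376214727340876983193114008188051037109083807238491486936556589671260235518680445155448007729606885366210007537911274720228848035789497650821490988778098346690888289021046459911781182169927919619558098320203591690074376069089037765976613793735756421353554140486610222376590281610361725995675517729827021282584210142917814960424248833776037722211569609169176041237343479799694971348687114435009603336970967406184198620998350151948913389944603874973544858933842120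018408360346928590004576053286426802024783973648980037361849557184753531799927561836518740987593562890916810591321078641048302519749469014154341725826835946491832388565606777528871636689668723639373055699364891040220367961291834818557093873112396486794777384249163507607166393278799769041258037705274926865085414114955493840228465664181013551686493683754540127358658415962275477240741331381020132987282068971832653641653962777923269567832162154621040429305028491582050726640500634869174516533122960414033100894293872912170517786629786433365633982223413085538931045553301220696110196643643599524840017883939696568178928167456088045881012917314133394566712632715455272028908817760904419847175495265247804961634152613024463488776094369024732927442862366185217456470498144173043640782787687088030108475076674876858792338499833595315886051233217308950256353418225391529820488000032862858108760921238754783182597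346285902376805023333935695902525283187354345849807379981687281082567777743709634510380602209901031764274372395493897896987742609414528968948755370144335933761967747784305367006246711850597368463366267088934321613491491599328677738459389586262562985724872575036881766394959608453730053988276593449065610279715756027142843363224784580142999033661656311426572984880660402204606615411114410782615439939299123431841627826924396499338348532427117652202302628108399002386812880448948624558979197241987090309211202498952486956500371291183995145187828711122719136448971750617163618634563125410473767942613375659690182907543940441494928406677435017278906822070355024835449219267986928526187388301506303953359891981517759278134657351792915784718597519359006531314560276813535488389644639434525839266394907061519304728735881055134777874726964764943650144393552686396163458062223851636298588088689266594569020670682125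876272492521145881176296060157204965997832144884058278485077504424820300405949616296172032122470228219755124878696489028199381599542727910135180728955774278863085183544376522258440417945091961041507513946718406068756206341390860835754863074248520004107016152414747053758324525654832863002770949813033567936886831661590075240908561002752705896670829976075772077684315636423706821876421252843266565461102559656519674749525041079291355060459349125860502384938139279818229738691012015765117862072416631589856008315541517284252682846345710764389886439929516513939685540407863883083598566144846662248994403662826839445963089700545769306023822981322777844194320473461647930356306475222573715352652096606398674432056244905966169030240677613776102932347496570149108984032715128040598417343133802575104697550130212934476248284895098917517855042279779300088156301992099266597729503011842474528801203571037653323207060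878103988273446669696564674531944011391082450878461153256198520580989927082522621181481099362419142859961180259989805867575163171961024054091890241686058811841403194555179965364956822168622654584004154945023098506428595830343385619669036099755696462592870780626310527858313797475663836173218290675716468383458314519061487035479927635723480128421109704445180146586658263116383875432250411824282619656005612419229489438775288419462271158284220975616440079323527563783087173544498556172056127480984048090240412834167846615913184510987090634548668765376634196628125487697139120888810188048669583601361637078251768969444313840394188448335852273808825558283423323884503626855417179584026313470566487215519223180577294254764876193442736766673021504530850266890149264963521641605718362325305919926928675105971732709518506652475897821762370395132656552818472666111326870136567250151404278052856354451398101935560824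274198019397763305475343806529456663026235506874486091343875635770092999032439825882254128114328590287610756207367911216734869709534006563734049598753561709011234273817144979361556466265016934858742469111943982103327934566767011511756357716427894816845857311072890126647286028790922735093713103826034141334977375340098299070979415106914667918638227023839833478185652540940807291214625232086195535629954790356329719421892525112745873568792653441280744889818482106500022913247451123462074269094490065994504612810996937547044038948000212756747468551887282356898540734226937140870802872861045928394253867584588043210163211744690963816976161374957993867547591503809959492362801892360973708829437625376811018327209192596188125945904174760910502901818160693135326109725089728261622234758438246678262292273112728950766961602357569390428999085500043081269641150609823452088805192065125315709766620579768473485312)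

end Vale.Agent.Lib.P154.PChain.BP.S6
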