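import Vale.Agent.Lib.P154.PChain.BP.R6_1

set_option linter.all false

namespace Vale.Agent.Lib.P154.PChain.BP.S7

open Vale.Agent.Lib.P154.Chain

noncomputable def pc0 : PT := (PT.nd (nat_lit 3222414) (PT.nd (nat_lit 3019614) (PT.nd (nat_lit 2938260) (PT.nd (nat_lit 2857140) (PT.nd (nat_lit 2654106) (PT.nd (nat_lit 2613546) PT.nil (PT.lf (nat_lit 76) (nat_lit 3) (nat_lit 1) (nat_lit 1) (nat_lit 163) (nat_lit 64) (nat_lit 163))) (PT.nd (nat_lit 78) (PT.lf (nat_lit 152) (nat_lit 6) (nat_lit 2) (nat_lit 3) (nat_lit 162) (nat_lit 65) (nat_lit 163)) (PT.lf (nat_lit 152) (nat_lit 6) (nat_lit 2) (nat_lit 1) (nat_lit 163) (nat_lit 65) (nat_lit 162)))) (PT.nd (nat_lit 40560) (PT.lf (nat_lit 760) (nat_lit 3) (nat_lit 10) (nat_lit 1) (nat_lit 160) (nat_lit 70) (nat_lit 160)) (PT.nd (nat_lit 78) (PT.lf (nat_lit 836) (nat_lit 6) (nat_lit 11) (nat_lit 3) (nat_lit 159) (nat_lit 71) (nat_lit 160)) (PT.lf (nat_lit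 836) (nat_lit 6) (nat_lit 11) (nat_lit 1) (nat_lit 160) (nat_lit 71) (nat_lit 159))))) (PT.nd (nat_lit 40638) (PT.nd (nat_lit 78) (PT.lf (nat_lit 912) (nat_lit 6) (nat_lit 12) (nat_lit 3) (nat_lit 158) (nat_lit 72) (nat_lit 160)) (PT.nd (nat_lit 78) (PT.lf (nat_lit 988) (nat_lit 3) (nat_lit 13) (nat_lit 1) (nat_lit 159) (nat_lit 72) (nat_lit 159)) (PT.lf (nat_lit 912) (nat_lit 6) (nat_lit 12) (nat_lit 1) (nat_lit 160) (nat_lit 72) (nat_lit 158)))) (PT.nd (nat_lit 40560) (PT.nd (nat_lit 78) (PT.lf (nat_lit 1064) (nat_lit 6) (nat_lit 14) (nat_lit 3) (nat_lit 158) (nat_lit 73) (nat_lit 159)) (PT.lf (nat_lit 1064) (nat_lit 6) (nat_lit 14) (nat_lit 1) (nat_lit 159) (nat_lit 73) (nat_lit 158))) (PT.nd (nat_lit 78) (PT.lf (nat_lit 1140) (nat_lit 6) (nat_lit 15) (nat_lit 3) (nat_lit 157) (nat_lit 74) (nat_lit 159)) (PT.lf (nat_lit 1216) (nat_lit 3) (nat_lit 16) (nat_lit 1) (nat_lit 158) (nat_lit 74) (nat_lit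 158)))))) (PT.nd (nat_lit 121602) (PT.nd (nat_lit 81042) (PT.nd (nat_lit 40482) (PT.lf (nat_lit 1140) (nat_lit 6) (nat_lit 15) (nat_lit 1) (nat_lit 159) (nat_lit 74) (nat_lit 157)) (PT.nd (nat_lit 78) (PT.lf (nat_lit 1368) (nat_lit 6) (nat_lit 18) (nat_lit 3) (nat_lit 157) (nat_lit 75) (nat_lit 158)) (PT.lf (nat_lit 1368) (nat_lit 6) (nat_lit 18) (nat_lit 1) (nat_lit 158) (nat_lit 75) (nat_lit 157)))) (PT.nd (nat_lit 78) (PT.lf (nat_lit 1444) (nat_lit 6) (nat_lit 19) (nat_lit 3) (nat_lit 156) (nat_lit 76) (nat_lit 158)) (PT.nd (nat_lit 78) (PT.lf (nat_lit 1520) (nat_lit 3) (nat_lit 20) (nat_lit 1) (nat_lit 157) (nat_lit 76) (nat_lit 157)) (PT.lf (nat_lit 1444) (nat_lit 6) (nat_lit 19) (nat_lit 1) (nat_lit 158) (nat_lit 76) (nat_lit 156))))) (PT.nd (nat_lit 234) (PT.nd (nat_lit 78) (PT.lf (nat_lit 1596) (nat_lit 6) (nat_lit 21) (nat_lit 3) (nat_lit 155) (nat_lit 77) (nat_lit 158)) (PT.nd (nat_lit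 78) (PT.lf (nat_lit 1672) (nat_lit 6) (nat_lit 22) (nat_lit 3) (nat_lit 156) (nat_lit 77) (nat_lit 157)) (PT.lf (nat_lit 1672) (nat_lit 6) (nat_lit 22) (nat_lit 1) (nat_lit 157) (nat_lit 77) (nat_lit 156)))) (PT.nd (nat_lit 40482) (PT.nd (nat_lit 40404) (PT.lf (nat_lit 1596) (nat_lit 6) (nat_lit 21) (nat_lit 1) (nat_lit 158) (nat_lit 77) (nat_lit 155)) (PT.lf (nat_lit 1748) (nat_lit 6) (nat_lit 23) (nat_lit 3) (nat_lit 155) (nat_lit 78) (nat_lit 157))) (PT.nd (nat_lit 78) (PT.lf (nat_lit 1824) (nat_lit 3) (nat_lit 24) (nat_lit 1) (nat_lit 156) (nat_lit 78) (nat_lit 156)) (PT.lf (nat_lit 1748) (nat_lit 6) (nat_lit 23) (nat_lit 1) (nat_lit 157) (nat_lit 78) (nat_lit 155))))))) (PT.nd (nat_lit 121992) (PT.nd (nat_lit 40794) (PT.nd (nat_lit 234) (PT.nd (nat_lit 78) (PT.lf (nat_lit 1900) (nat_lit 6) (nat_lit 25) (nat_lit 3) (nat_lit 154) (nat_lit 79) (nat_lit 157)) (PT.nd (nat_lit 78) (PT.lf (nat_lit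 1976) (nat_lit 6) (nat_lit 26) (nat_lit 3) (nat_lit 155) (nat_lit 79) (nat_lit 156)) (PT.lf (nat_lit 1976) (nat_lit 6) (nat_lit 26) (nat_lit 1) (nat_lit 156) (nat_lit 79) (nat_lit 155)))) (PT.nd (nat_lit 40404) (PT.lf (nat_lit 1900) (nat_lit 6) (nat_lit 25) (nat_lit 1) (nat_lit 157) (nat_lit 79) (nat_lit 154)) (PT.nd (nat_lit 78) (PT.lf (nat_lit 2052) (nat_lit 6) (nat_lit 27) (nat_lit 3) (nat_lit 154) (nat_lit 80) (nat_lit 156)) (PT.lf (nat_lit 2128) (nat_lit 3) (nat_lit 28) (nat_lit 1) (nat_lit 155) (nat_lit 80) (nat_lit 155))))) (PT.nd (nat_lit 40560) (PT.nd (nat_lit 40404) (PT.lf (nat_lit 2052) (nat_lit 6) (nat_lit 27) (nat_lit 1) (nat_lit 156) (nat_lit 80) (nat_lit 154)) (PT.nd (nat_lit 78) (PT.lf (nat_lit 2204) (nat_lit 6) (nat_lit 29) (nat_lit 3) (nat_lit 153) (nat_lit 81) (nat_lit 156)) (PT.lf (nat_lit 2280) (nat_lit 6) (nat_lit 30) (nat_lit 3) (nat_lit 154) (nat_lit 81) (nat_lit 155))))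 (PT.nd (nat_lit 40482) (PT.nd (nat_lit 78) (PT.lf (nat_lit 2280) (nat_lit 6) (nat_lit 30) (nat_lit 1) (nat_lit 155) (nat_lit 81) (nat_lit 154)) (PT.lf (nat_lit 2204) (nat_lit 6) (nat_lit 29) (nat_lit 1) (nat_lit 156) (nat_lit 81) (nat_lit 153))) (PT.nd (nat_lit 78) (PT.lf (nat_lit 2432) (nat_lit 6) (nat_lit 32) (nat_lit 3) (nat_lit 153) (nat_lit 82) (nat_lit 155)) (PT.lf (nat_lit 2508) (nat_lit 3) (nat_lit 33) (nat_lit 1) (nat_lit 154) (nat_lit 82) (nat_lit 154)))))) (PT.nd (nat_lit 81042) (PT.nd (nat_lit 40560) (PT.nd (nat_lit 40404) (PT.lf (nat_lit 2432) (nat_lit 6) (nat_lit 32) (nat_lit 1) (nat_lit 155) (nat_lit 82) (nat_lit 153)) (PT.nd (nat_lit 78) (PT.lf (nat_lit 2584) (nat_lit 6) (nat_lit 34) (nat_lit 3) (nat_lit 152) (nat_lit 83) (nat_lit 155)) (PT.lf (nat_lit 2660) (nat_lit 6) (nat_lit 35) (nat_lit 3) (nat_lit 153) (nat_lit 83) (nat_lit 154)))) (PT.nd (nat_lit 78) (PT.lf (nat_lit 2660)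 (nat_lit 6) (nat_lit 35) (nat_lit 1) (nat_lit 154) (nat_lit 83) (nat_lit 153)) (PT.nd (nat_lit 40326) (PT.lf (nat_lit 2584) (nat_lit 6) (nat_lit 34) (nat_lit 1) (nat_lit 155) (nat_lit 83) (nat_lit 152)) (PT.lf (nat_lit 2736) (nat_lit 6) (nat_lit 36) (nat_lit 3) (nat_lit 151) (nat_lit 84) (nat_lit 155))))) (PT.nd (nat_lit 234) (PT.nd (nat_lit 78) (PT.lf (nat_lit 2812) (nat_lit 6) (nat_lit 37) (nat_lit 3) (nat_lit 152) (nat_lit 84) (nat_lit 154)) (PT.nd (nat_lit 78) (PT.lf (nat_lit 2888) (nat_lit 3) (nat_lit 38) (nat_lit 1) (nat_lit 153) (nat_lit 84) (nat_lit 153)) (PT.lf (nat_lit 2812) (nat_lit 6) (nat_lit 37) (nat_lit 1) (nat_lit 154) (nat_lit 84) (nat_lit 152)))) (PT.nd (nat_lit 40404) (PT.nd (nat_lit 40326) (PT.lf (nat_lit 2736) (nat_lit 6) (nat_lit 36) (nat_lit 1) (nat_lit 155) (nat_lit 84) (nat_lit 151)) (PT.lf (nat_lit 2964) (nat_lit 6) (nat_lit 39) (nat_lit 3) (nat_lit 151) (nat_lit 85) (nat_lit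 154))) (PT.nd (nat_lit 78) (PT.lf (nat_lit 3040) (nat_lit 6) (nat_lit 40) (nat_lit 3) (nat_lit 152) (nat_lit 85) (nat_lit 153)) (PT.lf (nat_lit 3040) (nat_lit 6) (nat_lit 40) (nat_lit 1) (nat_lit 153) (nat_lit 85) (nat_lit 152))))))))
noncomputable def pc1 : PT := (PT.nd (nat_lit 243282) (PT.nd (nat_lit 121758) (PT.nd (nat_lit 80964) (PT.nd (nat_lit 40482) (PT.nd (nat_lit 40326) (PT.lf (nat_lit 2964) (nat_lit 6) (nat_lit 39) (nat_lit 1) (nat_lit 154) (nat_lit 85) (nat_lit 151)) (PT.nd (nat_lit 78) (PT.lf (nat_lit 3116) (nat_lit 6) (nat_lit 41) (nat_lit 3) (nat_lit 150) (nat_lit 86) (nat_lit 154)) (PT.lf (nat_lit 3192) (nat_lit 6) (nat_lit 42) (nat_lit 3) (nat_lit 151) (nat_lit 86) (nat_lit 153)))) (PT.nd (nat_lit 78) (PT.lf (nat_lit 3268) (nat_lit 3) (nat_lit 43) (nat_lit 1) (nat_lit 152) (nat_lit 86) (nat_lit 152)) (PT.nd (nat_lit 78) (PT.lf (nat_lit 3192) (nat_lit 6) (nat_lit 42) (nat_lit 1)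 (nat_lit 153) (nat_lit 86) (nat_lit 151)) (PT.lf (nat_lit 3116) (nat_lit 6) (nat_lit 41) (nat_lit 1) (nat_lit 154) (nat_lit 86) (nat_lit 150))))) (PT.nd (nat_lit 234) (PT.nd (nat_lit 78) (PT.lf (nat_lit 3420) (nat_lit 6) (nat_lit 45) (nat_lit 3) (nat_lit 150) (nat_lit 87) (nat_lit 153)) (PT.nd (nat_lit 78) (PT.lf (nat_lit 3496) (nat_lit 6) (nat_lit 46) (nat_lit 3) (nat_lit 151) (nat_lit 87) (nat_lit 152)) (PT.lf (nat_lit 3496) (nat_lit 6) (nat_lit 46) (nat_lit 1) (nat_lit 152) (nat_lit 87) (nat_lit 151)))) (PT.nd (nat_lit 40404) (PT.nd (nat_lit 40326) (PT.lf (nat_lit 3420) (nat_lit 6) (nat_lit 45) (nat_lit 1) (nat_lit 153) (nat_lit 87) (nat_lit 150)) (PT.lf (nat_lit 3572) (nat_lit 6) (nat_lit 47) (nat_lit 3) (nat_lit 149) (nat_lit 88) (nat_lit 153))) (PT.nd (nat_lit 78) (PT.lf (nat_lit 3648) (nat_lit 6) (nat_lit 48) (nat_lit 3) (nat_lit 150) (nat_lit 88) (nat_lit 152)) (PT.lf (nat_lit 3724) (nat_lit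 3) (nat_lit 49) (nat_lit 1) (nat_lit 151) (nat_lit 88) (nat_lit 151)))))) (PT.nd (nat_lit 40638) (PT.nd (nat_lit 40404) (PT.nd (nat_lit 78) (PT.lf (nat_lit 3648) (nat_lit 6) (nat_lit 48) (nat_lit 1) (nat_lit 152) (nat_lit 88) (nat_lit 150)) (PT.nd (nat_lit 40248) (PT.lf (nat_lit 3572) (nat_lit 6) (nat_lit 47) (nat_lit 1) (nat_lit 153) (nat_lit 88) (nat_lit 149)) (PT.lf (nat_lit 3800) (nat_lit 6) (nat_lit 50) (nat_lit 3) (nat_lit 148) (nat_lit 89) (nat_lit 153)))) (PT.nd (nat_lit 78) (PT.lf (nat_lit 3876) (nat_lit 6) (nat_lit 51) (nat_lit 3) (nat_lit 149) (nat_lit 89) (nat_lit 152)) (PT.nd (nat_lit 78) (PT.lf (nat_lit 3952) (nat_lit 6) (nat_lit 52) (nat_lit 3) (nat_lit 150) (nat_lit 89) (nat_lit 151)) (PT.lf (nat_lit 3952) (nat_lit 6) (nat_lit 52) (nat_lit 1) (nat_lit 151) (nat_lit 89) (nat_lit 150))))) (PT.nd (nat_lit 40404) (PT.nd (nat_lit 78) (PT.lf (nat_lit 3876) (nat_lit 6) (nat_lit 51) (nat_lit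 1) (nat_lit 152) (nat_lit 89) (nat_lit 149)) (PT.nd (nat_lit 40248) (PT.lf (nat_lit 3800) (nat_lit 6) (nat_lit 50) (nat_lit 1) (nat_lit 153) (nat_lit 89) (nat_lit 148)) (PT.lf (nat_lit 4028) (nat_lit 6) (nat_lit 53) (nat_lit 3) (nat_lit 148) (nat_lit 90) (nat_lit 152)))) (PT.nd (nat_lit 156) (PT.nd (nat_lit 78) (PT.lf (nat_lit 4104) (nat_lit 6) (nat_lit 54) (nat_lit 3) (nat_lit 149) (nat_lit 90) (nat_lit 151)) (PT.lf (nat_lit 4180) (nat_lit 3) (nat_lit 55) (nat_lit 1) (nat_lit 150) (nat_lit 90) (nat_lit 150))) (PT.nd (nat_lit 78) (PT.lf (nat_lit 4104) (nat_lit 6) (nat_lit 54) (nat_lit 1) (nat_lit 151) (nat_lit 90) (nat_lit 149)) (PT.lf (nat_lit 4028) (nat_lit 6) (nat_lit 53) (nat_lit 1) (nat_lit 152) (nat_lit 90) (nat_lit 148))))))) (PT.nd (nat_lit 81198) (PT.nd (nat_lit 40560) (PT.nd (nat_lit 234) (PT.nd (nat_lit 78) (PT.lf (nat_lit 4256) (nat_lit 6) (nat_lit 56) (nat_lit 3) (nat_lit 147) (nat_lit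 91) (nat_lit 152)) (PT.nd (nat_lit 78) (PT.lf (nat_lit 4332) (nat_lit 6) (nat_lit 57) (nat_lit 3) (nat_lit 148) (nat_lit 91) (nat_lit 151)) (PT.lf (nat_lit 4408) (nat_lit 6) (nat_lit 58) (nat_lit 3) (nat_lit 149) (nat_lit 91) (nat_lit 150)))) (PT.nd (nat_lit 78) (PT.lf (nat_lit 4408) (nat_lit 6) (nat_lit 58) (nat_lit 1) (nat_lit 150) (nat_lit 91) (nat_lit 149)) (PT.nd (nat_lit 78) (PT.lf (nat_lit 4332) (nat_lit 6) (nat_lit 57) (nat_lit 1) (nat_lit 151) (nat_lit 91) (nat_lit 148)) (PT.lf (nat_lit 4256) (nat_lit 6) (nat_lit 56) (nat_lit 1) (nat_lit 152) (nat_lit 91) (nat_lit 147))))) (PT.nd (nat_lit 234) (PT.nd (nat_lit 78) (PT.lf (nat_lit 4484) (nat_lit 6) (nat_lit 59) (nat_lit 3) (nat_lit 146) (nat_lit 92) (nat_lit 152)) (PT.nd (nat_lit 78) (PT.lf (nat_lit 4560) (nat_lit 6) (nat_lit 60) (nat_lit 3) (nat_lit 147) (nat_lit 92) (nat_lit 151)) (PT.lf (nat_lit 4636) (nat_lit 6) (nat_lit 61) (nat_lit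 3) (nat_lit 148) (nat_lit 92) (nat_lit 150)))) (PT.nd (nat_lit 156) (PT.nd (nat_lit 78) (PT.lf (nat_lit 4712) (nat_lit 3) (nat_lit 62) (nat_lit 1) (nat_lit 149) (nat_lit 92) (nat_lit 149)) (PT.lf (nat_lit 4636) (nat_lit 6) (nat_lit 61) (nat_lit 1) (nat_lit 150) (nat_lit 92) (nat_lit 148))) (PT.nd (nat_lit 78) (PT.lf (nat_lit 4560) (nat_lit 6) (nat_lit 60) (nat_lit 1) (nat_lit 151) (nat_lit 92) (nat_lit 147)) (PT.lf (nat_lit 4484) (nat_lit 6) (nat_lit 59) (nat_lit 1) (nat_lit 152) (nat_lit 92) (nat_lit 146)))))) (PT.nd (nat_lit 40638) (PT.nd (nat_lit 234) (PT.nd (nat_lit 78) (PT.lf (nat_lit 4788) (nat_lit 6) (nat_lit 63) (nat_lit 3) (nat_lit 146) (nat_lit 93) (nat_lit 151)) (PT.nd (nat_lit 78) (PT.lf (nat_lit 4864) (nat_lit 6) (nat_lit 64) (nat_lit 3) (nat_lit 147) (nat_lit 93) (nat_lit 150)) (PT.lf (nat_lit 4940) (nat_lit 6) (nat_lit 65) (nat_lit 3) (nat_lit 148) (nat_lit 93) (nat_lit 149)))) (PT.nd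 (nat_lit 156) (PT.nd (nat_lit 78) (PT.lf (nat_lit 4940) (nat_lit 6) (nat_lit 65) (nat_lit 1) (nat_lit 149) (nat_lit 93) (nat_lit 148)) (PT.lf (nat_lit 4864) (nat_lit 6) (nat_lit 64) (nat_lit 1) (nat_lit 150) (nat_lit 93) (nat_lit 147))) (PT.nd (nat_lit 40170) (PT.lf (nat_lit 4788) (nat_lit 6) (nat_lit 63) (nat_lit 1) (nat_lit 151) (nat_lit 93) (nat_lit 146)) (PT.lf (nat_lit 5016) (nat_lit 6) (nat_lit 66) (nat_lit 3) (nat_lit 145) (nat_lit 94) (nat_lit 151))))) (PT.nd (nat_lit 234) (PT.nd (nat_lit 78) (PT.lf (nat_lit 5092) (nat_lit 6) (nat_lit 67) (nat_lit 3) (nat_lit 146) (nat_lit 94) (nat_lit 150)) (PT.nd (nat_lit 78) (PT.lf (nat_lit 5168) (nat_lit 6) (nat_lit 68) (nat_lit 3) (nat_lit 147) (nat_lit 94) (nat_lit 149)) (PT.lf (nat_lit 5244) (nat_lit 3) (nat_lit 69) (nat_lit 1) (nat_lit 148) (nat_lit 94) (nat_lit 148)))) (PT.nd (nat_lit 156) (PT.nd (nat_lit 78) (PT.lf (nat_lit 5168) (nat_lit 6) (nat_lit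 68) (nat_lit 1) (nat_lit 149) (nat_lit 94) (nat_lit 147)) (PT.lf (nat_lit 5092) (nat_lit 6) (nat_lit 67) (nat_lit 1) (nat_lit 150) (nat_lit 94) (nat_lit 146))) (PT.nd (nat_lit 40092) (PT.lf (nat_lit 5016) (nat_lit 6) (nat_lit 66) (nat_lit 1) (nat_lit 151) (nat_lit 94) (nat_lit 145)) (PT.lf (nat_lit 5320) (nat_lit 6) (nat_lit 70) (nat_lit 3) (nat_lit 144) (nat_lit 95) (nat_lit 151))))))))
noncomputable def pc2 : PT := (PT.nd (nat_lit 122070) (PT.nd (nat_lit 41028) (PT.nd (nat_lit 468) (PT.nd (nat_lit 234) (PT.nd (nat_lit 78) (PT.lf (nat_lit 5396) (nat_lit 6) (nat_lit 71) (nat_lit 3) (nat_lit 145) (nat_lit 95) (nat_lit 150)) (PT.nd (nat_lit 78) (PT.lf (nat_lit 5472) (nat_lit 6) (nat_lit 72) (nat_lit 3) (nat_lit 146) (nat_lit 95) (nat_lit 149)) (PT.lf (nat_lit 5548) (nat_lit 6) (nat_lit 73) (nat_lit 3) (nat_lit 147) (nat_lit 95) (nat_lit 148)))) (PT.nd (nat_lit 78) (PT.lf (nat_lit 5548) (nat_lit 6)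 (nat_lit 73) (nat_lit 1) (nat_lit 148) (nat_lit 95) (nat_lit 147)) (PT.nd (nat_lit 78) (PT.lf (nat_lit 5472) (nat_lit 6) (nat_lit 72) (nat_lit 1) (nat_lit 149) (nat_lit 95) (nat_lit 146)) (PT.lf (nat_lit 5396) (nat_lit 6) (nat_lit 71) (nat_lit 1) (nat_lit 150) (nat_lit 95) (nat_lit 145))))) (PT.nd (nat_lit 40248) (PT.nd (nat_lit 40092) (PT.lf (nat_lit 5320) (nat_lit 6) (nat_lit 70) (nat_lit 1) (nat_lit 151) (nat_lit 95) (nat_lit 144)) (PT.nd (nat_lit 78) (PT.lf (nat_lit 5624) (nat_lit 6) (nat_lit 74) (nat_lit 3) (nat_lit 144) (nat_lit 96) (nat_lit 150)) (PT.lf (nat_lit 5700) (nat_lit 6) (nat_lit 75) (nat_lit 3) (nat_lit 145) (nat_lit 96) (nat_lit 149)))) (PT.nd (nat_lit 156) (PT.nd (nat_lit 78) (PT.lf (nat_lit 5776) (nat_lit 6) (nat_lit 76) (nat_lit 3) (nat_lit 146) (nat_lit 96) (nat_lit 148)) (PT.lf (nat_lit 5852) (nat_lit 3) (nat_lit 77) (nat_lit 1) (nat_lit 147) (nat_lit 96) (nat_lit 147)))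 (PT.nd (nat_lit 78) (PT.lf (nat_lit 5776) (nat_lit 6) (nat_lit 76) (nat_lit 1) (nat_lit 148) (nat_lit 96) (nat_lit 146)) (PT.lf (nat_lit 5700) (nat_lit 6) (nat_lit 75) (nat_lit 1) (nat_lit 149) (nat_lit 96) (nat_lit 145)))))) (PT.nd (nat_lit 40482) (PT.nd (nat_lit 40248) (PT.nd (nat_lit 40092) (PT.lf (nat_lit 5624) (nat_lit 6) (nat_lit 74) (nat_lit 1) (nat_lit 150) (nat_lit 96) (nat_lit 144)) (PT.nd (nat_lit 78) (PT.lf (nat_lit 5928) (nat_lit 6) (nat_lit 78) (nat_lit 3) (nat_lit 143) (nat_lit 97) (nat_lit 150)) (PT.lf (nat_lit 6004) (nat_lit 6) (nat_lit 79) (nat_lit 3) (nat_lit 144) (nat_lit 97) (nat_lit 149)))) (PT.nd (nat_lit 78) (PT.lf (nat_lit 6080) (nat_lit 6) (nat_lit 80) (nat_lit 3) (nat_lit 145) (nat_lit 97) (nat_lit 148)) (PT.nd (nat_lit 78) (PT.lf (nat_lit 6156) (nat_lit 6) (nat_lit 81) (nat_lit 3) (nat_lit 146) (nat_lit 97) (nat_lit 147)) (PT.lf (nat_lit 6156) (nat_lit 6) (nat_lit 81)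 (nat_lit 1) (nat_lit 147) (nat_lit 97) (nat_lit 146))))) (PT.nd (nat_lit 40248) (PT.nd (nat_lit 78) (PT.lf (nat_lit 6080) (nat_lit 6) (nat_lit 80) (nat_lit 1) (nat_lit 148) (nat_lit 97) (nat_lit 145)) (PT.nd (nat_lit 78) (PT.lf (nat_lit 6004) (nat_lit 6) (nat_lit 79) (nat_lit 1) (nat_lit 149) (nat_lit 97) (nat_lit 144)) (PT.lf (nat_lit 5928) (nat_lit 6) (nat_lit 78) (nat_lit 1) (nat_lit 150) (nat_lit 97) (nat_lit 143)))) (PT.nd (nat_lit 156) (PT.nd (nat_lit 78) (PT.lf (nat_lit 6308) (nat_lit 6) (nat_lit 83) (nat_lit 3) (nat_lit 143) (nat_lit 98) (nat_lit 149)) (PT.lf (nat_lit 6384) (nat_lit 6) (nat_lit 84) (nat_lit 3) (nat_lit 144) (nat_lit 98) (nat_lit 148))) (PT.nd (nat_lit 78) (PT.lf (nat_lit 6460) (nat_lit 6) (nat_lit 85) (nat_lit 3) (nat_lit 145) (nat_lit 98) (nat_lit 147)) (PT.lf (nat_lit 6536) (nat_lit 3) (nat_lit 86) (nat_lit 1) (nat_lit 146) (nat_lit 98) (nat_lit 146))))))) (PT.nd (nat_lit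 80964) (PT.nd (nat_lit 40482) (PT.nd (nat_lit 40248) (PT.nd (nat_lit 78) (PT.lf (nat_lit 6460) (nat_lit 6) (nat_lit 85) (nat_lit 1) (nat_lit 147) (nat_lit 98) (nat_lit 145)) (PT.nd (nat_lit 78) (PT.lf (nat_lit 6384) (nat_lit 6) (nat_lit 84) (nat_lit 1) (nat_lit 148) (nat_lit 98) (nat_lit 144)) (PT.lf (nat_lit 6308) (nat_lit 6) (nat_lit 83) (nat_lit 1) (nat_lit 149) (nat_lit 98) (nat_lit 143)))) (PT.nd (nat_lit 78) (PT.lf (nat_lit 6612) (nat_lit 6) (nat_lit 87) (nat_lit 3) (nat_lit 142) (nat_lit 99) (nat_lit 149)) (PT.nd (nat_lit 78) (PT.lf (nat_lit 6688) (nat_lit 6) (nat_lit 88) (nat_lit 3) (nat_lit 143) (nat_lit 99) (nat_lit 148)) (PT.lf (nat_lit 6764) (nat_lit 6) (nat_lit 89) (nat_lit 3) (nat_lit 144) (nat_lit 99) (nat_lit 147))))) (PT.nd (nat_lit 234) (PT.nd (nat_lit 78) (PT.lf (nat_lit 6840) (nat_lit 6) (nat_lit 90) (nat_lit 3) (nat_lit 145) (nat_lit 99) (nat_lit 146)) (PT.nd (nat_lit 78) (PT.lf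 (nat_lit 6840) (nat_lit 6) (nat_lit 90) (nat_lit 1) (nat_lit 146) (nat_lit 99) (nat_lit 145)) (PT.lf (nat_lit 6764) (nat_lit 6) (nat_lit 89) (nat_lit 1) (nat_lit 147) (nat_lit 99) (nat_lit 144)))) (PT.nd (nat_lit 40092) (PT.nd (nat_lit 78) (PT.lf (nat_lit 6688) (nat_lit 6) (nat_lit 88) (nat_lit 1) (nat_lit 148) (nat_lit 99) (nat_lit 143)) (PT.lf (nat_lit 6612) (nat_lit 6) (nat_lit 87) (nat_lit 1) (nat_lit 149) (nat_lit 99) (nat_lit 142))) (PT.nd (nat_lit 78) (PT.lf (nat_lit 6916) (nat_lit 6) (nat_lit 91) (nat_lit 3) (nat_lit 141) (nat_lit 100) (nat_lit 149)) (PT.lf (nat_lit 6992) (nat_lit 6) (nat_lit 92) (nat_lit 3) (nat_lit 142) (nat_lit 100) (nat_lit 148)))))) (PT.nd (nat_lit 40404) (PT.nd (nat_lit 234) (PT.nd (nat_lit 78) (PT.lf (nat_lit 7068) (nat_lit 6) (nat_lit 93) (nat_lit 3) (nat_lit 143) (nat_lit 100) (nat_lit 147)) (PT.nd (nat_lit 78) (PT.lf (nat_lit 7144) (nat_lit 6) (nat_lit 94) (nat_lit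 3) (nat_lit 144) (nat_lit 100) (nat_lit 146)) (PT.lf (nat_lit 7220) (nat_lit 3) (nat_lit 95) (nat_lit 1) (nat_lit 145) (nat_lit 100) (nat_lit 145)))) (PT.nd (nat_lit 156) (PT.nd (nat_lit 78) (PT.lf (nat_lit 7144) (nat_lit 6) (nat_lit 94) (nat_lit 1) (nat_lit 146) (nat_lit 100) (nat_lit 144)) (PT.lf (nat_lit 7068) (nat_lit 6) (nat_lit 93) (nat_lit 1) (nat_lit 147) (nat_lit 100) (nat_lit 143))) (PT.nd (nat_lit 78) (PT.lf (nat_lit 6992) (nat_lit 6) (nat_lit 92) (nat_lit 1) (nat_lit 148) (nat_lit 100) (nat_lit 142)) (PT.lf (nat_lit 6916) (nat_lit 6) (nat_lit 91) (nat_lit 1) (nat_lit 149) (nat_lit 100) (nat_lit 141))))) (PT.nd (nat_lit 234) (PT.nd (nat_lit 78) (PT.lf (nat_lit 7296) (nat_lit 6) (nat_lit 96) (nat_lit 3) (nat_lit 140) (nat_lit 101) (nat_lit 149)) (PT.nd (nat_lit 78) (PT.lf (nat_lit 7372) (nat_lit 6) (nat_lit 97) (nat_lit 3) (nat_lit 141) (nat_lit 101) (nat_lit 148)) (PT.lf (nat_lit 7448)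 (nat_lit 6) (nat_lit 98) (nat_lit 3) (nat_lit 142) (nat_lit 101) (nat_lit 147)))) (PT.nd (nat_lit 156) (PT.nd (nat_lit 78) (PT.lf (nat_lit 7524) (nat_lit 6) (nat_lit 99) (nat_lit 3) (nat_lit 143) (nat_lit 101) (nat_lit 146)) (PT.lf (nat_lit 7600) (nat_lit 6) (nat_lit 100) (nat_lit 3) (nat_lit 144) (nat_lit 101) (nat_lit 145))) (PT.nd (nat_lit 78) (PT.lf (nat_lit 7600) (nat_lit 6) (nat_lit 100) (nat_lit 1) (nat_lit 145) (nat_lit 101) (nat_lit 144)) (PT.lf (nat_lit 7524) (nat_lit 6) (nat_lit 99) (nat_lit 1) (nat_lit 146) (nat_lit 101) (nat_lit 143))))))))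
noncomputable def pc3 : PT := (PT.nd (nat_lit 121524) (PT.nd (nat_lit 80730) (PT.nd (nat_lit 40326) (PT.nd (nat_lit 40092) (PT.nd (nat_lit 78) (PT.lf (nat_lit 7448) (nat_lit 6) (nat_lit 98) (nat_lit 1) (nat_lit 147) (nat_lit 101) (nat_lit 142)) (PT.nd (nat_lit 78) (PT.lf (nat_lit 7372) (nat_lit 6) (nat_lit 97) (nat_lit 1) (nat_lit 148) (nat_lit 101) (nat_lit 141)) (PT.lf (nat_lit 7296) (nat_lit 6) (nat_lit 96) (nat_lit 1) (nat_lit 149) (nat_lit 101) (nat_lit 140)))) (PT.nd (nat_lit 78) (PT.lf (nat_lit 7676) (nat_lit 6) (nat_lit 101) (nat_lit 3) (nat_lit 140) (nat_lit 102) (nat_lit 148)) (PT.nd (nat_lit 78) (PT.lf (nat_lit 7752) (nat_lit 6) (nat_lit 102) (nat_lit 3) (nat_lit 141) (nat_lit 102) (nat_lit 147)) (PT.lf (nat_lit 7828) (nat_lit 6) (nat_lit 103) (nat_lit 3) (nat_lit 142) (nat_lit 102) (nat_lit 146))))) (PT.nd (nat_lit 234) (PT.nd (nat_lit 78) (PT.lf (nat_lit 7904) (nat_lit 6) (nat_lit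 104) (nat_lit 3) (nat_lit 143) (nat_lit 102) (nat_lit 145)) (PT.nd (nat_lit 78) (PT.lf (nat_lit 7980) (nat_lit 3) (nat_lit 105) (nat_lit 1) (nat_lit 144) (nat_lit 102) (nat_lit 144)) (PT.lf (nat_lit 7904) (nat_lit 6) (nat_lit 104) (nat_lit 1) (nat_lit 145) (nat_lit 102) (nat_lit 143)))) (PT.nd (nat_lit 156) (PT.nd (nat_lit 78) (PT.lf (nat_lit 7828) (nat_lit 6) (nat_lit 103) (nat_lit 1) (nat_lit 146) (nat_lit 102) (nat_lit 142)) (PT.lf (nat_lit 7752) (nat_lit 6) (nat_lit 102) (nat_lit 1) (nat_lit 147) (nat_lit 102) (nat_lit 141))) (PT.nd (nat_lit 39936) (PT.lf (nat_lit 7676) (nat_lit 6) (nat_lit 101) (nat_lit 1) (nat_lit 148) (nat_lit 102) (nat_lit 140)) (PT.lf (nat_lit 8056) (nat_lit 6) (nat_lit 106) (nat_lit 3) (nat_lit 139) (nat_lit 103) (nat_lit 148)))))) (PT.nd (nat_lit 468) (PT.nd (nat_lit 234) (PT.nd (nat_lit 78) (PT.lf (nat_lit 8132) (nat_lit 6) (nat_lit 107) (nat_lit 3) (nat_lit 140) (nat_lit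 103) (nat_lit 147)) (PT.nd (nat_lit 78) (PT.lf (nat_lit 8208) (nat_lit 6) (nat_lit 108) (nat_lit 3) (nat_lit 141) (nat_lit 103) (nat_lit 146)) (PT.lf (nat_lit 8284) (nat_lit 6) (nat_lit 109) (nat_lit 3) (nat_lit 142) (nat_lit 103) (nat_lit 145)))) (PT.nd (nat_lit 78) (PT.lf (nat_lit 8360) (nat_lit 6) (nat_lit 110) (nat_lit 3) (nat_lit 143) (nat_lit 103) (nat_lit 144)) (PT.nd (nat_lit 78) (PT.lf (nat_lit 8360) (nat_lit 6) (nat_lit 110) (nat_lit 1) (nat_lit 144) (nat_lit 103) (nat_lit 143)) (PT.lf (nat_lit 8284) (nat_lit 6) (nat_lit 109) (nat_lit 1) (nat_lit 145) (nat_lit 103) (nat_lit 142))))) (PT.nd (nat_lit 40014) (PT.nd (nat_lit 78) (PT.lf (nat_lit 8208) (nat_lit 6) (nat_lit 108) (nat_lit 1) (nat_lit 146) (nat_lit 103) (nat_lit 141)) (PT.nd (nat_lit 78) (PT.lf (nat_lit 8132) (nat_lit 6) (nat_lit 107) (nat_lit 1) (nat_lit 147) (nat_lit 103) (nat_lit 140)) (PT.lf (nat_lit 8056) (nat_lit 6) (nat_lit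 106) (nat_lit 1) (nat_lit 148) (nat_lit 103) (nat_lit 139)))) (PT.nd (nat_lit 156) (PT.nd (nat_lit 78) (PT.lf (nat_lit 8436) (nat_lit 6) (nat_lit 111) (nat_lit 3) (nat_lit 138) (nat_lit 104) (nat_lit 148)) (PT.lf (nat_lit 8512) (nat_lit 6) (nat_lit 112) (nat_lit 3) (nat_lit 139) (nat_lit 104) (nat_lit 147))) (PT.nd (nat_lit 78) (PT.lf (nat_lit 8588) (nat_lit 6) (nat_lit 113) (nat_lit 3) (nat_lit 140) (nat_lit 104) (nat_lit 146)) (PT.lf (nat_lit 8664) (nat_lit 6) (nat_lit 114) (nat_lit 3) (nat_lit 141) (nat_lit 104) (nat_lit 145))))))) (PT.nd (nat_lit 40794) (PT.nd (nat_lit 468) (PT.nd (nat_lit 234) (PT.nd (nat_lit 78) (PT.lf (nat_lit 8740) (nat_lit 6) (nat_lit 115) (nat_lit 3) (nat_lit 142) (nat_lit 104) (nat_lit 144)) (PT.nd (nat_lit 78) (PT.lf (nat_lit 8816) (nat_lit 3) (nat_lit 116) (nat_lit 1) (nat_lit 143) (nat_lit 104) (nat_lit 143)) (PT.lf (nat_lit 8740) (nat_lit 6) (nat_lit 115) (nat_lit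 1) (nat_lit 144) (nat_lit 104) (nat_lit 142)))) (PT.nd (nat_lit 78) (PT.lf (nat_lit 8664) (nat_lit 6) (nat_lit 114) (nat_lit 1) (nat_lit 145) (nat_lit 104) (nat_lit 141)) (PT.nd (nat_lit 78) (PT.lf (nat_lit 8588) (nat_lit 6) (nat_lit 113) (nat_lit 1) (nat_lit 146) (nat_lit 104) (nat_lit 140)) (PT.lf (nat_lit 8512) (nat_lit 6) (nat_lit 112) (nat_lit 1) (nat_lit 147) (nat_lit 104) (nat_lit 139))))) (PT.nd (nat_lit 40014) (PT.nd (nat_lit 39858) (PT.lf (nat_lit 8436) (nat_lit 6) (nat_lit 111) (nat_lit 1) (nat_lit 148) (nat_lit 104) (nat_lit 138)) (PT.nd (nat_lit 78) (PT.lf (nat_lit 8892) (nat_lit 6) (nat_lit 117) (nat_lit 3) (nat_lit 138) (nat_lit 105) (nat_lit 147)) (PT.lf (nat_lit 8968) (nat_lit 6) (nat_lit 118) (nat_lit 3) (nat_lit 139) (nat_lit 105) (nat_lit 146)))) (PT.nd (nat_lit 156) (PT.nd (nat_lit 78) (PT.lf (nat_lit 9044) (nat_lit 6) (nat_lit 119) (nat_lit 3) (nat_lit 140) (nat_lit 105) (nat_lit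 145)) (PT.lf (nat_lit 9120) (nat_lit 6) (nat_lit 120) (nat_lit 3) (nat_lit 141) (nat_lit 105) (nat_lit 144))) (PT.nd (nat_lit 78) (PT.lf (nat_lit 9196) (nat_lit 6) (nat_lit 121) (nat_lit 3) (nat_lit 142) (nat_lit 105) (nat_lit 143)) (PT.lf (nat_lit 9196) (nat_lit 6) (nat_lit 121) (nat_lit 1) (nat_lit 143) (nat_lit 105) (nat_lit 142)))))) (PT.nd (nat_lit 40326) (PT.nd (nat_lit 234) (PT.nd (nat_lit 78) (PT.lf (nat_lit 9120) (nat_lit 6) (nat_lit 120) (nat_lit 1) (nat_lit 144) (nat_lit 105) (nat_lit 141)) (PT.nd (nat_lit 78) (PT.lf (nat_lit 9044) (nat_lit 6) (nat_lit 119) (nat_lit 1) (nat_lit 145) (nat_lit 105) (nat_lit 140)) (PT.lf (nat_lit 8968) (nat_lit 6) (nat_lit 118) (nat_lit 1) (nat_lit 146) (nat_lit 105) (nat_lit 139)))) (PT.nd (nat_lit 39936) (PT.nd (nat_lit 39858) (PT.lf (nat_lit 8892) (nat_lit 6) (nat_lit 117) (nat_lit 1) (nat_lit 147) (nat_lit 105) (nat_lit 138)) (PT.lf (nat_lit 9272) (nat_lit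 6) (nat_lit 122) (nat_lit 3) (nat_lit 137) (nat_lit 106) (nat_lit 147))) (PT.nd (nat_lit 78) (PT.lf (nat_lit 9348) (nat_lit 6) (nat_lit 123) (nat_lit 3) (nat_lit 138) (nat_lit 106) (nat_lit 146)) (PT.lf (nat_lit 9424) (nat_lit 6) (nat_lit 124) (nat_lit 3) (nat_lit 139) (nat_lit 106) (nat_lit 145))))) (PT.nd (nat_lit 234) (PT.nd (nat_lit 78) (PT.lf (nat_lit 9500) (nat_lit 6) (nat_lit 125) (nat_lit 3) (nat_lit 140) (nat_lit 106) (nat_lit 144)) (PT.nd (nat_lit 78) (PT.lf (nat_lit 9576) (nat_lit 6) (nat_lit 126) (nat_lit 3) (nat_lit 141) (nat_lit 106) (nat_lit 143)) (PT.lf (nat_lit 9652) (nat_lit 3) (nat_lit 127) (nat_lit 1) (nat_lit 142) (nat_lit 106) (nat_lit 142)))) (PT.nd (nat_lit 156) (PT.nd (nat_lit 78) (PT.lf (nat_lit 9576) (nat_lit 6) (nat_lit 126) (nat_lit 1) (nat_lit 143) (nat_lit 106) (nat_lit 141)) (PT.lf (nat_lit 9500) (nat_lit 6) (nat_lit 125) (nat_lit 1) (nat_lit 144) (nat_lit 106) (nat_lit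 140))) (PT.nd (nat_lit 78) (PT.lf (nat_lit 9424) (nat_lit 6) (nat_lit 124) (nat_lit 1) (nat_lit 145) (nat_lit 106) (nat_lit 139)) (PT.lf (nat_lit 9348) (nat_lit 6) (nat_lit 123) (nat_lit 1) (nat_lit 146) (nat_lit 106) (nat_lit 138))))))))
noncomputable def pc4 : PT := (PT.nd (nat_lit 120978) (PT.nd (nat_lit 80340) (PT.nd (nat_lit 40170) (PT.nd (nat_lit 39936) (PT.nd (nat_lit 39780) (PT.lf (nat_lit 9272) (nat_lit 6) (nat_lit 122) (nat_lit 1) (nat_lit 147) (nat_lit 106) (nat_lit 137)) (PT.nd (nat_lit 78) (PT.lf (nat_lit 9728) (nat_lit 6) (nat_lit 128) (nat_lit 3) (nat_lit 136) (nat_lit 107) (nat_lit 147)) (PT.lf (nat_lit 9804) (nat_lit 6) (nat_lit 129) (nat_lit 3) (nat_lit 137) (nat_lit 107) (nat_lit 146)))) (PT.nd (nat_lit 78) (PT.lf (nat_lit 9880) (nat_lit 6) (nat_lit 130) (nat_lit 3) (nat_lit 138) (nat_lit 107) (nat_lit 145)) (PT.nd (nat_lit 78) (PT.lf (nat_lit 9956) (nat_lit 6) (nat_lit 131)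 (nat_lit 3) (nat_lit 139) (nat_lit 107) (nat_lit 144)) (PT.lf (nat_lit 10032) (nat_lit 6) (nat_lit 132) (nat_lit 3) (nat_lit 140) (nat_lit 107) (nat_lit 143))))) (PT.nd (nat_lit 234) (PT.nd (nat_lit 78) (PT.lf (nat_lit 10108) (nat_lit 6) (nat_lit 133) (nat_lit 3) (nat_lit 141) (nat_lit 107) (nat_lit 142)) (PT.nd (nat_lit 78) (PT.lf (nat_lit 10108) (nat_lit 6) (nat_lit 133) (nat_lit 1) (nat_lit 142) (nat_lit 107) (nat_lit 141)) (PT.lf (nat_lit 10032) (nat_lit 6) (nat_lit 132) (nat_lit 1) (nat_lit 143) (nat_lit 107) (nat_lit 140)))) (PT.nd (nat_lit 156) (PT.nd (nat_lit 78) (PT.lf (nat_lit 9956) (nat_lit 6) (nat_lit 131) (nat_lit 1) (nat_lit 144) (nat_lit 107) (nat_lit 139)) (PT.lf (nat_lit 9880) (nat_lit 6) (nat_lit 130) (nat_lit 1) (nat_lit 145) (nat_lit 107) (nat_lit 138))) (PT.nd (nat_lit 78) (PT.lf (nat_lit 9804) (nat_lit 6) (nat_lit 129) (nat_lit 1) (nat_lit 146) (nat_lit 107) (nat_lit 137))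 (PT.lf (nat_lit 9728) (nat_lit 6) (nat_lit 128) (nat_lit 1) (nat_lit 147) (nat_lit 107) (nat_lit 136)))))) (PT.nd (nat_lit 468) (PT.nd (nat_lit 234) (PT.nd (nat_lit 78) (PT.lf (nat_lit 10184) (nat_lit 6) (nat_lit 134) (nat_lit 3) (nat_lit 135) (nat_lit 108) (nat_lit 147)) (PT.nd (nat_lit 78) (PT.lf (nat_lit 10260) (nat_lit 6) (nat_lit 135) (nat_lit 3) (nat_lit 136) (nat_lit 108) (nat_lit 146)) (PT.lf (nat_lit 10336) (nat_lit 6) (nat_lit 136) (nat_lit 3) (nat_lit 137) (nat_lit 108) (nat_lit 145)))) (PT.nd (nat_lit 78) (PT.lf (nat_lit 10412) (nat_lit 6) (nat_lit 137) (nat_lit 3) (nat_lit 138) (nat_lit 108) (nat_lit 144)) (PT.nd (nat_lit 78) (PT.lf (nat_lit 10488) (nat_lit 6) (nat_lit 138) (nat_lit 3) (nat_lit 139) (nat_lit 108) (nat_lit 143)) (PT.lf (nat_lit 10564) (nat_lit 6) (nat_lit 139) (nat_lit 3) (nat_lit 140) (nat_lit 108) (nat_lit 142))))) (PT.nd (nat_lit 234) (PT.nd (nat_lit 78) (PT.lf (nat_lit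 10640) (nat_lit 3) (nat_lit 140) (nat_lit 1) (nat_lit 141) (nat_lit 108) (nat_lit 141)) (PT.nd (nat_lit 78) (PT.lf (nat_lit 10564) (nat_lit 6) (nat_lit 139) (nat_lit 1) (nat_lit 142) (nat_lit 108) (nat_lit 140)) (PT.lf (nat_lit 10488) (nat_lit 6) (nat_lit 138) (nat_lit 1) (nat_lit 143) (nat_lit 108) (nat_lit 139)))) (PT.nd (nat_lit 156) (PT.nd (nat_lit 78) (PT.lf (nat_lit 10412) (nat_lit 6) (nat_lit 137) (nat_lit 1) (nat_lit 144) (nat_lit 108) (nat_lit 138)) (PT.lf (nat_lit 10336) (nat_lit 6) (nat_lit 136) (nat_lit 1) (nat_lit 145) (nat_lit 108) (nat_lit 137))) (PT.nd (nat_lit 78) (PT.lf (nat_lit 10260) (nat_lit 6) (nat_lit 135) (nat_lit 1) (nat_lit 146) (nat_lit 108) (nat_lit 136)) (PT.lf (nat_lit 10184) (nat_lit 6) (nat_lit 134) (nat_lit 1) (nat_lit 147) (nat_lit 108) (nat_lit 135))))))) (PT.nd (nat_lit 40638) (PT.nd (nat_lit 468) (PT.nd (nat_lit 234) (PT.nd (nat_lit 78) (PT.lf (nat_lit 10792)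 (nat_lit 6) (nat_lit 142) (nat_lit 3) (nat_lit 135) (nat_lit 109) (nat_lit 146)) (PT.nd (nat_lit 78) (PT.lf (nat_lit 10868) (nat_lit 6) (nat_lit 143) (nat_lit 3) (nat_lit 136) (nat_lit 109) (nat_lit 145)) (PT.lf (nat_lit 10944) (nat_lit 6) (nat_lit 144) (nat_lit 3) (nat_lit 137) (nat_lit 109) (nat_lit 144)))) (PT.nd (nat_lit 78) (PT.lf (nat_lit 11020) (nat_lit 6) (nat_lit 145) (nat_lit 3) (nat_lit 138) (nat_lit 109) (nat_lit 143)) (PT.nd (nat_lit 78) (PT.lf (nat_lit 11096) (nat_lit 6) (nat_lit 146) (nat_lit 3) (nat_lit 139) (nat_lit 109) (nat_lit 142)) (PT.lf (nat_lit 11172) (nat_lit 6) (nat_lit 147) (nat_lit 3) (nat_lit 140) (nat_lit 109) (nat_lit 141))))) (PT.nd (nat_lit 234) (PT.nd (nat_lit 78) (PT.lf (nat_lit 11172) (nat_lit 6) (nat_lit 147) (nat_lit 1) (nat_lit 141) (nat_lit 109) (nat_lit 140)) (PT.nd (nat_lit 78) (PT.lf (nat_lit 11096) (nat_lit 6) (nat_lit 146) (nat_lit 1) (nat_lit 142) (nat_lit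 109) (nat_lit 139)) (PT.lf (nat_lit 11020) (nat_lit 6) (nat_lit 145) (nat_lit 1) (nat_lit 143) (nat_lit 109) (nat_lit 138)))) (PT.nd (nat_lit 156) (PT.nd (nat_lit 78) (PT.lf (nat_lit 10944) (nat_lit 6) (nat_lit 144) (nat_lit 1) (nat_lit 144) (nat_lit 109) (nat_lit 137)) (PT.lf (nat_lit 10868) (nat_lit 6) (nat_lit 143) (nat_lit 1) (nat_lit 145) (nat_lit 109) (nat_lit 136))) (PT.nd (nat_lit 39702) (PT.lf (nat_lit 10792) (nat_lit 6) (nat_lit 142) (nat_lit 1) (nat_lit 146) (nat_lit 109) (nat_lit 135)) (PT.lf (nat_lit 11248) (nat_lit 6) (nat_lit 148) (nat_lit 3) (nat_lit 134) (nat_lit 110) (nat_lit 146)))))) (PT.nd (nat_lit 546) (PT.nd (nat_lit 234) (PT.nd (nat_lit 78) (PT.lf (nat_lit 11324) (nat_lit 6) (nat_lit 149) (nat_lit 3) (nat_lit 135) (nat_lit 110) (nat_lit 145)) (PT.nd (nat_lit 78) (PT.lf (nat_lit 11400) (nat_lit 6) (nat_lit 150) (nat_lit 3) (nat_lit 136) (nat_lit 110) (nat_lit 144)) (PT.lf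 (nat_lit 11476) (nat_lit 6) (nat_lit 151) (nat_lit 3) (nat_lit 137) (nat_lit 110) (nat_lit 143)))) (PT.nd (nat_lit 156) (PT.nd (nat_lit 78) (PT.lf (nat_lit 11552) (nat_lit 6) (nat_lit 152) (nat_lit 3) (nat_lit 138) (nat_lit 110) (nat_lit 142)) (PT.lf (nat_lit 11628) (nat_lit 6) (nat_lit 153) (nat_lit 3) (nat_lit 139) (nat_lit 110) (nat_lit 141))) (PT.nd (nat_lit 78) (PT.lf (nat_lit 11704) (nat_lit 3) (nat_lit 154) (nat_lit 1) (nat_lit 140) (nat_lit 110) (nat_lit 140)) (PT.lf (nat_lit 11628) (nat_lit 6) (nat_lit 153) (nat_lit 1) (nat_lit 141) (nat_lit 110) (nat_lit 139))))) (PT.nd (nat_lit 234) (PT.nd (nat_lit 78) (PT.lf (nat_lit 11552) (nat_lit 6) (nat_lit 152) (nat_lit 1) (nat_lit 142) (nat_lit 110) (nat_lit 138)) (PT.nd (nat_lit 78) (PT.lf (nat_lit 11476) (nat_lit 6) (nat_lit 151) (nat_lit 1) (nat_lit 143) (nat_lit 110) (nat_lit 137)) (PT.lf (nat_lit 11400) (nat_lit 6) (nat_lit 150) (nat_lit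 1) (nat_lit 144) (nat_lit 110) (nat_lit 136)))) (PT.nd (nat_lit 39702) (PT.nd (nat_lit 78) (PT.lf (nat_lit 11324) (nat_lit 6) (nat_lit 149) (nat_lit 1) (nat_lit 145) (nat_lit 110) (nat_lit 135)) (PT.lf (nat_lit 11248) (nat_lit 6) (nat_lit 148) (nat_lit 1) (nat_lit 146) (nat_lit 110) (nat_lit 134))) (PT.nd (nat_lit 78) (PT.lf (nat_lit 11780) (nat_lit 6) (nat_lit 155) (nat_lit 3) (nat_lit 133) (nat_lit 111) (nat_lit 146)) (PT.lf (nat_lit 11856) (nat_lit 6) (nat_lit 156) (nat_lit 3) (nat_lit 134) (nat_lit 111) (nat_lit 145))))))))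
noncomputable def pc5 : PT := (PT.nd (nat_lit 41496) (PT.nd (nat_lit 40482) (PT.nd (nat_lit 468) (PT.nd (nat_lit 234) (PT.nd (nat_lit 78) (PT.lf (nat_lit 11932) (nat_lit 6) (nat_lit 157) (nat_lit 3) (nat_lit 135) (nat_lit 111) (nat_lit 144)) (PT.nd (nat_lit 78) (PT.lf (nat_lit 12008) (nat_lit 6) (nat_lit 158) (nat_lit 3) (nat_lit 136) (nat_lit 111) (nat_lit 143)) (PT.lf (nat_lit 12084) (nat_lit 6) (nat_lit 159) (nat_lit 3) (nat_lit 137) (nat_lit 111) (nat_lit 142)))) (PT.nd (nat_lit 78) (PT.lf (nat_lit 12160) (nat_lit 6) (nat_lit 160) (nat_lit 3) (nat_lit 138) (nat_lit 111) (nat_lit 141)) (PT.nd (nat_lit 78) (PT.lf (nat_lit 12236) (nat_lit 6) (nat_lit 161) (nat_lit 3) (nat_lit 139) (nat_lit 111) (nat_lit 140)) (PT.lf (nat_lit 12236) (nat_lit 6) (nat_lit 161) (nat_lit 1) (nat_lit 140) (nat_lit 111) (nat_lit 139))))) (PT.nd (nat_lit 234) (PT.nd (nat_lit 78) (PT.lf (nat_lit 12160) (nat_lit 6) (nat_lit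 160) (nat_lit 1) (nat_lit 141) (nat_lit 111) (nat_lit 138)) (PT.nd (nat_lit 78) (PT.lf (nat_lit 12084) (nat_lit 6) (nat_lit 159) (nat_lit 1) (nat_lit 142) (nat_lit 111) (nat_lit 137)) (PT.lf (nat_lit 12008) (nat_lit 6) (nat_lit 158) (nat_lit 1) (nat_lit 143) (nat_lit 111) (nat_lit 136)))) (PT.nd (nat_lit 156) (PT.nd (nat_lit 78) (PT.lf (nat_lit 11932) (nat_lit 6) (nat_lit 157) (nat_lit 1) (nat_lit 144) (nat_lit 111) (nat_lit 135)) (PT.lf (nat_lit 11856) (nat_lit 6) (nat_lit 156) (nat_lit 1) (nat_lit 145) (nat_lit 111) (nat_lit 134))) (PT.nd (nat_lit 39546) (PT.lf (nat_lit 11780) (nat_lit 6) (nat_lit 155) (nat_lit 1) (nat_lit 146) (nat_lit 111) (nat_lit 133)) (PT.lf (nat_lit 12312) (nat_lit 6) (nat_lit 162) (nat_lit 3) (nat_lit 132) (nat_lit 112) (nat_lit 146)))))) (PT.nd (nat_lit 468) (PT.nd (nat_lit 234) (PT.nd (nat_lit 78) (PT.lf (nat_lit 12388) (nat_lit 6) (nat_lit 163) (nat_lit 3) (nat_lit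 133) (nat_lit 112) (nat_lit 145)) (PT.nd (nat_lit 78) (PT.lf (nat_lit 12464) (nat_lit 6) (nat_lit 164) (nat_lit 3) (nat_lit 134) (nat_lit 112) (nat_lit 144)) (PT.lf (nat_lit 12540) (nat_lit 6) (nat_lit 165) (nat_lit 3) (nat_lit 135) (nat_lit 112) (nat_lit 143)))) (PT.nd (nat_lit 78) (PT.lf (nat_lit 12616) (nat_lit 6) (nat_lit 166) (nat_lit 3) (nat_lit 136) (nat_lit 112) (nat_lit 142)) (PT.nd (nat_lit 78) (PT.lf (nat_lit 12692) (nat_lit 6) (nat_lit 167) (nat_lit 3) (nat_lit 137) (nat_lit 112) (nat_lit 141)) (PT.lf (nat_lit 12768) (nat_lit 6) (nat_lit 168) (nat_lit 3) (nat_lit 138) (nat_lit 112) (nat_lit 140))))) (PT.nd (nat_lit 234) (PT.nd (nat_lit 78) (PT.lf (nat_lit 12844) (nat_lit 3) (nat_lit 169) (nat_lit 1) (nat_lit 139) (nat_lit 112) (nat_lit 139)) (PT.nd (nat_lit 78) (PT.lf (nat_lit 12768) (nat_lit 6) (nat_lit 168) (nat_lit 1) (nat_lit 140) (nat_lit 112) (nat_lit 138)) (PT.lf (nat_lit 12692)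 (nat_lit 6) (nat_lit 167) (nat_lit 1) (nat_lit 141) (nat_lit 112) (nat_lit 137)))) (PT.nd (nat_lit 156) (PT.nd (nat_lit 78) (PT.lf (nat_lit 12616) (nat_lit 6) (nat_lit 166) (nat_lit 1) (nat_lit 142) (nat_lit 112) (nat_lit 136)) (PT.lf (nat_lit 12540) (nat_lit 6) (nat_lit 165) (nat_lit 1) (nat_lit 143) (nat_lit 112) (nat_lit 135))) (PT.nd (nat_lit 78) (PT.lf (nat_lit 12464) (nat_lit 6) (nat_lit 164) (nat_lit 1) (nat_lit 144) (nat_lit 112) (nat_lit 134)) (PT.lf (nat_lit 12388) (nat_lit 6) (nat_lit 163) (nat_lit 1) (nat_lit 145) (nat_lit 112) (nat_lit 133))))))) (PT.nd (nat_lit 40404) (PT.nd (nat_lit 39858) (PT.nd (nat_lit 39624) (PT.nd (nat_lit 39468) (PT.lf (nat_lit 12312) (nat_lit 6) (nat_lit 162) (nat_lit 1) (nat_lit 146) (nat_lit 112) (nat_lit 132)) (PT.nd (nat_lit 78) (PT.lf (nat_lit 12920) (nat_lit 6) (nat_lit 170) (nat_lit 3) (nat_lit 131) (nat_lit 113) (nat_lit 146)) (PT.lf (nat_lit 12996)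 (nat_lit 6) (nat_lit 171) (nat_lit 3) (nat_lit 132) (nat_lit 113) (nat_lit 145)))) (PT.nd (nat_lit 78) (PT.lf (nat_lit 13072) (nat_lit 6) (nat_lit 172) (nat_lit 3) (nat_lit 133) (nat_lit 113) (nat_lit 144)) (PT.nd (nat_lit 78) (PT.lf (nat_lit 13148) (nat_lit 6) (nat_lit 173) (nat_lit 3) (nat_lit 134) (nat_lit 113) (nat_lit 143)) (PT.lf (nat_lit 13224) (nat_lit 6) (nat_lit 174) (nat_lit 3) (nat_lit 135) (nat_lit 113) (nat_lit 142))))) (PT.nd (nat_lit 234) (PT.nd (nat_lit 78) (PT.lf (nat_lit 13300) (nat_lit 6) (nat_lit 175) (nat_lit 3) (nat_lit 136) (nat_lit 113) (nat_lit 141)) (PT.nd (nat_lit 78) (PT.lf (nat_lit 13376) (nat_lit 6) (nat_lit 176) (nat_lit 3) (nat_lit 137) (nat_lit 113) (nat_lit 140)) (PT.lf (nat_lit 13452) (nat_lit 6) (nat_lit 177) (nat_lit 3) (nat_lit 138) (nat_lit 113) (nat_lit 139)))) (PT.nd (nat_lit 156) (PT.nd (nat_lit 78) (PT.lf (nat_lit 13452) (nat_lit 6) (nat_lit 177) (nat_lit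 1) (nat_lit 139) (nat_lit 113) (nat_lit 138)) (PT.lf (nat_lit 13376) (nat_lit 6) (nat_lit 176) (nat_lit 1) (nat_lit 140) (nat_lit 113) (nat_lit 137))) (PT.nd (nat_lit 78) (PT.lf (nat_lit 13300) (nat_lit 6) (nat_lit 175) (nat_lit 1) (nat_lit 141) (nat_lit 113) (nat_lit 136)) (PT.lf (nat_lit 13224) (nat_lit 6) (nat_lit 174) (nat_lit 1) (nat_lit 142) (nat_lit 113) (nat_lit 135)))))) (PT.nd (nat_lit 39858) (PT.nd (nat_lit 234) (PT.nd (nat_lit 78) (PT.lf (nat_lit 13148) (nat_lit 6) (nat_lit 173) (nat_lit 1) (nat_lit 143) (nat_lit 113) (nat_lit 134)) (PT.nd (nat_lit 78) (PT.lf (nat_lit 13072) (nat_lit 6) (nat_lit 172) (nat_lit 1) (nat_lit 144) (nat_lit 113) (nat_lit 133)) (PT.lf (nat_lit 12996) (nat_lit 6) (nat_lit 171) (nat_lit 1) (nat_lit 145) (nat_lit 113) (nat_lit 132)))) (PT.nd (nat_lit 39468) (PT.nd (nat_lit 39390) (PT.lf (nat_lit 12920) (nat_lit 6) (nat_lit 170) (nat_lit 1) (nat_lit 146) (nat_lit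 113) (nat_lit 131)) (PT.lf (nat_lit 13528) (nat_lit 6) (nat_lit 178) (nat_lit 3) (nat_lit 130) (nat_lit 114) (nat_lit 146))) (PT.nd (nat_lit 78) (PT.lf (nat_lit 13604) (nat_lit 6) (nat_lit 179) (nat_lit 3) (nat_lit 131) (nat_lit 114) (nat_lit 145)) (PT.lf (nat_lit 13680) (nat_lit 6) (nat_lit 180) (nat_lit 3) (nat_lit 132) (nat_lit 114) (nat_lit 144))))) (PT.nd (nat_lit 234) (PT.nd (nat_lit 78) (PT.lf (nat_lit 13756) (nat_lit 6) (nat_lit 181) (nat_lit 3) (nat_lit 133) (nat_lit 114) (nat_lit 143)) (PT.nd (nat_lit 78) (PT.lf (nat_lit 13832) (nat_lit 6) (nat_lit 182) (nat_lit 3) (nat_lit 134) (nat_lit 114) (nat_lit 142)) (PT.lf (nat_lit 13908) (nat_lit 6) (nat_lit 183) (nat_lit 3) (nat_lit 135) (nat_lit 114) (nat_lit 141)))) (PT.nd (nat_lit 156) (PT.nd (nat_lit 78) (PT.lf (nat_lit 13984) (nat_lit 6) (nat_lit 184) (nat_lit 3) (nat_lit 136) (nat_lit 114) (nat_lit 140)) (PT.lf (nat_lit 14060) (nat_lit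 6) (nat_lit 185) (nat_lit 3) (nat_lit 137) (nat_lit 114) (nat_lit 139))) (PT.nd (nat_lit 78) (PT.lf (nat_lit 14136) (nat_lit 3) (nat_lit 186) (nat_lit 1) (nat_lit 138) (nat_lit 114) (nat_lit 138)) (PT.lf (nat_lit 14060) (nat_lit 6) (nat_lit 185) (nat_lit 1) (nat_lit 139) (nat_lit 114) (nat_lit 137))))))))
noncomputable def pc6 : PT := (PT.nd (nat_lit 80652) (PT.nd (nat_lit 40326) (PT.nd (nat_lit 468) (PT.nd (nat_lit 234) (PT.nd (nat_lit 78) (PT.lf (nat_lit 13984) (nat_lit 6) (nat_lit 184) (nat_lit 1) (nat_lit 140) (nat_lit 114) (nat_lit 136)) (PT.nd (nat_lit 78) (PT.lf (nat_lit 13908) (nat_lit 6) (nat_lit 183) (nat_lit 1) (nat_lit 141) (nat_lit 114) (nat_lit 135)) (PT.lf (nat_lit 13832) (nat_lit 6) (nat_lit 182) (nat_lit 1) (nat_lit 142) (nat_lit 114) (nat_lit 134)))) (PT.nd (nat_lit 78) (PT.lf (nat_lit 13756) (nat_lit 6) (nat_lit 181) (nat_lit 1) (nat_lit 143) (nat_lit 114) (nat_lit 133)) (PT.nd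 (nat_lit 78) (PT.lf (nat_lit 13680) (nat_lit 6) (nat_lit 180) (nat_lit 1) (nat_lit 144) (nat_lit 114) (nat_lit 132)) (PT.lf (nat_lit 13604) (nat_lit 6) (nat_lit 179) (nat_lit 1) (nat_lit 145) (nat_lit 114) (nat_lit 131))))) (PT.nd (nat_lit 39546) (PT.nd (nat_lit 39390) (PT.lf (nat_lit 13528) (nat_lit 6) (nat_lit 178) (nat_lit 1) (nat_lit 146) (nat_lit 114) (nat_lit 130)) (PT.nd (nat_lit 78) (PT.lf (nat_lit 14744) (nat_lit 6) (nat_lit 194) (nat_lit 3) (nat_lit 130) (nat_lit 115) (nat_lit 145)) (PT.lf (nat_lit 14820) (nat_lit 6) (nat_lit 195) (nat_lit 3) (nat_lit 131) (nat_lit 115) (nat_lit 144)))) (PT.nd (nat_lit 156) (PT.nd (nat_lit 78) (PT.lf (nat_lit 14896) (nat_lit 6) (nat_lit 196) (nat_lit 3) (nat_lit 132) (nat_lit 115) (nat_lit 143)) (PT.lf (nat_lit 14972) (nat_lit 6) (nat_lit 197) (nat_lit 3) (nat_lit 133) (nat_lit 115) (nat_lit 142))) (PT.nd (nat_lit 78) (PT.lf (nat_lit 15048) (nat_lit 6)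 (nat_lit 198) (nat_lit 3) (nat_lit 134) (nat_lit 115) (nat_lit 141)) (PT.lf (nat_lit 15124) (nat_lit 6) (nat_lit 199) (nat_lit 3) (nat_lit 135) (nat_lit 115) (nat_lit 140)))))) (PT.nd (nat_lit 468) (PT.nd (nat_lit 234) (PT.nd (nat_lit 78) (PT.lf (nat_lit 15200) (nat_lit 6) (nat_lit 200) (nat_lit 3) (nat_lit 136) (nat_lit 115) (nat_lit 139)) (PT.nd (nat_lit 78) (PT.lf (nat_lit 15276) (nat_lit 6) (nat_lit 201) (nat_lit 3) (nat_lit 137) (nat_lit 115) (nat_lit 138)) (PT.lf (nat_lit 15276) (nat_lit 6) (nat_lit 201) (nat_lit 1) (nat_lit 138) (nat_lit 115) (nat_lit 137)))) (PT.nd (nat_lit 78) (PT.lf (nat_lit 15200) (nat_lit 6) (nat_lit 200) (nat_lit 1) (nat_lit 139) (nat_lit 115) (nat_lit 136)) (PT.nd (nat_lit 78) (PT.lf (nat_lit 15124) (nat_lit 6) (nat_lit 199) (nat_lit 1) (nat_lit 140) (nat_lit 115) (nat_lit 135)) (PT.lf (nat_lit 15048) (nat_lit 6) (nat_lit 198) (nat_lit 1) (nat_lit 141) (nat_lit 115)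 (nat_lit 134))))) (PT.nd (nat_lit 234) (PT.nd (nat_lit 78) (PT.lf (nat_lit 14972) (nat_lit 6) (nat_lit 197) (nat_lit 1) (nat_lit 142) (nat_lit 115) (nat_lit 133)) (PT.nd (nat_lit 78) (PT.lf (nat_lit 14896) (nat_lit 6) (nat_lit 196) (nat_lit 1) (nat_lit 143) (nat_lit 115) (nat_lit 132)) (PT.lf (nat_lit 14820) (nat_lit 6) (nat_lit 195) (nat_lit 1) (nat_lit 144) (nat_lit 115) (nat_lit 131)))) (PT.nd (nat_lit 39468) (PT.nd (nat_lit 39390) (PT.lf (nat_lit 14744) (nat_lit 6) (nat_lit 194) (nat_lit 1) (nat_lit 145) (nat_lit 115) (nat_lit 130)) (PT.lf (nat_lit 14668) (nat_lit 6) (nat_lit 193) (nat_lit 3) (nat_lit 129) (nat_lit 116) (nat_lit 145))) (PT.nd (nat_lit 78) (PT.lf (nat_lit 15884) (nat_lit 6) (nat_lit 209) (nat_lit 3) (nat_lit 130) (nat_lit 116) (nat_lit 144)) (PT.lf (nat_lit 15960) (nat_lit 6) (nat_lit 210) (nat_lit 3) (nat_lit 131) (nat_lit 116) (nat_lit 143))))))) (PT.nd (nat_lit 1014) (PT.nd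 (nat_lit 468) (PT.nd (nat_lit 234) (PT.nd (nat_lit 78) (PT.lf (nat_lit 16036) (nat_lit 6) (nat_lit 211) (nat_lit 3) (nat_lit 132) (nat_lit 116) (nat_lit 142)) (PT.nd (nat_lit 78) (PT.lf (nat_lit 16112) (nat_lit 6) (nat_lit 212) (nat_lit 3) (nat_lit 133) (nat_lit 116) (nat_lit 141)) (PT.lf (nat_lit 16188) (nat_lit 6) (nat_lit 213) (nat_lit 3) (nat_lit 134) (nat_lit 116) (nat_lit 140)))) (PT.nd (nat_lit 78) (PT.lf (nat_lit 16264) (nat_lit 6) (nat_lit 214) (nat_lit 3) (nat_lit 135) (nat_lit 116) (nat_lit 139)) (PT.nd (nat_lit 78) (PT.lf (nat_lit 16340) (nat_lit 6) (nat_lit 215) (nat_lit 3) (nat_lit 136) (nat_lit 116) (nat_lit 138)) (PT.lf (nat_lit 16416) (nat_lit 3) (nat_lit 216) (nat_lit 1) (nat_lit 137) (nat_lit 116) (nat_lit 137))))) (PT.nd (nat_lit 234) (PT.nd (nat_lit 78) (PT.lf (nat_lit 16340) (nat_lit 6) (nat_lit 215) (nat_lit 1) (nat_lit 138) (nat_lit 116) (nat_lit 136)) (PT.nd (nat_lit 78)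 (PT.lf (nat_lit 16264) (nat_lit 6) (nat_lit 214) (nat_lit 1) (nat_lit 139) (nat_lit 116) (nat_lit 135)) (PT.lf (nat_lit 16188) (nat_lit 6) (nat_lit 213) (nat_lit 1) (nat_lit 140) (nat_lit 116) (nat_lit 134)))) (PT.nd (nat_lit 156) (PT.nd (nat_lit 78) (PT.lf (nat_lit 16112) (nat_lit 6) (nat_lit 212) (nat_lit 1) (nat_lit 141) (nat_lit 116) (nat_lit 133)) (PT.lf (nat_lit 16036) (nat_lit 6) (nat_lit 211) (nat_lit 1) (nat_lit 142) (nat_lit 116) (nat_lit 132))) (PT.nd (nat_lit 78) (PT.lf (nat_lit 15960) (nat_lit 6) (nat_lit 210) (nat_lit 1) (nat_lit 143) (nat_lit 116) (nat_lit 131)) (PT.lf (nat_lit 15884) (nat_lit 6) (nat_lit 209) (nat_lit 1) (nat_lit 144) (nat_lit 116) (nat_lit 130)))))) (PT.nd (nat_lit 39780) (PT.nd (nat_lit 39468) (PT.nd (nat_lit 39312) (PT.lf (nat_lit 14668) (nat_lit 6) (nat_lit 193) (nat_lit 1) (nat_lit 145) (nat_lit 116) (nat_lit 129)) (PT.nd (nat_lit 78) (PT.lf (nat_lit 14592)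 (nat_lit 6) (nat_lit 192) (nat_lit 3) (nat_lit 128) (nat_lit 117) (nat_lit 145)) (PT.lf (nat_lit 15808) (nat_lit 6) (nat_lit 208) (nat_lit 3) (nat_lit 129) (nat_lit 117) (nat_lit 144)))) (PT.nd (nat_lit 156) (PT.nd (nat_lit 78) (PT.lf (nat_lit 16948) (nat_lit 6) (nat_lit 223) (nat_lit 3) (nat_lit 130) (nat_lit 117) (nat_lit 143)) (PT.lf (nat_lit 17024) (nat_lit 6) (nat_lit 224) (nat_lit 3) (nat_lit 131) (nat_lit 117) (nat_lit 142))) (PT.nd (nat_lit 78) (PT.lf (nat_lit 17100) (nat_lit 6) (nat_lit 225) (nat_lit 3) (nat_lit 132) (nat_lit 117) (nat_lit 141)) (PT.lf (nat_lit 17176) (nat_lit 6) (nat_lit 226) (nat_lit 3) (nat_lit 133) (nat_lit 117) (nat_lit 140))))) (PT.nd (nat_lit 234) (PT.nd (nat_lit 78) (PT.lf (nat_lit 17252) (nat_lit 6) (nat_lit 227) (nat_lit 3) (nat_lit 134) (nat_lit 117) (nat_lit 139)) (PT.nd (nat_lit 78) (PT.lf (nat_lit 17328) (nat_lit 6) (nat_lit 228) (nat_lit 3) (nat_lit 135)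 (nat_lit 117) (nat_lit 138)) (PT.lf (nat_lit 17404) (nat_lit 6) (nat_lit 229) (nat_lit 3) (nat_lit 136) (nat_lit 117) (nat_lit 137)))) (PT.nd (nat_lit 156) (PT.nd (nat_lit 78) (PT.lf (nat_lit 17404) (nat_lit 6) (nat_lit 229) (nat_lit 1) (nat_lit 137) (nat_lit 117) (nat_lit 136)) (PT.lf (nat_lit 17328) (nat_lit 6) (nat_lit 228) (nat_lit 1) (nat_lit 138) (nat_lit 117) (nat_lit 135))) (PT.nd (nat_lit 78) (PT.lf (nat_lit 17252) (nat_lit 6) (nat_lit 227) (nat_lit 1) (nat_lit 139) (nat_lit 117) (nat_lit 134)) (PT.lf (nat_lit 17176) (nat_lit 6) (nat_lit 226) (nat_lit 1) (nat_lit 140) (nat_lit 117) (nat_lit 133))))))))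
noncomputable def pc7 : PT := (PT.nd (nat_lit 80262) (PT.nd (nat_lit 40170) (PT.nd (nat_lit 39624) (PT.nd (nat_lit 234) (PT.nd (nat_lit 78) (PT.lf (nat_lit 17100) (nat_lit 6) (nat_lit 225) (nat_lit 1) (nat_lit 141) (nat_lit 117) (nat_lit 132)) (PT.nd (nat_lit 78) (PT.lf (nat_lit 17024) (nat_lit 6) (nat_lit 224) (nat_lit 1) (nat_lit 142) (nat_lit 117) (nat_lit 131)) (PT.lf (nat_lit 16948) (nat_lit 6) (nat_lit 223) (nat_lit 1) (nat_lit 143) (nat_lit 117) (nat_lit 130)))) (PT.nd (nat_lit 78) (PT.lf (nat_lit 15808) (nat_lit 6) (nat_lit 208) (nat_lit 1) (nat_lit 144) (nat_lit 117) (nat_lit 129)) (PT.nd (nat_lit 39234) (PT.lf (nat_lit 14592) (nat_lit 6) (nat_lit 192) (nat_lit 1) (nat_lit 145) (nat_lit 117) (nat_lit 128)) (PT.lf (nat_lit 14516) (nat_lit 6) (nat_lit 191) (nat_lit 3) (nat_lit 127) (nat_lit 118) (nat_lit 145))))) (PT.nd (nat_lit 234) (PT.nd (nat_lit 78) (PT.lf (nat_lit 15732) (nat_lit 6)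 (nat_lit 207) (nat_lit 3) (nat_lit 128) (nat_lit 118) (nat_lit 144)) (PT.nd (nat_lit 78) (PT.lf (nat_lit 16872) (nat_lit 6) (nat_lit 222) (nat_lit 3) (nat_lit 129) (nat_lit 118) (nat_lit 143)) (PT.lf (nat_lit 17936) (nat_lit 6) (nat_lit 236) (nat_lit 3) (nat_lit 130) (nat_lit 118) (nat_lit 142)))) (PT.nd (nat_lit 156) (PT.nd (nat_lit 78) (PT.lf (nat_lit 18012) (nat_lit 6) (nat_lit 237) (nat_lit 3) (nat_lit 131) (nat_lit 118) (nat_lit 141)) (PT.lf (nat_lit 18088) (nat_lit 6) (nat_lit 238) (nat_lit 3) (nat_lit 132) (nat_lit 118) (nat_lit 140))) (PT.nd (nat_lit 78) (PT.lf (nat_lit 18164) (nat_lit 6) (nat_lit 239) (nat_lit 3) (nat_lit 133) (nat_lit 118) (nat_lit 139)) (PT.lf (nat_lit 18240) (nat_lit 6) (nat_lit 240) (nat_lit 3) (nat_lit 134) (nat_lit 118) (nat_lit 138)))))) (PT.nd (nat_lit 468) (PT.nd (nat_lit 234) (PT.nd (nat_lit 78) (PT.lf (nat_lit 18316) (nat_lit 6) (nat_lit 241) (nat_lit 3) (nat_lit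 135) (nat_lit 118) (nat_lit 137)) (PT.nd (nat_lit 78) (PT.lf (nat_lit 18392) (nat_lit 3) (nat_lit 242) (nat_lit 1) (nat_lit 136) (nat_lit 118) (nat_lit 136)) (PT.lf (nat_lit 18316) (nat_lit 6) (nat_lit 241) (nat_lit 1) (nat_lit 137) (nat_lit 118) (nat_lit 135)))) (PT.nd (nat_lit 78) (PT.lf (nat_lit 18240) (nat_lit 6) (nat_lit 240) (nat_lit 1) (nat_lit 138) (nat_lit 118) (nat_lit 134)) (PT.nd (nat_lit 78) (PT.lf (nat_lit 18164) (nat_lit 6) (nat_lit 239) (nat_lit 1) (nat_lit 139) (nat_lit 118) (nat_lit 133)) (PT.lf (nat_lit 18088) (nat_lit 6) (nat_lit 238) (nat_lit 1) (nat_lit 140) (nat_lit 118) (nat_lit 132))))) (PT.nd (nat_lit 234) (PT.nd (nat_lit 78) (PT.lf (nat_lit 18012) (nat_lit 6) (nat_lit 237) (nat_lit 1) (nat_lit 141) (nat_lit 118) (nat_lit 131)) (PT.nd (nat_lit 78) (PT.lf (nat_lit 17936) (nat_lit 6) (nat_lit 236) (nat_lit 1) (nat_lit 142) (nat_lit 118) (nat_lit 130)) (PT.lf (nat_lit 16872)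 (nat_lit 6) (nat_lit 222) (nat_lit 1) (nat_lit 143) (nat_lit 118) (nat_lit 129)))) (PT.nd (nat_lit 39234) (PT.nd (nat_lit 78) (PT.lf (nat_lit 15732) (nat_lit 6) (nat_lit 207) (nat_lit 1) (nat_lit 144) (nat_lit 118) (nat_lit 128)) (PT.lf (nat_lit 14516) (nat_lit 6) (nat_lit 191) (nat_lit 1) (nat_lit 145) (nat_lit 118) (nat_lit 127))) (PT.nd (nat_lit 78) (PT.lf (nat_lit 14440) (nat_lit 6) (nat_lit 190) (nat_lit 3) (nat_lit 126) (nat_lit 119) (nat_lit 145)) (PT.lf (nat_lit 15656) (nat_lit 6) (nat_lit 206) (nat_lit 3) (nat_lit 127) (nat_lit 119) (nat_lit 144))))))) (PT.nd (nat_lit 1014) (PT.nd (nat_lit 468) (PT.nd (nat_lit 234) (PT.nd (nat_lit 78) (PT.lf (nat_lit 16796) (nat_lit 6) (nat_lit 221) (nat_lit 3) (nat_lit 128) (nat_lit 119) (nat_lit 143)) (PT.nd (nat_lit 78) (PT.lf (nat_lit 17860) (nat_lit 6) (nat_lit 235) (nat_lit 3) (nat_lit 129) (nat_lit 119) (nat_lit 142)) (PT.lf (nat_lit 18848) (nat_lit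 6) (nat_lit 248) (nat_lit 3) (nat_lit 130) (nat_lit 119) (nat_lit 141)))) (PT.nd (nat_lit 78) (PT.lf (nat_lit 18924) (nat_lit 6) (nat_lit 249) (nat_lit 3) (nat_lit 131) (nat_lit 119) (nat_lit 140)) (PT.nd (nat_lit 78) (PT.lf (nat_lit 19000) (nat_lit 6) (nat_lit 250) (nat_lit 3) (nat_lit 132) (nat_lit 119) (nat_lit 139)) (PT.lf (nat_lit 19076) (nat_lit 6) (nat_lit 251) (nat_lit 3) (nat_lit 133) (nat_lit 119) (nat_lit 138))))) (PT.nd (nat_lit 234) (PT.nd (nat_lit 78) (PT.lf (nat_lit 19152) (nat_lit 6) (nat_lit 252) (nat_lit 3) (nat_lit 134) (nat_lit 119) (nat_lit 137)) (PT.nd (nat_lit 78) (PT.lf (nat_lit 19228) (nat_lit 6) (nat_lit 253) (nat_lit 3) (nat_lit 135) (nat_lit 119) (nat_lit 136)) (PT.lf (nat_lit 19228) (nat_lit 6) (nat_lit 253) (nat_lit 1) (nat_lit 136) (nat_lit 119) (nat_lit 135)))) (PT.nd (nat_lit 156) (PT.nd (nat_lit 78) (PT.lf (nat_lit 19152) (nat_lit 6) (nat_lit 252) (nat_lit 1) (nat_lit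 137) (nat_lit 119) (nat_lit 134)) (PT.lf (nat_lit 19076) (nat_lit 6) (nat_lit 251) (nat_lit 1) (nat_lit 138) (nat_lit 119) (nat_lit 133))) (PT.nd (nat_lit 78) (PT.lf (nat_lit 19000) (nat_lit 6) (nat_lit 250) (nat_lit 1) (nat_lit 139) (nat_lit 119) (nat_lit 132)) (PT.lf (nat_lit 18924) (nat_lit 6) (nat_lit 249) (nat_lit 1) (nat_lit 140) (nat_lit 119) (nat_lit 131)))))) (PT.nd (nat_lit 39546) (PT.nd (nat_lit 234) (PT.nd (nat_lit 78) (PT.lf (nat_lit 18848) (nat_lit 6) (nat_lit 248) (nat_lit 1) (nat_lit 141) (nat_lit 119) (nat_lit 130)) (PT.nd (nat_lit 78) (PT.lf (nat_lit 17860) (nat_lit 6) (nat_lit 235) (nat_lit 1) (nat_lit 142) (nat_lit 119) (nat_lit 129)) (PT.lf (nat_lit 16796) (nat_lit 6) (nat_lit 221) (nat_lit 1) (nat_lit 143) (nat_lit 119) (nat_lit 128)))) (PT.nd (nat_lit 39156) (PT.nd (nat_lit 78) (PT.lf (nat_lit 15656) (nat_lit 6) (nat_lit 206) (nat_lit 1) (nat_lit 144) (nat_lit 119) (nat_lit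 127)) (PT.lf (nat_lit 14440) (nat_lit 6) (nat_lit 190) (nat_lit 1) (nat_lit 145) (nat_lit 119) (nat_lit 126))) (PT.nd (nat_lit 78) (PT.lf (nat_lit 14364) (nat_lit 6) (nat_lit 189) (nat_lit 3) (nat_lit 125) (nat_lit 120) (nat_lit 145)) (PT.lf (nat_lit 15580) (nat_lit 6) (nat_lit 205) (nat_lit 3) (nat_lit 126) (nat_lit 120) (nat_lit 144))))) (PT.nd (nat_lit 234) (PT.nd (nat_lit 78) (PT.lf (nat_lit 16720) (nat_lit 6) (nat_lit 220) (nat_lit 3) (nat_lit 127) (nat_lit 120) (nat_lit 143)) (PT.nd (nat_lit 78) (PT.lf (nat_lit 17784) (nat_lit 6) (nat_lit 234) (nat_lit 3) (nat_lit 128) (nat_lit 120) (nat_lit 142)) (PT.lf (nat_lit 18772) (nat_lit 6) (nat_lit 247) (nat_lit 3) (nat_lit 129) (nat_lit 120) (nat_lit 141)))) (PT.nd (nat_lit 156) (PT.nd (nat_lit 78) (PT.lf (nat_lit 19684) (nat_lit 6) (nat_lit 259) (nat_lit 3) (nat_lit 130) (nat_lit 120) (nat_lit 140)) (PT.lf (nat_lit 19760) (nat_lit 6) (nat_lit 260)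 (nat_lit 3) (nat_lit 131) (nat_lit 120) (nat_lit 139))) (PT.nd (nat_lit 78) (PT.lf (nat_lit 19836) (nat_lit 6) (nat_lit 261) (nat_lit 3) (nat_lit 132) (nat_lit 120) (nat_lit 138)) (PT.lf (nat_lit 19912) (nat_lit 6) (nat_lit 262) (nat_lit 3) (nat_lit 133) (nat_lit 120) (nat_lit 137))))))))
noncomputable def pc8 : PT := (PT.nd (nat_lit 40950) (PT.nd (nat_lit 39936) (PT.nd (nat_lit 468) (PT.nd (nat_lit 234) (PT.nd (nat_lit 78) (PT.lf (nat_lit 19988) (nat_lit 6) (nat_lit 263) (nat_lit 3) (nat_lit 134) (nat_lit 120) (nat_lit 136)) (PT.nd (nat_lit 78) (PT.lf (nat_lit 20064) (nat_lit 3) (nat_lit 264) (nat_lit 1) (nat_lit 135) (nat_lit 120) (nat_lit 135)) (PT.lf (nat_lit 19988) (nat_lit 6) (nat_lit 263) (nat_lit 1) (nat_lit 136) (nat_lit 120) (nat_lit 134)))) (PT.nd (nat_lit 78) (PT.lf (nat_lit 19912) (nat_lit 6) (nat_lit 262) (nat_lit 1) (nat_lit 137) (nat_lit 120) (nat_lit 133)) (PT.nd (nat_lit 78) (PT.lf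 (nat_lit 19836) (nat_lit 6) (nat_lit 261) (nat_lit 1) (nat_lit 138) (nat_lit 120) (nat_lit 132)) (PT.lf (nat_lit 19760) (nat_lit 6) (nat_lit 260) (nat_lit 1) (nat_lit 139) (nat_lit 120) (nat_lit 131))))) (PT.nd (nat_lit 234) (PT.nd (nat_lit 78) (PT.lf (nat_lit 19684) (nat_lit 6) (nat_lit 259) (nat_lit 1) (nat_lit 140) (nat_lit 120) (nat_lit 130)) (PT.nd (nat_lit 78) (PT.lf (nat_lit 18772) (nat_lit 6) (nat_lit 247) (nat_lit 1) (nat_lit 141) (nat_lit 120) (nat_lit 129)) (PT.lf (nat_lit 17784) (nat_lit 6) (nat_lit 234) (nat_lit 1) (nat_lit 142) (nat_lit 120) (nat_lit 128)))) (PT.nd (nat_lit 156) (PT.nd (nat_lit 78) (PT.lf (nat_lit 16720) (nat_lit 6) (nat_lit 220) (nat_lit 1) (nat_lit 143) (nat_lit 120) (nat_lit 127)) (PT.lf (nat_lit 15580) (nat_lit 6) (nat_lit 205) (nat_lit 1) (nat_lit 144) (nat_lit 120) (nat_lit 126))) (PT.nd (nat_lit 39000) (PT.lf (nat_lit 14364) (nat_lit 6) (nat_lit 189) (nat_lit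 1) (nat_lit 145) (nat_lit 120) (nat_lit 125)) (PT.lf (nat_lit 14288) (nat_lit 6) (nat_lit 188) (nat_lit 3) (nat_lit 124) (nat_lit 121) (nat_lit 145)))))) (PT.nd (nat_lit 468) (PT.nd (nat_lit 234) (PT.nd (nat_lit 78) (PT.lf (nat_lit 15504) (nat_lit 6) (nat_lit 204) (nat_lit 3) (nat_lit 125) (nat_lit 121) (nat_lit 144)) (PT.nd (nat_lit 78) (PT.lf (nat_lit 16644) (nat_lit 6) (nat_lit 219) (nat_lit 3) (nat_lit 126) (nat_lit 121) (nat_lit 143)) (PT.lf (nat_lit 17708) (nat_lit 6) (nat_lit 233) (nat_lit 3) (nat_lit 127) (nat_lit 121) (nat_lit 142)))) (PT.nd (nat_lit 78) (PT.lf (nat_lit 18696) (nat_lit 6) (nat_lit 246) (nat_lit 3) (nat_lit 128) (nat_lit 121) (nat_lit 141)) (PT.nd (nat_lit 78) (PT.lf (nat_lit 19608) (nat_lit 6) (nat_lit 258) (nat_lit 3) (nat_lit 129) (nat_lit 121) (nat_lit 140)) (PT.lf (nat_lit 20444) (nat_lit 6) (nat_lit 269) (nat_lit 3) (nat_lit 130) (nat_lit 121) (nat_lit 139))))) (PT.nd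 (nat_lit 234) (PT.nd (nat_lit 78) (PT.lf (nat_lit 20520) (nat_lit 6) (nat_lit 270) (nat_lit 3) (nat_lit 131) (nat_lit 121) (nat_lit 138)) (PT.nd (nat_lit 78) (PT.lf (nat_lit 20596) (nat_lit 6) (nat_lit 271) (nat_lit 3) (nat_lit 132) (nat_lit 121) (nat_lit 137)) (PT.lf (nat_lit 20672) (nat_lit 6) (nat_lit 272) (nat_lit 3) (nat_lit 133) (nat_lit 121) (nat_lit 136)))) (PT.nd (nat_lit 156) (PT.nd (nat_lit 78) (PT.lf (nat_lit 20748) (nat_lit 6) (nat_lit 273) (nat_lit 3) (nat_lit 134) (nat_lit 121) (nat_lit 135)) (PT.lf (nat_lit 20748) (nat_lit 6) (nat_lit 273) (nat_lit 1) (nat_lit 135) (nat_lit 121) (nat_lit 134))) (PT.nd (nat_lit 78) (PT.lf (nat_lit 20672) (nat_lit 6) (nat_lit 272) (nat_lit 1) (nat_lit 136) (nat_lit 121) (nat_lit 133)) (PT.lf (nat_lit 20596) (nat_lit 6) (nat_lit 271) (nat_lit 1) (nat_lit 137) (nat_lit 121) (nat_lit 132))))))) (PT.nd (nat_lit 39858) (PT.nd (nat_lit 468) (PT.nd (nat_lit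 234) (PT.nd (nat_lit 78) (PT.lf (nat_lit 20520) (nat_lit 6) (nat_lit 270) (nat_lit 1) (nat_lit 138) (nat_lit 121) (nat_lit 131)) (PT.nd (nat_lit 78) (PT.lf (nat_lit 20444) (nat_lit 6) (nat_lit 269) (nat_lit 1) (nat_lit 139) (nat_lit 121) (nat_lit 130)) (PT.lf (nat_lit 19608) (nat_lit 6) (nat_lit 258) (nat_lit 1) (nat_lit 140) (nat_lit 121) (nat_lit 129)))) (PT.nd (nat_lit 78) (PT.lf (nat_lit 18696) (nat_lit 6) (nat_lit 246) (nat_lit 1) (nat_lit 141) (nat_lit 121) (nat_lit 128)) (PT.nd (nat_lit 78) (PT.lf (nat_lit 17708) (nat_lit 6) (nat_lit 233) (nat_lit 1) (nat_lit 142) (nat_lit 121) (nat_lit 127)) (PT.lf (nat_lit 16644) (nat_lit 6) (nat_lit 219) (nat_lit 1) (nat_lit 143) (nat_lit 121) (nat_lit 126))))) (PT.nd (nat_lit 39078) (PT.nd (nat_lit 78) (PT.lf (nat_lit 15504) (nat_lit 6) (nat_lit 204) (nat_lit 1) (nat_lit 144) (nat_lit 121) (nat_lit 125)) (PT.nd (nat_lit 38922) (PT.lf (nat_lit 14288)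 (nat_lit 6) (nat_lit 188) (nat_lit 1) (nat_lit 145) (nat_lit 121) (nat_lit 124)) (PT.lf (nat_lit 14212) (nat_lit 6) (nat_lit 187) (nat_lit 3) (nat_lit 123) (nat_lit 122) (nat_lit 145)))) (PT.nd (nat_lit 156) (PT.nd (nat_lit 78) (PT.lf (nat_lit 15428) (nat_lit 6) (nat_lit 203) (nat_lit 3) (nat_lit 124) (nat_lit 122) (nat_lit 144)) (PT.lf (nat_lit 16568) (nat_lit 6) (nat_lit 218) (nat_lit 3) (nat_lit 125) (nat_lit 122) (nat_lit 143))) (PT.nd (nat_lit 78) (PT.lf (nat_lit 17632) (nat_lit 6) (nat_lit 232) (nat_lit 3) (nat_lit 126) (nat_lit 122) (nat_lit 142)) (PT.lf (nat_lit 18620) (nat_lit 6) (nat_lit 245) (nat_lit 3) (nat_lit 127) (nat_lit 122) (nat_lit 141)))))) (PT.nd (nat_lit 468) (PT.nd (nat_lit 234) (PT.nd (nat_lit 78) (PT.lf (nat_lit 19532) (nat_lit 6) (nat_lit 257) (nat_lit 3) (nat_lit 128) (nat_lit 122) (nat_lit 140)) (PT.nd (nat_lit 78) (PT.lf (nat_lit 20368) (nat_lit 6) (nat_lit 268) (nat_lit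 3) (nat_lit 129) (nat_lit 122) (nat_lit 139)) (PT.lf (nat_lit 21128) (nat_lit 6) (nat_lit 278) (nat_lit 3) (nat_lit 130) (nat_lit 122) (nat_lit 138)))) (PT.nd (nat_lit 78) (PT.lf (nat_lit 21204) (nat_lit 6) (nat_lit 279) (nat_lit 3) (nat_lit 131) (nat_lit 122) (nat_lit 137)) (PT.nd (nat_lit 78) (PT.lf (nat_lit 21280) (nat_lit 6) (nat_lit 280) (nat_lit 3) (nat_lit 132) (nat_lit 122) (nat_lit 136)) (PT.lf (nat_lit 21356) (nat_lit 6) (nat_lit 281) (nat_lit 3) (nat_lit 133) (nat_lit 122) (nat_lit 135))))) (PT.nd (nat_lit 234) (PT.nd (nat_lit 78) (PT.lf (nat_lit 21432) (nat_lit 3) (nat_lit 282) (nat_lit 1) (nat_lit 134) (nat_lit 122) (nat_lit 134)) (PT.nd (nat_lit 78) (PT.lf (nat_lit 21356) (nat_lit 6) (nat_lit 281) (nat_lit 1) (nat_lit 135) (nat_lit 122) (nat_lit 133)) (PT.lf (nat_lit 21280) (nat_lit 6) (nat_lit 280) (nat_lit 1) (nat_lit 136) (nat_lit 122) (nat_lit 132)))) (PT.nd (nat_lit 156) (PT.nd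 (nat_lit 78) (PT.lf (nat_lit 21204) (nat_lit 6) (nat_lit 279) (nat_lit 1) (nat_lit 137) (nat_lit 122) (nat_lit 131)) (PT.lf (nat_lit 21128) (nat_lit 6) (nat_lit 278) (nat_lit 1) (nat_lit 138) (nat_lit 122) (nat_lit 130))) (PT.nd (nat_lit 78) (PT.lf (nat_lit 20368) (nat_lit 6) (nat_lit 268) (nat_lit 1) (nat_lit 139) (nat_lit 122) (nat_lit 129)) (PT.lf (nat_lit 19532) (nat_lit 6) (nat_lit 257) (nat_lit 1) (nat_lit 140) (nat_lit 122) (nat_lit 128))))))))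
noncomputable def pc9 : PT := (PT.nd (nat_lit 40794) (PT.nd (nat_lit 39780) (PT.nd (nat_lit 39234) (PT.nd (nat_lit 234) (PT.nd (nat_lit 78) (PT.lf (nat_lit 18620) (nat_lit 6) (nat_lit 245) (nat_lit 1) (nat_lit 141) (nat_lit 122) (nat_lit 127)) (PT.nd (nat_lit 78) (PT.lf (nat_lit 17632) (nat_lit 6) (nat_lit 232) (nat_lit 1) (nat_lit 142) (nat_lit 122) (nat_lit 126)) (PT.lf (nat_lit 16568) (nat_lit 6) (nat_lit 218) (nat_lit 1) (nat_lit 143) (nat_lit 122) (nat_lit 125)))) (PT.nd (nat_lit 78) (PT.lf (nat_lit 15428) (nat_lit 6) (nat_lit 203) (nat_lit 1) (nat_lit 144) (nat_lit 122) (nat_lit 124)) (PT.nd (nat_lit 38844) (PT.lf (nat_lit 14212) (nat_lit 6) (nat_lit 187) (nat_lit 1) (nat_lit 145) (nat_lit 122) (nat_lit 123)) (PT.lf (nat_lit 14212) (nat_lit 6) (nat_lit 187) (nat_lit 5) (nat_lit 122) (nat_lit 123) (nat_lit 145))))) (PT.nd (nat_lit 234) (PT.nd (nat_lit 78) (PT.lf (nat_lit 15352) (nat_lit 3)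 (nat_lit 202) (nat_lit 3) (nat_lit 123) (nat_lit 123) (nat_lit 144)) (PT.nd (nat_lit 78) (PT.lf (nat_lit 16492) (nat_lit 6) (nat_lit 217) (nat_lit 3) (nat_lit 124) (nat_lit 123) (nat_lit 143)) (PT.lf (nat_lit 17556) (nat_lit 6) (nat_lit 231) (nat_lit 3) (nat_lit 125) (nat_lit 123) (nat_lit 142)))) (PT.nd (nat_lit 156) (PT.nd (nat_lit 78) (PT.lf (nat_lit 18544) (nat_lit 6) (nat_lit 244) (nat_lit 3) (nat_lit 126) (nat_lit 123) (nat_lit 141)) (PT.lf (nat_lit 19456) (nat_lit 6) (nat_lit 256) (nat_lit 3) (nat_lit 127) (nat_lit 123) (nat_lit 140))) (PT.nd (nat_lit 78) (PT.lf (nat_lit 20292) (nat_lit 6) (nat_lit 267) (nat_lit 3) (nat_lit 128) (nat_lit 123) (nat_lit 139)) (PT.lf (nat_lit 21052) (nat_lit 6) (nat_lit 277) (nat_lit 3) (nat_lit 129) (nat_lit 123) (nat_lit 138)))))) (PT.nd (nat_lit 468) (PT.nd (nat_lit 234) (PT.nd (nat_lit 78) (PT.lf (nat_lit 21736) (nat_lit 6) (nat_lit 286) (nat_lit 3) (nat_lit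 130) (nat_lit 123) (nat_lit 137)) (PT.nd (nat_lit 78) (PT.lf (nat_lit 21812) (nat_lit 6) (nat_lit 287) (nat_lit 3) (nat_lit 131) (nat_lit 123) (nat_lit 136)) (PT.lf (nat_lit 21888) (nat_lit 6) (nat_lit 288) (nat_lit 3) (nat_lit 132) (nat_lit 123) (nat_lit 135)))) (PT.nd (nat_lit 78) (PT.lf (nat_lit 21964) (nat_lit 6) (nat_lit 289) (nat_lit 3) (nat_lit 133) (nat_lit 123) (nat_lit 134)) (PT.nd (nat_lit 78) (PT.lf (nat_lit 21964) (nat_lit 6) (nat_lit 289) (nat_lit 1) (nat_lit 134) (nat_lit 123) (nat_lit 133)) (PT.lf (nat_lit 21888) (nat_lit 6) (nat_lit 288) (nat_lit 1) (nat_lit 135) (nat_lit 123) (nat_lit 132))))) (PT.nd (nat_lit 234) (PT.nd (nat_lit 78) (PT.lf (nat_lit 21812) (nat_lit 6) (nat_lit 287) (nat_lit 1) (nat_lit 136) (nat_lit 123) (nat_lit 131)) (PT.nd (nat_lit 78) (PT.lf (nat_lit 21736) (nat_lit 6) (nat_lit 286) (nat_lit 1) (nat_lit 137) (nat_lit 123) (nat_lit 130)) (PT.lf (nat_lit 21052)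 (nat_lit 6) (nat_lit 277) (nat_lit 1) (nat_lit 138) (nat_lit 123) (nat_lit 129)))) (PT.nd (nat_lit 156) (PT.nd (nat_lit 78) (PT.lf (nat_lit 20292) (nat_lit 6) (nat_lit 267) (nat_lit 1) (nat_lit 139) (nat_lit 123) (nat_lit 128)) (PT.lf (nat_lit 19456) (nat_lit 6) (nat_lit 256) (nat_lit 1) (nat_lit 140) (nat_lit 123) (nat_lit 127))) (PT.nd (nat_lit 78) (PT.lf (nat_lit 18544) (nat_lit 6) (nat_lit 244) (nat_lit 1) (nat_lit 141) (nat_lit 123) (nat_lit 126)) (PT.lf (nat_lit 17556) (nat_lit 6) (nat_lit 231) (nat_lit 1) (nat_lit 142) (nat_lit 123) (nat_lit 125))))))) (PT.nd (nat_lit 39702) (PT.nd (nat_lit 39156) (PT.nd (nat_lit 38922) (PT.nd (nat_lit 78) (PT.lf (nat_lit 16492) (nat_lit 6) (nat_lit 217) (nat_lit 1) (nat_lit 143) (nat_lit 123) (nat_lit 124)) (PT.nd (nat_lit 78) (PT.lf (nat_lit 15352) (nat_lit 3) (nat_lit 202) (nat_lit 0) (nat_lit 144) (nat_lit 123) (nat_lit 123)) (PT.lf (nat_lit 14212) (nat_lit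 6) (nat_lit 187) (nat_lit 0) (nat_lit 145) (nat_lit 123) (nat_lit 122)))) (PT.nd (nat_lit 78) (PT.lf (nat_lit 14288) (nat_lit 6) (nat_lit 188) (nat_lit 5) (nat_lit 121) (nat_lit 124) (nat_lit 145)) (PT.nd (nat_lit 78) (PT.lf (nat_lit 15428) (nat_lit 6) (nat_lit 203) (nat_lit 5) (nat_lit 122) (nat_lit 124) (nat_lit 144)) (PT.lf (nat_lit 16492) (nat_lit 6) (nat_lit 217) (nat_lit 5) (nat_lit 123) (nat_lit 124) (nat_lit 143))))) (PT.nd (nat_lit 234) (PT.nd (nat_lit 78) (PT.lf (nat_lit 17480) (nat_lit 3) (nat_lit 230) (nat_lit 3) (nat_lit 124) (nat_lit 124) (nat_lit 142)) (PT.nd (nat_lit 78) (PT.lf (nat_lit 18468) (nat_lit 6) (nat_lit 243) (nat_lit 3) (nat_lit 125) (nat_lit 124) (nat_lit 141)) (PT.lf (nat_lit 19380) (nat_lit 6) (nat_lit 255) (nat_lit 3) (nat_lit 126) (nat_lit 124) (nat_lit 140)))) (PT.nd (nat_lit 156) (PT.nd (nat_lit 78) (PT.lf (nat_lit 20216) (nat_lit 6) (nat_lit 266) (nat_lit 3) (nat_lit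 127) (nat_lit 124) (nat_lit 139)) (PT.lf (nat_lit 20976) (nat_lit 6) (nat_lit 276) (nat_lit 3) (nat_lit 128) (nat_lit 124) (nat_lit 138))) (PT.nd (nat_lit 78) (PT.lf (nat_lit 21660) (nat_lit 6) (nat_lit 285) (nat_lit 3) (nat_lit 129) (nat_lit 124) (nat_lit 137)) (PT.lf (nat_lit 22268) (nat_lit 6) (nat_lit 293) (nat_lit 3) (nat_lit 130) (nat_lit 124) (nat_lit 136)))))) (PT.nd (nat_lit 546) (PT.nd (nat_lit 234) (PT.nd (nat_lit 78) (PT.lf (nat_lit 22344) (nat_lit 6) (nat_lit 294) (nat_lit 3) (nat_lit 131) (nat_lit 124) (nat_lit 135)) (PT.nd (nat_lit 78) (PT.lf (nat_lit 22420) (nat_lit 6) (nat_lit 295) (nat_lit 3) (nat_lit 132) (nat_lit 124) (nat_lit 134)) (PT.lf (nat_lit 22496) (nat_lit 3) (nat_lit 296) (nat_lit 1) (nat_lit 133) (nat_lit 124) (nat_lit 133)))) (PT.nd (nat_lit 156) (PT.nd (nat_lit 78) (PT.lf (nat_lit 22420) (nat_lit 6) (nat_lit 295) (nat_lit 1) (nat_lit 134) (nat_lit 124) (nat_lit 132))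 (PT.lf (nat_lit 22344) (nat_lit 6) (nat_lit 294) (nat_lit 1) (nat_lit 135) (nat_lit 124) (nat_lit 131))) (PT.nd (nat_lit 78) (PT.lf (nat_lit 22268) (nat_lit 6) (nat_lit 293) (nat_lit 1) (nat_lit 136) (nat_lit 124) (nat_lit 130)) (PT.lf (nat_lit 21660) (nat_lit 6) (nat_lit 285) (nat_lit 1) (nat_lit 137) (nat_lit 124) (nat_lit 129))))) (PT.nd (nat_lit 234) (PT.nd (nat_lit 78) (PT.lf (nat_lit 20976) (nat_lit 6) (nat_lit 276) (nat_lit 1) (nat_lit 138) (nat_lit 124) (nat_lit 128)) (PT.nd (nat_lit 78) (PT.lf (nat_lit 20216) (nat_lit 6) (nat_lit 266) (nat_lit 1) (nat_lit 139) (nat_lit 124) (nat_lit 127)) (PT.lf (nat_lit 19380) (nat_lit 6) (nat_lit 255) (nat_lit 1) (nat_lit 140) (nat_lit 124) (nat_lit 126)))) (PT.nd (nat_lit 156) (PT.nd (nat_lit 78) (PT.lf (nat_lit 18468) (nat_lit 6) (nat_lit 243) (nat_lit 1) (nat_lit 141) (nat_lit 124) (nat_lit 125)) (PT.lf (nat_lit 17480) (nat_lit 3) (nat_lit 230) (nat_lit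 0) (nat_lit 142) (nat_lit 124) (nat_lit 124))) (PT.nd (nat_lit 78) (PT.lf (nat_lit 16492) (nat_lit 6) (nat_lit 217) (nat_lit 0) (nat_lit 143) (nat_lit 124) (nat_lit 123)) (PT.lf (nat_lit 15428) (nat_lit 6) (nat_lit 203) (nat_lit 0) (nat_lit 144) (nat_lit 124) (nat_lit 122))))))))
noncomputable def pc10 : PT := (PT.nd (nat_lit 40638) (PT.nd (nat_lit 39624) (PT.nd (nat_lit 39078) (PT.nd (nat_lit 38844) (PT.nd (nat_lit 38688) (PT.lf (nat_lit 14288) (nat_lit 6) (nat_lit 188) (nat_lit 0) (nat_lit 145) (nat_lit 124) (nat_lit 121)) (PT.nd (nat_lit 78) (PT.lf (nat_lit 14364) (nat_lit 6) (nat_lit 189) (nat_lit 5) (nat_lit 120) (nat_lit 125) (nat_lit 145)) (PT.lf (nat_lit 15504) (nat_lit 6) (nat_lit 204) (nat_lit 5) (nat_lit 121) (nat_lit 125) (nat_lit 144)))) (PT.nd (nat_lit 78) (PT.lf (nat_lit 16568) (nat_lit 6) (nat_lit 218) (nat_lit 5) (nat_lit 122) (nat_lit 125) (nat_lit 143)) (PT.nd (nat_lit 78) (PT.lf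 (nat_lit 17556) (nat_lit 6) (nat_lit 231) (nat_lit 5) (nat_lit 123) (nat_lit 125) (nat_lit 142)) (PT.lf (nat_lit 18468) (nat_lit 6) (nat_lit 243) (nat_lit 5) (nat_lit 124) (nat_lit 125) (nat_lit 141))))) (PT.nd (nat_lit 234) (PT.nd (nat_lit 78) (PT.lf (nat_lit 19304) (nat_lit 3) (nat_lit 254) (nat_lit 3) (nat_lit 125) (nat_lit 125) (nat_lit 140)) (PT.nd (nat_lit 78) (PT.lf (nat_lit 20140) (nat_lit 6) (nat_lit 265) (nat_lit 3) (nat_lit 126) (nat_lit 125) (nat_lit 139)) (PT.lf (nat_lit 20900) (nat_lit 6) (nat_lit 275) (nat_lit 3) (nat_lit 127) (nat_lit 125) (nat_lit 138)))) (PT.nd (nat_lit 156) (PT.nd (nat_lit 78) (PT.lf (nat_lit 21584) (nat_lit 6) (nat_lit 284) (nat_lit 3) (nat_lit 128) (nat_lit 125) (nat_lit 137)) (PT.lf (nat_lit 22192) (nat_lit 6) (nat_lit 292) (nat_lit 3) (nat_lit 129) (nat_lit 125) (nat_lit 136))) (PT.nd (nat_lit 78) (PT.lf (nat_lit 22724) (nat_lit 6) (nat_lit 299) (nat_lit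 3) (nat_lit 130) (nat_lit 125) (nat_lit 135)) (PT.lf (nat_lit 22800) (nat_lit 6) (nat_lit 300) (nat_lit 3) (nat_lit 131) (nat_lit 125) (nat_lit 134)))))) (PT.nd (nat_lit 468) (PT.nd (nat_lit 234) (PT.nd (nat_lit 78) (PT.lf (nat_lit 22876) (nat_lit 6) (nat_lit 301) (nat_lit 3) (nat_lit 132) (nat_lit 125) (nat_lit 133)) (PT.nd (nat_lit 78) (PT.lf (nat_lit 22876) (nat_lit 6) (nat_lit 301) (nat_lit 1) (nat_lit 133) (nat_lit 125) (nat_lit 132)) (PT.lf (nat_lit 22800) (nat_lit 6) (nat_lit 300) (nat_lit 1) (nat_lit 134) (nat_lit 125) (nat_lit 131)))) (PT.nd (nat_lit 78) (PT.lf (nat_lit 22724) (nat_lit 6) (nat_lit 299) (nat_lit 1) (nat_lit 135) (nat_lit 125) (nat_lit 130)) (PT.nd (nat_lit 78) (PT.lf (nat_lit 22192) (nat_lit 6) (nat_lit 292) (nat_lit 1) (nat_lit 136) (nat_lit 125) (nat_lit 129)) (PT.lf (nat_lit 21584) (nat_lit 6) (nat_lit 284) (nat_lit 1) (nat_lit 137) (nat_lit 125) (nat_lit 128))))) (PT.nd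 (nat_lit 234) (PT.nd (nat_lit 78) (PT.lf (nat_lit 20900) (nat_lit 6) (nat_lit 275) (nat_lit 1) (nat_lit 138) (nat_lit 125) (nat_lit 127)) (PT.nd (nat_lit 78) (PT.lf (nat_lit 20140) (nat_lit 6) (nat_lit 265) (nat_lit 1) (nat_lit 139) (nat_lit 125) (nat_lit 126)) (PT.lf (nat_lit 19304) (nat_lit 3) (nat_lit 254) (nat_lit 0) (nat_lit 140) (nat_lit 125) (nat_lit 125)))) (PT.nd (nat_lit 156) (PT.nd (nat_lit 78) (PT.lf (nat_lit 18468) (nat_lit 6) (nat_lit 243) (nat_lit 0) (nat_lit 141) (nat_lit 125) (nat_lit 124)) (PT.lf (nat_lit 17556) (nat_lit 6) (nat_lit 231) (nat_lit 0) (nat_lit 142) (nat_lit 125) (nat_lit 123))) (PT.nd (nat_lit 78) (PT.lf (nat_lit 16568) (nat_lit 6) (nat_lit 218) (nat_lit 0) (nat_lit 143) (nat_lit 125) (nat_lit 122)) (PT.lf (nat_lit 15504) (nat_lit 6) (nat_lit 204) (nat_lit 0) (nat_lit 144) (nat_lit 125) (nat_lit 121))))))) (PT.nd (nat_lit 39546) (PT.nd (nat_lit 39000) (PT.nd (nat_lit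 38766) (PT.nd (nat_lit 38610) (PT.lf (nat_lit 14364) (nat_lit 6) (nat_lit 189) (nat_lit 0) (nat_lit 145) (nat_lit 125) (nat_lit 120)) (PT.nd (nat_lit 78) (PT.lf (nat_lit 14440) (nat_lit 6) (nat_lit 190) (nat_lit 5) (nat_lit 119) (nat_lit 126) (nat_lit 145)) (PT.lf (nat_lit 15580) (nat_lit 6) (nat_lit 205) (nat_lit 5) (nat_lit 120) (nat_lit 126) (nat_lit 144)))) (PT.nd (nat_lit 78) (PT.lf (nat_lit 16644) (nat_lit 6) (nat_lit 219) (nat_lit 5) (nat_lit 121) (nat_lit 126) (nat_lit 143)) (PT.nd (nat_lit 78) (PT.lf (nat_lit 17632) (nat_lit 6) (nat_lit 232) (nat_lit 5) (nat_lit 122) (nat_lit 126) (nat_lit 142)) (PT.lf (nat_lit 18544) (nat_lit 6) (nat_lit 244) (nat_lit 5) (nat_lit 123) (nat_lit 126) (nat_lit 141))))) (PT.nd (nat_lit 234) (PT.nd (nat_lit 78) (PT.lf (nat_lit 19380) (nat_lit 6) (nat_lit 255) (nat_lit 5) (nat_lit 124) (nat_lit 126) (nat_lit 140)) (PT.nd (nat_lit 78) (PT.lf (nat_lit 20140)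 (nat_lit 6) (nat_lit 265) (nat_lit 5) (nat_lit 125) (nat_lit 126) (nat_lit 139)) (PT.lf (nat_lit 20824) (nat_lit 3) (nat_lit 274) (nat_lit 3) (nat_lit 126) (nat_lit 126) (nat_lit 138)))) (PT.nd (nat_lit 156) (PT.nd (nat_lit 78) (PT.lf (nat_lit 21508) (nat_lit 6) (nat_lit 283) (nat_lit 3) (nat_lit 127) (nat_lit 126) (nat_lit 137)) (PT.lf (nat_lit 22116) (nat_lit 6) (nat_lit 291) (nat_lit 3) (nat_lit 128) (nat_lit 126) (nat_lit 136))) (PT.nd (nat_lit 78) (PT.lf (nat_lit 22648) (nat_lit 6) (nat_lit 298) (nat_lit 3) (nat_lit 129) (nat_lit 126) (nat_lit 135)) (PT.lf (nat_lit 23104) (nat_lit 6) (nat_lit 304) (nat_lit 3) (nat_lit 130) (nat_lit 126) (nat_lit 134)))))) (PT.nd (nat_lit 546) (PT.nd (nat_lit 234) (PT.nd (nat_lit 78) (PT.lf (nat_lit 23180) (nat_lit 6) (nat_lit 305) (nat_lit 3) (nat_lit 131) (nat_lit 126) (nat_lit 133)) (PT.nd (nat_lit 78) (PT.lf (nat_lit 23256) (nat_lit 3) (nat_lit 306) (nat_lit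 1) (nat_lit 132) (nat_lit 126) (nat_lit 132)) (PT.lf (nat_lit 23180) (nat_lit 6) (nat_lit 305) (nat_lit 1) (nat_lit 133) (nat_lit 126) (nat_lit 131)))) (PT.nd (nat_lit 156) (PT.nd (nat_lit 78) (PT.lf (nat_lit 23104) (nat_lit 6) (nat_lit 304) (nat_lit 1) (nat_lit 134) (nat_lit 126) (nat_lit 130)) (PT.lf (nat_lit 22648) (nat_lit 6) (nat_lit 298) (nat_lit 1) (nat_lit 135) (nat_lit 126) (nat_lit 129))) (PT.nd (nat_lit 78) (PT.lf (nat_lit 22116) (nat_lit 6) (nat_lit 291) (nat_lit 1) (nat_lit 136) (nat_lit 126) (nat_lit 128)) (PT.lf (nat_lit 21508) (nat_lit 6) (nat_lit 283) (nat_lit 1) (nat_lit 137) (nat_lit 126) (nat_lit 127))))) (PT.nd (nat_lit 234) (PT.nd (nat_lit 78) (PT.lf (nat_lit 20824) (nat_lit 3) (nat_lit 274) (nat_lit 0) (nat_lit 138) (nat_lit 126) (nat_lit 126)) (PT.nd (nat_lit 78) (PT.lf (nat_lit 20140) (nat_lit 6) (nat_lit 265) (nat_lit 0) (nat_lit 139) (nat_lit 126) (nat_lit 125)) (PT.lf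 (nat_lit 19380) (nat_lit 6) (nat_lit 255) (nat_lit 0) (nat_lit 140) (nat_lit 126) (nat_lit 124)))) (PT.nd (nat_lit 156) (PT.nd (nat_lit 78) (PT.lf (nat_lit 18544) (nat_lit 6) (nat_lit 244) (nat_lit 0) (nat_lit 141) (nat_lit 126) (nat_lit 123)) (PT.lf (nat_lit 17632) (nat_lit 6) (nat_lit 232) (nat_lit 0) (nat_lit 142) (nat_lit 126) (nat_lit 122))) (PT.nd (nat_lit 78) (PT.lf (nat_lit 16644) (nat_lit 6) (nat_lit 219) (nat_lit 0) (nat_lit 143) (nat_lit 126) (nat_lit 121)) (PT.lf (nat_lit 15580) (nat_lit 6) (nat_lit 205) (nat_lit 0) (nat_lit 144) (nat_lit 126) (nat_lit 120))))))))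
noncomputable def pc11 : PT := (PT.nd (nat_lit 40482) (PT.nd (nat_lit 39468) (PT.nd (nat_lit 38922) (PT.nd (nat_lit 38688) (PT.nd (nat_lit 38532) (PT.lf (nat_lit 14440) (nat_lit 6) (nat_lit 190) (nat_lit 0) (nat_lit 145) (nat_lit 126) (nat_lit 119)) (PT.nd (nat_lit 78) (PT.lf (nat_lit 14516) (nat_lit 6) (nat_lit 191) (nat_lit 5) (nat_lit 118) (nat_lit 127) (nat_lit 145)) (PT.lf (nat_lit 15656) (nat_lit 6) (nat_lit 206) (nat_lit 5) (nat_lit 119) (nat_lit 127) (nat_lit 144)))) (PT.nd (nat_lit 78) (PT.lf (nat_lit 16720) (nat_lit 6) (nat_lit 220) (nat_lit 5) (nat_lit 120) (nat_lit 127) (nat_lit 143)) (PT.nd (nat_lit 78) (PT.lf (nat_lit 17708) (nat_lit 6) (nat_lit 233) (nat_lit 5) (nat_lit 121) (nat_lit 127) (nat_lit 142)) (PT.lf (nat_lit 18620) (nat_lit 6) (nat_lit 245) (nat_lit 5) (nat_lit 122) (nat_lit 127) (nat_lit 141))))) (PT.nd (nat_lit 234) (PT.nd (nat_lit 78) (PT.lf (nat_lit 19456) (nat_lit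 6) (nat_lit 256) (nat_lit 5) (nat_lit 123) (nat_lit 127) (nat_lit 140)) (PT.nd (nat_lit 78) (PT.lf (nat_lit 20216) (nat_lit 6) (nat_lit 266) (nat_lit 5) (nat_lit 124) (nat_lit 127) (nat_lit 139)) (PT.lf (nat_lit 20900) (nat_lit 6) (nat_lit 275) (nat_lit 5) (nat_lit 125) (nat_lit 127) (nat_lit 138)))) (PT.nd (nat_lit 156) (PT.nd (nat_lit 78) (PT.lf (nat_lit 21508) (nat_lit 6) (nat_lit 283) (nat_lit 5) (nat_lit 126) (nat_lit 127) (nat_lit 137)) (PT.lf (nat_lit 22040) (nat_lit 3) (nat_lit 290) (nat_lit 3) (nat_lit 127) (nat_lit 127) (nat_lit 136))) (PT.nd (nat_lit 78) (PT.lf (nat_lit 22572) (nat_lit 6) (nat_lit 297) (nat_lit 3) (nat_lit 128) (nat_lit 127) (nat_lit 135)) (PT.lf (nat_lit 23028) (nat_lit 6) (nat_lit 303) (nat_lit 3) (nat_lit 129) (nat_lit 127) (nat_lit 134)))))) (PT.nd (nat_lit 468) (PT.nd (nat_lit 234) (PT.nd (nat_lit 78) (PT.lf (nat_lit 23408) (nat_lit 6) (nat_lit 308) (nat_lit 3)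 (nat_lit 130) (nat_lit 127) (nat_lit 133)) (PT.nd (nat_lit 78) (PT.lf (nat_lit 23484) (nat_lit 6) (nat_lit 309) (nat_lit 3) (nat_lit 131) (nat_lit 127) (nat_lit 132)) (PT.lf (nat_lit 23484) (nat_lit 6) (nat_lit 309) (nat_lit 1) (nat_lit 132) (nat_lit 127) (nat_lit 131)))) (PT.nd (nat_lit 78) (PT.lf (nat_lit 23408) (nat_lit 6) (nat_lit 308) (nat_lit 1) (nat_lit 133) (nat_lit 127) (nat_lit 130)) (PT.nd (nat_lit 78) (PT.lf (nat_lit 23028) (nat_lit 6) (nat_lit 303) (nat_lit 1) (nat_lit 134) (nat_lit 127) (nat_lit 129)) (PT.lf (nat_lit 22572) (nat_lit 6) (nat_lit 297) (nat_lit 1) (nat_lit 135) (nat_lit 127) (nat_lit 128))))) (PT.nd (nat_lit 234) (PT.nd (nat_lit 78) (PT.lf (nat_lit 22040) (nat_lit 3) (nat_lit 290) (nat_lit 0) (nat_lit 136) (nat_lit 127) (nat_lit 127)) (PT.nd (nat_lit 78) (PT.lf (nat_lit 21508) (nat_lit 6) (nat_lit 283) (nat_lit 0) (nat_lit 137) (nat_lit 127) (nat_lit 126)) (PT.lf (nat_lit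 20900) (nat_lit 6) (nat_lit 275) (nat_lit 0) (nat_lit 138) (nat_lit 127) (nat_lit 125)))) (PT.nd (nat_lit 156) (PT.nd (nat_lit 78) (PT.lf (nat_lit 20216) (nat_lit 6) (nat_lit 266) (nat_lit 0) (nat_lit 139) (nat_lit 127) (nat_lit 124)) (PT.lf (nat_lit 19456) (nat_lit 6) (nat_lit 256) (nat_lit 0) (nat_lit 140) (nat_lit 127) (nat_lit 123))) (PT.nd (nat_lit 78) (PT.lf (nat_lit 18620) (nat_lit 6) (nat_lit 245) (nat_lit 0) (nat_lit 141) (nat_lit 127) (nat_lit 122)) (PT.lf (nat_lit 17708) (nat_lit 6) (nat_lit 233) (nat_lit 0) (nat_lit 142) (nat_lit 127) (nat_lit 121))))))) (PT.nd (nat_lit 39390) (PT.nd (nat_lit 38844) (PT.nd (nat_lit 38610) (PT.nd (nat_lit 78) (PT.lf (nat_lit 16720) (nat_lit 6) (nat_lit 220) (nat_lit 0) (nat_lit 143) (nat_lit 127) (nat_lit 120)) (PT.nd (nat_lit 78) (PT.lf (nat_lit 15656) (nat_lit 6) (nat_lit 206) (nat_lit 0) (nat_lit 144) (nat_lit 127) (nat_lit 119)) (PT.lf (nat_lit 14516)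 (nat_lit 6) (nat_lit 191) (nat_lit 0) (nat_lit 145) (nat_lit 127) (nat_lit 118)))) (PT.nd (nat_lit 78) (PT.lf (nat_lit 14592) (nat_lit 6) (nat_lit 192) (nat_lit 5) (nat_lit 117) (nat_lit 128) (nat_lit 145)) (PT.nd (nat_lit 78) (PT.lf (nat_lit 15732) (nat_lit 6) (nat_lit 207) (nat_lit 5) (nat_lit 118) (nat_lit 128) (nat_lit 144)) (PT.lf (nat_lit 16796) (nat_lit 6) (nat_lit 221) (nat_lit 5) (nat_lit 119) (nat_lit 128) (nat_lit 143))))) (PT.nd (nat_lit 234) (PT.nd (nat_lit 78) (PT.lf (nat_lit 17784) (nat_lit 6) (nat_lit 234) (nat_lit 5) (nat_lit 120) (nat_lit 128) (nat_lit 142)) (PT.nd (nat_lit 78) (PT.lf (nat_lit 18696) (nat_lit 6) (nat_lit 246) (nat_lit 5) (nat_lit 121) (nat_lit 128) (nat_lit 141)) (PT.lf (nat_lit 19532) (nat_lit 6) (nat_lit 257) (nat_lit 5) (nat_lit 122) (nat_lit 128) (nat_lit 140)))) (PT.nd (nat_lit 156) (PT.nd (nat_lit 78) (PT.lf (nat_lit 20292) (nat_lit 6) (nat_lit 267) (nat_lit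 5) (nat_lit 123) (nat_lit 128) (nat_lit 139)) (PT.lf (nat_lit 20976) (nat_lit 6) (nat_lit 276) (nat_lit 5) (nat_lit 124) (nat_lit 128) (nat_lit 138))) (PT.nd (nat_lit 78) (PT.lf (nat_lit 21584) (nat_lit 6) (nat_lit 284) (nat_lit 5) (nat_lit 125) (nat_lit 128) (nat_lit 137)) (PT.lf (nat_lit 22116) (nat_lit 6) (nat_lit 291) (nat_lit 5) (nat_lit 126) (nat_lit 128) (nat_lit 136)))))) (PT.nd (nat_lit 546) (PT.nd (nat_lit 234) (PT.nd (nat_lit 78) (PT.lf (nat_lit 22572) (nat_lit 6) (nat_lit 297) (nat_lit 5) (nat_lit 127) (nat_lit 128) (nat_lit 135)) (PT.nd (nat_lit 78) (PT.lf (nat_lit 22952) (nat_lit 3) (nat_lit 302) (nat_lit 3) (nat_lit 128) (nat_lit 128) (nat_lit 134)) (PT.lf (nat_lit 23332) (nat_lit 6) (nat_lit 307) (nat_lit 3) (nat_lit 129) (nat_lit 128) (nat_lit 133)))) (PT.nd (nat_lit 156) (PT.nd (nat_lit 78) (PT.lf (nat_lit 23636) (nat_lit 6) (nat_lit 311) (nat_lit 3) (nat_lit 130) (nat_lit 128)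 (nat_lit 132)) (PT.lf (nat_lit 23712) (nat_lit 3) (nat_lit 312) (nat_lit 1) (nat_lit 131) (nat_lit 128) (nat_lit 131))) (PT.nd (nat_lit 78) (PT.lf (nat_lit 23636) (nat_lit 6) (nat_lit 311) (nat_lit 1) (nat_lit 132) (nat_lit 128) (nat_lit 130)) (PT.lf (nat_lit 23332) (nat_lit 6) (nat_lit 307) (nat_lit 1) (nat_lit 133) (nat_lit 128) (nat_lit 129))))) (PT.nd (nat_lit 234) (PT.nd (nat_lit 78) (PT.lf (nat_lit 22952) (nat_lit 3) (nat_lit 302) (nat_lit 0) (nat_lit 134) (nat_lit 128) (nat_lit 128)) (PT.nd (nat_lit 78) (PT.lf (nat_lit 22572) (nat_lit 6) (nat_lit 297) (nat_lit 0) (nat_lit 135) (nat_lit 128) (nat_lit 127)) (PT.lf (nat_lit 22116) (nat_lit 6) (nat_lit 291) (nat_lit 0) (nat_lit 136) (nat_lit 128) (nat_lit 126)))) (PT.nd (nat_lit 156) (PT.nd (nat_lit 78) (PT.lf (nat_lit 21584) (nat_lit 6) (nat_lit 284) (nat_lit 0) (nat_lit 137) (nat_lit 128) (nat_lit 125)) (PT.lf (nat_lit 20976) (nat_lit 6) (nat_lit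 276) (nat_lit 0) (nat_lit 138) (nat_lit 128) (nat_lit 124))) (PT.nd (nat_lit 78) (PT.lf (nat_lit 20292) (nat_lit 6) (nat_lit 267) (nat_lit 0) (nat_lit 139) (nat_lit 128) (nat_lit 123)) (PT.lf (nat_lit 19532) (nat_lit 6) (nat_lit 257) (nat_lit 0) (nat_lit 140) (nat_lit 128) (nat_lit 122))))))))
noncomputable def pc12 : PT := (PT.nd (nat_lit 40326) (PT.nd (nat_lit 39312) (PT.nd (nat_lit 38766) (PT.nd (nat_lit 234) (PT.nd (nat_lit 78) (PT.lf (nat_lit 18696) (nat_lit 6) (nat_lit 246) (nat_lit 0) (nat_lit 141) (nat_lit 128) (nat_lit 121)) (PT.nd (nat_lit 78) (PT.lf (nat_lit 17784) (nat_lit 6) (nat_lit 234) (nat_lit 0) (nat_lit 142) (nat_lit 128) (nat_lit 120)) (PT.lf (nat_lit 16796) (nat_lit 6) (nat_lit 221) (nat_lit 0) (nat_lit 143) (nat_lit 128) (nat_lit 119)))) (PT.nd (nat_lit 78) (PT.lf (nat_lit 15732) (nat_lit 6) (nat_lit 207) (nat_lit 0) (nat_lit 144) (nat_lit 128) (nat_lit 118)) (PT.nd (nat_lit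 38376) (PT.lf (nat_lit 14592) (nat_lit 6) (nat_lit 192) (nat_lit 0) (nat_lit 145) (nat_lit 128) (nat_lit 117)) (PT.lf (nat_lit 14668) (nat_lit 6) (nat_lit 193) (nat_lit 5) (nat_lit 116) (nat_lit 129) (nat_lit 145))))) (PT.nd (nat_lit 234) (PT.nd (nat_lit 78) (PT.lf (nat_lit 15808) (nat_lit 6) (nat_lit 208) (nat_lit 5) (nat_lit 117) (nat_lit 129) (nat_lit 144)) (PT.nd (nat_lit 78) (PT.lf (nat_lit 16872) (nat_lit 6) (nat_lit 222) (nat_lit 5) (nat_lit 118) (nat_lit 129) (nat_lit 143)) (PT.lf (nat_lit 17860) (nat_lit 6) (nat_lit 235) (nat_lit 5) (nat_lit 119) (nat_lit 129) (nat_lit 142)))) (PT.nd (nat_lit 156) (PT.nd (nat_lit 78) (PT.lf (nat_lit 18772) (nat_lit 6) (nat_lit 247) (nat_lit 5) (nat_lit 120) (nat_lit 129) (nat_lit 141)) (PT.lf (nat_lit 19608) (nat_lit 6) (nat_lit 258) (nat_lit 5) (nat_lit 121) (nat_lit 129) (nat_lit 140))) (PT.nd (nat_lit 78) (PT.lf (nat_lit 20368) (nat_lit 6) (nat_lit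 268) (nat_lit 5) (nat_lit 122) (nat_lit 129) (nat_lit 139)) (PT.lf (nat_lit 21052) (nat_lit 6) (nat_lit 277) (nat_lit 5) (nat_lit 123) (nat_lit 129) (nat_lit 138)))))) (PT.nd (nat_lit 468) (PT.nd (nat_lit 234) (PT.nd (nat_lit 78) (PT.lf (nat_lit 21660) (nat_lit 6) (nat_lit 285) (nat_lit 5) (nat_lit 124) (nat_lit 129) (nat_lit 137)) (PT.nd (nat_lit 78) (PT.lf (nat_lit 22192) (nat_lit 6) (nat_lit 292) (nat_lit 5) (nat_lit 125) (nat_lit 129) (nat_lit 136)) (PT.lf (nat_lit 22648) (nat_lit 6) (nat_lit 298) (nat_lit 5) (nat_lit 126) (nat_lit 129) (nat_lit 135)))) (PT.nd (nat_lit 78) (PT.lf (nat_lit 23028) (nat_lit 6) (nat_lit 303) (nat_lit 5) (nat_lit 127) (nat_lit 129) (nat_lit 134)) (PT.nd (nat_lit 78) (PT.lf (nat_lit 23332) (nat_lit 6) (nat_lit 307) (nat_lit 5) (nat_lit 128) (nat_lit 129) (nat_lit 133)) (PT.lf (nat_lit 23560) (nat_lit 3) (nat_lit 310) (nat_lit 3) (nat_lit 129) (nat_lit 129) (nat_lit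 132))))) (PT.nd (nat_lit 234) (PT.nd (nat_lit 78) (PT.lf (nat_lit 23788) (nat_lit 6) (nat_lit 313) (nat_lit 3) (nat_lit 130) (nat_lit 129) (nat_lit 131)) (PT.nd (nat_lit 78) (PT.lf (nat_lit 23788) (nat_lit 6) (nat_lit 313) (nat_lit 1) (nat_lit 131) (nat_lit 129) (nat_lit 130)) (PT.lf (nat_lit 23560) (nat_lit 3) (nat_lit 310) (nat_lit 0) (nat_lit 132) (nat_lit 129) (nat_lit 129)))) (PT.nd (nat_lit 156) (PT.nd (nat_lit 78) (PT.lf (nat_lit 23332) (nat_lit 6) (nat_lit 307) (nat_lit 0) (nat_lit 133) (nat_lit 129) (nat_lit 128)) (PT.lf (nat_lit 23028) (nat_lit 6) (nat_lit 303) (nat_lit 0) (nat_lit 134) (nat_lit 129) (nat_lit 127))) (PT.nd (nat_lit 78) (PT.lf (nat_lit 22648) (nat_lit 6) (nat_lit 298) (nat_lit 0) (nat_lit 135) (nat_lit 129) (nat_lit 126)) (PT.lf (nat_lit 22192) (nat_lit 6) (nat_lit 292) (nat_lit 0) (nat_lit 136) (nat_lit 129) (nat_lit 125))))))) (PT.nd (nat_lit 39156) (PT.nd (nat_lit 468)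 (PT.nd (nat_lit 234) (PT.nd (nat_lit 78) (PT.lf (nat_lit 21660) (nat_lit 6) (nat_lit 285) (nat_lit 0) (nat_lit 137) (nat_lit 129) (nat_lit 124)) (PT.nd (nat_lit 78) (PT.lf (nat_lit 21052) (nat_lit 6) (nat_lit 277) (nat_lit 0) (nat_lit 138) (nat_lit 129) (nat_lit 123)) (PT.lf (nat_lit 20368) (nat_lit 6) (nat_lit 268) (nat_lit 0) (nat_lit 139) (nat_lit 129) (nat_lit 122)))) (PT.nd (nat_lit 78) (PT.lf (nat_lit 19608) (nat_lit 6) (nat_lit 258) (nat_lit 0) (nat_lit 140) (nat_lit 129) (nat_lit 121)) (PT.nd (nat_lit 78) (PT.lf (nat_lit 18772) (nat_lit 6) (nat_lit 247) (nat_lit 0) (nat_lit 141) (nat_lit 129) (nat_lit 120)) (PT.lf (nat_lit 17860) (nat_lit 6) (nat_lit 235) (nat_lit 0) (nat_lit 142) (nat_lit 129) (nat_lit 119))))) (PT.nd (nat_lit 38376) (PT.nd (nat_lit 78) (PT.lf (nat_lit 16872) (nat_lit 6) (nat_lit 222) (nat_lit 0) (nat_lit 143) (nat_lit 129) (nat_lit 118)) (PT.nd (nat_lit 78) (PT.lf (nat_lit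 15808) (nat_lit 6) (nat_lit 208) (nat_lit 0) (nat_lit 144) (nat_lit 129) (nat_lit 117)) (PT.lf (nat_lit 14668) (nat_lit 6) (nat_lit 193) (nat_lit 0) (nat_lit 145) (nat_lit 129) (nat_lit 116)))) (PT.nd (nat_lit 156) (PT.nd (nat_lit 78) (PT.lf (nat_lit 13528) (nat_lit 6) (nat_lit 178) (nat_lit 5) (nat_lit 114) (nat_lit 130) (nat_lit 146)) (PT.lf (nat_lit 14744) (nat_lit 6) (nat_lit 194) (nat_lit 5) (nat_lit 115) (nat_lit 130) (nat_lit 145))) (PT.nd (nat_lit 78) (PT.lf (nat_lit 15884) (nat_lit 6) (nat_lit 209) (nat_lit 5) (nat_lit 116) (nat_lit 130) (nat_lit 144)) (PT.lf (nat_lit 16948) (nat_lit 6) (nat_lit 223) (nat_lit 5) (nat_lit 117) (nat_lit 130) (nat_lit 143)))))) (PT.nd (nat_lit 546) (PT.nd (nat_lit 234) (PT.nd (nat_lit 78) (PT.lf (nat_lit 17936) (nat_lit 6) (nat_lit 236) (nat_lit 5) (nat_lit 118) (nat_lit 130) (nat_lit 142)) (PT.nd (nat_lit 78) (PT.lf (nat_lit 18848) (nat_lit 6) (nat_lit 248)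 (nat_lit 5) (nat_lit 119) (nat_lit 130) (nat_lit 141)) (PT.lf (nat_lit 19684) (nat_lit 6) (nat_lit 259) (nat_lit 5) (nat_lit 120) (nat_lit 130) (nat_lit 140)))) (PT.nd (nat_lit 156) (PT.nd (nat_lit 78) (PT.lf (nat_lit 20444) (nat_lit 6) (nat_lit 269) (nat_lit 5) (nat_lit 121) (nat_lit 130) (nat_lit 139)) (PT.lf (nat_lit 21128) (nat_lit 6) (nat_lit 278) (nat_lit 5) (nat_lit 122) (nat_lit 130) (nat_lit 138))) (PT.nd (nat_lit 78) (PT.lf (nat_lit 21736) (nat_lit 6) (nat_lit 286) (nat_lit 5) (nat_lit 123) (nat_lit 130) (nat_lit 137)) (PT.lf (nat_lit 22268) (nat_lit 6) (nat_lit 293) (nat_lit 5) (nat_lit 124) (nat_lit 130) (nat_lit 136))))) (PT.nd (nat_lit 234) (PT.nd (nat_lit 78) (PT.lf (nat_lit 22724) (nat_lit 6) (nat_lit 299) (nat_lit 5) (nat_lit 125) (nat_lit 130) (nat_lit 135)) (PT.nd (nat_lit 78) (PT.lf (nat_lit 23104) (nat_lit 6) (nat_lit 304) (nat_lit 5) (nat_lit 126) (nat_lit 130) (nat_lit 134))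 (PT.lf (nat_lit 23408) (nat_lit 6) (nat_lit 308) (nat_lit 5) (nat_lit 127) (nat_lit 130) (nat_lit 133)))) (PT.nd (nat_lit 156) (PT.nd (nat_lit 78) (PT.lf (nat_lit 23636) (nat_lit 6) (nat_lit 311) (nat_lit 5) (nat_lit 128) (nat_lit 130) (nat_lit 132)) (PT.lf (nat_lit 23788) (nat_lit 6) (nat_lit 313) (nat_lit 5) (nat_lit 129) (nat_lit 130) (nat_lit 131))) (PT.nd (nat_lit 78) (PT.lf (nat_lit 23864) (nat_lit 1) (nat_lit 314) (nat_lit 0) (nat_lit 130) (nat_lit 130) (nat_lit 130)) (PT.lf (nat_lit 23788) (nat_lit 6) (nat_lit 313) (nat_lit 0) (nat_lit 131) (nat_lit 130) (nat_lit 129))))))))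
noncomputable def pc13 : PT := (PT.nd (nat_lit 40014) (PT.nd (nat_lit 1014) (PT.nd (nat_lit 468) (PT.nd (nat_lit 234) (PT.nd (nat_lit 78) (PT.lf (nat_lit 23636) (nat_lit 6) (nat_lit 311) (nat_lit 0) (nat_lit 132) (nat_lit 130) (nat_lit 128)) (PT.nd (nat_lit 78) (PT.lf (nat_lit 23408) (nat_lit 6) (nat_lit 308) (nat_lit 0) (nat_lit 133) (nat_lit 130) (nat_lit 127)) (PT.lf (nat_lit 23104) (nat_lit 6) (nat_lit 304) (nat_lit 0) (nat_lit 134) (nat_lit 130) (nat_lit 126)))) (PT.nd (nat_lit 78) (PT.lf (nat_lit 22724) (nat_lit 6) (nat_lit 299) (nat_lit 0) (nat_lit 135) (nat_lit 130) (nat_lit 125)) (PT.nd (nat_lit 78) (PT.lf (nat_lit 22268) (nat_lit 6) (nat_lit 293) (nat_lit 0) (nat_lit 136) (nat_lit 130) (nat_lit 124)) (PT.lf (nat_lit 21736) (nat_lit 6) (nat_lit 286) (nat_lit 0) (nat_lit 137) (nat_lit 130) (nat_lit 123))))) (PT.nd (nat_lit 234) (PT.nd (nat_lit 78) (PT.lf (nat_lit 21128) (nat_lit 6) (nat_lit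 278) (nat_lit 0) (nat_lit 138) (nat_lit 130) (nat_lit 122)) (PT.nd (nat_lit 78) (PT.lf (nat_lit 20444) (nat_lit 6) (nat_lit 269) (nat_lit 0) (nat_lit 139) (nat_lit 130) (nat_lit 121)) (PT.lf (nat_lit 19684) (nat_lit 6) (nat_lit 259) (nat_lit 0) (nat_lit 140) (nat_lit 130) (nat_lit 120)))) (PT.nd (nat_lit 156) (PT.nd (nat_lit 78) (PT.lf (nat_lit 18848) (nat_lit 6) (nat_lit 248) (nat_lit 0) (nat_lit 141) (nat_lit 130) (nat_lit 119)) (PT.lf (nat_lit 17936) (nat_lit 6) (nat_lit 236) (nat_lit 0) (nat_lit 142) (nat_lit 130) (nat_lit 118))) (PT.nd (nat_lit 78) (PT.lf (nat_lit 16948) (nat_lit 6) (nat_lit 223) (nat_lit 0) (nat_lit 143) (nat_lit 130) (nat_lit 117)) (PT.lf (nat_lit 15884) (nat_lit 6) (nat_lit 209) (nat_lit 0) (nat_lit 144) (nat_lit 130) (nat_lit 116)))))) (PT.nd (nat_lit 38454) (PT.nd (nat_lit 38220) (PT.nd (nat_lit 78) (PT.lf (nat_lit 14744) (nat_lit 6) (nat_lit 194) (nat_lit 0) (nat_lit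 145) (nat_lit 130) (nat_lit 115)) (PT.nd (nat_lit 38064) (PT.lf (nat_lit 13528) (nat_lit 6) (nat_lit 178) (nat_lit 0) (nat_lit 146) (nat_lit 130) (nat_lit 114)) (PT.lf (nat_lit 12920) (nat_lit 6) (nat_lit 170) (nat_lit 5) (nat_lit 113) (nat_lit 131) (nat_lit 146)))) (PT.nd (nat_lit 78) (PT.lf (nat_lit 13604) (nat_lit 6) (nat_lit 179) (nat_lit 5) (nat_lit 114) (nat_lit 131) (nat_lit 145)) (PT.nd (nat_lit 78) (PT.lf (nat_lit 14820) (nat_lit 6) (nat_lit 195) (nat_lit 5) (nat_lit 115) (nat_lit 131) (nat_lit 144)) (PT.lf (nat_lit 15960) (nat_lit 6) (nat_lit 210) (nat_lit 5) (nat_lit 116) (nat_lit 131) (nat_lit 143))))) (PT.nd (nat_lit 234) (PT.nd (nat_lit 78) (PT.lf (nat_lit 17024) (nat_lit 6) (nat_lit 224) (nat_lit 5) (nat_lit 117) (nat_lit 131) (nat_lit 142)) (PT.nd (nat_lit 78) (PT.lf (nat_lit 18012) (nat_lit 6) (nat_lit 237) (nat_lit 5) (nat_lit 118) (nat_lit 131) (nat_lit 141)) (PT.lf (nat_lit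 18924) (nat_lit 6) (nat_lit 249) (nat_lit 5) (nat_lit 119) (nat_lit 131) (nat_lit 140)))) (PT.nd (nat_lit 156) (PT.nd (nat_lit 78) (PT.lf (nat_lit 19760) (nat_lit 6) (nat_lit 260) (nat_lit 5) (nat_lit 120) (nat_lit 131) (nat_lit 139)) (PT.lf (nat_lit 20520) (nat_lit 6) (nat_lit 270) (nat_lit 5) (nat_lit 121) (nat_lit 131) (nat_lit 138))) (PT.nd (nat_lit 78) (PT.lf (nat_lit 21204) (nat_lit 6) (nat_lit 279) (nat_lit 5) (nat_lit 122) (nat_lit 131) (nat_lit 137)) (PT.lf (nat_lit 21812) (nat_lit 6) (nat_lit 287) (nat_lit 5) (nat_lit 123) (nat_lit 131) (nat_lit 136))))))) (PT.nd (nat_lit 1014) (PT.nd (nat_lit 468) (PT.nd (nat_lit 234) (PT.nd (nat_lit 78) (PT.lf (nat_lit 22344) (nat_lit 6) (nat_lit 294) (nat_lit 5) (nat_lit 124) (nat_lit 131) (nat_lit 135)) (PT.nd (nat_lit 78) (PT.lf (nat_lit 22800) (nat_lit 6) (nat_lit 300) (nat_lit 5) (nat_lit 125) (nat_lit 131) (nat_lit 134)) (PT.lf (nat_lit 23180)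 (nat_lit 6) (nat_lit 305) (nat_lit 5) (nat_lit 126) (nat_lit 131) (nat_lit 133)))) (PT.nd (nat_lit 78) (PT.lf (nat_lit 23484) (nat_lit 6) (nat_lit 309) (nat_lit 5) (nat_lit 127) (nat_lit 131) (nat_lit 132)) (PT.nd (nat_lit 78) (PT.lf (nat_lit 23712) (nat_lit 3) (nat_lit 312) (nat_lit 4) (nat_lit 128) (nat_lit 131) (nat_lit 131)) (PT.lf (nat_lit 23788) (nat_lit 6) (nat_lit 313) (nat_lit 4) (nat_lit 129) (nat_lit 131) (nat_lit 130))))) (PT.nd (nat_lit 234) (PT.nd (nat_lit 78) (PT.lf (nat_lit 23788) (nat_lit 6) (nat_lit 313) (nat_lit 2) (nat_lit 130) (nat_lit 131) (nat_lit 129)) (PT.nd (nat_lit 78) (PT.lf (nat_lit 23712) (nat_lit 3) (nat_lit 312) (nat_lit 0) (nat_lit 131) (nat_lit 131) (nat_lit 128)) (PT.lf (nat_lit 23484) (nat_lit 6) (nat_lit 309) (nat_lit 0) (nat_lit 132) (nat_lit 131) (nat_lit 127)))) (PT.nd (nat_lit 156) (PT.nd (nat_lit 78) (PT.lf (nat_lit 23180) (nat_lit 6) (nat_lit 305) (nat_lit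 0) (nat_lit 133) (nat_lit 131) (nat_lit 126)) (PT.lf (nat_lit 22800) (nat_lit 6) (nat_lit 300) (nat_lit 0) (nat_lit 134) (nat_lit 131) (nat_lit 125))) (PT.nd (nat_lit 78) (PT.lf (nat_lit 22344) (nat_lit 6) (nat_lit 294) (nat_lit 0) (nat_lit 135) (nat_lit 131) (nat_lit 124)) (PT.lf (nat_lit 21812) (nat_lit 6) (nat_lit 287) (nat_lit 0) (nat_lit 136) (nat_lit 131) (nat_lit 123)))))) (PT.nd (nat_lit 546) (PT.nd (nat_lit 234) (PT.nd (nat_lit 78) (PT.lf (nat_lit 21204) (nat_lit 6) (nat_lit 279) (nat_lit 0) (nat_lit 137) (nat_lit 131) (nat_lit 122)) (PT.nd (nat_lit 78) (PT.lf (nat_lit 20520) (nat_lit 6) (nat_lit 270) (nat_lit 0) (nat_lit 138) (nat_lit 131) (nat_lit 121)) (PT.lf (nat_lit 19760) (nat_lit 6) (nat_lit 260) (nat_lit 0) (nat_lit 139) (nat_lit 131) (nat_lit 120)))) (PT.nd (nat_lit 156) (PT.nd (nat_lit 78) (PT.lf (nat_lit 18924) (nat_lit 6) (nat_lit 249) (nat_lit 0) (nat_lit 140) (nat_lit 131)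 (nat_lit 119)) (PT.lf (nat_lit 18012) (nat_lit 6) (nat_lit 237) (nat_lit 0) (nat_lit 141) (nat_lit 131) (nat_lit 118))) (PT.nd (nat_lit 78) (PT.lf (nat_lit 17024) (nat_lit 6) (nat_lit 224) (nat_lit 0) (nat_lit 142) (nat_lit 131) (nat_lit 117)) (PT.lf (nat_lit 15960) (nat_lit 6) (nat_lit 210) (nat_lit 0) (nat_lit 143) (nat_lit 131) (nat_lit 116))))) (PT.nd (nat_lit 38142) (PT.nd (nat_lit 78) (PT.lf (nat_lit 14820) (nat_lit 6) (nat_lit 195) (nat_lit 0) (nat_lit 144) (nat_lit 131) (nat_lit 115)) (PT.nd (nat_lit 78) (PT.lf (nat_lit 13604) (nat_lit 6) (nat_lit 179) (nat_lit 0) (nat_lit 145) (nat_lit 131) (nat_lit 114)) (PT.lf (nat_lit 12920) (nat_lit 6) (nat_lit 170) (nat_lit 0) (nat_lit 146) (nat_lit 131) (nat_lit 113)))) (PT.nd (nat_lit 156) (PT.nd (nat_lit 78) (PT.lf (nat_lit 12312) (nat_lit 6) (nat_lit 162) (nat_lit 5) (nat_lit 112) (nat_lit 132) (nat_lit 146)) (PT.lf (nat_lit 12996) (nat_lit 6)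 (nat_lit 171) (nat_lit 5) (nat_lit 113) (nat_lit 132) (nat_lit 145))) (PT.nd (nat_lit 78) (PT.lf (nat_lit 13680) (nat_lit 6) (nat_lit 180) (nat_lit 5) (nat_lit 114) (nat_lit 132) (nat_lit 144)) (PT.lf (nat_lit 14896) (nat_lit 6) (nat_lit 196) (nat_lit 5) (nat_lit 115) (nat_lit 132) (nat_lit 143))))))))
noncomputable def pc14 : PT := (PT.nd (nat_lit 2028) (PT.nd (nat_lit 1014) (PT.nd (nat_lit 468) (PT.nd (nat_lit 234) (PT.nd (nat_lit 78) (PT.lf (nat_lit 16036) (nat_lit 6) (nat_lit 211) (nat_lit 5) (nat_lit 116) (nat_lit 132) (nat_lit 142)) (PT.nd (nat_lit 78) (PT.lf (nat_lit 17100) (nat_lit 6) (nat_lit 225) (nat_lit 5) (nat_lit 117) (nat_lit 132) (nat_lit 141)) (PT.lf (nat_lit 18088) (nat_lit 6) (nat_lit 238) (nat_lit 5) (nat_lit 118) (nat_lit 132) (nat_lit 140)))) (PT.nd (nat_lit 78) (PT.lf (nat_lit 19000) (nat_lit 6) (nat_lit 250) (nat_lit 5) (nat_lit 119) (nat_lit 132) (nat_lit 139)) (PT.nd (nat_lit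 78) (PT.lf (nat_lit 19836) (nat_lit 6) (nat_lit 261) (nat_lit 5) (nat_lit 120) (nat_lit 132) (nat_lit 138)) (PT.lf (nat_lit 20596) (nat_lit 6) (nat_lit 271) (nat_lit 5) (nat_lit 121) (nat_lit 132) (nat_lit 137))))) (PT.nd (nat_lit 234) (PT.nd (nat_lit 78) (PT.lf (nat_lit 21280) (nat_lit 6) (nat_lit 280) (nat_lit 5) (nat_lit 122) (nat_lit 132) (nat_lit 136)) (PT.nd (nat_lit 78) (PT.lf (nat_lit 21888) (nat_lit 6) (nat_lit 288) (nat_lit 5) (nat_lit 123) (nat_lit 132) (nat_lit 135)) (PT.lf (nat_lit 22420) (nat_lit 6) (nat_lit 295) (nat_lit 5) (nat_lit 124) (nat_lit 132) (nat_lit 134)))) (PT.nd (nat_lit 156) (PT.nd (nat_lit 78) (PT.lf (nat_lit 22876) (nat_lit 6) (nat_lit 301) (nat_lit 5) (nat_lit 125) (nat_lit 132) (nat_lit 133)) (PT.lf (nat_lit 23256) (nat_lit 3) (nat_lit 306) (nat_lit 4) (nat_lit 126) (nat_lit 132) (nat_lit 132))) (PT.nd (nat_lit 78) (PT.lf (nat_lit 23484) (nat_lit 6) (nat_lit 309)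 (nat_lit 4) (nat_lit 127) (nat_lit 132) (nat_lit 131)) (PT.lf (nat_lit 23636) (nat_lit 6) (nat_lit 311) (nat_lit 4) (nat_lit 128) (nat_lit 132) (nat_lit 130)))))) (PT.nd (nat_lit 468) (PT.nd (nat_lit 234) (PT.nd (nat_lit 78) (PT.lf (nat_lit 23560) (nat_lit 3) (nat_lit 310) (nat_lit 2) (nat_lit 129) (nat_lit 132) (nat_lit 129)) (PT.nd (nat_lit 78) (PT.lf (nat_lit 23636) (nat_lit 6) (nat_lit 311) (nat_lit 2) (nat_lit 130) (nat_lit 132) (nat_lit 128)) (PT.lf (nat_lit 23484) (nat_lit 6) (nat_lit 309) (nat_lit 2) (nat_lit 131) (nat_lit 132) (nat_lit 127)))) (PT.nd (nat_lit 78) (PT.lf (nat_lit 23256) (nat_lit 3) (nat_lit 306) (nat_lit 0) (nat_lit 132) (nat_lit 132) (nat_lit 126)) (PT.nd (nat_lit 78) (PT.lf (nat_lit 22876) (nat_lit 6) (nat_lit 301) (nat_lit 0) (nat_lit 133) (nat_lit 132) (nat_lit 125)) (PT.lf (nat_lit 22420) (nat_lit 6) (nat_lit 295) (nat_lit 0) (nat_lit 134) (nat_lit 132) (nat_lit 124)))))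 (PT.nd (nat_lit 234) (PT.nd (nat_lit 78) (PT.lf (nat_lit 21888) (nat_lit 6) (nat_lit 288) (nat_lit 0) (nat_lit 135) (nat_lit 132) (nat_lit 123)) (PT.nd (nat_lit 78) (PT.lf (nat_lit 21280) (nat_lit 6) (nat_lit 280) (nat_lit 0) (nat_lit 136) (nat_lit 132) (nat_lit 122)) (PT.lf (nat_lit 20596) (nat_lit 6) (nat_lit 271) (nat_lit 0) (nat_lit 137) (nat_lit 132) (nat_lit 121)))) (PT.nd (nat_lit 156) (PT.nd (nat_lit 78) (PT.lf (nat_lit 19836) (nat_lit 6) (nat_lit 261) (nat_lit 0) (nat_lit 138) (nat_lit 132) (nat_lit 120)) (PT.lf (nat_lit 19000) (nat_lit 6) (nat_lit 250) (nat_lit 0) (nat_lit 139) (nat_lit 132) (nat_lit 119))) (PT.nd (nat_lit 78) (PT.lf (nat_lit 18088) (nat_lit 6) (nat_lit 238) (nat_lit 0) (nat_lit 140) (nat_lit 132) (nat_lit 118)) (PT.lf (nat_lit 17100) (nat_lit 6) (nat_lit 225) (nat_lit 0) (nat_lit 141) (nat_lit 132) (nat_lit 117))))))) (PT.nd (nat_lit 38844) (PT.nd (nat_lit 38298) (PT.nd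 (nat_lit 234) (PT.nd (nat_lit 78) (PT.lf (nat_lit 16036) (nat_lit 6) (nat_lit 211) (nat_lit 0) (nat_lit 142) (nat_lit 132) (nat_lit 116)) (PT.nd (nat_lit 78) (PT.lf (nat_lit 14896) (nat_lit 6) (nat_lit 196) (nat_lit 0) (nat_lit 143) (nat_lit 132) (nat_lit 115)) (PT.lf (nat_lit 13680) (nat_lit 6) (nat_lit 180) (nat_lit 0) (nat_lit 144) (nat_lit 132) (nat_lit 114)))) (PT.nd (nat_lit 78) (PT.lf (nat_lit 12996) (nat_lit 6) (nat_lit 171) (nat_lit 0) (nat_lit 145) (nat_lit 132) (nat_lit 113)) (PT.nd (nat_lit 37908) (PT.lf (nat_lit 12312) (nat_lit 6) (nat_lit 162) (nat_lit 0) (nat_lit 146) (nat_lit 132) (nat_lit 112)) (PT.lf (nat_lit 11780) (nat_lit 6) (nat_lit 155) (nat_lit 5) (nat_lit 111) (nat_lit 133) (nat_lit 146))))) (PT.nd (nat_lit 234) (PT.nd (nat_lit 78) (PT.lf (nat_lit 12388) (nat_lit 6) (nat_lit 163) (nat_lit 5) (nat_lit 112) (nat_lit 133) (nat_lit 145)) (PT.nd (nat_lit 78) (PT.lf (nat_lit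 13072) (nat_lit 6) (nat_lit 172) (nat_lit 5) (nat_lit 113) (nat_lit 133) (nat_lit 144)) (PT.lf (nat_lit 13756) (nat_lit 6) (nat_lit 181) (nat_lit 5) (nat_lit 114) (nat_lit 133) (nat_lit 143)))) (PT.nd (nat_lit 156) (PT.nd (nat_lit 78) (PT.lf (nat_lit 14972) (nat_lit 6) (nat_lit 197) (nat_lit 5) (nat_lit 115) (nat_lit 133) (nat_lit 142)) (PT.lf (nat_lit 16112) (nat_lit 6) (nat_lit 212) (nat_lit 5) (nat_lit 116) (nat_lit 133) (nat_lit 141))) (PT.nd (nat_lit 78) (PT.lf (nat_lit 17176) (nat_lit 6) (nat_lit 226) (nat_lit 5) (nat_lit 117) (nat_lit 133) (nat_lit 140)) (PT.lf (nat_lit 18164) (nat_lit 6) (nat_lit 239) (nat_lit 5) (nat_lit 118) (nat_lit 133) (nat_lit 139)))))) (PT.nd (nat_lit 546) (PT.nd (nat_lit 234) (PT.nd (nat_lit 78) (PT.lf (nat_lit 19076) (nat_lit 6) (nat_lit 251) (nat_lit 5) (nat_lit 119) (nat_lit 133) (nat_lit 138)) (PT.nd (nat_lit 78) (PT.lf (nat_lit 19912) (nat_lit 6) (nat_lit 262)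 (nat_lit 5) (nat_lit 120) (nat_lit 133) (nat_lit 137)) (PT.lf (nat_lit 20672) (nat_lit 6) (nat_lit 272) (nat_lit 5) (nat_lit 121) (nat_lit 133) (nat_lit 136)))) (PT.nd (nat_lit 156) (PT.nd (nat_lit 78) (PT.lf (nat_lit 21356) (nat_lit 6) (nat_lit 281) (nat_lit 5) (nat_lit 122) (nat_lit 133) (nat_lit 135)) (PT.lf (nat_lit 21964) (nat_lit 6) (nat_lit 289) (nat_lit 5) (nat_lit 123) (nat_lit 133) (nat_lit 134))) (PT.nd (nat_lit 78) (PT.lf (nat_lit 22496) (nat_lit 3) (nat_lit 296) (nat_lit 4) (nat_lit 124) (nat_lit 133) (nat_lit 133)) (PT.lf (nat_lit 22876) (nat_lit 6) (nat_lit 301) (nat_lit 4) (nat_lit 125) (nat_lit 133) (nat_lit 132))))) (PT.nd (nat_lit 234) (PT.nd (nat_lit 78) (PT.lf (nat_lit 23180) (nat_lit 6) (nat_lit 305) (nat_lit 4) (nat_lit 126) (nat_lit 133) (nat_lit 131)) (PT.nd (nat_lit 78) (PT.lf (nat_lit 23408) (nat_lit 6) (nat_lit 308) (nat_lit 4) (nat_lit 127) (nat_lit 133) (nat_lit 130))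 (PT.lf (nat_lit 23332) (nat_lit 6) (nat_lit 307) (nat_lit 4) (nat_lit 128) (nat_lit 133) (nat_lit 129)))) (PT.nd (nat_lit 156) (PT.nd (nat_lit 78) (PT.lf (nat_lit 23332) (nat_lit 6) (nat_lit 307) (nat_lit 2) (nat_lit 129) (nat_lit 133) (nat_lit 128)) (PT.lf (nat_lit 23408) (nat_lit 6) (nat_lit 308) (nat_lit 2) (nat_lit 130) (nat_lit 133) (nat_lit 127))) (PT.nd (nat_lit 78) (PT.lf (nat_lit 23180) (nat_lit 6) (nat_lit 305) (nat_lit 2) (nat_lit 131) (nat_lit 133) (nat_lit 126)) (PT.lf (nat_lit 22876) (nat_lit 6) (nat_lit 301) (nat_lit 2) (nat_lit 132) (nat_lit 133) (nat_lit 125))))))))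
noncomputable def pc15 : PT := (PT.nd (nat_lit 39780) (PT.nd (nat_lit 1014) (PT.nd (nat_lit 468) (PT.nd (nat_lit 234) (PT.nd (nat_lit 78) (PT.lf (nat_lit 22496) (nat_lit 3) (nat_lit 296) (nat_lit 0) (nat_lit 133) (nat_lit 133) (nat_lit 124)) (PT.nd (nat_lit 78) (PT.lf (nat_lit 21964) (nat_lit 6) (nat_lit 289) (nat_lit 0) (nat_lit 134) (nat_lit 133) (nat_lit 123)) (PT.lf (nat_lit 21356) (nat_lit 6) (nat_lit 281) (nat_lit 0) (nat_lit 135) (nat_lit 133) (nat_lit 122)))) (PT.nd (nat_lit 78) (PT.lf (nat_lit 20672) (nat_lit 6) (nat_lit 272) (nat_lit 0) (nat_lit 136) (nat_lit 133) (nat_lit 121)) (PT.nd (nat_lit 78) (PT.lf (nat_lit 19912) (nat_lit 6) (nat_lit 262) (nat_lit 0) (nat_lit 137) (nat_lit 133) (nat_lit 120)) (PT.lf (nat_lit 19076) (nat_lit 6) (nat_lit 251) (nat_lit 0) (nat_lit 138) (nat_lit 133) (nat_lit 119))))) (PT.nd (nat_lit 234) (PT.nd (nat_lit 78) (PT.lf (nat_lit 18164) (nat_lit 6) (nat_lit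 239) (nat_lit 0) (nat_lit 139) (nat_lit 133) (nat_lit 118)) (PT.nd (nat_lit 78) (PT.lf (nat_lit 17176) (nat_lit 6) (nat_lit 226) (nat_lit 0) (nat_lit 140) (nat_lit 133) (nat_lit 117)) (PT.lf (nat_lit 16112) (nat_lit 6) (nat_lit 212) (nat_lit 0) (nat_lit 141) (nat_lit 133) (nat_lit 116)))) (PT.nd (nat_lit 156) (PT.nd (nat_lit 78) (PT.lf (nat_lit 14972) (nat_lit 6) (nat_lit 197) (nat_lit 0) (nat_lit 142) (nat_lit 133) (nat_lit 115)) (PT.lf (nat_lit 13756) (nat_lit 6) (nat_lit 181) (nat_lit 0) (nat_lit 143) (nat_lit 133) (nat_lit 114))) (PT.nd (nat_lit 78) (PT.lf (nat_lit 13072) (nat_lit 6) (nat_lit 172) (nat_lit 0) (nat_lit 144) (nat_lit 133) (nat_lit 113)) (PT.lf (nat_lit 12388) (nat_lit 6) (nat_lit 163) (nat_lit 0) (nat_lit 145) (nat_lit 133) (nat_lit 112)))))) (PT.nd (nat_lit 38220) (PT.nd (nat_lit 37986) (PT.nd (nat_lit 37830) (PT.lf (nat_lit 11780) (nat_lit 6) (nat_lit 155) (nat_lit 0) (nat_lit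 146) (nat_lit 133) (nat_lit 111)) (PT.nd (nat_lit 78) (PT.lf (nat_lit 11248) (nat_lit 6) (nat_lit 148) (nat_lit 5) (nat_lit 110) (nat_lit 134) (nat_lit 146)) (PT.lf (nat_lit 11856) (nat_lit 6) (nat_lit 156) (nat_lit 5) (nat_lit 111) (nat_lit 134) (nat_lit 145)))) (PT.nd (nat_lit 78) (PT.lf (nat_lit 12464) (nat_lit 6) (nat_lit 164) (nat_lit 5) (nat_lit 112) (nat_lit 134) (nat_lit 144)) (PT.nd (nat_lit 78) (PT.lf (nat_lit 13148) (nat_lit 6) (nat_lit 173) (nat_lit 5) (nat_lit 113) (nat_lit 134) (nat_lit 143)) (PT.lf (nat_lit 13832) (nat_lit 6) (nat_lit 182) (nat_lit 5) (nat_lit 114) (nat_lit 134) (nat_lit 142))))) (PT.nd (nat_lit 234) (PT.nd (nat_lit 78) (PT.lf (nat_lit 15048) (nat_lit 6) (nat_lit 198) (nat_lit 5) (nat_lit 115) (nat_lit 134) (nat_lit 141)) (PT.nd (nat_lit 78) (PT.lf (nat_lit 16188) (nat_lit 6) (nat_lit 213) (nat_lit 5) (nat_lit 116) (nat_lit 134) (nat_lit 140)) (PT.lf (nat_lit 17252)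 (nat_lit 6) (nat_lit 227) (nat_lit 5) (nat_lit 117) (nat_lit 134) (nat_lit 139)))) (PT.nd (nat_lit 156) (PT.nd (nat_lit 78) (PT.lf (nat_lit 18240) (nat_lit 6) (nat_lit 240) (nat_lit 5) (nat_lit 118) (nat_lit 134) (nat_lit 138)) (PT.lf (nat_lit 19152) (nat_lit 6) (nat_lit 252) (nat_lit 5) (nat_lit 119) (nat_lit 134) (nat_lit 137))) (PT.nd (nat_lit 78) (PT.lf (nat_lit 19988) (nat_lit 6) (nat_lit 263) (nat_lit 5) (nat_lit 120) (nat_lit 134) (nat_lit 136)) (PT.lf (nat_lit 20748) (nat_lit 6) (nat_lit 273) (nat_lit 5) (nat_lit 121) (nat_lit 134) (nat_lit 135))))))) (PT.nd (nat_lit 1014) (PT.nd (nat_lit 468) (PT.nd (nat_lit 234) (PT.nd (nat_lit 78) (PT.lf (nat_lit 21432) (nat_lit 3) (nat_lit 282) (nat_lit 4) (nat_lit 122) (nat_lit 134) (nat_lit 134)) (PT.nd (nat_lit 78) (PT.lf (nat_lit 21964) (nat_lit 6) (nat_lit 289) (nat_lit 4) (nat_lit 123) (nat_lit 134) (nat_lit 133)) (PT.lf (nat_lit 22420) (nat_lit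 6) (nat_lit 295) (nat_lit 4) (nat_lit 124) (nat_lit 134) (nat_lit 132)))) (PT.nd (nat_lit 78) (PT.lf (nat_lit 22800) (nat_lit 6) (nat_lit 300) (nat_lit 4) (nat_lit 125) (nat_lit 134) (nat_lit 131)) (PT.nd (nat_lit 78) (PT.lf (nat_lit 23104) (nat_lit 6) (nat_lit 304) (nat_lit 4) (nat_lit 126) (nat_lit 134) (nat_lit 130)) (PT.lf (nat_lit 23028) (nat_lit 6) (nat_lit 303) (nat_lit 4) (nat_lit 127) (nat_lit 134) (nat_lit 129))))) (PT.nd (nat_lit 234) (PT.nd (nat_lit 78) (PT.lf (nat_lit 22952) (nat_lit 3) (nat_lit 302) (nat_lit 2) (nat_lit 128) (nat_lit 134) (nat_lit 128)) (PT.nd (nat_lit 78) (PT.lf (nat_lit 23028) (nat_lit 6) (nat_lit 303) (nat_lit 2) (nat_lit 129) (nat_lit 134) (nat_lit 127)) (PT.lf (nat_lit 23104) (nat_lit 6) (nat_lit 304) (nat_lit 2) (nat_lit 130) (nat_lit 134) (nat_lit 126)))) (PT.nd (nat_lit 156) (PT.nd (nat_lit 78) (PT.lf (nat_lit 22800) (nat_lit 6) (nat_lit 300) (nat_lit 2) (nat_lit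 131) (nat_lit 134) (nat_lit 125)) (PT.lf (nat_lit 22420) (nat_lit 6) (nat_lit 295) (nat_lit 2) (nat_lit 132) (nat_lit 134) (nat_lit 124))) (PT.nd (nat_lit 78) (PT.lf (nat_lit 21964) (nat_lit 6) (nat_lit 289) (nat_lit 2) (nat_lit 133) (nat_lit 134) (nat_lit 123)) (PT.lf (nat_lit 21432) (nat_lit 3) (nat_lit 282) (nat_lit 0) (nat_lit 134) (nat_lit 134) (nat_lit 122)))))) (PT.nd (nat_lit 546) (PT.nd (nat_lit 234) (PT.nd (nat_lit 78) (PT.lf (nat_lit 20748) (nat_lit 6) (nat_lit 273) (nat_lit 0) (nat_lit 135) (nat_lit 134) (nat_lit 121)) (PT.nd (nat_lit 78) (PT.lf (nat_lit 19988) (nat_lit 6) (nat_lit 263) (nat_lit 0) (nat_lit 136) (nat_lit 134) (nat_lit 120)) (PT.lf (nat_lit 19152) (nat_lit 6) (nat_lit 252) (nat_lit 0) (nat_lit 137) (nat_lit 134) (nat_lit 119)))) (PT.nd (nat_lit 156) (PT.nd (nat_lit 78) (PT.lf (nat_lit 18240) (nat_lit 6) (nat_lit 240) (nat_lit 0) (nat_lit 138) (nat_lit 134) (nat_lit 118))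 (PT.lf (nat_lit 17252) (nat_lit 6) (nat_lit 227) (nat_lit 0) (nat_lit 139) (nat_lit 134) (nat_lit 117))) (PT.nd (nat_lit 78) (PT.lf (nat_lit 16188) (nat_lit 6) (nat_lit 213) (nat_lit 0) (nat_lit 140) (nat_lit 134) (nat_lit 116)) (PT.lf (nat_lit 15048) (nat_lit 6) (nat_lit 198) (nat_lit 0) (nat_lit 141) (nat_lit 134) (nat_lit 115))))) (PT.nd (nat_lit 234) (PT.nd (nat_lit 78) (PT.lf (nat_lit 13832) (nat_lit 6) (nat_lit 182) (nat_lit 0) (nat_lit 142) (nat_lit 134) (nat_lit 114)) (PT.nd (nat_lit 78) (PT.lf (nat_lit 13148) (nat_lit 6) (nat_lit 173) (nat_lit 0) (nat_lit 143) (nat_lit 134) (nat_lit 113)) (PT.lf (nat_lit 12464) (nat_lit 6) (nat_lit 164) (nat_lit 0) (nat_lit 144) (nat_lit 134) (nat_lit 112)))) (PT.nd (nat_lit 37752) (PT.nd (nat_lit 78) (PT.lf (nat_lit 11856) (nat_lit 6) (nat_lit 156) (nat_lit 0) (nat_lit 145) (nat_lit 134) (nat_lit 111)) (PT.lf (nat_lit 11248) (nat_lit 6) (nat_lit 148)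 (nat_lit 0) (nat_lit 146) (nat_lit 134) (nat_lit 110))) (PT.nd (nat_lit 78) (PT.lf (nat_lit 10184) (nat_lit 6) (nat_lit 134) (nat_lit 5) (nat_lit 108) (nat_lit 135) (nat_lit 147)) (PT.lf (nat_lit 10792) (nat_lit 6) (nat_lit 142) (nat_lit 5) (nat_lit 109) (nat_lit 135) (nat_lit 146))))))))
noncomputable def pc16 : PT := (PT.nd (nat_lit 2028) (PT.nd (nat_lit 1014) (PT.nd (nat_lit 468) (PT.nd (nat_lit 234) (PT.nd (nat_lit 78) (PT.lf (nat_lit 11324) (nat_lit 6) (nat_lit 149) (nat_lit 5) (nat_lit 110) (nat_lit 135) (nat_lit 145)) (PT.nd (nat_lit 78) (PT.lf (nat_lit 11932) (nat_lit 6) (nat_lit 157) (nat_lit 5) (nat_lit 111) (nat_lit 135) (nat_lit 144)) (PT.lf (nat_lit 12540) (nat_lit 6) (nat_lit 165) (nat_lit 5) (nat_lit 112) (nat_lit 135) (nat_lit 143)))) (PT.nd (nat_lit 78) (PT.lf (nat_lit 13224) (nat_lit 6) (nat_lit 174) (nat_lit 5) (nat_lit 113) (nat_lit 135) (nat_lit 142)) (PT.nd (nat_lit 78) (PT.lf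 (nat_lit 13908) (nat_lit 6) (nat_lit 183) (nat_lit 5) (nat_lit 114) (nat_lit 135) (nat_lit 141)) (PT.lf (nat_lit 15124) (nat_lit 6) (nat_lit 199) (nat_lit 5) (nat_lit 115) (nat_lit 135) (nat_lit 140))))) (PT.nd (nat_lit 234) (PT.nd (nat_lit 78) (PT.lf (nat_lit 16264) (nat_lit 6) (nat_lit 214) (nat_lit 5) (nat_lit 116) (nat_lit 135) (nat_lit 139)) (PT.nd (nat_lit 78) (PT.lf (nat_lit 17328) (nat_lit 6) (nat_lit 228) (nat_lit 5) (nat_lit 117) (nat_lit 135) (nat_lit 138)) (PT.lf (nat_lit 18316) (nat_lit 6) (nat_lit 241) (nat_lit 5) (nat_lit 118) (nat_lit 135) (nat_lit 137)))) (PT.nd (nat_lit 156) (PT.nd (nat_lit 78) (PT.lf (nat_lit 19228) (nat_lit 6) (nat_lit 253) (nat_lit 5) (nat_lit 119) (nat_lit 135) (nat_lit 136)) (PT.lf (nat_lit 20064) (nat_lit 3) (nat_lit 264) (nat_lit 4) (nat_lit 120) (nat_lit 135) (nat_lit 135))) (PT.nd (nat_lit 78) (PT.lf (nat_lit 20748) (nat_lit 6) (nat_lit 273) (nat_lit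 4) (nat_lit 121) (nat_lit 135) (nat_lit 134)) (PT.lf (nat_lit 21356) (nat_lit 6) (nat_lit 281) (nat_lit 4) (nat_lit 122) (nat_lit 135) (nat_lit 133)))))) (PT.nd (nat_lit 468) (PT.nd (nat_lit 234) (PT.nd (nat_lit 78) (PT.lf (nat_lit 21888) (nat_lit 6) (nat_lit 288) (nat_lit 4) (nat_lit 123) (nat_lit 135) (nat_lit 132)) (PT.nd (nat_lit 78) (PT.lf (nat_lit 22344) (nat_lit 6) (nat_lit 294) (nat_lit 4) (nat_lit 124) (nat_lit 135) (nat_lit 131)) (PT.lf (nat_lit 22724) (nat_lit 6) (nat_lit 299) (nat_lit 4) (nat_lit 125) (nat_lit 135) (nat_lit 130)))) (PT.nd (nat_lit 78) (PT.lf (nat_lit 22648) (nat_lit 6) (nat_lit 298) (nat_lit 4) (nat_lit 126) (nat_lit 135) (nat_lit 129)) (PT.nd (nat_lit 78) (PT.lf (nat_lit 22572) (nat_lit 6) (nat_lit 297) (nat_lit 4) (nat_lit 127) (nat_lit 135) (nat_lit 128)) (PT.lf (nat_lit 22572) (nat_lit 6) (nat_lit 297) (nat_lit 2) (nat_lit 128) (nat_lit 135) (nat_lit 127))))) (PT.nd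 (nat_lit 234) (PT.nd (nat_lit 78) (PT.lf (nat_lit 22648) (nat_lit 6) (nat_lit 298) (nat_lit 2) (nat_lit 129) (nat_lit 135) (nat_lit 126)) (PT.nd (nat_lit 78) (PT.lf (nat_lit 22724) (nat_lit 6) (nat_lit 299) (nat_lit 2) (nat_lit 130) (nat_lit 135) (nat_lit 125)) (PT.lf (nat_lit 22344) (nat_lit 6) (nat_lit 294) (nat_lit 2) (nat_lit 131) (nat_lit 135) (nat_lit 124)))) (PT.nd (nat_lit 156) (PT.nd (nat_lit 78) (PT.lf (nat_lit 21888) (nat_lit 6) (nat_lit 288) (nat_lit 2) (nat_lit 132) (nat_lit 135) (nat_lit 123)) (PT.lf (nat_lit 21356) (nat_lit 6) (nat_lit 281) (nat_lit 2) (nat_lit 133) (nat_lit 135) (nat_lit 122))) (PT.nd (nat_lit 78) (PT.lf (nat_lit 20748) (nat_lit 6) (nat_lit 273) (nat_lit 2) (nat_lit 134) (nat_lit 135) (nat_lit 121)) (PT.lf (nat_lit 20064) (nat_lit 3) (nat_lit 264) (nat_lit 0) (nat_lit 135) (nat_lit 135) (nat_lit 120))))))) (PT.nd (nat_lit 38454) (PT.nd (nat_lit 468) (PT.nd (nat_lit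 234) (PT.nd (nat_lit 78) (PT.lf (nat_lit 19228) (nat_lit 6) (nat_lit 253) (nat_lit 0) (nat_lit 136) (nat_lit 135) (nat_lit 119)) (PT.nd (nat_lit 78) (PT.lf (nat_lit 18316) (nat_lit 6) (nat_lit 241) (nat_lit 0) (nat_lit 137) (nat_lit 135) (nat_lit 118)) (PT.lf (nat_lit 17328) (nat_lit 6) (nat_lit 228) (nat_lit 0) (nat_lit 138) (nat_lit 135) (nat_lit 117)))) (PT.nd (nat_lit 78) (PT.lf (nat_lit 16264) (nat_lit 6) (nat_lit 214) (nat_lit 0) (nat_lit 139) (nat_lit 135) (nat_lit 116)) (PT.nd (nat_lit 78) (PT.lf (nat_lit 15124) (nat_lit 6) (nat_lit 199) (nat_lit 0) (nat_lit 140) (nat_lit 135) (nat_lit 115)) (PT.lf (nat_lit 13908) (nat_lit 6) (nat_lit 183) (nat_lit 0) (nat_lit 141) (nat_lit 135) (nat_lit 114))))) (PT.nd (nat_lit 234) (PT.nd (nat_lit 78) (PT.lf (nat_lit 13224) (nat_lit 6) (nat_lit 174) (nat_lit 0) (nat_lit 142) (nat_lit 135) (nat_lit 113)) (PT.nd (nat_lit 78) (PT.lf (nat_lit 12540) (nat_lit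 6) (nat_lit 165) (nat_lit 0) (nat_lit 143) (nat_lit 135) (nat_lit 112)) (PT.lf (nat_lit 11932) (nat_lit 6) (nat_lit 157) (nat_lit 0) (nat_lit 144) (nat_lit 135) (nat_lit 111)))) (PT.nd (nat_lit 156) (PT.nd (nat_lit 78) (PT.lf (nat_lit 11324) (nat_lit 6) (nat_lit 149) (nat_lit 0) (nat_lit 145) (nat_lit 135) (nat_lit 110)) (PT.lf (nat_lit 10792) (nat_lit 6) (nat_lit 142) (nat_lit 0) (nat_lit 146) (nat_lit 135) (nat_lit 109))) (PT.nd (nat_lit 37518) (PT.lf (nat_lit 10184) (nat_lit 6) (nat_lit 134) (nat_lit 0) (nat_lit 147) (nat_lit 135) (nat_lit 108)) (PT.lf (nat_lit 9728) (nat_lit 6) (nat_lit 128) (nat_lit 5) (nat_lit 107) (nat_lit 136) (nat_lit 147)))))) (PT.nd (nat_lit 468) (PT.nd (nat_lit 234) (PT.nd (nat_lit 78) (PT.lf (nat_lit 10260) (nat_lit 6) (nat_lit 135) (nat_lit 5) (nat_lit 108) (nat_lit 136) (nat_lit 146)) (PT.nd (nat_lit 78) (PT.lf (nat_lit 10868) (nat_lit 6) (nat_lit 143) (nat_lit 5)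 (nat_lit 109) (nat_lit 136) (nat_lit 145)) (PT.lf (nat_lit 11400) (nat_lit 6) (nat_lit 150) (nat_lit 5) (nat_lit 110) (nat_lit 136) (nat_lit 144)))) (PT.nd (nat_lit 78) (PT.lf (nat_lit 12008) (nat_lit 6) (nat_lit 158) (nat_lit 5) (nat_lit 111) (nat_lit 136) (nat_lit 143)) (PT.nd (nat_lit 78) (PT.lf (nat_lit 12616) (nat_lit 6) (nat_lit 166) (nat_lit 5) (nat_lit 112) (nat_lit 136) (nat_lit 142)) (PT.lf (nat_lit 13300) (nat_lit 6) (nat_lit 175) (nat_lit 5) (nat_lit 113) (nat_lit 136) (nat_lit 141))))) (PT.nd (nat_lit 234) (PT.nd (nat_lit 78) (PT.lf (nat_lit 13984) (nat_lit 6) (nat_lit 184) (nat_lit 5) (nat_lit 114) (nat_lit 136) (nat_lit 140)) (PT.nd (nat_lit 78) (PT.lf (nat_lit 15200) (nat_lit 6) (nat_lit 200) (nat_lit 5) (nat_lit 115) (nat_lit 136) (nat_lit 139)) (PT.lf (nat_lit 16340) (nat_lit 6) (nat_lit 215) (nat_lit 5) (nat_lit 116) (nat_lit 136) (nat_lit 138)))) (PT.nd (nat_lit 156) (PT.nd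 (nat_lit 78) (PT.lf (nat_lit 17404) (nat_lit 6) (nat_lit 229) (nat_lit 5) (nat_lit 117) (nat_lit 136) (nat_lit 137)) (PT.lf (nat_lit 18392) (nat_lit 3) (nat_lit 242) (nat_lit 4) (nat_lit 118) (nat_lit 136) (nat_lit 136))) (PT.nd (nat_lit 78) (PT.lf (nat_lit 19228) (nat_lit 6) (nat_lit 253) (nat_lit 4) (nat_lit 119) (nat_lit 136) (nat_lit 135)) (PT.lf (nat_lit 19988) (nat_lit 6) (nat_lit 263) (nat_lit 4) (nat_lit 120) (nat_lit 136) (nat_lit 134))))))))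
noncomputable def pc17 : PT := (PT.nd (nat_lit 2028) (PT.nd (nat_lit 1014) (PT.nd (nat_lit 468) (PT.nd (nat_lit 234) (PT.nd (nat_lit 78) (PT.lf (nat_lit 20672) (nat_lit 6) (nat_lit 272) (nat_lit 4) (nat_lit 121) (nat_lit 136) (nat_lit 133)) (PT.nd (nat_lit 78) (PT.lf (nat_lit 21280) (nat_lit 6) (nat_lit 280) (nat_lit 4) (nat_lit 122) (nat_lit 136) (nat_lit 132)) (PT.lf (nat_lit 21812) (nat_lit 6) (nat_lit 287) (nat_lit 4) (nat_lit 123) (nat_lit 136) (nat_lit 131)))) (PT.nd (nat_lit 78) (PT.lf (nat_lit 22268) (nat_lit 6) (nat_lit 293) (nat_lit 4) (nat_lit 124) (nat_lit 136) (nat_lit 130)) (PT.nd (nat_lit 78) (PT.lf (nat_lit 22192) (nat_lit 6) (nat_lit 292) (nat_lit 4) (nat_lit 125) (nat_lit 136) (nat_lit 129)) (PT.lf (nat_lit 22116) (nat_lit 6) (nat_lit 291) (nat_lit 4) (nat_lit 126) (nat_lit 136) (nat_lit 128))))) (PT.nd (nat_lit 234) (PT.nd (nat_lit 78) (PT.lf (nat_lit 22040) (nat_lit 3) (nat_lit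 290) (nat_lit 2) (nat_lit 127) (nat_lit 136) (nat_lit 127)) (PT.nd (nat_lit 78) (PT.lf (nat_lit 22116) (nat_lit 6) (nat_lit 291) (nat_lit 2) (nat_lit 128) (nat_lit 136) (nat_lit 126)) (PT.lf (nat_lit 22192) (nat_lit 6) (nat_lit 292) (nat_lit 2) (nat_lit 129) (nat_lit 136) (nat_lit 125)))) (PT.nd (nat_lit 156) (PT.nd (nat_lit 78) (PT.lf (nat_lit 22268) (nat_lit 6) (nat_lit 293) (nat_lit 2) (nat_lit 130) (nat_lit 136) (nat_lit 124)) (PT.lf (nat_lit 21812) (nat_lit 6) (nat_lit 287) (nat_lit 2) (nat_lit 131) (nat_lit 136) (nat_lit 123))) (PT.nd (nat_lit 78) (PT.lf (nat_lit 21280) (nat_lit 6) (nat_lit 280) (nat_lit 2) (nat_lit 132) (nat_lit 136) (nat_lit 122)) (PT.lf (nat_lit 20672) (nat_lit 6) (nat_lit 272) (nat_lit 2) (nat_lit 133) (nat_lit 136) (nat_lit 121)))))) (PT.nd (nat_lit 468) (PT.nd (nat_lit 234) (PT.nd (nat_lit 78) (PT.lf (nat_lit 19988) (nat_lit 6) (nat_lit 263) (nat_lit 2) (nat_lit 134)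 (nat_lit 136) (nat_lit 120)) (PT.nd (nat_lit 78) (PT.lf (nat_lit 19228) (nat_lit 6) (nat_lit 253) (nat_lit 2) (nat_lit 135) (nat_lit 136) (nat_lit 119)) (PT.lf (nat_lit 18392) (nat_lit 3) (nat_lit 242) (nat_lit 0) (nat_lit 136) (nat_lit 136) (nat_lit 118)))) (PT.nd (nat_lit 78) (PT.lf (nat_lit 17404) (nat_lit 6) (nat_lit 229) (nat_lit 0) (nat_lit 137) (nat_lit 136) (nat_lit 117)) (PT.nd (nat_lit 78) (PT.lf (nat_lit 16340) (nat_lit 6) (nat_lit 215) (nat_lit 0) (nat_lit 138) (nat_lit 136) (nat_lit 116)) (PT.lf (nat_lit 15200) (nat_lit 6) (nat_lit 200) (nat_lit 0) (nat_lit 139) (nat_lit 136) (nat_lit 115))))) (PT.nd (nat_lit 234) (PT.nd (nat_lit 78) (PT.lf (nat_lit 13984) (nat_lit 6) (nat_lit 184) (nat_lit 0) (nat_lit 140) (nat_lit 136) (nat_lit 114)) (PT.nd (nat_lit 78) (PT.lf (nat_lit 13300) (nat_lit 6) (nat_lit 175) (nat_lit 0) (nat_lit 141) (nat_lit 136) (nat_lit 113)) (PT.lf (nat_lit 12616) (nat_lit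 6) (nat_lit 166) (nat_lit 0) (nat_lit 142) (nat_lit 136) (nat_lit 112)))) (PT.nd (nat_lit 156) (PT.nd (nat_lit 78) (PT.lf (nat_lit 12008) (nat_lit 6) (nat_lit 158) (nat_lit 0) (nat_lit 143) (nat_lit 136) (nat_lit 111)) (PT.lf (nat_lit 11400) (nat_lit 6) (nat_lit 150) (nat_lit 0) (nat_lit 144) (nat_lit 136) (nat_lit 110))) (PT.nd (nat_lit 78) (PT.lf (nat_lit 10868) (nat_lit 6) (nat_lit 143) (nat_lit 0) (nat_lit 145) (nat_lit 136) (nat_lit 109)) (PT.lf (nat_lit 10260) (nat_lit 6) (nat_lit 135) (nat_lit 0) (nat_lit 146) (nat_lit 136) (nat_lit 108))))))) (PT.nd (nat_lit 38376) (PT.nd (nat_lit 37830) (PT.nd (nat_lit 37596) (PT.nd (nat_lit 37440) (PT.lf (nat_lit 9728) (nat_lit 6) (nat_lit 128) (nat_lit 0) (nat_lit 147) (nat_lit 136) (nat_lit 107)) (PT.nd (nat_lit 78) (PT.lf (nat_lit 9272) (nat_lit 6) (nat_lit 122) (nat_lit 5) (nat_lit 106) (nat_lit 137) (nat_lit 147)) (PT.lf (nat_lit 9804) (nat_lit 6)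 (nat_lit 129) (nat_lit 5) (nat_lit 107) (nat_lit 137) (nat_lit 146)))) (PT.nd (nat_lit 78) (PT.lf (nat_lit 10336) (nat_lit 6) (nat_lit 136) (nat_lit 5) (nat_lit 108) (nat_lit 137) (nat_lit 145)) (PT.nd (nat_lit 78) (PT.lf (nat_lit 10944) (nat_lit 6) (nat_lit 144) (nat_lit 5) (nat_lit 109) (nat_lit 137) (nat_lit 144)) (PT.lf (nat_lit 11476) (nat_lit 6) (nat_lit 151) (nat_lit 5) (nat_lit 110) (nat_lit 137) (nat_lit 143))))) (PT.nd (nat_lit 234) (PT.nd (nat_lit 78) (PT.lf (nat_lit 12084) (nat_lit 6) (nat_lit 159) (nat_lit 5) (nat_lit 111) (nat_lit 137) (nat_lit 142)) (PT.nd (nat_lit 78) (PT.lf (nat_lit 12692) (nat_lit 6) (nat_lit 167) (nat_lit 5) (nat_lit 112) (nat_lit 137) (nat_lit 141)) (PT.lf (nat_lit 13376) (nat_lit 6) (nat_lit 176) (nat_lit 5) (nat_lit 113) (nat_lit 137) (nat_lit 140)))) (PT.nd (nat_lit 156) (PT.nd (nat_lit 78) (PT.lf (nat_lit 14060) (nat_lit 6) (nat_lit 185) (nat_lit 5) (nat_lit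 114) (nat_lit 137) (nat_lit 139)) (PT.lf (nat_lit 15276) (nat_lit 6) (nat_lit 201) (nat_lit 5) (nat_lit 115) (nat_lit 137) (nat_lit 138))) (PT.nd (nat_lit 78) (PT.lf (nat_lit 16416) (nat_lit 3) (nat_lit 216) (nat_lit 4) (nat_lit 116) (nat_lit 137) (nat_lit 137)) (PT.lf (nat_lit 17404) (nat_lit 6) (nat_lit 229) (nat_lit 4) (nat_lit 117) (nat_lit 137) (nat_lit 136)))))) (PT.nd (nat_lit 546) (PT.nd (nat_lit 234) (PT.nd (nat_lit 78) (PT.lf (nat_lit 18316) (nat_lit 6) (nat_lit 241) (nat_lit 4) (nat_lit 118) (nat_lit 137) (nat_lit 135)) (PT.nd (nat_lit 78) (PT.lf (nat_lit 19152) (nat_lit 6) (nat_lit 252) (nat_lit 4) (nat_lit 119) (nat_lit 137) (nat_lit 134)) (PT.lf (nat_lit 19912) (nat_lit 6) (nat_lit 262) (nat_lit 4) (nat_lit 120) (nat_lit 137) (nat_lit 133)))) (PT.nd (nat_lit 156) (PT.nd (nat_lit 78) (PT.lf (nat_lit 20596) (nat_lit 6) (nat_lit 271) (nat_lit 4) (nat_lit 121) (nat_lit 137) (nat_lit 132))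 (PT.lf (nat_lit 21204) (nat_lit 6) (nat_lit 279) (nat_lit 4) (nat_lit 122) (nat_lit 137) (nat_lit 131))) (PT.nd (nat_lit 78) (PT.lf (nat_lit 21736) (nat_lit 6) (nat_lit 286) (nat_lit 4) (nat_lit 123) (nat_lit 137) (nat_lit 130)) (PT.lf (nat_lit 21660) (nat_lit 6) (nat_lit 285) (nat_lit 4) (nat_lit 124) (nat_lit 137) (nat_lit 129))))) (PT.nd (nat_lit 234) (PT.nd (nat_lit 78) (PT.lf (nat_lit 21584) (nat_lit 6) (nat_lit 284) (nat_lit 4) (nat_lit 125) (nat_lit 137) (nat_lit 128)) (PT.nd (nat_lit 78) (PT.lf (nat_lit 21508) (nat_lit 6) (nat_lit 283) (nat_lit 4) (nat_lit 126) (nat_lit 137) (nat_lit 127)) (PT.lf (nat_lit 21508) (nat_lit 6) (nat_lit 283) (nat_lit 2) (nat_lit 127) (nat_lit 137) (nat_lit 126)))) (PT.nd (nat_lit 156) (PT.nd (nat_lit 78) (PT.lf (nat_lit 21584) (nat_lit 6) (nat_lit 284) (nat_lit 2) (nat_lit 128) (nat_lit 137) (nat_lit 125)) (PT.lf (nat_lit 21660) (nat_lit 6) (nat_lit 285) (nat_lit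 2) (nat_lit 129) (nat_lit 137) (nat_lit 124))) (PT.nd (nat_lit 78) (PT.lf (nat_lit 21736) (nat_lit 6) (nat_lit 286) (nat_lit 2) (nat_lit 130) (nat_lit 137) (nat_lit 123)) (PT.lf (nat_lit 21204) (nat_lit 6) (nat_lit 279) (nat_lit 2) (nat_lit 131) (nat_lit 137) (nat_lit 122))))))))
noncomputable def pc18 : PT := (PT.nd (nat_lit 39234) (PT.nd (nat_lit 1014) (PT.nd (nat_lit 468) (PT.nd (nat_lit 234) (PT.nd (nat_lit 78) (PT.lf (nat_lit 20596) (nat_lit 6) (nat_lit 271) (nat_lit 2) (nat_lit 132) (nat_lit 137) (nat_lit 121)) (PT.nd (nat_lit 78) (PT.lf (nat_lit 19912) (nat_lit 6) (nat_lit 262) (nat_lit 2) (nat_lit 133) (nat_lit 137) (nat_lit 120)) (PT.lf (nat_lit 19152) (nat_lit 6) (nat_lit 252) (nat_lit 2) (nat_lit 134) (nat_lit 137) (nat_lit 119)))) (PT.nd (nat_lit 78) (PT.lf (nat_lit 18316) (nat_lit 6) (nat_lit 241) (nat_lit 2) (nat_lit 135) (nat_lit 137) (nat_lit 118)) (PT.nd (nat_lit 78) (PT.lf (nat_lit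 17404) (nat_lit 6) (nat_lit 229) (nat_lit 2) (nat_lit 136) (nat_lit 137) (nat_lit 117)) (PT.lf (nat_lit 16416) (nat_lit 3) (nat_lit 216) (nat_lit 0) (nat_lit 137) (nat_lit 137) (nat_lit 116))))) (PT.nd (nat_lit 234) (PT.nd (nat_lit 78) (PT.lf (nat_lit 15276) (nat_lit 6) (nat_lit 201) (nat_lit 0) (nat_lit 138) (nat_lit 137) (nat_lit 115)) (PT.nd (nat_lit 78) (PT.lf (nat_lit 14060) (nat_lit 6) (nat_lit 185) (nat_lit 0) (nat_lit 139) (nat_lit 137) (nat_lit 114)) (PT.lf (nat_lit 13376) (nat_lit 6) (nat_lit 176) (nat_lit 0) (nat_lit 140) (nat_lit 137) (nat_lit 113)))) (PT.nd (nat_lit 156) (PT.nd (nat_lit 78) (PT.lf (nat_lit 12692) (nat_lit 6) (nat_lit 167) (nat_lit 0) (nat_lit 141) (nat_lit 137) (nat_lit 112)) (PT.lf (nat_lit 12084) (nat_lit 6) (nat_lit 159) (nat_lit 0) (nat_lit 142) (nat_lit 137) (nat_lit 111))) (PT.nd (nat_lit 78) (PT.lf (nat_lit 11476) (nat_lit 6) (nat_lit 151) (nat_lit 0) (nat_lit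 143) (nat_lit 137) (nat_lit 110)) (PT.lf (nat_lit 10944) (nat_lit 6) (nat_lit 144) (nat_lit 0) (nat_lit 144) (nat_lit 137) (nat_lit 109)))))) (PT.nd (nat_lit 37674) (PT.nd (nat_lit 37440) (PT.nd (nat_lit 78) (PT.lf (nat_lit 10336) (nat_lit 6) (nat_lit 136) (nat_lit 0) (nat_lit 145) (nat_lit 137) (nat_lit 108)) (PT.nd (nat_lit 78) (PT.lf (nat_lit 9804) (nat_lit 6) (nat_lit 129) (nat_lit 0) (nat_lit 146) (nat_lit 137) (nat_lit 107)) (PT.lf (nat_lit 9272) (nat_lit 6) (nat_lit 122) (nat_lit 0) (nat_lit 147) (nat_lit 137) (nat_lit 106)))) (PT.nd (nat_lit 78) (PT.lf (nat_lit 8436) (nat_lit 6) (nat_lit 111) (nat_lit 5) (nat_lit 104) (nat_lit 138) (nat_lit 148)) (PT.nd (nat_lit 78) (PT.lf (nat_lit 8892) (nat_lit 6) (nat_lit 117) (nat_lit 5) (nat_lit 105) (nat_lit 138) (nat_lit 147)) (PT.lf (nat_lit 9348) (nat_lit 6) (nat_lit 123) (nat_lit 5) (nat_lit 106) (nat_lit 138) (nat_lit 146))))) (PT.nd (nat_lit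 234) (PT.nd (nat_lit 78) (PT.lf (nat_lit 9880) (nat_lit 6) (nat_lit 130) (nat_lit 5) (nat_lit 107) (nat_lit 138) (nat_lit 145)) (PT.nd (nat_lit 78) (PT.lf (nat_lit 10412) (nat_lit 6) (nat_lit 137) (nat_lit 5) (nat_lit 108) (nat_lit 138) (nat_lit 144)) (PT.lf (nat_lit 11020) (nat_lit 6) (nat_lit 145) (nat_lit 5) (nat_lit 109) (nat_lit 138) (nat_lit 143)))) (PT.nd (nat_lit 156) (PT.nd (nat_lit 78) (PT.lf (nat_lit 11552) (nat_lit 6) (nat_lit 152) (nat_lit 5) (nat_lit 110) (nat_lit 138) (nat_lit 142)) (PT.lf (nat_lit 12160) (nat_lit 6) (nat_lit 160) (nat_lit 5) (nat_lit 111) (nat_lit 138) (nat_lit 141))) (PT.nd (nat_lit 78) (PT.lf (nat_lit 12768) (nat_lit 6) (nat_lit 168) (nat_lit 5) (nat_lit 112) (nat_lit 138) (nat_lit 140)) (PT.lf (nat_lit 13452) (nat_lit 6) (nat_lit 177) (nat_lit 5) (nat_lit 113) (nat_lit 138) (nat_lit 139))))))) (PT.nd (nat_lit 1014) (PT.nd (nat_lit 468) (PT.nd (nat_lit 234) (PT.nd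 (nat_lit 78) (PT.lf (nat_lit 14136) (nat_lit 3) (nat_lit 186) (nat_lit 4) (nat_lit 114) (nat_lit 138) (nat_lit 138)) (PT.nd (nat_lit 78) (PT.lf (nat_lit 15276) (nat_lit 6) (nat_lit 201) (nat_lit 4) (nat_lit 115) (nat_lit 138) (nat_lit 137)) (PT.lf (nat_lit 16340) (nat_lit 6) (nat_lit 215) (nat_lit 4) (nat_lit 116) (nat_lit 138) (nat_lit 136)))) (PT.nd (nat_lit 78) (PT.lf (nat_lit 17328) (nat_lit 6) (nat_lit 228) (nat_lit 4) (nat_lit 117) (nat_lit 138) (nat_lit 135)) (PT.nd (nat_lit 78) (PT.lf (nat_lit 18240) (nat_lit 6) (nat_lit 240) (nat_lit 4) (nat_lit 118) (nat_lit 138) (nat_lit 134)) (PT.lf (nat_lit 19076) (nat_lit 6) (nat_lit 251) (nat_lit 4) (nat_lit 119) (nat_lit 138) (nat_lit 133))))) (PT.nd (nat_lit 234) (PT.nd (nat_lit 78) (PT.lf (nat_lit 19836) (nat_lit 6) (nat_lit 261) (nat_lit 4) (nat_lit 120) (nat_lit 138) (nat_lit 132)) (PT.nd (nat_lit 78) (PT.lf (nat_lit 20520) (nat_lit 6) (nat_lit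 270) (nat_lit 4) (nat_lit 121) (nat_lit 138) (nat_lit 131)) (PT.lf (nat_lit 21128) (nat_lit 6) (nat_lit 278) (nat_lit 4) (nat_lit 122) (nat_lit 138) (nat_lit 130)))) (PT.nd (nat_lit 156) (PT.nd (nat_lit 78) (PT.lf (nat_lit 21052) (nat_lit 6) (nat_lit 277) (nat_lit 4) (nat_lit 123) (nat_lit 138) (nat_lit 129)) (PT.lf (nat_lit 20976) (nat_lit 6) (nat_lit 276) (nat_lit 4) (nat_lit 124) (nat_lit 138) (nat_lit 128))) (PT.nd (nat_lit 78) (PT.lf (nat_lit 20900) (nat_lit 6) (nat_lit 275) (nat_lit 4) (nat_lit 125) (nat_lit 138) (nat_lit 127)) (PT.lf (nat_lit 20824) (nat_lit 3) (nat_lit 274) (nat_lit 2) (nat_lit 126) (nat_lit 138) (nat_lit 126)))))) (PT.nd (nat_lit 546) (PT.nd (nat_lit 234) (PT.nd (nat_lit 78) (PT.lf (nat_lit 20900) (nat_lit 6) (nat_lit 275) (nat_lit 2) (nat_lit 127) (nat_lit 138) (nat_lit 125)) (PT.nd (nat_lit 78) (PT.lf (nat_lit 20976) (nat_lit 6) (nat_lit 276) (nat_lit 2) (nat_lit 128)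 (nat_lit 138) (nat_lit 124)) (PT.lf (nat_lit 21052) (nat_lit 6) (nat_lit 277) (nat_lit 2) (nat_lit 129) (nat_lit 138) (nat_lit 123)))) (PT.nd (nat_lit 156) (PT.nd (nat_lit 78) (PT.lf (nat_lit 21128) (nat_lit 6) (nat_lit 278) (nat_lit 2) (nat_lit 130) (nat_lit 138) (nat_lit 122)) (PT.lf (nat_lit 20520) (nat_lit 6) (nat_lit 270) (nat_lit 2) (nat_lit 131) (nat_lit 138) (nat_lit 121))) (PT.nd (nat_lit 78) (PT.lf (nat_lit 19836) (nat_lit 6) (nat_lit 261) (nat_lit 2) (nat_lit 132) (nat_lit 138) (nat_lit 120)) (PT.lf (nat_lit 19076) (nat_lit 6) (nat_lit 251) (nat_lit 2) (nat_lit 133) (nat_lit 138) (nat_lit 119))))) (PT.nd (nat_lit 234) (PT.nd (nat_lit 78) (PT.lf (nat_lit 18240) (nat_lit 6) (nat_lit 240) (nat_lit 2) (nat_lit 134) (nat_lit 138) (nat_lit 118)) (PT.nd (nat_lit 78) (PT.lf (nat_lit 17328) (nat_lit 6) (nat_lit 228) (nat_lit 2) (nat_lit 135) (nat_lit 138) (nat_lit 117)) (PT.lf (nat_lit 16340)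 (nat_lit 6) (nat_lit 215) (nat_lit 2) (nat_lit 136) (nat_lit 138) (nat_lit 116)))) (PT.nd (nat_lit 156) (PT.nd (nat_lit 78) (PT.lf (nat_lit 15276) (nat_lit 6) (nat_lit 201) (nat_lit 2) (nat_lit 137) (nat_lit 138) (nat_lit 115)) (PT.lf (nat_lit 14136) (nat_lit 3) (nat_lit 186) (nat_lit 0) (nat_lit 138) (nat_lit 138) (nat_lit 114))) (PT.nd (nat_lit 78) (PT.lf (nat_lit 13452) (nat_lit 6) (nat_lit 177) (nat_lit 0) (nat_lit 139) (nat_lit 138) (nat_lit 113)) (PT.lf (nat_lit 12768) (nat_lit 6) (nat_lit 168) (nat_lit 0) (nat_lit 140) (nat_lit 138) (nat_lit 112))))))))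
noncomputable def pc19 : PT := (PT.nd (nat_lit 39078) (PT.nd (nat_lit 38064) (PT.nd (nat_lit 468) (PT.nd (nat_lit 234) (PT.nd (nat_lit 78) (PT.lf (nat_lit 12160) (nat_lit 6) (nat_lit 160) (nat_lit 0) (nat_lit 141) (nat_lit 138) (nat_lit 111)) (PT.nd (nat_lit 78) (PT.lf (nat_lit 11552) (nat_lit 6) (nat_lit 152) (nat_lit 0) (nat_lit 142) (nat_lit 138) (nat_lit 110)) (PT.lf (nat_lit 11020) (nat_lit 6) (nat_lit 145) (nat_lit 0) (nat_lit 143) (nat_lit 138) (nat_lit 109)))) (PT.nd (nat_lit 78) (PT.lf (nat_lit 10412) (nat_lit 6) (nat_lit 137) (nat_lit 0) (nat_lit 144) (nat_lit 138) (nat_lit 108)) (PT.nd (nat_lit 78) (PT.lf (nat_lit 9880) (nat_lit 6) (nat_lit 130) (nat_lit 0) (nat_lit 145) (nat_lit 138) (nat_lit 107)) (PT.lf (nat_lit 9348) (nat_lit 6) (nat_lit 123) (nat_lit 0) (nat_lit 146) (nat_lit 138) (nat_lit 106))))) (PT.nd (nat_lit 37284) (PT.nd (nat_lit 78) (PT.lf (nat_lit 8892) (nat_lit 6) (nat_lit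 117) (nat_lit 0) (nat_lit 147) (nat_lit 138) (nat_lit 105)) (PT.nd (nat_lit 37128) (PT.lf (nat_lit 8436) (nat_lit 6) (nat_lit 111) (nat_lit 0) (nat_lit 148) (nat_lit 138) (nat_lit 104)) (PT.lf (nat_lit 8056) (nat_lit 6) (nat_lit 106) (nat_lit 5) (nat_lit 103) (nat_lit 139) (nat_lit 148)))) (PT.nd (nat_lit 156) (PT.nd (nat_lit 78) (PT.lf (nat_lit 8512) (nat_lit 6) (nat_lit 112) (nat_lit 5) (nat_lit 104) (nat_lit 139) (nat_lit 147)) (PT.lf (nat_lit 8968) (nat_lit 6) (nat_lit 118) (nat_lit 5) (nat_lit 105) (nat_lit 139) (nat_lit 146))) (PT.nd (nat_lit 78) (PT.lf (nat_lit 9424) (nat_lit 6) (nat_lit 124) (nat_lit 5) (nat_lit 106) (nat_lit 139) (nat_lit 145)) (PT.lf (nat_lit 9956) (nat_lit 6) (nat_lit 131) (nat_lit 5) (nat_lit 107) (nat_lit 139) (nat_lit 144)))))) (PT.nd (nat_lit 468) (PT.nd (nat_lit 234) (PT.nd (nat_lit 78) (PT.lf (nat_lit 10488) (nat_lit 6) (nat_lit 138) (nat_lit 5) (nat_lit 108) (nat_lit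 139) (nat_lit 143)) (PT.nd (nat_lit 78) (PT.lf (nat_lit 11096) (nat_lit 6) (nat_lit 146) (nat_lit 5) (nat_lit 109) (nat_lit 139) (nat_lit 142)) (PT.lf (nat_lit 11628) (nat_lit 6) (nat_lit 153) (nat_lit 5) (nat_lit 110) (nat_lit 139) (nat_lit 141)))) (PT.nd (nat_lit 78) (PT.lf (nat_lit 12236) (nat_lit 6) (nat_lit 161) (nat_lit 5) (nat_lit 111) (nat_lit 139) (nat_lit 140)) (PT.nd (nat_lit 78) (PT.lf (nat_lit 12844) (nat_lit 3) (nat_lit 169) (nat_lit 4) (nat_lit 112) (nat_lit 139) (nat_lit 139)) (PT.lf (nat_lit 13452) (nat_lit 6) (nat_lit 177) (nat_lit 4) (nat_lit 113) (nat_lit 139) (nat_lit 138))))) (PT.nd (nat_lit 234) (PT.nd (nat_lit 78) (PT.lf (nat_lit 14060) (nat_lit 6) (nat_lit 185) (nat_lit 4) (nat_lit 114) (nat_lit 139) (nat_lit 137)) (PT.nd (nat_lit 78) (PT.lf (nat_lit 15200) (nat_lit 6) (nat_lit 200) (nat_lit 4) (nat_lit 115) (nat_lit 139) (nat_lit 136)) (PT.lf (nat_lit 16264) (nat_lit 6)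 (nat_lit 214) (nat_lit 4) (nat_lit 116) (nat_lit 139) (nat_lit 135)))) (PT.nd (nat_lit 156) (PT.nd (nat_lit 78) (PT.lf (nat_lit 17252) (nat_lit 6) (nat_lit 227) (nat_lit 4) (nat_lit 117) (nat_lit 139) (nat_lit 134)) (PT.lf (nat_lit 18164) (nat_lit 6) (nat_lit 239) (nat_lit 4) (nat_lit 118) (nat_lit 139) (nat_lit 133))) (PT.nd (nat_lit 78) (PT.lf (nat_lit 19000) (nat_lit 6) (nat_lit 250) (nat_lit 4) (nat_lit 119) (nat_lit 139) (nat_lit 132)) (PT.lf (nat_lit 19760) (nat_lit 6) (nat_lit 260) (nat_lit 4) (nat_lit 120) (nat_lit 139) (nat_lit 131))))))) (PT.nd (nat_lit 1014) (PT.nd (nat_lit 468) (PT.nd (nat_lit 234) (PT.nd (nat_lit 78) (PT.lf (nat_lit 20444) (nat_lit 6) (nat_lit 269) (nat_lit 4) (nat_lit 121) (nat_lit 139) (nat_lit 130)) (PT.nd (nat_lit 78) (PT.lf (nat_lit 20368) (nat_lit 6) (nat_lit 268) (nat_lit 4) (nat_lit 122) (nat_lit 139) (nat_lit 129)) (PT.lf (nat_lit 20292) (nat_lit 6) (nat_lit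 267) (nat_lit 4) (nat_lit 123) (nat_lit 139) (nat_lit 128)))) (PT.nd (nat_lit 78) (PT.lf (nat_lit 20216) (nat_lit 6) (nat_lit 266) (nat_lit 4) (nat_lit 124) (nat_lit 139) (nat_lit 127)) (PT.nd (nat_lit 78) (PT.lf (nat_lit 20140) (nat_lit 6) (nat_lit 265) (nat_lit 4) (nat_lit 125) (nat_lit 139) (nat_lit 126)) (PT.lf (nat_lit 20140) (nat_lit 6) (nat_lit 265) (nat_lit 2) (nat_lit 126) (nat_lit 139) (nat_lit 125))))) (PT.nd (nat_lit 234) (PT.nd (nat_lit 78) (PT.lf (nat_lit 20216) (nat_lit 6) (nat_lit 266) (nat_lit 2) (nat_lit 127) (nat_lit 139) (nat_lit 124)) (PT.nd (nat_lit 78) (PT.lf (nat_lit 20292) (nat_lit 6) (nat_lit 267) (nat_lit 2) (nat_lit 128) (nat_lit 139) (nat_lit 123)) (PT.lf (nat_lit 20368) (nat_lit 6) (nat_lit 268) (nat_lit 2) (nat_lit 129) (nat_lit 139) (nat_lit 122)))) (PT.nd (nat_lit 156) (PT.nd (nat_lit 78) (PT.lf (nat_lit 20444) (nat_lit 6) (nat_lit 269) (nat_lit 2) (nat_lit 130)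 (nat_lit 139) (nat_lit 121)) (PT.lf (nat_lit 19760) (nat_lit 6) (nat_lit 260) (nat_lit 2) (nat_lit 131) (nat_lit 139) (nat_lit 120))) (PT.nd (nat_lit 78) (PT.lf (nat_lit 19000) (nat_lit 6) (nat_lit 250) (nat_lit 2) (nat_lit 132) (nat_lit 139) (nat_lit 119)) (PT.lf (nat_lit 18164) (nat_lit 6) (nat_lit 239) (nat_lit 2) (nat_lit 133) (nat_lit 139) (nat_lit 118)))))) (PT.nd (nat_lit 546) (PT.nd (nat_lit 234) (PT.nd (nat_lit 78) (PT.lf (nat_lit 17252) (nat_lit 6) (nat_lit 227) (nat_lit 2) (nat_lit 134) (nat_lit 139) (nat_lit 117)) (PT.nd (nat_lit 78) (PT.lf (nat_lit 16264) (nat_lit 6) (nat_lit 214) (nat_lit 2) (nat_lit 135) (nat_lit 139) (nat_lit 116)) (PT.lf (nat_lit 15200) (nat_lit 6) (nat_lit 200) (nat_lit 2) (nat_lit 136) (nat_lit 139) (nat_lit 115)))) (PT.nd (nat_lit 156) (PT.nd (nat_lit 78) (PT.lf (nat_lit 14060) (nat_lit 6) (nat_lit 185) (nat_lit 2) (nat_lit 137) (nat_lit 139) (nat_lit 114))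 (PT.lf (nat_lit 13452) (nat_lit 6) (nat_lit 177) (nat_lit 2) (nat_lit 138) (nat_lit 139) (nat_lit 113))) (PT.nd (nat_lit 78) (PT.lf (nat_lit 12844) (nat_lit 3) (nat_lit 169) (nat_lit 0) (nat_lit 139) (nat_lit 139) (nat_lit 112)) (PT.lf (nat_lit 12236) (nat_lit 6) (nat_lit 161) (nat_lit 0) (nat_lit 140) (nat_lit 139) (nat_lit 111))))) (PT.nd (nat_lit 234) (PT.nd (nat_lit 78) (PT.lf (nat_lit 11628) (nat_lit 6) (nat_lit 153) (nat_lit 0) (nat_lit 141) (nat_lit 139) (nat_lit 110)) (PT.nd (nat_lit 78) (PT.lf (nat_lit 11096) (nat_lit 6) (nat_lit 146) (nat_lit 0) (nat_lit 142) (nat_lit 139) (nat_lit 109)) (PT.lf (nat_lit 10488) (nat_lit 6) (nat_lit 138) (nat_lit 0) (nat_lit 143) (nat_lit 139) (nat_lit 108)))) (PT.nd (nat_lit 156) (PT.nd (nat_lit 78) (PT.lf (nat_lit 9956) (nat_lit 6) (nat_lit 131) (nat_lit 0) (nat_lit 144) (nat_lit 139) (nat_lit 107)) (PT.lf (nat_lit 9424) (nat_lit 6) (nat_lit 124) (nat_lit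 0) (nat_lit 145) (nat_lit 139) (nat_lit 106))) (PT.nd (nat_lit 78) (PT.lf (nat_lit 8968) (nat_lit 6) (nat_lit 118) (nat_lit 0) (nat_lit 146) (nat_lit 139) (nat_lit 105)) (PT.lf (nat_lit 8512) (nat_lit 6) (nat_lit 112) (nat_lit 0) (nat_lit 147) (nat_lit 139) (nat_lit 104))))))))
noncomputable def pc20 : PT := (PT.nd (nat_lit 38922) (PT.nd (nat_lit 37908) (PT.nd (nat_lit 37362) (PT.nd (nat_lit 37128) (PT.nd (nat_lit 36972) (PT.lf (nat_lit 8056) (nat_lit 6) (nat_lit 106) (nat_lit 0) (nat_lit 148) (nat_lit 139) (nat_lit 103)) (PT.nd (nat_lit 78) (PT.lf (nat_lit 7296) (nat_lit 6) (nat_lit 96) (nat_lit 5) (nat_lit 101) (nat_lit 140) (nat_lit 149)) (PT.lf (nat_lit 7676) (nat_lit 6) (nat_lit 101) (nat_lit 5) (nat_lit 102) (nat_lit 140) (nat_lit 148)))) (PT.nd (nat_lit 78) (PT.lf (nat_lit 8132) (nat_lit 6) (nat_lit 107) (nat_lit 5) (nat_lit 103) (nat_lit 140) (nat_lit 147)) (PT.nd (nat_lit 78) (PT.lf (nat_lit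 8588) (nat_lit 6) (nat_lit 113) (nat_lit 5) (nat_lit 104) (nat_lit 140) (nat_lit 146)) (PT.lf (nat_lit 9044) (nat_lit 6) (nat_lit 119) (nat_lit 5) (nat_lit 105) (nat_lit 140) (nat_lit 145))))) (PT.nd (nat_lit 234) (PT.nd (nat_lit 78) (PT.lf (nat_lit 9500) (nat_lit 6) (nat_lit 125) (nat_lit 5) (nat_lit 106) (nat_lit 140) (nat_lit 144)) (PT.nd (nat_lit 78) (PT.lf (nat_lit 10032) (nat_lit 6) (nat_lit 132) (nat_lit 5) (nat_lit 107) (nat_lit 140) (nat_lit 143)) (PT.lf (nat_lit 10564) (nat_lit 6) (nat_lit 139) (nat_lit 5) (nat_lit 108) (nat_lit 140) (nat_lit 142)))) (PT.nd (nat_lit 156) (PT.nd (nat_lit 78) (PT.lf (nat_lit 11172) (nat_lit 6) (nat_lit 147) (nat_lit 5) (nat_lit 109) (nat_lit 140) (nat_lit 141)) (PT.lf (nat_lit 11704) (nat_lit 3) (nat_lit 154) (nat_lit 4) (nat_lit 110) (nat_lit 140) (nat_lit 140))) (PT.nd (nat_lit 78) (PT.lf (nat_lit 12236) (nat_lit 6) (nat_lit 161) (nat_lit 4) (nat_lit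 111) (nat_lit 140) (nat_lit 139)) (PT.lf (nat_lit 12768) (nat_lit 6) (nat_lit 168) (nat_lit 4) (nat_lit 112) (nat_lit 140) (nat_lit 138)))))) (PT.nd (nat_lit 468) (PT.nd (nat_lit 234) (PT.nd (nat_lit 78) (PT.lf (nat_lit 13376) (nat_lit 6) (nat_lit 176) (nat_lit 4) (nat_lit 113) (nat_lit 140) (nat_lit 137)) (PT.nd (nat_lit 78) (PT.lf (nat_lit 13984) (nat_lit 6) (nat_lit 184) (nat_lit 4) (nat_lit 114) (nat_lit 140) (nat_lit 136)) (PT.lf (nat_lit 15124) (nat_lit 6) (nat_lit 199) (nat_lit 4) (nat_lit 115) (nat_lit 140) (nat_lit 135)))) (PT.nd (nat_lit 78) (PT.lf (nat_lit 16188) (nat_lit 6) (nat_lit 213) (nat_lit 4) (nat_lit 116) (nat_lit 140) (nat_lit 134)) (PT.nd (nat_lit 78) (PT.lf (nat_lit 17176) (nat_lit 6) (nat_lit 226) (nat_lit 4) (nat_lit 117) (nat_lit 140) (nat_lit 133)) (PT.lf (nat_lit 18088) (nat_lit 6) (nat_lit 238) (nat_lit 4) (nat_lit 118) (nat_lit 140) (nat_lit 132))))) (PT.nd (nat_lit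 234) (PT.nd (nat_lit 78) (PT.lf (nat_lit 18924) (nat_lit 6) (nat_lit 249) (nat_lit 4) (nat_lit 119) (nat_lit 140) (nat_lit 131)) (PT.nd (nat_lit 78) (PT.lf (nat_lit 19684) (nat_lit 6) (nat_lit 259) (nat_lit 4) (nat_lit 120) (nat_lit 140) (nat_lit 130)) (PT.lf (nat_lit 19608) (nat_lit 6) (nat_lit 258) (nat_lit 4) (nat_lit 121) (nat_lit 140) (nat_lit 129)))) (PT.nd (nat_lit 156) (PT.nd (nat_lit 78) (PT.lf (nat_lit 19532) (nat_lit 6) (nat_lit 257) (nat_lit 4) (nat_lit 122) (nat_lit 140) (nat_lit 128)) (PT.lf (nat_lit 19456) (nat_lit 6) (nat_lit 256) (nat_lit 4) (nat_lit 123) (nat_lit 140) (nat_lit 127))) (PT.nd (nat_lit 78) (PT.lf (nat_lit 19380) (nat_lit 6) (nat_lit 255) (nat_lit 4) (nat_lit 124) (nat_lit 140) (nat_lit 126)) (PT.lf (nat_lit 19304) (nat_lit 3) (nat_lit 254) (nat_lit 2) (nat_lit 125) (nat_lit 140) (nat_lit 125))))))) (PT.nd (nat_lit 1014) (PT.nd (nat_lit 468) (PT.nd (nat_lit 234) (PT.nd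 (nat_lit 78) (PT.lf (nat_lit 19380) (nat_lit 6) (nat_lit 255) (nat_lit 2) (nat_lit 126) (nat_lit 140) (nat_lit 124)) (PT.nd (nat_lit 78) (PT.lf (nat_lit 19456) (nat_lit 6) (nat_lit 256) (nat_lit 2) (nat_lit 127) (nat_lit 140) (nat_lit 123)) (PT.lf (nat_lit 19532) (nat_lit 6) (nat_lit 257) (nat_lit 2) (nat_lit 128) (nat_lit 140) (nat_lit 122)))) (PT.nd (nat_lit 78) (PT.lf (nat_lit 19608) (nat_lit 6) (nat_lit 258) (nat_lit 2) (nat_lit 129) (nat_lit 140) (nat_lit 121)) (PT.nd (nat_lit 78) (PT.lf (nat_lit 19684) (nat_lit 6) (nat_lit 259) (nat_lit 2) (nat_lit 130) (nat_lit 140) (nat_lit 120)) (PT.lf (nat_lit 18924) (nat_lit 6) (nat_lit 249) (nat_lit 2) (nat_lit 131) (nat_lit 140) (nat_lit 119))))) (PT.nd (nat_lit 234) (PT.nd (nat_lit 78) (PT.lf (nat_lit 18088) (nat_lit 6) (nat_lit 238) (nat_lit 2) (nat_lit 132) (nat_lit 140) (nat_lit 118)) (PT.nd (nat_lit 78) (PT.lf (nat_lit 17176) (nat_lit 6) (nat_lit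 226) (nat_lit 2) (nat_lit 133) (nat_lit 140) (nat_lit 117)) (PT.lf (nat_lit 16188) (nat_lit 6) (nat_lit 213) (nat_lit 2) (nat_lit 134) (nat_lit 140) (nat_lit 116)))) (PT.nd (nat_lit 156) (PT.nd (nat_lit 78) (PT.lf (nat_lit 15124) (nat_lit 6) (nat_lit 199) (nat_lit 2) (nat_lit 135) (nat_lit 140) (nat_lit 115)) (PT.lf (nat_lit 13984) (nat_lit 6) (nat_lit 184) (nat_lit 2) (nat_lit 136) (nat_lit 140) (nat_lit 114))) (PT.nd (nat_lit 78) (PT.lf (nat_lit 13376) (nat_lit 6) (nat_lit 176) (nat_lit 2) (nat_lit 137) (nat_lit 140) (nat_lit 113)) (PT.lf (nat_lit 12768) (nat_lit 6) (nat_lit 168) (nat_lit 2) (nat_lit 138) (nat_lit 140) (nat_lit 112)))))) (PT.nd (nat_lit 546) (PT.nd (nat_lit 234) (PT.nd (nat_lit 78) (PT.lf (nat_lit 12236) (nat_lit 6) (nat_lit 161) (nat_lit 2) (nat_lit 139) (nat_lit 140) (nat_lit 111)) (PT.nd (nat_lit 78) (PT.lf (nat_lit 11704) (nat_lit 3) (nat_lit 154) (nat_lit 0) (nat_lit 140)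 (nat_lit 140) (nat_lit 110)) (PT.lf (nat_lit 11172) (nat_lit 6) (nat_lit 147) (nat_lit 0) (nat_lit 141) (nat_lit 140) (nat_lit 109)))) (PT.nd (nat_lit 156) (PT.nd (nat_lit 78) (PT.lf (nat_lit 10564) (nat_lit 6) (nat_lit 139) (nat_lit 0) (nat_lit 142) (nat_lit 140) (nat_lit 108)) (PT.lf (nat_lit 10032) (nat_lit 6) (nat_lit 132) (nat_lit 0) (nat_lit 143) (nat_lit 140) (nat_lit 107))) (PT.nd (nat_lit 78) (PT.lf (nat_lit 9500) (nat_lit 6) (nat_lit 125) (nat_lit 0) (nat_lit 144) (nat_lit 140) (nat_lit 106)) (PT.lf (nat_lit 9044) (nat_lit 6) (nat_lit 119) (nat_lit 0) (nat_lit 145) (nat_lit 140) (nat_lit 105))))) (PT.nd (nat_lit 234) (PT.nd (nat_lit 78) (PT.lf (nat_lit 8588) (nat_lit 6) (nat_lit 113) (nat_lit 0) (nat_lit 146) (nat_lit 140) (nat_lit 104)) (PT.nd (nat_lit 78) (PT.lf (nat_lit 8132) (nat_lit 6) (nat_lit 107) (nat_lit 0) (nat_lit 147) (nat_lit 140) (nat_lit 103)) (PT.lf (nat_lit 7676) (nat_lit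 6) (nat_lit 101) (nat_lit 0) (nat_lit 148) (nat_lit 140) (nat_lit 102)))) (PT.nd (nat_lit 36894) (PT.nd (nat_lit 36816) (PT.lf (nat_lit 7296) (nat_lit 6) (nat_lit 96) (nat_lit 0) (nat_lit 149) (nat_lit 140) (nat_lit 101)) (PT.lf (nat_lit 6916) (nat_lit 6) (nat_lit 91) (nat_lit 5) (nat_lit 100) (nat_lit 141) (nat_lit 149))) (PT.nd (nat_lit 78) (PT.lf (nat_lit 7372) (nat_lit 6) (nat_lit 97) (nat_lit 5) (nat_lit 101) (nat_lit 141) (nat_lit 148)) (PT.lf (nat_lit 7752) (nat_lit 6) (nat_lit 102) (nat_lit 5) (nat_lit 102) (nat_lit 141) (nat_lit 147))))))))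
noncomputable def pc21 : PT := (PT.nd (nat_lit 2028) (PT.nd (nat_lit 1014) (PT.nd (nat_lit 468) (PT.nd (nat_lit 234) (PT.nd (nat_lit 78) (PT.lf (nat_lit 8208) (nat_lit 6) (nat_lit 108) (nat_lit 5) (nat_lit 103) (nat_lit 141) (nat_lit 146)) (PT.nd (nat_lit 78) (PT.lf (nat_lit 8664) (nat_lit 6) (nat_lit 114) (nat_lit 5) (nat_lit 104) (nat_lit 141) (nat_lit 145)) (PT.lf (nat_lit 9120) (nat_lit 6) (nat_lit 120) (nat_lit 5) (nat_lit 105) (nat_lit 141) (nat_lit 144)))) (PT.nd (nat_lit 78) (PT.lf (nat_lit 9576) (nat_lit 6) (nat_lit 126) (nat_lit 5) (nat_lit 106) (nat_lit 141) (nat_lit 143)) (PT.nd (nat_lit 78) (PT.lf (nat_lit 10108) (nat_lit 6) (nat_lit 133) (nat_lit 5) (nat_lit 107) (nat_lit 141) (nat_lit 142)) (PT.lf (nat_lit 10640) (nat_lit 3) (nat_lit 140) (nat_lit 4) (nat_lit 108) (nat_lit 141) (nat_lit 141))))) (PT.nd (nat_lit 234) (PT.nd (nat_lit 78) (PT.lf (nat_lit 11172) (nat_lit 6) (nat_lit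 147) (nat_lit 4) (nat_lit 109) (nat_lit 141) (nat_lit 140)) (PT.nd (nat_lit 78) (PT.lf (nat_lit 11628) (nat_lit 6) (nat_lit 153) (nat_lit 4) (nat_lit 110) (nat_lit 141) (nat_lit 139)) (PT.lf (nat_lit 12160) (nat_lit 6) (nat_lit 160) (nat_lit 4) (nat_lit 111) (nat_lit 141) (nat_lit 138)))) (PT.nd (nat_lit 156) (PT.nd (nat_lit 78) (PT.lf (nat_lit 12692) (nat_lit 6) (nat_lit 167) (nat_lit 4) (nat_lit 112) (nat_lit 141) (nat_lit 137)) (PT.lf (nat_lit 13300) (nat_lit 6) (nat_lit 175) (nat_lit 4) (nat_lit 113) (nat_lit 141) (nat_lit 136))) (PT.nd (nat_lit 78) (PT.lf (nat_lit 13908) (nat_lit 6) (nat_lit 183) (nat_lit 4) (nat_lit 114) (nat_lit 141) (nat_lit 135)) (PT.lf (nat_lit 15048) (nat_lit 6) (nat_lit 198) (nat_lit 4) (nat_lit 115) (nat_lit 141) (nat_lit 134)))))) (PT.nd (nat_lit 468) (PT.nd (nat_lit 234) (PT.nd (nat_lit 78) (PT.lf (nat_lit 16112) (nat_lit 6) (nat_lit 212) (nat_lit 4) (nat_lit 116)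 (nat_lit 141) (nat_lit 133)) (PT.nd (nat_lit 78) (PT.lf (nat_lit 17100) (nat_lit 6) (nat_lit 225) (nat_lit 4) (nat_lit 117) (nat_lit 141) (nat_lit 132)) (PT.lf (nat_lit 18012) (nat_lit 6) (nat_lit 237) (nat_lit 4) (nat_lit 118) (nat_lit 141) (nat_lit 131)))) (PT.nd (nat_lit 78) (PT.lf (nat_lit 18848) (nat_lit 6) (nat_lit 248) (nat_lit 4) (nat_lit 119) (nat_lit 141) (nat_lit 130)) (PT.nd (nat_lit 78) (PT.lf (nat_lit 18772) (nat_lit 6) (nat_lit 247) (nat_lit 4) (nat_lit 120) (nat_lit 141) (nat_lit 129)) (PT.lf (nat_lit 18696) (nat_lit 6) (nat_lit 246) (nat_lit 4) (nat_lit 121) (nat_lit 141) (nat_lit 128))))) (PT.nd (nat_lit 234) (PT.nd (nat_lit 78) (PT.lf (nat_lit 18620) (nat_lit 6) (nat_lit 245) (nat_lit 4) (nat_lit 122) (nat_lit 141) (nat_lit 127)) (PT.nd (nat_lit 78) (PT.lf (nat_lit 18544) (nat_lit 6) (nat_lit 244) (nat_lit 4) (nat_lit 123) (nat_lit 141) (nat_lit 126)) (PT.lf (nat_lit 18468) (nat_lit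 6) (nat_lit 243) (nat_lit 4) (nat_lit 124) (nat_lit 141) (nat_lit 125)))) (PT.nd (nat_lit 156) (PT.nd (nat_lit 78) (PT.lf (nat_lit 18468) (nat_lit 6) (nat_lit 243) (nat_lit 2) (nat_lit 125) (nat_lit 141) (nat_lit 124)) (PT.lf (nat_lit 18544) (nat_lit 6) (nat_lit 244) (nat_lit 2) (nat_lit 126) (nat_lit 141) (nat_lit 123))) (PT.nd (nat_lit 78) (PT.lf (nat_lit 18620) (nat_lit 6) (nat_lit 245) (nat_lit 2) (nat_lit 127) (nat_lit 141) (nat_lit 122)) (PT.lf (nat_lit 18696) (nat_lit 6) (nat_lit 246) (nat_lit 2) (nat_lit 128) (nat_lit 141) (nat_lit 121))))))) (PT.nd (nat_lit 1014) (PT.nd (nat_lit 468) (PT.nd (nat_lit 234) (PT.nd (nat_lit 78) (PT.lf (nat_lit 18772) (nat_lit 6) (nat_lit 247) (nat_lit 2) (nat_lit 129) (nat_lit 141) (nat_lit 120)) (PT.nd (nat_lit 78) (PT.lf (nat_lit 18848) (nat_lit 6) (nat_lit 248) (nat_lit 2) (nat_lit 130) (nat_lit 141) (nat_lit 119)) (PT.lf (nat_lit 18012) (nat_lit 6) (nat_lit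 237) (nat_lit 2) (nat_lit 131) (nat_lit 141) (nat_lit 118)))) (PT.nd (nat_lit 78) (PT.lf (nat_lit 17100) (nat_lit 6) (nat_lit 225) (nat_lit 2) (nat_lit 132) (nat_lit 141) (nat_lit 117)) (PT.nd (nat_lit 78) (PT.lf (nat_lit 16112) (nat_lit 6) (nat_lit 212) (nat_lit 2) (nat_lit 133) (nat_lit 141) (nat_lit 116)) (PT.lf (nat_lit 15048) (nat_lit 6) (nat_lit 198) (nat_lit 2) (nat_lit 134) (nat_lit 141) (nat_lit 115))))) (PT.nd (nat_lit 234) (PT.nd (nat_lit 78) (PT.lf (nat_lit 13908) (nat_lit 6) (nat_lit 183) (nat_lit 2) (nat_lit 135) (nat_lit 141) (nat_lit 114)) (PT.nd (nat_lit 78) (PT.lf (nat_lit 13300) (nat_lit 6) (nat_lit 175) (nat_lit 2) (nat_lit 136) (nat_lit 141) (nat_lit 113)) (PT.lf (nat_lit 12692) (nat_lit 6) (nat_lit 167) (nat_lit 2) (nat_lit 137) (nat_lit 141) (nat_lit 112)))) (PT.nd (nat_lit 156) (PT.nd (nat_lit 78) (PT.lf (nat_lit 12160) (nat_lit 6) (nat_lit 160) (nat_lit 2) (nat_lit 138)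 (nat_lit 141) (nat_lit 111)) (PT.lf (nat_lit 11628) (nat_lit 6) (nat_lit 153) (nat_lit 2) (nat_lit 139) (nat_lit 141) (nat_lit 110))) (PT.nd (nat_lit 78) (PT.lf (nat_lit 11172) (nat_lit 6) (nat_lit 147) (nat_lit 2) (nat_lit 140) (nat_lit 141) (nat_lit 109)) (PT.lf (nat_lit 10640) (nat_lit 3) (nat_lit 140) (nat_lit 0) (nat_lit 141) (nat_lit 141) (nat_lit 108)))))) (PT.nd (nat_lit 546) (PT.nd (nat_lit 234) (PT.nd (nat_lit 78) (PT.lf (nat_lit 10108) (nat_lit 6) (nat_lit 133) (nat_lit 0) (nat_lit 142) (nat_lit 141) (nat_lit 107)) (PT.nd (nat_lit 78) (PT.lf (nat_lit 9576) (nat_lit 6) (nat_lit 126) (nat_lit 0) (nat_lit 143) (nat_lit 141) (nat_lit 106)) (PT.lf (nat_lit 9120) (nat_lit 6) (nat_lit 120) (nat_lit 0) (nat_lit 144) (nat_lit 141) (nat_lit 105)))) (PT.nd (nat_lit 156) (PT.nd (nat_lit 78) (PT.lf (nat_lit 8664) (nat_lit 6) (nat_lit 114) (nat_lit 0) (nat_lit 145) (nat_lit 141) (nat_lit 104)) (PT.lf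 (nat_lit 8208) (nat_lit 6) (nat_lit 108) (nat_lit 0) (nat_lit 146) (nat_lit 141) (nat_lit 103))) (PT.nd (nat_lit 78) (PT.lf (nat_lit 7752) (nat_lit 6) (nat_lit 102) (nat_lit 0) (nat_lit 147) (nat_lit 141) (nat_lit 102)) (PT.lf (nat_lit 7372) (nat_lit 6) (nat_lit 97) (nat_lit 0) (nat_lit 148) (nat_lit 141) (nat_lit 101))))) (PT.nd (nat_lit 36894) (PT.nd (nat_lit 36738) (PT.lf (nat_lit 6916) (nat_lit 6) (nat_lit 91) (nat_lit 0) (nat_lit 149) (nat_lit 141) (nat_lit 100)) (PT.nd (nat_lit 78) (PT.lf (nat_lit 6612) (nat_lit 6) (nat_lit 87) (nat_lit 5) (nat_lit 99) (nat_lit 142) (nat_lit 149)) (PT.lf (nat_lit 6992) (nat_lit 6) (nat_lit 92) (nat_lit 5) (nat_lit 100) (nat_lit 142) (nat_lit 148)))) (PT.nd (nat_lit 156) (PT.nd (nat_lit 78) (PT.lf (nat_lit 7448) (nat_lit 6) (nat_lit 98) (nat_lit 5) (nat_lit 101) (nat_lit 142) (nat_lit 147)) (PT.lf (nat_lit 7828) (nat_lit 6) (nat_lit 103) (nat_lit 5) (nat_lit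 102) (nat_lit 142) (nat_lit 146))) (PT.nd (nat_lit 78) (PT.lf (nat_lit 8284) (nat_lit 6) (nat_lit 109) (nat_lit 5) (nat_lit 103) (nat_lit 142) (nat_lit 145)) (PT.lf (nat_lit 8740) (nat_lit 6) (nat_lit 115) (nat_lit 5) (nat_lit 104) (nat_lit 142) (nat_lit 144))))))))
noncomputable def pc22 : PT := (PT.nd (nat_lit 2028) (PT.nd (nat_lit 1014) (PT.nd (nat_lit 468) (PT.nd (nat_lit 234) (PT.nd (nat_lit 78) (PT.lf (nat_lit 9196) (nat_lit 6) (nat_lit 121) (nat_lit 5) (nat_lit 105) (nat_lit 142) (nat_lit 143)) (PT.nd (nat_lit 78) (PT.lf (nat_lit 9652) (nat_lit 3) (nat_lit 127) (nat_lit 4) (nat_lit 106) (nat_lit 142) (nat_lit 142)) (PT.lf (nat_lit 10108) (nat_lit 6) (nat_lit 133) (nat_lit 4) (nat_lit 107) (nat_lit 142) (nat_lit 141)))) (PT.nd (nat_lit 78) (PT.lf (nat_lit 10564) (nat_lit 6) (nat_lit 139) (nat_lit 4) (nat_lit 108) (nat_lit 142) (nat_lit 140)) (PT.nd (nat_lit 78) (PT.lf (nat_lit 11096) (nat_lit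 6) (nat_lit 146) (nat_lit 4) (nat_lit 109) (nat_lit 142) (nat_lit 139)) (PT.lf (nat_lit 11552) (nat_lit 6) (nat_lit 152) (nat_lit 4) (nat_lit 110) (nat_lit 142) (nat_lit 138))))) (PT.nd (nat_lit 234) (PT.nd (nat_lit 78) (PT.lf (nat_lit 12084) (nat_lit 6) (nat_lit 159) (nat_lit 4) (nat_lit 111) (nat_lit 142) (nat_lit 137)) (PT.nd (nat_lit 78) (PT.lf (nat_lit 12616) (nat_lit 6) (nat_lit 166) (nat_lit 4) (nat_lit 112) (nat_lit 142) (nat_lit 136)) (PT.lf (nat_lit 13224) (nat_lit 6) (nat_lit 174) (nat_lit 4) (nat_lit 113) (nat_lit 142) (nat_lit 135)))) (PT.nd (nat_lit 156) (PT.nd (nat_lit 78) (PT.lf (nat_lit 13832) (nat_lit 6) (nat_lit 182) (nat_lit 4) (nat_lit 114) (nat_lit 142) (nat_lit 134)) (PT.lf (nat_lit 14972) (nat_lit 6) (nat_lit 197) (nat_lit 4) (nat_lit 115) (nat_lit 142) (nat_lit 133))) (PT.nd (nat_lit 78) (PT.lf (nat_lit 16036) (nat_lit 6) (nat_lit 211) (nat_lit 4) (nat_lit 116) (nat_lit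 142) (nat_lit 132)) (PT.lf (nat_lit 17024) (nat_lit 6) (nat_lit 224) (nat_lit 4) (nat_lit 117) (nat_lit 142) (nat_lit 131)))))) (PT.nd (nat_lit 468) (PT.nd (nat_lit 234) (PT.nd (nat_lit 78) (PT.lf (nat_lit 17936) (nat_lit 6) (nat_lit 236) (nat_lit 4) (nat_lit 118) (nat_lit 142) (nat_lit 130)) (PT.nd (nat_lit 78) (PT.lf (nat_lit 17860) (nat_lit 6) (nat_lit 235) (nat_lit 4) (nat_lit 119) (nat_lit 142) (nat_lit 129)) (PT.lf (nat_lit 17784) (nat_lit 6) (nat_lit 234) (nat_lit 4) (nat_lit 120) (nat_lit 142) (nat_lit 128)))) (PT.nd (nat_lit 78) (PT.lf (nat_lit 17708) (nat_lit 6) (nat_lit 233) (nat_lit 4) (nat_lit 121) (nat_lit 142) (nat_lit 127)) (PT.nd (nat_lit 78) (PT.lf (nat_lit 17632) (nat_lit 6) (nat_lit 232) (nat_lit 4) (nat_lit 122) (nat_lit 142) (nat_lit 126)) (PT.lf (nat_lit 17556) (nat_lit 6) (nat_lit 231) (nat_lit 4) (nat_lit 123) (nat_lit 142) (nat_lit 125))))) (PT.nd (nat_lit 234) (PT.nd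 (nat_lit 78) (PT.lf (nat_lit 17480) (nat_lit 3) (nat_lit 230) (nat_lit 2) (nat_lit 124) (nat_lit 142) (nat_lit 124)) (PT.nd (nat_lit 78) (PT.lf (nat_lit 17556) (nat_lit 6) (nat_lit 231) (nat_lit 2) (nat_lit 125) (nat_lit 142) (nat_lit 123)) (PT.lf (nat_lit 17632) (nat_lit 6) (nat_lit 232) (nat_lit 2) (nat_lit 126) (nat_lit 142) (nat_lit 122)))) (PT.nd (nat_lit 156) (PT.nd (nat_lit 78) (PT.lf (nat_lit 17708) (nat_lit 6) (nat_lit 233) (nat_lit 2) (nat_lit 127) (nat_lit 142) (nat_lit 121)) (PT.lf (nat_lit 17784) (nat_lit 6) (nat_lit 234) (nat_lit 2) (nat_lit 128) (nat_lit 142) (nat_lit 120))) (PT.nd (nat_lit 78) (PT.lf (nat_lit 17860) (nat_lit 6) (nat_lit 235) (nat_lit 2) (nat_lit 129) (nat_lit 142) (nat_lit 119)) (PT.lf (nat_lit 17936) (nat_lit 6) (nat_lit 236) (nat_lit 2) (nat_lit 130) (nat_lit 142) (nat_lit 118))))))) (PT.nd (nat_lit 1014) (PT.nd (nat_lit 468) (PT.nd (nat_lit 234) (PT.nd (nat_lit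 78) (PT.lf (nat_lit 17024) (nat_lit 6) (nat_lit 224) (nat_lit 2) (nat_lit 131) (nat_lit 142) (nat_lit 117)) (PT.nd (nat_lit 78) (PT.lf (nat_lit 16036) (nat_lit 6) (nat_lit 211) (nat_lit 2) (nat_lit 132) (nat_lit 142) (nat_lit 116)) (PT.lf (nat_lit 14972) (nat_lit 6) (nat_lit 197) (nat_lit 2) (nat_lit 133) (nat_lit 142) (nat_lit 115)))) (PT.nd (nat_lit 78) (PT.lf (nat_lit 13832) (nat_lit 6) (nat_lit 182) (nat_lit 2) (nat_lit 134) (nat_lit 142) (nat_lit 114)) (PT.nd (nat_lit 78) (PT.lf (nat_lit 13224) (nat_lit 6) (nat_lit 174) (nat_lit 2) (nat_lit 135) (nat_lit 142) (nat_lit 113)) (PT.lf (nat_lit 12616) (nat_lit 6) (nat_lit 166) (nat_lit 2) (nat_lit 136) (nat_lit 142) (nat_lit 112))))) (PT.nd (nat_lit 234) (PT.nd (nat_lit 78) (PT.lf (nat_lit 12084) (nat_lit 6) (nat_lit 159) (nat_lit 2) (nat_lit 137) (nat_lit 142) (nat_lit 111)) (PT.nd (nat_lit 78) (PT.lf (nat_lit 11552) (nat_lit 6) (nat_lit 152)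 (nat_lit 2) (nat_lit 138) (nat_lit 142) (nat_lit 110)) (PT.lf (nat_lit 11096) (nat_lit 6) (nat_lit 146) (nat_lit 2) (nat_lit 139) (nat_lit 142) (nat_lit 109)))) (PT.nd (nat_lit 156) (PT.nd (nat_lit 78) (PT.lf (nat_lit 10564) (nat_lit 6) (nat_lit 139) (nat_lit 2) (nat_lit 140) (nat_lit 142) (nat_lit 108)) (PT.lf (nat_lit 10108) (nat_lit 6) (nat_lit 133) (nat_lit 2) (nat_lit 141) (nat_lit 142) (nat_lit 107))) (PT.nd (nat_lit 78) (PT.lf (nat_lit 9652) (nat_lit 3) (nat_lit 127) (nat_lit 0) (nat_lit 142) (nat_lit 142) (nat_lit 106)) (PT.lf (nat_lit 9196) (nat_lit 6) (nat_lit 121) (nat_lit 0) (nat_lit 143) (nat_lit 142) (nat_lit 105)))))) (PT.nd (nat_lit 37050) (PT.nd (nat_lit 234) (PT.nd (nat_lit 78) (PT.lf (nat_lit 8740) (nat_lit 6) (nat_lit 115) (nat_lit 0) (nat_lit 144) (nat_lit 142) (nat_lit 104)) (PT.nd (nat_lit 78) (PT.lf (nat_lit 8284) (nat_lit 6) (nat_lit 109) (nat_lit 0) (nat_lit 145) (nat_lit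 142) (nat_lit 103)) (PT.lf (nat_lit 7828) (nat_lit 6) (nat_lit 103) (nat_lit 0) (nat_lit 146) (nat_lit 142) (nat_lit 102)))) (PT.nd (nat_lit 156) (PT.nd (nat_lit 78) (PT.lf (nat_lit 7448) (nat_lit 6) (nat_lit 98) (nat_lit 0) (nat_lit 147) (nat_lit 142) (nat_lit 101)) (PT.lf (nat_lit 6992) (nat_lit 6) (nat_lit 92) (nat_lit 0) (nat_lit 148) (nat_lit 142) (nat_lit 100))) (PT.nd (nat_lit 36582) (PT.lf (nat_lit 6612) (nat_lit 6) (nat_lit 87) (nat_lit 0) (nat_lit 149) (nat_lit 142) (nat_lit 99)) (PT.lf (nat_lit 5928) (nat_lit 6) (nat_lit 78) (nat_lit 5) (nat_lit 97) (nat_lit 143) (nat_lit 150))))) (PT.nd (nat_lit 234) (PT.nd (nat_lit 78) (PT.lf (nat_lit 6308) (nat_lit 6) (nat_lit 83) (nat_lit 5) (nat_lit 98) (nat_lit 143) (nat_lit 149)) (PT.nd (nat_lit 78) (PT.lf (nat_lit 6688) (nat_lit 6) (nat_lit 88) (nat_lit 5) (nat_lit 99) (nat_lit 143) (nat_lit 148)) (PT.lf (nat_lit 7068) (nat_lit 6) (nat_lit 93)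 (nat_lit 5) (nat_lit 100) (nat_lit 143) (nat_lit 147)))) (PT.nd (nat_lit 156) (PT.nd (nat_lit 78) (PT.lf (nat_lit 7524) (nat_lit 6) (nat_lit 99) (nat_lit 5) (nat_lit 101) (nat_lit 143) (nat_lit 146)) (PT.lf (nat_lit 7904) (nat_lit 6) (nat_lit 104) (nat_lit 5) (nat_lit 102) (nat_lit 143) (nat_lit 145))) (PT.nd (nat_lit 78) (PT.lf (nat_lit 8360) (nat_lit 6) (nat_lit 110) (nat_lit 5) (nat_lit 103) (nat_lit 143) (nat_lit 144)) (PT.lf (nat_lit 8816) (nat_lit 3) (nat_lit 116) (nat_lit 4) (nat_lit 104) (nat_lit 143) (nat_lit 143))))))))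
noncomputable def pc23 : PT := (PT.nd (nat_lit 2028) (PT.nd (nat_lit 1014) (PT.nd (nat_lit 468) (PT.nd (nat_lit 234) (PT.nd (nat_lit 78) (PT.lf (nat_lit 9196) (nat_lit 6) (nat_lit 121) (nat_lit 4) (nat_lit 105) (nat_lit 143) (nat_lit 142)) (PT.nd (nat_lit 78) (PT.lf (nat_lit 9576) (nat_lit 6) (nat_lit 126) (nat_lit 4) (nat_lit 106) (nat_lit 143) (nat_lit 141)) (PT.lf (nat_lit 10032) (nat_lit 6) (nat_lit 132) (nat_lit 4) (nat_lit 107) (nat_lit 143) (nat_lit 140)))) (PT.nd (nat_lit 78) (PT.lf (nat_lit 10488) (nat_lit 6) (nat_lit 138) (nat_lit 4) (nat_lit 108) (nat_lit 143) (nat_lit 139)) (PT.nd (nat_lit 78) (PT.lf (nat_lit 11020) (nat_lit 6) (nat_lit 145) (nat_lit 4) (nat_lit 109) (nat_lit 143) (nat_lit 138)) (PT.lf (nat_lit 11476) (nat_lit 6) (nat_lit 151) (nat_lit 4) (nat_lit 110) (nat_lit 143) (nat_lit 137))))) (PT.nd (nat_lit 234) (PT.nd (nat_lit 78) (PT.lf (nat_lit 12008) (nat_lit 6) (nat_lit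 158) (nat_lit 4) (nat_lit 111) (nat_lit 143) (nat_lit 136)) (PT.nd (nat_lit 78) (PT.lf (nat_lit 12540) (nat_lit 6) (nat_lit 165) (nat_lit 4) (nat_lit 112) (nat_lit 143) (nat_lit 135)) (PT.lf (nat_lit 13148) (nat_lit 6) (nat_lit 173) (nat_lit 4) (nat_lit 113) (nat_lit 143) (nat_lit 134)))) (PT.nd (nat_lit 156) (PT.nd (nat_lit 78) (PT.lf (nat_lit 13756) (nat_lit 6) (nat_lit 181) (nat_lit 4) (nat_lit 114) (nat_lit 143) (nat_lit 133)) (PT.lf (nat_lit 14896) (nat_lit 6) (nat_lit 196) (nat_lit 4) (nat_lit 115) (nat_lit 143) (nat_lit 132))) (PT.nd (nat_lit 78) (PT.lf (nat_lit 15960) (nat_lit 6) (nat_lit 210) (nat_lit 4) (nat_lit 116) (nat_lit 143) (nat_lit 131)) (PT.lf (nat_lit 16948) (nat_lit 6) (nat_lit 223) (nat_lit 4) (nat_lit 117) (nat_lit 143) (nat_lit 130)))))) (PT.nd (nat_lit 468) (PT.nd (nat_lit 234) (PT.nd (nat_lit 78) (PT.lf (nat_lit 16872) (nat_lit 6) (nat_lit 222) (nat_lit 4) (nat_lit 118)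 (nat_lit 143) (nat_lit 129)) (PT.nd (nat_lit 78) (PT.lf (nat_lit 16796) (nat_lit 6) (nat_lit 221) (nat_lit 4) (nat_lit 119) (nat_lit 143) (nat_lit 128)) (PT.lf (nat_lit 16720) (nat_lit 6) (nat_lit 220) (nat_lit 4) (nat_lit 120) (nat_lit 143) (nat_lit 127)))) (PT.nd (nat_lit 78) (PT.lf (nat_lit 16644) (nat_lit 6) (nat_lit 219) (nat_lit 4) (nat_lit 121) (nat_lit 143) (nat_lit 126)) (PT.nd (nat_lit 78) (PT.lf (nat_lit 16568) (nat_lit 6) (nat_lit 218) (nat_lit 4) (nat_lit 122) (nat_lit 143) (nat_lit 125)) (PT.lf (nat_lit 16492) (nat_lit 6) (nat_lit 217) (nat_lit 4) (nat_lit 123) (nat_lit 143) (nat_lit 124))))) (PT.nd (nat_lit 234) (PT.nd (nat_lit 78) (PT.lf (nat_lit 16492) (nat_lit 6) (nat_lit 217) (nat_lit 2) (nat_lit 124) (nat_lit 143) (nat_lit 123)) (PT.nd (nat_lit 78) (PT.lf (nat_lit 16568) (nat_lit 6) (nat_lit 218) (nat_lit 2) (nat_lit 125) (nat_lit 143) (nat_lit 122)) (PT.lf (nat_lit 16644) (nat_lit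 6) (nat_lit 219) (nat_lit 2) (nat_lit 126) (nat_lit 143) (nat_lit 121)))) (PT.nd (nat_lit 156) (PT.nd (nat_lit 78) (PT.lf (nat_lit 16720) (nat_lit 6) (nat_lit 220) (nat_lit 2) (nat_lit 127) (nat_lit 143) (nat_lit 120)) (PT.lf (nat_lit 16796) (nat_lit 6) (nat_lit 221) (nat_lit 2) (nat_lit 128) (nat_lit 143) (nat_lit 119))) (PT.nd (nat_lit 78) (PT.lf (nat_lit 16872) (nat_lit 6) (nat_lit 222) (nat_lit 2) (nat_lit 129) (nat_lit 143) (nat_lit 118)) (PT.lf (nat_lit 16948) (nat_lit 6) (nat_lit 223) (nat_lit 2) (nat_lit 130) (nat_lit 143) (nat_lit 117))))))) (PT.nd (nat_lit 1014) (PT.nd (nat_lit 468) (PT.nd (nat_lit 234) (PT.nd (nat_lit 78) (PT.lf (nat_lit 15960) (nat_lit 6) (nat_lit 210) (nat_lit 2) (nat_lit 131) (nat_lit 143) (nat_lit 116)) (PT.nd (nat_lit 78) (PT.lf (nat_lit 14896) (nat_lit 6) (nat_lit 196) (nat_lit 2) (nat_lit 132) (nat_lit 143) (nat_lit 115)) (PT.lf (nat_lit 13756) (nat_lit 6) (nat_lit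 181) (nat_lit 2) (nat_lit 133) (nat_lit 143) (nat_lit 114)))) (PT.nd (nat_lit 78) (PT.lf (nat_lit 13148) (nat_lit 6) (nat_lit 173) (nat_lit 2) (nat_lit 134) (nat_lit 143) (nat_lit 113)) (PT.nd (nat_lit 78) (PT.lf (nat_lit 12540) (nat_lit 6) (nat_lit 165) (nat_lit 2) (nat_lit 135) (nat_lit 143) (nat_lit 112)) (PT.lf (nat_lit 12008) (nat_lit 6) (nat_lit 158) (nat_lit 2) (nat_lit 136) (nat_lit 143) (nat_lit 111))))) (PT.nd (nat_lit 234) (PT.nd (nat_lit 78) (PT.lf (nat_lit 11476) (nat_lit 6) (nat_lit 151) (nat_lit 2) (nat_lit 137) (nat_lit 143) (nat_lit 110)) (PT.nd (nat_lit 78) (PT.lf (nat_lit 11020) (nat_lit 6) (nat_lit 145) (nat_lit 2) (nat_lit 138) (nat_lit 143) (nat_lit 109)) (PT.lf (nat_lit 10488) (nat_lit 6) (nat_lit 138) (nat_lit 2) (nat_lit 139) (nat_lit 143) (nat_lit 108)))) (PT.nd (nat_lit 156) (PT.nd (nat_lit 78) (PT.lf (nat_lit 10032) (nat_lit 6) (nat_lit 132) (nat_lit 2) (nat_lit 140)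 (nat_lit 143) (nat_lit 107)) (PT.lf (nat_lit 9576) (nat_lit 6) (nat_lit 126) (nat_lit 2) (nat_lit 141) (nat_lit 143) (nat_lit 106))) (PT.nd (nat_lit 78) (PT.lf (nat_lit 9196) (nat_lit 6) (nat_lit 121) (nat_lit 2) (nat_lit 142) (nat_lit 143) (nat_lit 105)) (PT.lf (nat_lit 8816) (nat_lit 3) (nat_lit 116) (nat_lit 0) (nat_lit 143) (nat_lit 143) (nat_lit 104)))))) (PT.nd (nat_lit 36816) (PT.nd (nat_lit 234) (PT.nd (nat_lit 78) (PT.lf (nat_lit 8360) (nat_lit 6) (nat_lit 110) (nat_lit 0) (nat_lit 144) (nat_lit 143) (nat_lit 103)) (PT.nd (nat_lit 78) (PT.lf (nat_lit 7904) (nat_lit 6) (nat_lit 104) (nat_lit 0) (nat_lit 145) (nat_lit 143) (nat_lit 102)) (PT.lf (nat_lit 7524) (nat_lit 6) (nat_lit 99) (nat_lit 0) (nat_lit 146) (nat_lit 143) (nat_lit 101)))) (PT.nd (nat_lit 156) (PT.nd (nat_lit 78) (PT.lf (nat_lit 7068) (nat_lit 6) (nat_lit 93) (nat_lit 0) (nat_lit 147) (nat_lit 143) (nat_lit 100)) (PT.lf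 (nat_lit 6688) (nat_lit 6) (nat_lit 88) (nat_lit 0) (nat_lit 148) (nat_lit 143) (nat_lit 99))) (PT.nd (nat_lit 78) (PT.lf (nat_lit 6308) (nat_lit 6) (nat_lit 83) (nat_lit 0) (nat_lit 149) (nat_lit 143) (nat_lit 98)) (PT.lf (nat_lit 5928) (nat_lit 6) (nat_lit 78) (nat_lit 0) (nat_lit 150) (nat_lit 143) (nat_lit 97))))) (PT.nd (nat_lit 234) (PT.nd (nat_lit 78) (PT.lf (nat_lit 5320) (nat_lit 6) (nat_lit 70) (nat_lit 5) (nat_lit 95) (nat_lit 144) (nat_lit 151)) (PT.nd (nat_lit 78) (PT.lf (nat_lit 5624) (nat_lit 6) (nat_lit 74) (nat_lit 5) (nat_lit 96) (nat_lit 144) (nat_lit 150)) (PT.lf (nat_lit 6004) (nat_lit 6) (nat_lit 79) (nat_lit 5) (nat_lit 97) (nat_lit 144) (nat_lit 149)))) (PT.nd (nat_lit 156) (PT.nd (nat_lit 78) (PT.lf (nat_lit 6384) (nat_lit 6) (nat_lit 84) (nat_lit 5) (nat_lit 98) (nat_lit 144) (nat_lit 148)) (PT.lf (nat_lit 6764) (nat_lit 6) (nat_lit 89) (nat_lit 5) (nat_lit 99) (nat_lit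 144) (nat_lit 147))) (PT.nd (nat_lit 78) (PT.lf (nat_lit 7144) (nat_lit 6) (nat_lit 94) (nat_lit 5) (nat_lit 100) (nat_lit 144) (nat_lit 146)) (PT.lf (nat_lit 7600) (nat_lit 6) (nat_lit 100) (nat_lit 5) (nat_lit 101) (nat_lit 144) (nat_lit 145))))))))
noncomputable def pc24 : PT := (PT.nd (nat_lit 2028) (PT.nd (nat_lit 1014) (PT.nd (nat_lit 468) (PT.nd (nat_lit 234) (PT.nd (nat_lit 78) (PT.lf (nat_lit 7980) (nat_lit 3) (nat_lit 105) (nat_lit 4) (nat_lit 102) (nat_lit 144) (nat_lit 144)) (PT.nd (nat_lit 78) (PT.lf (nat_lit 8360) (nat_lit 6) (nat_lit 110) (nat_lit 4) (nat_lit 103) (nat_lit 144) (nat_lit 143)) (PT.lf (nat_lit 8740) (nat_lit 6) (nat_lit 115) (nat_lit 4) (nat_lit 104) (nat_lit 144) (nat_lit 142)))) (PT.nd (nat_lit 78) (PT.lf (nat_lit 9120) (nat_lit 6) (nat_lit 120) (nat_lit 4) (nat_lit 105) (nat_lit 144) (nat_lit 141)) (PT.nd (nat_lit 78) (PT.lf (nat_lit 9500) (nat_lit 6) (nat_lit 125)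 (nat_lit 4) (nat_lit 106) (nat_lit 144) (nat_lit 140)) (PT.lf (nat_lit 9956) (nat_lit 6) (nat_lit 131) (nat_lit 4) (nat_lit 107) (nat_lit 144) (nat_lit 139))))) (PT.nd (nat_lit 234) (PT.nd (nat_lit 78) (PT.lf (nat_lit 10412) (nat_lit 6) (nat_lit 137) (nat_lit 4) (nat_lit 108) (nat_lit 144) (nat_lit 138)) (PT.nd (nat_lit 78) (PT.lf (nat_lit 10944) (nat_lit 6) (nat_lit 144) (nat_lit 4) (nat_lit 109) (nat_lit 144) (nat_lit 137)) (PT.lf (nat_lit 11400) (nat_lit 6) (nat_lit 150) (nat_lit 4) (nat_lit 110) (nat_lit 144) (nat_lit 136)))) (PT.nd (nat_lit 156) (PT.nd (nat_lit 78) (PT.lf (nat_lit 11932) (nat_lit 6) (nat_lit 157) (nat_lit 4) (nat_lit 111) (nat_lit 144) (nat_lit 135)) (PT.lf (nat_lit 12464) (nat_lit 6) (nat_lit 164) (nat_lit 4) (nat_lit 112) (nat_lit 144) (nat_lit 134))) (PT.nd (nat_lit 78) (PT.lf (nat_lit 13072) (nat_lit 6) (nat_lit 172) (nat_lit 4) (nat_lit 113) (nat_lit 144) (nat_lit 133))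 (PT.lf (nat_lit 13680) (nat_lit 6) (nat_lit 180) (nat_lit 4) (nat_lit 114) (nat_lit 144) (nat_lit 132)))))) (PT.nd (nat_lit 468) (PT.nd (nat_lit 234) (PT.nd (nat_lit 78) (PT.lf (nat_lit 14820) (nat_lit 6) (nat_lit 195) (nat_lit 4) (nat_lit 115) (nat_lit 144) (nat_lit 131)) (PT.nd (nat_lit 78) (PT.lf (nat_lit 15884) (nat_lit 6) (nat_lit 209) (nat_lit 4) (nat_lit 116) (nat_lit 144) (nat_lit 130)) (PT.lf (nat_lit 15808) (nat_lit 6) (nat_lit 208) (nat_lit 4) (nat_lit 117) (nat_lit 144) (nat_lit 129)))) (PT.nd (nat_lit 78) (PT.lf (nat_lit 15732) (nat_lit 6) (nat_lit 207) (nat_lit 4) (nat_lit 118) (nat_lit 144) (nat_lit 128)) (PT.nd (nat_lit 78) (PT.lf (nat_lit 15656) (nat_lit 6) (nat_lit 206) (nat_lit 4) (nat_lit 119) (nat_lit 144) (nat_lit 127)) (PT.lf (nat_lit 15580) (nat_lit 6) (nat_lit 205) (nat_lit 4) (nat_lit 120) (nat_lit 144) (nat_lit 126))))) (PT.nd (nat_lit 234) (PT.nd (nat_lit 78) (PT.lf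 (nat_lit 15504) (nat_lit 6) (nat_lit 204) (nat_lit 4) (nat_lit 121) (nat_lit 144) (nat_lit 125)) (PT.nd (nat_lit 78) (PT.lf (nat_lit 15428) (nat_lit 6) (nat_lit 203) (nat_lit 4) (nat_lit 122) (nat_lit 144) (nat_lit 124)) (PT.lf (nat_lit 15352) (nat_lit 3) (nat_lit 202) (nat_lit 2) (nat_lit 123) (nat_lit 144) (nat_lit 123)))) (PT.nd (nat_lit 156) (PT.nd (nat_lit 78) (PT.lf (nat_lit 15428) (nat_lit 6) (nat_lit 203) (nat_lit 2) (nat_lit 124) (nat_lit 144) (nat_lit 122)) (PT.lf (nat_lit 15504) (nat_lit 6) (nat_lit 204) (nat_lit 2) (nat_lit 125) (nat_lit 144) (nat_lit 121))) (PT.nd (nat_lit 78) (PT.lf (nat_lit 15580) (nat_lit 6) (nat_lit 205) (nat_lit 2) (nat_lit 126) (nat_lit 144) (nat_lit 120)) (PT.lf (nat_lit 15656) (nat_lit 6) (nat_lit 206) (nat_lit 2) (nat_lit 127) (nat_lit 144) (nat_lit 119))))))) (PT.nd (nat_lit 1014) (PT.nd (nat_lit 468) (PT.nd (nat_lit 234) (PT.nd (nat_lit 78) (PT.lf (nat_lit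 15732) (nat_lit 6) (nat_lit 207) (nat_lit 2) (nat_lit 128) (nat_lit 144) (nat_lit 118)) (PT.nd (nat_lit 78) (PT.lf (nat_lit 15808) (nat_lit 6) (nat_lit 208) (nat_lit 2) (nat_lit 129) (nat_lit 144) (nat_lit 117)) (PT.lf (nat_lit 15884) (nat_lit 6) (nat_lit 209) (nat_lit 2) (nat_lit 130) (nat_lit 144) (nat_lit 116)))) (PT.nd (nat_lit 78) (PT.lf (nat_lit 14820) (nat_lit 6) (nat_lit 195) (nat_lit 2) (nat_lit 131) (nat_lit 144) (nat_lit 115)) (PT.nd (nat_lit 78) (PT.lf (nat_lit 13680) (nat_lit 6) (nat_lit 180) (nat_lit 2) (nat_lit 132) (nat_lit 144) (nat_lit 114)) (PT.lf (nat_lit 13072) (nat_lit 6) (nat_lit 172) (nat_lit 2) (nat_lit 133) (nat_lit 144) (nat_lit 113))))) (PT.nd (nat_lit 234) (PT.nd (nat_lit 78) (PT.lf (nat_lit 12464) (nat_lit 6) (nat_lit 164) (nat_lit 2) (nat_lit 134) (nat_lit 144) (nat_lit 112)) (PT.nd (nat_lit 78) (PT.lf (nat_lit 11932) (nat_lit 6) (nat_lit 157) (nat_lit 2) (nat_lit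 135) (nat_lit 144) (nat_lit 111)) (PT.lf (nat_lit 11400) (nat_lit 6) (nat_lit 150) (nat_lit 2) (nat_lit 136) (nat_lit 144) (nat_lit 110)))) (PT.nd (nat_lit 156) (PT.nd (nat_lit 78) (PT.lf (nat_lit 10944) (nat_lit 6) (nat_lit 144) (nat_lit 2) (nat_lit 137) (nat_lit 144) (nat_lit 109)) (PT.lf (nat_lit 10412) (nat_lit 6) (nat_lit 137) (nat_lit 2) (nat_lit 138) (nat_lit 144) (nat_lit 108))) (PT.nd (nat_lit 78) (PT.lf (nat_lit 9956) (nat_lit 6) (nat_lit 131) (nat_lit 2) (nat_lit 139) (nat_lit 144) (nat_lit 107)) (PT.lf (nat_lit 9500) (nat_lit 6) (nat_lit 125) (nat_lit 2) (nat_lit 140) (nat_lit 144) (nat_lit 106)))))) (PT.nd (nat_lit 546) (PT.nd (nat_lit 234) (PT.nd (nat_lit 78) (PT.lf (nat_lit 9120) (nat_lit 6) (nat_lit 120) (nat_lit 2) (nat_lit 141) (nat_lit 144) (nat_lit 105)) (PT.nd (nat_lit 78) (PT.lf (nat_lit 8740) (nat_lit 6) (nat_lit 115) (nat_lit 2) (nat_lit 142) (nat_lit 144) (nat_lit 104))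 (PT.lf (nat_lit 8360) (nat_lit 6) (nat_lit 110) (nat_lit 2) (nat_lit 143) (nat_lit 144) (nat_lit 103)))) (PT.nd (nat_lit 156) (PT.nd (nat_lit 78) (PT.lf (nat_lit 7980) (nat_lit 3) (nat_lit 105) (nat_lit 0) (nat_lit 144) (nat_lit 144) (nat_lit 102)) (PT.lf (nat_lit 7600) (nat_lit 6) (nat_lit 100) (nat_lit 0) (nat_lit 145) (nat_lit 144) (nat_lit 101))) (PT.nd (nat_lit 78) (PT.lf (nat_lit 7144) (nat_lit 6) (nat_lit 94) (nat_lit 0) (nat_lit 146) (nat_lit 144) (nat_lit 100)) (PT.lf (nat_lit 6764) (nat_lit 6) (nat_lit 89) (nat_lit 0) (nat_lit 147) (nat_lit 144) (nat_lit 99))))) (PT.nd (nat_lit 234) (PT.nd (nat_lit 78) (PT.lf (nat_lit 6384) (nat_lit 6) (nat_lit 84) (nat_lit 0) (nat_lit 148) (nat_lit 144) (nat_lit 98)) (PT.nd (nat_lit 78) (PT.lf (nat_lit 6004) (nat_lit 6) (nat_lit 79) (nat_lit 0) (nat_lit 149) (nat_lit 144) (nat_lit 97)) (PT.lf (nat_lit 5624) (nat_lit 6) (nat_lit 74) (nat_lit 0) (nat_lit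 150) (nat_lit 144) (nat_lit 96)))) (PT.nd (nat_lit 36270) (PT.nd (nat_lit 36192) (PT.lf (nat_lit 5320) (nat_lit 6) (nat_lit 70) (nat_lit 0) (nat_lit 151) (nat_lit 144) (nat_lit 95)) (PT.lf (nat_lit 5016) (nat_lit 6) (nat_lit 66) (nat_lit 5) (nat_lit 94) (nat_lit 145) (nat_lit 151))) (PT.nd (nat_lit 78) (PT.lf (nat_lit 5396) (nat_lit 6) (nat_lit 71) (nat_lit 5) (nat_lit 95) (nat_lit 145) (nat_lit 150)) (PT.lf (nat_lit 5700) (nat_lit 6) (nat_lit 75) (nat_lit 5) (nat_lit 96) (nat_lit 145) (nat_lit 149))))))))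
noncomputable def pc25 : PT := (PT.nd (nat_lit 2028) (PT.nd (nat_lit 1014) (PT.nd (nat_lit 468) (PT.nd (nat_lit 234) (PT.nd (nat_lit 78) (PT.lf (nat_lit 6080) (nat_lit 6) (nat_lit 80) (nat_lit 5) (nat_lit 97) (nat_lit 145) (nat_lit 148)) (PT.nd (nat_lit 78) (PT.lf (nat_lit 6460) (nat_lit 6) (nat_lit 85) (nat_lit 5) (nat_lit 98) (nat_lit 145) (nat_lit 147)) (PT.lf (nat_lit 6840) (nat_lit 6) (nat_lit 90) (nat_lit 5) (nat_lit 99) (nat_lit 145) (nat_lit 146)))) (PT.nd (nat_lit 78) (PT.lf (nat_lit 7220) (nat_lit 3) (nat_lit 95) (nat_lit 4) (nat_lit 100) (nat_lit 145) (nat_lit 145)) (PT.nd (nat_lit 78) (PT.lf (nat_lit 7600) (nat_lit 6) (nat_lit 100) (nat_lit 4) (nat_lit 101) (nat_lit 145) (nat_lit 144)) (PT.lf (nat_lit 7904) (nat_lit 6) (nat_lit 104) (nat_lit 4) (nat_lit 102) (nat_lit 145) (nat_lit 143))))) (PT.nd (nat_lit 234) (PT.nd (nat_lit 78) (PT.lf (nat_lit 8284) (nat_lit 6) (nat_lit 109) (nat_lit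 4) (nat_lit 103) (nat_lit 145) (nat_lit 142)) (PT.nd (nat_lit 78) (PT.lf (nat_lit 8664) (nat_lit 6) (nat_lit 114) (nat_lit 4) (nat_lit 104) (nat_lit 145) (nat_lit 141)) (PT.lf (nat_lit 9044) (nat_lit 6) (nat_lit 119) (nat_lit 4) (nat_lit 105) (nat_lit 145) (nat_lit 140)))) (PT.nd (nat_lit 156) (PT.nd (nat_lit 78) (PT.lf (nat_lit 9424) (nat_lit 6) (nat_lit 124) (nat_lit 4) (nat_lit 106) (nat_lit 145) (nat_lit 139)) (PT.lf (nat_lit 9880) (nat_lit 6) (nat_lit 130) (nat_lit 4) (nat_lit 107) (nat_lit 145) (nat_lit 138))) (PT.nd (nat_lit 78) (PT.lf (nat_lit 10336) (nat_lit 6) (nat_lit 136) (nat_lit 4) (nat_lit 108) (nat_lit 145) (nat_lit 137)) (PT.lf (nat_lit 10868) (nat_lit 6) (nat_lit 143) (nat_lit 4) (nat_lit 109) (nat_lit 145) (nat_lit 136)))))) (PT.nd (nat_lit 468) (PT.nd (nat_lit 234) (PT.nd (nat_lit 78) (PT.lf (nat_lit 11324) (nat_lit 6) (nat_lit 149) (nat_lit 4) (nat_lit 110) (nat_lit 145) (nat_lit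 135)) (PT.nd (nat_lit 78) (PT.lf (nat_lit 11856) (nat_lit 6) (nat_lit 156) (nat_lit 4) (nat_lit 111) (nat_lit 145) (nat_lit 134)) (PT.lf (nat_lit 12388) (nat_lit 6) (nat_lit 163) (nat_lit 4) (nat_lit 112) (nat_lit 145) (nat_lit 133)))) (PT.nd (nat_lit 78) (PT.lf (nat_lit 12996) (nat_lit 6) (nat_lit 171) (nat_lit 4) (nat_lit 113) (nat_lit 145) (nat_lit 132)) (PT.nd (nat_lit 78) (PT.lf (nat_lit 13604) (nat_lit 6) (nat_lit 179) (nat_lit 4) (nat_lit 114) (nat_lit 145) (nat_lit 131)) (PT.lf (nat_lit 14744) (nat_lit 6) (nat_lit 194) (nat_lit 4) (nat_lit 115) (nat_lit 145) (nat_lit 130))))) (PT.nd (nat_lit 234) (PT.nd (nat_lit 78) (PT.lf (nat_lit 14668) (nat_lit 6) (nat_lit 193) (nat_lit 4) (nat_lit 116) (nat_lit 145) (nat_lit 129)) (PT.nd (nat_lit 78) (PT.lf (nat_lit 14592) (nat_lit 6) (nat_lit 192) (nat_lit 4) (nat_lit 117) (nat_lit 145) (nat_lit 128)) (PT.lf (nat_lit 14516) (nat_lit 6) (nat_lit 191)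 (nat_lit 4) (nat_lit 118) (nat_lit 145) (nat_lit 127)))) (PT.nd (nat_lit 156) (PT.nd (nat_lit 78) (PT.lf (nat_lit 14440) (nat_lit 6) (nat_lit 190) (nat_lit 4) (nat_lit 119) (nat_lit 145) (nat_lit 126)) (PT.lf (nat_lit 14364) (nat_lit 6) (nat_lit 189) (nat_lit 4) (nat_lit 120) (nat_lit 145) (nat_lit 125))) (PT.nd (nat_lit 78) (PT.lf (nat_lit 14288) (nat_lit 6) (nat_lit 188) (nat_lit 4) (nat_lit 121) (nat_lit 145) (nat_lit 124)) (PT.lf (nat_lit 14212) (nat_lit 6) (nat_lit 187) (nat_lit 4) (nat_lit 122) (nat_lit 145) (nat_lit 123))))))) (PT.nd (nat_lit 1014) (PT.nd (nat_lit 468) (PT.nd (nat_lit 234) (PT.nd (nat_lit 78) (PT.lf (nat_lit 14212) (nat_lit 6) (nat_lit 187) (nat_lit 2) (nat_lit 123) (nat_lit 145) (nat_lit 122)) (PT.nd (nat_lit 78) (PT.lf (nat_lit 14288) (nat_lit 6) (nat_lit 188) (nat_lit 2) (nat_lit 124) (nat_lit 145) (nat_lit 121)) (PT.lf (nat_lit 14364) (nat_lit 6) (nat_lit 189) (nat_lit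 2) (nat_lit 125) (nat_lit 145) (nat_lit 120)))) (PT.nd (nat_lit 78) (PT.lf (nat_lit 14440) (nat_lit 6) (nat_lit 190) (nat_lit 2) (nat_lit 126) (nat_lit 145) (nat_lit 119)) (PT.nd (nat_lit 78) (PT.lf (nat_lit 14516) (nat_lit 6) (nat_lit 191) (nat_lit 2) (nat_lit 127) (nat_lit 145) (nat_lit 118)) (PT.lf (nat_lit 14592) (nat_lit 6) (nat_lit 192) (nat_lit 2) (nat_lit 128) (nat_lit 145) (nat_lit 117))))) (PT.nd (nat_lit 234) (PT.nd (nat_lit 78) (PT.lf (nat_lit 14668) (nat_lit 6) (nat_lit 193) (nat_lit 2) (nat_lit 129) (nat_lit 145) (nat_lit 116)) (PT.nd (nat_lit 78) (PT.lf (nat_lit 14744) (nat_lit 6) (nat_lit 194) (nat_lit 2) (nat_lit 130) (nat_lit 145) (nat_lit 115)) (PT.lf (nat_lit 13604) (nat_lit 6) (nat_lit 179) (nat_lit 2) (nat_lit 131) (nat_lit 145) (nat_lit 114)))) (PT.nd (nat_lit 156) (PT.nd (nat_lit 78) (PT.lf (nat_lit 12996) (nat_lit 6) (nat_lit 171) (nat_lit 2) (nat_lit 132) (nat_lit 145)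 (nat_lit 113)) (PT.lf (nat_lit 12388) (nat_lit 6) (nat_lit 163) (nat_lit 2) (nat_lit 133) (nat_lit 145) (nat_lit 112))) (PT.nd (nat_lit 78) (PT.lf (nat_lit 11856) (nat_lit 6) (nat_lit 156) (nat_lit 2) (nat_lit 134) (nat_lit 145) (nat_lit 111)) (PT.lf (nat_lit 11324) (nat_lit 6) (nat_lit 149) (nat_lit 2) (nat_lit 135) (nat_lit 145) (nat_lit 110)))))) (PT.nd (nat_lit 546) (PT.nd (nat_lit 234) (PT.nd (nat_lit 78) (PT.lf (nat_lit 10868) (nat_lit 6) (nat_lit 143) (nat_lit 2) (nat_lit 136) (nat_lit 145) (nat_lit 109)) (PT.nd (nat_lit 78) (PT.lf (nat_lit 10336) (nat_lit 6) (nat_lit 136) (nat_lit 2) (nat_lit 137) (nat_lit 145) (nat_lit 108)) (PT.lf (nat_lit 9880) (nat_lit 6) (nat_lit 130) (nat_lit 2) (nat_lit 138) (nat_lit 145) (nat_lit 107)))) (PT.nd (nat_lit 156) (PT.nd (nat_lit 78) (PT.lf (nat_lit 9424) (nat_lit 6) (nat_lit 124) (nat_lit 2) (nat_lit 139) (nat_lit 145) (nat_lit 106)) (PT.lf (nat_lit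 9044) (nat_lit 6) (nat_lit 119) (nat_lit 2) (nat_lit 140) (nat_lit 145) (nat_lit 105))) (PT.nd (nat_lit 78) (PT.lf (nat_lit 8664) (nat_lit 6) (nat_lit 114) (nat_lit 2) (nat_lit 141) (nat_lit 145) (nat_lit 104)) (PT.lf (nat_lit 8284) (nat_lit 6) (nat_lit 109) (nat_lit 2) (nat_lit 142) (nat_lit 145) (nat_lit 103))))) (PT.nd (nat_lit 234) (PT.nd (nat_lit 78) (PT.lf (nat_lit 7904) (nat_lit 6) (nat_lit 104) (nat_lit 2) (nat_lit 143) (nat_lit 145) (nat_lit 102)) (PT.nd (nat_lit 78) (PT.lf (nat_lit 7600) (nat_lit 6) (nat_lit 100) (nat_lit 2) (nat_lit 144) (nat_lit 145) (nat_lit 101)) (PT.lf (nat_lit 7220) (nat_lit 3) (nat_lit 95) (nat_lit 0) (nat_lit 145) (nat_lit 145) (nat_lit 100)))) (PT.nd (nat_lit 156) (PT.nd (nat_lit 78) (PT.lf (nat_lit 6840) (nat_lit 6) (nat_lit 90) (nat_lit 0) (nat_lit 146) (nat_lit 145) (nat_lit 99)) (PT.lf (nat_lit 6460) (nat_lit 6) (nat_lit 85) (nat_lit 0) (nat_lit 147) (nat_lit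 145) (nat_lit 98))) (PT.nd (nat_lit 78) (PT.lf (nat_lit 6080) (nat_lit 6) (nat_lit 80) (nat_lit 0) (nat_lit 148) (nat_lit 145) (nat_lit 97)) (PT.lf (nat_lit 5700) (nat_lit 6) (nat_lit 75) (nat_lit 0) (nat_lit 149) (nat_lit 145) (nat_lit 96))))))))
noncomputable def pc26 : PT := (PT.nd (nat_lit 39156) (PT.nd (nat_lit 36972) (PT.nd (nat_lit 36426) (PT.nd (nat_lit 36192) (PT.nd (nat_lit 78) (PT.lf (nat_lit 5396) (nat_lit 6) (nat_lit 71) (nat_lit 0) (nat_lit 150) (nat_lit 145) (nat_lit 95)) (PT.nd (nat_lit 36036) (PT.lf (nat_lit 5016) (nat_lit 6) (nat_lit 66) (nat_lit 0) (nat_lit 151) (nat_lit 145) (nat_lit 94)) (PT.lf (nat_lit 4484) (nat_lit 6) (nat_lit 59) (nat_lit 5) (nat_lit 92) (nat_lit 146) (nat_lit 152)))) (PT.nd (nat_lit 78) (PT.lf (nat_lit 4788) (nat_lit 6) (nat_lit 63) (nat_lit 5) (nat_lit 93) (nat_lit 146) (nat_lit 151)) (PT.nd (nat_lit 78) (PT.lf (nat_lit 5092) (nat_lit 6) (nat_lit 67)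 (nat_lit 5) (nat_lit 94) (nat_lit 146) (nat_lit 150)) (PT.lf (nat_lit 5472) (nat_lit 6) (nat_lit 72) (nat_lit 5) (nat_lit 95) (nat_lit 146) (nat_lit 149))))) (PT.nd (nat_lit 234) (PT.nd (nat_lit 78) (PT.lf (nat_lit 5776) (nat_lit 6) (nat_lit 76) (nat_lit 5) (nat_lit 96) (nat_lit 146) (nat_lit 148)) (PT.nd (nat_lit 78) (PT.lf (nat_lit 6156) (nat_lit 6) (nat_lit 81) (nat_lit 5) (nat_lit 97) (nat_lit 146) (nat_lit 147)) (PT.lf (nat_lit 6536) (nat_lit 3) (nat_lit 86) (nat_lit 4) (nat_lit 98) (nat_lit 146) (nat_lit 146)))) (PT.nd (nat_lit 156) (PT.nd (nat_lit 78) (PT.lf (nat_lit 6840) (nat_lit 6) (nat_lit 90) (nat_lit 4) (nat_lit 99) (nat_lit 146) (nat_lit 145)) (PT.lf (nat_lit 7144) (nat_lit 6) (nat_lit 94) (nat_lit 4) (nat_lit 100) (nat_lit 146) (nat_lit 144))) (PT.nd (nat_lit 78) (PT.lf (nat_lit 7524) (nat_lit 6) (nat_lit 99) (nat_lit 4) (nat_lit 101) (nat_lit 146) (nat_lit 143)) (PT.lf (nat_lit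 7828) (nat_lit 6) (nat_lit 103) (nat_lit 4) (nat_lit 102) (nat_lit 146) (nat_lit 142)))))) (PT.nd (nat_lit 468) (PT.nd (nat_lit 234) (PT.nd (nat_lit 78) (PT.lf (nat_lit 8208) (nat_lit 6) (nat_lit 108) (nat_lit 4) (nat_lit 103) (nat_lit 146) (nat_lit 141)) (PT.nd (nat_lit 78) (PT.lf (nat_lit 8588) (nat_lit 6) (nat_lit 113) (nat_lit 4) (nat_lit 104) (nat_lit 146) (nat_lit 140)) (PT.lf (nat_lit 8968) (nat_lit 6) (nat_lit 118) (nat_lit 4) (nat_lit 105) (nat_lit 146) (nat_lit 139)))) (PT.nd (nat_lit 78) (PT.lf (nat_lit 9348) (nat_lit 6) (nat_lit 123) (nat_lit 4) (nat_lit 106) (nat_lit 146) (nat_lit 138)) (PT.nd (nat_lit 78) (PT.lf (nat_lit 9804) (nat_lit 6) (nat_lit 129) (nat_lit 4) (nat_lit 107) (nat_lit 146) (nat_lit 137)) (PT.lf (nat_lit 10260) (nat_lit 6) (nat_lit 135) (nat_lit 4) (nat_lit 108) (nat_lit 146) (nat_lit 136))))) (PT.nd (nat_lit 234) (PT.nd (nat_lit 78) (PT.lf (nat_lit 10792) (nat_lit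 6) (nat_lit 142) (nat_lit 4) (nat_lit 109) (nat_lit 146) (nat_lit 135)) (PT.nd (nat_lit 78) (PT.lf (nat_lit 11248) (nat_lit 6) (nat_lit 148) (nat_lit 4) (nat_lit 110) (nat_lit 146) (nat_lit 134)) (PT.lf (nat_lit 11780) (nat_lit 6) (nat_lit 155) (nat_lit 4) (nat_lit 111) (nat_lit 146) (nat_lit 133)))) (PT.nd (nat_lit 156) (PT.nd (nat_lit 78) (PT.lf (nat_lit 12312) (nat_lit 6) (nat_lit 162) (nat_lit 4) (nat_lit 112) (nat_lit 146) (nat_lit 132)) (PT.lf (nat_lit 12920) (nat_lit 6) (nat_lit 170) (nat_lit 4) (nat_lit 113) (nat_lit 146) (nat_lit 131))) (PT.nd (nat_lit 1248) (PT.lf (nat_lit 13528) (nat_lit 6) (nat_lit 178) (nat_lit 4) (nat_lit 114) (nat_lit 146) (nat_lit 130)) (PT.lf (nat_lit 13528) (nat_lit 6) (nat_lit 178) (nat_lit 2) (nat_lit 130) (nat_lit 146) (nat_lit 114))))))) (PT.nd (nat_lit 1014) (PT.nd (nat_lit 468) (PT.nd (nat_lit 234) (PT.nd (nat_lit 78) (PT.lf (nat_lit 12920) (nat_lit 6) (nat_lit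 170) (nat_lit 2) (nat_lit 131) (nat_lit 146) (nat_lit 113)) (PT.nd (nat_lit 78) (PT.lf (nat_lit 12312) (nat_lit 6) (nat_lit 162) (nat_lit 2) (nat_lit 132) (nat_lit 146) (nat_lit 112)) (PT.lf (nat_lit 11780) (nat_lit 6) (nat_lit 155) (nat_lit 2) (nat_lit 133) (nat_lit 146) (nat_lit 111)))) (PT.nd (nat_lit 78) (PT.lf (nat_lit 11248) (nat_lit 6) (nat_lit 148) (nat_lit 2) (nat_lit 134) (nat_lit 146) (nat_lit 110)) (PT.nd (nat_lit 78) (PT.lf (nat_lit 10792) (nat_lit 6) (nat_lit 142) (nat_lit 2) (nat_lit 135) (nat_lit 146) (nat_lit 109)) (PT.lf (nat_lit 10260) (nat_lit 6) (nat_lit 135) (nat_lit 2) (nat_lit 136) (nat_lit 146) (nat_lit 108))))) (PT.nd (nat_lit 234) (PT.nd (nat_lit 78) (PT.lf (nat_lit 9804) (nat_lit 6) (nat_lit 129) (nat_lit 2) (nat_lit 137) (nat_lit 146) (nat_lit 107)) (PT.nd (nat_lit 78) (PT.lf (nat_lit 9348) (nat_lit 6) (nat_lit 123) (nat_lit 2) (nat_lit 138) (nat_lit 146) (nat_lit 106))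 (PT.lf (nat_lit 8968) (nat_lit 6) (nat_lit 118) (nat_lit 2) (nat_lit 139) (nat_lit 146) (nat_lit 105)))) (PT.nd (nat_lit 156) (PT.nd (nat_lit 78) (PT.lf (nat_lit 8588) (nat_lit 6) (nat_lit 113) (nat_lit 2) (nat_lit 140) (nat_lit 146) (nat_lit 104)) (PT.lf (nat_lit 8208) (nat_lit 6) (nat_lit 108) (nat_lit 2) (nat_lit 141) (nat_lit 146) (nat_lit 103))) (PT.nd (nat_lit 78) (PT.lf (nat_lit 7828) (nat_lit 6) (nat_lit 103) (nat_lit 2) (nat_lit 142) (nat_lit 146) (nat_lit 102)) (PT.lf (nat_lit 7524) (nat_lit 6) (nat_lit 99) (nat_lit 2) (nat_lit 143) (nat_lit 146) (nat_lit 101)))))) (PT.nd (nat_lit 546) (PT.nd (nat_lit 234) (PT.nd (nat_lit 78) (PT.lf (nat_lit 7144) (nat_lit 6) (nat_lit 94) (nat_lit 2) (nat_lit 144) (nat_lit 146) (nat_lit 100)) (PT.nd (nat_lit 78) (PT.lf (nat_lit 6840) (nat_lit 6) (nat_lit 90) (nat_lit 2) (nat_lit 145) (nat_lit 146) (nat_lit 99)) (PT.lf (nat_lit 6536) (nat_lit 3) (nat_lit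 86) (nat_lit 0) (nat_lit 146) (nat_lit 146) (nat_lit 98)))) (PT.nd (nat_lit 156) (PT.nd (nat_lit 78) (PT.lf (nat_lit 6156) (nat_lit 6) (nat_lit 81) (nat_lit 0) (nat_lit 147) (nat_lit 146) (nat_lit 97)) (PT.lf (nat_lit 5776) (nat_lit 6) (nat_lit 76) (nat_lit 0) (nat_lit 148) (nat_lit 146) (nat_lit 96))) (PT.nd (nat_lit 78) (PT.lf (nat_lit 5472) (nat_lit 6) (nat_lit 72) (nat_lit 0) (nat_lit 149) (nat_lit 146) (nat_lit 95)) (PT.lf (nat_lit 5092) (nat_lit 6) (nat_lit 67) (nat_lit 0) (nat_lit 150) (nat_lit 146) (nat_lit 94))))) (PT.nd (nat_lit 36036) (PT.nd (nat_lit 78) (PT.lf (nat_lit 4788) (nat_lit 6) (nat_lit 63) (nat_lit 0) (nat_lit 151) (nat_lit 146) (nat_lit 93)) (PT.nd (nat_lit 35880) (PT.lf (nat_lit 4484) (nat_lit 6) (nat_lit 59) (nat_lit 0) (nat_lit 152) (nat_lit 146) (nat_lit 92)) (PT.lf (nat_lit 4256) (nat_lit 6) (nat_lit 56) (nat_lit 5) (nat_lit 91) (nat_lit 147) (nat_lit 152)))) (PT.nd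 (nat_lit 156) (PT.nd (nat_lit 78) (PT.lf (nat_lit 4560) (nat_lit 6) (nat_lit 60) (nat_lit 5) (nat_lit 92) (nat_lit 147) (nat_lit 151)) (PT.lf (nat_lit 4864) (nat_lit 6) (nat_lit 64) (nat_lit 5) (nat_lit 93) (nat_lit 147) (nat_lit 150))) (PT.nd (nat_lit 78) (PT.lf (nat_lit 5168) (nat_lit 6) (nat_lit 68) (nat_lit 5) (nat_lit 94) (nat_lit 147) (nat_lit 149)) (PT.lf (nat_lit 5548) (nat_lit 6) (nat_lit 73) (nat_lit 5) (nat_lit 95) (nat_lit 147) (nat_lit 148))))))))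
noncomputable def pc27 : PT := (PT.nd (nat_lit 4056) (PT.nd (nat_lit 3042) (PT.nd (nat_lit 468) (PT.nd (nat_lit 234) (PT.nd (nat_lit 78) (PT.lf (nat_lit 5852) (nat_lit 3) (nat_lit 77) (nat_lit 4) (nat_lit 96) (nat_lit 147) (nat_lit 147)) (PT.nd (nat_lit 78) (PT.lf (nat_lit 6156) (nat_lit 6) (nat_lit 81) (nat_lit 4) (nat_lit 97) (nat_lit 147) (nat_lit 146)) (PT.lf (nat_lit 6460) (nat_lit 6) (nat_lit 85) (nat_lit 4) (nat_lit 98) (nat_lit 147) (nat_lit 145)))) (PT.nd (nat_lit 78) (PT.lf (nat_lit 6764) (nat_lit 6) (nat_lit 89) (nat_lit 4) (nat_lit 99) (nat_lit 147) (nat_lit 144)) (PT.nd (nat_lit 78) (PT.lf (nat_lit 7068) (nat_lit 6) (nat_lit 93) (nat_lit 4) (nat_lit 100) (nat_lit 147) (nat_lit 143)) (PT.lf (nat_lit 7448) (nat_lit 6) (nat_lit 98) (nat_lit 4) (nat_lit 101) (nat_lit 147) (nat_lit 142))))) (PT.nd (nat_lit 234) (PT.nd (nat_lit 78) (PT.lf (nat_lit 7752) (nat_lit 6) (nat_lit 102) (nat_lit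 4) (nat_lit 102) (nat_lit 147) (nat_lit 141)) (PT.nd (nat_lit 78) (PT.lf (nat_lit 8132) (nat_lit 6) (nat_lit 107) (nat_lit 4) (nat_lit 103) (nat_lit 147) (nat_lit 140)) (PT.lf (nat_lit 8512) (nat_lit 6) (nat_lit 112) (nat_lit 4) (nat_lit 104) (nat_lit 147) (nat_lit 139)))) (PT.nd (nat_lit 156) (PT.nd (nat_lit 78) (PT.lf (nat_lit 8892) (nat_lit 6) (nat_lit 117) (nat_lit 4) (nat_lit 105) (nat_lit 147) (nat_lit 138)) (PT.lf (nat_lit 9272) (nat_lit 6) (nat_lit 122) (nat_lit 4) (nat_lit 106) (nat_lit 147) (nat_lit 137))) (PT.nd (nat_lit 78) (PT.lf (nat_lit 9728) (nat_lit 6) (nat_lit 128) (nat_lit 4) (nat_lit 107) (nat_lit 147) (nat_lit 136)) (PT.lf (nat_lit 10184) (nat_lit 6) (nat_lit 134) (nat_lit 4) (nat_lit 108) (nat_lit 147) (nat_lit 135)))))) (PT.nd (nat_lit 468) (PT.nd (nat_lit 234) (PT.nd (nat_lit 78) (PT.lf (nat_lit 10184) (nat_lit 6) (nat_lit 134) (nat_lit 2) (nat_lit 135) (nat_lit 147) (nat_lit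 108)) (PT.nd (nat_lit 78) (PT.lf (nat_lit 9728) (nat_lit 6) (nat_lit 128) (nat_lit 2) (nat_lit 136) (nat_lit 147) (nat_lit 107)) (PT.lf (nat_lit 9272) (nat_lit 6) (nat_lit 122) (nat_lit 2) (nat_lit 137) (nat_lit 147) (nat_lit 106)))) (PT.nd (nat_lit 78) (PT.lf (nat_lit 8892) (nat_lit 6) (nat_lit 117) (nat_lit 2) (nat_lit 138) (nat_lit 147) (nat_lit 105)) (PT.nd (nat_lit 78) (PT.lf (nat_lit 8512) (nat_lit 6) (nat_lit 112) (nat_lit 2) (nat_lit 139) (nat_lit 147) (nat_lit 104)) (PT.lf (nat_lit 8132) (nat_lit 6) (nat_lit 107) (nat_lit 2) (nat_lit 140) (nat_lit 147) (nat_lit 103))))) (PT.nd (nat_lit 234) (PT.nd (nat_lit 78) (PT.lf (nat_lit 7752) (nat_lit 6) (nat_lit 102) (nat_lit 2) (nat_lit 141) (nat_lit 147) (nat_lit 102)) (PT.nd (nat_lit 78) (PT.lf (nat_lit 7448) (nat_lit 6) (nat_lit 98) (nat_lit 2) (nat_lit 142) (nat_lit 147) (nat_lit 101)) (PT.lf (nat_lit 7068) (nat_lit 6) (nat_lit 93) (nat_lit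 2) (nat_lit 143) (nat_lit 147) (nat_lit 100)))) (PT.nd (nat_lit 156) (PT.nd (nat_lit 78) (PT.lf (nat_lit 6764) (nat_lit 6) (nat_lit 89) (nat_lit 2) (nat_lit 144) (nat_lit 147) (nat_lit 99)) (PT.lf (nat_lit 6460) (nat_lit 6) (nat_lit 85) (nat_lit 2) (nat_lit 145) (nat_lit 147) (nat_lit 98))) (PT.nd (nat_lit 78) (PT.lf (nat_lit 6156) (nat_lit 6) (nat_lit 81) (nat_lit 2) (nat_lit 146) (nat_lit 147) (nat_lit 97)) (PT.lf (nat_lit 5852) (nat_lit 3) (nat_lit 77) (nat_lit 0) (nat_lit 147) (nat_lit 147) (nat_lit 96))))))) (PT.nd (nat_lit 36660) (PT.nd (nat_lit 36114) (PT.nd (nat_lit 234) (PT.nd (nat_lit 78) (PT.lf (nat_lit 5548) (nat_lit 6) (nat_lit 73) (nat_lit 0) (nat_lit 148) (nat_lit 147) (nat_lit 95)) (PT.nd (nat_lit 78) (PT.lf (nat_lit 5168) (nat_lit 6) (nat_lit 68) (nat_lit 0) (nat_lit 149) (nat_lit 147) (nat_lit 94)) (PT.lf (nat_lit 4864) (nat_lit 6) (nat_lit 64) (nat_lit 0) (nat_lit 150) (nat_lit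 147) (nat_lit 93)))) (PT.nd (nat_lit 78) (PT.lf (nat_lit 4560) (nat_lit 6) (nat_lit 60) (nat_lit 0) (nat_lit 151) (nat_lit 147) (nat_lit 92)) (PT.nd (nat_lit 35724) (PT.lf (nat_lit 4256) (nat_lit 6) (nat_lit 56) (nat_lit 0) (nat_lit 152) (nat_lit 147) (nat_lit 91)) (PT.lf (nat_lit 3800) (nat_lit 6) (nat_lit 50) (nat_lit 5) (nat_lit 89) (nat_lit 148) (nat_lit 153))))) (PT.nd (nat_lit 234) (PT.nd (nat_lit 78) (PT.lf (nat_lit 4028) (nat_lit 6) (nat_lit 53) (nat_lit 5) (nat_lit 90) (nat_lit 148) (nat_lit 152)) (PT.nd (nat_lit 78) (PT.lf (nat_lit 4332) (nat_lit 6) (nat_lit 57) (nat_lit 5) (nat_lit 91) (nat_lit 148) (nat_lit 151)) (PT.lf (nat_lit 4636) (nat_lit 6) (nat_lit 61) (nat_lit 5) (nat_lit 92) (nat_lit 148) (nat_lit 150)))) (PT.nd (nat_lit 156) (PT.nd (nat_lit 78) (PT.lf (nat_lit 4940) (nat_lit 6) (nat_lit 65) (nat_lit 5) (nat_lit 93) (nat_lit 148) (nat_lit 149)) (PT.lf (nat_lit 5244) (nat_lit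 3) (nat_lit 69) (nat_lit 4) (nat_lit 94) (nat_lit 148) (nat_lit 148))) (PT.nd (nat_lit 78) (PT.lf (nat_lit 5548) (nat_lit 6) (nat_lit 73) (nat_lit 4) (nat_lit 95) (nat_lit 148) (nat_lit 147)) (PT.lf (nat_lit 5776) (nat_lit 6) (nat_lit 76) (nat_lit 4) (nat_lit 96) (nat_lit 148) (nat_lit 146)))))) (PT.nd (nat_lit 546) (PT.nd (nat_lit 234) (PT.nd (nat_lit 78) (PT.lf (nat_lit 6080) (nat_lit 6) (nat_lit 80) (nat_lit 4) (nat_lit 97) (nat_lit 148) (nat_lit 145)) (PT.nd (nat_lit 78) (PT.lf (nat_lit 6384) (nat_lit 6) (nat_lit 84) (nat_lit 4) (nat_lit 98) (nat_lit 148) (nat_lit 144)) (PT.lf (nat_lit 6688) (nat_lit 6) (nat_lit 88) (nat_lit 4) (nat_lit 99) (nat_lit 148) (nat_lit 143)))) (PT.nd (nat_lit 156) (PT.nd (nat_lit 78) (PT.lf (nat_lit 6992) (nat_lit 6) (nat_lit 92) (nat_lit 4) (nat_lit 100) (nat_lit 148) (nat_lit 142)) (PT.lf (nat_lit 7372) (nat_lit 6) (nat_lit 97) (nat_lit 4) (nat_lit 101) (nat_lit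 148) (nat_lit 141))) (PT.nd (nat_lit 78) (PT.lf (nat_lit 7676) (nat_lit 6) (nat_lit 101) (nat_lit 4) (nat_lit 102) (nat_lit 148) (nat_lit 140)) (PT.lf (nat_lit 8056) (nat_lit 6) (nat_lit 106) (nat_lit 4) (nat_lit 103) (nat_lit 148) (nat_lit 139))))) (PT.nd (nat_lit 2808) (PT.nd (nat_lit 2652) (PT.lf (nat_lit 8436) (nat_lit 6) (nat_lit 111) (nat_lit 4) (nat_lit 104) (nat_lit 148) (nat_lit 138)) (PT.nd (nat_lit 78) (PT.lf (nat_lit 8436) (nat_lit 6) (nat_lit 111) (nat_lit 2) (nat_lit 138) (nat_lit 148) (nat_lit 104)) (PT.lf (nat_lit 8056) (nat_lit 6) (nat_lit 106) (nat_lit 2) (nat_lit 139) (nat_lit 148) (nat_lit 103)))) (PT.nd (nat_lit 156) (PT.nd (nat_lit 78) (PT.lf (nat_lit 7676) (nat_lit 6) (nat_lit 101) (nat_lit 2) (nat_lit 140) (nat_lit 148) (nat_lit 102)) (PT.lf (nat_lit 7372) (nat_lit 6) (nat_lit 97) (nat_lit 2) (nat_lit 141) (nat_lit 148) (nat_lit 101))) (PT.nd (nat_lit 78) (PT.lf (nat_lit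 6992) (nat_lit 6) (nat_lit 92) (nat_lit 2) (nat_lit 142) (nat_lit 148) (nat_lit 100)) (PT.lf (nat_lit 6688) (nat_lit 6) (nat_lit 88) (nat_lit 2) (nat_lit 143) (nat_lit 148) (nat_lit 99))))))))
noncomputable def pc28 : PT := (PT.nd (nat_lit 40482) (PT.nd (nat_lit 36504) (PT.nd (nat_lit 468) (PT.nd (nat_lit 234) (PT.nd (nat_lit 78) (PT.lf (nat_lit 6384) (nat_lit 6) (nat_lit 84) (nat_lit 2) (nat_lit 144) (nat_lit 148) (nat_lit 98)) (PT.nd (nat_lit 78) (PT.lf (nat_lit 6080) (nat_lit 6) (nat_lit 80) (nat_lit 2) (nat_lit 145) (nat_lit 148) (nat_lit 97)) (PT.lf (nat_lit 5776) (nat_lit 6) (nat_lit 76) (nat_lit 2) (nat_lit 146) (nat_lit 148) (nat_lit 96)))) (PT.nd (nat_lit 78) (PT.lf (nat_lit 5548) (nat_lit 6) (nat_lit 73) (nat_lit 2) (nat_lit 147) (nat_lit 148) (nat_lit 95)) (PT.nd (nat_lit 78) (PT.lf (nat_lit 5244) (nat_lit 3) (nat_lit 69) (nat_lit 0) (nat_lit 148) (nat_lit 148) (nat_lit 94)) (PT.lf (nat_lit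 4940) (nat_lit 6) (nat_lit 65) (nat_lit 0) (nat_lit 149) (nat_lit 148) (nat_lit 93))))) (PT.nd (nat_lit 234) (PT.nd (nat_lit 78) (PT.lf (nat_lit 4636) (nat_lit 6) (nat_lit 61) (nat_lit 0) (nat_lit 150) (nat_lit 148) (nat_lit 92)) (PT.nd (nat_lit 78) (PT.lf (nat_lit 4332) (nat_lit 6) (nat_lit 57) (nat_lit 0) (nat_lit 151) (nat_lit 148) (nat_lit 91)) (PT.lf (nat_lit 4028) (nat_lit 6) (nat_lit 53) (nat_lit 0) (nat_lit 152) (nat_lit 148) (nat_lit 90)))) (PT.nd (nat_lit 35646) (PT.nd (nat_lit 35568) (PT.lf (nat_lit 3800) (nat_lit 6) (nat_lit 50) (nat_lit 0) (nat_lit 153) (nat_lit 148) (nat_lit 89)) (PT.lf (nat_lit 3572) (nat_lit 6) (nat_lit 47) (nat_lit 5) (nat_lit 88) (nat_lit 149) (nat_lit 153))) (PT.nd (nat_lit 78) (PT.lf (nat_lit 3876) (nat_lit 6) (nat_lit 51) (nat_lit 5) (nat_lit 89) (nat_lit 149) (nat_lit 152)) (PT.lf (nat_lit 4104) (nat_lit 6) (nat_lit 54) (nat_lit 5) (nat_lit 90) (nat_lit 149)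 (nat_lit 151)))))) (PT.nd (nat_lit 468) (PT.nd (nat_lit 234) (PT.nd (nat_lit 78) (PT.lf (nat_lit 4408) (nat_lit 6) (nat_lit 58) (nat_lit 5) (nat_lit 91) (nat_lit 149) (nat_lit 150)) (PT.nd (nat_lit 78) (PT.lf (nat_lit 4712) (nat_lit 3) (nat_lit 62) (nat_lit 4) (nat_lit 92) (nat_lit 149) (nat_lit 149)) (PT.lf (nat_lit 4940) (nat_lit 6) (nat_lit 65) (nat_lit 4) (nat_lit 93) (nat_lit 149) (nat_lit 148)))) (PT.nd (nat_lit 78) (PT.lf (nat_lit 5168) (nat_lit 6) (nat_lit 68) (nat_lit 4) (nat_lit 94) (nat_lit 149) (nat_lit 147)) (PT.nd (nat_lit 78) (PT.lf (nat_lit 5472) (nat_lit 6) (nat_lit 72) (nat_lit 4) (nat_lit 95) (nat_lit 149) (nat_lit 146)) (PT.lf (nat_lit 5700) (nat_lit 6) (nat_lit 75) (nat_lit 4) (nat_lit 96) (nat_lit 149) (nat_lit 145))))) (PT.nd (nat_lit 234) (PT.nd (nat_lit 78) (PT.lf (nat_lit 6004) (nat_lit 6) (nat_lit 79) (nat_lit 4) (nat_lit 97) (nat_lit 149) (nat_lit 144)) (PT.nd (nat_lit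 78) (PT.lf (nat_lit 6308) (nat_lit 6) (nat_lit 83) (nat_lit 4) (nat_lit 98) (nat_lit 149) (nat_lit 143)) (PT.lf (nat_lit 6612) (nat_lit 6) (nat_lit 87) (nat_lit 4) (nat_lit 99) (nat_lit 149) (nat_lit 142)))) (PT.nd (nat_lit 3120) (PT.nd (nat_lit 78) (PT.lf (nat_lit 6916) (nat_lit 6) (nat_lit 91) (nat_lit 4) (nat_lit 100) (nat_lit 149) (nat_lit 141)) (PT.lf (nat_lit 7296) (nat_lit 6) (nat_lit 96) (nat_lit 4) (nat_lit 101) (nat_lit 149) (nat_lit 140))) (PT.nd (nat_lit 78) (PT.lf (nat_lit 7296) (nat_lit 6) (nat_lit 96) (nat_lit 2) (nat_lit 140) (nat_lit 149) (nat_lit 101)) (PT.lf (nat_lit 6916) (nat_lit 6) (nat_lit 91) (nat_lit 2) (nat_lit 141) (nat_lit 149) (nat_lit 100))))))) (PT.nd (nat_lit 36348) (PT.nd (nat_lit 468) (PT.nd (nat_lit 234) (PT.nd (nat_lit 78) (PT.lf (nat_lit 6612) (nat_lit 6) (nat_lit 87) (nat_lit 2) (nat_lit 142) (nat_lit 149) (nat_lit 99)) (PT.nd (nat_lit 78) (PT.lf (nat_lit 6308)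 (nat_lit 6) (nat_lit 83) (nat_lit 2) (nat_lit 143) (nat_lit 149) (nat_lit 98)) (PT.lf (nat_lit 6004) (nat_lit 6) (nat_lit 79) (nat_lit 2) (nat_lit 144) (nat_lit 149) (nat_lit 97)))) (PT.nd (nat_lit 78) (PT.lf (nat_lit 5700) (nat_lit 6) (nat_lit 75) (nat_lit 2) (nat_lit 145) (nat_lit 149) (nat_lit 96)) (PT.nd (nat_lit 78) (PT.lf (nat_lit 5472) (nat_lit 6) (nat_lit 72) (nat_lit 2) (nat_lit 146) (nat_lit 149) (nat_lit 95)) (PT.lf (nat_lit 5168) (nat_lit 6) (nat_lit 68) (nat_lit 2) (nat_lit 147) (nat_lit 149) (nat_lit 94))))) (PT.nd (nat_lit 234) (PT.nd (nat_lit 78) (PT.lf (nat_lit 4940) (nat_lit 6) (nat_lit 65) (nat_lit 2) (nat_lit 148) (nat_lit 149) (nat_lit 93)) (PT.nd (nat_lit 78) (PT.lf (nat_lit 4712) (nat_lit 3) (nat_lit 62) (nat_lit 0) (nat_lit 149) (nat_lit 149) (nat_lit 92)) (PT.lf (nat_lit 4408) (nat_lit 6) (nat_lit 58) (nat_lit 0) (nat_lit 150) (nat_lit 149) (nat_lit 91)))) (PT.nd (nat_lit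 156) (PT.nd (nat_lit 78) (PT.lf (nat_lit 4104) (nat_lit 6) (nat_lit 54) (nat_lit 0) (nat_lit 151) (nat_lit 149) (nat_lit 90)) (PT.lf (nat_lit 3876) (nat_lit 6) (nat_lit 51) (nat_lit 0) (nat_lit 152) (nat_lit 149) (nat_lit 89))) (PT.nd (nat_lit 35412) (PT.lf (nat_lit 3572) (nat_lit 6) (nat_lit 47) (nat_lit 0) (nat_lit 153) (nat_lit 149) (nat_lit 88)) (PT.lf (nat_lit 3116) (nat_lit 6) (nat_lit 41) (nat_lit 5) (nat_lit 86) (nat_lit 150) (nat_lit 154)))))) (PT.nd (nat_lit 546) (PT.nd (nat_lit 234) (PT.nd (nat_lit 78) (PT.lf (nat_lit 3420) (nat_lit 6) (nat_lit 45) (nat_lit 5) (nat_lit 87) (nat_lit 150) (nat_lit 153)) (PT.nd (nat_lit 78) (PT.lf (nat_lit 3648) (nat_lit 6) (nat_lit 48) (nat_lit 5) (nat_lit 88) (nat_lit 150) (nat_lit 152)) (PT.lf (nat_lit 3952) (nat_lit 6) (nat_lit 52) (nat_lit 5) (nat_lit 89) (nat_lit 150) (nat_lit 151)))) (PT.nd (nat_lit 156) (PT.nd (nat_lit 78) (PT.lf (nat_lit 4180)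 (nat_lit 3) (nat_lit 55) (nat_lit 4) (nat_lit 90) (nat_lit 150) (nat_lit 150)) (PT.lf (nat_lit 4408) (nat_lit 6) (nat_lit 58) (nat_lit 4) (nat_lit 91) (nat_lit 150) (nat_lit 149))) (PT.nd (nat_lit 78) (PT.lf (nat_lit 4636) (nat_lit 6) (nat_lit 61) (nat_lit 4) (nat_lit 92) (nat_lit 150) (nat_lit 148)) (PT.lf (nat_lit 4864) (nat_lit 6) (nat_lit 64) (nat_lit 4) (nat_lit 93) (nat_lit 150) (nat_lit 147))))) (PT.nd (nat_lit 234) (PT.nd (nat_lit 78) (PT.lf (nat_lit 5092) (nat_lit 6) (nat_lit 67) (nat_lit 4) (nat_lit 94) (nat_lit 150) (nat_lit 146)) (PT.nd (nat_lit 78) (PT.lf (nat_lit 5396) (nat_lit 6) (nat_lit 71) (nat_lit 4) (nat_lit 95) (nat_lit 150) (nat_lit 145)) (PT.lf (nat_lit 5624) (nat_lit 6) (nat_lit 74) (nat_lit 4) (nat_lit 96) (nat_lit 150) (nat_lit 144)))) (PT.nd (nat_lit 3666) (PT.nd (nat_lit 3588) (PT.lf (nat_lit 5928) (nat_lit 6) (nat_lit 78) (nat_lit 4) (nat_lit 97) (nat_lit 150) (nat_lit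 143)) (PT.lf (nat_lit 5928) (nat_lit 6) (nat_lit 78) (nat_lit 2) (nat_lit 143) (nat_lit 150) (nat_lit 97))) (PT.nd (nat_lit 78) (PT.lf (nat_lit 5624) (nat_lit 6) (nat_lit 74) (nat_lit 2) (nat_lit 144) (nat_lit 150) (nat_lit 96)) (PT.lf (nat_lit 5396) (nat_lit 6) (nat_lit 71) (nat_lit 2) (nat_lit 145) (nat_lit 150) (nat_lit 95))))))))
noncomputable def pc29 : PT := (PT.nd (nat_lit 40872) (PT.nd (nat_lit 36114) (PT.nd (nat_lit 468) (PT.nd (nat_lit 234) (PT.nd (nat_lit 78) (PT.lf (nat_lit 5092) (nat_lit 6) (nat_lit 67) (nat_lit 2) (nat_lit 146) (nat_lit 150) (nat_lit 94)) (PT.nd (nat_lit 78) (PT.lf (nat_lit 4864) (nat_lit 6) (nat_lit 64) (nat_lit 2) (nat_lit 147) (nat_lit 150) (nat_lit 93)) (PT.lf (nat_lit 4636) (nat_lit 6) (nat_lit 61) (nat_lit 2) (nat_lit 148) (nat_lit 150) (nat_lit 92)))) (PT.nd (nat_lit 78) (PT.lf (nat_lit 4408) (nat_lit 6) (nat_lit 58) (nat_lit 2) (nat_lit 149) (nat_lit 150)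 (nat_lit 91)) (PT.nd (nat_lit 78) (PT.lf (nat_lit 4180) (nat_lit 3) (nat_lit 55) (nat_lit 0) (nat_lit 150) (nat_lit 150) (nat_lit 90)) (PT.lf (nat_lit 3952) (nat_lit 6) (nat_lit 52) (nat_lit 0) (nat_lit 151) (nat_lit 150) (nat_lit 89))))) (PT.nd (nat_lit 35334) (PT.nd (nat_lit 78) (PT.lf (nat_lit 3648) (nat_lit 6) (nat_lit 48) (nat_lit 0) (nat_lit 152) (nat_lit 150) (nat_lit 88)) (PT.nd (nat_lit 78) (PT.lf (nat_lit 3420) (nat_lit 6) (nat_lit 45) (nat_lit 0) (nat_lit 153) (nat_lit 150) (nat_lit 87)) (PT.lf (nat_lit 3116) (nat_lit 6) (nat_lit 41) (nat_lit 0) (nat_lit 154) (nat_lit 150) (nat_lit 86)))) (PT.nd (nat_lit 156) (PT.nd (nat_lit 78) (PT.lf (nat_lit 2736) (nat_lit 6) (nat_lit 36) (nat_lit 5) (nat_lit 84) (nat_lit 151) (nat_lit 155)) (PT.lf (nat_lit 2964) (nat_lit 6) (nat_lit 39) (nat_lit 5) (nat_lit 85) (nat_lit 151) (nat_lit 154))) (PT.nd (nat_lit 78) (PT.lf (nat_lit 3192) (nat_lit 6) (nat_lit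 42) (nat_lit 5) (nat_lit 86) (nat_lit 151) (nat_lit 153)) (PT.lf (nat_lit 3496) (nat_lit 6) (nat_lit 46) (nat_lit 5) (nat_lit 87) (nat_lit 151) (nat_lit 152)))))) (PT.nd (nat_lit 468) (PT.nd (nat_lit 234) (PT.nd (nat_lit 78) (PT.lf (nat_lit 3724) (nat_lit 3) (nat_lit 49) (nat_lit 4) (nat_lit 88) (nat_lit 151) (nat_lit 151)) (PT.nd (nat_lit 78) (PT.lf (nat_lit 3952) (nat_lit 6) (nat_lit 52) (nat_lit 4) (nat_lit 89) (nat_lit 151) (nat_lit 150)) (PT.lf (nat_lit 4104) (nat_lit 6) (nat_lit 54) (nat_lit 4) (nat_lit 90) (nat_lit 151) (nat_lit 149)))) (PT.nd (nat_lit 78) (PT.lf (nat_lit 4332) (nat_lit 6) (nat_lit 57) (nat_lit 4) (nat_lit 91) (nat_lit 151) (nat_lit 148)) (PT.nd (nat_lit 78) (PT.lf (nat_lit 4560) (nat_lit 6) (nat_lit 60) (nat_lit 4) (nat_lit 92) (nat_lit 151) (nat_lit 147)) (PT.lf (nat_lit 4788) (nat_lit 6) (nat_lit 63) (nat_lit 4) (nat_lit 93) (nat_lit 151) (nat_lit 146))))) (PT.nd (nat_lit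 3978) (PT.nd (nat_lit 78) (PT.lf (nat_lit 5016) (nat_lit 6) (nat_lit 66) (nat_lit 4) (nat_lit 94) (nat_lit 151) (nat_lit 145)) (PT.nd (nat_lit 3822) (PT.lf (nat_lit 5320) (nat_lit 6) (nat_lit 70) (nat_lit 4) (nat_lit 95) (nat_lit 151) (nat_lit 144)) (PT.lf (nat_lit 5320) (nat_lit 6) (nat_lit 70) (nat_lit 2) (nat_lit 144) (nat_lit 151) (nat_lit 95)))) (PT.nd (nat_lit 156) (PT.nd (nat_lit 78) (PT.lf (nat_lit 5016) (nat_lit 6) (nat_lit 66) (nat_lit 2) (nat_lit 145) (nat_lit 151) (nat_lit 94)) (PT.lf (nat_lit 4788) (nat_lit 6) (nat_lit 63) (nat_lit 2) (nat_lit 146) (nat_lit 151) (nat_lit 93))) (PT.nd (nat_lit 78) (PT.lf (nat_lit 4560) (nat_lit 6) (nat_lit 60) (nat_lit 2) (nat_lit 147) (nat_lit 151) (nat_lit 92)) (PT.lf (nat_lit 4332) (nat_lit 6) (nat_lit 57) (nat_lit 2) (nat_lit 148) (nat_lit 151) (nat_lit 91))))))) (PT.nd (nat_lit 35958) (PT.nd (nat_lit 468) (PT.nd (nat_lit 234) (PT.nd (nat_lit 78)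 (PT.lf (nat_lit 4104) (nat_lit 6) (nat_lit 54) (nat_lit 2) (nat_lit 149) (nat_lit 151) (nat_lit 90)) (PT.nd (nat_lit 78) (PT.lf (nat_lit 3952) (nat_lit 6) (nat_lit 52) (nat_lit 2) (nat_lit 150) (nat_lit 151) (nat_lit 89)) (PT.lf (nat_lit 3724) (nat_lit 3) (nat_lit 49) (nat_lit 0) (nat_lit 151) (nat_lit 151) (nat_lit 88)))) (PT.nd (nat_lit 78) (PT.lf (nat_lit 3496) (nat_lit 6) (nat_lit 46) (nat_lit 0) (nat_lit 152) (nat_lit 151) (nat_lit 87)) (PT.nd (nat_lit 78) (PT.lf (nat_lit 3192) (nat_lit 6) (nat_lit 42) (nat_lit 0) (nat_lit 153) (nat_lit 151) (nat_lit 86)) (PT.lf (nat_lit 2964) (nat_lit 6) (nat_lit 39) (nat_lit 0) (nat_lit 154) (nat_lit 151) (nat_lit 85))))) (PT.nd (nat_lit 35178) (PT.nd (nat_lit 35022) (PT.lf (nat_lit 2736) (nat_lit 6) (nat_lit 36) (nat_lit 0) (nat_lit 155) (nat_lit 151) (nat_lit 84)) (PT.nd (nat_lit 78) (PT.lf (nat_lit 2584) (nat_lit 6) (nat_lit 34) (nat_lit 5) (nat_lit 83)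 (nat_lit 152) (nat_lit 155)) (PT.lf (nat_lit 2812) (nat_lit 6) (nat_lit 37) (nat_lit 5) (nat_lit 84) (nat_lit 152) (nat_lit 154)))) (PT.nd (nat_lit 156) (PT.nd (nat_lit 78) (PT.lf (nat_lit 3040) (nat_lit 6) (nat_lit 40) (nat_lit 5) (nat_lit 85) (nat_lit 152) (nat_lit 153)) (PT.lf (nat_lit 3268) (nat_lit 3) (nat_lit 43) (nat_lit 4) (nat_lit 86) (nat_lit 152) (nat_lit 152))) (PT.nd (nat_lit 78) (PT.lf (nat_lit 3496) (nat_lit 6) (nat_lit 46) (nat_lit 4) (nat_lit 87) (nat_lit 152) (nat_lit 151)) (PT.lf (nat_lit 3648) (nat_lit 6) (nat_lit 48) (nat_lit 4) (nat_lit 88) (nat_lit 152) (nat_lit 150)))))) (PT.nd (nat_lit 4680) (PT.nd (nat_lit 234) (PT.nd (nat_lit 78) (PT.lf (nat_lit 3876) (nat_lit 6) (nat_lit 51) (nat_lit 4) (nat_lit 89) (nat_lit 152) (nat_lit 149)) (PT.nd (nat_lit 78) (PT.lf (nat_lit 4028) (nat_lit 6) (nat_lit 53) (nat_lit 4) (nat_lit 90) (nat_lit 152) (nat_lit 148)) (PT.lf (nat_lit 4256)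 (nat_lit 6) (nat_lit 56) (nat_lit 4) (nat_lit 91) (nat_lit 152) (nat_lit 147)))) (PT.nd (nat_lit 4290) (PT.nd (nat_lit 4212) (PT.lf (nat_lit 4484) (nat_lit 6) (nat_lit 59) (nat_lit 4) (nat_lit 92) (nat_lit 152) (nat_lit 146)) (PT.lf (nat_lit 4484) (nat_lit 6) (nat_lit 59) (nat_lit 2) (nat_lit 146) (nat_lit 152) (nat_lit 92))) (PT.nd (nat_lit 78) (PT.lf (nat_lit 4256) (nat_lit 6) (nat_lit 56) (nat_lit 2) (nat_lit 147) (nat_lit 152) (nat_lit 91)) (PT.lf (nat_lit 4028) (nat_lit 6) (nat_lit 53) (nat_lit 2) (nat_lit 148) (nat_lit 152) (nat_lit 90))))) (PT.nd (nat_lit 234) (PT.nd (nat_lit 78) (PT.lf (nat_lit 3876) (nat_lit 6) (nat_lit 51) (nat_lit 2) (nat_lit 149) (nat_lit 152) (nat_lit 89)) (PT.nd (nat_lit 78) (PT.lf (nat_lit 3648) (nat_lit 6) (nat_lit 48) (nat_lit 2) (nat_lit 150) (nat_lit 152) (nat_lit 88)) (PT.lf (nat_lit 3496) (nat_lit 6) (nat_lit 46) (nat_lit 2) (nat_lit 151) (nat_lit 152) (nat_lit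 87)))) (PT.nd (nat_lit 156) (PT.nd (nat_lit 78) (PT.lf (nat_lit 3268) (nat_lit 3) (nat_lit 43) (nat_lit 0) (nat_lit 152) (nat_lit 152) (nat_lit 86)) (PT.lf (nat_lit 3040) (nat_lit 6) (nat_lit 40) (nat_lit 0) (nat_lit 153) (nat_lit 152) (nat_lit 85))) (PT.nd (nat_lit 78) (PT.lf (nat_lit 2812) (nat_lit 6) (nat_lit 37) (nat_lit 0) (nat_lit 154) (nat_lit 152) (nat_lit 84)) (PT.lf (nat_lit 2584) (nat_lit 6) (nat_lit 34) (nat_lit 0) (nat_lit 155) (nat_lit 152) (nat_lit 83))))))))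
noncomputable def pc30 : PT := (PT.nd (nat_lit 46020) (PT.nd (nat_lit 5538) (PT.nd (nat_lit 468) (PT.nd (nat_lit 234) (PT.nd (nat_lit 78) (PT.lf (nat_lit 2204) (nat_lit 6) (nat_lit 29) (nat_lit 5) (nat_lit 81) (nat_lit 153) (nat_lit 156)) (PT.nd (nat_lit 78) (PT.lf (nat_lit 2432) (nat_lit 6) (nat_lit 32) (nat_lit 5) (nat_lit 82) (nat_lit 153) (nat_lit 155)) (PT.lf (nat_lit 2660) (nat_lit 6) (nat_lit 35) (nat_lit 5) (nat_lit 83) (nat_lit 153) (nat_lit 154)))) (PT.nd (nat_lit 78) (PT.lf (nat_lit 2888) (nat_lit 3) (nat_lit 38) (nat_lit 4) (nat_lit 84) (nat_lit 153) (nat_lit 153)) (PT.nd (nat_lit 78) (PT.lf (nat_lit 3040) (nat_lit 6) (nat_lit 40) (nat_lit 4) (nat_lit 85) (nat_lit 153) (nat_lit 152)) (PT.lf (nat_lit 3192) (nat_lit 6) (nat_lit 42) (nat_lit 4) (nat_lit 86) (nat_lit 153) (nat_lit 151))))) (PT.nd (nat_lit 4758) (PT.nd (nat_lit 78) (PT.lf (nat_lit 3420) (nat_lit 6) (nat_lit 45) (nat_lit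 4) (nat_lit 87) (nat_lit 153) (nat_lit 150)) (PT.nd (nat_lit 78) (PT.lf (nat_lit 3572) (nat_lit 6) (nat_lit 47) (nat_lit 4) (nat_lit 88) (nat_lit 153) (nat_lit 149)) (PT.lf (nat_lit 3800) (nat_lit 6) (nat_lit 50) (nat_lit 4) (nat_lit 89) (nat_lit 153) (nat_lit 148)))) (PT.nd (nat_lit 156) (PT.nd (nat_lit 78) (PT.lf (nat_lit 3800) (nat_lit 6) (nat_lit 50) (nat_lit 2) (nat_lit 148) (nat_lit 153) (nat_lit 89)) (PT.lf (nat_lit 3572) (nat_lit 6) (nat_lit 47) (nat_lit 2) (nat_lit 149) (nat_lit 153) (nat_lit 88))) (PT.nd (nat_lit 78) (PT.lf (nat_lit 3420) (nat_lit 6) (nat_lit 45) (nat_lit 2) (nat_lit 150) (nat_lit 153) (nat_lit 87)) (PT.lf (nat_lit 3192) (nat_lit 6) (nat_lit 42) (nat_lit 2) (nat_lit 151) (nat_lit 153) (nat_lit 86)))))) (PT.nd (nat_lit 35022) (PT.nd (nat_lit 234) (PT.nd (nat_lit 78) (PT.lf (nat_lit 3040) (nat_lit 6) (nat_lit 40) (nat_lit 2) (nat_lit 152) (nat_lit 153) (nat_lit 85)) (PT.nd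 (nat_lit 78) (PT.lf (nat_lit 2888) (nat_lit 3) (nat_lit 38) (nat_lit 0) (nat_lit 153) (nat_lit 153) (nat_lit 84)) (PT.lf (nat_lit 2660) (nat_lit 6) (nat_lit 35) (nat_lit 0) (nat_lit 154) (nat_lit 153) (nat_lit 83)))) (PT.nd (nat_lit 78) (PT.lf (nat_lit 2432) (nat_lit 6) (nat_lit 32) (nat_lit 0) (nat_lit 155) (nat_lit 153) (nat_lit 82)) (PT.nd (nat_lit 34632) (PT.lf (nat_lit 2204) (nat_lit 6) (nat_lit 29) (nat_lit 0) (nat_lit 156) (nat_lit 153) (nat_lit 81)) (PT.lf (nat_lit 1900) (nat_lit 6) (nat_lit 25) (nat_lit 5) (nat_lit 79) (nat_lit 154) (nat_lit 157))))) (PT.nd (nat_lit 234) (PT.nd (nat_lit 78) (PT.lf (nat_lit 2052) (nat_lit 6) (nat_lit 27) (nat_lit 5) (nat_lit 80) (nat_lit 154) (nat_lit 156)) (PT.nd (nat_lit 78) (PT.lf (nat_lit 2280) (nat_lit 6) (nat_lit 30) (nat_lit 5) (nat_lit 81) (nat_lit 154) (nat_lit 155)) (PT.lf (nat_lit 2508) (nat_lit 3) (nat_lit 33) (nat_lit 4) (nat_lit 82) (nat_lit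 154) (nat_lit 154)))) (PT.nd (nat_lit 156) (PT.nd (nat_lit 78) (PT.lf (nat_lit 2660) (nat_lit 6) (nat_lit 35) (nat_lit 4) (nat_lit 83) (nat_lit 154) (nat_lit 153)) (PT.lf (nat_lit 2812) (nat_lit 6) (nat_lit 37) (nat_lit 4) (nat_lit 84) (nat_lit 154) (nat_lit 152))) (PT.nd (nat_lit 78) (PT.lf (nat_lit 2964) (nat_lit 6) (nat_lit 39) (nat_lit 4) (nat_lit 85) (nat_lit 154) (nat_lit 151)) (PT.lf (nat_lit 3116) (nat_lit 6) (nat_lit 41) (nat_lit 4) (nat_lit 86) (nat_lit 154) (nat_lit 150))))))) (PT.nd (nat_lit 35334) (PT.nd (nat_lit 468) (PT.nd (nat_lit 234) (PT.nd (nat_lit 78) (PT.lf (nat_lit 3116) (nat_lit 6) (nat_lit 41) (nat_lit 2) (nat_lit 150) (nat_lit 154) (nat_lit 86)) (PT.nd (nat_lit 78) (PT.lf (nat_lit 2964) (nat_lit 6) (nat_lit 39) (nat_lit 2) (nat_lit 151) (nat_lit 154) (nat_lit 85)) (PT.lf (nat_lit 2812) (nat_lit 6) (nat_lit 37) (nat_lit 2) (nat_lit 152) (nat_lit 154) (nat_lit 84)))) (PT.nd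 (nat_lit 78) (PT.lf (nat_lit 2660) (nat_lit 6) (nat_lit 35) (nat_lit 2) (nat_lit 153) (nat_lit 154) (nat_lit 83)) (PT.nd (nat_lit 78) (PT.lf (nat_lit 2508) (nat_lit 3) (nat_lit 33) (nat_lit 0) (nat_lit 154) (nat_lit 154) (nat_lit 82)) (PT.lf (nat_lit 2280) (nat_lit 6) (nat_lit 30) (nat_lit 0) (nat_lit 155) (nat_lit 154) (nat_lit 81))))) (PT.nd (nat_lit 34554) (PT.nd (nat_lit 78) (PT.lf (nat_lit 2052) (nat_lit 6) (nat_lit 27) (nat_lit 0) (nat_lit 156) (nat_lit 154) (nat_lit 80)) (PT.nd (nat_lit 34398) (PT.lf (nat_lit 1900) (nat_lit 6) (nat_lit 25) (nat_lit 0) (nat_lit 157) (nat_lit 154) (nat_lit 79)) (PT.lf (nat_lit 1596) (nat_lit 6) (nat_lit 21) (nat_lit 5) (nat_lit 77) (nat_lit 155) (nat_lit 158)))) (PT.nd (nat_lit 156) (PT.nd (nat_lit 78) (PT.lf (nat_lit 1748) (nat_lit 6) (nat_lit 23) (nat_lit 5) (nat_lit 78) (nat_lit 155) (nat_lit 157)) (PT.lf (nat_lit 1976) (nat_lit 6) (nat_lit 26) (nat_lit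 5) (nat_lit 79) (nat_lit 155) (nat_lit 156))) (PT.nd (nat_lit 78) (PT.lf (nat_lit 2128) (nat_lit 3) (nat_lit 28) (nat_lit 4) (nat_lit 80) (nat_lit 155) (nat_lit 155)) (PT.lf (nat_lit 2280) (nat_lit 6) (nat_lit 30) (nat_lit 4) (nat_lit 81) (nat_lit 155) (nat_lit 154)))))) (PT.nd (nat_lit 5694) (PT.nd (nat_lit 5382) (PT.nd (nat_lit 78) (PT.lf (nat_lit 2432) (nat_lit 6) (nat_lit 32) (nat_lit 4) (nat_lit 82) (nat_lit 155) (nat_lit 153)) (PT.nd (nat_lit 78) (PT.lf (nat_lit 2584) (nat_lit 6) (nat_lit 34) (nat_lit 4) (nat_lit 83) (nat_lit 155) (nat_lit 152)) (PT.lf (nat_lit 2736) (nat_lit 6) (nat_lit 36) (nat_lit 4) (nat_lit 84) (nat_lit 155) (nat_lit 151)))) (PT.nd (nat_lit 156) (PT.nd (nat_lit 78) (PT.lf (nat_lit 2736) (nat_lit 6) (nat_lit 36) (nat_lit 2) (nat_lit 151) (nat_lit 155) (nat_lit 84)) (PT.lf (nat_lit 2584) (nat_lit 6) (nat_lit 34) (nat_lit 2) (nat_lit 152) (nat_lit 155) (nat_lit 83))) (PT.nd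 (nat_lit 78) (PT.lf (nat_lit 2432) (nat_lit 6) (nat_lit 32) (nat_lit 2) (nat_lit 153) (nat_lit 155) (nat_lit 82)) (PT.lf (nat_lit 2280) (nat_lit 6) (nat_lit 30) (nat_lit 2) (nat_lit 154) (nat_lit 155) (nat_lit 81))))) (PT.nd (nat_lit 234) (PT.nd (nat_lit 78) (PT.lf (nat_lit 2128) (nat_lit 3) (nat_lit 28) (nat_lit 0) (nat_lit 155) (nat_lit 155) (nat_lit 80)) (PT.nd (nat_lit 78) (PT.lf (nat_lit 1976) (nat_lit 6) (nat_lit 26) (nat_lit 0) (nat_lit 156) (nat_lit 155) (nat_lit 79)) (PT.lf (nat_lit 1748) (nat_lit 6) (nat_lit 23) (nat_lit 0) (nat_lit 157) (nat_lit 155) (nat_lit 78)))) (PT.nd (nat_lit 34320) (PT.nd (nat_lit 34242) (PT.lf (nat_lit 1596) (nat_lit 6) (nat_lit 21) (nat_lit 0) (nat_lit 158) (nat_lit 155) (nat_lit 77)) (PT.lf (nat_lit 1444) (nat_lit 6) (nat_lit 19) (nat_lit 5) (nat_lit 76) (nat_lit 156) (nat_lit 158))) (PT.nd (nat_lit 78) (PT.lf (nat_lit 1672) (nat_lit 6) (nat_lit 22) (nat_lit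 5) (nat_lit 77) (nat_lit 156) (nat_lit 157)) (PT.lf (nat_lit 1824) (nat_lit 3) (nat_lit 24) (nat_lit 4) (nat_lit 78) (nat_lit 156) (nat_lit 156))))))))
noncomputable def pc31 : PT := (PT.nd (nat_lit 81120) (PT.nd (nat_lit 40560) (PT.nd (nat_lit 6006) (PT.nd (nat_lit 5772) (PT.nd (nat_lit 78) (PT.lf (nat_lit 1976) (nat_lit 6) (nat_lit 26) (nat_lit 4) (nat_lit 79) (nat_lit 156) (nat_lit 155)) (PT.nd (nat_lit 78) (PT.lf (nat_lit 2052) (nat_lit 6) (nat_lit 27) (nat_lit 4) (nat_lit 80) (nat_lit 156) (nat_lit 154)) (PT.lf (nat_lit 2204) (nat_lit 6) (nat_lit 29) (nat_lit 4) (nat_lit 81) (nat_lit 156) (nat_lit 153)))) (PT.nd (nat_lit 78) (PT.lf (nat_lit 2204) (nat_lit 6) (nat_lit 29) (nat_lit 2) (nat_lit 153) (nat_lit 156) (nat_lit 81)) (PT.nd (nat_lit 78) (PT.lf (nat_lit 2052) (nat_lit 6) (nat_lit 27) (nat_lit 2) (nat_lit 154) (nat_lit 156) (nat_lit 80)) (PT.lf (nat_lit 1976) (nat_lit 6) (nat_lit 26)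 (nat_lit 2) (nat_lit 155) (nat_lit 156) (nat_lit 79))))) (PT.nd (nat_lit 34242) (PT.nd (nat_lit 78) (PT.lf (nat_lit 1824) (nat_lit 3) (nat_lit 24) (nat_lit 0) (nat_lit 156) (nat_lit 156) (nat_lit 78)) (PT.nd (nat_lit 78) (PT.lf (nat_lit 1672) (nat_lit 6) (nat_lit 22) (nat_lit 0) (nat_lit 157) (nat_lit 156) (nat_lit 77)) (PT.lf (nat_lit 1444) (nat_lit 6) (nat_lit 19) (nat_lit 0) (nat_lit 158) (nat_lit 156) (nat_lit 76)))) (PT.nd (nat_lit 156) (PT.nd (nat_lit 78) (PT.lf (nat_lit 1140) (nat_lit 6) (nat_lit 15) (nat_lit 5) (nat_lit 74) (nat_lit 157) (nat_lit 159)) (PT.lf (nat_lit 1368) (nat_lit 6) (nat_lit 18) (nat_lit 5) (nat_lit 75) (nat_lit 157) (nat_lit 158))) (PT.nd (nat_lit 78) (PT.lf (nat_lit 1520) (nat_lit 3) (nat_lit 20) (nat_lit 4) (nat_lit 76) (nat_lit 157) (nat_lit 157)) (PT.lf (nat_lit 1672) (nat_lit 6) (nat_lit 22) (nat_lit 4) (nat_lit 77) (nat_lit 157) (nat_lit 156)))))) (PT.nd (nat_lit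 6240) (PT.nd (nat_lit 6006) (PT.nd (nat_lit 78) (PT.lf (nat_lit 1748) (nat_lit 6) (nat_lit 23) (nat_lit 4) (nat_lit 78) (nat_lit 157) (nat_lit 155)) (PT.nd (nat_lit 5850) (PT.lf (nat_lit 1900) (nat_lit 6) (nat_lit 25) (nat_lit 4) (nat_lit 79) (nat_lit 157) (nat_lit 154)) (PT.lf (nat_lit 1900) (nat_lit 6) (nat_lit 25) (nat_lit 2) (nat_lit 154) (nat_lit 157) (nat_lit 79)))) (PT.nd (nat_lit 78) (PT.lf (nat_lit 1748) (nat_lit 6) (nat_lit 23) (nat_lit 2) (nat_lit 155) (nat_lit 157) (nat_lit 78)) (PT.nd (nat_lit 78) (PT.lf (nat_lit 1672) (nat_lit 6) (nat_lit 22) (nat_lit 2) (nat_lit 156) (nat_lit 157) (nat_lit 77)) (PT.lf (nat_lit 1520) (nat_lit 3) (nat_lit 20) (nat_lit 0) (nat_lit 157) (nat_lit 157) (nat_lit 76))))) (PT.nd (nat_lit 34008) (PT.nd (nat_lit 78) (PT.lf (nat_lit 1368) (nat_lit 6) (nat_lit 18) (nat_lit 0) (nat_lit 158) (nat_lit 157) (nat_lit 75)) (PT.nd (nat_lit 33852) (PT.lf (nat_lit 1140)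 (nat_lit 6) (nat_lit 15) (nat_lit 0) (nat_lit 159) (nat_lit 157) (nat_lit 74)) (PT.lf (nat_lit 912) (nat_lit 6) (nat_lit 12) (nat_lit 5) (nat_lit 72) (nat_lit 158) (nat_lit 160)))) (PT.nd (nat_lit 156) (PT.nd (nat_lit 78) (PT.lf (nat_lit 1064) (nat_lit 6) (nat_lit 14) (nat_lit 5) (nat_lit 73) (nat_lit 158) (nat_lit 159)) (PT.lf (nat_lit 1216) (nat_lit 3) (nat_lit 16) (nat_lit 4) (nat_lit 74) (nat_lit 158) (nat_lit 158))) (PT.nd (nat_lit 78) (PT.lf (nat_lit 1368) (nat_lit 6) (nat_lit 18) (nat_lit 4) (nat_lit 75) (nat_lit 158) (nat_lit 157)) (PT.lf (nat_lit 1444) (nat_lit 6) (nat_lit 19) (nat_lit 4) (nat_lit 76) (nat_lit 158) (nat_lit 156))))))) (PT.nd (nat_lit 47034) (PT.nd (nat_lit 6474) (PT.nd (nat_lit 6240) (PT.nd (nat_lit 6084) (PT.lf (nat_lit 1596) (nat_lit 6) (nat_lit 21) (nat_lit 4) (nat_lit 77) (nat_lit 158) (nat_lit 155)) (PT.nd (nat_lit 78) (PT.lf (nat_lit 1596) (nat_lit 6) (nat_lit 21)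 (nat_lit 2) (nat_lit 155) (nat_lit 158) (nat_lit 77)) (PT.lf (nat_lit 1444) (nat_lit 6) (nat_lit 19) (nat_lit 2) (nat_lit 156) (nat_lit 158) (nat_lit 76)))) (PT.nd (nat_lit 78) (PT.lf (nat_lit 1368) (nat_lit 6) (nat_lit 18) (nat_lit 2) (nat_lit 157) (nat_lit 158) (nat_lit 75)) (PT.nd (nat_lit 78) (PT.lf (nat_lit 1216) (nat_lit 3) (nat_lit 16) (nat_lit 0) (nat_lit 158) (nat_lit 158) (nat_lit 74)) (PT.lf (nat_lit 1064) (nat_lit 6) (nat_lit 14) (nat_lit 0) (nat_lit 159) (nat_lit 158) (nat_lit 73))))) (PT.nd (nat_lit 33852) (PT.nd (nat_lit 33696) (PT.lf (nat_lit 912) (nat_lit 6) (nat_lit 12) (nat_lit 0) (nat_lit 160) (nat_lit 158) (nat_lit 72)) (PT.nd (nat_lit 78) (PT.lf (nat_lit 836) (nat_lit 6) (nat_lit 11) (nat_lit 5) (nat_lit 71) (nat_lit 159) (nat_lit 160)) (PT.lf (nat_lit 988) (nat_lit 3) (nat_lit 13) (nat_lit 4) (nat_lit 72) (nat_lit 159) (nat_lit 159)))) (PT.nd (nat_lit 6552) (PT.nd (nat_lit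 78) (PT.lf (nat_lit 1064) (nat_lit 6) (nat_lit 14) (nat_lit 4) (nat_lit 73) (nat_lit 159) (nat_lit 158)) (PT.lf (nat_lit 1140) (nat_lit 6) (nat_lit 15) (nat_lit 4) (nat_lit 74) (nat_lit 159) (nat_lit 157))) (PT.nd (nat_lit 78) (PT.lf (nat_lit 1140) (nat_lit 6) (nat_lit 15) (nat_lit 2) (nat_lit 157) (nat_lit 159) (nat_lit 74)) (PT.lf (nat_lit 1064) (nat_lit 6) (nat_lit 14) (nat_lit 2) (nat_lit 158) (nat_lit 159) (nat_lit 73)))))) (PT.nd (nat_lit 40716) (PT.nd (nat_lit 33774) (PT.nd (nat_lit 78) (PT.lf (nat_lit 988) (nat_lit 3) (nat_lit 13) (nat_lit 0) (nat_lit 159) (nat_lit 159) (nat_lit 72)) (PT.nd (nat_lit 33618) (PT.lf (nat_lit 836) (nat_lit 6) (nat_lit 11) (nat_lit 0) (nat_lit 160) (nat_lit 159) (nat_lit 71)) (PT.lf (nat_lit 760) (nat_lit 3) (nat_lit 10) (nat_lit 4) (nat_lit 70) (nat_lit 160) (nat_lit 160)))) (PT.nd (nat_lit 6786) (PT.nd (nat_lit 78) (PT.lf (nat_lit 836) (nat_lit 6) (nat_lit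 11) (nat_lit 4) (nat_lit 71) (nat_lit 160) (nat_lit 159)) (PT.lf (nat_lit 912) (nat_lit 6) (nat_lit 12) (nat_lit 4) (nat_lit 72) (nat_lit 160) (nat_lit 158))) (PT.nd (nat_lit 78) (PT.lf (nat_lit 912) (nat_lit 6) (nat_lit 12) (nat_lit 2) (nat_lit 158) (nat_lit 160) (nat_lit 72)) (PT.lf (nat_lit 836) (nat_lit 6) (nat_lit 11) (nat_lit 2) (nat_lit 159) (nat_lit 160) (nat_lit 71))))) (PT.nd (nat_lit 114426) (PT.nd (nat_lit 73866) (PT.lf (nat_lit 760) (nat_lit 3) (nat_lit 10) (nat_lit 0) (nat_lit 160) (nat_lit 160) (nat_lit 70)) (PT.nd (nat_lit 7644) (PT.lf (nat_lit 152) (nat_lit 6) (nat_lit 2) (nat_lit 5) (nat_lit 65) (nat_lit 162) (nat_lit 163)) (PT.lf (nat_lit 152) (nat_lit 6) (nat_lit 2) (nat_lit 0) (nat_lit 163) (nat_lit 162) (nat_lit 65)))) (PT.nd (nat_lit 7644) (PT.nd (nat_lit 78) (PT.lf (nat_lit 76) (nat_lit 3) (nat_lit 1) (nat_lit 4) (nat_lit 64) (nat_lit 163) (nat_lit 163)) (PT.lf (nat_lit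 152) (nat_lit 6) (nat_lit 2) (nat_lit 4) (nat_lit 65) (nat_lit 163) (nat_lit 162))) (PT.nd (nat_lit 78) (PT.lf (nat_lit 152) (nat_lit 6) (nat_lit 2) (nat_lit 2) (nat_lit 162) (nat_lit 163) (nat_lit 65)) (PT.lf (nat_lit 76) (nat_lit 3) (nat_lit 1) (nat_lit 0) (nat_lit 163) (nat_lit 163) (nat_lit 64))))))))
noncomputable def xc0 : XT := (XT.nd (nat_lit 162396) (nat_lit 0) (nat_lit 0) (XT.nd (nat_lit 121524) (nat_lit 0) (nat_lit 0) (XT.nd (nat_lit 80964) (nat_lit 0) (nat_lit 0) (XT.nd (nat_lit 40560) (nat_lit 0) (nat_lit 0) (XT.nd (nat_lit 40404) (nat_lit 0) (nat_lit 152) (XT.lf (nat_lit 0) (nat_lit 1305499030) (nat_lit 152) (nat_lit 27275180748) (nat_lit 0) (nat_lit 917241628) (nat_lit 4) (nat_lit 5) (nat_lit 6) (nat_lit 4) (nat_lit 4) (nat_lit 4) (nat_lit 365) (nat_lit 208) (nat_lit 207)) (XT.nd (nat_lit 78) (nat_lit 76) (nat_lit 0) (XT.lf (nat_lit 0) (nat_lit 6224667446) (nat_lit 152) (nat_lit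 1223331802) (nat_lit 0) (nat_lit 6224667446) (nat_lit 7) (nat_lit 5) (nat_lit 9) (nat_lit 4) (nat_lit 7) (nat_lit 4) (nat_lit 362) (nat_lit 209) (nat_lit 209)) (XT.lf (nat_lit 0) (nat_lit 8724080518) (nat_lit 76) (nat_lit 9862198421) (nat_lit 76) (nat_lit 9454295195) (nat_lit 6) (nat_lit 4) (nat_lit 7) (nat_lit 5) (nat_lit 7) (nat_lit 4) (nat_lit 363) (nat_lit 209) (nat_lit 208)))) (XT.nd (nat_lit 78) (nat_lit 152) (nat_lit 0) (XT.lf (nat_lit 0) (nat_lit 20045527537) (nat_lit 76) (nat_lit 4758581376) (nat_lit 76) (nat_lit 3954655599) (nat_lit 6) (nat_lit 4) (nat_lit 7) (nat_lit 5) (nat_lit 7) (nat_lit 4) (nat_lit 364) (nat_lit 209) (nat_lit 207)) (XT.nd (nat_lit 40248) (nat_lit 0) (nat_lit 228) (XT.lf (nat_lit 0) (nat_lit 1586259599) (nat_lit 152) (nat_lit 27492923173) (nat_lit 0) (nat_lit 421148139) (nat_lit 4) (nat_lit 5) (nat_lit 6) (nat_lit 4) (nat_lit 4) (nat_lit 4) (nat_lit 365) (nat_lit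 209) (nat_lit 206)) (XT.lf (nat_lit 0) (nat_lit 470804259) (nat_lit 152) (nat_lit 12067781878) (nat_lit 0) (nat_lit 470804259) (nat_lit 7) (nat_lit 5) (nat_lit 9) (nat_lit 4) (nat_lit 7) (nat_lit 4) (nat_lit 360) (nat_lit 210) (nat_lit 210))))) (XT.nd (nat_lit 234) (nat_lit 152) (nat_lit 0) (XT.nd (nat_lit 78) (nat_lit 76) (nat_lit 0) (XT.lf (nat_lit 0) (nat_lit 6847882902) (nat_lit 152) (nat_lit 13396012740) (nat_lit 0) (nat_lit 6427742578) (nat_lit 7) (nat_lit 5) (nat_lit 9) (nat_lit 4) (nat_lit 7) (nat_lit 4) (nat_lit 361) (nat_lit 210) (nat_lit 209)) (XT.nd (nat_lit 78) (nat_lit 76) (nat_lit 0) (XT.lf (nat_lit 0) (nat_lit 12809406963) (nat_lit 152) (nat_lit 2555778566) (nat_lit 0) (nat_lit 11981363413) (nat_lit 7) (nat_lit 5) (nat_lit 9) (nat_lit 4) (nat_lit 7) (nat_lit 4) (nat_lit 362) (nat_lit 210) (nat_lit 208)) (XT.lf (nat_lit 0) (nat_lit 8506170774) (nat_lit 76) (nat_lit 10380446729) (nat_lit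 76) (nat_lit 9156380629) (nat_lit 6) (nat_lit 4) (nat_lit 7) (nat_lit 5) (nat_lit 7) (nat_lit 4) (nat_lit 363) (nat_lit 210) (nat_lit 207)))) (XT.nd (nat_lit 40170) (nat_lit 0) (nat_lit 380) (XT.nd (nat_lit 78) (nat_lit 152) (nat_lit 0) (XT.lf (nat_lit 0) (nat_lit 19723399636) (nat_lit 76) (nat_lit 5323751097) (nat_lit 76) (nat_lit 3715197085) (nat_lit 6) (nat_lit 4) (nat_lit 7) (nat_lit 5) (nat_lit 7) (nat_lit 4) (nat_lit 364) (nat_lit 210) (nat_lit 206)) (XT.lf (nat_lit 0) (nat_lit 1575324279) (nat_lit 76) (nat_lit 185649743) (nat_lit 152) (nat_lit 27744153901) (nat_lit 4) (nat_lit 5) (nat_lit 5) (nat_lit 5) (nat_lit 6) (nat_lit 4) (nat_lit 365) (nat_lit 210) (nat_lit 205))) (XT.nd (nat_lit 78) (nat_lit 0) (nat_lit 0) (XT.lf (nat_lit 0) (nat_lit 2223149423) (nat_lit 76) (nat_lit 5081010818) (nat_lit 76) (nat_lit 5081010818) (nat_lit 9) (nat_lit 4) (nat_lit 10) (nat_lit 5) (nat_lit 10) (nat_lit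 4) (nat_lit 358) (nat_lit 211) (nat_lit 211)) (XT.lf (nat_lit 0) (nat_lit 16050366710) (nat_lit 76) (nat_lit 4887995212) (nat_lit 76) (nat_lit 4446595788) (nat_lit 9) (nat_lit 4) (nat_lit 10) (nat_lit 5) (nat_lit 10) (nat_lit 4) (nat_lit 359) (nat_lit 211) (nat_lit 210)))))) (XT.nd (nat_lit 40326) (nat_lit 0) (nat_lit 228) (XT.nd (nat_lit 234) (nat_lit 228) (nat_lit 0) (XT.nd (nat_lit 78) (nat_lit 0) (nat_lit 0) (XT.lf (nat_lit 0) (nat_lit 1312482751) (nat_lit 152) (nat_lit 24247952168) (nat_lit 0) (nat_lit 459597895) (nat_lit 7) (nat_lit 5) (nat_lit 9) (nat_lit 4) (nat_lit 7) (nat_lit 4) (nat_lit 360) (nat_lit 211) (nat_lit 209)) (XT.nd (nat_lit 78) (nat_lit 0) (nat_lit 0) (XT.lf (nat_lit 0) (nat_lit 7158688881) (nat_lit 152) (nat_lit 13617516113) (nat_lit 0) (nat_lit 5897900798) (nat_lit 7) (nat_lit 5) (nat_lit 9) (nat_lit 4) (nat_lit 7) (nat_lit 4) (nat_lit 361) (nat_lit 211) (nat_lit 208))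 (XT.lf (nat_lit 0) (nat_lit 13061894250) (nat_lit 152) (nat_lit 2883218796) (nat_lit 0) (nat_lit 11405083617) (nat_lit 7) (nat_lit 5) (nat_lit 9) (nat_lit 4) (nat_lit 7) (nat_lit 4) (nat_lit 362) (nat_lit 211) (nat_lit 207)))) (XT.nd (nat_lit 78) (nat_lit 152) (nat_lit 0) (XT.lf (nat_lit 0) (nat_lit 8070160879) (nat_lit 76) (nat_lit 11009492956) (nat_lit 76) (nat_lit 8968194411) (nat_lit 6) (nat_lit 4) (nat_lit 7) (nat_lit 5) (nat_lit 7) (nat_lit 4) (nat_lit 363) (nat_lit 211) (nat_lit 206)) (XT.nd (nat_lit 78) (nat_lit 152) (nat_lit 0) (XT.lf (nat_lit 0) (nat_lit 19186207065) (nat_lit 76) (nat_lit 5998352095) (nat_lit 76) (nat_lit 3583764314) (nat_lit 6) (nat_lit 4) (nat_lit 7) (nat_lit 5) (nat_lit 7) (nat_lit 4) (nat_lit 364) (nat_lit 211) (nat_lit 205)) (XT.lf (nat_lit 0) (nat_lit 923787056) (nat_lit 76) (nat_lit 908287978) (nat_lit 152) (nat_lit 27680195997) (nat_lit 4) (nat_lit 5) (nat_lit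 5) (nat_lit 5) (nat_lit 6) (nat_lit 4) (nat_lit 365) (nat_lit 211) (nat_lit 204))))) (XT.nd (nat_lit 234) (nat_lit 152) (nat_lit 0) (XT.nd (nat_lit 78) (nat_lit 76) (nat_lit 0) (XT.lf (nat_lit 0) (nat_lit 1382788591) (nat_lit 152) (nat_lit 9033457640) (nat_lit 0) (nat_lit 1382788591) (nat_lit 10) (nat_lit 5) (nat_lit 12) (nat_lit 4) (nat_lit 10) (nat_lit 4) (nat_lit 356) (nat_lit 212) (nat_lit 212)) (XT.nd (nat_lit 78) (nat_lit 76) (nat_lit 0) (XT.lf (nat_lit 0) (nat_lit 8840380563) (nat_lit 152) (nat_lit 6949076692) (nat_lit 0) (nat_lit 8385739157) (nat_lit 10) (nat_lit 5) (nat_lit 12) (nat_lit 4) (nat_lit 10) (nat_lit 4) (nat_lit 357) (nat_lit 212) (nat_lit 211)) (XT.lf (nat_lit 0) (nat_lit 4333841210) (nat_lit 76) (nat_lit 10666900745) (nat_lit 76) (nat_lit 9770859915) (nat_lit 9) (nat_lit 4) (nat_lit 10) (nat_lit 5) (nat_lit 10) (nat_lit 4) (nat_lit 358) (nat_lit 212) (nat_lit 210)))) (XT.nd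 (nat_lit 156) (nat_lit 0) (nat_lit 0) (XT.nd (nat_lit 78) (nat_lit 152) (nat_lit 0) (XT.lf (nat_lit 0) (nat_lit 15828726902) (nat_lit 76) (nat_lit 5441648789) (nat_lit 76) (nat_lit 4117064829) (nat_lit 9) (nat_lit 4) (nat_lit 10) (nat_lit 5) (nat_lit 10) (nat_lit 4) (nat_lit 359) (nat_lit 212) (nat_lit 209)) (XT.lf (nat_lit 0) (nat_lit 1437675351) (nat_lit 76) (nat_lit 135750689) (nat_lit 152) (nat_lit 24450346299) (nat_lit 7) (nat_lit 5) (nat_lit 8) (nat_lit 5) (nat_lit 9) (nat_lit 4) (nat_lit 360) (nat_lit 212) (nat_lit 208))) (XT.nd (nat_lit 78) (nat_lit 0) (nat_lit 0) (XT.lf (nat_lit 0) (nat_lit 7360432095) (nat_lit 152) (nat_lit 14060716407) (nat_lit 0) (nat_lit 5257894593) (nat_lit 7) (nat_lit 5) (nat_lit 9) (nat_lit 4) (nat_lit 7) (nat_lit 4) (nat_lit 361) (nat_lit 212) (nat_lit 207)) (XT.lf (nat_lit 0) (nat_lit 13207017374) (nat_lit 152) (nat_lit 3429270406) (nat_lit 0) (nat_lit 10719991959)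 (nat_lit 7) (nat_lit 5) (nat_lit 9) (nat_lit 4) (nat_lit 7) (nat_lit 4) (nat_lit 362) (nat_lit 212) (nat_lit 206))))))) (XT.nd (nat_lit 40716) (nat_lit 0) (nat_lit 76) (XT.nd (nat_lit 40170) (nat_lit 0) (nat_lit 152) (XT.nd (nat_lit 39936) (nat_lit 0) (nat_lit 456) (XT.nd (nat_lit 78) (nat_lit 152) (nat_lit 0) (XT.lf (nat_lit 0) (nat_lit 7415669853) (nat_lit 76) (nat_lit 11749886755) (nat_lit 76) (nat_lit 8889572105) (nat_lit 6) (nat_lit 4) (nat_lit 7) (nat_lit 5) (nat_lit 7) (nat_lit 4) (nat_lit 363) (nat_lit 212) (nat_lit 205)) (XT.nd (nat_lit 78) (nat_lit 152) (nat_lit 0) (XT.lf (nat_lit 0) (nat_lit 18433480431) (nat_lit 76) (nat_lit 6782973827) (nat_lit 76) (nat_lit 3560242443) (nat_lit 6) (nat_lit 4) (nat_lit 7) (nat_lit 5) (nat_lit 7) (nat_lit 4) (nat_lit 364) (nat_lit 212) (nat_lit 204)) (XT.lf (nat_lit 0) (nat_lit 55052892) (nat_lit 76) (nat_lit 1741801158) (nat_lit 152) (nat_lit 27724967840)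 (nat_lit 4) (nat_lit 5) (nat_lit 5) (nat_lit 5) (nat_lit 6) (nat_lit 4) (nat_lit 365) (nat_lit 212) (nat_lit 203)))) (XT.nd (nat_lit 78) (nat_lit 152) (nat_lit 0) (XT.lf (nat_lit 0) (nat_lit 2605534226) (nat_lit 152) (nat_lit 4321104259) (nat_lit 152) (nat_lit 4321104259) (nat_lit 12) (nat_lit 4) (nat_lit 14) (nat_lit 5) (nat_lit 14) (nat_lit 4) (nat_lit 354) (nat_lit 213) (nat_lit 213)) (XT.nd (nat_lit 78) (nat_lit 152) (nat_lit 0) (XT.lf (nat_lit 0) (nat_lit 17032532355) (nat_lit 152) (nat_lit 3241909257) (nat_lit 152) (nat_lit 2764262996) (nat_lit 12) (nat_lit 4) (nat_lit 14) (nat_lit 5) (nat_lit 14) (nat_lit 4) (nat_lit 355) (nat_lit 213) (nat_lit 212)) (XT.lf (nat_lit 0) (nat_lit 3170523353) (nat_lit 152) (nat_lit 18181227497) (nat_lit 0) (nat_lit 2247601298) (nat_lit 10) (nat_lit 5) (nat_lit 12) (nat_lit 4) (nat_lit 10) (nat_lit 4) (nat_lit 356) (nat_lit 213) (nat_lit 211))))) (XT.nd (nat_lit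 234) (nat_lit 228) (nat_lit 0) (XT.nd (nat_lit 78) (nat_lit 76) (nat_lit 0) (XT.lf (nat_lit 0) (nat_lit 9183836950) (nat_lit 152) (nat_lit 7174371642) (nat_lit 0) (nat_lit 7819515472) (nat_lit 10) (nat_lit 5) (nat_lit 12) (nat_lit 4) (nat_lit 10) (nat_lit 4) (nat_lit 357) (nat_lit 213) (nat_lit 210)) (XT.nd (nat_lit 78) (nat_lit 0) (nat_lit 0) (XT.lf (nat_lit 0) (nat_lit 3996370037) (nat_lit 76) (nat_lit 11285938399) (nat_lit 76) (nat_lit 9493073790) (nat_lit 9) (nat_lit 4) (nat_lit 10) (nat_lit 5) (nat_lit 10) (nat_lit 4) (nat_lit 358) (nat_lit 213) (nat_lit 209)) (XT.lf (nat_lit 0) (nat_lit 15385253622) (nat_lit 76) (nat_lit 6108040296) (nat_lit 76) (nat_lit 3899114396) (nat_lit 9) (nat_lit 4) (nat_lit 10) (nat_lit 5) (nat_lit 10) (nat_lit 4) (nat_lit 359) (nat_lit 213) (nat_lit 208)))) (XT.nd (nat_lit 156) (nat_lit 76) (nat_lit 0) (XT.nd (nat_lit 78) (nat_lit 0) (nat_lit 0) (XT.lf (nat_lit 0)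 (nat_lit 876772516) (nat_lit 76) (nat_lit 850772739) (nat_lit 152) (nat_lit 24302399805) (nat_lit 7) (nat_lit 5) (nat_lit 8) (nat_lit 5) (nat_lit 9) (nat_lit 4) (nat_lit 360) (nat_lit 213) (nat_lit 207)) (XT.lf (nat_lit 0) (nat_lit 7453288823) (nat_lit 152) (nat_lit 14726000882) (nat_lit 0) (nat_lit 4507164733) (nat_lit 7) (nat_lit 5) (nat_lit 9) (nat_lit 4) (nat_lit 7) (nat_lit 4) (nat_lit 361) (nat_lit 213) (nat_lit 206))) (XT.nd (nat_lit 78) (nat_lit 76) (nat_lit 0) (XT.lf (nat_lit 0) (nat_lit 13244903141) (nat_lit 152) (nat_lit 4194410529) (nat_lit 0) (nat_lit 9925489816) (nat_lit 7) (nat_lit 5) (nat_lit 9) (nat_lit 4) (nat_lit 7) (nat_lit 4) (nat_lit 362) (nat_lit 213) (nat_lit 205)) (XT.lf (nat_lit 0) (nat_lit 6542125812) (nat_lit 76) (nat_lit 12602275071) (nat_lit 76) (nat_lit 8920445013) (nat_lit 6) (nat_lit 4) (nat_lit 7) (nat_lit 5) (nat_lit 7) (nat_lit 4) (nat_lit 363) (nat_lit 213)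 (nat_lit 204)))))) (XT.nd (nat_lit 40092) (nat_lit 0) (nat_lit 76) (XT.nd (nat_lit 39780) (nat_lit 0) (nat_lit 380) (XT.nd (nat_lit 78) (nat_lit 76) (nat_lit 0) (XT.lf (nat_lit 0) (nat_lit 17464562013) (nat_lit 76) (nat_lit 7678301884) (nat_lit 76) (nat_lit 3644610919) (nat_lit 6) (nat_lit 4) (nat_lit 7) (nat_lit 5) (nat_lit 7) (nat_lit 4) (nat_lit 364) (nat_lit 213) (nat_lit 203)) (XT.nd (nat_lit 39624) (nat_lit 0) (nat_lit 684) (XT.lf (nat_lit 0) (nat_lit 1661978367) (nat_lit 152) (nat_lit 1018107193) (nat_lit 76) (nat_lit 26853569323) (nat_lit 5) (nat_lit 5) (nat_lit 7) (nat_lit 5) (nat_lit 6) (nat_lit 4) (nat_lit 365) (nat_lit 213) (nat_lit 202)) (XT.lf (nat_lit 0) (nat_lit 932033182) (nat_lit 152) (nat_lit 8865945116) (nat_lit 0) (nat_lit 932033182) (nat_lit 14) (nat_lit 5) (nat_lit 16) (nat_lit 4) (nat_lit 14) (nat_lit 4) (nat_lit 352) (nat_lit 214) (nat_lit 214)))) (XT.nd (nat_lit 156) (nat_lit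 152) (nat_lit 0) (XT.nd (nat_lit 78) (nat_lit 152) (nat_lit 0) (XT.lf (nat_lit 0) (nat_lit 8027711770) (nat_lit 152) (nat_lit 6406341147) (nat_lit 0) (nat_lit 7535736121) (nat_lit 14) (nat_lit 5) (nat_lit 16) (nat_lit 4) (nat_lit 14) (nat_lit 4) (nat_lit 353) (nat_lit 214) (nat_lit 213)) (XT.lf (nat_lit 0) (nat_lit 5096704415) (nat_lit 152) (nat_lit 9184846813) (nat_lit 152) (nat_lit 8215224902) (nat_lit 12) (nat_lit 4) (nat_lit 14) (nat_lit 5) (nat_lit 14) (nat_lit 4) (nat_lit 354) (nat_lit 214) (nat_lit 212))) (XT.nd (nat_lit 78) (nat_lit 152) (nat_lit 0) (XT.lf (nat_lit 0) (nat_lit 16807135271) (nat_lit 152) (nat_lit 3833734587) (nat_lit 152) (nat_lit 2400378442) (nat_lit 12) (nat_lit 4) (nat_lit 14) (nat_lit 5) (nat_lit 14) (nat_lit 4) (nat_lit 355) (nat_lit 214) (nat_lit 211)) (XT.lf (nat_lit 0) (nat_lit 3462793648) (nat_lit 152) (nat_lit 18524264030) (nat_lit 0) (nat_lit 1616143101) (nat_lit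 10) (nat_lit 5) (nat_lit 12) (nat_lit 4) (nat_lit 10) (nat_lit 4) (nat_lit 356) (nat_lit 214) (nat_lit 210))))) (XT.nd (nat_lit 234) (nat_lit 228) (nat_lit 0) (XT.nd (nat_lit 78) (nat_lit 76) (nat_lit 0) (XT.lf (nat_lit 0) (nat_lit 9416408425) (nat_lit 152) (nat_lit 7625158403) (nat_lit 0) (nat_lit 7141214749) (nat_lit 10) (nat_lit 5) (nat_lit 12) (nat_lit 4) (nat_lit 10) (nat_lit 4) (nat_lit 357) (nat_lit 214) (nat_lit 209)) (XT.nd (nat_lit 78) (nat_lit 0) (nat_lit 0) (XT.lf (nat_lit 0) (nat_lit 3433590451) (nat_lit 76) (nat_lit 12019675503) (nat_lit 76) (nat_lit 9328420536) (nat_lit 9) (nat_lit 4) (nat_lit 10) (nat_lit 5) (nat_lit 10) (nat_lit 4) (nat_lit 358) (nat_lit 214) (nat_lit 208)) (XT.lf (nat_lit 0) (nat_lit 14719559367) (nat_lit 76) (nat_lit 6887752015) (nat_lit 76) (nat_lit 3792554046) (nat_lit 9) (nat_lit 4) (nat_lit 10) (nat_lit 5) (nat_lit 10) (nat_lit 4) (nat_lit 359) (nat_lit 214)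 (nat_lit 207)))) (XT.nd (nat_lit 156) (nat_lit 76) (nat_lit 0) (XT.nd (nat_lit 78) (nat_lit 0) (nat_lit 0) (XT.lf (nat_lit 0) (nat_lit 91966176) (nat_lit 76) (nat_lit 1679985217) (nat_lit 152) (nat_lit 24266665451) (nat_lit 7) (nat_lit 5) (nat_lit 8) (nat_lit 5) (nat_lit 9) (nat_lit 4) (nat_lit 360) (nat_lit 214) (nat_lit 206)) (XT.lf (nat_lit 0) (nat_lit 7437340203) (nat_lit 152) (nat_lit 15613950857) (nat_lit 0) (nat_lit 3645055242) (nat_lit 7) (nat_lit 5) (nat_lit 9) (nat_lit 4) (nat_lit 7) (nat_lit 4) (nat_lit 361) (nat_lit 214) (nat_lit 205))) (XT.nd (nat_lit 78) (nat_lit 76) (nat_lit 0) (XT.lf (nat_lit 0) (nat_lit 13175584656) (nat_lit 152) (nat_lit 5179307734) (nat_lit 0) (nat_lit 9020882962) (nat_lit 7) (nat_lit 5) (nat_lit 9) (nat_lit 4) (nat_lit 7) (nat_lit 4) (nat_lit 362) (nat_lit 214) (nat_lit 204)) (XT.lf (nat_lit 0) (nat_lit 5448765465) (nat_lit 76) (nat_lit 13567402710) (nat_lit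 76) (nat_lit 9060840110) (nat_lit 6) (nat_lit 4) (nat_lit 7) (nat_lit 5) (nat_lit 7) (nat_lit 4) (nat_lit 363) (nat_lit 214) (nat_lit 203))))))))
noncomputable def xc1 : XT := (XT.nd (nat_lit 80652) (nat_lit 0) (nat_lit 0) (XT.nd (nat_lit 40404) (nat_lit 0) (nat_lit 0) (XT.nd (nat_lit 39858) (nat_lit 0) (nat_lit 228) (XT.nd (nat_lit 39624) (nat_lit 0) (nat_lit 684) (XT.nd (nat_lit 78) (nat_lit 76) (nat_lit 0) (XT.lf (nat_lit 0) (nat_lit 16278605183) (nat_lit 76) (nat_lit 8685118592) (nat_lit 76) (nat_lit 3836943461) (nat_lit 6) (nat_lit 4) (nat_lit 7) (nat_lit 5) (nat_lit 7) (nat_lit 4) (nat_lit 364) (nat_lit 214) (nat_lit 202)) (XT.nd (nat_lit 39468) (nat_lit 0) (nat_lit 836) (XT.lf (nat_lit 0) (nat_lit 1422404927) (nat_lit 152) (nat_lit 2306579829) (nat_lit 76) (nat_lit 25818894100) (nat_lit 5) (nat_lit 5) (nat_lit 7) (nat_lit 5) (nat_lit 6) (nat_lit 4) (nat_lit 365) (nat_lit 214) (nat_lit 201))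 (XT.lf (nat_lit 0) (nat_lit 567164358) (nat_lit 152) (nat_lit 4837903662) (nat_lit 152) (nat_lit 4837903662) (nat_lit 16) (nat_lit 4) (nat_lit 18) (nat_lit 5) (nat_lit 18) (nat_lit 4) (nat_lit 350) (nat_lit 215) (nat_lit 215)))) (XT.nd (nat_lit 78) (nat_lit 152) (nat_lit 0) (XT.lf (nat_lit 0) (nat_lit 13029182826) (nat_lit 152) (nat_lit 4226649665) (nat_lit 152) (nat_lit 3709780048) (nat_lit 16) (nat_lit 4) (nat_lit 18) (nat_lit 5) (nat_lit 18) (nat_lit 4) (nat_lit 351) (nat_lit 215) (nat_lit 214)) (XT.nd (nat_lit 78) (nat_lit 0) (nat_lit 0) (XT.lf (nat_lit 0) (nat_lit 2305953652) (nat_lit 152) (nat_lit 17848140289) (nat_lit 0) (nat_lit 1307243084) (nat_lit 14) (nat_lit 5) (nat_lit 16) (nat_lit 4) (nat_lit 14) (nat_lit 4) (nat_lit 352) (nat_lit 215) (nat_lit 213)) (XT.lf (nat_lit 0) (nat_lit 8406640194) (nat_lit 152) (nat_lit 6635455336) (nat_lit 0) (nat_lit 6930283364) (nat_lit 14) (nat_lit 5)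 (nat_lit 16) (nat_lit 4) (nat_lit 14) (nat_lit 4) (nat_lit 353) (nat_lit 215) (nat_lit 212))))) (XT.nd (nat_lit 234) (nat_lit 152) (nat_lit 0) (XT.nd (nat_lit 78) (nat_lit 152) (nat_lit 0) (XT.lf (nat_lit 0) (nat_lit 4753512373) (nat_lit 152) (nat_lit 9843613937) (nat_lit 152) (nat_lit 7903522873) (nat_lit 12) (nat_lit 4) (nat_lit 14) (nat_lit 5) (nat_lit 14) (nat_lit 4) (nat_lit 354) (nat_lit 215) (nat_lit 211)) (XT.nd (nat_lit 78) (nat_lit 152) (nat_lit 0) (XT.lf (nat_lit 0) (nat_lit 16356144154) (nat_lit 152) (nat_lit 4540256114) (nat_lit 152) (nat_lit 2149937638) (nat_lit 12) (nat_lit 4) (nat_lit 14) (nat_lit 5) (nat_lit 14) (nat_lit 4) (nat_lit 355) (nat_lit 215) (nat_lit 210)) (XT.lf (nat_lit 0) (nat_lit 3642643447) (nat_lit 152) (nat_lit 19096324621) (nat_lit 0) (nat_lit 870650831) (nat_lit 10) (nat_lit 5) (nat_lit 12) (nat_lit 4) (nat_lit 10) (nat_lit 4) (nat_lit 356) (nat_lit 215) (nat_lit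 209)))) (XT.nd (nat_lit 156) (nat_lit 76) (nat_lit 0) (XT.nd (nat_lit 78) (nat_lit 76) (nat_lit 0) (XT.lf (nat_lit 0) (nat_lit 9538298206) (nat_lit 152) (nat_lit 8301830864) (nat_lit 0) (nat_lit 6350244298) (nat_lit 10) (nat_lit 5) (nat_lit 12) (nat_lit 4) (nat_lit 10) (nat_lit 4) (nat_lit 357) (nat_lit 215) (nat_lit 208)) (XT.lf (nat_lit 0) (nat_lit 2645010700) (nat_lit 76) (nat_lit 12868753188) (nat_lit 76) (nat_lit 9276756280) (nat_lit 9) (nat_lit 4) (nat_lit 10) (nat_lit 5) (nat_lit 10) (nat_lit 4) (nat_lit 358) (nat_lit 215) (nat_lit 207))) (XT.nd (nat_lit 78) (nat_lit 76) (nat_lit 0) (XT.lf (nat_lit 0) (nat_lit 13831062463) (nat_lit 76) (nat_lit 7781465248) (nat_lit 76) (nat_lit 3797290669) (nat_lit 9) (nat_lit 4) (nat_lit 10) (nat_lit 5) (nat_lit 10) (nat_lit 4) (nat_lit 359) (nat_lit 215) (nat_lit 206)) (XT.lf (nat_lit 0) (nat_lit 1712639816) (nat_lit 152) (nat_lit 905397170) (nat_lit 76)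 (nat_lit 23431639150) (nat_lit 8) (nat_lit 5) (nat_lit 10) (nat_lit 5) (nat_lit 9) (nat_lit 4) (nat_lit 360) (nat_lit 215) (nat_lit 205)))))) (XT.nd (nat_lit 39702) (nat_lit 0) (nat_lit 532) (XT.nd (nat_lit 234) (nat_lit 76) (nat_lit 0) (XT.nd (nat_lit 78) (nat_lit 76) (nat_lit 0) (XT.lf (nat_lit 0) (nat_lit 7312572298) (nat_lit 152) (nat_lit 16725342208) (nat_lit 0) (nat_lit 2670812820) (nat_lit 7) (nat_lit 5) (nat_lit 9) (nat_lit 4) (nat_lit 7) (nat_lit 4) (nat_lit 361) (nat_lit 215) (nat_lit 204)) (XT.nd (nat_lit 78) (nat_lit 76) (nat_lit 0) (XT.lf (nat_lit 0) (nat_lit 12999001349) (nat_lit 152) (nat_lit 6384822611) (nat_lit 0) (nat_lit 8005380965) (nat_lit 7) (nat_lit 5) (nat_lit 9) (nat_lit 4) (nat_lit 7) (nat_lit 4) (nat_lit 362) (nat_lit 215) (nat_lit 203)) (XT.lf (nat_lit 0) (nat_lit 4134633447) (nat_lit 76) (nat_lit 14646112988) (nat_lit 76) (nat_lit 9310880073) (nat_lit 6) (nat_lit 4)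 (nat_lit 7) (nat_lit 5) (nat_lit 7) (nat_lit 4) (nat_lit 363) (nat_lit 215) (nat_lit 202)))) (XT.nd (nat_lit 78) (nat_lit 76) (nat_lit 0) (XT.lf (nat_lit 0) (nat_lit 14874573668) (nat_lit 76) (nat_lit 9804303693) (nat_lit 76) (nat_lit 4137408127) (nat_lit 6) (nat_lit 4) (nat_lit 7) (nat_lit 5) (nat_lit 7) (nat_lit 4) (nat_lit 364) (nat_lit 215) (nat_lit 201)) (XT.nd (nat_lit 39312) (nat_lit 0) (nat_lit 1140) (XT.lf (nat_lit 0) (nat_lit 1077566953) (nat_lit 152) (nat_lit 3812212893) (nat_lit 76) (nat_lit 24674733537) (nat_lit 5) (nat_lit 5) (nat_lit 7) (nat_lit 5) (nat_lit 6) (nat_lit 4) (nat_lit 365) (nat_lit 215) (nat_lit 200)) (XT.lf (nat_lit 0) (nat_lit 8627554746) (nat_lit 152) (nat_lit 578993049) (nat_lit 152) (nat_lit 578993049) (nat_lit 20) (nat_lit 4) (nat_lit 22) (nat_lit 5) (nat_lit 22) (nat_lit 4) (nat_lit 348) (nat_lit 216) (nat_lit 216))))) (XT.nd (nat_lit 234) (nat_lit 304) (nat_lit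 0) (XT.nd (nat_lit 78) (nat_lit 152) (nat_lit 0) (XT.lf (nat_lit 0) (nat_lit 5025091025) (nat_lit 152) (nat_lit 10503663482) (nat_lit 0) (nat_lit 4492715319) (nat_lit 18) (nat_lit 5) (nat_lit 20) (nat_lit 4) (nat_lit 18) (nat_lit 4) (nat_lit 349) (nat_lit 216) (nat_lit 215)) (XT.nd (nat_lit 78) (nat_lit 0) (nat_lit 0) (XT.lf (nat_lit 0) (nat_lit 1018046125) (nat_lit 152) (nat_lit 10259232600) (nat_lit 152) (nat_lit 9209987277) (nat_lit 16) (nat_lit 4) (nat_lit 18) (nat_lit 5) (nat_lit 18) (nat_lit 4) (nat_lit 350) (nat_lit 216) (nat_lit 214)) (XT.lf (nat_lit 0) (nat_lit 12800004517) (nat_lit 152) (nat_lit 4859637631) (nat_lit 152) (nat_lit 3308577145) (nat_lit 16) (nat_lit 4) (nat_lit 18) (nat_lit 5) (nat_lit 18) (nat_lit 4) (nat_lit 351) (nat_lit 216) (nat_lit 213)))) (XT.nd (nat_lit 156) (nat_lit 152) (nat_lit 0) (XT.nd (nat_lit 78) (nat_lit 0) (nat_lit 0) (XT.lf (nat_lit 0) (nat_lit 2633291063)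 (nat_lit 152) (nat_lit 18196992037) (nat_lit 0) (nat_lit 634997267) (nat_lit 14) (nat_lit 5) (nat_lit 16) (nat_lit 4) (nat_lit 14) (nat_lit 4) (nat_lit 352) (nat_lit 216) (nat_lit 212)) (XT.lf (nat_lit 0) (nat_lit 8672852493) (nat_lit 152) (nat_lit 7093883912) (nat_lit 0) (nat_lit 6210824463) (nat_lit 14) (nat_lit 5) (nat_lit 16) (nat_lit 4) (nat_lit 14) (nat_lit 4) (nat_lit 353) (nat_lit 216) (nat_lit 211))) (XT.nd (nat_lit 78) (nat_lit 0) (nat_lit 0) (XT.lf (nat_lit 0) (nat_lit 4181192448) (nat_lit 152) (nat_lit 10619085513) (nat_lit 152) (nat_lit 7706830070) (nat_lit 12) (nat_lit 4) (nat_lit 14) (nat_lit 5) (nat_lit 14) (nat_lit 4) (nat_lit 354) (nat_lit 216) (nat_lit 210)) (XT.lf (nat_lit 0) (nat_lit 15679164934) (nat_lit 152) (nat_lit 5362091188) (nat_lit 152) (nat_lit 2012721752) (nat_lit 12) (nat_lit 4) (nat_lit 14) (nat_lit 5) (nat_lit 14) (nat_lit 4) (nat_lit 355) (nat_lit 216) (nat_lit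 209))))))) (XT.nd (nat_lit 40092) (nat_lit 0) (nat_lit 152) (XT.nd (nat_lit 468) (nat_lit 152) (nat_lit 0) (XT.nd (nat_lit 234) (nat_lit 152) (nat_lit 0) (XT.nd (nat_lit 78) (nat_lit 76) (nat_lit 0) (XT.lf (nat_lit 0) (nat_lit 3710229903) (nat_lit 152) (nat_lit 19897909127) (nat_lit 0) (nat_lit 10473087) (nat_lit 10) (nat_lit 5) (nat_lit 12) (nat_lit 4) (nat_lit 10) (nat_lit 4) (nat_lit 356) (nat_lit 216) (nat_lit 208)) (XT.nd (nat_lit 78) (nat_lit 76) (nat_lit 0) (XT.lf (nat_lit 0) (nat_lit 9549612798) (nat_lit 152) (nat_lit 9204980294) (nat_lit 0) (nat_lit 5445912981) (nat_lit 10) (nat_lit 5) (nat_lit 12) (nat_lit 4) (nat_lit 10) (nat_lit 4) (nat_lit 357) (nat_lit 216) (nat_lit 207)) (XT.lf (nat_lit 0) (nat_lit 1629941736) (nat_lit 76) (nat_lit 13833913367) (nat_lit 76) (nat_lit 9338035879) (nat_lit 9) (nat_lit 4) (nat_lit 10) (nat_lit 5) (nat_lit 10) (nat_lit 4) (nat_lit 358) (nat_lit 216) (nat_lit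 206)))) (XT.nd (nat_lit 78) (nat_lit 152) (nat_lit 0) (XT.lf (nat_lit 0) (nat_lit 12718986555) (nat_lit 76) (nat_lit 8789960910) (nat_lit 76) (nat_lit 3913328402) (nat_lit 9) (nat_lit 4) (nat_lit 10) (nat_lit 5) (nat_lit 10) (nat_lit 4) (nat_lit 359) (nat_lit 216) (nat_lit 205)) (XT.nd (nat_lit 78) (nat_lit 76) (nat_lit 0) (XT.lf (nat_lit 0) (nat_lit 1545657946) (nat_lit 152) (nat_lit 2124068523) (nat_lit 76) (nat_lit 22393484147) (nat_lit 8) (nat_lit 5) (nat_lit 10) (nat_lit 5) (nat_lit 9) (nat_lit 4) (nat_lit 360) (nat_lit 216) (nat_lit 204)) (XT.lf (nat_lit 0) (nat_lit 7078876089) (nat_lit 152) (nat_lit 18061146056) (nat_lit 0) (nat_lit 1583586187) (nat_lit 7) (nat_lit 5) (nat_lit 9) (nat_lit 4) (nat_lit 7) (nat_lit 4) (nat_lit 361) (nat_lit 216) (nat_lit 203))))) (XT.nd (nat_lit 234) (nat_lit 76) (nat_lit 0) (XT.nd (nat_lit 78) (nat_lit 76) (nat_lit 0) (XT.lf (nat_lit 0) (nat_lit 12714998924)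 (nat_lit 152) (nat_lit 7812008522) (nat_lit 0) (nat_lit 6878096491) (nat_lit 7) (nat_lit 5) (nat_lit 9) (nat_lit 4) (nat_lit 7) (nat_lit 4) (nat_lit 362) (nat_lit 216) (nat_lit 202)) (XT.nd (nat_lit 78) (nat_lit 0) (nat_lit 0) (XT.lf (nat_lit 0) (nat_lit 2598581489) (nat_lit 76) (nat_lit 15839348466) (nat_lit 76) (nat_lit 9670783382) (nat_lit 6) (nat_lit 4) (nat_lit 7) (nat_lit 5) (nat_lit 7) (nat_lit 4) (nat_lit 363) (nat_lit 216) (nat_lit 201)) (XT.lf (nat_lit 0) (nat_lit 13251240644) (nat_lit 76) (nat_lit 11036835117) (nat_lit 76) (nat_lit 4546267459) (nat_lit 6) (nat_lit 4) (nat_lit 7) (nat_lit 5) (nat_lit 7) (nat_lit 4) (nat_lit 364) (nat_lit 216) (nat_lit 200)))) (XT.nd (nat_lit 39234) (nat_lit 0) (nat_lit 1140) (XT.nd (nat_lit 39156) (nat_lit 0) (nat_lit 1292) (XT.lf (nat_lit 0) (nat_lit 627163132) (nat_lit 152) (nat_lit 5536321989) (nat_lit 76) (nat_lit 23420087883) (nat_lit 5) (nat_lit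 5) (nat_lit 7) (nat_lit 5) (nat_lit 6) (nat_lit 4) (nat_lit 365) (nat_lit 216) (nat_lit 199)) (XT.lf (nat_lit 0) (nat_lit 3025534745) (nat_lit 152) (nat_lit 3303976437) (nat_lit 0) (nat_lit 3025534745) (nat_lit 22) (nat_lit 5) (nat_lit 24) (nat_lit 4) (nat_lit 22) (nat_lit 4) (nat_lit 346) (nat_lit 217) (nat_lit 217))) (XT.nd (nat_lit 78) (nat_lit 0) (nat_lit 0) (XT.lf (nat_lit 0) (nat_lit 5160925506) (nat_lit 152) (nat_lit 7266193232) (nat_lit 152) (nat_lit 6706879316) (nat_lit 20) (nat_lit 4) (nat_lit 22) (nat_lit 5) (nat_lit 22) (nat_lit 4) (nat_lit 347) (nat_lit 217) (nat_lit 216)) (XT.lf (nat_lit 0) (nat_lit 17140341097) (nat_lit 152) (nat_lit 1767197023) (nat_lit 152) (nat_lit 664859886) (nat_lit 20) (nat_lit 4) (nat_lit 22) (nat_lit 5) (nat_lit 22) (nat_lit 4) (nat_lit 348) (nat_lit 217) (nat_lit 215)))))) (XT.nd (nat_lit 546) (nat_lit 380) (nat_lit 0) (XT.nd (nat_lit 234) (nat_lit 304)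 (nat_lit 0) (XT.nd (nat_lit 78) (nat_lit 152) (nat_lit 0) (XT.lf (nat_lit 0) (nat_lit 5442547588) (nat_lit 152) (nat_lit 10736621255) (nat_lit 0) (nat_lit 3844955288) (nat_lit 18) (nat_lit 5) (nat_lit 20) (nat_lit 4) (nat_lit 18) (nat_lit 4) (nat_lit 349) (nat_lit 217) (nat_lit 214)) (XT.nd (nat_lit 78) (nat_lit 0) (nat_lit 0) (XT.lf (nat_lit 0) (nat_lit 669096747) (nat_lit 152) (nat_lit 10960772894) (nat_lit 152) (nat_lit 8861365432) (nat_lit 16) (nat_lit 4) (nat_lit 18) (nat_lit 5) (nat_lit 18) (nat_lit 4) (nat_lit 350) (nat_lit 217) (nat_lit 213)) (XT.lf (nat_lit 0) (nat_lit 12341447644) (nat_lit 152) (nat_lit 5609297041) (nat_lit 152) (nat_lit 3022690392) (nat_lit 16) (nat_lit 4) (nat_lit 18) (nat_lit 5) (nat_lit 18) (nat_lit 4) (nat_lit 351) (nat_lit 217) (nat_lit 212)))) (XT.nd (nat_lit 156) (nat_lit 152) (nat_lit 0) (XT.nd (nat_lit 78) (nat_lit 0) (nat_lit 0) (XT.lf (nat_lit 0) (nat_lit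 2692077691) (nat_lit 76) (nat_lit 155295209) (nat_lit 152) (nat_lit 18624463368) (nat_lit 14) (nat_lit 5) (nat_lit 15) (nat_lit 5) (nat_lit 16) (nat_lit 4) (nat_lit 352) (nat_lit 217) (nat_lit 211)) (XT.lf (nat_lit 0) (nat_lit 8826581282) (nat_lit 152) (nat_lit 7782027444) (nat_lit 0) (nat_lit 5376730764) (nat_lit 14) (nat_lit 5) (nat_lit 16) (nat_lit 4) (nat_lit 14) (nat_lit 4) (nat_lit 353) (nat_lit 217) (nat_lit 210))) (XT.nd (nat_lit 78) (nat_lit 0) (nat_lit 0) (XT.lf (nat_lit 0) (nat_lit 3379244556) (nat_lit 152) (nat_lit 11511939136) (nat_lit 152) (nat_lit 7624974625) (nat_lit 12) (nat_lit 4) (nat_lit 14) (nat_lit 5) (nat_lit 14) (nat_lit 4) (nat_lit 354) (nat_lit 217) (nat_lit 209)) (XT.lf (nat_lit 0) (nat_lit 14775606076) (nat_lit 152) (nat_lit 6299957915) (nat_lit 152) (nat_lit 1988610888) (nat_lit 12) (nat_lit 4) (nat_lit 14) (nat_lit 5) (nat_lit 14) (nat_lit 4) (nat_lit 355) (nat_lit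 217) (nat_lit 208))))) (XT.nd (nat_lit 234) (nat_lit 152) (nat_lit 0) (XT.nd (nat_lit 78) (nat_lit 76) (nat_lit 0) (XT.lf (nat_lit 0) (nat_lit 2693993719) (nat_lit 76) (nat_lit 977967967) (nat_lit 152) (nat_lit 19958099613) (nat_lit 10) (nat_lit 5) (nat_lit 11) (nat_lit 5) (nat_lit 12) (nat_lit 4) (nat_lit 356) (nat_lit 217) (nat_lit 207)) (XT.nd (nat_lit 78) (nat_lit 76) (nat_lit 0) (XT.lf (nat_lit 0) (nat_lit 9450362089) (nat_lit 152) (nat_lit 10335395852) (nat_lit 0) (nat_lit 4427430605) (nat_lit 10) (nat_lit 5) (nat_lit 12) (nat_lit 4) (nat_lit 10) (nat_lit 4) (nat_lit 357) (nat_lit 217) (nat_lit 206)) (XT.lf (nat_lit 0) (nat_lit 387496606) (nat_lit 76) (nat_lit 14915999382) (nat_lit 76) (nat_lit 9512312879) (nat_lit 9) (nat_lit 4) (nat_lit 10) (nat_lit 5) (nat_lit 10) (nat_lit 4) (nat_lit 358) (nat_lit 217) (nat_lit 205)))) (XT.nd (nat_lit 156) (nat_lit 76) (nat_lit 0) (XT.nd (nat_lit 78)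 (nat_lit 76) (nat_lit 0) (XT.lf (nat_lit 0) (nat_lit 11382359924) (nat_lit 76) (nat_lit 9914120211) (nat_lit 76) (nat_lit 4140768639) (nat_lit 9) (nat_lit 4) (nat_lit 10) (nat_lit 5) (nat_lit 10) (nat_lit 4) (nat_lit 359) (nat_lit 217) (nat_lit 204)) (XT.lf (nat_lit 0) (nat_lit 1270262773) (nat_lit 152) (nat_lit 3566318893) (nat_lit 76) (nat_lit 21242662387) (nat_lit 8) (nat_lit 5) (nat_lit 10) (nat_lit 5) (nat_lit 9) (nat_lit 4) (nat_lit 360) (nat_lit 217) (nat_lit 203))) (XT.nd (nat_lit 78) (nat_lit 0) (nat_lit 0) (XT.lf (nat_lit 0) (nat_lit 6736047375) (nat_lit 152) (nat_lit 19622529608) (nat_lit 0) (nat_lit 382425338) (nat_lit 7) (nat_lit 5) (nat_lit 9) (nat_lit 4) (nat_lit 7) (nat_lit 4) (nat_lit 361) (nat_lit 217) (nat_lit 202)) (XT.lf (nat_lit 0) (nat_lit 12323329223) (nat_lit 152) (nat_lit 9462112523) (nat_lit 0) (nat_lit 5638044536) (nat_lit 7) (nat_lit 5) (nat_lit 9) (nat_lit 4) (nat_lit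 7) (nat_lit 4) (nat_lit 362) (nat_lit 217) (nat_lit 201))))))))
noncomputable def xc2 : XT := (XT.nd (nat_lit 79716) (nat_lit 0) (nat_lit 76) (XT.nd (nat_lit 39936) (nat_lit 0) (nat_lit 76) (XT.nd (nat_lit 39390) (nat_lit 0) (nat_lit 684) (XT.nd (nat_lit 39156) (nat_lit 0) (nat_lit 1292) (XT.nd (nat_lit 78) (nat_lit 76) (nat_lit 0) (XT.lf (nat_lit 0) (nat_lit 839267409) (nat_lit 76) (nat_lit 17148151778) (nat_lit 76) (nat_lit 10140864517) (nat_lit 6) (nat_lit 4) (nat_lit 7) (nat_lit 5) (nat_lit 7) (nat_lit 4) (nat_lit 363) (nat_lit 217) (nat_lit 200)) (XT.nd (nat_lit 78) (nat_lit 76) (nat_lit 0) (XT.lf (nat_lit 0) (nat_lit 11407187665) (nat_lit 76) (nat_lit 12383789832) (nat_lit 76) (nat_lit 5063878713) (nat_lit 6) (nat_lit 4) (nat_lit 7) (nat_lit 5) (nat_lit 7) (nat_lit 4) (nat_lit 364) (nat_lit 217) (nat_lit 199)) (XT.lf (nat_lit 0) (nat_lit 70799906) (nat_lit 152) (nat_lit 7480413617) (nat_lit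 76) (nat_lit 22053860844) (nat_lit 5) (nat_lit 5) (nat_lit 7) (nat_lit 5) (nat_lit 6) (nat_lit 4) (nat_lit 365) (nat_lit 217) (nat_lit 198)))) (XT.nd (nat_lit 78) (nat_lit 152) (nat_lit 0) (XT.lf (nat_lit 0) (nat_lit 3157251084) (nat_lit 152) (nat_lit 2896670925) (nat_lit 152) (nat_lit 2896670925) (nat_lit 24) (nat_lit 4) (nat_lit 26) (nat_lit 5) (nat_lit 26) (nat_lit 4) (nat_lit 344) (nat_lit 218) (nat_lit 218)) (XT.nd (nat_lit 78) (nat_lit 0) (nat_lit 0) (XT.lf (nat_lit 0) (nat_lit 100676205) (nat_lit 76) (nat_lit 240062114) (nat_lit 152) (nat_lit 17959754174) (nat_lit 22) (nat_lit 5) (nat_lit 23) (nat_lit 5) (nat_lit 24) (nat_lit 4) (nat_lit 345) (nat_lit 218) (nat_lit 217)) (XT.lf (nat_lit 0) (nat_lit 6561112802) (nat_lit 152) (nat_lit 6724613958) (nat_lit 0) (nat_lit 5425705552) (nat_lit 22) (nat_lit 5) (nat_lit 24) (nat_lit 4) (nat_lit 22) (nat_lit 4) (nat_lit 346) (nat_lit 218) (nat_lit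 216))))) (XT.nd (nat_lit 234) (nat_lit 304) (nat_lit 0) (XT.nd (nat_lit 78) (nat_lit 152) (nat_lit 0) (XT.lf (nat_lit 0) (nat_lit 4927945662) (nat_lit 152) (nat_lit 7943577491) (nat_lit 152) (nat_lit 6265147021) (nat_lit 20) (nat_lit 4) (nat_lit 22) (nat_lit 5) (nat_lit 22) (nat_lit 4) (nat_lit 347) (nat_lit 218) (nat_lit 215)) (XT.nd (nat_lit 78) (nat_lit 152) (nat_lit 0) (XT.lf (nat_lit 0) (nat_lit 16795935627) (nat_lit 152) (nat_lit 2493024978) (nat_lit 152) (nat_lit 287387498) (nat_lit 20) (nat_lit 4) (nat_lit 22) (nat_lit 5) (nat_lit 22) (nat_lit 4) (nat_lit 348) (nat_lit 218) (nat_lit 214)) (XT.lf (nat_lit 0) (nat_lit 5745449775) (nat_lit 152) (nat_lit 11202740356) (nat_lit 0) (nat_lit 3081244926) (nat_lit 18) (nat_lit 5) (nat_lit 20) (nat_lit 4) (nat_lit 18) (nat_lit 4) (nat_lit 349) (nat_lit 218) (nat_lit 213)))) (XT.nd (nat_lit 156) (nat_lit 152) (nat_lit 0) (XT.nd (nat_lit 78) (nat_lit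 0) (nat_lit 0) (XT.lf (nat_lit 0) (nat_lit 87175674) (nat_lit 152) (nat_lit 11781041203) (nat_lit 152) (nat_lit 8629637168) (nat_lit 16) (nat_lit 4) (nat_lit 18) (nat_lit 5) (nat_lit 18) (nat_lit 4) (nat_lit 350) (nat_lit 218) (nat_lit 212)) (XT.lf (nat_lit 0) (nat_lit 11653111528) (nat_lit 152) (nat_lit 6476282939) (nat_lit 152) (nat_lit 2851869984) (nat_lit 16) (nat_lit 4) (nat_lit 18) (nat_lit 5) (nat_lit 18) (nat_lit 4) (nat_lit 351) (nat_lit 218) (nat_lit 211))) (XT.nd (nat_lit 78) (nat_lit 0) (nat_lit 0) (XT.lf (nat_lit 0) (nat_lit 1880046399) (nat_lit 76) (nat_lit 1072276033) (nat_lit 152) (nat_lit 18528609299) (nat_lit 14) (nat_lit 5) (nat_lit 15) (nat_lit 5) (nat_lit 16) (nat_lit 4) (nat_lit 352) (nat_lit 218) (nat_lit 210)) (XT.lf (nat_lit 0) (nat_lit 8867960887) (nat_lit 152) (nat_lit 8700487220) (nat_lit 0) (nat_lit 4427273448) (nat_lit 14) (nat_lit 5) (nat_lit 16) (nat_lit 4) (nat_lit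 14) (nat_lit 4) (nat_lit 353) (nat_lit 218) (nat_lit 209)))))) (XT.nd (nat_lit 468) (nat_lit 228) (nat_lit 0) (XT.nd (nat_lit 234) (nat_lit 76) (nat_lit 0) (XT.nd (nat_lit 78) (nat_lit 152) (nat_lit 0) (XT.lf (nat_lit 0) (nat_lit 2346967966) (nat_lit 152) (nat_lit 12522954970) (nat_lit 152) (nat_lit 7657885015) (nat_lit 12) (nat_lit 4) (nat_lit 14) (nat_lit 5) (nat_lit 14) (nat_lit 4) (nat_lit 354) (nat_lit 218) (nat_lit 208)) (XT.nd (nat_lit 78) (nat_lit 152) (nat_lit 0) (XT.lf (nat_lit 0) (nat_lit 13644678062) (nat_lit 152) (nat_lit 7354675793) (nat_lit 152) (nat_lit 2077583976) (nat_lit 12) (nat_lit 4) (nat_lit 14) (nat_lit 5) (nat_lit 14) (nat_lit 4) (nat_lit 355) (nat_lit 218) (nat_lit 207)) (XT.lf (nat_lit 0) (nat_lit 1437900964) (nat_lit 76) (nat_lit 2084383196) (nat_lit 152) (nat_lit 20121802712) (nat_lit 10) (nat_lit 5) (nat_lit 11) (nat_lit 5) (nat_lit 12) (nat_lit 4) (nat_lit 356) (nat_lit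 218) (nat_lit 206)))) (XT.nd (nat_lit 78) (nat_lit 76) (nat_lit 0) (XT.lf (nat_lit 0) (nat_lit 9240459353) (nat_lit 152) (nat_lit 11694065281) (nat_lit 0) (nat_lit 3293907234) (nat_lit 10) (nat_lit 5) (nat_lit 12) (nat_lit 4) (nat_lit 10) (nat_lit 4) (nat_lit 357) (nat_lit 218) (nat_lit 205)) (XT.nd (nat_lit 78) (nat_lit 76) (nat_lit 0) (XT.lf (nat_lit 0) (nat_lit 15039580642) (nat_lit 152) (nat_lit 1069201202) (nat_lit 0) (nat_lit 8723363455) (nat_lit 10) (nat_lit 5) (nat_lit 12) (nat_lit 4) (nat_lit 10) (nat_lit 4) (nat_lit 358) (nat_lit 218) (nat_lit 204)) (XT.lf (nat_lit 0) (nat_lit 9820014645) (nat_lit 76) (nat_lit 11154925425) (nat_lit 76) (nat_lit 4479810113) (nat_lit 9) (nat_lit 4) (nat_lit 10) (nat_lit 5) (nat_lit 10) (nat_lit 4) (nat_lit 359) (nat_lit 218) (nat_lit 203))))) (XT.nd (nat_lit 234) (nat_lit 76) (nat_lit 0) (XT.nd (nat_lit 78) (nat_lit 76) (nat_lit 0) (XT.lf (nat_lit 0) (nat_lit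 886213660) (nat_lit 152) (nat_lit 5233408498) (nat_lit 76) (nat_lit 19978168296) (nat_lit 8) (nat_lit 5) (nat_lit 10) (nat_lit 5) (nat_lit 9) (nat_lit 4) (nat_lit 360) (nat_lit 218) (nat_lit 202)) (XT.nd (nat_lit 78) (nat_lit 0) (nat_lit 0) (XT.lf (nat_lit 0) (nat_lit 5343801567) (nat_lit 76) (nat_lit 946127919) (nat_lit 152) (nat_lit 20470872148) (nat_lit 7) (nat_lit 5) (nat_lit 8) (nat_lit 5) (nat_lit 9) (nat_lit 4) (nat_lit 361) (nat_lit 218) (nat_lit 201)) (XT.lf (nat_lit 0) (nat_lit 11823650011) (nat_lit 152) (nat_lit 11336576452) (nat_lit 0) (nat_lit 4284141558) (nat_lit 7) (nat_lit 5) (nat_lit 9) (nat_lit 4) (nat_lit 7) (nat_lit 4) (nat_lit 362) (nat_lit 218) (nat_lit 200)))) (XT.nd (nat_lit 156) (nat_lit 0) (nat_lit 0) (XT.nd (nat_lit 78) (nat_lit 76) (nat_lit 0) (XT.lf (nat_lit 0) (nat_lit 17436253580) (nat_lit 152) (nat_lit 1129831195) (nat_lit 0) (nat_lit 9584121270) (nat_lit 7) (nat_lit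 5) (nat_lit 9) (nat_lit 4) (nat_lit 7) (nat_lit 4) (nat_lit 363) (nat_lit 218) (nat_lit 199)) (XT.lf (nat_lit 0) (nat_lit 9340803423) (nat_lit 76) (nat_lit 13846344789) (nat_lit 76) (nat_lit 5690694170) (nat_lit 6) (nat_lit 4) (nat_lit 7) (nat_lit 5) (nat_lit 7) (nat_lit 4) (nat_lit 364) (nat_lit 218) (nat_lit 198))) (XT.nd (nat_lit 38844) (nat_lit 0) (nat_lit 1748) (XT.lf (nat_lit 0) (nat_lit 19978877073) (nat_lit 76) (nat_lit 9050204942) (nat_lit 76) (nat_lit 599876353) (nat_lit 6) (nat_lit 4) (nat_lit 7) (nat_lit 5) (nat_lit 7) (nat_lit 4) (nat_lit 365) (nat_lit 218) (nat_lit 197)) (XT.lf (nat_lit 0) (nat_lit 8563104554) (nat_lit 152) (nat_lit 3784017) (nat_lit 152) (nat_lit 3784017) (nat_lit 29) (nat_lit 4) (nat_lit 31) (nat_lit 5) (nat_lit 31) (nat_lit 4) (nat_lit 342) (nat_lit 219) (nat_lit 219))))))) (XT.nd (nat_lit 1014) (nat_lit 456) (nat_lit 0) (XT.nd (nat_lit 468) (nat_lit 608) (nat_lit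 0) (XT.nd (nat_lit 234) (nat_lit 228) (nat_lit 0) (XT.nd (nat_lit 78) (nat_lit 228) (nat_lit 0) (XT.lf (nat_lit 0) (nat_lit 6271882160) (nat_lit 228) (nat_lit 5576859063) (nat_lit 0) (nat_lit 5666638503) (nat_lit 26) (nat_lit 5) (nat_lit 29) (nat_lit 4) (nat_lit 26) (nat_lit 4) (nat_lit 343) (nat_lit 219) (nat_lit 218)) (XT.nd (nat_lit 78) (nat_lit 76) (nat_lit 0) (XT.lf (nat_lit 0) (nat_lit 6197853088) (nat_lit 152) (nat_lit 6448770678) (nat_lit 152) (nat_lit 5255911821) (nat_lit 24) (nat_lit 4) (nat_lit 26) (nat_lit 5) (nat_lit 26) (nat_lit 4) (nat_lit 344) (nat_lit 219) (nat_lit 217)) (XT.lf (nat_lit 0) (nat_lit 805491211) (nat_lit 228) (nat_lit 136266804) (nat_lit 76) (nat_lit 17361346434) (nat_lit 23) (nat_lit 5) (nat_lit 26) (nat_lit 5) (nat_lit 24) (nat_lit 4) (nat_lit 345) (nat_lit 219) (nat_lit 216)))) (XT.nd (nat_lit 78) (nat_lit 152) (nat_lit 0) (XT.lf (nat_lit 0) (nat_lit 6956281153)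 (nat_lit 152) (nat_lit 7074699145) (nat_lit 0) (nat_lit 4684474549) (nat_lit 22) (nat_lit 5) (nat_lit 24) (nat_lit 4) (nat_lit 22) (nat_lit 4) (nat_lit 346) (nat_lit 219) (nat_lit 215)) (XT.nd (nat_lit 78) (nat_lit 0) (nat_lit 0) (XT.lf (nat_lit 0) (nat_lit 4461782400) (nat_lit 152) (nat_lit 8739623982) (nat_lit 152) (nat_lit 5940610368) (nat_lit 20) (nat_lit 4) (nat_lit 22) (nat_lit 5) (nat_lit 22) (nat_lit 4) (nat_lit 347) (nat_lit 219) (nat_lit 214)) (XT.lf (nat_lit 0) (nat_lit 16221592144) (nat_lit 152) (nat_lit 3336104184) (nat_lit 152) (nat_lit 25239104) (nat_lit 20) (nat_lit 4) (nat_lit 22) (nat_lit 5) (nat_lit 22) (nat_lit 4) (nat_lit 348) (nat_lit 219) (nat_lit 213))))) (XT.nd (nat_lit 234) (nat_lit 304) (nat_lit 0) (XT.nd (nat_lit 78) (nat_lit 152) (nat_lit 0) (XT.lf (nat_lit 0) (nat_lit 5934062258) (nat_lit 152) (nat_lit 11902428074) (nat_lit 0) (nat_lit 2200916915) (nat_lit 18) (nat_lit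 5) (nat_lit 20) (nat_lit 4) (nat_lit 18) (nat_lit 4) (nat_lit 349) (nat_lit 219) (nat_lit 212)) (XT.nd (nat_lit 78) (nat_lit 152) (nat_lit 0) (XT.lf (nat_lit 0) (nat_lit 11997256822) (nat_lit 152) (nat_lit 718674758) (nat_lit 0) (nat_lit 7791102559) (nat_lit 18) (nat_lit 5) (nat_lit 20) (nat_lit 4) (nat_lit 18) (nat_lit 4) (nat_lit 350) (nat_lit 219) (nat_lit 211)) (XT.lf (nat_lit 0) (nat_lit 10734394710) (nat_lit 152) (nat_lit 7461352883) (nat_lit 152) (nat_lit 2795966661) (nat_lit 16) (nat_lit 4) (nat_lit 18) (nat_lit 5) (nat_lit 18) (nat_lit 4) (nat_lit 351) (nat_lit 219) (nat_lit 210)))) (XT.nd (nat_lit 156) (nat_lit 152) (nat_lit 0) (XT.nd (nat_lit 78) (nat_lit 0) (nat_lit 0) (XT.lf (nat_lit 0) (nat_lit 835746079) (nat_lit 76) (nat_lit 2108307670) (nat_lit 152) (nat_lit 18548604506) (nat_lit 14) (nat_lit 5) (nat_lit 15) (nat_lit 5) (nat_lit 16) (nat_lit 4) (nat_lit 352) (nat_lit 219) (nat_lit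 209)) (XT.lf (nat_lit 0) (nat_lit 8797027463) (nat_lit 152) (nat_lit 9850065780) (nat_lit 0) (nat_lit 3361622892) (nat_lit 14) (nat_lit 5) (nat_lit 16) (nat_lit 4) (nat_lit 14) (nat_lit 4) (nat_lit 353) (nat_lit 219) (nat_lit 208))) (XT.nd (nat_lit 78) (nat_lit 0) (nat_lit 0) (XT.lf (nat_lit 0) (nat_lit 1083460689) (nat_lit 152) (nat_lit 13653016427) (nat_lit 152) (nat_lit 7805589995) (nat_lit 12) (nat_lit 4) (nat_lit 14) (nat_lit 5) (nat_lit 14) (nat_lit 4) (nat_lit 354) (nat_lit 219) (nat_lit 207)) (XT.lf (nat_lit 0) (nat_lit 12285392703) (nat_lit 152) (nat_lit 8527166418) (nat_lit 152) (nat_lit 2279718762) (nat_lit 12) (nat_lit 4) (nat_lit 14) (nat_lit 5) (nat_lit 14) (nat_lit 4) (nat_lit 355) (nat_lit 219) (nat_lit 206)))))) (XT.nd (nat_lit 546) (nat_lit 76) (nat_lit 0) (XT.nd (nat_lit 234) (nat_lit 228) (nat_lit 0) (XT.nd (nat_lit 78) (nat_lit 76) (nat_lit 0) (XT.lf (nat_lit 0) (nat_lit 3261313196)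 (nat_lit 228) (nat_lit 47965119) (nat_lit 76) (nat_lit 20351417845) (nat_lit 11) (nat_lit 5) (nat_lit 14) (nat_lit 5) (nat_lit 12) (nat_lit 4) (nat_lit 356) (nat_lit 219) (nat_lit 205)) (XT.nd (nat_lit 78) (nat_lit 0) (nat_lit 0) (XT.lf (nat_lit 0) (nat_lit 8919721181) (nat_lit 152) (nat_lit 13282175766) (nat_lit 0) (nat_lit 2044352410) (nat_lit 10) (nat_lit 5) (nat_lit 12) (nat_lit 4) (nat_lit 10) (nat_lit 4) (nat_lit 357) (nat_lit 219) (nat_lit 204)) (XT.lf (nat_lit 0) (nat_lit 14668845649) (nat_lit 152) (nat_lit 2747550806) (nat_lit 0) (nat_lit 7434578753) (nat_lit 10) (nat_lit 5) (nat_lit 12) (nat_lit 4) (nat_lit 10) (nat_lit 4) (nat_lit 358) (nat_lit 219) (nat_lit 203)))) (XT.nd (nat_lit 156) (nat_lit 76) (nat_lit 0) (XT.nd (nat_lit 78) (nat_lit 76) (nat_lit 0) (XT.lf (nat_lit 0) (nat_lit 8030585561) (nat_lit 76) (nat_lit 12513460751) (nat_lit 76) (nat_lit 4930749075) (nat_lit 9) (nat_lit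 4) (nat_lit 10) (nat_lit 5) (nat_lit 10) (nat_lit 4) (nat_lit 359) (nat_lit 219) (nat_lit 202)) (XT.lf (nat_lit 0) (nat_lit 393175029) (nat_lit 152) (nat_lit 7126794020) (nat_lit 76) (nat_lit 18598896978) (nat_lit 8) (nat_lit 5) (nat_lit 10) (nat_lit 5) (nat_lit 9) (nat_lit 4) (nat_lit 360) (nat_lit 219) (nat_lit 201))) (XT.nd (nat_lit 78) (nat_lit 0) (nat_lit 0) (XT.lf (nat_lit 0) (nat_lit 3339823780) (nat_lit 76) (nat_lit 2397440569) (nat_lit 152) (nat_lit 21045816589) (nat_lit 7) (nat_lit 5) (nat_lit 8) (nat_lit 5) (nat_lit 9) (nat_lit 4) (nat_lit 361) (nat_lit 219) (nat_lit 200)) (XT.lf (nat_lit 0) (nat_lit 11215524675) (nat_lit 152) (nat_lit 13437038190) (nat_lit 0) (nat_lit 2815204537) (nat_lit 7) (nat_lit 5) (nat_lit 9) (nat_lit 4) (nat_lit 7) (nat_lit 4) (nat_lit 362) (nat_lit 219) (nat_lit 199))))) (XT.nd (nat_lit 38844) (nat_lit 0) (nat_lit 1520) (XT.nd (nat_lit 78) (nat_lit 76) (nat_lit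 0) (XT.lf (nat_lit 0) (nat_lit 16783431823) (nat_lit 152) (nat_lit 3311484713) (nat_lit 0) (nat_lit 8079593376) (nat_lit 7) (nat_lit 5) (nat_lit 9) (nat_lit 4) (nat_lit 7) (nat_lit 4) (nat_lit 363) (nat_lit 219) (nat_lit 198)) (XT.nd (nat_lit 78) (nat_lit 0) (nat_lit 0) (XT.lf (nat_lit 0) (nat_lit 7050282339) (nat_lit 76) (nat_lit 15425777950) (nat_lit 76) (nat_lit 6427261533) (nat_lit 6) (nat_lit 4) (nat_lit 7) (nat_lit 5) (nat_lit 7) (nat_lit 4) (nat_lit 364) (nat_lit 219) (nat_lit 197)) (XT.lf (nat_lit 0) (nat_lit 17610807893) (nat_lit 76) (nat_lit 10664552041) (nat_lit 76) (nat_lit 1379940508) (nat_lit 6) (nat_lit 4) (nat_lit 7) (nat_lit 5) (nat_lit 7) (nat_lit 4) (nat_lit 365) (nat_lit 219) (nat_lit 196)))) (XT.nd (nat_lit 156) (nat_lit 228) (nat_lit 0) (XT.nd (nat_lit 78) (nat_lit 152) (nat_lit 0) (XT.lf (nat_lit 0) (nat_lit 2408843148) (nat_lit 228) (nat_lit 3394993818) (nat_lit 0) (nat_lit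 2408843148) (nat_lit 31) (nat_lit 5) (nat_lit 34) (nat_lit 4) (nat_lit 31) (nat_lit 4) (nat_lit 340) (nat_lit 220) (nat_lit 220)) (XT.lf (nat_lit 0) (nat_lit 5003997527) (nat_lit 152) (nat_lit 6204852490) (nat_lit 152) (nat_lit 5568983504) (nat_lit 29) (nat_lit 4) (nat_lit 31) (nat_lit 5) (nat_lit 31) (nat_lit 4) (nat_lit 341) (nat_lit 220) (nat_lit 219))) (XT.nd (nat_lit 78) (nat_lit 152) (nat_lit 0) (XT.lf (nat_lit 0) (nat_lit 553471805) (nat_lit 228) (nat_lit 135204468) (nat_lit 76) (nat_lit 16453940147) (nat_lit 28) (nat_lit 5) (nat_lit 31) (nat_lit 5) (nat_lit 29) (nat_lit 4) (nat_lit 342) (nat_lit 220) (nat_lit 218)) (XT.lf (nat_lit 0) (nat_lit 6761898836) (nat_lit 228) (nat_lit 5810551055) (nat_lit 0) (nat_lit 4945639012) (nat_lit 26) (nat_lit 5) (nat_lit 29) (nat_lit 4) (nat_lit 26) (nat_lit 4) (nat_lit 343) (nat_lit 220) (nat_lit 217))))))))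
noncomputable def xc3 : XT := (XT.nd (nat_lit 40482) (nat_lit 0) (nat_lit 0) (XT.nd (nat_lit 1014) (nat_lit 380) (nat_lit 0) (XT.nd (nat_lit 468) (nat_lit 532) (nat_lit 0) (XT.nd (nat_lit 234) (nat_lit 304) (nat_lit 0) (XT.nd (nat_lit 78) (nat_lit 152) (nat_lit 0) (XT.lf (nat_lit 0) (nat_lit 5847803918) (nat_lit 152) (nat_lit 7222771009) (nat_lit 152) (nat_lit 4836010991) (nat_lit 24) (nat_lit 4) (nat_lit 26) (nat_lit 5) (nat_lit 26) (nat_lit 4) (nat_lit 344) (nat_lit 220) (nat_lit 216)) (XT.nd (nat_lit 78) (nat_lit 76) (nat_lit 0) (XT.lf (nat_lit 0) (nat_lit 1156802452) (nat_lit 228) (nat_lit 603902748) (nat_lit 76) (nat_lit 16547675593) (nat_lit 23) (nat_lit 5) (nat_lit 26) (nat_lit 5) (nat_lit 24) (nat_lit 4) (nat_lit 345) (nat_lit 220) (nat_lit 215)) (XT.lf (nat_lit 0) (nat_lit 7236919838) (nat_lit 152) (nat_lit 7658514335) (nat_lit 0) (nat_lit 3826728806) (nat_lit 22) (nat_lit 5) (nat_lit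 24) (nat_lit 4) (nat_lit 22) (nat_lit 4) (nat_lit 346) (nat_lit 220) (nat_lit 214)))) (XT.nd (nat_lit 78) (nat_lit 152) (nat_lit 0) (XT.lf (nat_lit 0) (nat_lit 3762028393) (nat_lit 152) (nat_lit 9655028279) (nat_lit 152) (nat_lit 5732985781) (nat_lit 20) (nat_lit 4) (nat_lit 22) (nat_lit 5) (nat_lit 22) (nat_lit 4) (nat_lit 347) (nat_lit 220) (nat_lit 213)) (XT.nd (nat_lit 78) (nat_lit 76) (nat_lit 0) (XT.lf (nat_lit 0) (nat_lit 120216739) (nat_lit 228) (nat_lit 4176147854) (nat_lit 76) (nat_lit 15295785340) (nat_lit 19) (nat_lit 5) (nat_lit 22) (nat_lit 5) (nat_lit 20) (nat_lit 4) (nat_lit 348) (nat_lit 220) (nat_lit 212)) (XT.lf (nat_lit 0) (nat_lit 6008549846) (nat_lit 152) (nat_lit 12836295786) (nat_lit 0) (nat_lit 1203202036) (nat_lit 18) (nat_lit 5) (nat_lit 20) (nat_lit 4) (nat_lit 18) (nat_lit 4) (nat_lit 349) (nat_lit 220) (nat_lit 211))))) (XT.nd (nat_lit 234) (nat_lit 304) (nat_lit 0)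 (XT.nd (nat_lit 78) (nat_lit 228) (nat_lit 0) (XT.lf (nat_lit 0) (nat_lit 12014456508) (nat_lit 152) (nat_lit 1754503043) (nat_lit 0) (nat_lit 6749876738) (nat_lit 18) (nat_lit 5) (nat_lit 20) (nat_lit 4) (nat_lit 18) (nat_lit 4) (nat_lit 350) (nat_lit 220) (nat_lit 210)) (XT.nd (nat_lit 78) (nat_lit 76) (nat_lit 0) (XT.lf (nat_lit 0) (nat_lit 9584494428) (nat_lit 152) (nat_lit 8565367616) (nat_lit 152) (nat_lit 2854931574) (nat_lit 16) (nat_lit 4) (nat_lit 18) (nat_lit 5) (nat_lit 18) (nat_lit 4) (nat_lit 351) (nat_lit 220) (nat_lit 209)) (XT.lf (nat_lit 0) (nat_lit 2825427668) (nat_lit 228) (nat_lit 435942319) (nat_lit 76) (nat_lit 18245598741) (nat_lit 15) (nat_lit 5) (nat_lit 18) (nat_lit 5) (nat_lit 16) (nat_lit 4) (nat_lit 352) (nat_lit 220) (nat_lit 208)))) (XT.nd (nat_lit 156) (nat_lit 228) (nat_lit 0) (XT.nd (nat_lit 78) (nat_lit 0) (nat_lit 0) (XT.lf (nat_lit 0) (nat_lit 8613719031) (nat_lit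 152) (nat_lit 11231767610) (nat_lit 0) (nat_lit 2178847945) (nat_lit 14) (nat_lit 5) (nat_lit 16) (nat_lit 4) (nat_lit 14) (nat_lit 4) (nat_lit 353) (nat_lit 220) (nat_lit 207)) (XT.lf (nat_lit 0) (nat_lit 14493407081) (nat_lit 152) (nat_lit 406972856) (nat_lit 0) (nat_lit 7658514771) (nat_lit 14) (nat_lit 5) (nat_lit 16) (nat_lit 4) (nat_lit 14) (nat_lit 4) (nat_lit 354) (nat_lit 220) (nat_lit 206))) (XT.nd (nat_lit 78) (nat_lit 76) (nat_lit 0) (XT.lf (nat_lit 0) (nat_lit 10696562275) (nat_lit 152) (nat_lit 9818454297) (nat_lit 152) (nat_lit 2595191866) (nat_lit 12) (nat_lit 4) (nat_lit 14) (nat_lit 5) (nat_lit 14) (nat_lit 4) (nat_lit 355) (nat_lit 220) (nat_lit 205)) (XT.lf (nat_lit 0) (nat_lit 2899345145) (nat_lit 228) (nat_lit 1743643606) (nat_lit 76) (nat_lit 19036704436) (nat_lit 11) (nat_lit 5) (nat_lit 14) (nat_lit 5) (nat_lit 12) (nat_lit 4) (nat_lit 356) (nat_lit 220) (nat_lit 204))))))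 (XT.nd (nat_lit 468) (nat_lit 76) (nat_lit 0) (XT.nd (nat_lit 234) (nat_lit 152) (nat_lit 0) (XT.nd (nat_lit 78) (nat_lit 76) (nat_lit 0) (XT.lf (nat_lit 0) (nat_lit 8487867317) (nat_lit 152) (nat_lit 15101114977) (nat_lit 0) (nat_lit 677674290) (nat_lit 10) (nat_lit 5) (nat_lit 12) (nat_lit 4) (nat_lit 10) (nat_lit 4) (nat_lit 357) (nat_lit 220) (nat_lit 203)) (XT.nd (nat_lit 78) (nat_lit 76) (nat_lit 0) (XT.lf (nat_lit 0) (nat_lit 14188451181) (nat_lit 152) (nat_lit 4654100812) (nat_lit 0) (nat_lit 6029813373) (nat_lit 10) (nat_lit 5) (nat_lit 12) (nat_lit 4) (nat_lit 10) (nat_lit 4) (nat_lit 358) (nat_lit 220) (nat_lit 202)) (XT.lf (nat_lit 0) (nat_lit 6012509095) (nat_lit 76) (nat_lit 13990913260) (nat_lit 76) (nat_lit 5493979548) (nat_lit 9) (nat_lit 4) (nat_lit 10) (nat_lit 5) (nat_lit 10) (nat_lit 4) (nat_lit 359) (nat_lit 220) (nat_lit 201)))) (XT.nd (nat_lit 78) (nat_lit 152) (nat_lit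 0) (XT.lf (nat_lit 0) (nat_lit 16892954910) (nat_lit 76) (nat_lit 9037441538) (nat_lit 76) (nat_lit 212065201) (nat_lit 9) (nat_lit 4) (nat_lit 10) (nat_lit 5) (nat_lit 10) (nat_lit 4) (nat_lit 360) (nat_lit 220) (nat_lit 200)) (XT.nd (nat_lit 78) (nat_lit 0) (nat_lit 0) (XT.lf (nat_lit 0) (nat_lit 1107354579) (nat_lit 76) (nat_lit 3967698515) (nat_lit 152) (nat_lit 21732856923) (nat_lit 7) (nat_lit 5) (nat_lit 8) (nat_lit 5) (nat_lit 9) (nat_lit 4) (nat_lit 361) (nat_lit 220) (nat_lit 199)) (XT.lf (nat_lit 0) (nat_lit 10498421843) (nat_lit 152) (nat_lit 15765333093) (nat_lit 0) (nat_lit 1229949934) (nat_lit 7) (nat_lit 5) (nat_lit 9) (nat_lit 4) (nat_lit 7) (nat_lit 4) (nat_lit 362) (nat_lit 220) (nat_lit 198))))) (XT.nd (nat_lit 38688) (nat_lit 0) (nat_lit 1748) (XT.nd (nat_lit 78) (nat_lit 76) (nat_lit 0) (XT.lf (nat_lit 0) (nat_lit 16022934407) (nat_lit 152) (nat_lit 5718606586) (nat_lit 0)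 (nat_lit 6459784528) (nat_lit 7) (nat_lit 5) (nat_lit 9) (nat_lit 4) (nat_lit 7) (nat_lit 4) (nat_lit 363) (nat_lit 220) (nat_lit 197)) (XT.nd (nat_lit 78) (nat_lit 0) (nat_lit 0) (XT.lf (nat_lit 0) (nat_lit 4533622986) (nat_lit 76) (nat_lit 17123469400) (nat_lit 76) (nat_lit 7274224405) (nat_lit 6) (nat_lit 4) (nat_lit 7) (nat_lit 5) (nat_lit 7) (nat_lit 4) (nat_lit 364) (nat_lit 220) (nat_lit 196)) (XT.lf (nat_lit 0) (nat_lit 15018859126) (nat_lit 76) (nat_lit 12396140519) (nat_lit 76) (nat_lit 2269133276) (nat_lit 6) (nat_lit 4) (nat_lit 7) (nat_lit 5) (nat_lit 7) (nat_lit 4) (nat_lit 365) (nat_lit 220) (nat_lit 195)))) (XT.nd (nat_lit 156) (nat_lit 380) (nat_lit 0) (XT.nd (nat_lit 78) (nat_lit 0) (nat_lit 0) (XT.lf (nat_lit 0) (nat_lit 899124139) (nat_lit 152) (nat_lit 3488611999) (nat_lit 152) (nat_lit 3488611999) (nat_lit 34) (nat_lit 4) (nat_lit 36) (nat_lit 5) (nat_lit 36) (nat_lit 4) (nat_lit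 338) (nat_lit 221) (nat_lit 221)) (XT.lf (nat_lit 0) (nat_lit 13777816036) (nat_lit 152) (nat_lit 1487421626) (nat_lit 152) (nat_lit 819377669) (nat_lit 34) (nat_lit 4) (nat_lit 36) (nat_lit 5) (nat_lit 36) (nat_lit 4) (nat_lit 339) (nat_lit 221) (nat_lit 220))) (XT.nd (nat_lit 78) (nat_lit 152) (nat_lit 0) (XT.lf (nat_lit 0) (nat_lit 5405287343) (nat_lit 228) (nat_lit 6906968582) (nat_lit 0) (nat_lit 4114473302) (nat_lit 31) (nat_lit 5) (nat_lit 34) (nat_lit 4) (nat_lit 31) (nat_lit 4) (nat_lit 340) (nat_lit 221) (nat_lit 219)) (XT.lf (nat_lit 0) (nat_lit 4770378897) (nat_lit 152) (nat_lit 6959172826) (nat_lit 152) (nat_lit 5051010255) (nat_lit 29) (nat_lit 4) (nat_lit 31) (nat_lit 5) (nat_lit 31) (nat_lit 4) (nat_lit 341) (nat_lit 221) (nat_lit 218))))))) (XT.nd (nat_lit 1014) (nat_lit 608) (nat_lit 0) (XT.nd (nat_lit 468) (nat_lit 456) (nat_lit 0) (XT.nd (nat_lit 234) (nat_lit 304) (nat_lit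 0) (XT.nd (nat_lit 78) (nat_lit 304) (nat_lit 0) (XT.lf (nat_lit 0) (nat_lit 1000002358) (nat_lit 228) (nat_lit 487525311) (nat_lit 76) (nat_lit 15659063374) (nat_lit 28) (nat_lit 5) (nat_lit 31) (nat_lit 5) (nat_lit 29) (nat_lit 4) (nat_lit 342) (nat_lit 221) (nat_lit 217)) (XT.nd (nat_lit 78) (nat_lit 152) (nat_lit 0) (XT.lf (nat_lit 0) (nat_lit 7137116701) (nat_lit 228) (nat_lit 6278139235) (nat_lit 0) (nat_lit 4108253687) (nat_lit 26) (nat_lit 5) (nat_lit 29) (nat_lit 4) (nat_lit 26) (nat_lit 4) (nat_lit 343) (nat_lit 221) (nat_lit 216)) (XT.lf (nat_lit 0) (nat_lit 5264048790) (nat_lit 152) (nat_lit 8116019155) (nat_lit 152) (nat_lit 4533272456) (nat_lit 24) (nat_lit 4) (nat_lit 26) (nat_lit 5) (nat_lit 26) (nat_lit 4) (nat_lit 344) (nat_lit 221) (nat_lit 215)))) (XT.nd (nat_lit 78) (nat_lit 228) (nat_lit 0) (XT.lf (nat_lit 0) (nat_lit 1394325357) (nat_lit 228) (nat_lit 1303960625) (nat_lit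 76) (nat_lit 15618053222) (nat_lit 23) (nat_lit 5) (nat_lit 26) (nat_lit 5) (nat_lit 24) (nat_lit 4) (nat_lit 345) (nat_lit 221) (nat_lit 214)) (XT.nd (nat_lit 78) (nat_lit 152) (nat_lit 0) (XT.lf (nat_lit 0) (nat_lit 7403274074) (nat_lit 152) (nat_lit 8476569658) (nat_lit 0) (nat_lit 2851718836) (nat_lit 22) (nat_lit 5) (nat_lit 24) (nat_lit 4) (nat_lit 22) (nat_lit 4) (nat_lit 346) (nat_lit 221) (nat_lit 213)) (XT.lf (nat_lit 0) (nat_lit 2828072205) (nat_lit 152) (nat_lit 10690590250) (nat_lit 152) (nat_lit 5642091841) (nat_lit 20) (nat_lit 4) (nat_lit 22) (nat_lit 5) (nat_lit 22) (nat_lit 4) (nat_lit 347) (nat_lit 221) (nat_lit 212))))) (XT.nd (nat_lit 234) (nat_lit 304) (nat_lit 0) (XT.nd (nat_lit 78) (nat_lit 76) (nat_lit 0) (XT.lf (nat_lit 0) (nat_lit 151882934) (nat_lit 228) (nat_lit 5224163978) (nat_lit 76) (nat_lit 14227980226) (nat_lit 19) (nat_lit 5) (nat_lit 22) (nat_lit 5) (nat_lit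 20) (nat_lit 4) (nat_lit 348) (nat_lit 221) (nat_lit 211)) (XT.nd (nat_lit 78) (nat_lit 0) (nat_lit 0) (XT.lf (nat_lit 0) (nat_lit 5968977622) (nat_lit 152) (nat_lit 14005159494) (nat_lit 0) (nat_lit 87228499) (nat_lit 18) (nat_lit 5) (nat_lit 20) (nat_lit 4) (nat_lit 18) (nat_lit 4) (nat_lit 349) (nat_lit 221) (nat_lit 210)) (XT.lf (nat_lit 0) (nat_lit 11919264964) (nat_lit 152) (nat_lit 3022357599) (nat_lit 0) (nat_lit 5591659569) (nat_lit 18) (nat_lit 5) (nat_lit 20) (nat_lit 4) (nat_lit 18) (nat_lit 4) (nat_lit 350) (nat_lit 221) (nat_lit 209)))) (XT.nd (nat_lit 156) (nat_lit 76) (nat_lit 0) (XT.nd (nat_lit 78) (nat_lit 76) (nat_lit 0) (XT.lf (nat_lit 0) (nat_lit 8202405914) (nat_lit 152) (nat_lit 9789291811) (nat_lit 152) (nat_lit 3028816248) (nat_lit 16) (nat_lit 4) (nat_lit 18) (nat_lit 5) (nat_lit 18) (nat_lit 4) (nat_lit 351) (nat_lit 221) (nat_lit 208)) (XT.lf (nat_lit 0) (nat_lit 2600417421)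 (nat_lit 228) (nat_lit 1927894670) (nat_lit 76) (nat_lit 16995482023) (nat_lit 15) (nat_lit 5) (nat_lit 18) (nat_lit 5) (nat_lit 16) (nat_lit 4) (nat_lit 352) (nat_lit 221) (nat_lit 207))) (XT.nd (nat_lit 78) (nat_lit 0) (nat_lit 0) (XT.lf (nat_lit 0) (nat_lit 8317875419) (nat_lit 152) (nat_lit 12846800021) (nat_lit 0) (nat_lit 877915115) (nat_lit 14) (nat_lit 5) (nat_lit 16) (nat_lit 4) (nat_lit 14) (nat_lit 4) (nat_lit 353) (nat_lit 221) (nat_lit 206)) (XT.lf (nat_lit 0) (nat_lit 14146372149) (nat_lit 152) (nat_lit 2113774135) (nat_lit 0) (nat_lit 6318041725) (nat_lit 14) (nat_lit 5) (nat_lit 16) (nat_lit 4) (nat_lit 14) (nat_lit 4) (nat_lit 354) (nat_lit 221) (nat_lit 205)))))) (XT.nd (nat_lit 546) (nat_lit 152) (nat_lit 0) (XT.nd (nat_lit 234) (nat_lit 152) (nat_lit 0) (XT.nd (nat_lit 78) (nat_lit 152) (nat_lit 0) (XT.lf (nat_lit 0) (nat_lit 8876798477) (nat_lit 152) (nat_lit 11229667740) (nat_lit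 152) (nat_lit 3024278946) (nat_lit 12) (nat_lit 4) (nat_lit 14) (nat_lit 5) (nat_lit 14) (nat_lit 4) (nat_lit 355) (nat_lit 221) (nat_lit 204)) (XT.nd (nat_lit 78) (nat_lit 76) (nat_lit 0) (XT.lf (nat_lit 0) (nat_lit 2426727917) (nat_lit 228) (nat_lit 3669474487) (nat_lit 76) (nat_lit 17605078864) (nat_lit 11) (nat_lit 5) (nat_lit 14) (nat_lit 5) (nat_lit 12) (nat_lit 4) (nat_lit 356) (nat_lit 221) (nat_lit 203)) (XT.lf (nat_lit 0) (nat_lit 7131781550) (nat_lit 76) (nat_lit 818050186) (nat_lit 152) (nat_lit 16339733417) (nat_lit 10) (nat_lit 5) (nat_lit 11) (nat_lit 5) (nat_lit 12) (nat_lit 4) (nat_lit 357) (nat_lit 221) (nat_lit 202)))) (XT.nd (nat_lit 156) (nat_lit 76) (nat_lit 0) (XT.nd (nat_lit 78) (nat_lit 76) (nat_lit 0) (XT.lf (nat_lit 0) (nat_lit 13597977476) (nat_lit 152) (nat_lit 6790517138) (nat_lit 0) (nat_lit 4507839849) (nat_lit 10) (nat_lit 5) (nat_lit 12) (nat_lit 4) (nat_lit 10)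 (nat_lit 4) (nat_lit 358) (nat_lit 221) (nat_lit 201)) (XT.lf (nat_lit 0) (nat_lit 3764021877) (nat_lit 76) (nat_lit 15588573928) (nat_lit 76) (nat_lit 6169993676) (nat_lit 9) (nat_lit 4) (nat_lit 10) (nat_lit 5) (nat_lit 10) (nat_lit 4) (nat_lit 359) (nat_lit 221) (nat_lit 200))) (XT.nd (nat_lit 78) (nat_lit 76) (nat_lit 0) (XT.lf (nat_lit 0) (nat_lit 14563225903) (nat_lit 76) (nat_lit 10671394992) (nat_lit 76) (nat_lit 933938404) (nat_lit 9) (nat_lit 4) (nat_lit 10) (nat_lit 5) (nat_lit 10) (nat_lit 4) (nat_lit 360) (nat_lit 221) (nat_lit 199)) (XT.lf (nat_lit 0) (nat_lit 4311518266) (nat_lit 152) (nat_lit 1337778364) (nat_lit 76) (nat_lit 21185837915) (nat_lit 8) (nat_lit 5) (nat_lit 10) (nat_lit 5) (nat_lit 9) (nat_lit 4) (nat_lit 361) (nat_lit 221) (nat_lit 198))))) (XT.nd (nat_lit 234) (nat_lit 0) (nat_lit 0) (XT.nd (nat_lit 78) (nat_lit 76) (nat_lit 0) (XT.lf (nat_lit 0) (nat_lit 9195533368)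 (nat_lit 76) (nat_lit 479293443) (nat_lit 152) (nat_lit 17847314041) (nat_lit 7) (nat_lit 5) (nat_lit 8) (nat_lit 5) (nat_lit 9) (nat_lit 4) (nat_lit 362) (nat_lit 221) (nat_lit 197)) (XT.nd (nat_lit 78) (nat_lit 76) (nat_lit 0) (XT.lf (nat_lit 0) (nat_lit 15154096820) (nat_lit 152) (nat_lit 8353300125) (nat_lit 0) (nat_lit 4723279359) (nat_lit 7) (nat_lit 5) (nat_lit 9) (nat_lit 4) (nat_lit 7) (nat_lit 4) (nat_lit 363) (nat_lit 221) (nat_lit 196)) (XT.lf (nat_lit 0) (nat_lit 1788626343) (nat_lit 76) (nat_lit 18940902560) (nat_lit 76) (nat_lit 8232322851) (nat_lit 6) (nat_lit 4) (nat_lit 7) (nat_lit 5) (nat_lit 7) (nat_lit 4) (nat_lit 364) (nat_lit 221) (nat_lit 195)))) (XT.nd (nat_lit 38454) (nat_lit 0) (nat_lit 2128) (XT.nd (nat_lit 38376) (nat_lit 0) (nat_lit 2508) (XT.lf (nat_lit 0) (nat_lit 12200765965) (nat_lit 76) (nat_lit 14246483415) (nat_lit 76) (nat_lit 3268231620) (nat_lit 6) (nat_lit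 4) (nat_lit 7) (nat_lit 5) (nat_lit 7) (nat_lit 4) (nat_lit 365) (nat_lit 221) (nat_lit 194)) (XT.lf (nat_lit 0) (nat_lit 4435956843) (nat_lit 228) (nat_lit 1561986289) (nat_lit 228) (nat_lit 1561986289) (nat_lit 39) (nat_lit 4) (nat_lit 42) (nat_lit 5) (nat_lit 42) (nat_lit 4) (nat_lit 336) (nat_lit 222) (nat_lit 222))) (XT.nd (nat_lit 78) (nat_lit 152) (nat_lit 0) (XT.lf (nat_lit 0) (nat_lit 3094543370) (nat_lit 228) (nat_lit 9930854519) (nat_lit 0) (nat_lit 2406458095) (nat_lit 36) (nat_lit 5) (nat_lit 39) (nat_lit 4) (nat_lit 36) (nat_lit 4) (nat_lit 337) (nat_lit 222) (nat_lit 221)) (XT.lf (nat_lit 0) (nat_lit 1681330432) (nat_lit 152) (nat_lit 7714437057) (nat_lit 152) (nat_lit 6358307826) (nat_lit 34) (nat_lit 4) (nat_lit 36) (nat_lit 5) (nat_lit 36) (nat_lit 4) (nat_lit 338) (nat_lit 222) (nat_lit 220))))))))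
noncomputable def xc4 : XT := (XT.nd (nat_lit 2028) (nat_lit 76) (nat_lit 0) (XT.nd (nat_lit 1014) (nat_lit 684) (nat_lit 0) (XT.nd (nat_lit 468) (nat_lit 608) (nat_lit 0) (XT.nd (nat_lit 234) (nat_lit 380) (nat_lit 0) (XT.nd (nat_lit 78) (nat_lit 380) (nat_lit 0) (XT.lf (nat_lit 0) (nat_lit 13547385718) (nat_lit 152) (nat_lit 2272331560) (nat_lit 152) (nat_lit 267615963) (nat_lit 34) (nat_lit 4) (nat_lit 36) (nat_lit 5) (nat_lit 36) (nat_lit 4) (nat_lit 339) (nat_lit 222) (nat_lit 219)) (XT.nd (nat_lit 78) (nat_lit 152) (nat_lit 0) (XT.lf (nat_lit 0) (nat_lit 5877789879) (nat_lit 228) (nat_lit 7258013636) (nat_lit 0) (nat_lit 3295033901) (nat_lit 31) (nat_lit 5) (nat_lit 34) (nat_lit 4) (nat_lit 31) (nat_lit 4) (nat_lit 340) (nat_lit 222) (nat_lit 218)) (XT.lf (nat_lit 0) (nat_lit 4302937505) (nat_lit 152) (nat_lit 7832603627) (nat_lit 152) (nat_lit 4650480145) (nat_lit 29) (nat_lit 4) (nat_lit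 31) (nat_lit 5) (nat_lit 31) (nat_lit 4) (nat_lit 341) (nat_lit 222) (nat_lit 217)))) (XT.nd (nat_lit 78) (nat_lit 304) (nat_lit 0) (XT.lf (nat_lit 0) (nat_lit 1332513052) (nat_lit 228) (nat_lit 1072357315) (nat_lit 76) (nat_lit 14748403136) (nat_lit 28) (nat_lit 5) (nat_lit 31) (nat_lit 5) (nat_lit 29) (nat_lit 4) (nat_lit 342) (nat_lit 222) (nat_lit 216)) (XT.nd (nat_lit 78) (nat_lit 152) (nat_lit 0) (XT.lf (nat_lit 0) (nat_lit 7397863616) (nat_lit 228) (nat_lit 6980032176) (nat_lit 0) (nat_lit 3153750832) (nat_lit 26) (nat_lit 5) (nat_lit 29) (nat_lit 4) (nat_lit 26) (nat_lit 4) (nat_lit 343) (nat_lit 222) (nat_lit 215)) (XT.lf (nat_lit 0) (nat_lit 4446077628) (nat_lit 152) (nat_lit 9129295622) (nat_lit 152) (nat_lit 4347431689) (nat_lit 24) (nat_lit 4) (nat_lit 26) (nat_lit 5) (nat_lit 26) (nat_lit 4) (nat_lit 344) (nat_lit 222) (nat_lit 214))))) (XT.nd (nat_lit 234) (nat_lit 304) (nat_lit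 0) (XT.nd (nat_lit 78) (nat_lit 228) (nat_lit 0) (XT.lf (nat_lit 0) (nat_lit 1518267470) (nat_lit 228) (nat_lit 2237052137) (nat_lit 76) (nat_lit 14571667033) (nat_lit 23) (nat_lit 5) (nat_lit 26) (nat_lit 5) (nat_lit 24) (nat_lit 4) (nat_lit 345) (nat_lit 222) (nat_lit 213)) (XT.nd (nat_lit 78) (nat_lit 152) (nat_lit 0) (XT.lf (nat_lit 0) (nat_lit 7455489220) (nat_lit 152) (nat_lit 9529579920) (nat_lit 0) (nat_lit 1758592688) (nat_lit 22) (nat_lit 5) (nat_lit 24) (nat_lit 4) (nat_lit 22) (nat_lit 4) (nat_lit 346) (nat_lit 222) (nat_lit 212)) (XT.lf (nat_lit 0) (nat_lit 1659097758) (nat_lit 152) (nat_lit 11847214755) (nat_lit 152) (nat_lit 5667849126) (nat_lit 20) (nat_lit 4) (nat_lit 22) (nat_lit 5) (nat_lit 22) (nat_lit 4) (nat_lit 347) (nat_lit 222) (nat_lit 211)))) (XT.nd (nat_lit 156) (nat_lit 152) (nat_lit 0) (XT.nd (nat_lit 78) (nat_lit 76) (nat_lit 0) (XT.lf (nat_lit 0) (nat_lit 70118165)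 (nat_lit 228) (nat_lit 6506143533) (nat_lit 76) (nat_lit 13042319006) (nat_lit 19) (nat_lit 5) (nat_lit 22) (nat_lit 5) (nat_lit 20) (nat_lit 4) (nat_lit 348) (nat_lit 222) (nat_lit 210)) (XT.lf (nat_lit 0) (nat_lit 4659628652) (nat_lit 76) (nat_lit 1163234852) (nat_lit 152) (nat_lit 14254358174) (nat_lit 18) (nat_lit 5) (nat_lit 19) (nat_lit 5) (nat_lit 20) (nat_lit 4) (nat_lit 349) (nat_lit 222) (nat_lit 209))) (XT.nd (nat_lit 78) (nat_lit 152) (nat_lit 0) (XT.lf (nat_lit 0) (nat_lit 11711599013) (nat_lit 152) (nat_lit 4523346258) (nat_lit 0) (nat_lit 4315439016) (nat_lit 18) (nat_lit 5) (nat_lit 20) (nat_lit 4) (nat_lit 18) (nat_lit 4) (nat_lit 350) (nat_lit 222) (nat_lit 208)) (XT.lf (nat_lit 0) (nat_lit 6586921518) (nat_lit 152) (nat_lit 11134194915) (nat_lit 152) (nat_lit 3317772619) (nat_lit 16) (nat_lit 4) (nat_lit 18) (nat_lit 5) (nat_lit 18) (nat_lit 4) (nat_lit 351) (nat_lit 222) (nat_lit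 207)))))) (XT.nd (nat_lit 468) (nat_lit 228) (nat_lit 0) (XT.nd (nat_lit 234) (nat_lit 304) (nat_lit 0) (XT.nd (nat_lit 78) (nat_lit 76) (nat_lit 0) (XT.lf (nat_lit 0) (nat_lit 2263400179) (nat_lit 228) (nat_lit 3652375580) (nat_lit 76) (nat_lit 15627481881) (nat_lit 15) (nat_lit 5) (nat_lit 18) (nat_lit 5) (nat_lit 16) (nat_lit 4) (nat_lit 352) (nat_lit 222) (nat_lit 206)) (XT.nd (nat_lit 78) (nat_lit 0) (nat_lit 0) (XT.lf (nat_lit 0) (nat_lit 7363286583) (nat_lit 76) (nat_lit 549519382) (nat_lit 152) (nat_lit 14150622669) (nat_lit 14) (nat_lit 5) (nat_lit 15) (nat_lit 5) (nat_lit 16) (nat_lit 4) (nat_lit 353) (nat_lit 222) (nat_lit 205)) (XT.lf (nat_lit 0) (nat_lit 13688034542) (nat_lit 152) (nat_lit 4052644310) (nat_lit 0) (nat_lit 4859425715) (nat_lit 14) (nat_lit 5) (nat_lit 16) (nat_lit 4) (nat_lit 14) (nat_lit 4) (nat_lit 354) (nat_lit 222) (nat_lit 204)))) (XT.nd (nat_lit 78) (nat_lit 152)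 (nat_lit 0) (XT.lf (nat_lit 0) (nat_lit 6824511226) (nat_lit 152) (nat_lit 12762039847) (nat_lit 152) (nat_lit 3567354932) (nat_lit 12) (nat_lit 4) (nat_lit 14) (nat_lit 5) (nat_lit 14) (nat_lit 4) (nat_lit 355) (nat_lit 222) (nat_lit 203)) (XT.nd (nat_lit 78) (nat_lit 76) (nat_lit 0) (XT.lf (nat_lit 0) (nat_lit 1843048546) (nat_lit 228) (nat_lit 5827140526) (nat_lit 76) (nat_lit 16055290196) (nat_lit 11) (nat_lit 5) (nat_lit 14) (nat_lit 5) (nat_lit 12) (nat_lit 4) (nat_lit 356) (nat_lit 222) (nat_lit 202)) (XT.lf (nat_lit 0) (nat_lit 4861088402) (nat_lit 76) (nat_lit 2443985268) (nat_lit 152) (nat_lit 17009922823) (nat_lit 10) (nat_lit 5) (nat_lit 11) (nat_lit 5) (nat_lit 12) (nat_lit 4) (nat_lit 357) (nat_lit 222) (nat_lit 201))))) (XT.nd (nat_lit 234) (nat_lit 152) (nat_lit 0) (XT.nd (nat_lit 78) (nat_lit 76) (nat_lit 0) (XT.lf (nat_lit 0) (nat_lit 12896908587) (nat_lit 152) (nat_lit 9158666556)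 (nat_lit 0) (nat_lit 2867328302) (nat_lit 10) (nat_lit 5) (nat_lit 12) (nat_lit 4) (nat_lit 10) (nat_lit 4) (nat_lit 358) (nat_lit 222) (nat_lit 200)) (XT.nd (nat_lit 78) (nat_lit 0) (nat_lit 0) (XT.lf (nat_lit 0) (nat_lit 1283159212) (nat_lit 76) (nat_lit 17307838771) (nat_lit 76) (nat_lit 6959382150) (nat_lit 9) (nat_lit 4) (nat_lit 10) (nat_lit 5) (nat_lit 10) (nat_lit 4) (nat_lit 359) (nat_lit 222) (nat_lit 199)) (XT.lf (nat_lit 0) (nat_lit 12003487714) (nat_lit 76) (nat_lit 12425895548) (nat_lit 76) (nat_lit 1767850253) (nat_lit 9) (nat_lit 4) (nat_lit 10) (nat_lit 5) (nat_lit 10) (nat_lit 4) (nat_lit 360) (nat_lit 222) (nat_lit 198)))) (XT.nd (nat_lit 156) (nat_lit 0) (nat_lit 0) (XT.nd (nat_lit 78) (nat_lit 76) (nat_lit 0) (XT.lf (nat_lit 0) (nat_lit 3445883668) (nat_lit 152) (nat_lit 3997931812) (nat_lit 76) (nat_lit 19420965008) (nat_lit 8) (nat_lit 5) (nat_lit 10) (nat_lit 5) (nat_lit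 9) (nat_lit 4) (nat_lit 361) (nat_lit 222) (nat_lit 197)) (XT.lf (nat_lit 0) (nat_lit 6424124282) (nat_lit 76) (nat_lit 2325656967) (nat_lit 152) (nat_lit 18803203717) (nat_lit 7) (nat_lit 5) (nat_lit 8) (nat_lit 5) (nat_lit 9) (nat_lit 4) (nat_lit 362) (nat_lit 222) (nat_lit 196))) (XT.nd (nat_lit 78) (nat_lit 0) (nat_lit 0) (XT.lf (nat_lit 0) (nat_lit 14176159884) (nat_lit 152) (nat_lit 11217867489) (nat_lit 0) (nat_lit 2868560535) (nat_lit 7) (nat_lit 5) (nat_lit 9) (nat_lit 4) (nat_lit 7) (nat_lit 4) (nat_lit 363) (nat_lit 222) (nat_lit 195)) (XT.lf (nat_lit 0) (nat_lit 19700266828) (nat_lit 152) (nat_lit 1171537021) (nat_lit 0) (nat_lit 8122995392) (nat_lit 7) (nat_lit 5) (nat_lit 9) (nat_lit 4) (nat_lit 7) (nat_lit 4) (nat_lit 364) (nat_lit 222) (nat_lit 194))))))) (XT.nd (nat_lit 39156) (nat_lit 0) (nat_lit 304) (XT.nd (nat_lit 38610) (nat_lit 0) (nat_lit 1292) (XT.nd (nat_lit 38376) (nat_lit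 0) (nat_lit 2128) (XT.nd (nat_lit 38220) (nat_lit 0) (nat_lit 2736) (XT.lf (nat_lit 0) (nat_lit 9154065996) (nat_lit 76) (nat_lit 16217197534) (nat_lit 76) (nat_lit 4378108539) (nat_lit 6) (nat_lit 4) (nat_lit 7) (nat_lit 5) (nat_lit 7) (nat_lit 4) (nat_lit 365) (nat_lit 222) (nat_lit 193)) (XT.nd (nat_lit 78) (nat_lit 0) (nat_lit 0) (XT.lf (nat_lit 0) (nat_lit 3696665) (nat_lit 228) (nat_lit 7255067477) (nat_lit 0) (nat_lit 3696665) (nat_lit 42) (nat_lit 5) (nat_lit 45) (nat_lit 4) (nat_lit 42) (nat_lit 4) (nat_lit 334) (nat_lit 223) (nat_lit 223)) (XT.lf (nat_lit 0) (nat_lit 6274651660) (nat_lit 228) (nat_lit 2991471081) (nat_lit 0) (nat_lit 5551749270) (nat_lit 42) (nat_lit 5) (nat_lit 45) (nat_lit 4) (nat_lit 42) (nat_lit 4) (nat_lit 335) (nat_lit 223) (nat_lit 222)))) (XT.nd (nat_lit 78) (nat_lit 380) (nat_lit 0) (XT.lf (nat_lit 0) (nat_lit 8756619286) (nat_lit 228) (nat_lit 3894681550) (nat_lit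 228) (nat_lit 2469932179) (nat_lit 39) (nat_lit 4) (nat_lit 42) (nat_lit 5) (nat_lit 42) (nat_lit 4) (nat_lit 336) (nat_lit 223) (nat_lit 221)) (XT.nd (nat_lit 78) (nat_lit 152) (nat_lit 0) (XT.lf (nat_lit 0) (nat_lit 3667198364) (nat_lit 228) (nat_lit 10165084948) (nat_lit 0) (nat_lit 1602341299) (nat_lit 36) (nat_lit 5) (nat_lit 39) (nat_lit 4) (nat_lit 36) (nat_lit 4) (nat_lit 337) (nat_lit 223) (nat_lit 220)) (XT.lf (nat_lit 0) (nat_lit 1330474732) (nat_lit 152) (nat_lit 8570591165) (nat_lit 152) (nat_lit 5857147735) (nat_lit 34) (nat_lit 4) (nat_lit 36) (nat_lit 5) (nat_lit 36) (nat_lit 4) (nat_lit 338) (nat_lit 223) (nat_lit 219))))) (XT.nd (nat_lit 234) (nat_lit 456) (nat_lit 0) (XT.nd (nat_lit 78) (nat_lit 304) (nat_lit 0) (XT.lf (nat_lit 0) (nat_lit 166137732) (nat_lit 228) (nat_lit 3007540710) (nat_lit 76) (nat_lit 12919071131) (nat_lit 33) (nat_lit 5) (nat_lit 36) (nat_lit 5) (nat_lit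 34) (nat_lit 4) (nat_lit 339) (nat_lit 223) (nat_lit 218)) (XT.nd (nat_lit 78) (nat_lit 152) (nat_lit 0) (XT.lf (nat_lit 0) (nat_lit 6235606770) (nat_lit 228) (nat_lit 7843429536) (nat_lit 0) (nat_lit 2358652079) (nat_lit 31) (nat_lit 5) (nat_lit 34) (nat_lit 4) (nat_lit 31) (nat_lit 4) (nat_lit 340) (nat_lit 223) (nat_lit 217)) (XT.lf (nat_lit 0) (nat_lit 3601264906) (nat_lit 152) (nat_lit 8825908085) (nat_lit 152) (nat_lit 4367043195) (nat_lit 29) (nat_lit 4) (nat_lit 31) (nat_lit 5) (nat_lit 31) (nat_lit 4) (nat_lit 341) (nat_lit 223) (nat_lit 216)))) (XT.nd (nat_lit 156) (nat_lit 228) (nat_lit 0) (XT.nd (nat_lit 78) (nat_lit 152) (nat_lit 0) (XT.lf (nat_lit 0) (nat_lit 1551294430) (nat_lit 228) (nat_lit 1890211497) (nat_lit 76) (nat_lit 13721163710) (nat_lit 28) (nat_lit 5) (nat_lit 31) (nat_lit 5) (nat_lit 29) (nat_lit 4) (nat_lit 342) (nat_lit 223) (nat_lit 215)) (XT.lf (nat_lit 0) (nat_lit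 7544367417) (nat_lit 228) (nat_lit 7916843182) (nat_lit 0) (nat_lit 2081296416) (nat_lit 26) (nat_lit 5) (nat_lit 29) (nat_lit 4) (nat_lit 26) (nat_lit 4) (nat_lit 343) (nat_lit 223) (nat_lit 214))) (XT.nd (nat_lit 78) (nat_lit 76) (nat_lit 0) (XT.lf (nat_lit 0) (nat_lit 3393175699) (nat_lit 152) (nat_lit 10263485799) (nat_lit 152) (nat_lit 4278326303) (nat_lit 24) (nat_lit 4) (nat_lit 26) (nat_lit 5) (nat_lit 26) (nat_lit 4) (nat_lit 344) (nat_lit 223) (nat_lit 213)) (XT.lf (nat_lit 0) (nat_lit 1528737090) (nat_lit 228) (nat_lit 3403992607) (nat_lit 76) (nat_lit 13407602705) (nat_lit 23) (nat_lit 5) (nat_lit 26) (nat_lit 5) (nat_lit 24) (nat_lit 4) (nat_lit 345) (nat_lit 223) (nat_lit 212)))))) (XT.nd (nat_lit 546) (nat_lit 380) (nat_lit 0) (XT.nd (nat_lit 234) (nat_lit 380) (nat_lit 0) (XT.nd (nat_lit 78) (nat_lit 152) (nat_lit 0) (XT.lf (nat_lit 0) (nat_lit 7393610899) (nat_lit 152) (nat_lit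 10818465226) (nat_lit 0) (nat_lit 546395204) (nat_lit 22) (nat_lit 5) (nat_lit 24) (nat_lit 4) (nat_lit 22) (nat_lit 4) (nat_lit 346) (nat_lit 223) (nat_lit 211)) (XT.nd (nat_lit 78) (nat_lit 0) (nat_lit 0) (XT.lf (nat_lit 0) (nat_lit 254083618) (nat_lit 152) (nat_lit 13125912437) (nat_lit 152) (nat_lit 5810280142) (nat_lit 20) (nat_lit 4) (nat_lit 22) (nat_lit 5) (nat_lit 22) (nat_lit 4) (nat_lit 347) (nat_lit 223) (nat_lit 210)) (XT.lf (nat_lit 0) (nat_lit 11611776837) (nat_lit 152) (nat_lit 7897217869) (nat_lit 152) (nat_lit 126812176) (nat_lit 20) (nat_lit 4) (nat_lit 22) (nat_lit 5) (nat_lit 22) (nat_lit 4) (nat_lit 348) (nat_lit 223) (nat_lit 209)))) (XT.nd (nat_lit 156) (nat_lit 228) (nat_lit 0) (XT.nd (nat_lit 78) (nat_lit 0) (nat_lit 0) (XT.lf (nat_lit 0) (nat_lit 3027116720) (nat_lit 76) (nat_lit 2536769409) (nat_lit 152) (nat_lit 14531867452) (nat_lit 18) (nat_lit 5) (nat_lit 19) (nat_lit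 5) (nat_lit 20) (nat_lit 4) (nat_lit 349) (nat_lit 223) (nat_lit 208)) (XT.lf (nat_lit 0) (nat_lit 11391277198) (nat_lit 152) (nat_lit 6258780565) (nat_lit 0) (nat_lit 2920099935) (nat_lit 18) (nat_lit 5) (nat_lit 20) (nat_lit 4) (nat_lit 18) (nat_lit 4) (nat_lit 350) (nat_lit 223) (nat_lit 207))) (XT.nd (nat_lit 78) (nat_lit 76) (nat_lit 0) (XT.lf (nat_lit 0) (nat_lit 4736629651) (nat_lit 152) (nat_lit 12601252086) (nat_lit 152) (nat_lit 3722053175) (nat_lit 16) (nat_lit 4) (nat_lit 18) (nat_lit 5) (nat_lit 18) (nat_lit 4) (nat_lit 351) (nat_lit 223) (nat_lit 206)) (XT.lf (nat_lit 0) (nat_lit 1814081462) (nat_lit 228) (nat_lit 5610891879) (nat_lit 76) (nat_lit 14140402974) (nat_lit 15) (nat_lit 5) (nat_lit 18) (nat_lit 5) (nat_lit 16) (nat_lit 4) (nat_lit 352) (nat_lit 223) (nat_lit 205))))) (XT.nd (nat_lit 234) (nat_lit 152) (nat_lit 0) (XT.nd (nat_lit 78) (nat_lit 152) (nat_lit 0) (XT.lf (nat_lit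 0) (nat_lit 5290396159) (nat_lit 76) (nat_lit 2110758360) (nat_lit 152) (nat_lit 14685652558) (nat_lit 14) (nat_lit 5) (nat_lit 15) (nat_lit 5) (nat_lit 16) (nat_lit 4) (nat_lit 353) (nat_lit 223) (nat_lit 204)) (XT.nd (nat_lit 78) (nat_lit 152) (nat_lit 0) (XT.lf (nat_lit 0) (nat_lit 13117993771) (nat_lit 152) (nat_lit 6225277538) (nat_lit 0) (nat_lit 3281392222) (nat_lit 14) (nat_lit 5) (nat_lit 16) (nat_lit 4) (nat_lit 14) (nat_lit 4) (nat_lit 354) (nat_lit 223) (nat_lit 203)) (XT.lf (nat_lit 0) (nat_lit 4537907261) (nat_lit 152) (nat_lit 14416909582) (nat_lit 152) (nat_lit 4224894357) (nat_lit 12) (nat_lit 4) (nat_lit 14) (nat_lit 5) (nat_lit 14) (nat_lit 4) (nat_lit 355) (nat_lit 223) (nat_lit 202)))) (XT.nd (nat_lit 156) (nat_lit 0) (nat_lit 0) (XT.nd (nat_lit 78) (nat_lit 76) (nat_lit 0) (XT.lf (nat_lit 0) (nat_lit 1147797021) (nat_lit 228) (nat_lit 8218527064) (nat_lit 76) (nat_lit 14385984245)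 (nat_lit 11) (nat_lit 5) (nat_lit 14) (nat_lit 5) (nat_lit 12) (nat_lit 4) (nat_lit 356) (nat_lit 223) (nat_lit 201)) (XT.lf (nat_lit 0) (nat_lit 2356025612) (nat_lit 76) (nat_lit 4192545742) (nat_lit 152) (nat_lit 17794490641) (nat_lit 10) (nat_lit 5) (nat_lit 11) (nat_lit 5) (nat_lit 12) (nat_lit 4) (nat_lit 357) (nat_lit 223) (nat_lit 200))) (XT.nd (nat_lit 78) (nat_lit 0) (nat_lit 0) (XT.lf (nat_lit 0) (nat_lit 12084631929) (nat_lit 152) (nat_lit 11760618321) (nat_lit 0) (nat_lit 1106845275) (nat_lit 10) (nat_lit 5) (nat_lit 12) (nat_lit 4) (nat_lit 10) (nat_lit 4) (nat_lit 358) (nat_lit 223) (nat_lit 199)) (XT.lf (nat_lit 0) (nat_lit 17727262506) (nat_lit 152) (nat_lit 1413462474) (nat_lit 0) (nat_lit 6439887177) (nat_lit 10) (nat_lit 5) (nat_lit 12) (nat_lit 4) (nat_lit 10) (nat_lit 4) (nat_lit 359) (nat_lit 223) (nat_lit 198))))))))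
noncomputable def xc5 : XT := (XT.nd (nat_lit 40014) (nat_lit 0) (nat_lit 0) (XT.nd (nat_lit 39000) (nat_lit 0) (nat_lit 760) (XT.nd (nat_lit 38454) (nat_lit 0) (nat_lit 2128) (XT.nd (nat_lit 234) (nat_lit 76) (nat_lit 0) (XT.nd (nat_lit 78) (nat_lit 152) (nat_lit 0) (XT.lf (nat_lit 0) (nat_lit 9211503677) (nat_lit 76) (nat_lit 14302476266) (nat_lit 76) (nat_lit 2714529408) (nat_lit 9) (nat_lit 4) (nat_lit 10) (nat_lit 5) (nat_lit 10) (nat_lit 4) (nat_lit 360) (nat_lit 223) (nat_lit 197)) (XT.nd (nat_lit 78) (nat_lit 76) (nat_lit 0) (XT.lf (nat_lit 0) (nat_lit 2470203242) (nat_lit 152) (nat_lit 6889953325) (nat_lit 76) (nat_lit 17536860981) (nat_lit 8) (nat_lit 5) (nat_lit 10) (nat_lit 5) (nat_lit 9) (nat_lit 4) (nat_lit 361) (nat_lit 223) (nat_lit 196)) (XT.lf (nat_lit 0) (nat_lit 3419976512) (nat_lit 76) (nat_lit 4294408577) (nat_lit 152) (nat_lit 19872040913) (nat_lit 7) (nat_lit 5) (nat_lit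 8) (nat_lit 5) (nat_lit 9) (nat_lit 4) (nat_lit 362) (nat_lit 223) (nat_lit 195)))) (XT.nd (nat_lit 78) (nat_lit 76) (nat_lit 0) (XT.lf (nat_lit 0) (nat_lit 13088269092) (nat_lit 152) (nat_lit 14314811698) (nat_lit 0) (nat_lit 894007427) (nat_lit 7) (nat_lit 5) (nat_lit 9) (nat_lit 4) (nat_lit 7) (nat_lit 4) (nat_lit 363) (nat_lit 223) (nat_lit 194)) (XT.nd (nat_lit 78) (nat_lit 76) (nat_lit 0) (XT.lf (nat_lit 0) (nat_lit 18573820509) (nat_lit 152) (nat_lit 4338517972) (nat_lit 0) (nat_lit 6117741285) (nat_lit 7) (nat_lit 5) (nat_lit 9) (nat_lit 4) (nat_lit 7) (nat_lit 4) (nat_lit 364) (nat_lit 223) (nat_lit 193)) (XT.lf (nat_lit 0) (nat_lit 5876097056) (nat_lit 76) (nat_lit 18310004857) (nat_lit 76) (nat_lit 5599733828) (nat_lit 6) (nat_lit 4) (nat_lit 7) (nat_lit 5) (nat_lit 7) (nat_lit 4) (nat_lit 365) (nat_lit 223) (nat_lit 192))))) (XT.nd (nat_lit 234) (nat_lit 760) (nat_lit 0) (XT.nd (nat_lit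 78) (nat_lit 304) (nat_lit 0) (XT.lf (nat_lit 0) (nat_lit 1262003848) (nat_lit 228) (nat_lit 4457993209) (nat_lit 0) (nat_lit 1262003848) (nat_lit 48) (nat_lit 5) (nat_lit 51) (nat_lit 4) (nat_lit 48) (nat_lit 4) (nat_lit 332) (nat_lit 224) (nat_lit 224)) (XT.nd (nat_lit 78) (nat_lit 76) (nat_lit 0) (XT.lf (nat_lit 0) (nat_lit 2636049019) (nat_lit 228) (nat_lit 6181825670) (nat_lit 228) (nat_lit 5422344419) (nat_lit 45) (nat_lit 4) (nat_lit 48) (nat_lit 5) (nat_lit 48) (nat_lit 4) (nat_lit 333) (nat_lit 224) (nat_lit 223)) (XT.lf (nat_lit 0) (nat_lit 689090890) (nat_lit 304) (nat_lit 104878089) (nat_lit 76) (nat_lit 13732235618) (nat_lit 44) (nat_lit 5) (nat_lit 48) (nat_lit 5) (nat_lit 45) (nat_lit 4) (nat_lit 334) (nat_lit 224) (nat_lit 222)))) (XT.nd (nat_lit 156) (nat_lit 380) (nat_lit 0) (XT.nd (nat_lit 78) (nat_lit 228) (nat_lit 0) (XT.lf (nat_lit 0) (nat_lit 6883760437) (nat_lit 228) (nat_lit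 3222449140) (nat_lit 0) (nat_lit 4714421604) (nat_lit 42) (nat_lit 5) (nat_lit 45) (nat_lit 4) (nat_lit 42) (nat_lit 4) (nat_lit 335) (nat_lit 224) (nat_lit 221)) (XT.lf (nat_lit 0) (nat_lit 8410635337) (nat_lit 228) (nat_lit 4782732525) (nat_lit 228) (nat_lit 1931988858) (nat_lit 39) (nat_lit 4) (nat_lit 42) (nat_lit 5) (nat_lit 42) (nat_lit 4) (nat_lit 336) (nat_lit 224) (nat_lit 220))) (XT.nd (nat_lit 78) (nat_lit 152) (nat_lit 0) (XT.lf (nat_lit 0) (nat_lit 4124923455) (nat_lit 228) (nat_lit 10633750472) (nat_lit 0) (nat_lit 681490356) (nat_lit 36) (nat_lit 5) (nat_lit 39) (nat_lit 4) (nat_lit 36) (nat_lit 4) (nat_lit 337) (nat_lit 224) (nat_lit 219)) (XT.lf (nat_lit 0) (nat_lit 745374605) (nat_lit 152) (nat_lit 9546434420) (nat_lit 152) (nat_lit 5473305821) (nat_lit 34) (nat_lit 4) (nat_lit 36) (nat_lit 5) (nat_lit 36) (nat_lit 4) (nat_lit 338) (nat_lit 224) (nat_lit 218)))))) (XT.nd (nat_lit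 468) (nat_lit 608) (nat_lit 0) (XT.nd (nat_lit 234) (nat_lit 380) (nat_lit 0) (XT.nd (nat_lit 78) (nat_lit 304) (nat_lit 0) (XT.lf (nat_lit 0) (nat_lit 482476149) (nat_lit 228) (nat_lit 3709881631) (nat_lit 76) (nat_lit 11908513398) (nat_lit 33) (nat_lit 5) (nat_lit 36) (nat_lit 5) (nat_lit 34) (nat_lit 4) (nat_lit 339) (nat_lit 224) (nat_lit 217)) (XT.nd (nat_lit 78) (nat_lit 152) (nat_lit 0) (XT.lf (nat_lit 0) (nat_lit 6479050673) (nat_lit 228) (nat_lit 8663727810) (nat_lit 0) (nat_lit 1304509637) (nat_lit 31) (nat_lit 5) (nat_lit 34) (nat_lit 4) (nat_lit 31) (nat_lit 4) (nat_lit 340) (nat_lit 224) (nat_lit 216)) (XT.lf (nat_lit 0) (nat_lit 2664747988) (nat_lit 152) (nat_lit 9939954137) (nat_lit 152) (nat_lit 4200451743) (nat_lit 29) (nat_lit 4) (nat_lit 31) (nat_lit 5) (nat_lit 31) (nat_lit 4) (nat_lit 341) (nat_lit 224) (nat_lit 215)))) (XT.nd (nat_lit 78) (nat_lit 304) (nat_lit 0) (XT.lf (nat_lit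 0) (nat_lit 1656537661) (nat_lit 228) (nat_lit 2941802489) (nat_lit 76) (nat_lit 12576447508) (nat_lit 28) (nat_lit 5) (nat_lit 31) (nat_lit 5) (nat_lit 29) (nat_lit 4) (nat_lit 342) (nat_lit 224) (nat_lit 214)) (XT.nd (nat_lit 78) (nat_lit 152) (nat_lit 0) (XT.lf (nat_lit 0) (nat_lit 7576756118) (nat_lit 228) (nat_lit 9089390825) (nat_lit 0) (nat_lit 889953342) (nat_lit 26) (nat_lit 5) (nat_lit 29) (nat_lit 4) (nat_lit 26) (nat_lit 4) (nat_lit 343) (nat_lit 224) (nat_lit 213)) (XT.lf (nat_lit 0) (nat_lit 2104422991) (nat_lit 152) (nat_lit 11519580725) (nat_lit 152) (nat_lit 4325895915) (nat_lit 24) (nat_lit 4) (nat_lit 26) (nat_lit 5) (nat_lit 26) (nat_lit 4) (nat_lit 344) (nat_lit 224) (nat_lit 212))))) (XT.nd (nat_lit 234) (nat_lit 456) (nat_lit 0) (XT.nd (nat_lit 78) (nat_lit 76) (nat_lit 0) (XT.lf (nat_lit 0) (nat_lit 1425743365) (nat_lit 228) (nat_lit 4805801691) (nat_lit 76) (nat_lit 12124843096)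 (nat_lit 23) (nat_lit 5) (nat_lit 26) (nat_lit 5) (nat_lit 24) (nat_lit 4) (nat_lit 345) (nat_lit 224) (nat_lit 211)) (XT.nd (nat_lit 78) (nat_lit 0) (nat_lit 0) (XT.lf (nat_lit 0) (nat_lit 6426378205) (nat_lit 76) (nat_lit 796377451) (nat_lit 152) (nat_lit 11553144947) (nat_lit 22) (nat_lit 5) (nat_lit 23) (nat_lit 5) (nat_lit 24) (nat_lit 4) (nat_lit 346) (nat_lit 224) (nat_lit 210)) (XT.lf (nat_lit 0) (nat_lit 13148615809) (nat_lit 152) (nat_lit 1369991432) (nat_lit 0) (nat_lit 4690324548) (nat_lit 22) (nat_lit 5) (nat_lit 24) (nat_lit 4) (nat_lit 22) (nat_lit 4) (nat_lit 347) (nat_lit 224) (nat_lit 209)))) (XT.nd (nat_lit 156) (nat_lit 152) (nat_lit 0) (XT.nd (nat_lit 78) (nat_lit 152) (nat_lit 0) (XT.lf (nat_lit 0) (nat_lit 9876178113) (nat_lit 152) (nat_lit 9339676870) (nat_lit 152) (nat_lit 439858038) (nat_lit 20) (nat_lit 4) (nat_lit 22) (nat_lit 5) (nat_lit 22) (nat_lit 4) (nat_lit 348)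 (nat_lit 224) (nat_lit 208)) (XT.lf (nat_lit 0) (nat_lit 1157829211) (nat_lit 76) (nat_lit 4033416129) (nat_lit 152) (nat_lit 14925743660) (nat_lit 18) (nat_lit 5) (nat_lit 19) (nat_lit 5) (nat_lit 20) (nat_lit 4) (nat_lit 349) (nat_lit 224) (nat_lit 207))) (XT.nd (nat_lit 78) (nat_lit 152) (nat_lit 0) (XT.lf (nat_lit 0) (nat_lit 10958019626) (nat_lit 152) (nat_lit 8230176918) (nat_lit 0) (nat_lit 1404423099) (nat_lit 18) (nat_lit 5) (nat_lit 20) (nat_lit 4) (nat_lit 18) (nat_lit 4) (nat_lit 350) (nat_lit 224) (nat_lit 206)) (XT.lf (nat_lit 0) (nat_lit 2649913555) (nat_lit 152) (nat_lit 14191745220) (nat_lit 152) (nat_lit 4242011169) (nat_lit 16) (nat_lit 4) (nat_lit 18) (nat_lit 5) (nat_lit 18) (nat_lit 4) (nat_lit 351) (nat_lit 224) (nat_lit 205))))))) (XT.nd (nat_lit 1014) (nat_lit 76) (nat_lit 0) (XT.nd (nat_lit 468) (nat_lit 304) (nat_lit 0) (XT.nd (nat_lit 234) (nat_lit 228) (nat_lit 0) (XT.nd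 (nat_lit 78) (nat_lit 76) (nat_lit 0) (XT.lf (nat_lit 0) (nat_lit 1252068662) (nat_lit 228) (nat_lit 7805154890) (nat_lit 76) (nat_lit 12532945912) (nat_lit 15) (nat_lit 5) (nat_lit 18) (nat_lit 5) (nat_lit 16) (nat_lit 4) (nat_lit 352) (nat_lit 224) (nat_lit 204)) (XT.nd (nat_lit 78) (nat_lit 0) (nat_lit 0) (XT.lf (nat_lit 0) (nat_lit 2981199271) (nat_lit 76) (nat_lit 3795498979) (nat_lit 152) (nat_lit 15336163577) (nat_lit 14) (nat_lit 5) (nat_lit 15) (nat_lit 5) (nat_lit 16) (nat_lit 4) (nat_lit 353) (nat_lit 224) (nat_lit 203)) (XT.lf (nat_lit 0) (nat_lit 12435751740) (nat_lit 152) (nat_lit 8633572238) (nat_lit 0) (nat_lit 1582562381) (nat_lit 14) (nat_lit 5) (nat_lit 16) (nat_lit 4) (nat_lit 14) (nat_lit 4) (nat_lit 354) (nat_lit 224) (nat_lit 202)))) (XT.nd (nat_lit 78) (nat_lit 76) (nat_lit 0) (XT.lf (nat_lit 0) (nat_lit 2014988578) (nat_lit 152) (nat_lit 16195722949) (nat_lit 152) (nat_lit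 4997471768) (nat_lit 12) (nat_lit 4) (nat_lit 14) (nat_lit 5) (nat_lit 14) (nat_lit 4) (nat_lit 355) (nat_lit 224) (nat_lit 201)) (XT.nd (nat_lit 78) (nat_lit 0) (nat_lit 0) (XT.lf (nat_lit 0) (nat_lit 340365840) (nat_lit 228) (nat_lit 10845723661) (nat_lit 76) (nat_lit 12595702397) (nat_lit 11) (nat_lit 5) (nat_lit 14) (nat_lit 5) (nat_lit 12) (nat_lit 4) (nat_lit 356) (nat_lit 224) (nat_lit 200)) (XT.lf (nat_lit 0) (nat_lit 5682167311) (nat_lit 228) (nat_lit 380538550) (nat_lit 76) (nat_lit 18311030249) (nat_lit 11) (nat_lit 5) (nat_lit 14) (nat_lit 5) (nat_lit 12) (nat_lit 4) (nat_lit 357) (nat_lit 224) (nat_lit 199))))) (XT.nd (nat_lit 234) (nat_lit 152) (nat_lit 0) (XT.nd (nat_lit 78) (nat_lit 76) (nat_lit 0) (XT.lf (nat_lit 0) (nat_lit 10380088580) (nat_lit 76) (nat_lit 785448820) (nat_lit 152) (nat_lit 13818296819) (nat_lit 10) (nat_lit 5) (nat_lit 11) (nat_lit 5) (nat_lit 12) (nat_lit 4)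 (nat_lit 358) (nat_lit 224) (nat_lit 198)) (XT.nd (nat_lit 78) (nat_lit 76) (nat_lit 0) (XT.lf (nat_lit 0) (nat_lit 16761196772) (nat_lit 152) (nat_lit 4327063979) (nat_lit 0) (nat_lit 4525039979) (nat_lit 10) (nat_lit 5) (nat_lit 12) (nat_lit 4) (nat_lit 10) (nat_lit 4) (nat_lit 359) (nat_lit 224) (nat_lit 197)) (XT.lf (nat_lit 0) (nat_lit 6184834196) (nat_lit 76) (nat_lit 16302776876) (nat_lit 76) (nat_lit 3774803065) (nat_lit 9) (nat_lit 4) (nat_lit 10) (nat_lit 5) (nat_lit 10) (nat_lit 4) (nat_lit 360) (nat_lit 224) (nat_lit 196)))) (XT.nd (nat_lit 156) (nat_lit 0) (nat_lit 0) (XT.nd (nat_lit 78) (nat_lit 76) (nat_lit 0) (XT.lf (nat_lit 0) (nat_lit 1383624451) (nat_lit 152) (nat_lit 10016369911) (nat_lit 76) (nat_lit 15531879529) (nat_lit 8) (nat_lit 5) (nat_lit 10) (nat_lit 5) (nat_lit 9) (nat_lit 4) (nat_lit 361) (nat_lit 224) (nat_lit 195)) (XT.lf (nat_lit 0) (nat_lit 180465074) (nat_lit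 76) (nat_lit 6387268543) (nat_lit 152) (nat_lit 21054759562) (nat_lit 7) (nat_lit 5) (nat_lit 8) (nat_lit 5) (nat_lit 9) (nat_lit 4) (nat_lit 362) (nat_lit 224) (nat_lit 194))) (XT.nd (nat_lit 78) (nat_lit 0) (nat_lit 0) (XT.lf (nat_lit 0) (nat_lit 10679301796) (nat_lit 76) (nat_lit 1218080648) (nat_lit 152) (nat_lit 16436666759) (nat_lit 7) (nat_lit 5) (nat_lit 8) (nat_lit 5) (nat_lit 9) (nat_lit 4) (nat_lit 363) (nat_lit 224) (nat_lit 193)) (XT.lf (nat_lit 0) (nat_lit 17337592726) (nat_lit 152) (nat_lit 7738541931) (nat_lit 0) (nat_lit 3991821761) (nat_lit 7) (nat_lit 5) (nat_lit 9) (nat_lit 4) (nat_lit 7) (nat_lit 4) (nat_lit 364) (nat_lit 224) (nat_lit 192)))))) (XT.nd (nat_lit 38376) (nat_lit 0) (nat_lit 1672) (XT.nd (nat_lit 38064) (nat_lit 0) (nat_lit 2736) (XT.nd (nat_lit 37908) (nat_lit 0) (nat_lit 3420) (XT.lf (nat_lit 0) (nat_lit 2363994899) (nat_lit 76) (nat_lit 20526734053) (nat_lit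 76) (nat_lit 6934174928) (nat_lit 6) (nat_lit 4) (nat_lit 7) (nat_lit 5) (nat_lit 7) (nat_lit 4) (nat_lit 365) (nat_lit 224) (nat_lit 191)) (XT.nd (nat_lit 78) (nat_lit 228) (nat_lit 0) (XT.lf (nat_lit 0) (nat_lit 2243618261) (nat_lit 304) (nat_lit 2230929918) (nat_lit 0) (nat_lit 2243618261) (nat_lit 54) (nat_lit 5) (nat_lit 58) (nat_lit 4) (nat_lit 54) (nat_lit 4) (nat_lit 330) (nat_lit 225) (nat_lit 225)) (XT.lf (nat_lit 0) (nat_lit 7112669242) (nat_lit 228) (nat_lit 3690881435) (nat_lit 228) (nat_lit 2892970432) (nat_lit 51) (nat_lit 4) (nat_lit 54) (nat_lit 5) (nat_lit 54) (nat_lit 4) (nat_lit 331) (nat_lit 225) (nat_lit 224)))) (XT.nd (nat_lit 156) (nat_lit 228) (nat_lit 0) (XT.nd (nat_lit 78) (nat_lit 228) (nat_lit 0) (XT.lf (nat_lit 0) (nat_lit 3237809683) (nat_lit 228) (nat_lit 9031525074) (nat_lit 0) (nat_lit 1696062744) (nat_lit 48) (nat_lit 5) (nat_lit 51) (nat_lit 4) (nat_lit 48) (nat_lit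 4) (nat_lit 332) (nat_lit 225) (nat_lit 223)) (XT.lf (nat_lit 0) (nat_lit 2405310739) (nat_lit 228) (nat_lit 7058398219) (nat_lit 228) (nat_lit 4779290842) (nat_lit 45) (nat_lit 4) (nat_lit 48) (nat_lit 5) (nat_lit 48) (nat_lit 4) (nat_lit 333) (nat_lit 225) (nat_lit 222))) (XT.nd (nat_lit 78) (nat_lit 152) (nat_lit 0) (XT.lf (nat_lit 0) (nat_lit 1258003918) (nat_lit 304) (nat_lit 453823382) (nat_lit 76) (nat_lit 12818413034) (nat_lit 44) (nat_lit 5) (nat_lit 48) (nat_lit 5) (nat_lit 45) (nat_lit 4) (nat_lit 334) (nat_lit 225) (nat_lit 221)) (XT.lf (nat_lit 0) (nat_lit 7379607831) (nat_lit 228) (nat_lit 3684607084) (nat_lit 0) (nat_lit 3761937018) (nat_lit 42) (nat_lit 5) (nat_lit 45) (nat_lit 4) (nat_lit 42) (nat_lit 4) (nat_lit 335) (nat_lit 225) (nat_lit 220))))) (XT.nd (nat_lit 234) (nat_lit 608) (nat_lit 0) (XT.nd (nat_lit 78) (nat_lit 228) (nat_lit 0) (XT.lf (nat_lit 0) (nat_lit 7833659526)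 (nat_lit 228) (nat_lit 5788901474) (nat_lit 228) (nat_lit 1509672568) (nat_lit 39) (nat_lit 4) (nat_lit 42) (nat_lit 5) (nat_lit 42) (nat_lit 4) (nat_lit 336) (nat_lit 225) (nat_lit 219)) (XT.nd (nat_lit 78) (nat_lit 0) (nat_lit 0) (XT.lf (nat_lit 0) (nat_lit 4108824253) (nat_lit 152) (nat_lit 361642365) (nat_lit 228) (nat_lit 10977966263) (nat_lit 36) (nat_lit 5) (nat_lit 38) (nat_lit 5) (nat_lit 39) (nat_lit 4) (nat_lit 337) (nat_lit 225) (nat_lit 218)) (XT.lf (nat_lit 0) (nat_lit 10568821881) (nat_lit 228) (nat_lit 73504365) (nat_lit 0) (nat_lit 5132449069) (nat_lit 36) (nat_lit 5) (nat_lit 39) (nat_lit 4) (nat_lit 36) (nat_lit 4) (nat_lit 338) (nat_lit 225) (nat_lit 217)))) (XT.nd (nat_lit 156) (nat_lit 228) (nat_lit 0) (XT.nd (nat_lit 78) (nat_lit 152) (nat_lit 0) (XT.lf (nat_lit 0) (nat_lit 685185531) (nat_lit 228) (nat_lit 4645846440) (nat_lit 76) (nat_lit 10780707932) (nat_lit 33) (nat_lit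 5) (nat_lit 36) (nat_lit 5) (nat_lit 34) (nat_lit 4) (nat_lit 339) (nat_lit 225) (nat_lit 216)) (XT.lf (nat_lit 0) (nat_lit 6608334305) (nat_lit 228) (nat_lit 9719625225) (nat_lit 0) (nat_lit 131685481) (nat_lit 31) (nat_lit 5) (nat_lit 34) (nat_lit 4) (nat_lit 31) (nat_lit 4) (nat_lit 340) (nat_lit 225) (nat_lit 215))) (XT.nd (nat_lit 78) (nat_lit 76) (nat_lit 0) (XT.lf (nat_lit 0) (nat_lit 1492568436) (nat_lit 152) (nat_lit 11175715220) (nat_lit 152) (nat_lit 4150560223) (nat_lit 29) (nat_lit 4) (nat_lit 31) (nat_lit 5) (nat_lit 31) (nat_lit 4) (nat_lit 341) (nat_lit 225) (nat_lit 214)) (XT.lf (nat_lit 0) (nat_lit 1648334705) (nat_lit 228) (nat_lit 4228049156) (nat_lit 76) (nat_lit 11313254293) (nat_lit 28) (nat_lit 5) (nat_lit 31) (nat_lit 5) (nat_lit 29) (nat_lit 4) (nat_lit 342) (nat_lit 225) (nat_lit 213))))))))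
noncomputable def xc6 : XT := (XT.nd (nat_lit 39780) (nat_lit 0) (nat_lit 228) (XT.nd (nat_lit 1014) (nat_lit 532) (nat_lit 0) (XT.nd (nat_lit 468) (nat_lit 456) (nat_lit 0) (XT.nd (nat_lit 234) (nat_lit 228) (nat_lit 0) (XT.nd (nat_lit 78) (nat_lit 228) (nat_lit 0) (XT.lf (nat_lit 0) (nat_lit 7070911377) (nat_lit 152) (nat_lit 426918480) (nat_lit 228) (nat_lit 10074553021) (nat_lit 26) (nat_lit 5) (nat_lit 28) (nat_lit 5) (nat_lit 29) (nat_lit 4) (nat_lit 343) (nat_lit 225) (nat_lit 212)) (XT.nd (nat_lit 78) (nat_lit 76) (nat_lit 0) (XT.lf (nat_lit 0) (nat_lit 578693412) (nat_lit 152) (nat_lit 12898677959) (nat_lit 152) (nat_lit 4490182091) (nat_lit 24) (nat_lit 4) (nat_lit 26) (nat_lit 5) (nat_lit 26) (nat_lit 4) (nat_lit 344) (nat_lit 225) (nat_lit 211)) (XT.lf (nat_lit 0) (nat_lit 1209196300) (nat_lit 228) (nat_lit 6443704271) (nat_lit 76) (nat_lit 10722267347) (nat_lit 23) (nat_lit 5) (nat_lit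 26) (nat_lit 5) (nat_lit 24) (nat_lit 4) (nat_lit 345) (nat_lit 225) (nat_lit 210)))) (XT.nd (nat_lit 78) (nat_lit 152) (nat_lit 0) (XT.lf (nat_lit 0) (nat_lit 4672673703) (nat_lit 76) (nat_lit 2269318062) (nat_lit 152) (nat_lit 11853988759) (nat_lit 22) (nat_lit 5) (nat_lit 23) (nat_lit 5) (nat_lit 24) (nat_lit 4) (nat_lit 346) (nat_lit 225) (nat_lit 209)) (XT.nd (nat_lit 78) (nat_lit 152) (nat_lit 0) (XT.lf (nat_lit 0) (nat_lit 12806148113) (nat_lit 152) (nat_lit 3226305884) (nat_lit 0) (nat_lit 3197807146) (nat_lit 22) (nat_lit 5) (nat_lit 24) (nat_lit 4) (nat_lit 22) (nat_lit 4) (nat_lit 347) (nat_lit 225) (nat_lit 208)) (XT.lf (nat_lit 0) (nat_lit 7904594987) (nat_lit 152) (nat_lit 10905369632) (nat_lit 152) (nat_lit 868361121) (nat_lit 20) (nat_lit 4) (nat_lit 22) (nat_lit 5) (nat_lit 22) (nat_lit 4) (nat_lit 348) (nat_lit 225) (nat_lit 207))))) (XT.nd (nat_lit 234) (nat_lit 152) (nat_lit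 0) (XT.nd (nat_lit 78) (nat_lit 228) (nat_lit 0) (XT.lf (nat_lit 0) (nat_lit 4710782692) (nat_lit 228) (nat_lit 937409555) (nat_lit 76) (nat_lit 14492630896) (nat_lit 19) (nat_lit 5) (nat_lit 22) (nat_lit 5) (nat_lit 20) (nat_lit 4) (nat_lit 349) (nat_lit 225) (nat_lit 206)) (XT.nd (nat_lit 78) (nat_lit 152) (nat_lit 0) (XT.lf (nat_lit 0) (nat_lit 10176968866) (nat_lit 76) (nat_lit 236011199) (nat_lit 152) (nat_lit 10204779038) (nat_lit 18) (nat_lit 5) (nat_lit 19) (nat_lit 5) (nat_lit 20) (nat_lit 4) (nat_lit 350) (nat_lit 225) (nat_lit 205)) (XT.lf (nat_lit 0) (nat_lit 324949885) (nat_lit 152) (nat_lit 15907064067) (nat_lit 152) (nat_lit 4878100935) (nat_lit 16) (nat_lit 4) (nat_lit 18) (nat_lit 5) (nat_lit 18) (nat_lit 4) (nat_lit 351) (nat_lit 225) (nat_lit 204)))) (XT.nd (nat_lit 156) (nat_lit 0) (nat_lit 0) (XT.nd (nat_lit 78) (nat_lit 76) (nat_lit 0) (XT.lf (nat_lit 0) (nat_lit 576870697)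 (nat_lit 228) (nat_lit 10237081930) (nat_lit 76) (nat_lit 10803706122) (nat_lit 15) (nat_lit 5) (nat_lit 18) (nat_lit 5) (nat_lit 16) (nat_lit 4) (nat_lit 352) (nat_lit 225) (nat_lit 203)) (XT.lf (nat_lit 0) (nat_lit 433678174) (nat_lit 76) (nat_lit 5605213342) (nat_lit 152) (nat_lit 16102724135) (nat_lit 14) (nat_lit 5) (nat_lit 15) (nat_lit 5) (nat_lit 16) (nat_lit 4) (nat_lit 353) (nat_lit 225) (nat_lit 202))) (XT.nd (nat_lit 78) (nat_lit 0) (nat_lit 0) (XT.lf (nat_lit 0) (nat_lit 11400563311) (nat_lit 76) (nat_lit 241718401) (nat_lit 152) (nat_lit 11039483738) (nat_lit 14) (nat_lit 5) (nat_lit 15) (nat_lit 5) (nat_lit 16) (nat_lit 4) (nat_lit 354) (nat_lit 225) (nat_lit 201)) (XT.lf (nat_lit 0) (nat_lit 17358431382) (nat_lit 152) (nat_lit 736659496) (nat_lit 0) (nat_lit 5144159365) (nat_lit 14) (nat_lit 5) (nat_lit 16) (nat_lit 4) (nat_lit 14) (nat_lit 4) (nat_lit 355) (nat_lit 225) (nat_lit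 200)))))) (XT.nd (nat_lit 468) (nat_lit 76) (nat_lit 0) (XT.nd (nat_lit 234) (nat_lit 152) (nat_lit 0) (XT.nd (nat_lit 78) (nat_lit 152) (nat_lit 0) (XT.lf (nat_lit 0) (nat_lit 10099038034) (nat_lit 152) (nat_lit 13127183633) (nat_lit 152) (nat_lit 587657755) (nat_lit 12) (nat_lit 4) (nat_lit 14) (nat_lit 5) (nat_lit 14) (nat_lit 4) (nat_lit 356) (nat_lit 225) (nat_lit 199)) (XT.nd (nat_lit 78) (nat_lit 76) (nat_lit 0) (XT.lf (nat_lit 0) (nat_lit 4719447087) (nat_lit 228) (nat_lit 3322023209) (nat_lit 76) (nat_lit 16365288495) (nat_lit 11) (nat_lit 5) (nat_lit 14) (nat_lit 5) (nat_lit 12) (nat_lit 4) (nat_lit 357) (nat_lit 225) (nat_lit 198)) (XT.lf (nat_lit 0) (nat_lit 7324566711) (nat_lit 76) (nat_lit 2817243188) (nat_lit 152) (nat_lit 14876277600) (nat_lit 10) (nat_lit 5) (nat_lit 11) (nat_lit 5) (nat_lit 12) (nat_lit 4) (nat_lit 358) (nat_lit 225) (nat_lit 197)))) (XT.nd (nat_lit 78) (nat_lit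 152) (nat_lit 0) (XT.lf (nat_lit 0) (nat_lit 15683625523) (nat_lit 152) (nat_lit 7477020032) (nat_lit 0) (nat_lit 2487995479) (nat_lit 10) (nat_lit 5) (nat_lit 12) (nat_lit 4) (nat_lit 10) (nat_lit 4) (nat_lit 359) (nat_lit 225) (nat_lit 196)) (XT.nd (nat_lit 78) (nat_lit 76) (nat_lit 0) (XT.lf (nat_lit 0) (nat_lit 2920834607) (nat_lit 76) (nat_lit 18428545214) (nat_lit 76) (nat_lit 4949597676) (nat_lit 9) (nat_lit 4) (nat_lit 10) (nat_lit 5) (nat_lit 10) (nat_lit 4) (nat_lit 360) (nat_lit 225) (nat_lit 195)) (XT.lf (nat_lit 0) (nat_lit 185197858) (nat_lit 152) (nat_lit 13379913391) (nat_lit 76) (nat_lit 13404268725) (nat_lit 8) (nat_lit 5) (nat_lit 10) (nat_lit 5) (nat_lit 9) (nat_lit 4) (nat_lit 361) (nat_lit 225) (nat_lit 194))))) (XT.nd (nat_lit 37986) (nat_lit 0) (nat_lit 3344) (XT.nd (nat_lit 78) (nat_lit 76) (nat_lit 0) (XT.lf (nat_lit 0) (nat_lit 5330232775) (nat_lit 152) (nat_lit 3253996768)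 (nat_lit 76) (nat_lit 19076560310) (nat_lit 8) (nat_lit 5) (nat_lit 10) (nat_lit 5) (nat_lit 9) (nat_lit 4) (nat_lit 362) (nat_lit 225) (nat_lit 193)) (XT.nd (nat_lit 78) (nat_lit 0) (nat_lit 0) (XT.lf (nat_lit 0) (nat_lit 7134156685) (nat_lit 76) (nat_lit 3467080593) (nat_lit 152) (nat_lit 17772290328) (nat_lit 7) (nat_lit 5) (nat_lit 8) (nat_lit 5) (nat_lit 9) (nat_lit 4) (nat_lit 363) (nat_lit 225) (nat_lit 192)) (XT.lf (nat_lit 0) (nat_lit 15990503279) (nat_lit 152) (nat_lit 11374579792) (nat_lit 0) (nat_lit 1743379219) (nat_lit 7) (nat_lit 5) (nat_lit 9) (nat_lit 4) (nat_lit 7) (nat_lit 4) (nat_lit 364) (nat_lit 225) (nat_lit 191)))) (XT.nd (nat_lit 156) (nat_lit 532) (nat_lit 0) (XT.nd (nat_lit 78) (nat_lit 228) (nat_lit 0) (XT.lf (nat_lit 0) (nat_lit 2985409916) (nat_lit 304) (nat_lit 499035796) (nat_lit 0) (nat_lit 2985409916) (nat_lit 61) (nat_lit 5) (nat_lit 65) (nat_lit 4) (nat_lit 61)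 (nat_lit 4) (nat_lit 328) (nat_lit 226) (nat_lit 226)) (XT.lf (nat_lit 0) (nat_lit 10554737295) (nat_lit 228) (nat_lit 1734213849) (nat_lit 228) (nat_lit 895928550) (nat_lit 58) (nat_lit 4) (nat_lit 61) (nat_lit 5) (nat_lit 61) (nat_lit 4) (nat_lit 329) (nat_lit 226) (nat_lit 225))) (XT.nd (nat_lit 78) (nat_lit 228) (nat_lit 0) (XT.lf (nat_lit 0) (nat_lit 5240875391) (nat_lit 304) (nat_lit 4575733375) (nat_lit 0) (nat_lit 3621116057) (nat_lit 54) (nat_lit 5) (nat_lit 58) (nat_lit 4) (nat_lit 54) (nat_lit 4) (nat_lit 330) (nat_lit 226) (nat_lit 224)) (XT.lf (nat_lit 0) (nat_lit 6885256308) (nat_lit 228) (nat_lit 4604233942) (nat_lit 228) (nat_lit 2209803732) (nat_lit 51) (nat_lit 4) (nat_lit 54) (nat_lit 5) (nat_lit 54) (nat_lit 4) (nat_lit 331) (nat_lit 226) (nat_lit 223))))))) (XT.nd (nat_lit 1014) (nat_lit 1216) (nat_lit 0) (XT.nd (nat_lit 468) (nat_lit 760) (nat_lit 0) (XT.nd (nat_lit 234) (nat_lit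 608) (nat_lit 0) (XT.nd (nat_lit 78) (nat_lit 304) (nat_lit 0) (XT.lf (nat_lit 0) (nat_lit 3838092418) (nat_lit 228) (nat_lit 9378241994) (nat_lit 0) (nat_lit 753251381) (nat_lit 48) (nat_lit 5) (nat_lit 51) (nat_lit 4) (nat_lit 48) (nat_lit 4) (nat_lit 332) (nat_lit 226) (nat_lit 222)) (XT.nd (nat_lit 78) (nat_lit 76) (nat_lit 0) (XT.lf (nat_lit 0) (nat_lit 1943632563) (nat_lit 228) (nat_lit 8052828004) (nat_lit 228) (nat_lit 4252103048) (nat_lit 45) (nat_lit 4) (nat_lit 48) (nat_lit 5) (nat_lit 48) (nat_lit 4) (nat_lit 333) (nat_lit 226) (nat_lit 221)) (XT.lf (nat_lit 0) (nat_lit 1714484553) (nat_lit 304) (nat_lit 1032499090) (nat_lit 76) (nat_lit 11790051610) (nat_lit 44) (nat_lit 5) (nat_lit 48) (nat_lit 5) (nat_lit 45) (nat_lit 4) (nat_lit 334) (nat_lit 226) (nat_lit 220)))) (XT.nd (nat_lit 78) (nat_lit 456) (nat_lit 0) (XT.lf (nat_lit 0) (nat_lit 7762627108) (nat_lit 228) (nat_lit 4378348739)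 (nat_lit 0) (nat_lit 2693463242) (nat_lit 42) (nat_lit 5) (nat_lit 45) (nat_lit 4) (nat_lit 42) (nat_lit 4) (nat_lit 335) (nat_lit 226) (nat_lit 219)) (XT.nd (nat_lit 78) (nat_lit 228) (nat_lit 0) (XT.lf (nat_lit 0) (nat_lit 7025187699) (nat_lit 228) (nat_lit 6914067571) (nat_lit 228) (nat_lit 1202614295) (nat_lit 39) (nat_lit 4) (nat_lit 42) (nat_lit 5) (nat_lit 42) (nat_lit 4) (nat_lit 336) (nat_lit 226) (nat_lit 218)) (XT.lf (nat_lit 0) (nat_lit 3173190525) (nat_lit 152) (nat_lit 1533851926) (nat_lit 228) (nat_lit 10752336925) (nat_lit 36) (nat_lit 5) (nat_lit 38) (nat_lit 5) (nat_lit 39) (nat_lit 4) (nat_lit 337) (nat_lit 226) (nat_lit 217))))) (XT.nd (nat_lit 234) (nat_lit 380) (nat_lit 0) (XT.nd (nat_lit 78) (nat_lit 380) (nat_lit 0) (XT.lf (nat_lit 0) (nat_lit 10738230817) (nat_lit 228) (nat_lit 1114991413) (nat_lit 0) (nat_lit 3933863563) (nat_lit 36) (nat_lit 5) (nat_lit 39) (nat_lit 4)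 (nat_lit 36) (nat_lit 4) (nat_lit 338) (nat_lit 226) (nat_lit 216)) (XT.nd (nat_lit 78) (nat_lit 152) (nat_lit 0) (XT.lf (nat_lit 0) (nat_lit 774443003) (nat_lit 228) (nat_lit 5816252971) (nat_lit 76) (nat_lit 9534669271) (nat_lit 33) (nat_lit 5) (nat_lit 36) (nat_lit 5) (nat_lit 34) (nat_lit 4) (nat_lit 339) (nat_lit 226) (nat_lit 215)) (XT.lf (nat_lit 0) (nat_lit 5454935564) (nat_lit 152) (nat_lit 1176272207) (nat_lit 228) (nat_lit 9843409340) (nat_lit 31) (nat_lit 5) (nat_lit 33) (nat_lit 5) (nat_lit 34) (nat_lit 4) (nat_lit 340) (nat_lit 226) (nat_lit 214)))) (XT.nd (nat_lit 156) (nat_lit 152) (nat_lit 0) (XT.nd (nat_lit 78) (nat_lit 76) (nat_lit 0) (XT.lf (nat_lit 0) (nat_lit 83702016) (nat_lit 152) (nat_lit 12534271125) (nat_lit 152) (nat_lit 4217325041) (nat_lit 29) (nat_lit 4) (nat_lit 31) (nat_lit 5) (nat_lit 31) (nat_lit 4) (nat_lit 341) (nat_lit 226) (nat_lit 213)) (XT.lf (nat_lit 0)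 (nat_lit 1526678393) (nat_lit 228) (nat_lit 5750075403) (nat_lit 76) (nat_lit 9930480303) (nat_lit 28) (nat_lit 5) (nat_lit 31) (nat_lit 5) (nat_lit 29) (nat_lit 4) (nat_lit 342) (nat_lit 226) (nat_lit 212))) (XT.nd (nat_lit 78) (nat_lit 0) (nat_lit 0) (XT.lf (nat_lit 0) (nat_lit 5433095163) (nat_lit 152) (nat_lit 1878301752) (nat_lit 228) (nat_lit 10279894558) (nat_lit 26) (nat_lit 5) (nat_lit 28) (nat_lit 5) (nat_lit 29) (nat_lit 4) (nat_lit 343) (nat_lit 226) (nat_lit 211)) (XT.lf (nat_lit 0) (nat_lit 13224332389) (nat_lit 228) (nat_lit 1169800173) (nat_lit 0) (nat_lit 3593678235) (nat_lit 26) (nat_lit 5) (nat_lit 29) (nat_lit 4) (nat_lit 26) (nat_lit 4) (nat_lit 344) (nat_lit 226) (nat_lit 210)))))) (XT.nd (nat_lit 546) (nat_lit 608) (nat_lit 0) (XT.nd (nat_lit 234) (nat_lit 304) (nat_lit 0) (XT.nd (nat_lit 78) (nat_lit 76) (nat_lit 0) (XT.lf (nat_lit 0) (nat_lit 878906680) (nat_lit 228) (nat_lit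 8319131524) (nat_lit 76) (nat_lit 9198649908) (nat_lit 23) (nat_lit 5) (nat_lit 26) (nat_lit 5) (nat_lit 24) (nat_lit 4) (nat_lit 345) (nat_lit 226) (nat_lit 209)) (XT.nd (nat_lit 78) (nat_lit 0) (nat_lit 0) (XT.lf (nat_lit 0) (nat_lit 2681026836) (nat_lit 76) (nat_lit 3866452360) (nat_lit 152) (nat_lit 12271321338) (nat_lit 22) (nat_lit 5) (nat_lit 23) (nat_lit 5) (nat_lit 24) (nat_lit 4) (nat_lit 346) (nat_lit 226) (nat_lit 208)) (XT.lf (nat_lit 0) (nat_lit 12350644046) (nat_lit 152) (nat_lit 5319814113) (nat_lit 0) (nat_lit 1583857735) (nat_lit 22) (nat_lit 5) (nat_lit 24) (nat_lit 4) (nat_lit 22) (nat_lit 4) (nat_lit 347) (nat_lit 226) (nat_lit 207)))) (XT.nd (nat_lit 156) (nat_lit 76) (nat_lit 0) (XT.nd (nat_lit 78) (nat_lit 76) (nat_lit 0) (XT.lf (nat_lit 0) (nat_lit 5695304717) (nat_lit 152) (nat_lit 12595664237) (nat_lit 152) (nat_lit 1412695844) (nat_lit 20) (nat_lit 4) (nat_lit 22) (nat_lit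 5) (nat_lit 22) (nat_lit 4) (nat_lit 348) (nat_lit 226) (nat_lit 206)) (XT.lf (nat_lit 0) (nat_lit 4124983069) (nat_lit 228) (nat_lit 3254562866) (nat_lit 76) (nat_lit 12787672807) (nat_lit 19) (nat_lit 5) (nat_lit 22) (nat_lit 5) (nat_lit 20) (nat_lit 4) (nat_lit 349) (nat_lit 226) (nat_lit 205))) (XT.nd (nat_lit 78) (nat_lit 0) (nat_lit 0) (XT.lf (nat_lit 0) (nat_lit 7744359834) (nat_lit 76) (nat_lit 2019838199) (nat_lit 152) (nat_lit 10881229696) (nat_lit 18) (nat_lit 5) (nat_lit 19) (nat_lit 5) (nat_lit 20) (nat_lit 4) (nat_lit 350) (nat_lit 226) (nat_lit 204)) (XT.lf (nat_lit 0) (nat_lit 15522960036) (nat_lit 152) (nat_lit 2210911036) (nat_lit 0) (nat_lit 3405130865) (nat_lit 18) (nat_lit 5) (nat_lit 20) (nat_lit 4) (nat_lit 18) (nat_lit 4) (nat_lit 351) (nat_lit 226) (nat_lit 203))))) (XT.nd (nat_lit 234) (nat_lit 304) (nat_lit 0) (XT.nd (nat_lit 78) (nat_lit 152) (nat_lit 0) (XT.lf (nat_lit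 0) (nat_lit 8737646890) (nat_lit 152) (nat_lit 12695272259) (nat_lit 152) (nat_lit 214921137) (nat_lit 16) (nat_lit 4) (nat_lit 18) (nat_lit 5) (nat_lit 18) (nat_lit 4) (nat_lit 352) (nat_lit 226) (nat_lit 202)) (XT.nd (nat_lit 78) (nat_lit 76) (nat_lit 0) (XT.lf (nat_lit 0) (nat_lit 5202375915) (nat_lit 228) (nat_lit 2323514831) (nat_lit 76) (nat_lit 14646897203) (nat_lit 15) (nat_lit 5) (nat_lit 18) (nat_lit 5) (nat_lit 16) (nat_lit 4) (nat_lit 353) (nat_lit 226) (nat_lit 201)) (XT.lf (nat_lit 0) (nat_lit 8533997318) (nat_lit 76) (nat_lit 2212548823) (nat_lit 152) (nat_lit 11967587659) (nat_lit 14) (nat_lit 5) (nat_lit 15) (nat_lit 5) (nat_lit 16) (nat_lit 4) (nat_lit 354) (nat_lit 226) (nat_lit 200)))) (XT.nd (nat_lit 156) (nat_lit 152) (nat_lit 0) (XT.nd (nat_lit 78) (nat_lit 152) (nat_lit 0) (XT.lf (nat_lit 0) (nat_lit 16407027948) (nat_lit 152) (nat_lit 3699652882) (nat_lit 0) (nat_lit 3166062432)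 (nat_lit 14) (nat_lit 5) (nat_lit 16) (nat_lit 4) (nat_lit 14) (nat_lit 4) (nat_lit 355) (nat_lit 226) (nat_lit 199)) (XT.lf (nat_lit 0) (nat_lit 7021059923) (nat_lit 152) (nat_lit 15192150808) (nat_lit 152) (nat_lit 1635404844) (nat_lit 12) (nat_lit 4) (nat_lit 14) (nat_lit 5) (nat_lit 14) (nat_lit 4) (nat_lit 356) (nat_lit 226) (nat_lit 198))) (XT.nd (nat_lit 78) (nat_lit 76) (nat_lit 0) (XT.lf (nat_lit 0) (nat_lit 3644272589) (nat_lit 228) (nat_lit 6501898294) (nat_lit 76) (nat_lit 14296293945) (nat_lit 11) (nat_lit 5) (nat_lit 14) (nat_lit 5) (nat_lit 12) (nat_lit 4) (nat_lit 357) (nat_lit 226) (nat_lit 197)) (XT.lf (nat_lit 0) (nat_lit 4029669240) (nat_lit 76) (nat_lit 4975603791) (nat_lit 152) (nat_lit 16049757903) (nat_lit 10) (nat_lit 5) (nat_lit 11) (nat_lit 5) (nat_lit 12) (nat_lit 4) (nat_lit 358) (nat_lit 226) (nat_lit 196))))))))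
noncomputable def xc7 : XT := (XT.nd (nat_lit 39702) (nat_lit 0) (nat_lit 0) (XT.nd (nat_lit 38610) (nat_lit 0) (nat_lit 1140) (XT.nd (nat_lit 38064) (nat_lit 0) (nat_lit 3116) (XT.nd (nat_lit 234) (nat_lit 152) (nat_lit 0) (XT.nd (nat_lit 78) (nat_lit 76) (nat_lit 0) (XT.lf (nat_lit 0) (nat_lit 14493607194) (nat_lit 152) (nat_lit 10866083023) (nat_lit 0) (nat_lit 326973736) (nat_lit 10) (nat_lit 5) (nat_lit 12) (nat_lit 4) (nat_lit 10) (nat_lit 4) (nat_lit 359) (nat_lit 226) (nat_lit 195)) (XT.nd (nat_lit 78) (nat_lit 76) (nat_lit 0) (XT.lf (nat_lit 0) (nat_lit 20102079096) (nat_lit 152) (nat_lit 575696425) (nat_lit 0) (nat_lit 5660380110) (nat_lit 10) (nat_lit 5) (nat_lit 12) (nat_lit 4) (nat_lit 10) (nat_lit 4) (nat_lit 360) (nat_lit 226) (nat_lit 194)) (XT.lf (nat_lit 0) (nat_lit 10018488904) (nat_lit 76) (nat_lit 15849842194) (nat_lit 76) (nat_lit 1141089298) (nat_lit 9) (nat_lit 4) (nat_lit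 10) (nat_lit 5) (nat_lit 10) (nat_lit 4) (nat_lit 361) (nat_lit 226) (nat_lit 193)))) (XT.nd (nat_lit 78) (nat_lit 76) (nat_lit 0) (XT.lf (nat_lit 0) (nat_lit 3982112619) (nat_lit 152) (nat_lit 6924161045) (nat_lit 76) (nat_lit 16795449598) (nat_lit 8) (nat_lit 5) (nat_lit 10) (nat_lit 5) (nat_lit 9) (nat_lit 4) (nat_lit 362) (nat_lit 226) (nat_lit 192)) (XT.nd (nat_lit 78) (nat_lit 0) (nat_lit 0) (XT.lf (nat_lit 0) (nat_lit 3349742746) (nat_lit 76) (nat_lit 5843076663) (nat_lit 152) (nat_lit 19222856145) (nat_lit 7) (nat_lit 5) (nat_lit 8) (nat_lit 5) (nat_lit 9) (nat_lit 4) (nat_lit 363) (nat_lit 226) (nat_lit 191)) (XT.lf (nat_lit 0) (nat_lit 13897599483) (nat_lit 76) (nat_lit 637917399) (nat_lit 152) (nat_lit 14616033059) (nat_lit 7) (nat_lit 5) (nat_lit 8) (nat_lit 5) (nat_lit 9) (nat_lit 4) (nat_lit 364) (nat_lit 226) (nat_lit 190))))) (XT.nd (nat_lit 234) (nat_lit 988) (nat_lit 0) (XT.nd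 (nat_lit 78) (nat_lit 304) (nat_lit 0) (XT.lf (nat_lit 0) (nat_lit 815641515) (nat_lit 228) (nat_lit 2710155726) (nat_lit 228) (nat_lit 2710155726) (nat_lit 65) (nat_lit 4) (nat_lit 68) (nat_lit 5) (nat_lit 68) (nat_lit 4) (nat_lit 326) (nat_lit 227) (nat_lit 227)) (XT.nd (nat_lit 78) (nat_lit 0) (nat_lit 0) (XT.lf (nat_lit 0) (nat_lit 400415647) (nat_lit 228) (nat_lit 233801274) (nat_lit 304) (nat_lit 12068842770) (nat_lit 61) (nat_lit 5) (nat_lit 64) (nat_lit 5) (nat_lit 65) (nat_lit 4) (nat_lit 327) (nat_lit 227) (nat_lit 226)) (XT.lf (nat_lit 0) (nat_lit 6766274159) (nat_lit 304) (nat_lit 1110270845) (nat_lit 0) (nat_lit 5064555002) (nat_lit 61) (nat_lit 5) (nat_lit 65) (nat_lit 4) (nat_lit 61) (nat_lit 4) (nat_lit 328) (nat_lit 227) (nat_lit 225)))) (XT.nd (nat_lit 156) (nat_lit 456) (nat_lit 0) (XT.nd (nat_lit 78) (nat_lit 304) (nat_lit 0) (XT.lf (nat_lit 0) (nat_lit 10330668020) (nat_lit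 228) (nat_lit 2686283098) (nat_lit 228) (nat_lit 170694719) (nat_lit 58) (nat_lit 4) (nat_lit 61) (nat_lit 5) (nat_lit 61) (nat_lit 4) (nat_lit 329) (nat_lit 227) (nat_lit 224)) (XT.lf (nat_lit 0) (nat_lit 5882691184) (nat_lit 304) (nat_lit 4917453492) (nat_lit 0) (nat_lit 2641757191) (nat_lit 54) (nat_lit 5) (nat_lit 58) (nat_lit 4) (nat_lit 54) (nat_lit 4) (nat_lit 330) (nat_lit 227) (nat_lit 223))) (XT.nd (nat_lit 78) (nat_lit 228) (nat_lit 0) (XT.lf (nat_lit 0) (nat_lit 6430231730) (nat_lit 228) (nat_lit 5633826031) (nat_lit 228) (nat_lit 1640784392) (nat_lit 51) (nat_lit 4) (nat_lit 54) (nat_lit 5) (nat_lit 54) (nat_lit 4) (nat_lit 331) (nat_lit 227) (nat_lit 222)) (XT.lf (nat_lit 0) (nat_lit 4018081821) (nat_lit 152) (nat_lit 309306821) (nat_lit 228) (nat_lit 9649141539) (nat_lit 48) (nat_lit 5) (nat_lit 50) (nat_lit 5) (nat_lit 51) (nat_lit 4) (nat_lit 332) (nat_lit 227) (nat_lit 221))))))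 (XT.nd (nat_lit 546) (nat_lit 836) (nat_lit 0) (XT.nd (nat_lit 234) (nat_lit 684) (nat_lit 0) (XT.nd (nat_lit 78) (nat_lit 228) (nat_lit 0) (XT.lf (nat_lit 0) (nat_lit 1250611084) (nat_lit 228) (nat_lit 9165983944) (nat_lit 228) (nat_lit 3840320386) (nat_lit 45) (nat_lit 4) (nat_lit 48) (nat_lit 5) (nat_lit 48) (nat_lit 4) (nat_lit 333) (nat_lit 227) (nat_lit 220)) (XT.nd (nat_lit 78) (nat_lit 152) (nat_lit 0) (XT.lf (nat_lit 0) (nat_lit 2058931663) (nat_lit 304) (nat_lit 1841410852) (nat_lit 76) (nat_lit 10646252775) (nat_lit 44) (nat_lit 5) (nat_lit 48) (nat_lit 5) (nat_lit 45) (nat_lit 4) (nat_lit 334) (nat_lit 227) (nat_lit 219)) (XT.lf (nat_lit 0) (nat_lit 8033152944) (nat_lit 228) (nat_lit 5304280288) (nat_lit 0) (nat_lit 1508066659) (nat_lit 42) (nat_lit 5) (nat_lit 45) (nat_lit 4) (nat_lit 42) (nat_lit 4) (nat_lit 335) (nat_lit 227) (nat_lit 218)))) (XT.nd (nat_lit 156) (nat_lit 228) (nat_lit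 0) (XT.nd (nat_lit 78) (nat_lit 228) (nat_lit 0) (XT.lf (nat_lit 0) (nat_lit 5984513424) (nat_lit 228) (nat_lit 8159213972) (nat_lit 228) (nat_lit 1010545735) (nat_lit 39) (nat_lit 4) (nat_lit 42) (nat_lit 5) (nat_lit 42) (nat_lit 4) (nat_lit 336) (nat_lit 227) (nat_lit 217)) (XT.lf (nat_lit 0) (nat_lit 2003268243) (nat_lit 152) (nat_lit 2827105940) (nat_lit 228) (nat_lit 10642728822) (nat_lit 36) (nat_lit 5) (nat_lit 38) (nat_lit 5) (nat_lit 39) (nat_lit 4) (nat_lit 337) (nat_lit 227) (nat_lit 216))) (XT.nd (nat_lit 78) (nat_lit 228) (nat_lit 0) (XT.lf (nat_lit 0) (nat_lit 10795344394) (nat_lit 228) (nat_lit 2389772298) (nat_lit 0) (nat_lit 2617037135) (nat_lit 36) (nat_lit 5) (nat_lit 39) (nat_lit 4) (nat_lit 36) (nat_lit 4) (nat_lit 338) (nat_lit 227) (nat_lit 215)) (XT.lf (nat_lit 0) (nat_lit 750326557) (nat_lit 228) (nat_lit 7222123909) (nat_lit 76) (nat_lit 8169308643) (nat_lit 33) (nat_lit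 5) (nat_lit 36) (nat_lit 5) (nat_lit 34) (nat_lit 4) (nat_lit 339) (nat_lit 227) (nat_lit 214))))) (XT.nd (nat_lit 234) (nat_lit 456) (nat_lit 0) (XT.nd (nat_lit 78) (nat_lit 228) (nat_lit 0) (XT.lf (nat_lit 0) (nat_lit 3933286891) (nat_lit 152) (nat_lit 2608421681) (nat_lit 228) (nat_lit 9950628582) (nat_lit 31) (nat_lit 5) (nat_lit 33) (nat_lit 5) (nat_lit 34) (nat_lit 4) (nat_lit 340) (nat_lit 227) (nat_lit 213)) (XT.nd (nat_lit 78) (nat_lit 228) (nat_lit 0) (XT.lf (nat_lit 0) (nat_lit 12463875187) (nat_lit 228) (nat_lit 1542582215) (nat_lit 0) (nat_lit 2847870781) (nat_lit 31) (nat_lit 5) (nat_lit 34) (nat_lit 4) (nat_lit 31) (nat_lit 4) (nat_lit 341) (nat_lit 227) (nat_lit 212)) (XT.lf (nat_lit 0) (nat_lit 1291462425) (nat_lit 228) (nat_lit 7509211155) (nat_lit 76) (nat_lit 8426917290) (nat_lit 28) (nat_lit 5) (nat_lit 31) (nat_lit 5) (nat_lit 29) (nat_lit 4) (nat_lit 342) (nat_lit 227) (nat_lit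 211)))) (XT.nd (nat_lit 156) (nat_lit 304) (nat_lit 0) (XT.nd (nat_lit 78) (nat_lit 0) (nat_lit 0) (XT.lf (nat_lit 0) (nat_lit 3557801772) (nat_lit 152) (nat_lit 3453637661) (nat_lit 228) (nat_lit 10601520260) (nat_lit 26) (nat_lit 5) (nat_lit 28) (nat_lit 5) (nat_lit 29) (nat_lit 4) (nat_lit 343) (nat_lit 227) (nat_lit 210)) (XT.lf (nat_lit 0) (nat_lit 12862277427) (nat_lit 228) (nat_lit 3147409824) (nat_lit 0) (nat_lit 2001049850) (nat_lit 26) (nat_lit 5) (nat_lit 29) (nat_lit 4) (nat_lit 26) (nat_lit 4) (nat_lit 344) (nat_lit 227) (nat_lit 209))) (XT.nd (nat_lit 78) (nat_lit 76) (nat_lit 0) (XT.lf (nat_lit 0) (nat_lit 434585903) (nat_lit 228) (nat_lit 10433722173) (nat_lit 76) (nat_lit 7552659462) (nat_lit 23) (nat_lit 5) (nat_lit 26) (nat_lit 5) (nat_lit 24) (nat_lit 4) (nat_lit 345) (nat_lit 227) (nat_lit 208)) (XT.lf (nat_lit 0) (nat_lit 449697330) (nat_lit 76) (nat_lit 5589175899) (nat_lit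 152) (nat_lit 12805507345) (nat_lit 22) (nat_lit 5) (nat_lit 23) (nat_lit 5) (nat_lit 24) (nat_lit 4) (nat_lit 346) (nat_lit 227) (nat_lit 207))))))) (XT.nd (nat_lit 1014) (nat_lit 228) (nat_lit 0) (XT.nd (nat_lit 468) (nat_lit 456) (nat_lit 0) (XT.nd (nat_lit 234) (nat_lit 228) (nat_lit 0) (XT.nd (nat_lit 78) (nat_lit 228) (nat_lit 0) (XT.lf (nat_lit 0) (nat_lit 11627745396) (nat_lit 76) (nat_lit 154966343) (nat_lit 152) (nat_lit 7498385198) (nat_lit 22) (nat_lit 5) (nat_lit 23) (nat_lit 5) (nat_lit 24) (nat_lit 4) (nat_lit 347) (nat_lit 227) (nat_lit 206)) (XT.nd (nat_lit 78) (nat_lit 76) (nat_lit 0) (XT.lf (nat_lit 0) (nat_lit 3246376855) (nat_lit 152) (nat_lit 14412037641) (nat_lit 152) (nat_lit 2073337841) (nat_lit 20) (nat_lit 4) (nat_lit 22) (nat_lit 5) (nat_lit 22) (nat_lit 4) (nat_lit 348) (nat_lit 227) (nat_lit 205)) (XT.lf (nat_lit 0) (nat_lit 3425817213) (nat_lit 228) (nat_lit 5810840557)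 (nat_lit 76) (nat_lit 10959691442) (nat_lit 19) (nat_lit 5) (nat_lit 22) (nat_lit 5) (nat_lit 20) (nat_lit 4) (nat_lit 349) (nat_lit 227) (nat_lit 204)))) (XT.nd (nat_lit 78) (nat_lit 152) (nat_lit 0) (XT.lf (nat_lit 0) (nat_lit 5071914467) (nat_lit 76) (nat_lit 3929952540) (nat_lit 152) (nat_lit 11673967481) (nat_lit 18) (nat_lit 5) (nat_lit 19) (nat_lit 5) (nat_lit 20) (nat_lit 4) (nat_lit 350) (nat_lit 227) (nat_lit 203)) (XT.nd (nat_lit 78) (nat_lit 152) (nat_lit 0) (XT.lf (nat_lit 0) (nat_lit 14703003684) (nat_lit 152) (nat_lit 4981850052) (nat_lit 0) (nat_lit 1485720078) (nat_lit 18) (nat_lit 5) (nat_lit 20) (nat_lit 4) (nat_lit 18) (nat_lit 4) (nat_lit 351) (nat_lit 227) (nat_lit 202)) (XT.lf (nat_lit 0) (nat_lit 5850700767) (nat_lit 152) (nat_lit 14699611654) (nat_lit 152) (nat_lit 1130364990) (nat_lit 16) (nat_lit 4) (nat_lit 18) (nat_lit 5) (nat_lit 18) (nat_lit 4) (nat_lit 352) (nat_lit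 227) (nat_lit 201))))) (XT.nd (nat_lit 234) (nat_lit 304) (nat_lit 0) (XT.nd (nat_lit 78) (nat_lit 76) (nat_lit 0) (XT.lf (nat_lit 0) (nat_lit 4255514224) (nat_lit 228) (nat_lit 5314819636) (nat_lit 76) (nat_lit 12636290220) (nat_lit 15) (nat_lit 5) (nat_lit 18) (nat_lit 5) (nat_lit 16) (nat_lit 4) (nat_lit 353) (nat_lit 227) (nat_lit 200)) (XT.nd (nat_lit 78) (nat_lit 0) (nat_lit 0) (XT.lf (nat_lit 0) (nat_lit 5426731200) (nat_lit 76) (nat_lit 4310619547) (nat_lit 152) (nat_lit 13011877172) (nat_lit 14) (nat_lit 5) (nat_lit 15) (nat_lit 5) (nat_lit 16) (nat_lit 4) (nat_lit 354) (nat_lit 227) (nat_lit 199)) (XT.lf (nat_lit 0) (nat_lit 15342587261) (nat_lit 152) (nat_lit 6903007541) (nat_lit 0) (nat_lit 1063358469) (nat_lit 14) (nat_lit 5) (nat_lit 16) (nat_lit 4) (nat_lit 14) (nat_lit 4) (nat_lit 355) (nat_lit 227) (nat_lit 198)))) (XT.nd (nat_lit 156) (nat_lit 76) (nat_lit 0) (XT.nd (nat_lit 78)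 (nat_lit 76) (nat_lit 0) (XT.lf (nat_lit 0) (nat_lit 3701728444) (nat_lit 152) (nat_lit 17385079400) (nat_lit 152) (nat_lit 2799267648) (nat_lit 12) (nat_lit 4) (nat_lit 14) (nat_lit 5) (nat_lit 14) (nat_lit 4) (nat_lit 356) (nat_lit 227) (nat_lit 197)) (XT.lf (nat_lit 0) (nat_lit 2455704343) (nat_lit 228) (nat_lit 9922942335) (nat_lit 76) (nat_lit 12102238742) (nat_lit 11) (nat_lit 5) (nat_lit 14) (nat_lit 5) (nat_lit 12) (nat_lit 4) (nat_lit 357) (nat_lit 227) (nat_lit 196))) (XT.nd (nat_lit 78) (nat_lit 0) (nat_lit 0) (XT.lf (nat_lit 0) (nat_lit 492517129) (nat_lit 76) (nat_lit 7262416575) (nat_lit 152) (nat_lit 17339763098) (nat_lit 10) (nat_lit 5) (nat_lit 11) (nat_lit 5) (nat_lit 12) (nat_lit 4) (nat_lit 358) (nat_lit 227) (nat_lit 195)) (XT.lf (nat_lit 0) (nat_lit 11217036388) (nat_lit 76) (nat_lit 1985959740) (nat_lit 152) (nat_lit 12524148696) (nat_lit 10) (nat_lit 5) (nat_lit 11) (nat_lit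 5) (nat_lit 12) (nat_lit 4) (nat_lit 359) (nat_lit 227) (nat_lit 194)))))) (XT.nd (nat_lit 37986) (nat_lit 0) (nat_lit 3116) (XT.nd (nat_lit 234) (nat_lit 76) (nat_lit 0) (XT.nd (nat_lit 78) (nat_lit 152) (nat_lit 0) (XT.lf (nat_lit 0) (nat_lit 18761371532) (nat_lit 152) (nat_lit 4273974049) (nat_lit 0) (nat_lit 3344302139) (nat_lit 10) (nat_lit 5) (nat_lit 12) (nat_lit 4) (nat_lit 10) (nat_lit 4) (nat_lit 360) (nat_lit 227) (nat_lit 193)) (XT.nd (nat_lit 78) (nat_lit 76) (nat_lit 0) (XT.lf (nat_lit 0) (nat_lit 6205006108) (nat_lit 76) (nat_lit 18261739000) (nat_lit 76) (nat_lit 2585393966) (nat_lit 9) (nat_lit 4) (nat_lit 10) (nat_lit 5) (nat_lit 10) (nat_lit 4) (nat_lit 361) (nat_lit 227) (nat_lit 192)) (XT.lf (nat_lit 0) (nat_lit 2521023480) (nat_lit 152) (nat_lit 10835601528) (nat_lit 76) (nat_lit 14388727599) (nat_lit 8) (nat_lit 5) (nat_lit 10) (nat_lit 5) (nat_lit 9) (nat_lit 4) (nat_lit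 362) (nat_lit 227) (nat_lit 191)))) (XT.nd (nat_lit 37596) (nat_lit 0) (nat_lit 4636) (XT.nd (nat_lit 78) (nat_lit 76) (nat_lit 0) (XT.lf (nat_lit 0) (nat_lit 7675295317) (nat_lit 152) (nat_lit 668364576) (nat_lit 76) (nat_lit 20116782038) (nat_lit 8) (nat_lit 5) (nat_lit 10) (nat_lit 5) (nat_lit 9) (nat_lit 4) (nat_lit 363) (nat_lit 227) (nat_lit 190)) (XT.lf (nat_lit 0) (nat_lit 9808893375) (nat_lit 76) (nat_lit 3170625650) (nat_lit 152) (nat_lit 16217574859) (nat_lit 7) (nat_lit 5) (nat_lit 8) (nat_lit 5) (nat_lit 9) (nat_lit 4) (nat_lit 364) (nat_lit 227) (nat_lit 189))) (XT.nd (nat_lit 78) (nat_lit 304) (nat_lit 0) (XT.lf (nat_lit 0) (nat_lit 1764571282) (nat_lit 304) (nat_lit 2125525229) (nat_lit 304) (nat_lit 2125525229) (nat_lit 72) (nat_lit 4) (nat_lit 76) (nat_lit 5) (nat_lit 76) (nat_lit 4) (nat_lit 324) (nat_lit 228) (nat_lit 228)) (XT.lf (nat_lit 0) (nat_lit 1778500259) (nat_lit 304)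 (nat_lit 9598974262) (nat_lit 0) (nat_lit 871376648) (nat_lit 68) (nat_lit 5) (nat_lit 72) (nat_lit 4) (nat_lit 68) (nat_lit 4) (nat_lit 325) (nat_lit 228) (nat_lit 227))))) (XT.nd (nat_lit 234) (nat_lit 988) (nat_lit 0) (XT.nd (nat_lit 78) (nat_lit 304) (nat_lit 0) (XT.lf (nat_lit 0) (nat_lit 1519299768) (nat_lit 228) (nat_lit 6370916492) (nat_lit 228) (nat_lit 4583090346) (nat_lit 65) (nat_lit 4) (nat_lit 68) (nat_lit 5) (nat_lit 68) (nat_lit 4) (nat_lit 326) (nat_lit 228) (nat_lit 226)) (XT.nd (nat_lit 78) (nat_lit 0) (nat_lit 0) (XT.lf (nat_lit 0) (nat_lit 168918946) (nat_lit 228) (nat_lit 1223059319) (nat_lit 304) (nat_lit 11313772126) (nat_lit 61) (nat_lit 5) (nat_lit 64) (nat_lit 5) (nat_lit 65) (nat_lit 4) (nat_lit 327) (nat_lit 228) (nat_lit 225)) (XT.lf (nat_lit 0) (nat_lit 7451613039) (nat_lit 304) (nat_lit 1446966641) (nat_lit 0) (nat_lit 4046687786) (nat_lit 61) (nat_lit 5) (nat_lit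 65) (nat_lit 4) (nat_lit 61) (nat_lit 4) (nat_lit 328) (nat_lit 228) (nat_lit 224)))) (XT.nd (nat_lit 156) (nat_lit 456) (nat_lit 0) (XT.nd (nat_lit 78) (nat_lit 228) (nat_lit 0) (XT.lf (nat_lit 0) (nat_lit 436322841) (nat_lit 304) (nat_lit 3313717406) (nat_lit 76) (nat_lit 9443082885) (nat_lit 57) (nat_lit 5) (nat_lit 61) (nat_lit 5) (nat_lit 58) (nat_lit 4) (nat_lit 329) (nat_lit 228) (nat_lit 223)) (XT.lf (nat_lit 0) (nat_lit 6413244710) (nat_lit 304) (nat_lit 5487318777) (nat_lit 0) (nat_lit 1548304175) (nat_lit 54) (nat_lit 5) (nat_lit 58) (nat_lit 4) (nat_lit 54) (nat_lit 4) (nat_lit 330) (nat_lit 228) (nat_lit 222))) (XT.nd (nat_lit 78) (nat_lit 228) (nat_lit 0) (XT.lf (nat_lit 0) (nat_lit 5747197914) (nat_lit 228) (nat_lit 6780557343) (nat_lit 228) (nat_lit 1185415210) (nat_lit 51) (nat_lit 4) (nat_lit 54) (nat_lit 5) (nat_lit 54) (nat_lit 4) (nat_lit 331) (nat_lit 228) (nat_lit 221)) (XT.lf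 (nat_lit 0) (nat_lit 3209798499) (nat_lit 152) (nat_lit 1500040224) (nat_lit 228) (nat_lit 9276323752) (nat_lit 48) (nat_lit 5) (nat_lit 50) (nat_lit 5) (nat_lit 51) (nat_lit 4) (nat_lit 332) (nat_lit 228) (nat_lit 220))))))))
noncomputable def xc8 : XT := (XT.nd (nat_lit 2028) (nat_lit 304) (nat_lit 0) (XT.nd (nat_lit 1014) (nat_lit 988) (nat_lit 0) (XT.nd (nat_lit 468) (nat_lit 912) (nat_lit 0) (XT.nd (nat_lit 234) (nat_lit 456) (nat_lit 0) (XT.nd (nat_lit 78) (nat_lit 228) (nat_lit 0) (XT.lf (nat_lit 0) (nat_lit 325640748) (nat_lit 228) (nat_lit 10398838698) (nat_lit 228) (nat_lit 3543583047) (nat_lit 45) (nat_lit 4) (nat_lit 48) (nat_lit 5) (nat_lit 48) (nat_lit 4) (nat_lit 333) (nat_lit 228) (nat_lit 219)) (XT.nd (nat_lit 78) (nat_lit 152) (nat_lit 0) (XT.lf (nat_lit 0) (nat_lit 2291646221) (nat_lit 304) (nat_lit 2881265483) (nat_lit 76) (nat_lit 9386017095) (nat_lit 44) (nat_lit 5) (nat_lit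 48) (nat_lit 5) (nat_lit 45) (nat_lit 4) (nat_lit 334) (nat_lit 228) (nat_lit 218)) (XT.lf (nat_lit 0) (nat_lit 8191421722) (nat_lit 228) (nat_lit 6463210798) (nat_lit 0) (nat_lit 204711486) (nat_lit 42) (nat_lit 5) (nat_lit 45) (nat_lit 4) (nat_lit 42) (nat_lit 4) (nat_lit 335) (nat_lit 228) (nat_lit 217)))) (XT.nd (nat_lit 78) (nat_lit 228) (nat_lit 0) (XT.lf (nat_lit 0) (nat_lit 4710727374) (nat_lit 228) (nat_lit 9525428669) (nat_lit 228) (nat_lit 933299063) (nat_lit 39) (nat_lit 4) (nat_lit 42) (nat_lit 5) (nat_lit 42) (nat_lit 4) (nat_lit 336) (nat_lit 228) (nat_lit 216)) (XT.nd (nat_lit 78) (nat_lit 0) (nat_lit 0) (XT.lf (nat_lit 0) (nat_lit 598035143) (nat_lit 152) (nat_lit 4242534434) (nat_lit 228) (nat_lit 10649046178) (nat_lit 36) (nat_lit 5) (nat_lit 38) (nat_lit 5) (nat_lit 39) (nat_lit 4) (nat_lit 337) (nat_lit 228) (nat_lit 215)) (XT.lf (nat_lit 0) (nat_lit 10740212518) (nat_lit 228)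 (nat_lit 3898960907) (nat_lit 0) (nat_lit 1180819159) (nat_lit 36) (nat_lit 5) (nat_lit 39) (nat_lit 4) (nat_lit 36) (nat_lit 4) (nat_lit 338) (nat_lit 228) (nat_lit 214))))) (XT.nd (nat_lit 234) (nat_lit 532) (nat_lit 0) (XT.nd (nat_lit 78) (nat_lit 152) (nat_lit 0) (XT.lf (nat_lit 0) (nat_lit 612815120) (nat_lit 228) (nat_lit 8864687685) (nat_lit 76) (nat_lit 6683433016) (nat_lit 33) (nat_lit 5) (nat_lit 36) (nat_lit 5) (nat_lit 34) (nat_lit 4) (nat_lit 339) (nat_lit 228) (nat_lit 213)) (XT.nd (nat_lit 78) (nat_lit 0) (nat_lit 0) (XT.lf (nat_lit 0) (nat_lit 2174627850) (nat_lit 152) (nat_lit 4164264301) (nat_lit 228) (nat_lit 10173945797) (nat_lit 31) (nat_lit 5) (nat_lit 33) (nat_lit 5) (nat_lit 34) (nat_lit 4) (nat_lit 340) (nat_lit 228) (nat_lit 212)) (XT.lf (nat_lit 0) (nat_lit 12197795221) (nat_lit 228) (nat_lit 3403986327) (nat_lit 0) (nat_lit 1274330159) (nat_lit 31) (nat_lit 5) (nat_lit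 34) (nat_lit 4) (nat_lit 31) (nat_lit 4) (nat_lit 341) (nat_lit 228) (nat_lit 211)))) (XT.nd (nat_lit 156) (nat_lit 152) (nat_lit 0) (XT.nd (nat_lit 78) (nat_lit 152) (nat_lit 0) (XT.lf (nat_lit 0) (nat_lit 942481271) (nat_lit 228) (nat_lit 9506993522) (nat_lit 76) (nat_lit 6801251461) (nat_lit 28) (nat_lit 5) (nat_lit 31) (nat_lit 5) (nat_lit 29) (nat_lit 4) (nat_lit 342) (nat_lit 228) (nat_lit 210)) (XT.lf (nat_lit 0) (nat_lit 1443392598) (nat_lit 152) (nat_lit 5154302714) (nat_lit 228) (nat_lit 11039711159) (nat_lit 26) (nat_lit 5) (nat_lit 28) (nat_lit 5) (nat_lit 29) (nat_lit 4) (nat_lit 343) (nat_lit 228) (nat_lit 209))) (XT.nd (nat_lit 78) (nat_lit 152) (nat_lit 0) (XT.lf (nat_lit 0) (nat_lit 12387132863) (nat_lit 228) (nat_lit 5363453217) (nat_lit 0) (nat_lit 285841472) (nat_lit 26) (nat_lit 5) (nat_lit 29) (nat_lit 4) (nat_lit 26) (nat_lit 4) (nat_lit 344) (nat_lit 228) (nat_lit 208))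 (XT.lf (nat_lit 0) (nat_lit 5657870350) (nat_lit 152) (nat_lit 12664336504) (nat_lit 152) (nat_lit 125804218) (nat_lit 24) (nat_lit 4) (nat_lit 26) (nat_lit 5) (nat_lit 26) (nat_lit 4) (nat_lit 345) (nat_lit 228) (nat_lit 207)))))) (XT.nd (nat_lit 468) (nat_lit 532) (nat_lit 0) (XT.nd (nat_lit 234) (nat_lit 152) (nat_lit 0) (XT.nd (nat_lit 78) (nat_lit 228) (nat_lit 0) (XT.lf (nat_lit 0) (nat_lit 5428865824) (nat_lit 228) (nat_lit 1996729043) (nat_lit 76) (nat_lit 11446885398) (nat_lit 23) (nat_lit 5) (nat_lit 26) (nat_lit 5) (nat_lit 24) (nat_lit 4) (nat_lit 346) (nat_lit 228) (nat_lit 206)) (XT.nd (nat_lit 78) (nat_lit 152) (nat_lit 0) (XT.lf (nat_lit 0) (nat_lit 9071234613) (nat_lit 76) (nat_lit 2040851575) (nat_lit 152) (nat_lit 8198336856) (nat_lit 22) (nat_lit 5) (nat_lit 23) (nat_lit 5) (nat_lit 24) (nat_lit 4) (nat_lit 347) (nat_lit 228) (nat_lit 205)) (XT.lf (nat_lit 0) (nat_lit 555671561)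 (nat_lit 152) (nat_lit 16356076967) (nat_lit 152) (nat_lit 2850864371) (nat_lit 20) (nat_lit 4) (nat_lit 22) (nat_lit 5) (nat_lit 22) (nat_lit 4) (nat_lit 348) (nat_lit 228) (nat_lit 204)))) (XT.nd (nat_lit 78) (nat_lit 76) (nat_lit 0) (XT.lf (nat_lit 0) (nat_lit 2612674201) (nat_lit 228) (nat_lit 8608476268) (nat_lit 76) (nat_lit 9007089533) (nat_lit 19) (nat_lit 5) (nat_lit 22) (nat_lit 5) (nat_lit 20) (nat_lit 4) (nat_lit 349) (nat_lit 228) (nat_lit 203)) (XT.nd (nat_lit 78) (nat_lit 0) (nat_lit 0) (XT.lf (nat_lit 0) (nat_lit 2157297620) (nat_lit 76) (nat_lit 5968023253) (nat_lit 152) (nat_lit 12583685079) (nat_lit 18) (nat_lit 5) (nat_lit 19) (nat_lit 5) (nat_lit 20) (nat_lit 4) (nat_lit 350) (nat_lit 228) (nat_lit 202)) (XT.lf (nat_lit 0) (nat_lit 13206599180) (nat_lit 76) (nat_lit 566396881) (nat_lit 152) (nat_lit 7431830688) (nat_lit 18) (nat_lit 5) (nat_lit 19) (nat_lit 5) (nat_lit 20)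 (nat_lit 4) (nat_lit 351) (nat_lit 228) (nat_lit 201))))) (XT.nd (nat_lit 234) (nat_lit 228) (nat_lit 0) (XT.nd (nat_lit 78) (nat_lit 152) (nat_lit 0) (XT.lf (nat_lit 0) (nat_lit 2721086984) (nat_lit 152) (nat_lit 16832593284) (nat_lit 152) (nat_lit 2162594454) (nat_lit 16) (nat_lit 4) (nat_lit 18) (nat_lit 5) (nat_lit 18) (nat_lit 4) (nat_lit 352) (nat_lit 228) (nat_lit 200)) (XT.nd (nat_lit 78) (nat_lit 76) (nat_lit 0) (XT.lf (nat_lit 0) (nat_lit 3194663365) (nat_lit 228) (nat_lit 8548537771) (nat_lit 76) (nat_lit 10500008794) (nat_lit 15) (nat_lit 5) (nat_lit 18) (nat_lit 5) (nat_lit 16) (nat_lit 4) (nat_lit 353) (nat_lit 228) (nat_lit 199)) (XT.lf (nat_lit 0) (nat_lit 2076049872) (nat_lit 76) (nat_lit 6537763839) (nat_lit 152) (nat_lit 14173264763) (nat_lit 14) (nat_lit 5) (nat_lit 15) (nat_lit 5) (nat_lit 16) (nat_lit 4) (nat_lit 354) (nat_lit 228) (nat_lit 198)))) (XT.nd (nat_lit 156) (nat_lit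 76) (nat_lit 0) (XT.nd (nat_lit 78) (nat_lit 152) (nat_lit 0) (XT.lf (nat_lit 0) (nat_lit 12990566329) (nat_lit 76) (nat_lit 1181282568) (nat_lit 152) (nat_lit 9175909620) (nat_lit 14) (nat_lit 5) (nat_lit 15) (nat_lit 5) (nat_lit 16) (nat_lit 4) (nat_lit 355) (nat_lit 228) (nat_lit 197)) (XT.lf (nat_lit 0) (nat_lit 138143208) (nat_lit 152) (nat_lit 19707885560) (nat_lit 152) (nat_lit 4080263137) (nat_lit 12) (nat_lit 4) (nat_lit 14) (nat_lit 5) (nat_lit 14) (nat_lit 4) (nat_lit 356) (nat_lit 228) (nat_lit 196))) (XT.nd (nat_lit 78) (nat_lit 0) (nat_lit 0) (XT.lf (nat_lit 0) (nat_lit 1152703797) (nat_lit 228) (nat_lit 13588144595) (nat_lit 76) (nat_lit 9781205749) (nat_lit 11) (nat_lit 5) (nat_lit 14) (nat_lit 5) (nat_lit 12) (nat_lit 4) (nat_lit 357) (nat_lit 228) (nat_lit 195)) (XT.lf (nat_lit 0) (nat_lit 6411060124) (nat_lit 228) (nat_lit 3246831652) (nat_lit 76) (nat_lit 15478800775) (nat_lit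 11) (nat_lit 5) (nat_lit 14) (nat_lit 5) (nat_lit 12) (nat_lit 4) (nat_lit 358) (nat_lit 228) (nat_lit 194))))))) (XT.nd (nat_lit 38298) (nat_lit 0) (nat_lit 1596) (XT.nd (nat_lit 37752) (nat_lit 0) (nat_lit 4104) (XT.nd (nat_lit 234) (nat_lit 152) (nat_lit 0) (XT.nd (nat_lit 78) (nat_lit 76) (nat_lit 0) (XT.lf (nat_lit 0) (nat_lit 7367949994) (nat_lit 76) (nat_lit 4432801534) (nat_lit 152) (nat_lit 13969565754) (nat_lit 10) (nat_lit 5) (nat_lit 11) (nat_lit 5) (nat_lit 12) (nat_lit 4) (nat_lit 359) (nat_lit 228) (nat_lit 193)) (XT.nd (nat_lit 78) (nat_lit 76) (nat_lit 0) (XT.lf (nat_lit 0) (nat_lit 17307121644) (nat_lit 152) (nat_lit 8215537041) (nat_lit 0) (nat_lit 901210617) (nat_lit 10) (nat_lit 5) (nat_lit 12) (nat_lit 4) (nat_lit 10) (nat_lit 4) (nat_lit 360) (nat_lit 228) (nat_lit 192)) (XT.lf (nat_lit 0) (nat_lit 2146928799) (nat_lit 76) (nat_lit 20804151926) (nat_lit 76) (nat_lit 4146516975)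 (nat_lit 9) (nat_lit 4) (nat_lit 10) (nat_lit 5) (nat_lit 10) (nat_lit 4) (nat_lit 361) (nat_lit 228) (nat_lit 191)))) (XT.nd (nat_lit 78) (nat_lit 76) (nat_lit 0) (XT.lf (nat_lit 0) (nat_lit 945688678) (nat_lit 152) (nat_lit 14991735979) (nat_lit 76) (nat_lit 11854291352) (nat_lit 8) (nat_lit 5) (nat_lit 10) (nat_lit 5) (nat_lit 9) (nat_lit 4) (nat_lit 362) (nat_lit 228) (nat_lit 190)) (XT.nd (nat_lit 78) (nat_lit 76) (nat_lit 0) (XT.lf (nat_lit 0) (nat_lit 6066284591) (nat_lit 152) (nat_lit 4885406175) (nat_lit 76) (nat_lit 17555796177) (nat_lit 8) (nat_lit 5) (nat_lit 10) (nat_lit 5) (nat_lit 9) (nat_lit 4) (nat_lit 363) (nat_lit 228) (nat_lit 189)) (XT.lf (nat_lit 0) (nat_lit 5475890512) (nat_lit 76) (nat_lit 5833789988) (nat_lit 152) (nat_lit 17935682808) (nat_lit 7) (nat_lit 5) (nat_lit 8) (nat_lit 5) (nat_lit 9) (nat_lit 4) (nat_lit 364) (nat_lit 228) (nat_lit 188))))) (XT.nd (nat_lit 234)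 (nat_lit 836) (nat_lit 0) (XT.nd (nat_lit 78) (nat_lit 608) (nat_lit 0) (XT.lf (nat_lit 0) (nat_lit 2396103449) (nat_lit 304) (nat_lit 1705984385) (nat_lit 304) (nat_lit 1705984385) (nat_lit 80) (nat_lit 4) (nat_lit 84) (nat_lit 5) (nat_lit 84) (nat_lit 4) (nat_lit 322) (nat_lit 229) (nat_lit 229)) (XT.nd (nat_lit 78) (nat_lit 304) (nat_lit 0) (XT.lf (nat_lit 0) (nat_lit 2582426589) (nat_lit 304) (nat_lit 7609229283) (nat_lit 0) (nat_lit 1629402523) (nat_lit 76) (nat_lit 5) (nat_lit 80) (nat_lit 4) (nat_lit 76) (nat_lit 4) (nat_lit 323) (nat_lit 229) (nat_lit 228)) (XT.lf (nat_lit 0) (nat_lit 3418878169) (nat_lit 304) (nat_lit 5246026942) (nat_lit 304) (nat_lit 3367736793) (nat_lit 72) (nat_lit 4) (nat_lit 76) (nat_lit 5) (nat_lit 76) (nat_lit 4) (nat_lit 324) (nat_lit 229) (nat_lit 227)))) (XT.nd (nat_lit 156) (nat_lit 304) (nat_lit 0) (XT.nd (nat_lit 78) (nat_lit 228) (nat_lit 0) (XT.lf (nat_lit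 0) (nat_lit 2427360313) (nat_lit 228) (nat_lit 148860997) (nat_lit 304) (nat_lit 9675424370) (nat_lit 68) (nat_lit 5) (nat_lit 71) (nat_lit 5) (nat_lit 72) (nat_lit 4) (nat_lit 325) (nat_lit 229) (nat_lit 226)) (XT.lf (nat_lit 0) (nat_lit 1183252131) (nat_lit 228) (nat_lit 7435736090) (nat_lit 228) (nat_lit 3858521619) (nat_lit 65) (nat_lit 4) (nat_lit 68) (nat_lit 5) (nat_lit 68) (nat_lit 4) (nat_lit 326) (nat_lit 229) (nat_lit 225))) (XT.nd (nat_lit 78) (nat_lit 228) (nat_lit 0) (XT.lf (nat_lit 0) (nat_lit 2040921752) (nat_lit 304) (nat_lit 284699137) (nat_lit 76) (nat_lit 10385589405) (nat_lit 64) (nat_lit 5) (nat_lit 68) (nat_lit 5) (nat_lit 65) (nat_lit 4) (nat_lit 327) (nat_lit 229) (nat_lit 224)) (XT.lf (nat_lit 0) (nat_lit 8027435311) (nat_lit 304) (nat_lit 2008453180) (nat_lit 0) (nat_lit 2916328785) (nat_lit 61) (nat_lit 5) (nat_lit 65) (nat_lit 4) (nat_lit 61) (nat_lit 4) (nat_lit 328)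 (nat_lit 229) (nat_lit 223)))))) (XT.nd (nat_lit 546) (nat_lit 1064) (nat_lit 0) (XT.nd (nat_lit 234) (nat_lit 684) (nat_lit 0) (XT.nd (nat_lit 78) (nat_lit 456) (nat_lit 0) (XT.lf (nat_lit 0) (nat_lit 930686769) (nat_lit 304) (nat_lit 3998269051) (nat_lit 76) (nat_lit 8272410366) (nat_lit 57) (nat_lit 5) (nat_lit 61) (nat_lit 5) (nat_lit 58) (nat_lit 4) (nat_lit 329) (nat_lit 229) (nat_lit 222)) (XT.nd (nat_lit 78) (nat_lit 228) (nat_lit 0) (XT.lf (nat_lit 0) (nat_lit 6832999560) (nat_lit 304) (nat_lit 6285827172) (nat_lit 0) (nat_lit 339801564) (nat_lit 54) (nat_lit 5) (nat_lit 58) (nat_lit 4) (nat_lit 54) (nat_lit 4) (nat_lit 330) (nat_lit 229) (nat_lit 221)) (XT.lf (nat_lit 0) (nat_lit 4835558034) (nat_lit 228) (nat_lit 8045429878) (nat_lit 228) (nat_lit 843298291) (nat_lit 51) (nat_lit 4) (nat_lit 54) (nat_lit 5) (nat_lit 54) (nat_lit 4) (nat_lit 331) (nat_lit 229) (nat_lit 220)))) (XT.nd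 (nat_lit 156) (nat_lit 456) (nat_lit 0) (XT.nd (nat_lit 78) (nat_lit 0) (nat_lit 0) (XT.lf (nat_lit 0) (nat_lit 2170842283) (nat_lit 152) (nat_lit 2809978959) (nat_lit 228) (nat_lit 9017768967) (nat_lit 48) (nat_lit 5) (nat_lit 50) (nat_lit 5) (nat_lit 51) (nat_lit 4) (nat_lit 332) (nat_lit 229) (nat_lit 219)) (XT.lf (nat_lit 0) (nat_lit 10925785308) (nat_lit 228) (nat_lit 821173704) (nat_lit 0) (nat_lit 2534947534) (nat_lit 48) (nat_lit 5) (nat_lit 51) (nat_lit 4) (nat_lit 48) (nat_lit 4) (nat_lit 333) (nat_lit 229) (nat_lit 218))) (XT.nd (nat_lit 78) (nat_lit 152) (nat_lit 0) (XT.lf (nat_lit 0) (nat_lit 2412831569) (nat_lit 304) (nat_lit 4152971594) (nat_lit 76) (nat_lit 8008243392) (nat_lit 44) (nat_lit 5) (nat_lit 48) (nat_lit 5) (nat_lit 45) (nat_lit 4) (nat_lit 334) (nat_lit 229) (nat_lit 217)) (XT.lf (nat_lit 0) (nat_lit 7011658918) (nat_lit 152) (nat_lit 1233924270) (nat_lit 228) (nat_lit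 6630240110) (nat_lit 42) (nat_lit 5) (nat_lit 44) (nat_lit 5) (nat_lit 45) (nat_lit 4) (nat_lit 335) (nat_lit 229) (nat_lit 216))))) (XT.nd (nat_lit 234) (nat_lit 608) (nat_lit 0) (XT.nd (nat_lit 78) (nat_lit 228) (nat_lit 0) (XT.lf (nat_lit 0) (nat_lit 3202716532) (nat_lit 228) (nat_lit 11013905442) (nat_lit 228) (nat_lit 970806780) (nat_lit 39) (nat_lit 4) (nat_lit 42) (nat_lit 5) (nat_lit 42) (nat_lit 4) (nat_lit 336) (nat_lit 229) (nat_lit 215)) (XT.nd (nat_lit 78) (nat_lit 152) (nat_lit 0) (XT.lf (nat_lit 0) (nat_lit 4744414174) (nat_lit 304) (nat_lit 1030047852) (nat_lit 76) (nat_lit 9734334500) (nat_lit 38) (nat_lit 5) (nat_lit 42) (nat_lit 5) (nat_lit 39) (nat_lit 4) (nat_lit 337) (nat_lit 229) (nat_lit 214)) (XT.lf (nat_lit 0) (nat_lit 10194218242) (nat_lit 152) (nat_lit 381042754) (nat_lit 228) (nat_lit 5265307174) (nat_lit 36) (nat_lit 5) (nat_lit 38) (nat_lit 5) (nat_lit 39) (nat_lit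 4) (nat_lit 338) (nat_lit 229) (nat_lit 213)))) (XT.nd (nat_lit 156) (nat_lit 228) (nat_lit 0) (XT.nd (nat_lit 78) (nat_lit 152) (nat_lit 0) (XT.lf (nat_lit 0) (nat_lit 361788536) (nat_lit 228) (nat_lit 10745379549) (nat_lit 76) (nat_lit 5075744050) (nat_lit 33) (nat_lit 5) (nat_lit 36) (nat_lit 5) (nat_lit 34) (nat_lit 4) (nat_lit 339) (nat_lit 229) (nat_lit 212)) (XT.lf (nat_lit 0) (nat_lit 177421749) (nat_lit 152) (nat_lit 5845159542) (nat_lit 228) (nat_lit 10513556117) (nat_lit 31) (nat_lit 5) (nat_lit 33) (nat_lit 5) (nat_lit 34) (nat_lit 4) (nat_lit 340) (nat_lit 229) (nat_lit 211))) (XT.nd (nat_lit 78) (nat_lit 228) (nat_lit 0) (XT.lf (nat_lit 0) (nat_lit 11394615529) (nat_lit 152) (nat_lit 427114882) (nat_lit 228) (nat_lit 5078892786) (nat_lit 31) (nat_lit 5) (nat_lit 33) (nat_lit 5) (nat_lit 34) (nat_lit 4) (nat_lit 341) (nat_lit 229) (nat_lit 210)) (XT.lf (nat_lit 0) (nat_lit 479429998)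 (nat_lit 228) (nat_lit 11745168139) (nat_lit 76) (nat_lit 5052062331) (nat_lit 28) (nat_lit 5) (nat_lit 31) (nat_lit 5) (nat_lit 29) (nat_lit 4) (nat_lit 342) (nat_lit 229) (nat_lit 209))))))))
noncomputable def xc9 : XT := (XT.nd (nat_lit 39156) (nat_lit 0) (nat_lit 912) (XT.nd (nat_lit 1014) (nat_lit 532) (nat_lit 0) (XT.nd (nat_lit 468) (nat_lit 608) (nat_lit 0) (XT.nd (nat_lit 234) (nat_lit 152) (nat_lit 0) (XT.nd (nat_lit 78) (nat_lit 304) (nat_lit 0) (XT.lf (nat_lit 0) (nat_lit 6075724208) (nat_lit 228) (nat_lit 900019118) (nat_lit 76) (nat_lit 10688791419) (nat_lit 28) (nat_lit 5) (nat_lit 31) (nat_lit 5) (nat_lit 29) (nat_lit 4) (nat_lit 343) (nat_lit 229) (nat_lit 208)) (XT.nd (nat_lit 78) (nat_lit 152) (nat_lit 0) (XT.lf (nat_lit 0) (nat_lit 10234613461) (nat_lit 152) (nat_lit 1574090100) (nat_lit 228) (nat_lit 6255996638) (nat_lit 26) (nat_lit 5) (nat_lit 28) (nat_lit 5) (nat_lit 29)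 (nat_lit 4) (nat_lit 344) (nat_lit 229) (nat_lit 207)) (XT.lf (nat_lit 0) (nat_lit 3084542646) (nat_lit 152) (nat_lit 14584839312) (nat_lit 152) (nat_lit 808404438) (nat_lit 24) (nat_lit 4) (nat_lit 26) (nat_lit 5) (nat_lit 26) (nat_lit 4) (nat_lit 345) (nat_lit 229) (nat_lit 206)))) (XT.nd (nat_lit 78) (nat_lit 76) (nat_lit 0) (XT.lf (nat_lit 0) (nat_lit 4708278714) (nat_lit 228) (nat_lit 4677853349) (nat_lit 76) (nat_lit 9517165004) (nat_lit 23) (nat_lit 5) (nat_lit 26) (nat_lit 5) (nat_lit 24) (nat_lit 4) (nat_lit 346) (nat_lit 229) (nat_lit 205)) (XT.nd (nat_lit 78) (nat_lit 0) (nat_lit 0) (XT.lf (nat_lit 0) (nat_lit 6273364109) (nat_lit 76) (nat_lit 4054397187) (nat_lit 152) (nat_lit 9014766951) (nat_lit 22) (nat_lit 5) (nat_lit 23) (nat_lit 5) (nat_lit 24) (nat_lit 4) (nat_lit 347) (nat_lit 229) (nat_lit 204)) (XT.lf (nat_lit 0) (nat_lit 16065765722) (nat_lit 152) (nat_lit 2347959124) (nat_lit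 0) (nat_lit 1382239661) (nat_lit 22) (nat_lit 5) (nat_lit 24) (nat_lit 4) (nat_lit 22) (nat_lit 4) (nat_lit 348) (nat_lit 229) (nat_lit 203))))) (XT.nd (nat_lit 234) (nat_lit 304) (nat_lit 0) (XT.nd (nat_lit 78) (nat_lit 76) (nat_lit 0) (XT.lf (nat_lit 0) (nat_lit 1684843521) (nat_lit 228) (nat_lit 11649914537) (nat_lit 76) (nat_lit 6928160925) (nat_lit 19) (nat_lit 5) (nat_lit 22) (nat_lit 5) (nat_lit 20) (nat_lit 4) (nat_lit 349) (nat_lit 229) (nat_lit 202)) (XT.nd (nat_lit 78) (nat_lit 76) (nat_lit 0) (XT.lf (nat_lit 0) (nat_lit 7140299609) (nat_lit 228) (nat_lit 988895558) (nat_lit 76) (nat_lit 12615645818) (nat_lit 19) (nat_lit 5) (nat_lit 22) (nat_lit 5) (nat_lit 20) (nat_lit 4) (nat_lit 350) (nat_lit 229) (nat_lit 201)) (XT.lf (nat_lit 0) (nat_lit 9972043033) (nat_lit 76) (nat_lit 2767011295) (nat_lit 152) (nat_lit 8502597749) (nat_lit 18) (nat_lit 5) (nat_lit 19) (nat_lit 5) (nat_lit 20)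 (nat_lit 4) (nat_lit 351) (nat_lit 229) (nat_lit 200)))) (XT.nd (nat_lit 156) (nat_lit 76) (nat_lit 0) (XT.nd (nat_lit 78) (nat_lit 228) (nat_lit 0) (XT.lf (nat_lit 0) (nat_lit 18446397588) (nat_lit 152) (nat_lit 645352675) (nat_lit 0) (nat_lit 2662828147) (nat_lit 18) (nat_lit 5) (nat_lit 20) (nat_lit 4) (nat_lit 18) (nat_lit 4) (nat_lit 352) (nat_lit 229) (nat_lit 199)) (XT.lf (nat_lit 0) (nat_lit 2018896379) (nat_lit 228) (nat_lit 12027494812) (nat_lit 76) (nat_lit 8236186272) (nat_lit 15) (nat_lit 5) (nat_lit 18) (nat_lit 5) (nat_lit 16) (nat_lit 4) (nat_lit 353) (nat_lit 229) (nat_lit 198))) (XT.nd (nat_lit 78) (nat_lit 76) (nat_lit 0) (XT.lf (nat_lit 0) (nat_lit 7384828477) (nat_lit 228) (nat_lit 1501026592) (nat_lit 76) (nat_lit 13941665967) (nat_lit 15) (nat_lit 5) (nat_lit 18) (nat_lit 5) (nat_lit 16) (nat_lit 4) (nat_lit 354) (nat_lit 229) (nat_lit 197)) (XT.lf (nat_lit 0) (nat_lit 9323800488)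 (nat_lit 76) (nat_lit 3570153487) (nat_lit 152) (nat_lit 10495235651) (nat_lit 14) (nat_lit 5) (nat_lit 15) (nat_lit 5) (nat_lit 16) (nat_lit 4) (nat_lit 355) (nat_lit 229) (nat_lit 196)))))) (XT.nd (nat_lit 468) (nat_lit 228) (nat_lit 0) (XT.nd (nat_lit 234) (nat_lit 76) (nat_lit 0) (XT.nd (nat_lit 78) (nat_lit 228) (nat_lit 0) (XT.lf (nat_lit 0) (nat_lit 18513635646) (nat_lit 152) (nat_lit 3624640036) (nat_lit 0) (nat_lit 1830547348) (nat_lit 14) (nat_lit 5) (nat_lit 16) (nat_lit 4) (nat_lit 14) (nat_lit 4) (nat_lit 356) (nat_lit 229) (nat_lit 195)) (XT.nd (nat_lit 78) (nat_lit 76) (nat_lit 0) (XT.lf (nat_lit 0) (nat_lit 7063515173) (nat_lit 152) (nat_lit 17233055971) (nat_lit 152) (nat_lit 269400835) (nat_lit 12) (nat_lit 4) (nat_lit 14) (nat_lit 5) (nat_lit 14) (nat_lit 4) (nat_lit 357) (nat_lit 229) (nat_lit 194)) (XT.lf (nat_lit 0) (nat_lit 4955910785) (nat_lit 228) (nat_lit 7225110337) (nat_lit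 76) (nat_lit 13000365097) (nat_lit 11) (nat_lit 5) (nat_lit 14) (nat_lit 5) (nat_lit 12) (nat_lit 4) (nat_lit 358) (nat_lit 229) (nat_lit 193)))) (XT.nd (nat_lit 78) (nat_lit 0) (nat_lit 0) (XT.lf (nat_lit 0) (nat_lit 3272152633) (nat_lit 76) (nat_lit 7011344353) (nat_lit 152) (nat_lit 15532765087) (nat_lit 10) (nat_lit 5) (nat_lit 11) (nat_lit 5) (nat_lit 12) (nat_lit 4) (nat_lit 359) (nat_lit 229) (nat_lit 192)) (XT.nd (nat_lit 78) (nat_lit 0) (nat_lit 0) (XT.lf (nat_lit 0) (nat_lit 14055816046) (nat_lit 76) (nat_lit 1693236293) (nat_lit 152) (nat_lit 10721586805) (nat_lit 10) (nat_lit 5) (nat_lit 11) (nat_lit 5) (nat_lit 12) (nat_lit 4) (nat_lit 360) (nat_lit 229) (nat_lit 191)) (XT.lf (nat_lit 0) (nat_lit 21334033120) (nat_lit 152) (nat_lit 2130969450) (nat_lit 0) (nat_lit 3680553039) (nat_lit 10) (nat_lit 5) (nat_lit 12) (nat_lit 4) (nat_lit 10) (nat_lit 4) (nat_lit 361) (nat_lit 229) (nat_lit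 190))))) (XT.nd (nat_lit 37362) (nat_lit 0) (nat_lit 5244) (XT.nd (nat_lit 78) (nat_lit 152) (nat_lit 0) (XT.lf (nat_lit 0) (nat_lit 8439656866) (nat_lit 76) (nat_lit 18645926538) (nat_lit 76) (nat_lit 755172516) (nat_lit 9) (nat_lit 4) (nat_lit 10) (nat_lit 5) (nat_lit 10) (nat_lit 4) (nat_lit 362) (nat_lit 229) (nat_lit 189)) (XT.nd (nat_lit 78) (nat_lit 76) (nat_lit 0) (XT.lf (nat_lit 0) (nat_lit 4342632548) (nat_lit 152) (nat_lit 9348999322) (nat_lit 76) (nat_lit 14865654801) (nat_lit 8) (nat_lit 5) (nat_lit 10) (nat_lit 5) (nat_lit 9) (nat_lit 4) (nat_lit 363) (nat_lit 229) (nat_lit 188)) (XT.lf (nat_lit 0) (nat_lit 894804773) (nat_lit 76) (nat_lit 8629737449) (nat_lit 152) (nat_lit 19771858166) (nat_lit 7) (nat_lit 5) (nat_lit 8) (nat_lit 5) (nat_lit 9) (nat_lit 4) (nat_lit 364) (nat_lit 229) (nat_lit 187)))) (XT.nd (nat_lit 156) (nat_lit 608) (nat_lit 0) (XT.nd (nat_lit 78) (nat_lit 304)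 (nat_lit 0) (XT.lf (nat_lit 0) (nat_lit 2759603069) (nat_lit 304) (nat_lit 1426458613) (nat_lit 304) (nat_lit 1426458613) (nat_lit 88) (nat_lit 4) (nat_lit 92) (nat_lit 5) (nat_lit 92) (nat_lit 4) (nat_lit 320) (nat_lit 230) (nat_lit 230)) (XT.lf (nat_lit 0) (nat_lit 3096458747) (nat_lit 304) (nat_lit 6226396542) (nat_lit 0) (nat_lit 2095211663) (nat_lit 84) (nat_lit 5) (nat_lit 88) (nat_lit 4) (nat_lit 84) (nat_lit 4) (nat_lit 321) (nat_lit 230) (nat_lit 229))) (XT.nd (nat_lit 78) (nat_lit 304) (nat_lit 0) (XT.lf (nat_lit 0) (nat_lit 4683674521) (nat_lit 304) (nat_lit 4453599172) (nat_lit 304) (nat_lit 2480267541) (nat_lit 80) (nat_lit 4) (nat_lit 84) (nat_lit 5) (nat_lit 84) (nat_lit 4) (nat_lit 322) (nat_lit 230) (nat_lit 228)) (XT.lf (nat_lit 0) (nat_lit 3426821359) (nat_lit 304) (nat_lit 7830130347) (nat_lit 0) (nat_lit 566916422) (nat_lit 76) (nat_lit 5) (nat_lit 80) (nat_lit 4) (nat_lit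 76) (nat_lit 4) (nat_lit 323) (nat_lit 230) (nat_lit 227))))))) (XT.nd (nat_lit 1014) (nat_lit 1520) (nat_lit 0) (XT.nd (nat_lit 468) (nat_lit 1368) (nat_lit 0) (XT.nd (nat_lit 234) (nat_lit 608) (nat_lit 0) (XT.nd (nat_lit 78) (nat_lit 532) (nat_lit 0) (XT.lf (nat_lit 0) (nat_lit 3087988635) (nat_lit 304) (nat_lit 6353535641) (nat_lit 304) (nat_lit 2595314118) (nat_lit 72) (nat_lit 4) (nat_lit 76) (nat_lit 5) (nat_lit 76) (nat_lit 4) (nat_lit 324) (nat_lit 230) (nat_lit 226)) (XT.nd (nat_lit 78) (nat_lit 228) (nat_lit 0) (XT.lf (nat_lit 0) (nat_lit 1976520067) (nat_lit 228) (nat_lit 1294219345) (nat_lit 304) (nat_lit 8986387679) (nat_lit 68) (nat_lit 5) (nat_lit 71) (nat_lit 5) (nat_lit 72) (nat_lit 4) (nat_lit 325) (nat_lit 230) (nat_lit 225)) (XT.lf (nat_lit 0) (nat_lit 622846486) (nat_lit 228) (nat_lit 8615700670) (nat_lit 228) (nat_lit 3245972154) (nat_lit 65) (nat_lit 4) (nat_lit 68) (nat_lit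 5) (nat_lit 68) (nat_lit 4) (nat_lit 326) (nat_lit 230) (nat_lit 224)))) (XT.nd (nat_lit 78) (nat_lit 532) (nat_lit 0) (XT.lf (nat_lit 0) (nat_lit 2582305814) (nat_lit 304) (nat_lit 959438349) (nat_lit 76) (nat_lit 9177686176) (nat_lit 64) (nat_lit 5) (nat_lit 68) (nat_lit 5) (nat_lit 65) (nat_lit 4) (nat_lit 327) (nat_lit 230) (nat_lit 223)) (XT.nd (nat_lit 78) (nat_lit 304) (nat_lit 0) (XT.lf (nat_lit 0) (nat_lit 8494244121) (nat_lit 304) (nat_lit 2795221082) (nat_lit 0) (nat_lit 1672490307) (nat_lit 61) (nat_lit 5) (nat_lit 65) (nat_lit 4) (nat_lit 61) (nat_lit 4) (nat_lit 328) (nat_lit 230) (nat_lit 222)) (XT.lf (nat_lit 0) (nat_lit 1315067723) (nat_lit 304) (nat_lit 4910122643) (nat_lit 76) (nat_lit 6987214001) (nat_lit 57) (nat_lit 5) (nat_lit 61) (nat_lit 5) (nat_lit 58) (nat_lit 4) (nat_lit 329) (nat_lit 230) (nat_lit 221))))) (XT.nd (nat_lit 234) (nat_lit 684) (nat_lit 0) (XT.nd (nat_lit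 78) (nat_lit 456) (nat_lit 0) (XT.lf (nat_lit 0) (nat_lit 6150907325) (nat_lit 228) (nat_lit 997894176) (nat_lit 304) (nat_lit 6322261217) (nat_lit 54) (nat_lit 5) (nat_lit 57) (nat_lit 5) (nat_lit 58) (nat_lit 4) (nat_lit 330) (nat_lit 230) (nat_lit 220)) (XT.nd (nat_lit 78) (nat_lit 228) (nat_lit 0) (XT.lf (nat_lit 0) (nat_lit 3694515511) (nat_lit 228) (nat_lit 9429548864) (nat_lit 228) (nat_lit 614134699) (nat_lit 51) (nat_lit 4) (nat_lit 54) (nat_lit 5) (nat_lit 54) (nat_lit 4) (nat_lit 331) (nat_lit 230) (nat_lit 219)) (XT.lf (nat_lit 0) (nat_lit 900305344) (nat_lit 152) (nat_lit 4240267631) (nat_lit 228) (nat_lit 8873251260) (nat_lit 48) (nat_lit 5) (nat_lit 50) (nat_lit 5) (nat_lit 51) (nat_lit 4) (nat_lit 332) (nat_lit 230) (nat_lit 218)))) (XT.nd (nat_lit 156) (nat_lit 380) (nat_lit 0) (XT.nd (nat_lit 78) (nat_lit 304) (nat_lit 0) (XT.lf (nat_lit 0) (nat_lit 11018913387) (nat_lit 228)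 (nat_lit 2194420091) (nat_lit 0) (nat_lit 1085161691) (nat_lit 48) (nat_lit 5) (nat_lit 51) (nat_lit 4) (nat_lit 48) (nat_lit 4) (nat_lit 333) (nat_lit 230) (nat_lit 217)) (XT.lf (nat_lit 0) (nat_lit 2422593598) (nat_lit 304) (nat_lit 5657640385) (nat_lit 76) (nat_lit 6511727787) (nat_lit 44) (nat_lit 5) (nat_lit 48) (nat_lit 5) (nat_lit 45) (nat_lit 4) (nat_lit 334) (nat_lit 230) (nat_lit 216))) (XT.nd (nat_lit 78) (nat_lit 228) (nat_lit 0) (XT.lf (nat_lit 0) (nat_lit 5392584554) (nat_lit 152) (nat_lit 2797220159) (nat_lit 228) (nat_lit 6705265055) (nat_lit 42) (nat_lit 5) (nat_lit 44) (nat_lit 5) (nat_lit 45) (nat_lit 4) (nat_lit 335) (nat_lit 230) (nat_lit 215)) (XT.lf (nat_lit 0) (nat_lit 1459163219) (nat_lit 228) (nat_lit 12625944901) (nat_lit 228) (nat_lit 1123101660) (nat_lit 39) (nat_lit 4) (nat_lit 42) (nat_lit 5) (nat_lit 42) (nat_lit 4) (nat_lit 336) (nat_lit 230) (nat_lit 214))))))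 (XT.nd (nat_lit 546) (nat_lit 684) (nat_lit 0) (XT.nd (nat_lit 234) (nat_lit 456) (nat_lit 0) (XT.nd (nat_lit 78) (nat_lit 304) (nat_lit 0) (XT.lf (nat_lit 0) (nat_lit 4540469322) (nat_lit 304) (nat_lit 2885139696) (nat_lit 76) (nat_lit 8105080150) (nat_lit 38) (nat_lit 5) (nat_lit 42) (nat_lit 5) (nat_lit 39) (nat_lit 4) (nat_lit 337) (nat_lit 230) (nat_lit 213)) (XT.nd (nat_lit 78) (nat_lit 152) (nat_lit 0) (XT.lf (nat_lit 0) (nat_lit 8224215374) (nat_lit 152) (nat_lit 2082225403) (nat_lit 228) (nat_lit 5557335885) (nat_lit 36) (nat_lit 5) (nat_lit 38) (nat_lit 5) (nat_lit 39) (nat_lit 4) (nat_lit 338) (nat_lit 230) (nat_lit 212)) (XT.lf (nat_lit 0) (nat_lit 3341844486) (nat_lit 152) (nat_lit 12862850339) (nat_lit 152) (nat_lit 3012040) (nat_lit 34) (nat_lit 4) (nat_lit 36) (nat_lit 5) (nat_lit 36) (nat_lit 4) (nat_lit 339) (nat_lit 230) (nat_lit 211)))) (XT.nd (nat_lit 156) (nat_lit 228) (nat_lit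 0) (XT.nd (nat_lit 78) (nat_lit 152) (nat_lit 0) (XT.lf (nat_lit 0) (nat_lit 5605874987) (nat_lit 228) (nat_lit 2033058268) (nat_lit 76) (nat_lit 8923055129) (nat_lit 33) (nat_lit 5) (nat_lit 36) (nat_lit 5) (nat_lit 34) (nat_lit 4) (nat_lit 340) (nat_lit 230) (nat_lit 210)) (XT.lf (nat_lit 0) (nat_lit 9070850075) (nat_lit 152) (nat_lit 2270924669) (nat_lit 228) (nat_lit 5585980873) (nat_lit 31) (nat_lit 5) (nat_lit 33) (nat_lit 5) (nat_lit 34) (nat_lit 4) (nat_lit 341) (nat_lit 230) (nat_lit 209))) (XT.nd (nat_lit 78) (nat_lit 76) (nat_lit 0) (XT.lf (nat_lit 0) (nat_lit 3079067202) (nat_lit 152) (nat_lit 14126936412) (nat_lit 152) (nat_lit 99399647) (nat_lit 29) (nat_lit 4) (nat_lit 31) (nat_lit 5) (nat_lit 31) (nat_lit 4) (nat_lit 342) (nat_lit 230) (nat_lit 208)) (XT.lf (nat_lit 0) (nat_lit 5450092993) (nat_lit 228) (nat_lit 3464334630) (nat_lit 76) (nat_lit 8779840137) (nat_lit 28) (nat_lit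 5) (nat_lit 31) (nat_lit 5) (nat_lit 29) (nat_lit 4) (nat_lit 343) (nat_lit 230) (nat_lit 207))))) (XT.nd (nat_lit 234) (nat_lit 304) (nat_lit 0) (XT.nd (nat_lit 78) (nat_lit 228) (nat_lit 0) (XT.lf (nat_lit 0) (nat_lit 7553786028) (nat_lit 152) (nat_lit 3565176518) (nat_lit 228) (nat_lit 6976767629) (nat_lit 26) (nat_lit 5) (nat_lit 28) (nat_lit 5) (nat_lit 29) (nat_lit 4) (nat_lit 344) (nat_lit 230) (nat_lit 206)) (XT.nd (nat_lit 78) (nat_lit 76) (nat_lit 0) (XT.lf (nat_lit 0) (nat_lit 267930013) (nat_lit 152) (nat_lit 16634410908) (nat_lit 152) (nat_lit 1608035786) (nat_lit 24) (nat_lit 4) (nat_lit 26) (nat_lit 5) (nat_lit 26) (nat_lit 4) (nat_lit 345) (nat_lit 230) (nat_lit 205)) (XT.lf (nat_lit 0) (nat_lit 3873562524) (nat_lit 228) (nat_lit 7601916179) (nat_lit 76) (nat_lit 7461437598) (nat_lit 23) (nat_lit 5) (nat_lit 26) (nat_lit 5) (nat_lit 24) (nat_lit 4) (nat_lit 346) (nat_lit 230) (nat_lit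 204)))) (XT.nd (nat_lit 156) (nat_lit 228) (nat_lit 0) (XT.nd (nat_lit 78) (nat_lit 0) (nat_lit 0) (XT.lf (nat_lit 0) (nat_lit 3231689142) (nat_lit 76) (nat_lit 6197362587) (nat_lit 152) (nat_lit 9948388867) (nat_lit 22) (nat_lit 5) (nat_lit 23) (nat_lit 5) (nat_lit 24) (nat_lit 4) (nat_lit 347) (nat_lit 230) (nat_lit 203)) (XT.lf (nat_lit 0) (nat_lit 14339146865) (nat_lit 76) (nat_lit 775363062) (nat_lit 152) (nat_lit 4717430716) (nat_lit 22) (nat_lit 5) (nat_lit 23) (nat_lit 5) (nat_lit 24) (nat_lit 4) (nat_lit 348) (nat_lit 230) (nat_lit 202))) (XT.nd (nat_lit 78) (nat_lit 0) (nat_lit 0) (XT.lf (nat_lit 0) (nat_lit 641514447) (nat_lit 228) (nat_lit 14937812929) (nat_lit 76) (nat_lit 4721089077) (nat_lit 19) (nat_lit 5) (nat_lit 22) (nat_lit 5) (nat_lit 20) (nat_lit 4) (nat_lit 349) (nat_lit 230) (nat_lit 201)) (XT.lf (nat_lit 0) (nat_lit 6055044343) (nat_lit 228) (nat_lit 4351028479) (nat_lit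 76) (nat_lit 10377116043) (nat_lit 19) (nat_lit 5) (nat_lit 22) (nat_lit 5) (nat_lit 20) (nat_lit 4) (nat_lit 350) (nat_lit 230) (nat_lit 200))))))))
noncomputable def xc10 : XT := (XT.nd (nat_lit 39000) (nat_lit 0) (nat_lit 456) (XT.nd (nat_lit 1014) (nat_lit 0) (nat_lit 0) (XT.nd (nat_lit 468) (nat_lit 456) (nat_lit 0) (XT.nd (nat_lit 234) (nat_lit 76) (nat_lit 0) (XT.nd (nat_lit 78) (nat_lit 228) (nat_lit 0) (XT.lf (nat_lit 0) (nat_lit 6492198973) (nat_lit 76) (nat_lit 5098301593) (nat_lit 152) (nat_lit 9690776901) (nat_lit 18) (nat_lit 5) (nat_lit 19) (nat_lit 5) (nat_lit 20) (nat_lit 4) (nat_lit 351) (nat_lit 230) (nat_lit 199)) (XT.nd (nat_lit 78) (nat_lit 228) (nat_lit 0) (XT.lf (nat_lit 0) (nat_lit 17242526962) (nat_lit 152) (nat_lit 4221198936) (nat_lit 0) (nat_lit 331595442) (nat_lit 18) (nat_lit 5) (nat_lit 20) (nat_lit 4) (nat_lit 18) (nat_lit 4) (nat_lit 352) (nat_lit 230) (nat_lit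 198)) (XT.lf (nat_lit 0) (nat_lit 727185897) (nat_lit 228) (nat_lit 15754730627) (nat_lit 76) (nat_lit 5842844555) (nat_lit 15) (nat_lit 5) (nat_lit 18) (nat_lit 5) (nat_lit 16) (nat_lit 4) (nat_lit 353) (nat_lit 230) (nat_lit 197)))) (XT.nd (nat_lit 78) (nat_lit 76) (nat_lit 0) (XT.lf (nat_lit 0) (nat_lit 6054536291) (nat_lit 228) (nat_lit 5297089257) (nat_lit 76) (nat_lit 11518861092) (nat_lit 15) (nat_lit 5) (nat_lit 18) (nat_lit 5) (nat_lit 16) (nat_lit 4) (nat_lit 354) (nat_lit 230) (nat_lit 196)) (XT.nd (nat_lit 78) (nat_lit 0) (nat_lit 0) (XT.lf (nat_lit 0) (nat_lit 5409579932) (nat_lit 76) (nat_lit 6091210175) (nat_lit 152) (nat_lit 11932632607) (nat_lit 14) (nat_lit 5) (nat_lit 15) (nat_lit 5) (nat_lit 16) (nat_lit 4) (nat_lit 355) (nat_lit 230) (nat_lit 195)) (XT.lf (nat_lit 0) (nat_lit 16376508300) (nat_lit 76) (nat_lit 695126630) (nat_lit 152) (nat_lit 6942407684) (nat_lit 14) (nat_lit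 5) (nat_lit 15) (nat_lit 5) (nat_lit 16) (nat_lit 4) (nat_lit 356) (nat_lit 230) (nat_lit 194))))) (XT.nd (nat_lit 234) (nat_lit 228) (nat_lit 0) (XT.nd (nat_lit 78) (nat_lit 76) (nat_lit 0) (XT.lf (nat_lit 0) (nat_lit 2936644630) (nat_lit 152) (nat_lit 19850713634) (nat_lit 152) (nat_lit 1825187017) (nat_lit 12) (nat_lit 4) (nat_lit 14) (nat_lit 5) (nat_lit 14) (nat_lit 4) (nat_lit 357) (nat_lit 230) (nat_lit 193)) (XT.nd (nat_lit 78) (nat_lit 0) (nat_lit 0) (XT.lf (nat_lit 0) (nat_lit 3385016449) (nat_lit 228) (nat_lit 11452254543) (nat_lit 76) (nat_lit 10391609823) (nat_lit 11) (nat_lit 5) (nat_lit 14) (nat_lit 5) (nat_lit 12) (nat_lit 4) (nat_lit 358) (nat_lit 230) (nat_lit 192)) (XT.lf (nat_lit 0) (nat_lit 8656879441) (nat_lit 228) (nat_lit 1059849701) (nat_lit 76) (nat_lit 16148150746) (nat_lit 11) (nat_lit 5) (nat_lit 14) (nat_lit 5) (nat_lit 12) (nat_lit 4) (nat_lit 359) (nat_lit 230) (nat_lit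 191)))) (XT.nd (nat_lit 156) (nat_lit 152) (nat_lit 0) (XT.nd (nat_lit 78) (nat_lit 0) (nat_lit 0) (XT.lf (nat_lit 0) (nat_lit 9648790564) (nat_lit 76) (nat_lit 4432801881) (nat_lit 152) (nat_lit 12438489863) (nat_lit 10) (nat_lit 5) (nat_lit 11) (nat_lit 5) (nat_lit 12) (nat_lit 4) (nat_lit 360) (nat_lit 230) (nat_lit 190)) (XT.lf (nat_lit 0) (nat_lit 19615732359) (nat_lit 152) (nat_lit 6629309707) (nat_lit 0) (nat_lit 950981776) (nat_lit 10) (nat_lit 5) (nat_lit 12) (nat_lit 4) (nat_lit 10) (nat_lit 4) (nat_lit 361) (nat_lit 230) (nat_lit 189))) (XT.nd (nat_lit 78) (nat_lit 76) (nat_lit 0) (XT.lf (nat_lit 0) (nat_lit 3822845237) (nat_lit 76) (nat_lit 21482370945) (nat_lit 76) (nat_lit 2587257313) (nat_lit 9) (nat_lit 4) (nat_lit 10) (nat_lit 5) (nat_lit 10) (nat_lit 4) (nat_lit 362) (nat_lit 230) (nat_lit 188)) (XT.lf (nat_lit 0) (nat_lit 2502833085) (nat_lit 152) (nat_lit 14063044244) (nat_lit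 76) (nat_lit 12044007302) (nat_lit 8) (nat_lit 5) (nat_lit 10) (nat_lit 5) (nat_lit 9) (nat_lit 4) (nat_lit 363) (nat_lit 230) (nat_lit 187)))))) (XT.nd (nat_lit 37440) (nat_lit 0) (nat_lit 3724) (XT.nd (nat_lit 37206) (nat_lit 0) (nat_lit 5472) (XT.nd (nat_lit 37050) (nat_lit 0) (nat_lit 6384) (XT.lf (nat_lit 0) (nat_lit 7648114853) (nat_lit 152) (nat_lit 3886714342) (nat_lit 76) (nat_lit 17814909116) (nat_lit 8) (nat_lit 5) (nat_lit 10) (nat_lit 5) (nat_lit 9) (nat_lit 4) (nat_lit 364) (nat_lit 230) (nat_lit 186)) (XT.nd (nat_lit 78) (nat_lit 380) (nat_lit 0) (XT.lf (nat_lit 0) (nat_lit 2899382008) (nat_lit 304) (nat_lit 1264432559) (nat_lit 304) (nat_lit 1264432559) (nat_lit 97) (nat_lit 4) (nat_lit 101) (nat_lit 5) (nat_lit 101) (nat_lit 4) (nat_lit 318) (nat_lit 231) (nat_lit 231)) (XT.lf (nat_lit 0) (nat_lit 3367270263) (nat_lit 380) (nat_lit 5355738834) (nat_lit 0) (nat_lit 2315360077) (nat_lit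 92) (nat_lit 5) (nat_lit 97) (nat_lit 4) (nat_lit 92) (nat_lit 4) (nat_lit 319) (nat_lit 231) (nat_lit 230)))) (XT.nd (nat_lit 78) (nat_lit 608) (nat_lit 0) (XT.lf (nat_lit 0) (nat_lit 5412420332) (nat_lit 304) (nat_lit 3943599137) (nat_lit 304) (nat_lit 1870416925) (nat_lit 88) (nat_lit 4) (nat_lit 92) (nat_lit 5) (nat_lit 92) (nat_lit 4) (nat_lit 320) (nat_lit 231) (nat_lit 229)) (XT.nd (nat_lit 78) (nat_lit 304) (nat_lit 0) (XT.lf (nat_lit 0) (nat_lit 3990831118) (nat_lit 304) (nat_lit 6443827722) (nat_lit 0) (nat_lit 986214992) (nat_lit 84) (nat_lit 5) (nat_lit 88) (nat_lit 4) (nat_lit 84) (nat_lit 4) (nat_lit 321) (nat_lit 231) (nat_lit 228)) (XT.lf (nat_lit 0) (nat_lit 4357982554) (nat_lit 304) (nat_lit 5606068905) (nat_lit 304) (nat_lit 1657681374) (nat_lit 80) (nat_lit 4) (nat_lit 84) (nat_lit 5) (nat_lit 84) (nat_lit 4) (nat_lit 322) (nat_lit 231) (nat_lit 227))))) (XT.nd (nat_lit 234)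 (nat_lit 836) (nat_lit 0) (XT.nd (nat_lit 78) (nat_lit 608) (nat_lit 0) (XT.lf (nat_lit 0) (nat_lit 3553298241) (nat_lit 228) (nat_lit 614012991) (nat_lit 304) (nat_lit 7662099083) (nat_lit 76) (nat_lit 5) (nat_lit 79) (nat_lit 5) (nat_lit 80) (nat_lit 4) (nat_lit 323) (nat_lit 231) (nat_lit 226)) (XT.nd (nat_lit 78) (nat_lit 304) (nat_lit 0) (XT.lf (nat_lit 0) (nat_lit 2536184836) (nat_lit 304) (nat_lit 7574544281) (nat_lit 304) (nat_lit 1933107502) (nat_lit 72) (nat_lit 4) (nat_lit 76) (nat_lit 5) (nat_lit 76) (nat_lit 4) (nat_lit 324) (nat_lit 231) (nat_lit 225)) (XT.lf (nat_lit 0) (nat_lit 1302809628) (nat_lit 228) (nat_lit 2554119058) (nat_lit 304) (nat_lit 8408486163) (nat_lit 68) (nat_lit 5) (nat_lit 71) (nat_lit 5) (nat_lit 72) (nat_lit 4) (nat_lit 325) (nat_lit 231) (nat_lit 224)))) (XT.nd (nat_lit 156) (nat_lit 532) (nat_lit 0) (XT.nd (nat_lit 78) (nat_lit 304) (nat_lit 0) (XT.lf (nat_lit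 0) (nat_lit 9750488881) (nat_lit 304) (nat_lit 160276847) (nat_lit 0) (nat_lit 2583554323) (nat_lit 68) (nat_lit 5) (nat_lit 72) (nat_lit 4) (nat_lit 68) (nat_lit 4) (nat_lit 326) (nat_lit 231) (nat_lit 223)) (XT.lf (nat_lit 0) (nat_lit 3015506773) (nat_lit 304) (nat_lit 1858103670) (nat_lit 76) (nat_lit 7856829204) (nat_lit 64) (nat_lit 5) (nat_lit 68) (nat_lit 5) (nat_lit 65) (nat_lit 4) (nat_lit 327) (nat_lit 231) (nat_lit 222))) (XT.nd (nat_lit 78) (nat_lit 304) (nat_lit 0) (XT.lf (nat_lit 0) (nat_lit 8852447362) (nat_lit 304) (nat_lit 3807957814) (nat_lit 0) (nat_lit 314085503) (nat_lit 61) (nat_lit 5) (nat_lit 65) (nat_lit 4) (nat_lit 61) (nat_lit 4) (nat_lit 328) (nat_lit 231) (nat_lit 221)) (XT.lf (nat_lit 0) (nat_lit 1589801571) (nat_lit 304) (nat_lit 6050074947) (nat_lit 76) (nat_lit 5586370805) (nat_lit 57) (nat_lit 5) (nat_lit 61) (nat_lit 5) (nat_lit 58) (nat_lit 4) (nat_lit 329) (nat_lit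 231) (nat_lit 220))))))) (XT.nd (nat_lit 1014) (nat_lit 1140) (nat_lit 0) (XT.nd (nat_lit 468) (nat_lit 988) (nat_lit 0) (XT.nd (nat_lit 234) (nat_lit 608) (nat_lit 0) (XT.nd (nat_lit 78) (nat_lit 304) (nat_lit 0) (XT.lf (nat_lit 0) (nat_lit 4898521770) (nat_lit 228) (nat_lit 2458927057) (nat_lit 304) (nat_lit 6128802516) (nat_lit 54) (nat_lit 5) (nat_lit 57) (nat_lit 5) (nat_lit 58) (nat_lit 4) (nat_lit 330) (nat_lit 231) (nat_lit 219)) (XT.nd (nat_lit 78) (nat_lit 76) (nat_lit 0) (XT.lf (nat_lit 0) (nat_lit 2323073319) (nat_lit 228) (nat_lit 10934123725) (nat_lit 228) (nat_lit 497724193) (nat_lit 51) (nat_lit 4) (nat_lit 54) (nat_lit 5) (nat_lit 54) (nat_lit 4) (nat_lit 331) (nat_lit 231) (nat_lit 218)) (XT.lf (nat_lit 0) (nat_lit 5193148088) (nat_lit 304) (nat_lit 595015056) (nat_lit 76) (nat_lit 8243636434) (nat_lit 50) (nat_lit 5) (nat_lit 54) (nat_lit 5) (nat_lit 51) (nat_lit 4) (nat_lit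 332) (nat_lit 231) (nat_lit 217)))) (XT.nd (nat_lit 78) (nat_lit 456) (nat_lit 0) (XT.lf (nat_lit 0) (nat_lit 10515071333) (nat_lit 152) (nat_lit 489940469) (nat_lit 228) (nat_lit 3312809723) (nat_lit 48) (nat_lit 5) (nat_lit 50) (nat_lit 5) (nat_lit 51) (nat_lit 4) (nat_lit 333) (nat_lit 231) (nat_lit 216)) (XT.nd (nat_lit 78) (nat_lit 152) (nat_lit 0) (XT.lf (nat_lit 0) (nat_lit 2320940838) (nat_lit 304) (nat_lit 7396586615) (nat_lit 76) (nat_lit 4895162644) (nat_lit 44) (nat_lit 5) (nat_lit 48) (nat_lit 5) (nat_lit 45) (nat_lit 4) (nat_lit 334) (nat_lit 231) (nat_lit 215)) (XT.lf (nat_lit 0) (nat_lit 3538869114) (nat_lit 152) (nat_lit 4483821659) (nat_lit 228) (nat_lit 6894436395) (nat_lit 42) (nat_lit 5) (nat_lit 44) (nat_lit 5) (nat_lit 45) (nat_lit 4) (nat_lit 335) (nat_lit 231) (nat_lit 214))))) (XT.nd (nat_lit 234) (nat_lit 532) (nat_lit 0) (XT.nd (nat_lit 78) (nat_lit 456) (nat_lit 0)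 (XT.lf (nat_lit 0) (nat_lit 13844885206) (nat_lit 228) (nat_lit 514617067) (nat_lit 0) (nat_lit 872246358) (nat_lit 42) (nat_lit 5) (nat_lit 45) (nat_lit 4) (nat_lit 42) (nat_lit 4) (nat_lit 336) (nat_lit 231) (nat_lit 213)) (XT.nd (nat_lit 78) (nat_lit 152) (nat_lit 0) (XT.lf (nat_lit 0) (nat_lit 4224673978) (nat_lit 304) (nat_lit 4976704681) (nat_lit 76) (nat_lit 6354011811) (nat_lit 38) (nat_lit 5) (nat_lit 42) (nat_lit 5) (nat_lit 39) (nat_lit 4) (nat_lit 337) (nat_lit 231) (nat_lit 212)) (XT.lf (nat_lit 0) (nat_lit 6017225632) (nat_lit 152) (nat_lit 3908522792) (nat_lit 228) (nat_lit 5964045290) (nat_lit 36) (nat_lit 5) (nat_lit 38) (nat_lit 5) (nat_lit 39) (nat_lit 4) (nat_lit 338) (nat_lit 231) (nat_lit 211)))) (XT.nd (nat_lit 156) (nat_lit 304) (nat_lit 0) (XT.nd (nat_lit 78) (nat_lit 76) (nat_lit 0) (XT.lf (nat_lit 0) (nat_lit 1004179465) (nat_lit 152) (nat_lit 14742910474) (nat_lit 152)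 (nat_lit 488189517) (nat_lit 34) (nat_lit 4) (nat_lit 36) (nat_lit 5) (nat_lit 36) (nat_lit 4) (nat_lit 339) (nat_lit 231) (nat_lit 210)) (XT.lf (nat_lit 0) (nat_lit 5077746824) (nat_lit 228) (nat_lit 4480281539) (nat_lit 76) (nat_lit 7032598349) (nat_lit 33) (nat_lit 5) (nat_lit 36) (nat_lit 5) (nat_lit 34) (nat_lit 4) (nat_lit 340) (nat_lit 231) (nat_lit 209))) (XT.nd (nat_lit 78) (nat_lit 152) (nat_lit 0) (XT.lf (nat_lit 0) (nat_lit 6507349970) (nat_lit 152) (nat_lit 4241775121) (nat_lit 228) (nat_lit 6208575262) (nat_lit 31) (nat_lit 5) (nat_lit 33) (nat_lit 5) (nat_lit 34) (nat_lit 4) (nat_lit 341) (nat_lit 231) (nat_lit 208)) (XT.lf (nat_lit 0) (nat_lit 380984508) (nat_lit 152) (nat_lit 16154821909) (nat_lit 152) (nat_lit 801108043) (nat_lit 29) (nat_lit 4) (nat_lit 31) (nat_lit 5) (nat_lit 31) (nat_lit 4) (nat_lit 342) (nat_lit 231) (nat_lit 207)))))) (XT.nd (nat_lit 546) (nat_lit 456) (nat_lit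 0) (XT.nd (nat_lit 234) (nat_lit 456) (nat_lit 0) (XT.nd (nat_lit 78) (nat_lit 152) (nat_lit 0) (XT.lf (nat_lit 0) (nat_lit 4710883539) (nat_lit 228) (nat_lit 6270724953) (nat_lit 76) (nat_lit 6745210433) (nat_lit 28) (nat_lit 5) (nat_lit 31) (nat_lit 5) (nat_lit 29) (nat_lit 4) (nat_lit 343) (nat_lit 231) (nat_lit 206)) (XT.nd (nat_lit 78) (nat_lit 0) (nat_lit 0) (XT.lf (nat_lit 0) (nat_lit 4630067713) (nat_lit 152) (nat_lit 5685358883) (nat_lit 228) (nat_lit 7814155609) (nat_lit 26) (nat_lit 5) (nat_lit 28) (nat_lit 5) (nat_lit 29) (nat_lit 4) (nat_lit 344) (nat_lit 231) (nat_lit 205)) (XT.lf (nat_lit 0) (nat_lit 15785984797) (nat_lit 152) (nat_lit 254222586) (nat_lit 228) (nat_lit 2505207225) (nat_lit 26) (nat_lit 5) (nat_lit 28) (nat_lit 5) (nat_lit 29) (nat_lit 4) (nat_lit 345) (nat_lit 231) (nat_lit 204)))) (XT.nd (nat_lit 156) (nat_lit 228) (nat_lit 0) (XT.nd (nat_lit 78) (nat_lit 0) (nat_lit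 0) (XT.lf (nat_lit 0) (nat_lit 2923987893) (nat_lit 228) (nat_lit 10771472540) (nat_lit 76) (nat_lit 5277906912) (nat_lit 23) (nat_lit 5) (nat_lit 26) (nat_lit 5) (nat_lit 24) (nat_lit 4) (nat_lit 346) (nat_lit 231) (nat_lit 203)) (XT.lf (nat_lit 0) (nat_lit 8415538706) (nat_lit 228) (nat_lit 55707735) (nat_lit 76) (nat_lit 10943936828) (nat_lit 23) (nat_lit 5) (nat_lit 26) (nat_lit 5) (nat_lit 24) (nat_lit 4) (nat_lit 347) (nat_lit 231) (nat_lit 202))) (XT.nd (nat_lit 78) (nat_lit 152) (nat_lit 0) (XT.lf (nat_lit 0) (nat_lit 10976777518) (nat_lit 76) (nat_lit 3081665950) (nat_lit 152) (nat_lit 5812103404) (nat_lit 22) (nat_lit 5) (nat_lit 23) (nat_lit 5) (nat_lit 24) (nat_lit 4) (nat_lit 348) (nat_lit 231) (nat_lit 201)) (XT.lf (nat_lit 0) (nat_lit 1862243252) (nat_lit 152) (nat_lit 17953342138) (nat_lit 152) (nat_lit 525111601) (nat_lit 20) (nat_lit 4) (nat_lit 22) (nat_lit 5) (nat_lit 22) (nat_lit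 4) (nat_lit 349) (nat_lit 231) (nat_lit 200))))) (XT.nd (nat_lit 234) (nat_lit 304) (nat_lit 0) (XT.nd (nat_lit 78) (nat_lit 76) (nat_lit 0) (XT.lf (nat_lit 0) (nat_lit 4854600188) (nat_lit 228) (nat_lit 7960332275) (nat_lit 76) (nat_lit 8009430769) (nat_lit 19) (nat_lit 5) (nat_lit 22) (nat_lit 5) (nat_lit 20) (nat_lit 4) (nat_lit 350) (nat_lit 231) (nat_lit 199)) (XT.nd (nat_lit 78) (nat_lit 0) (nat_lit 0) (XT.lf (nat_lit 0) (nat_lit 2764026360) (nat_lit 76) (nat_lit 7562304824) (nat_lit 152) (nat_lit 10997406357) (nat_lit 18) (nat_lit 5) (nat_lit 19) (nat_lit 5) (nat_lit 20) (nat_lit 4) (nat_lit 351) (nat_lit 231) (nat_lit 198)) (XT.lf (nat_lit 0) (nat_lit 13779337040) (nat_lit 76) (nat_lit 2158023645) (nat_lit 152) (nat_lit 5901251544) (nat_lit 18) (nat_lit 5) (nat_lit 19) (nat_lit 5) (nat_lit 20) (nat_lit 4) (nat_lit 352) (nat_lit 231) (nat_lit 197)))) (XT.nd (nat_lit 156) (nat_lit 76) (nat_lit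 0) (XT.nd (nat_lit 78) (nat_lit 76) (nat_lit 0) (XT.lf (nat_lit 0) (nat_lit 2631721743) (nat_lit 152) (nat_lit 19047331390) (nat_lit 152) (nat_lit 690654821) (nat_lit 16) (nat_lit 4) (nat_lit 18) (nat_lit 5) (nat_lit 18) (nat_lit 4) (nat_lit 353) (nat_lit 231) (nat_lit 196)) (XT.lf (nat_lit 0) (nat_lit 4608295669) (nat_lit 228) (nat_lit 9342682837) (nat_lit 76) (nat_lit 8965303904) (nat_lit 15) (nat_lit 5) (nat_lit 18) (nat_lit 5) (nat_lit 16) (nat_lit 4) (nat_lit 354) (nat_lit 231) (nat_lit 195))) (XT.nd (nat_lit 78) (nat_lit 0) (nat_lit 0) (XT.lf (nat_lit 0) (nat_lit 1244484468) (nat_lit 76) (nat_lit 8746655498) (nat_lit 152) (nat_lit 13489356468) (nat_lit 14) (nat_lit 5) (nat_lit 15) (nat_lit 5) (nat_lit 16) (nat_lit 4) (nat_lit 355) (nat_lit 231) (nat_lit 194)) (XT.lf (nat_lit 0) (nat_lit 12147589463) (nat_lit 76) (nat_lit 3378673217) (nat_lit 152) (nat_lit 8535577569) (nat_lit 14) (nat_lit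 5) (nat_lit 15) (nat_lit 5) (nat_lit 16) (nat_lit 4) (nat_lit 356) (nat_lit 231) (nat_lit 193))))))))
noncomputable def xc11 : XT := (XT.nd (nat_lit 38922) (nat_lit 0) (nat_lit 152) (XT.nd (nat_lit 37830) (nat_lit 0) (nat_lit 2736) (XT.nd (nat_lit 468) (nat_lit 152) (nat_lit 0) (XT.nd (nat_lit 234) (nat_lit 76) (nat_lit 0) (XT.nd (nat_lit 78) (nat_lit 228) (nat_lit 0) (XT.lf (nat_lit 0) (nat_lit 21170637208) (nat_lit 152) (nat_lit 1423653234) (nat_lit 0) (nat_lit 2067488650) (nat_lit 14) (nat_lit 5) (nat_lit 16) (nat_lit 4) (nat_lit 14) (nat_lit 4) (nat_lit 357) (nat_lit 231) (nat_lit 192)) (XT.nd (nat_lit 78) (nat_lit 0) (nat_lit 0) (XT.lf (nat_lit 0) (nat_lit 1697004490) (nat_lit 228) (nat_lit 15931957890) (nat_lit 76) (nat_lit 7650255459) (nat_lit 11) (nat_lit 5) (nat_lit 14) (nat_lit 5) (nat_lit 12) (nat_lit 4) (nat_lit 358) (nat_lit 231) (nat_lit 191)) (XT.lf (nat_lit 0) (nat_lit 6935393479)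 (nat_lit 228) (nat_lit 5599692134) (nat_lit 76) (nat_lit 13380809279) (nat_lit 11) (nat_lit 5) (nat_lit 14) (nat_lit 5) (nat_lit 12) (nat_lit 4) (nat_lit 359) (nat_lit 231) (nat_lit 190)))) (XT.nd (nat_lit 78) (nat_lit 0) (nat_lit 0) (XT.lf (nat_lit 0) (nat_lit 4989452613) (nat_lit 76) (nat_lit 7307903324) (nat_lit 152) (nat_lit 14275004638) (nat_lit 10) (nat_lit 5) (nat_lit 11) (nat_lit 5) (nat_lit 12) (nat_lit 4) (nat_lit 360) (nat_lit 231) (nat_lit 189)) (XT.nd (nat_lit 78) (nat_lit 0) (nat_lit 0) (XT.lf (nat_lit 0) (nat_lit 15856317578) (nat_lit 76) (nat_lit 1936996416) (nat_lit 152) (nat_lit 9455759766) (nat_lit 10) (nat_lit 5) (nat_lit 11) (nat_lit 5) (nat_lit 12) (nat_lit 4) (nat_lit 361) (nat_lit 231) (nat_lit 188)) (XT.lf (nat_lit 0) (nat_lit 23414244739) (nat_lit 152) (nat_lit 1034396310) (nat_lit 0) (nat_lit 3498261203) (nat_lit 10) (nat_lit 5) (nat_lit 12) (nat_lit 4) (nat_lit 10) (nat_lit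 4) (nat_lit 362) (nat_lit 231) (nat_lit 187))))) (XT.nd (nat_lit 37050) (nat_lit 0) (nat_lit 6080) (XT.nd (nat_lit 78) (nat_lit 0) (nat_lit 0) (XT.lf (nat_lit 0) (nat_lit 545278610) (nat_lit 152) (nat_lit 19031660010) (nat_lit 76) (nat_lit 9088388162) (nat_lit 8) (nat_lit 5) (nat_lit 10) (nat_lit 5) (nat_lit 9) (nat_lit 4) (nat_lit 363) (nat_lit 231) (nat_lit 186)) (XT.nd (nat_lit 36894) (nat_lit 0) (nat_lit 7448) (XT.lf (nat_lit 0) (nat_lit 5660639756) (nat_lit 152) (nat_lit 8909445319) (nat_lit 76) (nat_lit 14835700988) (nat_lit 8) (nat_lit 5) (nat_lit 10) (nat_lit 5) (nat_lit 9) (nat_lit 4) (nat_lit 364) (nat_lit 231) (nat_lit 185)) (XT.lf (nat_lit 0) (nat_lit 2855209131) (nat_lit 380) (nat_lit 1199692291) (nat_lit 380) (nat_lit 1199692291) (nat_lit 106) (nat_lit 4) (nat_lit 111) (nat_lit 5) (nat_lit 111) (nat_lit 4) (nat_lit 316) (nat_lit 232) (nat_lit 232)))) (XT.nd (nat_lit 156) (nat_lit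 684) (nat_lit 0) (XT.nd (nat_lit 78) (nat_lit 304) (nat_lit 0) (XT.lf (nat_lit 0) (nat_lit 3436761954) (nat_lit 380) (nat_lit 4912195933) (nat_lit 0) (nat_lit 2331625113) (nat_lit 101) (nat_lit 5) (nat_lit 106) (nat_lit 4) (nat_lit 101) (nat_lit 4) (nat_lit 317) (nat_lit 232) (nat_lit 231)) (XT.lf (nat_lit 0) (nat_lit 5693740805) (nat_lit 304) (nat_lit 3671117081) (nat_lit 304) (nat_lit 1493031850) (nat_lit 97) (nat_lit 4) (nat_lit 101) (nat_lit 5) (nat_lit 101) (nat_lit 4) (nat_lit 318) (nat_lit 232) (nat_lit 230))) (XT.nd (nat_lit 78) (nat_lit 304) (nat_lit 0) (XT.lf (nat_lit 0) (nat_lit 4314076619) (nat_lit 380) (nat_lit 5569670973) (nat_lit 0) (nat_lit 1157426916) (nat_lit 92) (nat_lit 5) (nat_lit 97) (nat_lit 4) (nat_lit 92) (nat_lit 4) (nat_lit 319) (nat_lit 232) (nat_lit 229)) (XT.lf (nat_lit 0) (nat_lit 5091969608) (nat_lit 304) (nat_lit 5143415679) (nat_lit 304) (nat_lit 995239739) (nat_lit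 88) (nat_lit 4) (nat_lit 92) (nat_lit 5) (nat_lit 92) (nat_lit 4) (nat_lit 320) (nat_lit 232) (nat_lit 228)))))) (XT.nd (nat_lit 546) (nat_lit 1520) (nat_lit 0) (XT.nd (nat_lit 234) (nat_lit 912) (nat_lit 0) (XT.nd (nat_lit 78) (nat_lit 608) (nat_lit 0) (XT.lf (nat_lit 0) (nat_lit 4546056485) (nat_lit 228) (nat_lit 234576811) (nat_lit 304) (nat_lit 6645826289) (nat_lit 84) (nat_lit 5) (nat_lit 87) (nat_lit 5) (nat_lit 88) (nat_lit 4) (nat_lit 321) (nat_lit 232) (nat_lit 227)) (XT.nd (nat_lit 78) (nat_lit 304) (nat_lit 0) (XT.lf (nat_lit 0) (nat_lit 3814846413) (nat_lit 304) (nat_lit 6870384984) (nat_lit 304) (nat_lit 943491504) (nat_lit 80) (nat_lit 4) (nat_lit 84) (nat_lit 5) (nat_lit 84) (nat_lit 4) (nat_lit 322) (nat_lit 232) (nat_lit 226)) (XT.lf (nat_lit 0) (nat_lit 2889643544) (nat_lit 228) (nat_lit 1915372341) (nat_lit 304) (nat_lit 7032664463) (nat_lit 76) (nat_lit 5) (nat_lit 79) (nat_lit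 5) (nat_lit 80) (nat_lit 4) (nat_lit 323) (nat_lit 232) (nat_lit 225)))) (XT.nd (nat_lit 156) (nat_lit 304) (nat_lit 0) (XT.nd (nat_lit 78) (nat_lit 304) (nat_lit 0) (XT.lf (nat_lit 0) (nat_lit 1762984613) (nat_lit 304) (nat_lit 8910119763) (nat_lit 304) (nat_lit 1380538316) (nat_lit 72) (nat_lit 4) (nat_lit 76) (nat_lit 5) (nat_lit 76) (nat_lit 4) (nat_lit 324) (nat_lit 232) (nat_lit 224)) (XT.lf (nat_lit 0) (nat_lit 405640316) (nat_lit 228) (nat_lit 3929661017) (nat_lit 304) (nat_lit 7941214860) (nat_lit 68) (nat_lit 5) (nat_lit 71) (nat_lit 5) (nat_lit 72) (nat_lit 4) (nat_lit 325) (nat_lit 232) (nat_lit 223))) (XT.nd (nat_lit 78) (nat_lit 304) (nat_lit 0) (XT.lf (nat_lit 0) (nat_lit 10159713597) (nat_lit 304) (nat_lit 1157807346) (nat_lit 0) (nat_lit 1189310628) (nat_lit 68) (nat_lit 5) (nat_lit 72) (nat_lit 4) (nat_lit 68) (nat_lit 4) (nat_lit 326) (nat_lit 232) (nat_lit 222)) (XT.lf (nat_lit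 0) (nat_lit 3340903154) (nat_lit 304) (nat_lit 2981480340) (nat_lit 76) (nat_lit 6421864342) (nat_lit 64) (nat_lit 5) (nat_lit 68) (nat_lit 5) (nat_lit 65) (nat_lit 4) (nat_lit 327) (nat_lit 232) (nat_lit 221))))) (XT.nd (nat_lit 234) (nat_lit 760) (nat_lit 0) (XT.nd (nat_lit 78) (nat_lit 532) (nat_lit 0) (XT.lf (nat_lit 0) (nat_lit 7934500745) (nat_lit 228) (nat_lit 1175489336) (nat_lit 304) (nat_lit 3879691011) (nat_lit 61) (nat_lit 5) (nat_lit 64) (nat_lit 5) (nat_lit 65) (nat_lit 4) (nat_lit 328) (nat_lit 232) (nat_lit 220)) (XT.nd (nat_lit 78) (nat_lit 228) (nat_lit 0) (XT.lf (nat_lit 0) (nat_lit 1755128371) (nat_lit 304) (nat_lit 7419122037) (nat_lit 76) (nat_lit 4068656738) (nat_lit 57) (nat_lit 5) (nat_lit 61) (nat_lit 5) (nat_lit 58) (nat_lit 4) (nat_lit 329) (nat_lit 232) (nat_lit 219)) (XT.lf (nat_lit 0) (nat_lit 3416830391) (nat_lit 228) (nat_lit 4040057925) (nat_lit 304) (nat_lit 6047363840)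 (nat_lit 54) (nat_lit 5) (nat_lit 57) (nat_lit 5) (nat_lit 58) (nat_lit 4) (nat_lit 330) (nat_lit 232) (nat_lit 218)))) (XT.nd (nat_lit 156) (nat_lit 456) (nat_lit 0) (XT.nd (nat_lit 78) (nat_lit 76) (nat_lit 0) (XT.lf (nat_lit 0) (nat_lit 720033108) (nat_lit 228) (nat_lit 12560469138) (nat_lit 228) (nat_lit 493965055) (nat_lit 51) (nat_lit 4) (nat_lit 54) (nat_lit 5) (nat_lit 54) (nat_lit 4) (nat_lit 331) (nat_lit 232) (nat_lit 217)) (XT.lf (nat_lit 0) (nat_lit 5142039216) (nat_lit 304) (nat_lit 2309463180) (nat_lit 76) (nat_lit 6600960612) (nat_lit 50) (nat_lit 5) (nat_lit 54) (nat_lit 5) (nat_lit 51) (nat_lit 4) (nat_lit 332) (nat_lit 232) (nat_lit 216))) (XT.nd (nat_lit 78) (nat_lit 304) (nat_lit 0) (XT.lf (nat_lit 0) (nat_lit 8687491607) (nat_lit 152) (nat_lit 2201323416) (nat_lit 228) (nat_lit 3450992544) (nat_lit 48) (nat_lit 5) (nat_lit 50) (nat_lit 5) (nat_lit 51) (nat_lit 4) (nat_lit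 333) (nat_lit 232) (nat_lit 215)) (XT.lf (nat_lit 0) (nat_lit 2107784465) (nat_lit 304) (nat_lit 9371329752) (nat_lit 76) (nat_lit 3157135431) (nat_lit 44) (nat_lit 5) (nat_lit 48) (nat_lit 5) (nat_lit 45) (nat_lit 4) (nat_lit 334) (nat_lit 232) (nat_lit 214))))))) (XT.nd (nat_lit 1014) (nat_lit 988) (nat_lit 0) (XT.nd (nat_lit 468) (nat_lit 760) (nat_lit 0) (XT.nd (nat_lit 234) (nat_lit 380) (nat_lit 0) (XT.nd (nat_lit 78) (nat_lit 304) (nat_lit 0) (XT.lf (nat_lit 0) (nat_lit 1448892845) (nat_lit 152) (nat_lit 6295202499) (nat_lit 228) (nat_lit 7197919428) (nat_lit 42) (nat_lit 5) (nat_lit 44) (nat_lit 5) (nat_lit 45) (nat_lit 4) (nat_lit 335) (nat_lit 232) (nat_lit 213)) (XT.nd (nat_lit 78) (nat_lit 304) (nat_lit 0) (XT.lf (nat_lit 0) (nat_lit 12546610629) (nat_lit 152) (nat_lit 963020952) (nat_lit 228) (nat_lit 1748156527) (nat_lit 42) (nat_lit 5) (nat_lit 44) (nat_lit 5) (nat_lit 45) (nat_lit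 4) (nat_lit 336) (nat_lit 232) (nat_lit 212)) (XT.lf (nat_lit 0) (nat_lit 3796752203) (nat_lit 304) (nat_lit 7306570387) (nat_lit 76) (nat_lit 4479599424) (nat_lit 38) (nat_lit 5) (nat_lit 42) (nat_lit 5) (nat_lit 39) (nat_lit 4) (nat_lit 337) (nat_lit 232) (nat_lit 211)))) (XT.nd (nat_lit 78) (nat_lit 228) (nat_lit 0) (XT.lf (nat_lit 0) (nat_lit 3571320577) (nat_lit 152) (nat_lit 5861530713) (nat_lit 228) (nat_lit 6485790764) (nat_lit 36) (nat_lit 5) (nat_lit 38) (nat_lit 5) (nat_lit 39) (nat_lit 4) (nat_lit 338) (nat_lit 232) (nat_lit 210)) (XT.nd (nat_lit 78) (nat_lit 228) (nat_lit 0) (XT.lf (nat_lit 0) (nat_lit 14707886399) (nat_lit 152) (nat_lit 481810026) (nat_lit 228) (nat_lit 1075738085) (nat_lit 36) (nat_lit 5) (nat_lit 38) (nat_lit 5) (nat_lit 39) (nat_lit 4) (nat_lit 339) (nat_lit 232) (nat_lit 209)) (XT.lf (nat_lit 0) (nat_lit 4436583394) (nat_lit 228) (nat_lit 7168713330) (nat_lit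 76) (nat_lit 5016803729) (nat_lit 33) (nat_lit 5) (nat_lit 36) (nat_lit 5) (nat_lit 34) (nat_lit 4) (nat_lit 340) (nat_lit 232) (nat_lit 208))))) (XT.nd (nat_lit 234) (nat_lit 380) (nat_lit 0) (XT.nd (nat_lit 78) (nat_lit 228) (nat_lit 0) (XT.lf (nat_lit 0) (nat_lit 3701875261) (nat_lit 152) (nat_lit 6341388340) (nat_lit 228) (nat_lit 6947219967) (nat_lit 31) (nat_lit 5) (nat_lit 33) (nat_lit 5) (nat_lit 34) (nat_lit 4) (nat_lit 341) (nat_lit 232) (nat_lit 207)) (XT.nd (nat_lit 78) (nat_lit 228) (nat_lit 0) (XT.lf (nat_lit 0) (nat_lit 14836446244) (nat_lit 152) (nat_lit 937622673) (nat_lit 228) (nat_lit 1596761339) (nat_lit 31) (nat_lit 5) (nat_lit 33) (nat_lit 5) (nat_lit 34) (nat_lit 4) (nat_lit 342) (nat_lit 232) (nat_lit 206)) (XT.lf (nat_lit 0) (nat_lit 3857449933) (nat_lit 228) (nat_lit 9321642274) (nat_lit 76) (nat_lit 4583124476) (nat_lit 28) (nat_lit 5) (nat_lit 31) (nat_lit 5) (nat_lit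 29) (nat_lit 4) (nat_lit 343) (nat_lit 232) (nat_lit 205)))) (XT.nd (nat_lit 156) (nat_lit 228) (nat_lit 0) (XT.nd (nat_lit 78) (nat_lit 0) (nat_lit 0) (XT.lf (nat_lit 0) (nat_lit 1460903811) (nat_lit 152) (nat_lit 7936489781) (nat_lit 228) (nat_lit 8768892277) (nat_lit 26) (nat_lit 5) (nat_lit 28) (nat_lit 5) (nat_lit 29) (nat_lit 4) (nat_lit 344) (nat_lit 232) (nat_lit 204)) (XT.lf (nat_lit 0) (nat_lit 12541382548) (nat_lit 152) (nat_lit 2537561176) (nat_lit 228) (nat_lit 3504052673) (nat_lit 26) (nat_lit 5) (nat_lit 28) (nat_lit 5) (nat_lit 29) (nat_lit 4) (nat_lit 345) (nat_lit 232) (nat_lit 203))) (XT.nd (nat_lit 78) (nat_lit 0) (nat_lit 0) (XT.lf (nat_lit 0) (nat_lit 1858725094) (nat_lit 228) (nat_lit 14189291947) (nat_lit 76) (nat_lit 2964665007) (nat_lit 23) (nat_lit 5) (nat_lit 26) (nat_lit 5) (nat_lit 24) (nat_lit 4) (nat_lit 346) (nat_lit 232) (nat_lit 202)) (XT.lf (nat_lit 0) (nat_lit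 7308570933) (nat_lit 228) (nat_lit 3546785716) (nat_lit 76) (nat_lit 8599987908) (nat_lit 23) (nat_lit 5) (nat_lit 26) (nat_lit 5) (nat_lit 24) (nat_lit 4) (nat_lit 347) (nat_lit 232) (nat_lit 201)))))) (XT.nd (nat_lit 546) (nat_lit 380) (nat_lit 0) (XT.nd (nat_lit 234) (nat_lit 304) (nat_lit 0) (XT.nd (nat_lit 78) (nat_lit 228) (nat_lit 0) (XT.lf (nat_lit 0) (nat_lit 7367234905) (nat_lit 76) (nat_lit 5520314979) (nat_lit 152) (nat_lit 7024448915) (nat_lit 22) (nat_lit 5) (nat_lit 23) (nat_lit 5) (nat_lit 24) (nat_lit 4) (nat_lit 348) (nat_lit 232) (nat_lit 200)) (XT.nd (nat_lit 78) (nat_lit 228) (nat_lit 0) (XT.lf (nat_lit 0) (nat_lit 18515184153) (nat_lit 76) (nat_lit 62024765) (nat_lit 152) (nat_lit 1806301429) (nat_lit 22) (nat_lit 5) (nat_lit 23) (nat_lit 5) (nat_lit 24) (nat_lit 4) (nat_lit 349) (nat_lit 232) (nat_lit 199)) (XT.lf (nat_lit 0) (nat_lit 3537918210) (nat_lit 228) (nat_lit 11819960705)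 (nat_lit 76) (nat_lit 5510521146) (nat_lit 19) (nat_lit 5) (nat_lit 22) (nat_lit 5) (nat_lit 20) (nat_lit 4) (nat_lit 350) (nat_lit 232) (nat_lit 198)))) (XT.nd (nat_lit 156) (nat_lit 228) (nat_lit 0) (XT.nd (nat_lit 78) (nat_lit 76) (nat_lit 0) (XT.lf (nat_lit 0) (nat_lit 8953334911) (nat_lit 228) (nat_lit 1199787882) (nat_lit 76) (nat_lit 11215788742) (nat_lit 19) (nat_lit 5) (nat_lit 22) (nat_lit 5) (nat_lit 20) (nat_lit 4) (nat_lit 351) (nat_lit 232) (nat_lit 197)) (XT.lf (nat_lit 0) (nat_lit 9732745304) (nat_lit 76) (nat_lit 4786040963) (nat_lit 152) (nat_lit 7365922078) (nat_lit 18) (nat_lit 5) (nat_lit 19) (nat_lit 5) (nat_lit 20) (nat_lit 4) (nat_lit 352) (nat_lit 232) (nat_lit 196))) (XT.nd (nat_lit 78) (nat_lit 228) (nat_lit 0) (XT.lf (nat_lit 0) (nat_lit 20189558077) (nat_lit 152) (nat_lit 1543863393) (nat_lit 0) (nat_lit 683811265) (nat_lit 18) (nat_lit 5) (nat_lit 20) (nat_lit 4) (nat_lit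 18) (nat_lit 4) (nat_lit 353) (nat_lit 232) (nat_lit 195)) (XT.lf (nat_lit 0) (nat_lit 3044842905) (nat_lit 228) (nat_lit 13641342317) (nat_lit 76) (nat_lit 6278763139) (nat_lit 15) (nat_lit 5) (nat_lit 18) (nat_lit 5) (nat_lit 16) (nat_lit 4) (nat_lit 354) (nat_lit 232) (nat_lit 194))))) (XT.nd (nat_lit 234) (nat_lit 304) (nat_lit 0) (XT.nd (nat_lit 78) (nat_lit 76) (nat_lit 0) (XT.lf (nat_lit 0) (nat_lit 8384299459) (nat_lit 228) (nat_lit 3133482967) (nat_lit 76) (nat_lit 12012257188) (nat_lit 15) (nat_lit 5) (nat_lit 18) (nat_lit 5) (nat_lit 16) (nat_lit 4) (nat_lit 355) (nat_lit 232) (nat_lit 193)) (XT.nd (nat_lit 78) (nat_lit 0) (nat_lit 0) (XT.lf (nat_lit 0) (nat_lit 7666015248) (nat_lit 76) (nat_lit 6198110247) (nat_lit 152) (nat_lit 10248373068) (nat_lit 14) (nat_lit 5) (nat_lit 15) (nat_lit 5) (nat_lit 16) (nat_lit 4) (nat_lit 356) (nat_lit 232) (nat_lit 192)) (XT.lf (nat_lit 0) (nat_lit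 18710265929) (nat_lit 76) (nat_lit 750960680) (nat_lit 152) (nat_lit 5252165194) (nat_lit 14) (nat_lit 5) (nat_lit 15) (nat_lit 5) (nat_lit 16) (nat_lit 4) (nat_lit 357) (nat_lit 232) (nat_lit 191)))) (XT.nd (nat_lit 156) (nat_lit 76) (nat_lit 0) (XT.nd (nat_lit 78) (nat_lit 76) (nat_lit 0) (XT.lf (nat_lit 0) (nat_lit 4663571117) (nat_lit 152) (nat_lit 20557799154) (nat_lit 152) (nat_lit 111056581) (nat_lit 12) (nat_lit 4) (nat_lit 14) (nat_lit 5) (nat_lit 14) (nat_lit 4) (nat_lit 358) (nat_lit 232) (nat_lit 190)) (XT.lf (nat_lit 0) (nat_lit 5096289902) (nat_lit 228) (nat_lit 10394256389) (nat_lit 76) (nat_lit 10479230269) (nat_lit 11) (nat_lit 5) (nat_lit 14) (nat_lit 5) (nat_lit 12) (nat_lit 4) (nat_lit 359) (nat_lit 232) (nat_lit 189))) (XT.nd (nat_lit 78) (nat_lit 0) (nat_lit 0) (XT.lf (nat_lit 0) (nat_lit 73730928) (nat_lit 76) (nat_lit 10321052849) (nat_lit 152) (nat_lit 16232735851) (nat_lit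 10) (nat_lit 5) (nat_lit 11) (nat_lit 5) (nat_lit 12) (nat_lit 4) (nat_lit 360) (nat_lit 232) (nat_lit 188)) (XT.lf (nat_lit 0) (nat_lit 10884828713) (nat_lit 76) (nat_lit 4974917589) (nat_lit 152) (nat_lit 11445114201) (nat_lit 10) (nat_lit 5) (nat_lit 11) (nat_lit 5) (nat_lit 12) (nat_lit 4) (nat_lit 361) (nat_lit 232) (nat_lit 187))))))))
noncomputable def xc12 : XT := (XT.nd (nat_lit 38688) (nat_lit 0) (nat_lit 152) (XT.nd (nat_lit 37674) (nat_lit 0) (nat_lit 2584) (XT.nd (nat_lit 37128) (nat_lit 0) (nat_lit 5168) (XT.nd (nat_lit 36894) (nat_lit 0) (nat_lit 7448) (XT.nd (nat_lit 78) (nat_lit 152) (nat_lit 0) (XT.lf (nat_lit 0) (nat_lit 21430703948) (nat_lit 152) (nat_lit 6096543870) (nat_lit 0) (nat_lit 476448193) (nat_lit 10) (nat_lit 5) (nat_lit 12) (nat_lit 4) (nat_lit 10) (nat_lit 4) (nat_lit 362) (nat_lit 232) (nat_lit 186)) (XT.nd (nat_lit 78) (nat_lit 76) (nat_lit 0) (XT.lf (nat_lit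 0) (nat_lit 4454194649) (nat_lit 76) (nat_lit 22717167976) (nat_lit 76) (nat_lit 1552097397) (nat_lit 9) (nat_lit 4) (nat_lit 10) (nat_lit 5) (nat_lit 10) (nat_lit 4) (nat_lit 363) (nat_lit 232) (nat_lit 185)) (XT.lf (nat_lit 0) (nat_lit 3554570636) (nat_lit 152) (nat_lit 14189512478) (nat_lit 76) (nat_lit 11720625698) (nat_lit 8) (nat_lit 5) (nat_lit 10) (nat_lit 5) (nat_lit 9) (nat_lit 4) (nat_lit 364) (nat_lit 232) (nat_lit 184)))) (XT.nd (nat_lit 78) (nat_lit 760) (nat_lit 0) (XT.lf (nat_lit 0) (nat_lit 2662772113) (nat_lit 380) (nat_lit 1214091915) (nat_lit 380) (nat_lit 1214091915) (nat_lit 116) (nat_lit 4) (nat_lit 121) (nat_lit 5) (nat_lit 121) (nat_lit 4) (nat_lit 314) (nat_lit 233) (nat_lit 233)) (XT.nd (nat_lit 78) (nat_lit 380) (nat_lit 0) (XT.lf (nat_lit 0) (nat_lit 3342545845) (nat_lit 380) (nat_lit 4819406617) (nat_lit 0) (nat_lit 2181489079) (nat_lit 111) (nat_lit 5) (nat_lit 116)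 (nat_lit 4) (nat_lit 111) (nat_lit 4) (nat_lit 315) (nat_lit 233) (nat_lit 232)) (XT.lf (nat_lit 0) (nat_lit 5607175199) (nat_lit 380) (nat_lit 3595852213) (nat_lit 380) (nat_lit 1307555869) (nat_lit 106) (nat_lit 4) (nat_lit 111) (nat_lit 5) (nat_lit 111) (nat_lit 4) (nat_lit 316) (nat_lit 233) (nat_lit 231))))) (XT.nd (nat_lit 234) (nat_lit 1216) (nat_lit 0) (XT.nd (nat_lit 78) (nat_lit 684) (nat_lit 0) (XT.lf (nat_lit 0) (nat_lit 4438583694) (nat_lit 380) (nat_lit 5122596934) (nat_lit 0) (nat_lit 1122207516) (nat_lit 101) (nat_lit 5) (nat_lit 106) (nat_lit 4) (nat_lit 101) (nat_lit 4) (nat_lit 317) (nat_lit 233) (nat_lit 230)) (XT.nd (nat_lit 78) (nat_lit 380) (nat_lit 0) (XT.lf (nat_lit 0) (nat_lit 5378579401) (nat_lit 304) (nat_lit 4920785822) (nat_lit 304) (nat_lit 562712178) (nat_lit 97) (nat_lit 4) (nat_lit 101) (nat_lit 5) (nat_lit 101) (nat_lit 4) (nat_lit 318) (nat_lit 233) (nat_lit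 229)) (XT.lf (nat_lit 0) (nat_lit 5048343787) (nat_lit 304) (nat_lit 108970170) (nat_lit 380) (nat_lit 5889459519) (nat_lit 92) (nat_lit 5) (nat_lit 96) (nat_lit 5) (nat_lit 97) (nat_lit 4) (nat_lit 319) (nat_lit 233) (nat_lit 228)))) (XT.nd (nat_lit 156) (nat_lit 608) (nat_lit 0) (XT.nd (nat_lit 78) (nat_lit 304) (nat_lit 0) (XT.lf (nat_lit 0) (nat_lit 4557573959) (nat_lit 304) (nat_lit 6453415238) (nat_lit 304) (nat_lit 226620948) (nat_lit 88) (nat_lit 4) (nat_lit 92) (nat_lit 5) (nat_lit 92) (nat_lit 4) (nat_lit 320) (nat_lit 233) (nat_lit 227)) (XT.lf (nat_lit 0) (nat_lit 3892525067) (nat_lit 228) (nat_lit 1579716483) (nat_lit 304) (nat_lit 5962473816) (nat_lit 84) (nat_lit 5) (nat_lit 87) (nat_lit 5) (nat_lit 88) (nat_lit 4) (nat_lit 321) (nat_lit 233) (nat_lit 226))) (XT.nd (nat_lit 78) (nat_lit 304) (nat_lit 0) (XT.lf (nat_lit 0) (nat_lit 3053791513) (nat_lit 304) (nat_lit 8247652150) (nat_lit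 304) (nat_lit 337073883) (nat_lit 80) (nat_lit 4) (nat_lit 84) (nat_lit 5) (nat_lit 84) (nat_lit 4) (nat_lit 322) (nat_lit 233) (nat_lit 225)) (XT.lf (nat_lit 0) (nat_lit 2005998107) (nat_lit 228) (nat_lit 3330764716) (nat_lit 304) (nat_lit 6511997224) (nat_lit 76) (nat_lit 5) (nat_lit 79) (nat_lit 5) (nat_lit 80) (nat_lit 4) (nat_lit 323) (nat_lit 233) (nat_lit 224)))))) (XT.nd (nat_lit 468) (nat_lit 1140) (nat_lit 0) (XT.nd (nat_lit 234) (nat_lit 836) (nat_lit 0) (XT.nd (nat_lit 78) (nat_lit 304) (nat_lit 0) (XT.lf (nat_lit 0) (nat_lit 767712355) (nat_lit 304) (nat_lit 10361429094) (nat_lit 304) (nat_lit 937123734) (nat_lit 72) (nat_lit 4) (nat_lit 76) (nat_lit 5) (nat_lit 76) (nat_lit 4) (nat_lit 324) (nat_lit 233) (nat_lit 223)) (XT.nd (nat_lit 78) (nat_lit 228) (nat_lit 0) (XT.lf (nat_lit 0) (nat_lit 4710922616) (nat_lit 380) (nat_lit 706384326) (nat_lit 76) (nat_lit 6873040937) (nat_lit 71)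 (nat_lit 5) (nat_lit 76) (nat_lit 5) (nat_lit 72) (nat_lit 4) (nat_lit 325) (nat_lit 233) (nat_lit 222)) (XT.lf (nat_lit 0) (nat_lit 10141218466) (nat_lit 228) (nat_lit 323416313) (nat_lit 304) (nat_lit 2057468904) (nat_lit 68) (nat_lit 5) (nat_lit 71) (nat_lit 5) (nat_lit 72) (nat_lit 4) (nat_lit 326) (nat_lit 233) (nat_lit 221)))) (XT.nd (nat_lit 78) (nat_lit 532) (nat_lit 0) (XT.lf (nat_lit 0) (nat_lit 3558779283) (nat_lit 304) (nat_lit 4330549952) (nat_lit 76) (nat_lit 4871537736) (nat_lit 64) (nat_lit 5) (nat_lit 68) (nat_lit 5) (nat_lit 65) (nat_lit 4) (nat_lit 327) (nat_lit 233) (nat_lit 220)) (XT.nd (nat_lit 78) (nat_lit 304) (nat_lit 0) (XT.lf (nat_lit 0) (nat_lit 6474459947) (nat_lit 228) (nat_lit 2787835007) (nat_lit 304) (nat_lit 3745341118) (nat_lit 61) (nat_lit 5) (nat_lit 64) (nat_lit 5) (nat_lit 65) (nat_lit 4) (nat_lit 328) (nat_lit 233) (nat_lit 219)) (XT.lf (nat_lit 0) (nat_lit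 1811192584) (nat_lit 304) (nat_lit 9018460169) (nat_lit 76) (nat_lit 2432745643) (nat_lit 57) (nat_lit 5) (nat_lit 61) (nat_lit 5) (nat_lit 58) (nat_lit 4) (nat_lit 329) (nat_lit 233) (nat_lit 218))))) (XT.nd (nat_lit 234) (nat_lit 608) (nat_lit 0) (XT.nd (nat_lit 78) (nat_lit 304) (nat_lit 0) (XT.lf (nat_lit 0) (nat_lit 1704538505) (nat_lit 228) (nat_lit 5742668351) (nat_lit 304) (nat_lit 6077874029) (nat_lit 54) (nat_lit 5) (nat_lit 57) (nat_lit 5) (nat_lit 58) (nat_lit 4) (nat_lit 330) (nat_lit 233) (nat_lit 217)) (XT.nd (nat_lit 78) (nat_lit 304) (nat_lit 0) (XT.lf (nat_lit 0) (nat_lit 12691945321) (nat_lit 228) (nat_lit 512629206) (nat_lit 304) (nat_lit 592068338) (nat_lit 54) (nat_lit 5) (nat_lit 57) (nat_lit 5) (nat_lit 58) (nat_lit 4) (nat_lit 331) (nat_lit 233) (nat_lit 216)) (XT.lf (nat_lit 0) (nat_lit 4981356321) (nat_lit 304) (nat_lit 4256344756) (nat_lit 76) (nat_lit 4838248413) (nat_lit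 50) (nat_lit 5) (nat_lit 54) (nat_lit 5) (nat_lit 51) (nat_lit 4) (nat_lit 332) (nat_lit 233) (nat_lit 215)))) (XT.nd (nat_lit 156) (nat_lit 152) (nat_lit 0) (XT.nd (nat_lit 78) (nat_lit 304) (nat_lit 0) (XT.lf (nat_lit 0) (nat_lit 6627020991) (nat_lit 152) (nat_lit 4036061304) (nat_lit 228) (nat_lit 3701532996) (nat_lit 48) (nat_lit 5) (nat_lit 50) (nat_lit 5) (nat_lit 51) (nat_lit 4) (nat_lit 333) (nat_lit 233) (nat_lit 214)) (XT.lf (nat_lit 0) (nat_lit 1782938228) (nat_lit 304) (nat_lit 11583595300) (nat_lit 76) (nat_lit 1296127483) (nat_lit 44) (nat_lit 5) (nat_lit 48) (nat_lit 5) (nat_lit 45) (nat_lit 4) (nat_lit 334) (nat_lit 233) (nat_lit 213))) (XT.nd (nat_lit 78) (nat_lit 152) (nat_lit 0) (XT.lf (nat_lit 0) (nat_lit 7359483153) (nat_lit 304) (nat_lit 867639966) (nat_lit 76) (nat_lit 6742517044) (nat_lit 44) (nat_lit 5) (nat_lit 48) (nat_lit 5) (nat_lit 45) (nat_lit 4) (nat_lit 335) (nat_lit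 233) (nat_lit 212)) (XT.lf (nat_lit 0) (nat_lit 10134665885) (nat_lit 152) (nat_lit 2935208713) (nat_lit 228) (nat_lit 2216659962) (nat_lit 42) (nat_lit 5) (nat_lit 44) (nat_lit 5) (nat_lit 45) (nat_lit 4) (nat_lit 336) (nat_lit 233) (nat_lit 211))))))) (XT.nd (nat_lit 1014) (nat_lit 912) (nat_lit 0) (XT.nd (nat_lit 468) (nat_lit 684) (nat_lit 0) (XT.nd (nat_lit 234) (nat_lit 380) (nat_lit 0) (XT.nd (nat_lit 78) (nat_lit 152) (nat_lit 0) (XT.lf (nat_lit 0) (nat_lit 3256330085) (nat_lit 304) (nat_lit 9876772619) (nat_lit 76) (nat_lit 2480205151) (nat_lit 38) (nat_lit 5) (nat_lit 42) (nat_lit 5) (nat_lit 39) (nat_lit 4) (nat_lit 337) (nat_lit 233) (nat_lit 210)) (XT.nd (nat_lit 78) (nat_lit 0) (nat_lit 0) (XT.lf (nat_lit 0) (nat_lit 884363010) (nat_lit 152) (nat_lit 7942955679) (nat_lit 228) (nat_lit 7123028203) (nat_lit 36) (nat_lit 5) (nat_lit 38) (nat_lit 5) (nat_lit 39) (nat_lit 4) (nat_lit 338)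 (nat_lit 233) (nat_lit 209)) (XT.lf (nat_lit 0) (nat_lit 11940735920) (nat_lit 152) (nat_lit 2596630567) (nat_lit 228) (nat_lit 1760725105) (nat_lit 36) (nat_lit 5) (nat_lit 38) (nat_lit 5) (nat_lit 39) (nat_lit 4) (nat_lit 339) (nat_lit 233) (nat_lit 208)))) (XT.nd (nat_lit 78) (nat_lit 152) (nat_lit 0) (XT.lf (nat_lit 0) (nat_lit 3681824455) (nat_lit 228) (nat_lit 10100702757) (nat_lit 76) (nat_lit 2873909896) (nat_lit 33) (nat_lit 5) (nat_lit 36) (nat_lit 5) (nat_lit 34) (nat_lit 4) (nat_lit 340) (nat_lit 233) (nat_lit 207)) (XT.nd (nat_lit 78) (nat_lit 0) (nat_lit 0) (XT.lf (nat_lit 0) (nat_lit 651974565) (nat_lit 152) (nat_lit 8571598938) (nat_lit 228) (nat_lit 7802560405) (nat_lit 31) (nat_lit 5) (nat_lit 33) (nat_lit 5) (nat_lit 34) (nat_lit 4) (nat_lit 341) (nat_lit 233) (nat_lit 206)) (XT.lf (nat_lit 0) (nat_lit 11709898291) (nat_lit 152) (nat_lit 3200168143) (nat_lit 228) (nat_lit 2497315031)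 (nat_lit 31) (nat_lit 5) (nat_lit 33) (nat_lit 5) (nat_lit 34) (nat_lit 4) (nat_lit 342) (nat_lit 233) (nat_lit 205))))) (XT.nd (nat_lit 234) (nat_lit 304) (nat_lit 0) (XT.nd (nat_lit 78) (nat_lit 152) (nat_lit 0) (XT.lf (nat_lit 0) (nat_lit 2889046459) (nat_lit 228) (nat_lit 12619752442) (nat_lit 76) (nat_lit 2291693064) (nat_lit 28) (nat_lit 5) (nat_lit 31) (nat_lit 5) (nat_lit 29) (nat_lit 4) (nat_lit 343) (nat_lit 233) (nat_lit 204)) (XT.nd (nat_lit 78) (nat_lit 152) (nat_lit 0) (XT.lf (nat_lit 0) (nat_lit 8376764102) (nat_lit 228) (nat_lit 1930815331) (nat_lit 76) (nat_lit 7898039750) (nat_lit 28) (nat_lit 5) (nat_lit 31) (nat_lit 5) (nat_lit 29) (nat_lit 4) (nat_lit 344) (nat_lit 233) (nat_lit 203)) (XT.lf (nat_lit 0) (nat_lit 9050762773) (nat_lit 152) (nat_lit 4952877219) (nat_lit 228) (nat_lit 4619796322) (nat_lit 26) (nat_lit 5) (nat_lit 28) (nat_lit 5) (nat_lit 29) (nat_lit 4) (nat_lit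 345) (nat_lit 233) (nat_lit 202)))) (XT.nd (nat_lit 156) (nat_lit 76) (nat_lit 0) (XT.nd (nat_lit 78) (nat_lit 0) (nat_lit 0) (XT.lf (nat_lit 0) (nat_lit 676843314) (nat_lit 228) (nat_lit 17858360843) (nat_lit 76) (nat_lit 519690604) (nat_lit 23) (nat_lit 5) (nat_lit 26) (nat_lit 5) (nat_lit 24) (nat_lit 4) (nat_lit 346) (nat_lit 233) (nat_lit 201)) (XT.lf (nat_lit 0) (nat_lit 6086198889) (nat_lit 228) (nat_lit 7286979443) (nat_lit 76) (nat_lit 6125200869) (nat_lit 23) (nat_lit 5) (nat_lit 26) (nat_lit 5) (nat_lit 24) (nat_lit 4) (nat_lit 347) (nat_lit 233) (nat_lit 200))) (XT.nd (nat_lit 78) (nat_lit 0) (nat_lit 0) (XT.lf (nat_lit 0) (nat_lit 3507365058) (nat_lit 76) (nat_lit 8093441009) (nat_lit 152) (nat_lit 8355526580) (nat_lit 22) (nat_lit 5) (nat_lit 23) (nat_lit 5) (nat_lit 24) (nat_lit 4) (nat_lit 348) (nat_lit 233) (nat_lit 199)) (XT.lf (nat_lit 0) (nat_lit 14587381379) (nat_lit 76) (nat_lit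 2664476698) (nat_lit 152) (nat_lit 3176769687) (nat_lit 22) (nat_lit 5) (nat_lit 23) (nat_lit 5) (nat_lit 24) (nat_lit 4) (nat_lit 349) (nat_lit 233) (nat_lit 198)))))) (XT.nd (nat_lit 546) (nat_lit 304) (nat_lit 0) (XT.nd (nat_lit 234) (nat_lit 304) (nat_lit 0) (XT.nd (nat_lit 78) (nat_lit 76) (nat_lit 0) (XT.lf (nat_lit 0) (nat_lit 2103847912) (nat_lit 228) (nat_lit 15933286262) (nat_lit 76) (nat_lit 2878203660) (nat_lit 19) (nat_lit 5) (nat_lit 22) (nat_lit 5) (nat_lit 20) (nat_lit 4) (nat_lit 350) (nat_lit 233) (nat_lit 197)) (XT.nd (nat_lit 78) (nat_lit 76) (nat_lit 0) (XT.lf (nat_lit 0) (nat_lit 7482013735) (nat_lit 228) (nat_lit 5379069855) (nat_lit 76) (nat_lit 8555521294) (nat_lit 19) (nat_lit 5) (nat_lit 22) (nat_lit 5) (nat_lit 20) (nat_lit 4) (nat_lit 351) (nat_lit 233) (nat_lit 196)) (XT.lf (nat_lit 0) (nat_lit 5433036520) (nat_lit 76) (nat_lit 7550346109) (nat_lit 152) (nat_lit 8950310968)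 (nat_lit 18) (nat_lit 5) (nat_lit 19) (nat_lit 5) (nat_lit 20) (nat_lit 4) (nat_lit 352) (nat_lit 233) (nat_lit 195)))) (XT.nd (nat_lit 156) (nat_lit 76) (nat_lit 0) (XT.nd (nat_lit 78) (nat_lit 228) (nat_lit 0) (XT.lf (nat_lit 0) (nat_lit 16515252833) (nat_lit 76) (nat_lit 2098881307) (nat_lit 152) (nat_lit 3852894207) (nat_lit 18) (nat_lit 5) (nat_lit 19) (nat_lit 5) (nat_lit 20) (nat_lit 4) (nat_lit 353) (nat_lit 233) (nat_lit 194)) (XT.lf (nat_lit 0) (nat_lit 1362811877) (nat_lit 228) (nat_lit 18196823807) (nat_lit 76) (nat_lit 3456891334) (nat_lit 15) (nat_lit 5) (nat_lit 18) (nat_lit 5) (nat_lit 16) (nat_lit 4) (nat_lit 354) (nat_lit 233) (nat_lit 193))) (XT.nd (nat_lit 78) (nat_lit 76) (nat_lit 0) (XT.lf (nat_lit 0) (nat_lit 6667989086) (nat_lit 228) (nat_lit 7750116222) (nat_lit 76) (nat_lit 9164207749) (nat_lit 15) (nat_lit 5) (nat_lit 18) (nat_lit 5) (nat_lit 16) (nat_lit 4) (nat_lit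 355) (nat_lit 233) (nat_lit 192)) (XT.lf (nat_lit 0) (nat_lit 2927869716) (nat_lit 76) (nat_lit 9155901305) (nat_lit 152) (nat_lit 12082290798) (nat_lit 14) (nat_lit 5) (nat_lit 15) (nat_lit 5) (nat_lit 16) (nat_lit 4) (nat_lit 356) (nat_lit 233) (nat_lit 191))))) (XT.nd (nat_lit 234) (nat_lit 76) (nat_lit 0) (XT.nd (nat_lit 78) (nat_lit 228) (nat_lit 0) (XT.lf (nat_lit 0) (nat_lit 13913712970) (nat_lit 76) (nat_lit 3734468376) (nat_lit 152) (nat_lit 7119436200) (nat_lit 14) (nat_lit 5) (nat_lit 15) (nat_lit 5) (nat_lit 16) (nat_lit 4) (nat_lit 357) (nat_lit 233) (nat_lit 190)) (XT.nd (nat_lit 78) (nat_lit 228) (nat_lit 0) (XT.lf (nat_lit 0) (nat_lit 23326774363) (nat_lit 152) (nat_lit 286187571) (nat_lit 0) (nat_lit 1775330091) (nat_lit 14) (nat_lit 5) (nat_lit 16) (nat_lit 4) (nat_lit 14) (nat_lit 4) (nat_lit 358) (nat_lit 233) (nat_lit 189)) (XT.lf (nat_lit 0) (nat_lit 3137961728) (nat_lit 228)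 (nat_lit 15447731890) (nat_lit 76) (nat_lit 7440878357) (nat_lit 11) (nat_lit 5) (nat_lit 14) (nat_lit 5) (nat_lit 12) (nat_lit 4) (nat_lit 359) (nat_lit 233) (nat_lit 188)))) (XT.nd (nat_lit 156) (nat_lit 0) (nat_lit 0) (XT.nd (nat_lit 78) (nat_lit 76) (nat_lit 0) (XT.lf (nat_lit 0) (nat_lit 8405343438) (nat_lit 228) (nat_lit 5035747350) (nat_lit 76) (nat_lit 13243854276) (nat_lit 11) (nat_lit 5) (nat_lit 14) (nat_lit 5) (nat_lit 12) (nat_lit 4) (nat_lit 360) (nat_lit 233) (nat_lit 187)) (XT.lf (nat_lit 0) (nat_lit 5654285110) (nat_lit 76) (nat_lit 8152798186) (nat_lit 152) (nat_lit 13556474649) (nat_lit 10) (nat_lit 5) (nat_lit 11) (nat_lit 5) (nat_lit 12) (nat_lit 4) (nat_lit 361) (nat_lit 233) (nat_lit 186))) (XT.nd (nat_lit 78) (nat_lit 0) (nat_lit 0) (XT.lf (nat_lit 0) (nat_lit 16627239840) (nat_lit 76) (nat_lit 2718450312) (nat_lit 152) (nat_lit 8717357649) (nat_lit 10) (nat_lit 5) (nat_lit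 11) (nat_lit 5) (nat_lit 12) (nat_lit 4) (nat_lit 362) (nat_lit 233) (nat_lit 185)) (XT.lf (nat_lit 0) (nat_lit 25011266773) (nat_lit 152) (nat_lit 977299131) (nat_lit 0) (nat_lit 2795754669) (nat_lit 10) (nat_lit 5) (nat_lit 12) (nat_lit 4) (nat_lit 10) (nat_lit 4) (nat_lit 363) (nat_lit 233) (nat_lit 184))))))))
noncomputable def xc13 : XT := (XT.nd (nat_lit 38532) (nat_lit 0) (nat_lit 152) (XT.nd (nat_lit 37518) (nat_lit 0) (nat_lit 2584) (XT.nd (nat_lit 36972) (nat_lit 0) (nat_lit 5168) (XT.nd (nat_lit 36738) (nat_lit 0) (nat_lit 7448) (XT.nd (nat_lit 36582) (nat_lit 0) (nat_lit 8588) (XT.lf (nat_lit 0) (nat_lit 1328067239) (nat_lit 152) (nat_lit 19731529469) (nat_lit 76) (nat_lit 8466961334) (nat_lit 8) (nat_lit 5) (nat_lit 10) (nat_lit 5) (nat_lit 9) (nat_lit 4) (nat_lit 364) (nat_lit 233) (nat_lit 183)) (XT.nd (nat_lit 78) (nat_lit 456) (nat_lit 0) (XT.lf (nat_lit 0) (nat_lit 2354095512)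 (nat_lit 380) (nat_lit 1291342304) (nat_lit 380) (nat_lit 1291342304) (nat_lit 127) (nat_lit 4) (nat_lit 132) (nat_lit 5) (nat_lit 132) (nat_lit 4) (nat_lit 312) (nat_lit 234) (nat_lit 234)) (XT.lf (nat_lit 0) (nat_lit 3118383250) (nat_lit 456) (nat_lit 5008823350) (nat_lit 0) (nat_lit 1898577012) (nat_lit 121) (nat_lit 5) (nat_lit 127) (nat_lit 4) (nat_lit 121) (nat_lit 4) (nat_lit 313) (nat_lit 234) (nat_lit 233)))) (XT.nd (nat_lit 78) (nat_lit 760) (nat_lit 0) (XT.lf (nat_lit 0) (nat_lit 5224100472) (nat_lit 380) (nat_lit 3681646250) (nat_lit 380) (nat_lit 1277562111) (nat_lit 116) (nat_lit 4) (nat_lit 121) (nat_lit 5) (nat_lit 121) (nat_lit 4) (nat_lit 314) (nat_lit 234) (nat_lit 232)) (XT.nd (nat_lit 78) (nat_lit 380) (nat_lit 0) (XT.lf (nat_lit 0) (nat_lit 4402095704) (nat_lit 380) (nat_lit 5026241312) (nat_lit 0) (nat_lit 917910891) (nat_lit 111) (nat_lit 5) (nat_lit 116) (nat_lit 4) (nat_lit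 111) (nat_lit 4) (nat_lit 315) (nat_lit 234) (nat_lit 231)) (XT.lf (nat_lit 0) (nat_lit 5297355796) (nat_lit 380) (nat_lit 4898004215) (nat_lit 380) (nat_lit 319412045) (nat_lit 106) (nat_lit 4) (nat_lit 111) (nat_lit 5) (nat_lit 111) (nat_lit 4) (nat_lit 316) (nat_lit 234) (nat_lit 230))))) (XT.nd (nat_lit 234) (nat_lit 1216) (nat_lit 0) (XT.nd (nat_lit 78) (nat_lit 684) (nat_lit 0) (XT.lf (nat_lit 0) (nat_lit 5144126004) (nat_lit 304) (nat_lit 195106465) (nat_lit 380) (nat_lit 5349743078) (nat_lit 101) (nat_lit 5) (nat_lit 105) (nat_lit 5) (nat_lit 106) (nat_lit 4) (nat_lit 317) (nat_lit 234) (nat_lit 229)) (XT.nd (nat_lit 78) (nat_lit 304) (nat_lit 0) (XT.lf (nat_lit 0) (nat_lit 259458727) (nat_lit 380) (nat_lit 6017763452) (nat_lit 76) (nat_lit 4591804590) (nat_lit 96) (nat_lit 5) (nat_lit 101) (nat_lit 5) (nat_lit 97) (nat_lit 4) (nat_lit 318) (nat_lit 234) (nat_lit 228)) (XT.lf (nat_lit 0)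 (nat_lit 4405011011) (nat_lit 304) (nat_lit 1500326049) (nat_lit 380) (nat_lit 5149681551) (nat_lit 92) (nat_lit 5) (nat_lit 96) (nat_lit 5) (nat_lit 97) (nat_lit 4) (nat_lit 319) (nat_lit 234) (nat_lit 227)))) (XT.nd (nat_lit 156) (nat_lit 608) (nat_lit 0) (XT.nd (nat_lit 78) (nat_lit 228) (nat_lit 0) (XT.lf (nat_lit 0) (nat_lit 430391379) (nat_lit 380) (nat_lit 7441462941) (nat_lit 76) (nat_lit 3375486907) (nat_lit 87) (nat_lit 5) (nat_lit 92) (nat_lit 5) (nat_lit 88) (nat_lit 4) (nat_lit 320) (nat_lit 234) (nat_lit 226)) (XT.lf (nat_lit 0) (nat_lit 3022498832) (nat_lit 228) (nat_lit 3037273111) (nat_lit 304) (nat_lit 5386006215) (nat_lit 84) (nat_lit 5) (nat_lit 87) (nat_lit 5) (nat_lit 88) (nat_lit 4) (nat_lit 321) (nat_lit 234) (nat_lit 225))) (XT.nd (nat_lit 78) (nat_lit 228) (nat_lit 0) (XT.lf (nat_lit 0) (nat_lit 159975380) (nat_lit 380) (nat_lit 9578024942) (nat_lit 76) (nat_lit 1913103954)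 (nat_lit 79) (nat_lit 5) (nat_lit 84) (nat_lit 5) (nat_lit 80) (nat_lit 4) (nat_lit 322) (nat_lit 234) (nat_lit 224)) (XT.lf (nat_lit 0) (nat_lit 901589810) (nat_lit 228) (nat_lit 4861426868) (nat_lit 304) (nat_lit 6099642416) (nat_lit 76) (nat_lit 5) (nat_lit 79) (nat_lit 5) (nat_lit 80) (nat_lit 4) (nat_lit 323) (nat_lit 234) (nat_lit 223)))))) (XT.nd (nat_lit 468) (nat_lit 1140) (nat_lit 0) (XT.nd (nat_lit 234) (nat_lit 836) (nat_lit 0) (XT.nd (nat_lit 78) (nat_lit 608) (nat_lit 0) (XT.lf (nat_lit 0) (nat_lit 11482163770) (nat_lit 304) (nat_lit 444593185) (nat_lit 0) (nat_lit 154899667) (nat_lit 76) (nat_lit 5) (nat_lit 80) (nat_lit 4) (nat_lit 76) (nat_lit 4) (nat_lit 324) (nat_lit 234) (nat_lit 222)) (XT.nd (nat_lit 78) (nat_lit 228) (nat_lit 0) (XT.lf (nat_lit 0) (nat_lit 4983565401) (nat_lit 380) (nat_lit 2035357769) (nat_lit 76) (nat_lit 5288009930) (nat_lit 71) (nat_lit 5) (nat_lit 76)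 (nat_lit 5) (nat_lit 72) (nat_lit 4) (nat_lit 325) (nat_lit 234) (nat_lit 221)) (XT.lf (nat_lit 0) (nat_lit 8702957898) (nat_lit 228) (nat_lit 1969043971) (nat_lit 304) (nat_lit 1868018204) (nat_lit 68) (nat_lit 5) (nat_lit 71) (nat_lit 5) (nat_lit 72) (nat_lit 4) (nat_lit 326) (nat_lit 234) (nat_lit 220)))) (XT.nd (nat_lit 78) (nat_lit 532) (nat_lit 0) (XT.lf (nat_lit 0) (nat_lit 3669325537) (nat_lit 304) (nat_lit 5906491304) (nat_lit 76) (nat_lit 3204494732) (nat_lit 64) (nat_lit 5) (nat_lit 68) (nat_lit 5) (nat_lit 65) (nat_lit 4) (nat_lit 327) (nat_lit 234) (nat_lit 219)) (XT.nd (nat_lit 78) (nat_lit 304) (nat_lit 0) (XT.lf (nat_lit 0) (nat_lit 4787242386) (nat_lit 228) (nat_lit 4520186322) (nat_lit 304) (nat_lit 3720983925) (nat_lit 61) (nat_lit 5) (nat_lit 64) (nat_lit 5) (nat_lit 65) (nat_lit 4) (nat_lit 328) (nat_lit 234) (nat_lit 218)) (XT.lf (nat_lit 0) (nat_lit 1758043197) (nat_lit 304)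 (nat_lit 10849486822) (nat_lit 76) (nat_lit 677208084) (nat_lit 57) (nat_lit 5) (nat_lit 61) (nat_lit 5) (nat_lit 58) (nat_lit 4) (nat_lit 329) (nat_lit 234) (nat_lit 217))))) (XT.nd (nat_lit 234) (nat_lit 608) (nat_lit 0) (XT.nd (nat_lit 78) (nat_lit 532) (nat_lit 0) (XT.lf (nat_lit 0) (nat_lit 7329953255) (nat_lit 304) (nat_lit 236704386) (nat_lit 76) (nat_lit 5982066945) (nat_lit 57) (nat_lit 5) (nat_lit 61) (nat_lit 5) (nat_lit 58) (nat_lit 4) (nat_lit 330) (nat_lit 234) (nat_lit 216)) (XT.nd (nat_lit 78) (nat_lit 304) (nat_lit 0) (XT.lf (nat_lit 0) (nat_lit 10661121280) (nat_lit 228) (nat_lit 2372588735) (nat_lit 304) (nat_lit 787670039) (nat_lit 54) (nat_lit 5) (nat_lit 57) (nat_lit 5) (nat_lit 58) (nat_lit 4) (nat_lit 331) (nat_lit 234) (nat_lit 215)) (XT.lf (nat_lit 0) (nat_lit 4710959001) (nat_lit 304) (nat_lit 6437360941) (nat_lit 76) (nat_lit 2953959601) (nat_lit 50) (nat_lit 5) (nat_lit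 54) (nat_lit 5) (nat_lit 51) (nat_lit 4) (nat_lit 332) (nat_lit 234) (nat_lit 214)))) (XT.nd (nat_lit 156) (nat_lit 152) (nat_lit 0) (XT.nd (nat_lit 78) (nat_lit 304) (nat_lit 0) (XT.lf (nat_lit 0) (nat_lit 4331859075) (nat_lit 152) (nat_lit 5995757303) (nat_lit 228) (nat_lit 4064649995) (nat_lit 48) (nat_lit 5) (nat_lit 50) (nat_lit 5) (nat_lit 51) (nat_lit 4) (nat_lit 333) (nat_lit 234) (nat_lit 213)) (XT.lf (nat_lit 0) (nat_lit 652004134) (nat_lit 228) (nat_lit 698650245) (nat_lit 304) (nat_lit 13341202160) (nat_lit 44) (nat_lit 5) (nat_lit 47) (nat_lit 5) (nat_lit 48) (nat_lit 5) (nat_lit 334) (nat_lit 234) (nat_lit 212))) (XT.nd (nat_lit 78) (nat_lit 152) (nat_lit 0) (XT.lf (nat_lit 0) (nat_lit 6873771184) (nat_lit 304) (nat_lit 3402142305) (nat_lit 76) (nat_lit 4724008929) (nat_lit 44) (nat_lit 5) (nat_lit 48) (nat_lit 5) (nat_lit 45) (nat_lit 4) (nat_lit 335) (nat_lit 234) (nat_lit 211))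 (XT.lf (nat_lit 0) (nat_lit 7485043038) (nat_lit 152) (nat_lit 5034448502) (nat_lit 228) (nat_lit 2798636334) (nat_lit 42) (nat_lit 5) (nat_lit 44) (nat_lit 5) (nat_lit 45) (nat_lit 4) (nat_lit 336) (nat_lit 234) (nat_lit 210))))))) (XT.nd (nat_lit 1014) (nat_lit 912) (nat_lit 0) (XT.nd (nat_lit 468) (nat_lit 684) (nat_lit 0) (XT.nd (nat_lit 234) (nat_lit 380) (nat_lit 0) (XT.nd (nat_lit 78) (nat_lit 152) (nat_lit 0) (XT.lf (nat_lit 0) (nat_lit 2602935411) (nat_lit 304) (nat_lit 12689557186) (nat_lit 76) (nat_lit 354081950) (nat_lit 38) (nat_lit 5) (nat_lit 42) (nat_lit 5) (nat_lit 39) (nat_lit 4) (nat_lit 337) (nat_lit 234) (nat_lit 209)) (XT.nd (nat_lit 78) (nat_lit 152) (nat_lit 0) (XT.lf (nat_lit 0) (nat_lit 8121905472) (nat_lit 304) (nat_lit 2019161303) (nat_lit 76) (nat_lit 5843603476) (nat_lit 38) (nat_lit 5) (nat_lit 42) (nat_lit 5) (nat_lit 39) (nat_lit 4) (nat_lit 338) (nat_lit 234) (nat_lit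 208)) (XT.lf (nat_lit 0) (nat_lit 8932520819) (nat_lit 152) (nat_lit 4840714187) (nat_lit 228) (nat_lit 2560370135) (nat_lit 36) (nat_lit 5) (nat_lit 38) (nat_lit 5) (nat_lit 39) (nat_lit 4) (nat_lit 339) (nat_lit 234) (nat_lit 207)))) (XT.nd (nat_lit 78) (nat_lit 152) (nat_lit 0) (XT.lf (nat_lit 0) (nat_lit 2812810510) (nat_lit 228) (nat_lit 13278811752) (nat_lit 76) (nat_lit 602044419) (nat_lit 33) (nat_lit 5) (nat_lit 36) (nat_lit 5) (nat_lit 34) (nat_lit 4) (nat_lit 340) (nat_lit 234) (nat_lit 206)) (XT.nd (nat_lit 78) (nat_lit 152) (nat_lit 0) (XT.lf (nat_lit 0) (nat_lit 8306511768) (nat_lit 228) (nat_lit 2610327207) (nat_lit 76) (nat_lit 6147500084) (nat_lit 33) (nat_lit 5) (nat_lit 36) (nat_lit 5) (nat_lit 34) (nat_lit 4) (nat_lit 341) (nat_lit 234) (nat_lit 205)) (XT.lf (nat_lit 0) (nat_lit 8338491832) (nat_lit 152) (nat_lit 5594317929) (nat_lit 228) (nat_lit 3513994950) (nat_lit 31) (nat_lit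 5) (nat_lit 33) (nat_lit 5) (nat_lit 34) (nat_lit 4) (nat_lit 342) (nat_lit 234) (nat_lit 204))))) (XT.nd (nat_lit 234) (nat_lit 304) (nat_lit 0) (XT.nd (nat_lit 78) (nat_lit 152) (nat_lit 0) (XT.lf (nat_lit 0) (nat_lit 1672861257) (nat_lit 152) (nat_lit 132828087) (nat_lit 228) (nat_lit 16035971621) (nat_lit 28) (nat_lit 5) (nat_lit 30) (nat_lit 5) (nat_lit 31) (nat_lit 5) (nat_lit 343) (nat_lit 234) (nat_lit 203)) (XT.nd (nat_lit 78) (nat_lit 152) (nat_lit 0) (XT.lf (nat_lit 0) (nat_lit 7251048601) (nat_lit 228) (nat_lit 5551280732) (nat_lit 76) (nat_lit 5445319137) (nat_lit 28) (nat_lit 5) (nat_lit 31) (nat_lit 5) (nat_lit 29) (nat_lit 4) (nat_lit 344) (nat_lit 234) (nat_lit 202)) (XT.lf (nat_lit 0) (nat_lit 5311075416) (nat_lit 152) (nat_lit 7502281185) (nat_lit 228) (nat_lit 5853413095) (nat_lit 26) (nat_lit 5) (nat_lit 28) (nat_lit 5) (nat_lit 29) (nat_lit 4) (nat_lit 345) (nat_lit 234) (nat_lit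 201)))) (XT.nd (nat_lit 156) (nat_lit 76) (nat_lit 0) (XT.nd (nat_lit 78) (nat_lit 228) (nat_lit 0) (XT.lf (nat_lit 0) (nat_lit 16435144406) (nat_lit 152) (nat_lit 2064695456) (nat_lit 228) (nat_lit 599503679) (nat_lit 26) (nat_lit 5) (nat_lit 28) (nat_lit 5) (nat_lit 29) (nat_lit 4) (nat_lit 346) (nat_lit 234) (nat_lit 200)) (XT.lf (nat_lit 0) (nat_lit 4747354480) (nat_lit 228) (nat_lit 11279557045) (nat_lit 76) (nat_lit 3517413275) (nat_lit 23) (nat_lit 5) (nat_lit 26) (nat_lit 5) (nat_lit 24) (nat_lit 4) (nat_lit 347) (nat_lit 234) (nat_lit 199))) (XT.nd (nat_lit 78) (nat_lit 76) (nat_lit 0) (XT.lf (nat_lit 0) (nat_lit 10201023561) (nat_lit 228) (nat_lit 598254240) (nat_lit 76) (nat_lit 9204230636) (nat_lit 23) (nat_lit 5) (nat_lit 26) (nat_lit 5) (nat_lit 24) (nat_lit 4) (nat_lit 348) (nat_lit 234) (nat_lit 198)) (XT.lf (nat_lit 0) (nat_lit 10407857299) (nat_lit 76) (nat_lit 5402799840) (nat_lit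 152) (nat_lit 4665985877) (nat_lit 22) (nat_lit 5) (nat_lit 23) (nat_lit 5) (nat_lit 24) (nat_lit 4) (nat_lit 349) (nat_lit 234) (nat_lit 197)))))) (XT.nd (nat_lit 546) (nat_lit 380) (nat_lit 0) (XT.nd (nat_lit 234) (nat_lit 228) (nat_lit 0) (XT.nd (nat_lit 78) (nat_lit 76) (nat_lit 0) (XT.lf (nat_lit 0) (nat_lit 551136223) (nat_lit 228) (nat_lit 20303903112) (nat_lit 76) (nat_lit 110178228) (nat_lit 19) (nat_lit 5) (nat_lit 22) (nat_lit 5) (nat_lit 20) (nat_lit 4) (nat_lit 350) (nat_lit 234) (nat_lit 196)) (XT.nd (nat_lit 78) (nat_lit 76) (nat_lit 0) (XT.lf (nat_lit 0) (nat_lit 5893136144) (nat_lit 228) (nat_lit 9813722062) (nat_lit 76) (nat_lit 5760359978) (nat_lit 19) (nat_lit 5) (nat_lit 22) (nat_lit 5) (nat_lit 20) (nat_lit 4) (nat_lit 351) (nat_lit 234) (nat_lit 195)) (XT.lf (nat_lit 0) (nat_lit 876453660) (nat_lit 76) (nat_lit 10453354494) (nat_lit 152) (nat_lit 10655802633) (nat_lit 18)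 (nat_lit 5) (nat_lit 19) (nat_lit 5) (nat_lit 20) (nat_lit 4) (nat_lit 352) (nat_lit 234) (nat_lit 194)))) (XT.nd (nat_lit 156) (nat_lit 76) (nat_lit 0) (XT.nd (nat_lit 78) (nat_lit 152) (nat_lit 0) (XT.lf (nat_lit 0) (nat_lit 11897508363) (nat_lit 76) (nat_lit 5028564370) (nat_lit 152) (nat_lit 5593572207) (nat_lit 18) (nat_lit 5) (nat_lit 19) (nat_lit 5) (nat_lit 20) (nat_lit 4) (nat_lit 353) (nat_lit 234) (nat_lit 193)) (XT.lf (nat_lit 0) (nat_lit 55007911) (nat_lit 152) (nat_lit 22570892960) (nat_lit 152) (nat_lit 445104780) (nat_lit 16) (nat_lit 4) (nat_lit 18) (nat_lit 5) (nat_lit 18) (nat_lit 4) (nat_lit 354) (nat_lit 234) (nat_lit 192))) (XT.nd (nat_lit 78) (nat_lit 0) (nat_lit 0) (XT.lf (nat_lit 0) (nat_lit 4832629140) (nat_lit 228) (nat_lit 12625770886) (nat_lit 76) (nat_lit 6179124012) (nat_lit 15) (nat_lit 5) (nat_lit 18) (nat_lit 5) (nat_lit 16) (nat_lit 4) (nat_lit 355) (nat_lit 234)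 (nat_lit 191)) (XT.lf (nat_lit 0) (nat_lit 10197089833) (nat_lit 228) (nat_lit 2043825889) (nat_lit 76) (nat_lit 11981392173) (nat_lit 15) (nat_lit 5) (nat_lit 18) (nat_lit 5) (nat_lit 16) (nat_lit 4) (nat_lit 356) (nat_lit 234) (nat_lit 190))))) (XT.nd (nat_lit 234) (nat_lit 76) (nat_lit 0) (XT.nd (nat_lit 78) (nat_lit 228) (nat_lit 0) (XT.lf (nat_lit 0) (nat_lit 8858149754) (nat_lit 76) (nat_lit 6858165549) (nat_lit 152) (nat_lit 9108460434) (nat_lit 14) (nat_lit 5) (nat_lit 15) (nat_lit 5) (nat_lit 16) (nat_lit 4) (nat_lit 357) (nat_lit 234) (nat_lit 189)) (XT.nd (nat_lit 78) (nat_lit 228) (nat_lit 0) (XT.lf (nat_lit 0) (nat_lit 20003400035) (nat_lit 76) (nat_lit 1349014277) (nat_lit 152) (nat_lit 4093893958) (nat_lit 14) (nat_lit 5) (nat_lit 15) (nat_lit 5) (nat_lit 16) (nat_lit 4) (nat_lit 358) (nat_lit 234) (nat_lit 188)) (XT.lf (nat_lit 0) (nat_lit 1058697795) (nat_lit 228) (nat_lit 20764534296)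 (nat_lit 76) (nat_lit 4263098670) (nat_lit 11) (nat_lit 5) (nat_lit 14) (nat_lit 5) (nat_lit 12) (nat_lit 4) (nat_lit 359) (nat_lit 234) (nat_lit 187)))) (XT.nd (nat_lit 156) (nat_lit 0) (nat_lit 0) (XT.nd (nat_lit 78) (nat_lit 76) (nat_lit 0) (XT.lf (nat_lit 0) (nat_lit 6296338288) (nat_lit 228) (nat_lit 10405982555) (nat_lit 76) (nat_lit 10042985386) (nat_lit 11) (nat_lit 5) (nat_lit 14) (nat_lit 5) (nat_lit 12) (nat_lit 4) (nat_lit 360) (nat_lit 234) (nat_lit 186)) (XT.lf (nat_lit 0) (nat_lit 160116390) (nat_lit 76) (nat_lit 11473414999) (nat_lit 152) (nat_lit 15791685988) (nat_lit 10) (nat_lit 5) (nat_lit 11) (nat_lit 5) (nat_lit 12) (nat_lit 4) (nat_lit 361) (nat_lit 234) (nat_lit 185))) (XT.nd (nat_lit 78) (nat_lit 0) (nat_lit 0) (XT.lf (nat_lit 0) (nat_lit 11082036251) (nat_lit 76) (nat_lit 6061736691) (nat_lit 152) (nat_lit 10981508716) (nat_lit 10) (nat_lit 5) (nat_lit 11) (nat_lit 5)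 (nat_lit 12) (nat_lit 4) (nat_lit 362) (nat_lit 234) (nat_lit 184)) (XT.lf (nat_lit 0) (nat_lit 22231030422) (nat_lit 76) (nat_lit 532386889) (nat_lit 152) (nat_lit 6084062676) (nat_lit 10) (nat_lit 5) (nat_lit 11) (nat_lit 5) (nat_lit 12) (nat_lit 4) (nat_lit 363) (nat_lit 234) (nat_lit 183))))))))
noncomputable def xc14 : XT := (XT.nd (nat_lit 38376) (nat_lit 0) (nat_lit 152) (XT.nd (nat_lit 37362) (nat_lit 0) (nat_lit 2888) (XT.nd (nat_lit 36816) (nat_lit 0) (nat_lit 5700) (XT.nd (nat_lit 36582) (nat_lit 0) (nat_lit 8132) (XT.nd (nat_lit 36426) (nat_lit 0) (nat_lit 9348) (XT.lf (nat_lit 0) (nat_lit 4044198755) (nat_lit 76) (nat_lit 24512672697) (nat_lit 76) (nat_lit 1034382028) (nat_lit 9) (nat_lit 4) (nat_lit 10) (nat_lit 5) (nat_lit 10) (nat_lit 4) (nat_lit 364) (nat_lit 234) (nat_lit 182)) (XT.nd (nat_lit 78) (nat_lit 456) (nat_lit 0) (XT.lf (nat_lit 0) (nat_lit 1957919256) (nat_lit 456)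 (nat_lit 1416819814) (nat_lit 456) (nat_lit 1416819814) (nat_lit 138) (nat_lit 4) (nat_lit 144) (nat_lit 5) (nat_lit 144) (nat_lit 4) (nat_lit 310) (nat_lit 235) (nat_lit 235)) (XT.lf (nat_lit 0) (nat_lit 2794581395) (nat_lit 456) (nat_lit 5418910785) (nat_lit 0) (nat_lit 1513052962) (nat_lit 132) (nat_lit 5) (nat_lit 138) (nat_lit 4) (nat_lit 132) (nat_lit 4) (nat_lit 311) (nat_lit 235) (nat_lit 234)))) (XT.nd (nat_lit 78) (nat_lit 836) (nat_lit 0) (XT.lf (nat_lit 0) (nat_lit 4608567416) (nat_lit 380) (nat_lit 3896061203) (nat_lit 380) (nat_lit 1370330407) (nat_lit 127) (nat_lit 4) (nat_lit 132) (nat_lit 5) (nat_lit 132) (nat_lit 4) (nat_lit 312) (nat_lit 235) (nat_lit 233)) (XT.nd (nat_lit 78) (nat_lit 380) (nat_lit 0) (XT.lf (nat_lit 0) (nat_lit 4238511939) (nat_lit 456) (nat_lit 5212053353) (nat_lit 0) (nat_lit 578027375) (nat_lit 121) (nat_lit 5) (nat_lit 127) (nat_lit 4) (nat_lit 121) (nat_lit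 4) (nat_lit 313) (nat_lit 235) (nat_lit 232)) (XT.lf (nat_lit 0) (nat_lit 4919680566) (nat_lit 380) (nat_lit 5039044626) (nat_lit 380) (nat_lit 228775693) (nat_lit 116) (nat_lit 4) (nat_lit 121) (nat_lit 5) (nat_lit 121) (nat_lit 4) (nat_lit 314) (nat_lit 235) (nat_lit 231))))) (XT.nd (nat_lit 234) (nat_lit 1292) (nat_lit 0) (XT.nd (nat_lit 78) (nat_lit 760) (nat_lit 0) (XT.lf (nat_lit 0) (nat_lit 4908756669) (nat_lit 304) (nat_lit 455263680) (nat_lit 380) (nat_lit 4987783622) (nat_lit 111) (nat_lit 5) (nat_lit 115) (nat_lit 5) (nat_lit 116) (nat_lit 4) (nat_lit 315) (nat_lit 235) (nat_lit 230)) (XT.nd (nat_lit 78) (nat_lit 304) (nat_lit 0) (XT.lf (nat_lit 0) (nat_lit 558488298) (nat_lit 456) (nat_lit 5744742344) (nat_lit 76) (nat_lit 4218453290) (nat_lit 105) (nat_lit 5) (nat_lit 111) (nat_lit 5) (nat_lit 106) (nat_lit 4) (nat_lit 316) (nat_lit 235) (nat_lit 229)) (XT.lf (nat_lit 0) (nat_lit 4511075415)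 (nat_lit 304) (nat_lit 1635235486) (nat_lit 380) (nat_lit 4550902879) (nat_lit 101) (nat_lit 5) (nat_lit 105) (nat_lit 5) (nat_lit 106) (nat_lit 4) (nat_lit 317) (nat_lit 235) (nat_lit 228)))) (XT.nd (nat_lit 156) (nat_lit 608) (nat_lit 0) (XT.nd (nat_lit 78) (nat_lit 304) (nat_lit 0) (XT.lf (nat_lit 0) (nat_lit 971633987) (nat_lit 380) (nat_lit 6768682061) (nat_lit 76) (nat_lit 3138402463) (nat_lit 96) (nat_lit 5) (nat_lit 101) (nat_lit 5) (nat_lit 97) (nat_lit 4) (nat_lit 318) (nat_lit 235) (nat_lit 227)) (XT.lf (nat_lit 0) (nat_lit 3548710017) (nat_lit 304) (nat_lit 3002474874) (nat_lit 380) (nat_lit 4514884520) (nat_lit 92) (nat_lit 5) (nat_lit 96) (nat_lit 5) (nat_lit 97) (nat_lit 4) (nat_lit 319) (nat_lit 235) (nat_lit 226))) (XT.nd (nat_lit 78) (nat_lit 228) (nat_lit 0) (XT.lf (nat_lit 0) (nat_lit 980504961) (nat_lit 380) (nat_lit 8421554654) (nat_lit 76) (nat_lit 1857808083) (nat_lit 87)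 (nat_lit 5) (nat_lit 92) (nat_lit 5) (nat_lit 88) (nat_lit 4) (nat_lit 320) (nat_lit 235) (nat_lit 225)) (XT.lf (nat_lit 0) (nat_lit 1935217561) (nat_lit 228) (nat_lit 4608520289) (nat_lit 304) (nat_lit 4915919774) (nat_lit 84) (nat_lit 5) (nat_lit 87) (nat_lit 5) (nat_lit 88) (nat_lit 4) (nat_lit 321) (nat_lit 235) (nat_lit 224)))))) (XT.nd (nat_lit 468) (nat_lit 1292) (nat_lit 0) (XT.nd (nat_lit 234) (nat_lit 912) (nat_lit 0) (XT.nd (nat_lit 78) (nat_lit 228) (nat_lit 0) (XT.lf (nat_lit 0) (nat_lit 547198445) (nat_lit 380) (nat_lit 10795082806) (nat_lit 76) (nat_lit 324204005) (nat_lit 79) (nat_lit 5) (nat_lit 84) (nat_lit 5) (nat_lit 80) (nat_lit 4) (nat_lit 322) (nat_lit 235) (nat_lit 223)) (XT.nd (nat_lit 78) (nat_lit 228) (nat_lit 0) (XT.lf (nat_lit 0) (nat_lit 6086906341) (nat_lit 380) (nat_lit 418978360) (nat_lit 76) (nat_lit 5373449803) (nat_lit 79) (nat_lit 5) (nat_lit 84) (nat_lit 5)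 (nat_lit 80) (nat_lit 4) (nat_lit 323) (nat_lit 235) (nat_lit 222)) (XT.lf (nat_lit 0) (nat_lit 10221768423) (nat_lit 228) (nat_lit 1524118352) (nat_lit 304) (nat_lit 353675543) (nat_lit 76) (nat_lit 5) (nat_lit 79) (nat_lit 5) (nat_lit 80) (nat_lit 4) (nat_lit 324) (nat_lit 235) (nat_lit 221)))) (XT.nd (nat_lit 78) (nat_lit 532) (nat_lit 0) (XT.lf (nat_lit 0) (nat_lit 5150834236) (nat_lit 380) (nat_lit 3587761295) (nat_lit 76) (nat_lit 3587743490) (nat_lit 71) (nat_lit 5) (nat_lit 76) (nat_lit 5) (nat_lit 72) (nat_lit 4) (nat_lit 325) (nat_lit 235) (nat_lit 220)) (XT.nd (nat_lit 78) (nat_lit 304) (nat_lit 0) (XT.lf (nat_lit 0) (nat_lit 7040966689) (nat_lit 228) (nat_lit 3733204960) (nat_lit 304) (nat_lit 1786581234) (nat_lit 68) (nat_lit 5) (nat_lit 71) (nat_lit 5) (nat_lit 72) (nat_lit 4) (nat_lit 326) (nat_lit 235) (nat_lit 219)) (XT.lf (nat_lit 0) (nat_lit 3672638512) (nat_lit 304) (nat_lit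 7710681432) (nat_lit 76) (nat_lit 1419278692) (nat_lit 64) (nat_lit 5) (nat_lit 68) (nat_lit 5) (nat_lit 65) (nat_lit 4) (nat_lit 327) (nat_lit 235) (nat_lit 218))))) (XT.nd (nat_lit 234) (nat_lit 760) (nat_lit 0) (XT.nd (nat_lit 78) (nat_lit 304) (nat_lit 0) (XT.lf (nat_lit 0) (nat_lit 2871373794) (nat_lit 228) (nat_lit 6374056987) (nat_lit 304) (nat_lit 3806598148) (nat_lit 61) (nat_lit 5) (nat_lit 64) (nat_lit 5) (nat_lit 65) (nat_lit 4) (nat_lit 328) (nat_lit 235) (nat_lit 217)) (XT.nd (nat_lit 78) (nat_lit 0) (nat_lit 0) (XT.lf (nat_lit 0) (nat_lit 388094657) (nat_lit 228) (nat_lit 1215430494) (nat_lit 304) (nat_lit 11706262809) (nat_lit 57) (nat_lit 5) (nat_lit 60) (nat_lit 5) (nat_lit 61) (nat_lit 5) (nat_lit 329) (nat_lit 235) (nat_lit 216)) (XT.lf (nat_lit 0) (nat_lit 7116051380) (nat_lit 304) (nat_lit 2386321341) (nat_lit 76) (nat_lit 4072610668) (nat_lit 57) (nat_lit 5) (nat_lit 61)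 (nat_lit 5) (nat_lit 58) (nat_lit 4) (nat_lit 330) (nat_lit 235) (nat_lit 215)))) (XT.nd (nat_lit 156) (nat_lit 228) (nat_lit 0) (XT.nd (nat_lit 78) (nat_lit 304) (nat_lit 0) (XT.lf (nat_lit 0) (nat_lit 8399019114) (nat_lit 228) (nat_lit 4356109292) (nat_lit 304) (nat_lit 1093824699) (nat_lit 54) (nat_lit 5) (nat_lit 57) (nat_lit 5) (nat_lit 58) (nat_lit 4) (nat_lit 331) (nat_lit 235) (nat_lit 214)) (XT.lf (nat_lit 0) (nat_lit 4330610988) (nat_lit 304) (nat_lit 8854417479) (nat_lit 76) (nat_lit 946447711) (nat_lit 50) (nat_lit 5) (nat_lit 54) (nat_lit 5) (nat_lit 51) (nat_lit 4) (nat_lit 332) (nat_lit 235) (nat_lit 213))) (XT.nd (nat_lit 78) (nat_lit 76) (nat_lit 0) (XT.lf (nat_lit 0) (nat_lit 1800000378) (nat_lit 152) (nat_lit 8082123768) (nat_lit 228) (nat_lit 4540660830) (nat_lit 48) (nat_lit 5) (nat_lit 50) (nat_lit 5) (nat_lit 51) (nat_lit 4) (nat_lit 333) (nat_lit 235) (nat_lit 212)) (XT.lf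 (nat_lit 0) (nat_lit 828510090) (nat_lit 228) (nat_lit 1996764275) (nat_lit 76) (nat_lit 11898228281) (nat_lit 47) (nat_lit 5) (nat_lit 50) (nat_lit 5) (nat_lit 48) (nat_lit 5) (nat_lit 334) (nat_lit 235) (nat_lit 211))))))) (XT.nd (nat_lit 1014) (nat_lit 912) (nat_lit 0) (XT.nd (nat_lit 468) (nat_lit 760) (nat_lit 0) (XT.nd (nat_lit 234) (nat_lit 608) (nat_lit 0) (XT.nd (nat_lit 78) (nat_lit 228) (nat_lit 0) (XT.lf (nat_lit 0) (nat_lit 6277127855) (nat_lit 304) (nat_lit 6175831276) (nat_lit 76) (nat_lit 2580117011) (nat_lit 44) (nat_lit 5) (nat_lit 48) (nat_lit 5) (nat_lit 45) (nat_lit 4) (nat_lit 335) (nat_lit 235) (nat_lit 210)) (XT.nd (nat_lit 78) (nat_lit 76) (nat_lit 0) (XT.lf (nat_lit 0) (nat_lit 4595426884) (nat_lit 152) (nat_lit 7262574604) (nat_lit 228) (nat_lit 3494594166) (nat_lit 42) (nat_lit 5) (nat_lit 44) (nat_lit 5) (nat_lit 45) (nat_lit 4) (nat_lit 336) (nat_lit 235) (nat_lit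 209)) (XT.lf (nat_lit 0) (nat_lit 1849003818) (nat_lit 228) (nat_lit 76369999) (nat_lit 76) (nat_lit 13757117208) (nat_lit 41) (nat_lit 5) (nat_lit 44) (nat_lit 5) (nat_lit 42) (nat_lit 5) (nat_lit 337) (nat_lit 235) (nat_lit 208)))) (XT.nd (nat_lit 78) (nat_lit 380) (nat_lit 0) (XT.lf (nat_lit 0) (nat_lit 7310038507) (nat_lit 304) (nat_lit 5153822062) (nat_lit 76) (nat_lit 3557900691) (nat_lit 38) (nat_lit 5) (nat_lit 42) (nat_lit 5) (nat_lit 39) (nat_lit 4) (nat_lit 338) (nat_lit 235) (nat_lit 207)) (XT.nd (nat_lit 78) (nat_lit 228) (nat_lit 0) (XT.lf (nat_lit 0) (nat_lit 5680612558) (nat_lit 152) (nat_lit 7216021736) (nat_lit 228) (nat_lit 3475371892) (nat_lit 36) (nat_lit 5) (nat_lit 38) (nat_lit 5) (nat_lit 39) (nat_lit 4) (nat_lit 339) (nat_lit 235) (nat_lit 206)) (XT.lf (nat_lit 0) (nat_lit 15920232) (nat_lit 152) (nat_lit 1824709216) (nat_lit 228) (nat_lit 14892955310) (nat_lit 33) (nat_lit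 5) (nat_lit 35) (nat_lit 5) (nat_lit 36) (nat_lit 5) (nat_lit 340) (nat_lit 235) (nat_lit 205))))) (XT.nd (nat_lit 234) (nat_lit 532) (nat_lit 0) (XT.nd (nat_lit 78) (nat_lit 228) (nat_lit 0) (XT.lf (nat_lit 0) (nat_lit 7279944902) (nat_lit 228) (nat_lit 6110771607) (nat_lit 76) (nat_lit 3714642539) (nat_lit 33) (nat_lit 5) (nat_lit 36) (nat_lit 5) (nat_lit 34) (nat_lit 4) (nat_lit 341) (nat_lit 235) (nat_lit 204)) (XT.nd (nat_lit 78) (nat_lit 76) (nat_lit 0) (XT.lf (nat_lit 0) (nat_lit 4719280979) (nat_lit 152) (nat_lit 8122164006) (nat_lit 228) (nat_lit 4647689457) (nat_lit 31) (nat_lit 5) (nat_lit 33) (nat_lit 5) (nat_lit 34) (nat_lit 4) (nat_lit 342) (nat_lit 235) (nat_lit 203)) (XT.lf (nat_lit 0) (nat_lit 635168248) (nat_lit 228) (nat_lit 2073957383) (nat_lit 76) (nat_lit 15176059301) (nat_lit 30) (nat_lit 5) (nat_lit 33) (nat_lit 5) (nat_lit 31) (nat_lit 5) (nat_lit 343) (nat_lit 235) (nat_lit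 202)))) (XT.nd (nat_lit 156) (nat_lit 228) (nat_lit 0) (XT.nd (nat_lit 78) (nat_lit 152) (nat_lit 0) (XT.lf (nat_lit 0) (nat_lit 6009778296) (nat_lit 228) (nat_lit 9422815921) (nat_lit 76) (nat_lit 2860005941) (nat_lit 28) (nat_lit 5) (nat_lit 31) (nat_lit 5) (nat_lit 29) (nat_lit 4) (nat_lit 344) (nat_lit 235) (nat_lit 201)) (XT.lf (nat_lit 0) (nat_lit 1319052788) (nat_lit 152) (nat_lit 10188000709) (nat_lit 228) (nat_lit 7205980909) (nat_lit 26) (nat_lit 5) (nat_lit 28) (nat_lit 5) (nat_lit 29) (nat_lit 4) (nat_lit 345) (nat_lit 235) (nat_lit 200))) (XT.nd (nat_lit 78) (nat_lit 228) (nat_lit 0) (XT.lf (nat_lit 0) (nat_lit 12376095785) (nat_lit 152) (nat_lit 4779031097) (nat_lit 228) (nat_lit 1991261573) (nat_lit 26) (nat_lit 5) (nat_lit 28) (nat_lit 5) (nat_lit 29) (nat_lit 4) (nat_lit 346) (nat_lit 235) (nat_lit 199)) (XT.lf (nat_lit 0) (nat_lit 3290867843) (nat_lit 228) (nat_lit 15528007182)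 (nat_lit 76) (nat_lit 774346477) (nat_lit 23) (nat_lit 5) (nat_lit 26) (nat_lit 5) (nat_lit 24) (nat_lit 4) (nat_lit 347) (nat_lit 235) (nat_lit 198)))))) (XT.nd (nat_lit 546) (nat_lit 532) (nat_lit 0) (XT.nd (nat_lit 234) (nat_lit 304) (nat_lit 0) (XT.nd (nat_lit 78) (nat_lit 76) (nat_lit 0) (XT.lf (nat_lit 0) (nat_lit 8707482595) (nat_lit 228) (nat_lit 4911793672) (nat_lit 76) (nat_lit 6433881052) (nat_lit 23) (nat_lit 5) (nat_lit 26) (nat_lit 5) (nat_lit 24) (nat_lit 4) (nat_lit 348) (nat_lit 235) (nat_lit 197)) (XT.nd (nat_lit 78) (nat_lit 0) (nat_lit 0) (XT.lf (nat_lit 0) (nat_lit 5972959899) (nat_lit 76) (nat_lit 8279386903) (nat_lit 152) (nat_lit 6275251257) (nat_lit 22) (nat_lit 5) (nat_lit 23) (nat_lit 5) (nat_lit 24) (nat_lit 4) (nat_lit 349) (nat_lit 235) (nat_lit 196)) (XT.lf (nat_lit 0) (nat_lit 17125287935) (nat_lit 76) (nat_lit 2799831145) (nat_lit 152) (nat_lit 1091942924) (nat_lit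 22) (nat_lit 5) (nat_lit 23) (nat_lit 5) (nat_lit 24) (nat_lit 4) (nat_lit 350) (nat_lit 235) (nat_lit 195)))) (XT.nd (nat_lit 156) (nat_lit 76) (nat_lit 0) (XT.nd (nat_lit 78) (nat_lit 0) (nat_lit 0) (XT.lf (nat_lit 0) (nat_lit 4185313799) (nat_lit 228) (nat_lit 14507619440) (nat_lit 76) (nat_lit 2827862417) (nat_lit 19) (nat_lit 5) (nat_lit 22) (nat_lit 5) (nat_lit 20) (nat_lit 4) (nat_lit 351) (nat_lit 235) (nat_lit 194)) (XT.lf (nat_lit 0) (nat_lit 9582205461) (nat_lit 228) (nat_lit 3889298030) (nat_lit 76) (nat_lit 8568490042) (nat_lit 19) (nat_lit 5) (nat_lit 22) (nat_lit 5) (nat_lit 20) (nat_lit 4) (nat_lit 352) (nat_lit 235) (nat_lit 193))) (XT.nd (nat_lit 78) (nat_lit 0) (nat_lit 0) (XT.lf (nat_lit 0) (nat_lit 7020689743) (nat_lit 76) (nat_lit 8098710350) (nat_lit 152) (nat_lit 7455818373) (nat_lit 18) (nat_lit 5) (nat_lit 19) (nat_lit 5) (nat_lit 20) (nat_lit 4) (nat_lit 353) (nat_lit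 235) (nat_lit 192)) (XT.lf (nat_lit 0) (nat_lit 18194183587) (nat_lit 76) (nat_lit 2588892390) (nat_lit 152) (nat_lit 2344235354) (nat_lit 18) (nat_lit 5) (nat_lit 19) (nat_lit 5) (nat_lit 20) (nat_lit 4) (nat_lit 354) (nat_lit 235) (nat_lit 191))))) (XT.nd (nat_lit 234) (nat_lit 228) (nat_lit 0) (XT.nd (nat_lit 78) (nat_lit 76) (nat_lit 0) (XT.lf (nat_lit 0) (nat_lit 2876615908) (nat_lit 228) (nat_lit 17764707240) (nat_lit 76) (nat_lit 3054397651) (nat_lit 15) (nat_lit 5) (nat_lit 18) (nat_lit 5) (nat_lit 16) (nat_lit 4) (nat_lit 355) (nat_lit 235) (nat_lit 190)) (XT.nd (nat_lit 78) (nat_lit 76) (nat_lit 0) (XT.lf (nat_lit 0) (nat_lit 8209706144) (nat_lit 228) (nat_lit 7238724770) (nat_lit 76) (nat_lit 8832709569) (nat_lit 15) (nat_lit 5) (nat_lit 18) (nat_lit 5) (nat_lit 16) (nat_lit 4) (nat_lit 356) (nat_lit 235) (nat_lit 189)) (XT.lf (nat_lit 0) (nat_lit 3539158798) (nat_lit 76) (nat_lit 10124781645)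 (nat_lit 152) (nat_lit 11220975878) (nat_lit 14) (nat_lit 5) (nat_lit 15) (nat_lit 5) (nat_lit 16) (nat_lit 4) (nat_lit 357) (nat_lit 235) (nat_lit 188)))) (XT.nd (nat_lit 156) (nat_lit 228) (nat_lit 0) (XT.nd (nat_lit 78) (nat_lit 0) (nat_lit 0) (XT.lf (nat_lit 0) (nat_lit 14630958009) (nat_lit 76) (nat_lit 4639164739) (nat_lit 152) (nat_lit 6236932375) (nat_lit 14) (nat_lit 5) (nat_lit 15) (nat_lit 5) (nat_lit 16) (nat_lit 4) (nat_lit 358) (nat_lit 235) (nat_lit 187)) (XT.lf (nat_lit 0) (nat_lit 24991791542) (nat_lit 152) (nat_lit 205150151) (nat_lit 0) (nat_lit 951986014) (nat_lit 14) (nat_lit 5) (nat_lit 16) (nat_lit 4) (nat_lit 14) (nat_lit 4) (nat_lit 359) (nat_lit 235) (nat_lit 186))) (XT.nd (nat_lit 78) (nat_lit 0) (nat_lit 0) (XT.lf (nat_lit 0) (nat_lit 4065446795) (nat_lit 228) (nat_lit 16042634119) (nat_lit 76) (nat_lit 6700584522) (nat_lit 11) (nat_lit 5) (nat_lit 14) (nat_lit 5) (nat_lit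 12) (nat_lit 4) (nat_lit 360) (nat_lit 235) (nat_lit 185)) (XT.lf (nat_lit 0) (nat_lit 9373566364) (nat_lit 228) (nat_lit 5529000667) (nat_lit 76) (nat_lit 12586598143) (nat_lit 11) (nat_lit 5) (nat_lit 14) (nat_lit 5) (nat_lit 12) (nat_lit 4) (nat_lit 361) (nat_lit 235) (nat_lit 184))))))))
noncomputable def xc15 : XT := (XT.nd (nat_lit 38298) (nat_lit 0) (nat_lit 304) (XT.nd (nat_lit 37206) (nat_lit 0) (nat_lit 3344) (XT.nd (nat_lit 36660) (nat_lit 0) (nat_lit 6916) (XT.nd (nat_lit 36426) (nat_lit 0) (nat_lit 9728) (XT.nd (nat_lit 78) (nat_lit 0) (nat_lit 0) (XT.lf (nat_lit 0) (nat_lit 5269893268) (nat_lit 76) (nat_lit 9550000516) (nat_lit 152) (nat_lit 13370620866) (nat_lit 10) (nat_lit 5) (nat_lit 11) (nat_lit 5) (nat_lit 12) (nat_lit 4) (nat_lit 362) (nat_lit 235) (nat_lit 183)) (XT.nd (nat_lit 78) (nat_lit 0) (nat_lit 0) (XT.lf (nat_lit 0) (nat_lit 16370782180) (nat_lit 76) (nat_lit 4042018954)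 (nat_lit 152) (nat_lit 8500453296) (nat_lit 10) (nat_lit 5) (nat_lit 11) (nat_lit 5) (nat_lit 12) (nat_lit 4) (nat_lit 363) (nat_lit 235) (nat_lit 182)) (XT.lf (nat_lit 0) (nat_lit 26131117830) (nat_lit 152) (nat_lit 1959172583) (nat_lit 0) (nat_lit 1568246774) (nat_lit 10) (nat_lit 5) (nat_lit 12) (nat_lit 4) (nat_lit 10) (nat_lit 4) (nat_lit 364) (nat_lit 235) (nat_lit 181)))) (XT.nd (nat_lit 78) (nat_lit 912) (nat_lit 0) (XT.lf (nat_lit 0) (nat_lit 1500041350) (nat_lit 456) (nat_lit 1577393095) (nat_lit 456) (nat_lit 1577393095) (nat_lit 150) (nat_lit 4) (nat_lit 156) (nat_lit 5) (nat_lit 156) (nat_lit 4) (nat_lit 308) (nat_lit 236) (nat_lit 236)) (XT.nd (nat_lit 78) (nat_lit 456) (nat_lit 0) (XT.lf (nat_lit 0) (nat_lit 2398352531) (nat_lit 456) (nat_lit 5994420085) (nat_lit 0) (nat_lit 1051978759) (nat_lit 144) (nat_lit 5) (nat_lit 150) (nat_lit 4) (nat_lit 144) (nat_lit 4) (nat_lit 309) (nat_lit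 236) (nat_lit 235)) (XT.lf (nat_lit 0) (nat_lit 3818057645) (nat_lit 456) (nat_lit 4209997155) (nat_lit 456) (nat_lit 1556464380) (nat_lit 138) (nat_lit 4) (nat_lit 144) (nat_lit 5) (nat_lit 144) (nat_lit 4) (nat_lit 310) (nat_lit 236) (nat_lit 234))))) (XT.nd (nat_lit 234) (nat_lit 1520) (nat_lit 0) (XT.nd (nat_lit 78) (nat_lit 836) (nat_lit 0) (XT.lf (nat_lit 0) (nat_lit 3978284574) (nat_lit 456) (nat_lit 5618494351) (nat_lit 0) (nat_lit 132579491) (nat_lit 132) (nat_lit 5) (nat_lit 138) (nat_lit 4) (nat_lit 132) (nat_lit 4) (nat_lit 311) (nat_lit 236) (nat_lit 233)) (XT.nd (nat_lit 78) (nat_lit 456) (nat_lit 0) (XT.lf (nat_lit 0) (nat_lit 4309609539) (nat_lit 380) (nat_lit 5311607804) (nat_lit 380) (nat_lit 257939262) (nat_lit 127) (nat_lit 4) (nat_lit 132) (nat_lit 5) (nat_lit 132) (nat_lit 4) (nat_lit 312) (nat_lit 236) (nat_lit 232)) (XT.lf (nat_lit 0) (nat_lit 4409855795) (nat_lit 380) (nat_lit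 855641429) (nat_lit 456) (nat_lit 4768604901) (nat_lit 121) (nat_lit 5) (nat_lit 126) (nat_lit 5) (nat_lit 127) (nat_lit 4) (nat_lit 313) (nat_lit 236) (nat_lit 231)))) (XT.nd (nat_lit 156) (nat_lit 760) (nat_lit 0) (XT.nd (nat_lit 78) (nat_lit 304) (nat_lit 0) (XT.lf (nat_lit 0) (nat_lit 709660820) (nat_lit 456) (nat_lit 5787142018) (nat_lit 76) (nat_lit 3697595494) (nat_lit 115) (nat_lit 5) (nat_lit 121) (nat_lit 5) (nat_lit 116) (nat_lit 4) (nat_lit 314) (nat_lit 236) (nat_lit 230)) (XT.lf (nat_lit 0) (nat_lit 4286080362) (nat_lit 304) (nat_lit 1946849975) (nat_lit 380) (nat_lit 4127108854) (nat_lit 111) (nat_lit 5) (nat_lit 115) (nat_lit 5) (nat_lit 116) (nat_lit 4) (nat_lit 315) (nat_lit 236) (nat_lit 229))) (XT.nd (nat_lit 78) (nat_lit 304) (nat_lit 0) (XT.lf (nat_lit 0) (nat_lit 1331489991) (nat_lit 456) (nat_lit 6483580900) (nat_lit 76) (nat_lit 2716299381) (nat_lit 105) (nat_lit 5) (nat_lit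 111) (nat_lit 5) (nat_lit 106) (nat_lit 4) (nat_lit 316) (nat_lit 236) (nat_lit 228)) (XT.lf (nat_lit 0) (nat_lit 3668616896) (nat_lit 304) (nat_lit 3184524362) (nat_lit 380) (nat_lit 3855116439) (nat_lit 101) (nat_lit 5) (nat_lit 105) (nat_lit 5) (nat_lit 106) (nat_lit 4) (nat_lit 317) (nat_lit 236) (nat_lit 227)))))) (XT.nd (nat_lit 546) (nat_lit 1672) (nat_lit 0) (XT.nd (nat_lit 234) (nat_lit 836) (nat_lit 0) (XT.nd (nat_lit 78) (nat_lit 684) (nat_lit 0) (XT.lf (nat_lit 0) (nat_lit 1581815962) (nat_lit 380) (nat_lit 7733256470) (nat_lit 76) (nat_lit 1576161737) (nat_lit 96) (nat_lit 5) (nat_lit 101) (nat_lit 5) (nat_lit 97) (nat_lit 4) (nat_lit 318) (nat_lit 236) (nat_lit 226)) (XT.nd (nat_lit 78) (nat_lit 380) (nat_lit 0) (XT.lf (nat_lit 0) (nat_lit 2478692580) (nat_lit 304) (nat_lit 4616729202) (nat_lit 380) (nat_lit 3984513750) (nat_lit 92) (nat_lit 5) (nat_lit 96) (nat_lit 5) (nat_lit 97)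 (nat_lit 4) (nat_lit 319) (nat_lit 236) (nat_lit 225)) (XT.lf (nat_lit 0) (nat_lit 1427172652) (nat_lit 380) (nat_lit 9619696344) (nat_lit 76) (nat_lit 228360937) (nat_lit 87) (nat_lit 5) (nat_lit 92) (nat_lit 5) (nat_lit 88) (nat_lit 4) (nat_lit 320) (nat_lit 236) (nat_lit 224)))) (XT.nd (nat_lit 156) (nat_lit 532) (nat_lit 0) (XT.nd (nat_lit 78) (nat_lit 76) (nat_lit 0) (XT.lf (nat_lit 0) (nat_lit 629731204) (nat_lit 228) (nat_lit 6294830949) (nat_lit 304) (nat_lit 4551803740) (nat_lit 84) (nat_lit 5) (nat_lit 87) (nat_lit 5) (nat_lit 88) (nat_lit 4) (nat_lit 321) (nat_lit 236) (nat_lit 223)) (XT.lf (nat_lit 0) (nat_lit 842060954) (nat_lit 304) (nat_lit 551977949) (nat_lit 76) (nat_lit 10290424663) (nat_lit 83) (nat_lit 5) (nat_lit 87) (nat_lit 5) (nat_lit 84) (nat_lit 5) (nat_lit 322) (nat_lit 236) (nat_lit 222))) (XT.nd (nat_lit 78) (nat_lit 228) (nat_lit 0) (XT.lf (nat_lit 0) (nat_lit 6313256825)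 (nat_lit 380) (nat_lit 1947685455) (nat_lit 76) (nat_lit 3637767728) (nat_lit 79) (nat_lit 5) (nat_lit 84) (nat_lit 5) (nat_lit 80) (nat_lit 4) (nat_lit 323) (nat_lit 236) (nat_lit 221)) (XT.lf (nat_lit 0) (nat_lit 8585174449) (nat_lit 228) (nat_lit 3322256843) (nat_lit 304) (nat_lit 212828818) (nat_lit 76) (nat_lit 5) (nat_lit 79) (nat_lit 5) (nat_lit 80) (nat_lit 4) (nat_lit 324) (nat_lit 236) (nat_lit 220))))) (XT.nd (nat_lit 234) (nat_lit 760) (nat_lit 0) (XT.nd (nat_lit 78) (nat_lit 532) (nat_lit 0) (XT.lf (nat_lit 0) (nat_lit 5212875276) (nat_lit 380) (nat_lit 5364951376) (nat_lit 76) (nat_lit 1770755947) (nat_lit 71) (nat_lit 5) (nat_lit 76) (nat_lit 5) (nat_lit 72) (nat_lit 4) (nat_lit 325) (nat_lit 236) (nat_lit 219)) (XT.nd (nat_lit 78) (nat_lit 304) (nat_lit 0) (XT.lf (nat_lit 0) (nat_lit 5153792614) (nat_lit 228) (nat_lit 5617440780) (nat_lit 304) (nat_lit 1813086835) (nat_lit 68) (nat_lit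 5) (nat_lit 71) (nat_lit 5) (nat_lit 72) (nat_lit 4) (nat_lit 326) (nat_lit 236) (nat_lit 218)) (XT.lf (nat_lit 0) (nat_lit 3079791714) (nat_lit 228) (nat_lit 492124585) (nat_lit 304) (nat_lit 9255767428) (nat_lit 64) (nat_lit 5) (nat_lit 67) (nat_lit 5) (nat_lit 68) (nat_lit 5) (nat_lit 327) (nat_lit 236) (nat_lit 217)))) (XT.nd (nat_lit 156) (nat_lit 456) (nat_lit 0) (XT.nd (nat_lit 78) (nat_lit 76) (nat_lit 0) (XT.lf (nat_lit 0) (nat_lit 725180113) (nat_lit 228) (nat_lit 8351066890) (nat_lit 304) (nat_lit 4002258596) (nat_lit 61) (nat_lit 5) (nat_lit 64) (nat_lit 5) (nat_lit 65) (nat_lit 4) (nat_lit 328) (nat_lit 236) (nat_lit 216)) (XT.lf (nat_lit 0) (nat_lit 1357182564) (nat_lit 304) (nat_lit 1871757980) (nat_lit 76) (nat_lit 10108435728) (nat_lit 60) (nat_lit 5) (nat_lit 64) (nat_lit 5) (nat_lit 61) (nat_lit 5) (nat_lit 329) (nat_lit 236) (nat_lit 215))) (XT.nd (nat_lit 78) (nat_lit 228)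 (nat_lit 0) (XT.lf (nat_lit 0) (nat_lit 6794247334) (nat_lit 304) (nat_lit 4768545995) (nat_lit 76) (nat_lit 2041308254) (nat_lit 57) (nat_lit 5) (nat_lit 61) (nat_lit 5) (nat_lit 58) (nat_lit 4) (nat_lit 330) (nat_lit 236) (nat_lit 214)) (XT.lf (nat_lit 0) (nat_lit 5903662227) (nat_lit 228) (nat_lit 6464924049) (nat_lit 304) (nat_lit 1510799831) (nat_lit 54) (nat_lit 5) (nat_lit 57) (nat_lit 5) (nat_lit 58) (nat_lit 4) (nat_lit 331) (nat_lit 236) (nat_lit 213))))))) (XT.nd (nat_lit 1014) (nat_lit 1064) (nat_lit 0) (XT.nd (nat_lit 468) (nat_lit 988) (nat_lit 0) (XT.nd (nat_lit 234) (nat_lit 456) (nat_lit 0) (XT.nd (nat_lit 78) (nat_lit 228) (nat_lit 0) (XT.lf (nat_lit 0) (nat_lit 2645979582) (nat_lit 228) (nat_lit 1201803259) (nat_lit 304) (nat_lit 10315626004) (nat_lit 50) (nat_lit 5) (nat_lit 53) (nat_lit 5) (nat_lit 54) (nat_lit 5) (nat_lit 332) (nat_lit 236) (nat_lit 212)) (XT.nd (nat_lit 78)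 (nat_lit 228) (nat_lit 0) (XT.lf (nat_lit 0) (nat_lit 9332519199) (nat_lit 304) (nat_lit 958035615) (nat_lit 76) (nat_lit 4165516893) (nat_lit 50) (nat_lit 5) (nat_lit 54) (nat_lit 5) (nat_lit 51) (nat_lit 4) (nat_lit 333) (nat_lit 236) (nat_lit 211)) (XT.lf (nat_lit 0) (nat_lit 200177584) (nat_lit 228) (nat_lit 4875691923) (nat_lit 76) (nat_lit 9682074909) (nat_lit 47) (nat_lit 5) (nat_lit 50) (nat_lit 5) (nat_lit 48) (nat_lit 5) (nat_lit 334) (nat_lit 236) (nat_lit 210)))) (XT.nd (nat_lit 78) (nat_lit 228) (nat_lit 0) (XT.lf (nat_lit 0) (nat_lit 5569031828) (nat_lit 304) (nat_lit 9191130490) (nat_lit 76) (nat_lit 308967985) (nat_lit 44) (nat_lit 5) (nat_lit 48) (nat_lit 5) (nat_lit 45) (nat_lit 4) (nat_lit 335) (nat_lit 236) (nat_lit 209)) (XT.nd (nat_lit 78) (nat_lit 76) (nat_lit 0) (XT.lf (nat_lit 0) (nat_lit 1463292517) (nat_lit 152) (nat_lit 9621533926) (nat_lit 228) (nat_lit 4305141576)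 (nat_lit 42) (nat_lit 5) (nat_lit 44) (nat_lit 5) (nat_lit 45) (nat_lit 4) (nat_lit 336) (nat_lit 236) (nat_lit 208)) (XT.lf (nat_lit 0) (nat_lit 1004856260) (nat_lit 228) (nat_lit 3315745330) (nat_lit 76) (nat_lit 11400267487) (nat_lit 41) (nat_lit 5) (nat_lit 44) (nat_lit 5) (nat_lit 42) (nat_lit 5) (nat_lit 337) (nat_lit 236) (nat_lit 207))))) (XT.nd (nat_lit 234) (nat_lit 532) (nat_lit 0) (XT.nd (nat_lit 78) (nat_lit 228) (nat_lit 0) (XT.lf (nat_lit 0) (nat_lit 6385266523) (nat_lit 304) (nat_lit 8533956870) (nat_lit 76) (nat_lit 1142543770) (nat_lit 38) (nat_lit 5) (nat_lit 42) (nat_lit 5) (nat_lit 39) (nat_lit 4) (nat_lit 338) (nat_lit 236) (nat_lit 206)) (XT.nd (nat_lit 78) (nat_lit 76) (nat_lit 0) (XT.lf (nat_lit 0) (nat_lit 2182169663) (nat_lit 152) (nat_lit 9724628725) (nat_lit 228) (nat_lit 4506529893) (nat_lit 36) (nat_lit 5) (nat_lit 38) (nat_lit 5) (nat_lit 39) (nat_lit 4) (nat_lit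 339) (nat_lit 236) (nat_lit 205)) (XT.lf (nat_lit 0) (nat_lit 781023431) (nat_lit 228) (nat_lit 3589179562) (nat_lit 76) (nat_lit 12405691394) (nat_lit 35) (nat_lit 5) (nat_lit 38) (nat_lit 5) (nat_lit 36) (nat_lit 5) (nat_lit 340) (nat_lit 236) (nat_lit 204)))) (XT.nd (nat_lit 156) (nat_lit 228) (nat_lit 0) (XT.nd (nat_lit 78) (nat_lit 152) (nat_lit 0) (XT.lf (nat_lit 0) (nat_lit 6138742855) (nat_lit 228) (nat_lit 9860968040) (nat_lit 76) (nat_lit 1149603485) (nat_lit 33) (nat_lit 5) (nat_lit 36) (nat_lit 5) (nat_lit 34) (nat_lit 4) (nat_lit 341) (nat_lit 236) (nat_lit 203)) (XT.lf (nat_lit 0) (nat_lit 849103312) (nat_lit 152) (nat_lit 10785915171) (nat_lit 228) (nat_lit 5899389160) (nat_lit 31) (nat_lit 5) (nat_lit 33) (nat_lit 5) (nat_lit 34) (nat_lit 4) (nat_lit 342) (nat_lit 236) (nat_lit 202))) (XT.nd (nat_lit 78) (nat_lit 228) (nat_lit 0) (XT.lf (nat_lit 0) (nat_lit 11877212103) (nat_lit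 152) (nat_lit 5405868224) (nat_lit 228) (nat_lit 648261793) (nat_lit 31) (nat_lit 5) (nat_lit 33) (nat_lit 5) (nat_lit 34) (nat_lit 4) (nat_lit 343) (nat_lit 236) (nat_lit 201)) (XT.lf (nat_lit 0) (nat_lit 4651868584) (nat_lit 228) (nat_lit 13548803794) (nat_lit 76) (nat_lit 139841148) (nat_lit 28) (nat_lit 5) (nat_lit 31) (nat_lit 5) (nat_lit 29) (nat_lit 4) (nat_lit 344) (nat_lit 236) (nat_lit 200)))))) (XT.nd (nat_lit 546) (nat_lit 380) (nat_lit 0) (XT.nd (nat_lit 234) (nat_lit 456) (nat_lit 0) (XT.nd (nat_lit 78) (nat_lit 228) (nat_lit 0) (XT.lf (nat_lit 0) (nat_lit 10102604920) (nat_lit 228) (nat_lit 2890381634) (nat_lit 76) (nat_lit 5768904003) (nat_lit 28) (nat_lit 5) (nat_lit 31) (nat_lit 5) (nat_lit 29) (nat_lit 4) (nat_lit 345) (nat_lit 236) (nat_lit 199)) (XT.nd (nat_lit 78) (nat_lit 76) (nat_lit 0) (XT.lf (nat_lit 0) (nat_lit 8063175932) (nat_lit 152) (nat_lit 7631195562) (nat_lit 228)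 (nat_lit 3502010904) (nat_lit 26) (nat_lit 5) (nat_lit 28) (nat_lit 5) (nat_lit 29) (nat_lit 4) (nat_lit 346) (nat_lit 236) (nat_lit 198)) (XT.lf (nat_lit 0) (nat_lit 1731954143) (nat_lit 228) (nat_lit 399752584) (nat_lit 76) (nat_lit 17513075551) (nat_lit 25) (nat_lit 5) (nat_lit 28) (nat_lit 5) (nat_lit 26) (nat_lit 5) (nat_lit 347) (nat_lit 236) (nat_lit 197)))) (XT.nd (nat_lit 156) (nat_lit 228) (nat_lit 0) (XT.nd (nat_lit 78) (nat_lit 76) (nat_lit 0) (XT.lf (nat_lit 0) (nat_lit 7096105996) (nat_lit 228) (nat_lit 9483022073) (nat_lit 76) (nat_lit 3526650055) (nat_lit 23) (nat_lit 5) (nat_lit 26) (nat_lit 5) (nat_lit 24) (nat_lit 4) (nat_lit 348) (nat_lit 236) (nat_lit 196)) (XT.lf (nat_lit 0) (nat_lit 1278814027) (nat_lit 76) (nat_lit 11296751408) (nat_lit 152) (nat_lit 8005971981) (nat_lit 22) (nat_lit 5) (nat_lit 23) (nat_lit 5) (nat_lit 24) (nat_lit 4) (nat_lit 349) (nat_lit 236) (nat_lit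 195))) (XT.nd (nat_lit 78) (nat_lit 228) (nat_lit 0) (XT.lf (nat_lit 0) (nat_lit 12370784538) (nat_lit 76) (nat_lit 5843251335) (nat_lit 152) (nat_lit 2857661679) (nat_lit 22) (nat_lit 5) (nat_lit 23) (nat_lit 5) (nat_lit 24) (nat_lit 4) (nat_lit 350) (nat_lit 236) (nat_lit 194)) (XT.lf (nat_lit 0) (nat_lit 2110879715) (nat_lit 152) (nat_lit 247783487) (nat_lit 228) (nat_lit 19218688742) (nat_lit 19) (nat_lit 5) (nat_lit 21) (nat_lit 5) (nat_lit 22) (nat_lit 5) (nat_lit 351) (nat_lit 236) (nat_lit 193))))) (XT.nd (nat_lit 234) (nat_lit 304) (nat_lit 0) (XT.nd (nat_lit 78) (nat_lit 76) (nat_lit 0) (XT.lf (nat_lit 0) (nat_lit 7720849167) (nat_lit 228) (nat_lit 8905143466) (nat_lit 76) (nat_lit 5471260683) (nat_lit 19) (nat_lit 5) (nat_lit 22) (nat_lit 5) (nat_lit 20) (nat_lit 4) (nat_lit 352) (nat_lit 236) (nat_lit 192)) (XT.nd (nat_lit 78) (nat_lit 0) (nat_lit 0) (XT.lf (nat_lit 0) (nat_lit 1880535677)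 (nat_lit 76) (nat_lit 11312001898) (nat_lit 152) (nat_lit 9441259908) (nat_lit 18) (nat_lit 5) (nat_lit 19) (nat_lit 5) (nat_lit 20) (nat_lit 4) (nat_lit 353) (nat_lit 236) (nat_lit 191)) (XT.lf (nat_lit 0) (nat_lit 12998057983) (nat_lit 76) (nat_lit 5826595048) (nat_lit 152) (nat_lit 4361877371) (nat_lit 18) (nat_lit 5) (nat_lit 19) (nat_lit 5) (nat_lit 20) (nat_lit 4) (nat_lit 354) (nat_lit 236) (nat_lit 190)))) (XT.nd (nat_lit 156) (nat_lit 76) (nat_lit 0) (XT.nd (nat_lit 78) (nat_lit 0) (nat_lit 0) (XT.lf (nat_lit 0) (nat_lit 584111237) (nat_lit 152) (nat_lit 215528367) (nat_lit 228) (nat_lit 22957286600) (nat_lit 15) (nat_lit 5) (nat_lit 17) (nat_lit 5) (nat_lit 18) (nat_lit 5) (nat_lit 355) (nat_lit 236) (nat_lit 189)) (XT.lf (nat_lit 0) (nat_lit 6100873735) (nat_lit 228) (nat_lit 12699765697) (nat_lit 76) (nat_lit 5542351753) (nat_lit 15) (nat_lit 5) (nat_lit 18) (nat_lit 5) (nat_lit 16)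 (nat_lit 4) (nat_lit 356) (nat_lit 236) (nat_lit 188))) (XT.nd (nat_lit 78) (nat_lit 76) (nat_lit 0) (XT.lf (nat_lit 0) (nat_lit 11502559804) (nat_lit 228) (nat_lit 2021048882) (nat_lit 76) (nat_lit 11424217236) (nat_lit 15) (nat_lit 5) (nat_lit 18) (nat_lit 5) (nat_lit 16) (nat_lit 4) (nat_lit 357) (nat_lit 236) (nat_lit 187)) (XT.lf (nat_lit 0) (nat_lit 8991997410) (nat_lit 76) (nat_lit 8074402981) (nat_lit 152) (nat_lit 8504418871) (nat_lit 14) (nat_lit 5) (nat_lit 15) (nat_lit 5) (nat_lit 16) (nat_lit 4) (nat_lit 358) (nat_lit 236) (nat_lit 186))))))))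
noncomputable def xc16 : XT := (XT.nd (nat_lit 38064) (nat_lit 0) (nat_lit 684) (XT.nd (nat_lit 37050) (nat_lit 0) (nat_lit 4636) (XT.nd (nat_lit 36504) (nat_lit 0) (nat_lit 8816) (XT.nd (nat_lit 234) (nat_lit 76) (nat_lit 0) (XT.nd (nat_lit 78) (nat_lit 228) (nat_lit 0) (XT.lf (nat_lit 0) (nat_lit 20260822524) (nat_lit 76) (nat_lit 2492784231) (nat_lit 152) (nat_lit 3459781818) (nat_lit 14) (nat_lit 5) (nat_lit 15) (nat_lit 5) (nat_lit 16) (nat_lit 4) (nat_lit 359) (nat_lit 236) (nat_lit 185)) (XT.nd (nat_lit 78) (nat_lit 0) (nat_lit 0) (XT.lf (nat_lit 0) (nat_lit 1710719638) (nat_lit 228) (nat_lit 21950627272) (nat_lit 76) (nat_lit 3213731140) (nat_lit 11) (nat_lit 5) (nat_lit 14) (nat_lit 5) (nat_lit 12) (nat_lit 4) (nat_lit 360) (nat_lit 236) (nat_lit 184)) (XT.lf (nat_lit 0) (nat_lit 6991621780) (nat_lit 228) (nat_lit 11485892400) (nat_lit 76) (nat_lit 9078614869) (nat_lit 11) (nat_lit 5)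 (nat_lit 14) (nat_lit 5) (nat_lit 12) (nat_lit 4) (nat_lit 361) (nat_lit 236) (nat_lit 183)))) (XT.nd (nat_lit 78) (nat_lit 76) (nat_lit 0) (XT.lf (nat_lit 0) (nat_lit 12377308870) (nat_lit 228) (nat_lit 803588412) (nat_lit 76) (nat_lit 15077800759) (nat_lit 11) (nat_lit 5) (nat_lit 14) (nat_lit 5) (nat_lit 12) (nat_lit 4) (nat_lit 362) (nat_lit 236) (nat_lit 182)) (XT.nd (nat_lit 78) (nat_lit 0) (nat_lit 0) (XT.lf (nat_lit 0) (nat_lit 10239917097) (nat_lit 76) (nat_lit 7699054087) (nat_lit 152) (nat_lit 11043098053) (nat_lit 10) (nat_lit 5) (nat_lit 11) (nat_lit 5) (nat_lit 12) (nat_lit 4) (nat_lit 363) (nat_lit 236) (nat_lit 181)) (XT.lf (nat_lit 0) (nat_lit 21533679462) (nat_lit 76) (nat_lit 2088088800) (nat_lit 152) (nat_lit 6106300449) (nat_lit 10) (nat_lit 5) (nat_lit 11) (nat_lit 5) (nat_lit 12) (nat_lit 4) (nat_lit 364) (nat_lit 236) (nat_lit 180))))) (XT.nd (nat_lit 234) (nat_lit 1824)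 (nat_lit 0) (XT.nd (nat_lit 78) (nat_lit 988) (nat_lit 0) (XT.lf (nat_lit 0) (nat_lit 1003628211) (nat_lit 456) (nat_lit 1761266245) (nat_lit 456) (nat_lit 1761266245) (nat_lit 163) (nat_lit 4) (nat_lit 169) (nat_lit 5) (nat_lit 169) (nat_lit 4) (nat_lit 306) (nat_lit 237) (nat_lit 237)) (XT.nd (nat_lit 78) (nat_lit 456) (nat_lit 0) (XT.lf (nat_lit 0) (nat_lit 1954139142) (nat_lit 532) (nat_lit 6685731812) (nat_lit 0) (nat_lit 539638857) (nat_lit 156) (nat_lit 5) (nat_lit 163) (nat_lit 4) (nat_lit 156) (nat_lit 4) (nat_lit 307) (nat_lit 237) (nat_lit 236)) (XT.lf (nat_lit 0) (nat_lit 2904169004) (nat_lit 456) (nat_lit 4597346228) (nat_lit 456) (nat_lit 1809544695) (nat_lit 150) (nat_lit 4) (nat_lit 156) (nat_lit 5) (nat_lit 156) (nat_lit 4) (nat_lit 308) (nat_lit 237) (nat_lit 235)))) (XT.nd (nat_lit 156) (nat_lit 912) (nat_lit 0) (XT.nd (nat_lit 78) (nat_lit 456) (nat_lit 0) (XT.lf (nat_lit 0)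 (nat_lit 3254631209) (nat_lit 380) (nat_lit 396722713) (nat_lit 456) (nat_lit 5796165022) (nat_lit 144) (nat_lit 5) (nat_lit 149) (nat_lit 5) (nat_lit 150) (nat_lit 4) (nat_lit 309) (nat_lit 237) (nat_lit 234)) (XT.lf (nat_lit 0) (nat_lit 3524629599) (nat_lit 456) (nat_lit 5686739600) (nat_lit 456) (nat_lit 377355430) (nat_lit 138) (nat_lit 4) (nat_lit 144) (nat_lit 5) (nat_lit 144) (nat_lit 4) (nat_lit 310) (nat_lit 237) (nat_lit 233))) (XT.nd (nat_lit 78) (nat_lit 456) (nat_lit 0) (XT.lf (nat_lit 0) (nat_lit 3708105453) (nat_lit 380) (nat_lit 1365960066) (nat_lit 456) (nat_lit 4660744527) (nat_lit 132) (nat_lit 5) (nat_lit 137) (nat_lit 5) (nat_lit 138) (nat_lit 4) (nat_lit 311) (nat_lit 237) (nat_lit 232)) (XT.lf (nat_lit 0) (nat_lit 745552814) (nat_lit 456) (nat_lit 6080005429) (nat_lit 76) (nat_lit 3060500303) (nat_lit 126) (nat_lit 5) (nat_lit 132) (nat_lit 5) (nat_lit 127) (nat_lit 4) (nat_lit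 312) (nat_lit 237) (nat_lit 231)))))) (XT.nd (nat_lit 468) (nat_lit 1900) (nat_lit 0) (XT.nd (nat_lit 234) (nat_lit 1140) (nat_lit 0) (XT.nd (nat_lit 78) (nat_lit 760) (nat_lit 0) (XT.lf (nat_lit 0) (nat_lit 3797654805) (nat_lit 380) (nat_lit 2401502785) (nat_lit 456) (nat_lit 3843180785) (nat_lit 121) (nat_lit 5) (nat_lit 126) (nat_lit 5) (nat_lit 127) (nat_lit 4) (nat_lit 313) (nat_lit 237) (nat_lit 230)) (XT.nd (nat_lit 78) (nat_lit 304) (nat_lit 0) (XT.lf (nat_lit 0) (nat_lit 1546318955) (nat_lit 456) (nat_lit 6513789841) (nat_lit 76) (nat_lit 2143975153) (nat_lit 115) (nat_lit 5) (nat_lit 121) (nat_lit 5) (nat_lit 116) (nat_lit 4) (nat_lit 314) (nat_lit 237) (nat_lit 229)) (XT.lf (nat_lit 0) (nat_lit 3457593254) (nat_lit 304) (nat_lit 3545952765) (nat_lit 380) (nat_lit 3367535518) (nat_lit 111) (nat_lit 5) (nat_lit 115) (nat_lit 5) (nat_lit 116) (nat_lit 4) (nat_lit 315) (nat_lit 237) (nat_lit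 228)))) (XT.nd (nat_lit 78) (nat_lit 684) (nat_lit 0) (XT.lf (nat_lit 0) (nat_lit 2004457617) (nat_lit 456) (nat_lit 7432503678) (nat_lit 76) (nat_lit 1106919717) (nat_lit 105) (nat_lit 5) (nat_lit 111) (nat_lit 5) (nat_lit 106) (nat_lit 4) (nat_lit 316) (nat_lit 237) (nat_lit 227)) (XT.nd (nat_lit 78) (nat_lit 380) (nat_lit 0) (XT.lf (nat_lit 0) (nat_lit 2616014317) (nat_lit 304) (nat_lit 4844326843) (nat_lit 380) (nat_lit 3261775791) (nat_lit 101) (nat_lit 5) (nat_lit 105) (nat_lit 5) (nat_lit 106) (nat_lit 4) (nat_lit 317) (nat_lit 237) (nat_lit 226)) (XT.lf (nat_lit 0) (nat_lit 1993609060) (nat_lit 304) (nat_lit 97562198) (nat_lit 380) (nat_lit 8815400752) (nat_lit 96) (nat_lit 5) (nat_lit 100) (nat_lit 5) (nat_lit 101) (nat_lit 5) (nat_lit 318) (nat_lit 237) (nat_lit 225))))) (XT.nd (nat_lit 234) (nat_lit 1216) (nat_lit 0) (XT.nd (nat_lit 78) (nat_lit 380) (nat_lit 0) (XT.lf (nat_lit 0) (nat_lit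 1194023733) (nat_lit 304) (nat_lit 6344499547) (nat_lit 380) (nat_lit 3558105810) (nat_lit 92) (nat_lit 5) (nat_lit 96) (nat_lit 5) (nat_lit 97) (nat_lit 4) (nat_lit 319) (nat_lit 237) (nat_lit 224)) (XT.nd (nat_lit 78) (nat_lit 0) (nat_lit 0) (XT.lf (nat_lit 0) (nat_lit 246344820) (nat_lit 304) (nat_lit 1534402283) (nat_lit 380) (nat_lit 9512495006) (nat_lit 87) (nat_lit 5) (nat_lit 91) (nat_lit 5) (nat_lit 92) (nat_lit 5) (nat_lit 320) (nat_lit 237) (nat_lit 223)) (XT.lf (nat_lit 0) (nat_lit 7208389202) (nat_lit 380) (nat_lit 883361545) (nat_lit 76) (nat_lit 3404050586) (nat_lit 87) (nat_lit 5) (nat_lit 92) (nat_lit 5) (nat_lit 88) (nat_lit 4) (nat_lit 321) (nat_lit 237) (nat_lit 222)))) (XT.nd (nat_lit 156) (nat_lit 608) (nat_lit 0) (XT.nd (nat_lit 78) (nat_lit 304) (nat_lit 0) (XT.lf (nat_lit 0) (nat_lit 1042112314) (nat_lit 304) (nat_lit 2184972071) (nat_lit 76) (nat_lit 8478024697) (nat_lit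 83) (nat_lit 5) (nat_lit 87) (nat_lit 5) (nat_lit 84) (nat_lit 5) (nat_lit 322) (nat_lit 237) (nat_lit 221)) (XT.lf (nat_lit 0) (nat_lit 6436412193) (nat_lit 380) (nat_lit 3697691751) (nat_lit 76) (nat_lit 1786815667) (nat_lit 79) (nat_lit 5) (nat_lit 84) (nat_lit 5) (nat_lit 80) (nat_lit 4) (nat_lit 323) (nat_lit 237) (nat_lit 220))) (XT.nd (nat_lit 78) (nat_lit 380) (nat_lit 0) (XT.lf (nat_lit 0) (nat_lit 6726890941) (nat_lit 228) (nat_lit 5239028457) (nat_lit 304) (nat_lit 177869064) (nat_lit 76) (nat_lit 5) (nat_lit 79) (nat_lit 5) (nat_lit 80) (nat_lit 4) (nat_lit 324) (nat_lit 237) (nat_lit 219)) (XT.lf (nat_lit 0) (nat_lit 5004098225) (nat_lit 304) (nat_lit 166727010) (nat_lit 380) (nat_lit 7202836386) (nat_lit 71) (nat_lit 5) (nat_lit 75) (nat_lit 5) (nat_lit 76) (nat_lit 5) (nat_lit 325) (nat_lit 237) (nat_lit 218))))))) (XT.nd (nat_lit 1014) (nat_lit 1444) (nat_lit 0) (XT.nd (nat_lit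 468) (nat_lit 1216) (nat_lit 0) (XT.nd (nat_lit 234) (nat_lit 760) (nat_lit 0) (XT.nd (nat_lit 78) (nat_lit 304) (nat_lit 0) (XT.lf (nat_lit 0) (nat_lit 3039786686) (nat_lit 228) (nat_lit 7623397851) (nat_lit 304) (nat_lit 1947558169) (nat_lit 68) (nat_lit 5) (nat_lit 71) (nat_lit 5) (nat_lit 72) (nat_lit 4) (nat_lit 326) (nat_lit 237) (nat_lit 217)) (XT.nd (nat_lit 78) (nat_lit 0) (nat_lit 0) (XT.lf (nat_lit 0) (nat_lit 828608836) (nat_lit 228) (nat_lit 2545400090) (nat_lit 304) (nat_lit 9481441077) (nat_lit 64) (nat_lit 5) (nat_lit 67) (nat_lit 5) (nat_lit 68) (nat_lit 5) (nat_lit 327) (nat_lit 237) (nat_lit 216)) (XT.lf (nat_lit 0) (nat_lit 8810463302) (nat_lit 304) (nat_lit 1631531775) (nat_lit 76) (nat_lit 2665656022) (nat_lit 64) (nat_lit 5) (nat_lit 68) (nat_lit 5) (nat_lit 65) (nat_lit 4) (nat_lit 328) (nat_lit 237) (nat_lit 215)))) (XT.nd (nat_lit 78) (nat_lit 456) (nat_lit 0) (XT.lf (nat_lit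 0) (nat_lit 1006065601) (nat_lit 304) (nat_lit 4358460956) (nat_lit 76) (nat_lit 8003255280) (nat_lit 60) (nat_lit 5) (nat_lit 64) (nat_lit 5) (nat_lit 61) (nat_lit 5) (nat_lit 329) (nat_lit 237) (nat_lit 214)) (XT.nd (nat_lit 78) (nat_lit 228) (nat_lit 0) (XT.lf (nat_lit 0) (nat_lit 6249882287) (nat_lit 228) (nat_lit 115125109) (nat_lit 304) (nat_lit 7271082260) (nat_lit 57) (nat_lit 5) (nat_lit 60) (nat_lit 5) (nat_lit 61) (nat_lit 5) (nat_lit 330) (nat_lit 237) (nat_lit 213)) (XT.lf (nat_lit 0) (nat_lit 3172870211) (nat_lit 228) (nat_lit 8700875662) (nat_lit 304) (nat_lit 2038959783) (nat_lit 54) (nat_lit 5) (nat_lit 57) (nat_lit 5) (nat_lit 58) (nat_lit 4) (nat_lit 331) (nat_lit 237) (nat_lit 212))))) (XT.nd (nat_lit 234) (nat_lit 760) (nat_lit 0) (XT.nd (nat_lit 78) (nat_lit 380) (nat_lit 0) (XT.lf (nat_lit 0) (nat_lit 3262796423) (nat_lit 304) (nat_lit 226839584) (nat_lit 76) (nat_lit 10708454567)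 (nat_lit 53) (nat_lit 5) (nat_lit 57) (nat_lit 5) (nat_lit 54) (nat_lit 5) (nat_lit 332) (nat_lit 237) (nat_lit 211)) (XT.nd (nat_lit 78) (nat_lit 152) (nat_lit 0) (XT.lf (nat_lit 0) (nat_lit 8685266599) (nat_lit 304) (nat_lit 3930629337) (nat_lit 76) (nat_lit 1876120812) (nat_lit 50) (nat_lit 5) (nat_lit 54) (nat_lit 5) (nat_lit 51) (nat_lit 4) (nat_lit 333) (nat_lit 237) (nat_lit 210)) (XT.lf (nat_lit 0) (nat_lit 6795833263) (nat_lit 152) (nat_lit 7453102302) (nat_lit 228) (nat_lit 546290104) (nat_lit 48) (nat_lit 5) (nat_lit 50) (nat_lit 5) (nat_lit 51) (nat_lit 4) (nat_lit 334) (nat_lit 237) (nat_lit 209)))) (XT.nd (nat_lit 156) (nat_lit 456) (nat_lit 0) (XT.nd (nat_lit 78) (nat_lit 0) (nat_lit 0) (XT.lf (nat_lit 0) (nat_lit 2643407185) (nat_lit 228) (nat_lit 2119216553) (nat_lit 304) (nat_lit 10345217481) (nat_lit 44) (nat_lit 5) (nat_lit 47) (nat_lit 5) (nat_lit 48) (nat_lit 5) (nat_lit 335)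 (nat_lit 237) (nat_lit 208)) (XT.lf (nat_lit 0) (nat_lit 10211718402) (nat_lit 304) (nat_lit 1888993154) (nat_lit 76) (nat_lit 3329317517) (nat_lit 44) (nat_lit 5) (nat_lit 48) (nat_lit 5) (nat_lit 45) (nat_lit 4) (nat_lit 336) (nat_lit 237) (nat_lit 207))) (XT.nd (nat_lit 78) (nat_lit 228) (nat_lit 0) (XT.lf (nat_lit 0) (nat_lit 48211301) (nat_lit 228) (nat_lit 6800376055) (nat_lit 76) (nat_lit 8913585760) (nat_lit 41) (nat_lit 5) (nat_lit 44) (nat_lit 5) (nat_lit 42) (nat_lit 5) (nat_lit 337) (nat_lit 237) (nat_lit 206)) (XT.lf (nat_lit 0) (nat_lit 3932778221) (nat_lit 228) (nat_lit 1423243891) (nat_lit 304) (nat_lit 10748515994) (nat_lit 38) (nat_lit 5) (nat_lit 41) (nat_lit 5) (nat_lit 42) (nat_lit 5) (nat_lit 338) (nat_lit 237) (nat_lit 205)))))) (XT.nd (nat_lit 546) (nat_lit 684) (nat_lit 0) (XT.nd (nat_lit 234) (nat_lit 380) (nat_lit 0) (XT.nd (nat_lit 78) (nat_lit 380) (nat_lit 0) (XT.lf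 (nat_lit 0) (nat_lit 10813029018) (nat_lit 304) (nat_lit 1545328158) (nat_lit 76) (nat_lit 4099047027) (nat_lit 38) (nat_lit 5) (nat_lit 42) (nat_lit 5) (nat_lit 39) (nat_lit 4) (nat_lit 339) (nat_lit 237) (nat_lit 204)) (XT.nd (nat_lit 78) (nat_lit 228) (nat_lit 0) (XT.lf (nat_lit 0) (nat_lit 9374746373) (nat_lit 152) (nat_lit 7048349805) (nat_lit 228) (nat_lit 398001644) (nat_lit 36) (nat_lit 5) (nat_lit 38) (nat_lit 5) (nat_lit 39) (nat_lit 4) (nat_lit 340) (nat_lit 237) (nat_lit 203)) (XT.lf (nat_lit 0) (nat_lit 3321649721) (nat_lit 152) (nat_lit 1570455174) (nat_lit 228) (nat_lit 12303934637) (nat_lit 33) (nat_lit 5) (nat_lit 35) (nat_lit 5) (nat_lit 36) (nat_lit 5) (nat_lit 341) (nat_lit 237) (nat_lit 202)))) (XT.nd (nat_lit 156) (nat_lit 228) (nat_lit 0) (XT.nd (nat_lit 78) (nat_lit 152) (nat_lit 0) (XT.lf (nat_lit 0) (nat_lit 10333742318) (nat_lit 228) (nat_lit 3232465114) (nat_lit 76)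 (nat_lit 4016031120) (nat_lit 33) (nat_lit 5) (nat_lit 36) (nat_lit 5) (nat_lit 34) (nat_lit 4) (nat_lit 342) (nat_lit 237) (nat_lit 201)) (XT.lf (nat_lit 0) (nat_lit 7686569319) (nat_lit 152) (nat_lit 8235744372) (nat_lit 228) (nat_lit 2058061759) (nat_lit 31) (nat_lit 5) (nat_lit 33) (nat_lit 5) (nat_lit 34) (nat_lit 4) (nat_lit 343) (nat_lit 237) (nat_lit 200))) (XT.nd (nat_lit 78) (nat_lit 0) (nat_lit 0) (XT.lf (nat_lit 0) (nat_lit 440344652) (nat_lit 152) (nat_lit 2753666920) (nat_lit 228) (nat_lit 15197061294) (nat_lit 28) (nat_lit 5) (nat_lit 30) (nat_lit 5) (nat_lit 31) (nat_lit 5) (nat_lit 344) (nat_lit 237) (nat_lit 199)) (XT.lf (nat_lit 0) (nat_lit 8590000637) (nat_lit 228) (nat_lit 7338647747) (nat_lit 76) (nat_lit 2884908114) (nat_lit 28) (nat_lit 5) (nat_lit 31) (nat_lit 5) (nat_lit 29) (nat_lit 4) (nat_lit 345) (nat_lit 237) (nat_lit 198))))) (XT.nd (nat_lit 234) (nat_lit 304) (nat_lit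 0) (XT.nd (nat_lit 78) (nat_lit 228) (nat_lit 0) (XT.lf (nat_lit 0) (nat_lit 3492616275) (nat_lit 152) (nat_lit 10623681033) (nat_lit 228) (nat_lit 5133071745) (nat_lit 26) (nat_lit 5) (nat_lit 28) (nat_lit 5) (nat_lit 29) (nat_lit 4) (nat_lit 346) (nat_lit 237) (nat_lit 197)) (XT.nd (nat_lit 78) (nat_lit 152) (nat_lit 0) (XT.lf (nat_lit 0) (nat_lit 86890853) (nat_lit 228) (nat_lit 5074528386) (nat_lit 76) (nat_lit 14537280146) (nat_lit 25) (nat_lit 5) (nat_lit 28) (nat_lit 5) (nat_lit 26) (nat_lit 5) (nat_lit 347) (nat_lit 237) (nat_lit 196)) (XT.lf (nat_lit 0) (nat_lit 5365485764) (nat_lit 228) (nat_lit 14315933720) (nat_lit 76) (nat_lit 479997345) (nat_lit 23) (nat_lit 5) (nat_lit 26) (nat_lit 5) (nat_lit 24) (nat_lit 4) (nat_lit 348) (nat_lit 237) (nat_lit 195)))) (XT.nd (nat_lit 156) (nat_lit 228) (nat_lit 0) (XT.nd (nat_lit 78) (nat_lit 76) (nat_lit 0) (XT.lf (nat_lit 0) (nat_lit 10802732335)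 (nat_lit 228) (nat_lit 3630435420) (nat_lit 76) (nat_lit 6204862776) (nat_lit 23) (nat_lit 5) (nat_lit 26) (nat_lit 5) (nat_lit 24) (nat_lit 4) (nat_lit 349) (nat_lit 237) (nat_lit 194)) (XT.lf (nat_lit 0) (nat_lit 7354688975) (nat_lit 76) (nat_lit 9029326596) (nat_lit 152) (nat_lit 4745328698) (nat_lit 22) (nat_lit 5) (nat_lit 23) (nat_lit 5) (nat_lit 24) (nat_lit 4) (nat_lit 350) (nat_lit 237) (nat_lit 193))) (XT.nd (nat_lit 78) (nat_lit 152) (nat_lit 0) (XT.lf (nat_lit 0) (nat_lit 449491701) (nat_lit 152) (nat_lit 3035625940) (nat_lit 76) (nat_lit 18151060753) (nat_lit 21) (nat_lit 5) (nat_lit 23) (nat_lit 5) (nat_lit 22) (nat_lit 5) (nat_lit 351) (nat_lit 237) (nat_lit 192)) (XT.lf (nat_lit 0) (nat_lit 5738422327) (nat_lit 228) (nat_lit 14186960273) (nat_lit 76) (nat_lit 2232171382) (nat_lit 19) (nat_lit 5) (nat_lit 22) (nat_lit 5) (nat_lit 20) (nat_lit 4) (nat_lit 352) (nat_lit 237) (nat_lit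 191))))))))
noncomputable def xc17 : XT := (XT.nd (nat_lit 37908) (nat_lit 0) (nat_lit 1520) (XT.nd (nat_lit 36894) (nat_lit 0) (nat_lit 6916) (XT.nd (nat_lit 468) (nat_lit 304) (nat_lit 0) (XT.nd (nat_lit 234) (nat_lit 304) (nat_lit 0) (XT.nd (nat_lit 78) (nat_lit 76) (nat_lit 0) (XT.lf (nat_lit 0) (nat_lit 11166704026) (nat_lit 228) (nat_lit 3481182154) (nat_lit 76) (nat_lit 8047088948) (nat_lit 19) (nat_lit 5) (nat_lit 22) (nat_lit 5) (nat_lit 20) (nat_lit 4) (nat_lit 353) (nat_lit 237) (nat_lit 190)) (XT.nd (nat_lit 78) (nat_lit 0) (nat_lit 0) (XT.lf (nat_lit 0) (nat_lit 7535735774) (nat_lit 76) (nat_lit 9209540001) (nat_lit 152) (nat_lit 6503511732) (nat_lit 18) (nat_lit 5) (nat_lit 19) (nat_lit 5) (nat_lit 20) (nat_lit 4) (nat_lit 354) (nat_lit 237) (nat_lit 189)) (XT.lf (nat_lit 0) (nat_lit 18823712370) (nat_lit 76) (nat_lit 3630691972) (nat_lit 152) (nat_lit 1365562844) (nat_lit 18) (nat_lit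 5) (nat_lit 19) (nat_lit 5) (nat_lit 20) (nat_lit 4) (nat_lit 355) (nat_lit 237) (nat_lit 188)))) (XT.nd (nat_lit 78) (nat_lit 76) (nat_lit 0) (XT.lf (nat_lit 0) (nat_lit 3868749935) (nat_lit 228) (nat_lit 18431720452) (nat_lit 76) (nat_lit 2107443655) (nat_lit 15) (nat_lit 5) (nat_lit 18) (nat_lit 5) (nat_lit 16) (nat_lit 4) (nat_lit 356) (nat_lit 237) (nat_lit 187)) (XT.nd (nat_lit 78) (nat_lit 76) (nat_lit 0) (XT.lf (nat_lit 0) (nat_lit 9241727593) (nat_lit 228) (nat_lit 7804217278) (nat_lit 76) (nat_lit 7967385781) (nat_lit 15) (nat_lit 5) (nat_lit 18) (nat_lit 5) (nat_lit 16) (nat_lit 4) (nat_lit 357) (nat_lit 237) (nat_lit 186)) (XT.lf (nat_lit 0) (nat_lit 3081590989) (nat_lit 76) (nat_lit 11657730667) (nat_lit 152) (nat_lit 10898334745) (nat_lit 14) (nat_lit 5) (nat_lit 15) (nat_lit 5) (nat_lit 16) (nat_lit 4) (nat_lit 358) (nat_lit 237) (nat_lit 185))))) (XT.nd (nat_lit 234) (nat_lit 76)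 (nat_lit 0) (XT.nd (nat_lit 78) (nat_lit 228) (nat_lit 0) (XT.lf (nat_lit 0) (nat_lit 14301500802) (nat_lit 76) (nat_lit 6097649197) (nat_lit 152) (nat_lit 5881630536) (nat_lit 14) (nat_lit 5) (nat_lit 15) (nat_lit 5) (nat_lit 16) (nat_lit 4) (nat_lit 359) (nat_lit 237) (nat_lit 184)) (XT.nd (nat_lit 78) (nat_lit 228) (nat_lit 0) (XT.lf (nat_lit 0) (nat_lit 25761602025) (nat_lit 76) (nat_lit 413212541) (nat_lit 152) (nat_lit 769477311) (nat_lit 14) (nat_lit 5) (nat_lit 15) (nat_lit 5) (nat_lit 16) (nat_lit 4) (nat_lit 360) (nat_lit 237) (nat_lit 183)) (XT.lf (nat_lit 0) (nat_lit 4484576743) (nat_lit 228) (nat_lit 17717863816) (nat_lit 76) (nat_lit 5423747745) (nat_lit 11) (nat_lit 5) (nat_lit 14) (nat_lit 5) (nat_lit 12) (nat_lit 4) (nat_lit 361) (nat_lit 237) (nat_lit 182)))) (XT.nd (nat_lit 156) (nat_lit 0) (nat_lit 0) (XT.nd (nat_lit 78) (nat_lit 76) (nat_lit 0) (XT.lf (nat_lit 0) (nat_lit 9844608797)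 (nat_lit 228) (nat_lit 7081651430) (nat_lit 76) (nat_lit 11403016685) (nat_lit 11) (nat_lit 5) (nat_lit 14) (nat_lit 5) (nat_lit 12) (nat_lit 4) (nat_lit 362) (nat_lit 237) (nat_lit 181)) (XT.lf (nat_lit 0) (nat_lit 3833078106) (nat_lit 76) (nat_lit 11506687755) (nat_lit 152) (nat_lit 13714218678) (nat_lit 10) (nat_lit 5) (nat_lit 11) (nat_lit 5) (nat_lit 12) (nat_lit 4) (nat_lit 363) (nat_lit 237) (nat_lit 180))) (XT.nd (nat_lit 35958) (nat_lit 0) (nat_lit 12616) (XT.lf (nat_lit 0) (nat_lit 15082817344) (nat_lit 76) (nat_lit 5915277435) (nat_lit 152) (nat_lit 8802384738) (nat_lit 10) (nat_lit 5) (nat_lit 11) (nat_lit 5) (nat_lit 12) (nat_lit 4) (nat_lit 364) (nat_lit 237) (nat_lit 179)) (XT.lf (nat_lit 0) (nat_lit 489495757) (nat_lit 532) (nat_lit 1957836750) (nat_lit 532) (nat_lit 1957836750) (nat_lit 176) (nat_lit 4) (nat_lit 183) (nat_lit 5) (nat_lit 183) (nat_lit 4) (nat_lit 304) (nat_lit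 238) (nat_lit 238)))))) (XT.nd (nat_lit 468) (nat_lit 2736) (nat_lit 0) (XT.nd (nat_lit 234) (nat_lit 1444) (nat_lit 0) (XT.nd (nat_lit 78) (nat_lit 988) (nat_lit 0) (XT.lf (nat_lit 0) (nat_lit 1481728457) (nat_lit 456) (nat_lit 2194283) (nat_lit 532) (nat_lit 7446080773) (nat_lit 169) (nat_lit 5) (nat_lit 175) (nat_lit 5) (nat_lit 176) (nat_lit 4) (nat_lit 305) (nat_lit 238) (nat_lit 237)) (XT.nd (nat_lit 78) (nat_lit 532) (nat_lit 0) (XT.lf (nat_lit 0) (nat_lit 1913236255) (nat_lit 456) (nat_lit 5034679284) (nat_lit 456) (nat_lit 2105814994) (nat_lit 163) (nat_lit 4) (nat_lit 169) (nat_lit 5) (nat_lit 169) (nat_lit 4) (nat_lit 306) (nat_lit 238) (nat_lit 236)) (XT.lf (nat_lit 0) (nat_lit 2297943177) (nat_lit 456) (nat_lit 983034416) (nat_lit 532) (nat_lit 5901231122) (nat_lit 156) (nat_lit 5) (nat_lit 162) (nat_lit 5) (nat_lit 163) (nat_lit 4) (nat_lit 307) (nat_lit 238) (nat_lit 235)))) (XT.nd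 (nat_lit 78) (nat_lit 988) (nat_lit 0) (XT.lf (nat_lit 0) (nat_lit 2616344108) (nat_lit 456) (nat_lit 6138485297) (nat_lit 456) (nat_lit 560446288) (nat_lit 150) (nat_lit 4) (nat_lit 156) (nat_lit 5) (nat_lit 156) (nat_lit 4) (nat_lit 308) (nat_lit 238) (nat_lit 234)) (XT.nd (nat_lit 78) (nat_lit 532) (nat_lit 0) (XT.lf (nat_lit 0) (nat_lit 2857970091) (nat_lit 380) (nat_lit 1959097848) (nat_lit 456) (nat_lit 4635888757) (nat_lit 144) (nat_lit 5) (nat_lit 149) (nat_lit 5) (nat_lit 150) (nat_lit 4) (nat_lit 309) (nat_lit 238) (nat_lit 233)) (XT.lf (nat_lit 0) (nat_lit 695475012) (nat_lit 532) (nat_lit 6565015308) (nat_lit 76) (nat_lit 2335155968) (nat_lit 137) (nat_lit 5) (nat_lit 144) (nat_lit 5) (nat_lit 138) (nat_lit 4) (nat_lit 310) (nat_lit 238) (nat_lit 232))))) (XT.nd (nat_lit 234) (nat_lit 1520) (nat_lit 0) (XT.nd (nat_lit 78) (nat_lit 836) (nat_lit 0) (XT.lf (nat_lit 0) (nat_lit 3106490165)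 (nat_lit 380) (nat_lit 2969054713) (nat_lit 456) (nat_lit 3667506657) (nat_lit 132) (nat_lit 5) (nat_lit 137) (nat_lit 5) (nat_lit 138) (nat_lit 4) (nat_lit 311) (nat_lit 238) (nat_lit 231)) (XT.nd (nat_lit 78) (nat_lit 380) (nat_lit 0) (XT.lf (nat_lit 0) (nat_lit 1648843074) (nat_lit 456) (nat_lit 6794341238) (nat_lit 76) (nat_lit 1452563998) (nat_lit 126) (nat_lit 5) (nat_lit 132) (nat_lit 5) (nat_lit 127) (nat_lit 4) (nat_lit 312) (nat_lit 238) (nat_lit 230)) (XT.lf (nat_lit 0) (nat_lit 2983280280) (nat_lit 380) (nat_lit 4053225765) (nat_lit 456) (nat_lit 3016878626) (nat_lit 121) (nat_lit 5) (nat_lit 126) (nat_lit 5) (nat_lit 127) (nat_lit 4) (nat_lit 313) (nat_lit 238) (nat_lit 229)))) (XT.nd (nat_lit 156) (nat_lit 760) (nat_lit 0) (XT.nd (nat_lit 78) (nat_lit 304) (nat_lit 0) (XT.lf (nat_lit 0) (nat_lit 2284930204) (nat_lit 456) (nat_lit 7446913360) (nat_lit 76) (nat_lit 484752340) (nat_lit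 115) (nat_lit 5) (nat_lit 121) (nat_lit 5) (nat_lit 116) (nat_lit 4) (nat_lit 314) (nat_lit 238) (nat_lit 228)) (XT.lf (nat_lit 0) (nat_lit 2422571424) (nat_lit 304) (nat_lit 5253969327) (nat_lit 380) (nat_lit 2708399908) (nat_lit 111) (nat_lit 5) (nat_lit 115) (nat_lit 5) (nat_lit 116) (nat_lit 4) (nat_lit 315) (nat_lit 238) (nat_lit 227))) (XT.nd (nat_lit 78) (nat_lit 304) (nat_lit 0) (XT.lf (nat_lit 0) (nat_lit 1962786504) (nat_lit 380) (nat_lit 619213044) (nat_lit 456) (nat_lit 7977147135) (nat_lit 105) (nat_lit 5) (nat_lit 110) (nat_lit 5) (nat_lit 111) (nat_lit 5) (nat_lit 316) (nat_lit 238) (nat_lit 226)) (XT.lf (nat_lit 0) (nat_lit 1352347930) (nat_lit 304) (nat_lit 6616093240) (nat_lit 380) (nat_lit 2770362482) (nat_lit 101) (nat_lit 5) (nat_lit 105) (nat_lit 5) (nat_lit 106) (nat_lit 4) (nat_lit 317) (nat_lit 238) (nat_lit 225))))))) (XT.nd (nat_lit 1014) (nat_lit 2052) (nat_lit 0) (XT.nd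 (nat_lit 468) (nat_lit 1672) (nat_lit 0) (XT.nd (nat_lit 234) (nat_lit 912) (nat_lit 0) (XT.nd (nat_lit 78) (nat_lit 380) (nat_lit 0) (XT.lf (nat_lit 0) (nat_lit 605233588) (nat_lit 304) (nat_lit 1905381488) (nat_lit 380) (nat_lit 8413920955) (nat_lit 96) (nat_lit 5) (nat_lit 100) (nat_lit 5) (nat_lit 101) (nat_lit 5) (nat_lit 318) (nat_lit 238) (nat_lit 224)) (XT.nd (nat_lit 78) (nat_lit 380) (nat_lit 0) (XT.lf (nat_lit 0) (nat_lit 7882866038) (nat_lit 380) (nat_lit 302400307) (nat_lit 76) (nat_lit 2930858537) (nat_lit 96) (nat_lit 5) (nat_lit 101) (nat_lit 5) (nat_lit 97) (nat_lit 4) (nat_lit 319) (nat_lit 238) (nat_lit 223)) (XT.lf (nat_lit 0) (nat_lit 2042800140) (nat_lit 380) (nat_lit 1364483065) (nat_lit 76) (nat_lit 7906611500) (nat_lit 91) (nat_lit 5) (nat_lit 96) (nat_lit 5) (nat_lit 92) (nat_lit 5) (nat_lit 320) (nat_lit 238) (nat_lit 222)))) (XT.nd (nat_lit 78) (nat_lit 608) (nat_lit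 0) (XT.lf (nat_lit 0) (nat_lit 7395171755) (nat_lit 380) (nat_lit 2605979203) (nat_lit 76) (nat_lit 1516835874) (nat_lit 87) (nat_lit 5) (nat_lit 92) (nat_lit 5) (nat_lit 88) (nat_lit 4) (nat_lit 321) (nat_lit 238) (nat_lit 221)) (XT.nd (nat_lit 78) (nat_lit 304) (nat_lit 0) (XT.lf (nat_lit 0) (nat_lit 1139722556) (nat_lit 304) (nat_lit 4038288357) (nat_lit 76) (nat_lit 6550585023) (nat_lit 83) (nat_lit 5) (nat_lit 87) (nat_lit 5) (nat_lit 84) (nat_lit 5) (nat_lit 322) (nat_lit 238) (nat_lit 220)) (XT.lf (nat_lit 0) (nat_lit 6274241575) (nat_lit 304) (nat_lit 183429426) (nat_lit 380) (nat_lit 5488287898) (nat_lit 79) (nat_lit 5) (nat_lit 83) (nat_lit 5) (nat_lit 84) (nat_lit 5) (nat_lit 323) (nat_lit 238) (nat_lit 219))))) (XT.nd (nat_lit 234) (nat_lit 836) (nat_lit 0) (XT.nd (nat_lit 78) (nat_lit 608) (nat_lit 0) (XT.lf (nat_lit 0) (nat_lit 4645294156) (nat_lit 228) (nat_lit 7276108044) (nat_lit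 304) (nat_lit 248765736) (nat_lit 76) (nat_lit 5) (nat_lit 79) (nat_lit 5) (nat_lit 80) (nat_lit 4) (nat_lit 324) (nat_lit 238) (nat_lit 218)) (XT.nd (nat_lit 78) (nat_lit 228) (nat_lit 0) (XT.lf (nat_lit 0) (nat_lit 2786666191) (nat_lit 304) (nat_lit 2249336914) (nat_lit 380) (nat_lit 7365367780) (nat_lit 71) (nat_lit 5) (nat_lit 75) (nat_lit 5) (nat_lit 76) (nat_lit 5) (nat_lit 325) (nat_lit 238) (nat_lit 217)) (XT.lf (nat_lit 0) (nat_lit 697101714) (nat_lit 228) (nat_lit 9752828950) (nat_lit 304) (nat_lit 2190112734) (nat_lit 68) (nat_lit 5) (nat_lit 71) (nat_lit 5) (nat_lit 72) (nat_lit 4) (nat_lit 326) (nat_lit 238) (nat_lit 216)))) (XT.nd (nat_lit 156) (nat_lit 532) (nat_lit 0) (XT.nd (nat_lit 78) (nat_lit 228) (nat_lit 0) (XT.lf (nat_lit 0) (nat_lit 3080145454) (nat_lit 304) (nat_lit 1632380893) (nat_lit 76) (nat_lit 8173367344) (nat_lit 67) (nat_lit 5) (nat_lit 71) (nat_lit 5) (nat_lit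 68) (nat_lit 5) (nat_lit 327) (nat_lit 238) (nat_lit 215)) (XT.lf (nat_lit 0) (nat_lit 8443333742) (nat_lit 304) (nat_lit 4209938803) (nat_lit 76) (nat_lit 486308625) (nat_lit 64) (nat_lit 5) (nat_lit 68) (nat_lit 5) (nat_lit 65) (nat_lit 4) (nat_lit 328) (nat_lit 238) (nat_lit 214))) (XT.nd (nat_lit 78) (nat_lit 228) (nat_lit 0) (XT.lf (nat_lit 0) (nat_lit 547347693) (nat_lit 304) (nat_lit 7079277047) (nat_lit 76) (nat_lit 5774456878) (nat_lit 60) (nat_lit 5) (nat_lit 64) (nat_lit 5) (nat_lit 61) (nat_lit 5) (nat_lit 329) (nat_lit 238) (nat_lit 213)) (XT.lf (nat_lit 0) (nat_lit 3415605453) (nat_lit 228) (nat_lit 2425858273) (nat_lit 304) (nat_lit 7829241693) (nat_lit 57) (nat_lit 5) (nat_lit 60) (nat_lit 5) (nat_lit 61) (nat_lit 5) (nat_lit 330) (nat_lit 238) (nat_lit 212)))))) (XT.nd (nat_lit 546) (nat_lit 912) (nat_lit 0) (XT.nd (nat_lit 234) (nat_lit 608) (nat_lit 0) (XT.nd (nat_lit 78) (nat_lit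 304) (nat_lit 0) (XT.lf (nat_lit 0) (nat_lit 204256937) (nat_lit 228) (nat_lit 11065917874) (nat_lit 304) (nat_lit 2678766054) (nat_lit 54) (nat_lit 5) (nat_lit 57) (nat_lit 5) (nat_lit 58) (nat_lit 4) (nat_lit 331) (nat_lit 238) (nat_lit 211)) (XT.nd (nat_lit 78) (nat_lit 228) (nat_lit 0) (XT.lf (nat_lit 0) (nat_lit 2586163924) (nat_lit 304) (nat_lit 3302712921) (nat_lit 76) (nat_lit 8346454355) (nat_lit 53) (nat_lit 5) (nat_lit 57) (nat_lit 5) (nat_lit 54) (nat_lit 5) (nat_lit 332) (nat_lit 238) (nat_lit 210)) (XT.lf (nat_lit 0) (nat_lit 7383267882) (nat_lit 228) (nat_lit 548406726) (nat_lit 304) (nat_lit 6599139421) (nat_lit 50) (nat_lit 5) (nat_lit 53) (nat_lit 5) (nat_lit 54) (nat_lit 5) (nat_lit 333) (nat_lit 238) (nat_lit 209)))) (XT.nd (nat_lit 156) (nat_lit 380) (nat_lit 0) (XT.nd (nat_lit 78) (nat_lit 76) (nat_lit 0) (XT.lf (nat_lit 0) (nat_lit 3466312484) (nat_lit 152) (nat_lit 9960578618)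 (nat_lit 228) (nat_lit 1408517853) (nat_lit 48) (nat_lit 5) (nat_lit 50) (nat_lit 5) (nat_lit 51) (nat_lit 4) (nat_lit 334) (nat_lit 238) (nat_lit 208)) (XT.lf (nat_lit 0) (nat_lit 3851766917) (nat_lit 228) (nat_lit 827273219) (nat_lit 76) (nat_lit 10470311219) (nat_lit 47) (nat_lit 5) (nat_lit 50) (nat_lit 5) (nat_lit 48) (nat_lit 5) (nat_lit 335) (nat_lit 238) (nat_lit 207))) (XT.nd (nat_lit 78) (nat_lit 152) (nat_lit 0) (XT.lf (nat_lit 0) (nat_lit 9236588192) (nat_lit 304) (nat_lit 5467038361) (nat_lit 76) (nat_lit 769213792) (nat_lit 44) (nat_lit 5) (nat_lit 48) (nat_lit 5) (nat_lit 45) (nat_lit 4) (nat_lit 336) (nat_lit 238) (nat_lit 206)) (XT.lf (nat_lit 0) (nat_lit 5266275643) (nat_lit 152) (nat_lit 9504683438) (nat_lit 228) (nat_lit 1035345707) (nat_lit 42) (nat_lit 5) (nat_lit 44) (nat_lit 5) (nat_lit 45) (nat_lit 4) (nat_lit 337) (nat_lit 238) (nat_lit 205))))) (XT.nd (nat_lit 234) (nat_lit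 456) (nat_lit 0) (XT.nd (nat_lit 78) (nat_lit 152) (nat_lit 0) (XT.lf (nat_lit 0) (nat_lit 80569165) (nat_lit 228) (nat_lit 4139986300) (nat_lit 304) (nat_lit 11929573002) (nat_lit 38) (nat_lit 5) (nat_lit 41) (nat_lit 5) (nat_lit 42) (nat_lit 5) (nat_lit 338) (nat_lit 238) (nat_lit 204)) (XT.nd (nat_lit 78) (nat_lit 152) (nat_lit 0) (XT.lf (nat_lit 0) (nat_lit 9620004815) (nat_lit 304) (nat_lit 5493756549) (nat_lit 76) (nat_lit 1390398412) (nat_lit 38) (nat_lit 5) (nat_lit 42) (nat_lit 5) (nat_lit 39) (nat_lit 4) (nat_lit 339) (nat_lit 238) (nat_lit 203)) (XT.lf (nat_lit 0) (nat_lit 5306685146) (nat_lit 152) (nat_lit 9858218293) (nat_lit 228) (nat_lit 1704266975) (nat_lit 36) (nat_lit 5) (nat_lit 38) (nat_lit 5) (nat_lit 39) (nat_lit 4) (nat_lit 340) (nat_lit 238) (nat_lit 202)))) (XT.nd (nat_lit 156) (nat_lit 228) (nat_lit 0) (XT.nd (nat_lit 78) (nat_lit 152) (nat_lit 0) (XT.lf (nat_lit 0) (nat_lit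 3543089531) (nat_lit 228) (nat_lit 895293352) (nat_lit 76) (nat_lit 12807109495) (nat_lit 35) (nat_lit 5) (nat_lit 38) (nat_lit 5) (nat_lit 36) (nat_lit 5) (nat_lit 341) (nat_lit 238) (nat_lit 201)) (XT.lf (nat_lit 0) (nat_lit 8922382390) (nat_lit 228) (nat_lit 7557466781) (nat_lit 76) (nat_lit 1153101731) (nat_lit 33) (nat_lit 5) (nat_lit 36) (nat_lit 5) (nat_lit 34) (nat_lit 4) (nat_lit 342) (nat_lit 238) (nat_lit 200))) (XT.nd (nat_lit 78) (nat_lit 76) (nat_lit 0) (XT.lf (nat_lit 0) (nat_lit 3239899786) (nat_lit 152) (nat_lit 11205489095) (nat_lit 228) (nat_lit 3587022462) (nat_lit 31) (nat_lit 5) (nat_lit 33) (nat_lit 5) (nat_lit 34) (nat_lit 4) (nat_lit 343) (nat_lit 238) (nat_lit 199)) (XT.lf (nat_lit 0) (nat_lit 1645964088) (nat_lit 228) (nat_lit 4117023982) (nat_lit 76) (nat_lit 12681113673) (nat_lit 30) (nat_lit 5) (nat_lit 33) (nat_lit 5) (nat_lit 31) (nat_lit 5) (nat_lit 344) (nat_lit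 238) (nat_lit 198))))))))
noncomputable def xc18 : XT := (XT.nd (nat_lit 37752) (nat_lit 0) (nat_lit 3040) (XT.nd (nat_lit 1014) (nat_lit 380) (nat_lit 0) (XT.nd (nat_lit 468) (nat_lit 532) (nat_lit 0) (XT.nd (nat_lit 234) (nat_lit 304) (nat_lit 0) (XT.nd (nat_lit 78) (nat_lit 152) (nat_lit 0) (XT.lf (nat_lit 0) (nat_lit 6820390350) (nat_lit 152) (nat_lit 139872583) (nat_lit 228) (nat_lit 11907967563) (nat_lit 28) (nat_lit 5) (nat_lit 30) (nat_lit 5) (nat_lit 31) (nat_lit 5) (nat_lit 345) (nat_lit 238) (nat_lit 197)) (XT.nd (nat_lit 78) (nat_lit 152) (nat_lit 0) (XT.lf (nat_lit 0) (nat_lit 12428222850) (nat_lit 228) (nat_lit 1322008084) (nat_lit 76) (nat_lit 5554989840) (nat_lit 28) (nat_lit 5) (nat_lit 31) (nat_lit 5) (nat_lit 29) (nat_lit 4) (nat_lit 346) (nat_lit 238) (nat_lit 196)) (XT.lf (nat_lit 0) (nat_lit 9733009203) (nat_lit 152) (nat_lit 8322848643) (nat_lit 228) (nat_lit 1699571841)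 (nat_lit 26) (nat_lit 5) (nat_lit 28) (nat_lit 5) (nat_lit 29) (nat_lit 4) (nat_lit 347) (nat_lit 238) (nat_lit 195)))) (XT.nd (nat_lit 78) (nat_lit 76) (nat_lit 0) (XT.lf (nat_lit 0) (nat_lit 787193439) (nat_lit 152) (nat_lit 2744736919) (nat_lit 228) (nat_lit 16687835279) (nat_lit 23) (nat_lit 5) (nat_lit 25) (nat_lit 5) (nat_lit 26) (nat_lit 5) (nat_lit 348) (nat_lit 238) (nat_lit 194)) (XT.nd (nat_lit 78) (nat_lit 76) (nat_lit 0) (XT.lf (nat_lit 0) (nat_lit 8918433986) (nat_lit 228) (nat_lit 8787084241) (nat_lit 76) (nat_lit 2991885828) (nat_lit 23) (nat_lit 5) (nat_lit 26) (nat_lit 5) (nat_lit 24) (nat_lit 4) (nat_lit 349) (nat_lit 238) (nat_lit 193)) (XT.lf (nat_lit 0) (nat_lit 2072618249) (nat_lit 76) (nat_lit 12360840877) (nat_lit 152) (nat_lit 6756593399) (nat_lit 22) (nat_lit 5) (nat_lit 23) (nat_lit 5) (nat_lit 24) (nat_lit 4) (nat_lit 350) (nat_lit 238) (nat_lit 192))))) (XT.nd (nat_lit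 234) (nat_lit 304) (nat_lit 0) (XT.nd (nat_lit 78) (nat_lit 228) (nat_lit 0) (XT.lf (nat_lit 0) (nat_lit 13266262368) (nat_lit 76) (nat_lit 6843492891) (nat_lit 152) (nat_lit 1587827647) (nat_lit 22) (nat_lit 5) (nat_lit 23) (nat_lit 5) (nat_lit 24) (nat_lit 4) (nat_lit 351) (nat_lit 238) (nat_lit 191)) (XT.nd (nat_lit 78) (nat_lit 0) (nat_lit 0) (XT.lf (nat_lit 0) (nat_lit 2473856695) (nat_lit 152) (nat_lit 1166912397) (nat_lit 228) (nat_lit 18580027602) (nat_lit 19) (nat_lit 5) (nat_lit 21) (nat_lit 5) (nat_lit 22) (nat_lit 5) (nat_lit 352) (nat_lit 238) (nat_lit 190)) (XT.lf (nat_lit 0) (nat_lit 9031186049) (nat_lit 228) (nat_lit 9087214114) (nat_lit 76) (nat_lit 4640583558) (nat_lit 19) (nat_lit 5) (nat_lit 22) (nat_lit 5) (nat_lit 20) (nat_lit 4) (nat_lit 353) (nat_lit 238) (nat_lit 189)))) (XT.nd (nat_lit 156) (nat_lit 228) (nat_lit 0) (XT.nd (nat_lit 78) (nat_lit 0) (nat_lit 0) (XT.lf (nat_lit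 0) (nat_lit 1802444057) (nat_lit 76) (nat_lit 12740683221) (nat_lit 152) (nat_lit 8771009769) (nat_lit 18) (nat_lit 5) (nat_lit 19) (nat_lit 5) (nat_lit 20) (nat_lit 4) (nat_lit 354) (nat_lit 238) (nat_lit 188)) (XT.lf (nat_lit 0) (nat_lit 13039198767) (nat_lit 76) (nat_lit 7184174816) (nat_lit 152) (nat_lit 3662528882) (nat_lit 18) (nat_lit 5) (nat_lit 19) (nat_lit 5) (nat_lit 20) (nat_lit 4) (nat_lit 355) (nat_lit 238) (nat_lit 187))) (XT.nd (nat_lit 78) (nat_lit 0) (nat_lit 0) (XT.lf (nat_lit 0) (nat_lit 26470111) (nat_lit 152) (nat_lit 1494618287) (nat_lit 228) (nat_lit 22954683307) (nat_lit 15) (nat_lit 5) (nat_lit 17) (nat_lit 5) (nat_lit 18) (nat_lit 5) (nat_lit 356) (nat_lit 238) (nat_lit 186)) (XT.lf (nat_lit 0) (nat_lit 6856489759) (nat_lit 228) (nat_lit 13861816348) (nat_lit 76) (nat_lit 4363641213) (nat_lit 15) (nat_lit 5) (nat_lit 18) (nat_lit 5) (nat_lit 16) (nat_lit 4) (nat_lit 357)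 (nat_lit 238) (nat_lit 185)))))) (XT.nd (nat_lit 468) (nat_lit 76) (nat_lit 0) (XT.nd (nat_lit 234) (nat_lit 228) (nat_lit 0) (XT.nd (nat_lit 78) (nat_lit 76) (nat_lit 0) (XT.lf (nat_lit 0) (nat_lit 12307015660) (nat_lit 228) (nat_lit 3064697468) (nat_lit 76) (nat_lit 10335508567) (nat_lit 15) (nat_lit 5) (nat_lit 18) (nat_lit 5) (nat_lit 16) (nat_lit 4) (nat_lit 358) (nat_lit 238) (nat_lit 184)) (XT.nd (nat_lit 78) (nat_lit 0) (nat_lit 0) (XT.lf (nat_lit 0) (nat_lit 8066993544) (nat_lit 76) (nat_lit 9853107370) (nat_lit 152) (nat_lit 8431186826) (nat_lit 14) (nat_lit 5) (nat_lit 15) (nat_lit 5) (nat_lit 16) (nat_lit 4) (nat_lit 359) (nat_lit 238) (nat_lit 183)) (XT.lf (nat_lit 0) (nat_lit 19480987405) (nat_lit 76) (nat_lit 4188971666) (nat_lit 152) (nat_lit 3345362985) (nat_lit 14) (nat_lit 5) (nat_lit 15) (nat_lit 5) (nat_lit 16) (nat_lit 4) (nat_lit 360) (nat_lit 238) (nat_lit 182)))) (XT.nd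 (nat_lit 78) (nat_lit 0) (nat_lit 0) (XT.lf (nat_lit 0) (nat_lit 1850240631) (nat_lit 228) (nat_lit 24230360326) (nat_lit 76) (nat_lit 1618803199) (nat_lit 11) (nat_lit 5) (nat_lit 14) (nat_lit 5) (nat_lit 12) (nat_lit 4) (nat_lit 361) (nat_lit 238) (nat_lit 181)) (XT.nd (nat_lit 78) (nat_lit 0) (nat_lit 0) (XT.lf (nat_lit 0) (nat_lit 7185364884) (nat_lit 228) (nat_lit 13638897068) (nat_lit 76) (nat_lit 7578735294) (nat_lit 11) (nat_lit 5) (nat_lit 14) (nat_lit 5) (nat_lit 12) (nat_lit 4) (nat_lit 362) (nat_lit 238) (nat_lit 180)) (XT.lf (nat_lit 0) (nat_lit 12631452730) (nat_lit 228) (nat_lit 2817884796) (nat_lit 76) (nat_lit 13679354872) (nat_lit 11) (nat_lit 5) (nat_lit 14) (nat_lit 5) (nat_lit 12) (nat_lit 4) (nat_lit 363) (nat_lit 238) (nat_lit 179))))) (XT.nd (nat_lit 35958) (nat_lit 0) (nat_lit 11096) (XT.nd (nat_lit 35802) (nat_lit 0) (nat_lit 13148) (XT.lf (nat_lit 0) (nat_lit 8351665336)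 (nat_lit 76) (nat_lit 9895822102) (nat_lit 152) (nat_lit 11628551784) (nat_lit 10) (nat_lit 5) (nat_lit 11) (nat_lit 5) (nat_lit 12) (nat_lit 4) (nat_lit 364) (nat_lit 238) (nat_lit 178)) (XT.nd (nat_lit 78) (nat_lit 1140) (nat_lit 0) (XT.lf (nat_lit 0) (nat_lit 2134084309) (nat_lit 608) (nat_lit 23325956) (nat_lit 0) (nat_lit 2134084309) (nat_lit 198) (nat_lit 5) (nat_lit 206) (nat_lit 4) (nat_lit 198) (nat_lit 4) (nat_lit 302) (nat_lit 239) (nat_lit 239)) (XT.lf (nat_lit 0) (nat_lit 449852975) (nat_lit 532) (nat_lit 561210245) (nat_lit 608) (nat_lit 7684350623) (nat_lit 183) (nat_lit 5) (nat_lit 190) (nat_lit 5) (nat_lit 191) (nat_lit 4) (nat_lit 303) (nat_lit 239) (nat_lit 238)))) (XT.nd (nat_lit 156) (nat_lit 988) (nat_lit 0) (XT.nd (nat_lit 78) (nat_lit 532) (nat_lit 0) (XT.lf (nat_lit 0) (nat_lit 886893247) (nat_lit 532) (nat_lit 5500962198) (nat_lit 532) (nat_lit 2423897374) (nat_lit 176)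 (nat_lit 4) (nat_lit 183) (nat_lit 5) (nat_lit 183) (nat_lit 4) (nat_lit 304) (nat_lit 239) (nat_lit 237)) (XT.lf (nat_lit 0) (nat_lit 1285607275) (nat_lit 456) (nat_lit 1602669059) (nat_lit 532) (nat_lit 6044355106) (nat_lit 169) (nat_lit 5) (nat_lit 175) (nat_lit 5) (nat_lit 176) (nat_lit 4) (nat_lit 305) (nat_lit 239) (nat_lit 236))) (XT.nd (nat_lit 78) (nat_lit 532) (nat_lit 0) (XT.lf (nat_lit 0) (nat_lit 1631093599) (nat_lit 456) (nat_lit 6643576671) (nat_lit 456) (nat_lit 783288889) (nat_lit 163) (nat_lit 4) (nat_lit 169) (nat_lit 5) (nat_lit 169) (nat_lit 4) (nat_lit 306) (nat_lit 239) (nat_lit 235)) (XT.lf (nat_lit 0) (nat_lit 1908348770) (nat_lit 456) (nat_lit 2610762506) (nat_lit 532) (nat_lit 4668541652) (nat_lit 156) (nat_lit 5) (nat_lit 162) (nat_lit 5) (nat_lit 163) (nat_lit 4) (nat_lit 307) (nat_lit 239) (nat_lit 234))))))) (XT.nd (nat_lit 1014) (nat_lit 3116) (nat_lit 0) (XT.nd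 (nat_lit 468) (nat_lit 2280) (nat_lit 0) (XT.nd (nat_lit 234) (nat_lit 1216) (nat_lit 0) (XT.nd (nat_lit 78) (nat_lit 912) (nat_lit 0) (XT.lf (nat_lit 0) (nat_lit 585815298) (nat_lit 532) (nat_lit 7189803597) (nat_lit 76) (nat_lit 1546610086) (nat_lit 149) (nat_lit 5) (nat_lit 156) (nat_lit 5) (nat_lit 150) (nat_lit 4) (nat_lit 308) (nat_lit 239) (nat_lit 233)) (XT.nd (nat_lit 78) (nat_lit 532) (nat_lit 0) (XT.lf (nat_lit 0) (nat_lit 2267060670) (nat_lit 380) (nat_lit 3622531583) (nat_lit 456) (nat_lit 3571615549) (nat_lit 144) (nat_lit 5) (nat_lit 149) (nat_lit 5) (nat_lit 150) (nat_lit 4) (nat_lit 309) (nat_lit 239) (nat_lit 232)) (XT.lf (nat_lit 0) (nat_lit 1668526106) (nat_lit 532) (nat_lit 7266906730) (nat_lit 76) (nat_lit 669912431) (nat_lit 137) (nat_lit 5) (nat_lit 144) (nat_lit 5) (nat_lit 138) (nat_lit 4) (nat_lit 310) (nat_lit 239) (nat_lit 231)))) (XT.nd (nat_lit 78) (nat_lit 836) (nat_lit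 0) (XT.lf (nat_lit 0) (nat_lit 2306382197) (nat_lit 380) (nat_lit 4676343300) (nat_lit 456) (nat_lit 2771382032) (nat_lit 132) (nat_lit 5) (nat_lit 137) (nat_lit 5) (nat_lit 138) (nat_lit 4) (nat_lit 311) (nat_lit 239) (nat_lit 230)) (XT.nd (nat_lit 78) (nat_lit 380) (nat_lit 0) (XT.lf (nat_lit 0) (nat_lit 2195023595) (nat_lit 380) (nat_lit 262786310) (nat_lit 456) (nat_lit 7450423829) (nat_lit 126) (nat_lit 5) (nat_lit 131) (nat_lit 5) (nat_lit 132) (nat_lit 5) (nat_lit 312) (nat_lit 239) (nat_lit 229)) (XT.lf (nat_lit 0) (nat_lit 1966020632) (nat_lit 380) (nat_lit 5812253622) (nat_lit 456) (nat_lit 2288976412) (nat_lit 121) (nat_lit 5) (nat_lit 126) (nat_lit 5) (nat_lit 127) (nat_lit 4) (nat_lit 313) (nat_lit 239) (nat_lit 228))))) (XT.nd (nat_lit 234) (nat_lit 1064) (nat_lit 0) (XT.nd (nat_lit 78) (nat_lit 760) (nat_lit 0) (XT.lf (nat_lit 0) (nat_lit 1636017515) (nat_lit 380) (nat_lit 1298553513)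 (nat_lit 456) (nat_lit 7297205483) (nat_lit 115) (nat_lit 5) (nat_lit 120) (nat_lit 5) (nat_lit 121) (nat_lit 5) (nat_lit 314) (nat_lit 239) (nat_lit 227)) (XT.nd (nat_lit 78) (nat_lit 456) (nat_lit 0) (XT.lf (nat_lit 0) (nat_lit 1180110484) (nat_lit 304) (nat_lit 7072392101) (nat_lit 380) (nat_lit 2149126083) (nat_lit 111) (nat_lit 5) (nat_lit 115) (nat_lit 5) (nat_lit 116) (nat_lit 4) (nat_lit 315) (nat_lit 239) (nat_lit 226)) (XT.lf (nat_lit 0) (nat_lit 596950523) (nat_lit 380) (nat_lit 2471652982) (nat_lit 456) (nat_lit 7508497453) (nat_lit 105) (nat_lit 5) (nat_lit 110) (nat_lit 5) (nat_lit 111) (nat_lit 5) (nat_lit 316) (nat_lit 239) (nat_lit 225)))) (XT.nd (nat_lit 156) (nat_lit 684) (nat_lit 0) (XT.nd (nat_lit 78) (nat_lit 380) (nat_lit 0) (XT.lf (nat_lit 0) (nat_lit 8378687015) (nat_lit 456) (nat_lit 121866893) (nat_lit 76) (nat_lit 2257762436) (nat_lit 105) (nat_lit 5) (nat_lit 111) (nat_lit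 5) (nat_lit 106) (nat_lit 4) (nat_lit 317) (nat_lit 239) (nat_lit 224)) (XT.lf (nat_lit 0) (nat_lit 2836622716) (nat_lit 380) (nat_lit 984698854) (nat_lit 76) (nat_lit 7123898184) (nat_lit 100) (nat_lit 5) (nat_lit 105) (nat_lit 5) (nat_lit 101) (nat_lit 5) (nat_lit 318) (nat_lit 239) (nat_lit 223))) (XT.nd (nat_lit 78) (nat_lit 380) (nat_lit 0) (XT.lf (nat_lit 0) (nat_lit 8135921576) (nat_lit 380) (nat_lit 1997402406) (nat_lit 76) (nat_lit 1004972548) (nat_lit 96) (nat_lit 5) (nat_lit 101) (nat_lit 5) (nat_lit 97) (nat_lit 4) (nat_lit 319) (nat_lit 239) (nat_lit 222)) (XT.lf (nat_lit 0) (nat_lit 2206099293) (nat_lit 380) (nat_lit 3188862493) (nat_lit 76) (nat_lit 5942393212) (nat_lit 91) (nat_lit 5) (nat_lit 96) (nat_lit 5) (nat_lit 92) (nat_lit 5) (nat_lit 320) (nat_lit 239) (nat_lit 221)))))) (XT.nd (nat_lit 546) (nat_lit 1292) (nat_lit 0) (XT.nd (nat_lit 234) (nat_lit 912) (nat_lit 0) (XT.nd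 (nat_lit 78) (nat_lit 608) (nat_lit 0) (XT.lf (nat_lit 0) (nat_lit 6991877251) (nat_lit 304) (nat_lit 492303496) (nat_lit 380) (nat_lit 4058778871) (nat_lit 87) (nat_lit 5) (nat_lit 91) (nat_lit 5) (nat_lit 92) (nat_lit 5) (nat_lit 321) (nat_lit 239) (nat_lit 220)) (XT.nd (nat_lit 78) (nat_lit 304) (nat_lit 0) (XT.lf (nat_lit 0) (nat_lit 1134976971) (nat_lit 304) (nat_lit 6113546209) (nat_lit 76) (nat_lit 4506421472) (nat_lit 83) (nat_lit 5) (nat_lit 87) (nat_lit 5) (nat_lit 84) (nat_lit 5) (nat_lit 322) (nat_lit 239) (nat_lit 219)) (XT.lf (nat_lit 0) (nat_lit 4090792138) (nat_lit 304) (nat_lit 2297603376) (nat_lit 380) (nat_lit 5585227365) (nat_lit 79) (nat_lit 5) (nat_lit 83) (nat_lit 5) (nat_lit 84) (nat_lit 5) (nat_lit 323) (nat_lit 239) (nat_lit 218)))) (XT.nd (nat_lit 156) (nat_lit 304) (nat_lit 0) (XT.nd (nat_lit 78) (nat_lit 380) (nat_lit 0) (XT.lf (nat_lit 0) (nat_lit 2338565224) (nat_lit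 228) (nat_lit 9435275577) (nat_lit 304) (nat_lit 425580782) (nat_lit 76) (nat_lit 5) (nat_lit 79) (nat_lit 5) (nat_lit 80) (nat_lit 4) (nat_lit 324) (nat_lit 239) (nat_lit 217)) (XT.lf (nat_lit 0) (nat_lit 341280264) (nat_lit 304) (nat_lit 4455361105) (nat_lit 380) (nat_lit 7635326228) (nat_lit 71) (nat_lit 5) (nat_lit 75) (nat_lit 5) (nat_lit 76) (nat_lit 5) (nat_lit 325) (nat_lit 239) (nat_lit 216))) (XT.nd (nat_lit 78) (nat_lit 304) (nat_lit 0) (XT.lf (nat_lit 0) (nat_lit 10143467685) (nat_lit 380) (nat_lit 1851701171) (nat_lit 76) (nat_lit 676835410) (nat_lit 71) (nat_lit 5) (nat_lit 76) (nat_lit 5) (nat_lit 72) (nat_lit 4) (nat_lit 326) (nat_lit 239) (nat_lit 215)) (XT.lf (nat_lit 0) (nat_lit 2686217391) (nat_lit 304) (nat_lit 4313108317) (nat_lit 76) (nat_lit 5919792713) (nat_lit 67) (nat_lit 5) (nat_lit 71) (nat_lit 5) (nat_lit 68) (nat_lit 5) (nat_lit 327) (nat_lit 239) (nat_lit 214)))))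 (XT.nd (nat_lit 234) (nat_lit 532) (nat_lit 0) (XT.nd (nat_lit 78) (nat_lit 532) (nat_lit 0) (XT.lf (nat_lit 0) (nat_lit 6140418590) (nat_lit 228) (nat_lit 1841365959) (nat_lit 304) (nat_lit 5192394226) (nat_lit 64) (nat_lit 5) (nat_lit 67) (nat_lit 5) (nat_lit 68) (nat_lit 5) (nat_lit 328) (nat_lit 239) (nat_lit 213)) (XT.nd (nat_lit 78) (nat_lit 304) (nat_lit 0) (XT.lf (nat_lit 0) (nat_lit 3400591051) (nat_lit 228) (nat_lit 10017081691) (nat_lit 304) (nat_lit 19629422) (nat_lit 61) (nat_lit 5) (nat_lit 64) (nat_lit 5) (nat_lit 65) (nat_lit 4) (nat_lit 329) (nat_lit 239) (nat_lit 212)) (XT.lf (nat_lit 0) (nat_lit 343946786) (nat_lit 228) (nat_lit 4865782411) (nat_lit 304) (nat_lit 8498518512) (nat_lit 57) (nat_lit 5) (nat_lit 60) (nat_lit 5) (nat_lit 61) (nat_lit 5) (nat_lit 330) (nat_lit 239) (nat_lit 211)))) (XT.nd (nat_lit 156) (nat_lit 228) (nat_lit 0) (XT.nd (nat_lit 78) (nat_lit 304) (nat_lit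 0) (XT.lf (nat_lit 0) (nat_lit 10576854668) (nat_lit 304) (nat_lit 2965363409) (nat_lit 76) (nat_lit 445515139) (nat_lit 57) (nat_lit 5) (nat_lit 61) (nat_lit 5) (nat_lit 58) (nat_lit 4) (nat_lit 331) (nat_lit 239) (nat_lit 210)) (XT.lf (nat_lit 0) (nat_lit 1800114658) (nat_lit 304) (nat_lit 6619030583) (nat_lit 76) (nat_lit 5856361613) (nat_lit 53) (nat_lit 5) (nat_lit 57) (nat_lit 5) (nat_lit 54) (nat_lit 5) (nat_lit 332) (nat_lit 239) (nat_lit 209))) (XT.nd (nat_lit 78) (nat_lit 0) (nat_lit 0) (XT.lf (nat_lit 0) (nat_lit 3951073042) (nat_lit 228) (nat_lit 3129646476) (nat_lit 304) (nat_lit 7491585237) (nat_lit 50) (nat_lit 5) (nat_lit 53) (nat_lit 5) (nat_lit 54) (nat_lit 5) (nat_lit 333) (nat_lit 239) (nat_lit 208)) (XT.lf (nat_lit 0) (nat_lit 12494657316) (nat_lit 304) (nat_lit 106461025) (nat_lit 76) (nat_lit 2277423376) (nat_lit 50) (nat_lit 5) (nat_lit 54) (nat_lit 5) (nat_lit 51) (nat_lit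 4) (nat_lit 334) (nat_lit 239) (nat_lit 207))))))))
noncomputable def xc19 : XT := (XT.nd (nat_lit 2028) (nat_lit 304) (nat_lit 0) (XT.nd (nat_lit 1014) (nat_lit 912) (nat_lit 0) (XT.nd (nat_lit 468) (nat_lit 760) (nat_lit 0) (XT.nd (nat_lit 234) (nat_lit 456) (nat_lit 0) (XT.nd (nat_lit 78) (nat_lit 380) (nat_lit 0) (XT.lf (nat_lit 0) (nat_lit 2846958708) (nat_lit 228) (nat_lit 4508082336) (nat_lit 76) (nat_lit 7838430072) (nat_lit 47) (nat_lit 5) (nat_lit 50) (nat_lit 5) (nat_lit 48) (nat_lit 5) (nat_lit 335) (nat_lit 239) (nat_lit 206)) (XT.nd (nat_lit 78) (nat_lit 152) (nat_lit 0) (XT.lf (nat_lit 0) (nat_lit 6212559896) (nat_lit 228) (nat_lit 1949178557) (nat_lit 304) (nat_lit 7356637697) (nat_lit 44) (nat_lit 5) (nat_lit 47) (nat_lit 5) (nat_lit 48) (nat_lit 5) (nat_lit 336) (nat_lit 239) (nat_lit 205)) (XT.lf (nat_lit 0) (nat_lit 1321102656) (nat_lit 152) (nat_lit 12296982960) (nat_lit 228)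 (nat_lit 2235330221) (nat_lit 42) (nat_lit 5) (nat_lit 44) (nat_lit 5) (nat_lit 45) (nat_lit 4) (nat_lit 337) (nat_lit 239) (nat_lit 204)))) (XT.nd (nat_lit 78) (nat_lit 380) (nat_lit 0) (XT.lf (nat_lit 0) (nat_lit 2996487521) (nat_lit 228) (nat_lit 3971733560) (nat_lit 76) (nat_lit 9229984745) (nat_lit 41) (nat_lit 5) (nat_lit 44) (nat_lit 5) (nat_lit 42) (nat_lit 5) (nat_lit 338) (nat_lit 239) (nat_lit 203)) (XT.nd (nat_lit 78) (nat_lit 152) (nat_lit 0) (XT.lf (nat_lit 0) (nat_lit 6848978440) (nat_lit 228) (nat_lit 1473101148) (nat_lit 304) (nat_lit 8231648341) (nat_lit 38) (nat_lit 5) (nat_lit 41) (nat_lit 5) (nat_lit 42) (nat_lit 5) (nat_lit 339) (nat_lit 239) (nat_lit 202)) (XT.lf (nat_lit 0) (nat_lit 984217604) (nat_lit 152) (nat_lit 12807504763) (nat_lit 228) (nat_lit 3128534568) (nat_lit 36) (nat_lit 5) (nat_lit 38) (nat_lit 5) (nat_lit 39) (nat_lit 4) (nat_lit 340) (nat_lit 239) (nat_lit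 201))))) (XT.nd (nat_lit 234) (nat_lit 532) (nat_lit 0) (XT.nd (nat_lit 78) (nat_lit 152) (nat_lit 0) (XT.lf (nat_lit 0) (nat_lit 2100301866) (nat_lit 228) (nat_lit 5323412126) (nat_lit 76) (nat_lit 9873806458) (nat_lit 35) (nat_lit 5) (nat_lit 38) (nat_lit 5) (nat_lit 36) (nat_lit 5) (nat_lit 341) (nat_lit 239) (nat_lit 200)) (XT.nd (nat_lit 78) (nat_lit 0) (nat_lit 0) (XT.lf (nat_lit 0) (nat_lit 5533479171) (nat_lit 152) (nat_lit 1872873296) (nat_lit 228) (nat_lit 10280103598) (nat_lit 33) (nat_lit 5) (nat_lit 35) (nat_lit 5) (nat_lit 36) (nat_lit 5) (nat_lit 342) (nat_lit 239) (nat_lit 199)) (XT.lf (nat_lit 0) (nat_lit 12860538052) (nat_lit 228) (nat_lit 1447446138) (nat_lit 76) (nat_lit 3779320624) (nat_lit 33) (nat_lit 5) (nat_lit 36) (nat_lit 5) (nat_lit 34) (nat_lit 4) (nat_lit 343) (nat_lit 239) (nat_lit 198)))) (XT.nd (nat_lit 156) (nat_lit 152) (nat_lit 0) (XT.nd (nat_lit 78) (nat_lit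 228) (nat_lit 0) (XT.lf (nat_lit 0) (nat_lit 9571035272) (nat_lit 152) (nat_lit 8911767023) (nat_lit 228) (nat_lit 17311100) (nat_lit 31) (nat_lit 5) (nat_lit 33) (nat_lit 5) (nat_lit 34) (nat_lit 4) (nat_lit 344) (nat_lit 239) (nat_lit 197)) (XT.lf (nat_lit 0) (nat_lit 1884504375) (nat_lit 152) (nat_lit 3346465637) (nat_lit 228) (nat_lit 13694610267) (nat_lit 28) (nat_lit 5) (nat_lit 30) (nat_lit 5) (nat_lit 31) (nat_lit 5) (nat_lit 345) (nat_lit 239) (nat_lit 196))) (XT.nd (nat_lit 78) (nat_lit 152) (nat_lit 0) (XT.lf (nat_lit 0) (nat_lit 10644370571) (nat_lit 228) (nat_lit 6353195208) (nat_lit 76) (nat_lit 2366106631) (nat_lit 28) (nat_lit 5) (nat_lit 31) (nat_lit 5) (nat_lit 29) (nat_lit 4) (nat_lit 346) (nat_lit 239) (nat_lit 195)) (XT.lf (nat_lit 0) (nat_lit 4577143040) (nat_lit 152) (nat_lit 11628629916) (nat_lit 228) (nat_lit 3609443377) (nat_lit 26) (nat_lit 5) (nat_lit 28) (nat_lit 5)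 (nat_lit 29) (nat_lit 4) (nat_lit 347) (nat_lit 239) (nat_lit 194)))))) (XT.nd (nat_lit 468) (nat_lit 380) (nat_lit 0) (XT.nd (nat_lit 234) (nat_lit 304) (nat_lit 0) (XT.nd (nat_lit 78) (nat_lit 152) (nat_lit 0) (XT.lf (nat_lit 0) (nat_lit 1609605529) (nat_lit 228) (nat_lit 4482956925) (nat_lit 76) (nat_lit 14187997721) (nat_lit 25) (nat_lit 5) (nat_lit 28) (nat_lit 5) (nat_lit 26) (nat_lit 5) (nat_lit 348) (nat_lit 239) (nat_lit 193)) (XT.nd (nat_lit 78) (nat_lit 0) (nat_lit 0) (XT.lf (nat_lit 0) (nat_lit 6545014752) (nat_lit 152) (nat_lit 370109249) (nat_lit 228) (nat_lit 13844703865) (nat_lit 23) (nat_lit 5) (nat_lit 25) (nat_lit 5) (nat_lit 26) (nat_lit 5) (nat_lit 349) (nat_lit 239) (nat_lit 192)) (XT.lf (nat_lit 0) (nat_lit 12383256918) (nat_lit 228) (nat_lit 3434401651) (nat_lit 76) (nat_lit 5435764904) (nat_lit 23) (nat_lit 5) (nat_lit 26) (nat_lit 5) (nat_lit 24) (nat_lit 4) (nat_lit 350)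 (nat_lit 239) (nat_lit 191)))) (XT.nd (nat_lit 78) (nat_lit 228) (nat_lit 0) (XT.lf (nat_lit 0) (nat_lit 7659974198) (nat_lit 76) (nat_lit 10346507364) (nat_lit 152) (nat_lit 3755542743) (nat_lit 22) (nat_lit 5) (nat_lit 23) (nat_lit 5) (nat_lit 24) (nat_lit 4) (nat_lit 351) (nat_lit 239) (nat_lit 190)) (XT.nd (nat_lit 78) (nat_lit 152) (nat_lit 0) (XT.lf (nat_lit 0) (nat_lit 1455628384) (nat_lit 152) (nat_lit 3267713164) (nat_lit 76) (nat_lit 17563103727) (nat_lit 21) (nat_lit 5) (nat_lit 23) (nat_lit 5) (nat_lit 22) (nat_lit 5) (nat_lit 352) (nat_lit 239) (nat_lit 189)) (XT.lf (nat_lit 0) (nat_lit 6771907973) (nat_lit 228) (nat_lit 14967122241) (nat_lit 76) (nat_lit 1087093172) (nat_lit 19) (nat_lit 5) (nat_lit 22) (nat_lit 5) (nat_lit 20) (nat_lit 4) (nat_lit 353) (nat_lit 239) (nat_lit 188))))) (XT.nd (nat_lit 234) (nat_lit 304) (nat_lit 0) (XT.nd (nat_lit 78) (nat_lit 76) (nat_lit 0) (XT.lf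 (nat_lit 0) (nat_lit 12243596843) (nat_lit 228) (nat_lit 4151653549) (nat_lit 76) (nat_lit 6986839460) (nat_lit 19) (nat_lit 5) (nat_lit 22) (nat_lit 5) (nat_lit 20) (nat_lit 4) (nat_lit 354) (nat_lit 239) (nat_lit 187)) (XT.nd (nat_lit 78) (nat_lit 0) (nat_lit 0) (XT.lf (nat_lit 0) (nat_lit 6980197883) (nat_lit 76) (nat_lit 10888290722) (nat_lit 152) (nat_lit 6086481613) (nat_lit 18) (nat_lit 5) (nat_lit 19) (nat_lit 5) (nat_lit 20) (nat_lit 4) (nat_lit 355) (nat_lit 239) (nat_lit 186)) (XT.lf (nat_lit 0) (nat_lit 18404821822) (nat_lit 76) (nat_lit 5230172881) (nat_lit 152) (nat_lit 910600430) (nat_lit 18) (nat_lit 5) (nat_lit 19) (nat_lit 5) (nat_lit 20) (nat_lit 4) (nat_lit 356) (nat_lit 239) (nat_lit 185)))) (XT.nd (nat_lit 156) (nat_lit 76) (nat_lit 0) (XT.nd (nat_lit 78) (nat_lit 0) (nat_lit 0) (XT.lf (nat_lit 0) (nat_lit 4344762115) (nat_lit 228) (nat_lit 20199139139) (nat_lit 76) (nat_lit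 609834629) (nat_lit 15) (nat_lit 5) (nat_lit 18) (nat_lit 5) (nat_lit 16) (nat_lit 4) (nat_lit 357) (nat_lit 239) (nat_lit 184)) (XT.lf (nat_lit 0) (nat_lit 9769015752) (nat_lit 228) (nat_lit 9448887995) (nat_lit 76) (nat_lit 6561639005) (nat_lit 15) (nat_lit 5) (nat_lit 18) (nat_lit 5) (nat_lit 16) (nat_lit 4) (nat_lit 358) (nat_lit 239) (nat_lit 183))) (XT.nd (nat_lit 78) (nat_lit 0) (nat_lit 0) (XT.lf (nat_lit 0) (nat_lit 1551853122) (nat_lit 76) (nat_lit 13762440220) (nat_lit 152) (nat_lit 11110678454) (nat_lit 14) (nat_lit 5) (nat_lit 15) (nat_lit 5) (nat_lit 16) (nat_lit 4) (nat_lit 359) (nat_lit 239) (nat_lit 182)) (XT.lf (nat_lit 0) (nat_lit 12921082553) (nat_lit 76) (nat_lit 8118014177) (nat_lit 152) (nat_lit 6050417122) (nat_lit 14) (nat_lit 5) (nat_lit 15) (nat_lit 5) (nat_lit 16) (nat_lit 4) (nat_lit 360) (nat_lit 239) (nat_lit 181))))))) (XT.nd (nat_lit 36582) (nat_lit 0) (nat_lit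 5548) (XT.nd (nat_lit 36036) (nat_lit 0) (nat_lit 10564) (XT.nd (nat_lit 234) (nat_lit 76) (nat_lit 0) (XT.nd (nat_lit 78) (nat_lit 228) (nat_lit 0) (XT.lf (nat_lit 0) (nat_lit 24543163825) (nat_lit 76) (nat_lit 2343100607) (nat_lit 152) (nat_lit 888728429) (nat_lit 14) (nat_lit 5) (nat_lit 15) (nat_lit 5) (nat_lit 16) (nat_lit 4) (nat_lit 361) (nat_lit 239) (nat_lit 180)) (XT.nd (nat_lit 78) (nat_lit 0) (nat_lit 0) (XT.lf (nat_lit 0) (nat_lit 4397253519) (nat_lit 228) (nat_lit 20481054959) (nat_lit 76) (nat_lit 3601614981) (nat_lit 11) (nat_lit 5) (nat_lit 14) (nat_lit 5) (nat_lit 12) (nat_lit 4) (nat_lit 362) (nat_lit 239) (nat_lit 179)) (XT.lf (nat_lit 0) (nat_lit 9819863373) (nat_lit 228) (nat_lit 9702223032) (nat_lit 76) (nat_lit 9684007728) (nat_lit 11) (nat_lit 5) (nat_lit 14) (nat_lit 5) (nat_lit 12) (nat_lit 4) (nat_lit 363) (nat_lit 239) (nat_lit 178)))) (XT.nd (nat_lit 35646) (nat_lit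 0) (nat_lit 14820) (XT.lf (nat_lit 0) (nat_lit 1334341850) (nat_lit 76) (nat_lit 14033200946) (nat_lit 152) (nat_lit 14587271057) (nat_lit 10) (nat_lit 5) (nat_lit 11) (nat_lit 5) (nat_lit 12) (nat_lit 4) (nat_lit 364) (nat_lit 239) (nat_lit 177)) (XT.nd (nat_lit 78) (nat_lit 684) (nat_lit 0) (XT.lf (nat_lit 0) (nat_lit 1836323818) (nat_lit 608) (nat_lit 512106307) (nat_lit 0) (nat_lit 1836323818) (nat_lit 214) (nat_lit 5) (nat_lit 222) (nat_lit 4) (nat_lit 214) (nat_lit 4) (nat_lit 300) (nat_lit 240) (nat_lit 240)) (XT.lf (nat_lit 0) (nat_lit 553340255) (nat_lit 684) (nat_lit 555327648) (nat_lit 76) (nat_lit 7366391314) (nat_lit 205) (nat_lit 5) (nat_lit 214) (nat_lit 5) (nat_lit 206) (nat_lit 4) (nat_lit 301) (nat_lit 240) (nat_lit 239))))) (XT.nd (nat_lit 234) (nat_lit 2052) (nat_lit 0) (XT.nd (nat_lit 78) (nat_lit 1672) (nat_lit 0) (XT.lf (nat_lit 0) (nat_lit 5840773310) (nat_lit 608) (nat_lit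 135615520) (nat_lit 0) (nat_lit 2608009006) (nat_lit 198) (nat_lit 5) (nat_lit 206) (nat_lit 4) (nat_lit 198) (nat_lit 4) (nat_lit 302) (nat_lit 240) (nat_lit 238)) (XT.nd (nat_lit 78) (nat_lit 532) (nat_lit 0) (XT.lf (nat_lit 0) (nat_lit 257101218) (nat_lit 532) (nat_lit 2235956658) (nat_lit 608) (nat_lit 6204985251) (nat_lit 183) (nat_lit 5) (nat_lit 190) (nat_lit 5) (nat_lit 191) (nat_lit 4) (nat_lit 303) (nat_lit 240) (nat_lit 237)) (XT.lf (nat_lit 0) (nat_lit 610517969) (nat_lit 532) (nat_lit 7181148668) (nat_lit 532) (nat_lit 1024330323) (nat_lit 176) (nat_lit 4) (nat_lit 183) (nat_lit 5) (nat_lit 183) (nat_lit 4) (nat_lit 304) (nat_lit 240) (nat_lit 236)))) (XT.nd (nat_lit 156) (nat_lit 988) (nat_lit 0) (XT.nd (nat_lit 78) (nat_lit 532) (nat_lit 0) (XT.lf (nat_lit 0) (nat_lit 903165881) (nat_lit 456) (nat_lit 3299193942) (nat_lit 532) (nat_lit 4735725301) (nat_lit 169) (nat_lit 5) (nat_lit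 175) (nat_lit 5) (nat_lit 176) (nat_lit 4) (nat_lit 305) (nat_lit 240) (nat_lit 235)) (XT.lf (nat_lit 0) (nat_lit 440349418) (nat_lit 532) (nat_lit 7907326088) (nat_lit 76) (nat_lit 717277526) (nat_lit 162) (nat_lit 5) (nat_lit 169) (nat_lit 5) (nat_lit 163) (nat_lit 4) (nat_lit 306) (nat_lit 240) (nat_lit 234))) (XT.nd (nat_lit 78) (nat_lit 532) (nat_lit 0) (XT.lf (nat_lit 0) (nat_lit 1328275617) (nat_lit 456) (nat_lit 4337796181) (nat_lit 532) (nat_lit 3529846413) (nat_lit 156) (nat_lit 5) (nat_lit 162) (nat_lit 5) (nat_lit 163) (nat_lit 4) (nat_lit 307) (nat_lit 240) (nat_lit 233)) (XT.lf (nat_lit 0) (nat_lit 1451634066) (nat_lit 456) (nat_lit 181460769) (nat_lit 532) (nat_lit 7698824051) (nat_lit 149) (nat_lit 5) (nat_lit 155) (nat_lit 5) (nat_lit 156) (nat_lit 5) (nat_lit 308) (nat_lit 240) (nat_lit 232)))))) (XT.nd (nat_lit 546) (nat_lit 2432) (nat_lit 0) (XT.nd (nat_lit 234) (nat_lit 1292)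 (nat_lit 0) (XT.nd (nat_lit 78) (nat_lit 912) (nat_lit 0) (XT.lf (nat_lit 0) (nat_lit 1481386620) (nat_lit 380) (nat_lit 5388477403) (nat_lit 456) (nat_lit 2602415450) (nat_lit 144) (nat_lit 5) (nat_lit 149) (nat_lit 5) (nat_lit 150) (nat_lit 4) (nat_lit 309) (nat_lit 240) (nat_lit 231)) (XT.nd (nat_lit 78) (nat_lit 380) (nat_lit 0) (XT.lf (nat_lit 0) (nat_lit 1442580671) (nat_lit 456) (nat_lit 1112237888) (nat_lit 532) (nat_lit 7062916055) (nat_lit 137) (nat_lit 5) (nat_lit 143) (nat_lit 5) (nat_lit 144) (nat_lit 5) (nat_lit 310) (nat_lit 240) (nat_lit 230)) (XT.lf (nat_lit 0) (nat_lit 1307082424) (nat_lit 380) (nat_lit 6489317630) (nat_lit 456) (nat_lit 1971587630) (nat_lit 132) (nat_lit 5) (nat_lit 137) (nat_lit 5) (nat_lit 138) (nat_lit 4) (nat_lit 311) (nat_lit 240) (nat_lit 229)))) (XT.nd (nat_lit 156) (nat_lit 456) (nat_lit 0) (XT.nd (nat_lit 78) (nat_lit 380) (nat_lit 0) (XT.lf (nat_lit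 0) (nat_lit 1077397341) (nat_lit 380) (nat_lit 2104305333) (nat_lit 456) (nat_lit 6741652203) (nat_lit 126) (nat_lit 5) (nat_lit 131) (nat_lit 5) (nat_lit 132) (nat_lit 5) (nat_lit 312) (nat_lit 240) (nat_lit 228)) (XT.lf (nat_lit 0) (nat_lit 744986993) (nat_lit 380) (nat_lit 7680123370) (nat_lit 456) (nat_lit 1658838113) (nat_lit 121) (nat_lit 5) (nat_lit 126) (nat_lit 5) (nat_lit 127) (nat_lit 4) (nat_lit 313) (nat_lit 240) (nat_lit 227))) (XT.nd (nat_lit 78) (nat_lit 0) (nat_lit 0) (XT.lf (nat_lit 0) (nat_lit 292933967) (nat_lit 380) (nat_lit 3198340274) (nat_lit 456) (nat_lit 6758455490) (nat_lit 115) (nat_lit 5) (nat_lit 120) (nat_lit 5) (nat_lit 121) (nat_lit 5) (nat_lit 314) (nat_lit 240) (nat_lit 226)) (XT.lf (nat_lit 0) (nat_lit 8733693491) (nat_lit 456) (nat_lit 267322633) (nat_lit 76) (nat_lit 1420108845) (nat_lit 115) (nat_lit 5) (nat_lit 121) (nat_lit 5) (nat_lit 116) (nat_lit 4) (nat_lit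 315) (nat_lit 240) (nat_lit 225))))) (XT.nd (nat_lit 234) (nat_lit 1292) (nat_lit 0) (XT.nd (nat_lit 78) (nat_lit 760) (nat_lit 0) (XT.lf (nat_lit 0) (nat_lit 3463774444) (nat_lit 380) (nat_lit 967044529) (nat_lit 76) (nat_lit 6166958957) (nat_lit 110) (nat_lit 5) (nat_lit 115) (nat_lit 5) (nat_lit 111) (nat_lit 5) (nat_lit 316) (nat_lit 240) (nat_lit 224)) (XT.nd (nat_lit 78) (nat_lit 380) (nat_lit 0) (XT.lf (nat_lit 0) (nat_lit 8700800953) (nat_lit 456) (nat_lit 1789003444) (nat_lit 76) (nat_lit 290680406) (nat_lit 105) (nat_lit 5) (nat_lit 111) (nat_lit 5) (nat_lit 106) (nat_lit 4) (nat_lit 317) (nat_lit 240) (nat_lit 223)) (XT.lf (nat_lit 0) (nat_lit 3068327374) (nat_lit 380) (nat_lit 2779903894) (nat_lit 76) (nat_lit 5120433018) (nat_lit 100) (nat_lit 5) (nat_lit 105) (nat_lit 5) (nat_lit 101) (nat_lit 5) (nat_lit 318) (nat_lit 240) (nat_lit 222)))) (XT.nd (nat_lit 156) (nat_lit 608) (nat_lit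 0) (XT.nd (nat_lit 78) (nat_lit 380) (nat_lit 0) (XT.lf (nat_lit 0) (nat_lit 7248249839) (nat_lit 304) (nat_lit 1048717750) (nat_lit 380) (nat_lit 2866214689) (nat_lit 96) (nat_lit 5) (nat_lit 100) (nat_lit 5) (nat_lit 101) (nat_lit 5) (nat_lit 319) (nat_lit 240) (nat_lit 221)) (XT.lf (nat_lit 0) (nat_lit 2269187817) (nat_lit 380) (nat_lit 5231618437) (nat_lit 76) (nat_lit 3862869220) (nat_lit 91) (nat_lit 5) (nat_lit 96) (nat_lit 5) (nat_lit 92) (nat_lit 5) (nat_lit 320) (nat_lit 240) (nat_lit 220))) (XT.nd (nat_lit 78) (nat_lit 304) (nat_lit 0) (XT.lf (nat_lit 0) (nat_lit 4842668647) (nat_lit 304) (nat_lit 2640376508) (nat_lit 380) (nat_lit 4087545336) (nat_lit 87) (nat_lit 5) (nat_lit 91) (nat_lit 5) (nat_lit 92) (nat_lit 5) (nat_lit 321) (nat_lit 240) (nat_lit 219)) (XT.lf (nat_lit 0) (nat_lit 1027871413) (nat_lit 304) (nat_lit 8412558960) (nat_lit 76) (nat_lit 2343747881) (nat_lit 83) (nat_lit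 5) (nat_lit 87) (nat_lit 5) (nat_lit 84) (nat_lit 5) (nat_lit 322) (nat_lit 240) (nat_lit 218))))))))
noncomputable def xc20 : XT := (XT.nd (nat_lit 2028) (nat_lit 1140) (nat_lit 0) (XT.nd (nat_lit 1014) (nat_lit 1596) (nat_lit 0) (XT.nd (nat_lit 468) (nat_lit 1292) (nat_lit 0) (XT.nd (nat_lit 234) (nat_lit 836) (nat_lit 0) (XT.nd (nat_lit 78) (nat_lit 304) (nat_lit 0) (XT.lf (nat_lit 0) (nat_lit 1682962155) (nat_lit 304) (nat_lit 4533807678) (nat_lit 380) (nat_lit 5787400997) (nat_lit 79) (nat_lit 5) (nat_lit 83) (nat_lit 5) (nat_lit 84) (nat_lit 5) (nat_lit 323) (nat_lit 240) (nat_lit 217)) (XT.nd (nat_lit 78) (nat_lit 304) (nat_lit 0) (XT.lf (nat_lit 0) (nat_lit 11524374353) (nat_lit 380) (nat_lit 192749900) (nat_lit 76) (nat_lit 514425346) (nat_lit 79) (nat_lit 5) (nat_lit 84) (nat_lit 5) (nat_lit 80) (nat_lit 4) (nat_lit 324) (nat_lit 240) (nat_lit 216)) (XT.lf (nat_lit 0) (nat_lit 4467686028)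 (nat_lit 304) (nat_lit 2303582895) (nat_lit 76) (nat_lit 5693906466) (nat_lit 75) (nat_lit 5) (nat_lit 79) (nat_lit 5) (nat_lit 76) (nat_lit 5) (nat_lit 325) (nat_lit 240) (nat_lit 215)))) (XT.nd (nat_lit 78) (nat_lit 532) (nat_lit 0) (XT.lf (nat_lit 0) (nat_lit 8074410749) (nat_lit 304) (nat_lit 1673830464) (nat_lit 380) (nat_lit 2958317752) (nat_lit 71) (nat_lit 5) (nat_lit 75) (nat_lit 5) (nat_lit 76) (nat_lit 5) (nat_lit 326) (nat_lit 240) (nat_lit 214)) (XT.nd (nat_lit 78) (nat_lit 228) (nat_lit 0) (XT.lf (nat_lit 0) (nat_lit 2186500651) (nat_lit 304) (nat_lit 7226783175) (nat_lit 76) (nat_lit 3541976999) (nat_lit 67) (nat_lit 5) (nat_lit 71) (nat_lit 5) (nat_lit 68) (nat_lit 5) (nat_lit 327) (nat_lit 240) (nat_lit 213)) (XT.lf (nat_lit 0) (nat_lit 3114105747) (nat_lit 228) (nat_lit 4303370463) (nat_lit 304) (nat_lit 5794156656) (nat_lit 64) (nat_lit 5) (nat_lit 67) (nat_lit 5) (nat_lit 68)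 (nat_lit 5) (nat_lit 328) (nat_lit 240) (nat_lit 212))))) (XT.nd (nat_lit 234) (nat_lit 760) (nat_lit 0) (XT.nd (nat_lit 78) (nat_lit 304) (nat_lit 0) (XT.lf (nat_lit 0) (nat_lit 238856850) (nat_lit 228) (nat_lit 12533715203) (nat_lit 304) (nat_lit 703819327) (nat_lit 61) (nat_lit 5) (nat_lit 64) (nat_lit 5) (nat_lit 65) (nat_lit 4) (nat_lit 329) (nat_lit 240) (nat_lit 211)) (XT.nd (nat_lit 78) (nat_lit 228) (nat_lit 0) (XT.lf (nat_lit 0) (nat_lit 4488520592) (nat_lit 304) (nat_lit 2928854747) (nat_lit 76) (nat_lit 6330988617) (nat_lit 60) (nat_lit 5) (nat_lit 64) (nat_lit 5) (nat_lit 61) (nat_lit 5) (nat_lit 330) (nat_lit 240) (nat_lit 210)) (XT.lf (nat_lit 0) (nat_lit 7642892212) (nat_lit 228) (nat_lit 2147610424) (nat_lit 304) (nat_lit 4238667510) (nat_lit 57) (nat_lit 5) (nat_lit 60) (nat_lit 5) (nat_lit 61) (nat_lit 5) (nat_lit 331) (nat_lit 240) (nat_lit 209)))) (XT.nd (nat_lit 156) (nat_lit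 228) (nat_lit 0) (XT.nd (nat_lit 78) (nat_lit 228) (nat_lit 0) (XT.lf (nat_lit 0) (nat_lit 903961785) (nat_lit 304) (nat_lit 10178690324) (nat_lit 76) (nat_lit 3236000532) (nat_lit 53) (nat_lit 5) (nat_lit 57) (nat_lit 5) (nat_lit 54) (nat_lit 5) (nat_lit 332) (nat_lit 240) (nat_lit 208)) (XT.lf (nat_lit 0) (nat_lit 274393646) (nat_lit 228) (nat_lit 5844921230) (nat_lit 304) (nat_lit 8497457164) (nat_lit 50) (nat_lit 5) (nat_lit 53) (nat_lit 5) (nat_lit 54) (nat_lit 5) (nat_lit 333) (nat_lit 240) (nat_lit 207))) (XT.nd (nat_lit 78) (nat_lit 228) (nat_lit 0) (XT.lf (nat_lit 0) (nat_lit 11043000849) (nat_lit 228) (nat_lit 434654256) (nat_lit 304) (nat_lit 3446481831) (nat_lit 50) (nat_lit 5) (nat_lit 53) (nat_lit 5) (nat_lit 54) (nat_lit 5) (nat_lit 334) (nat_lit 240) (nat_lit 206)) (XT.lf (nat_lit 0) (nat_lit 1730158369) (nat_lit 228) (nat_lit 8436905168) (nat_lit 76) (nat_lit 5073518774) (nat_lit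 47) (nat_lit 5) (nat_lit 50) (nat_lit 5) (nat_lit 48) (nat_lit 5) (nat_lit 335) (nat_lit 240) (nat_lit 205)))))) (XT.nd (nat_lit 468) (nat_lit 684) (nat_lit 0) (XT.nd (nat_lit 234) (nat_lit 456) (nat_lit 0) (XT.nd (nat_lit 78) (nat_lit 228) (nat_lit 0) (XT.lf (nat_lit 0) (nat_lit 2164846645) (nat_lit 228) (nat_lit 4814666220) (nat_lit 304) (nat_lit 8587297755) (nat_lit 44) (nat_lit 5) (nat_lit 47) (nat_lit 5) (nat_lit 48) (nat_lit 5) (nat_lit 336) (nat_lit 240) (nat_lit 204)) (XT.nd (nat_lit 78) (nat_lit 228) (nat_lit 0) (XT.lf (nat_lit 0) (nat_lit 12370082095) (nat_lit 304) (nat_lit 2839115265) (nat_lit 76) (nat_lit 693982845) (nat_lit 44) (nat_lit 5) (nat_lit 48) (nat_lit 5) (nat_lit 45) (nat_lit 4) (nat_lit 337) (nat_lit 240) (nat_lit 203)) (XT.lf (nat_lit 0) (nat_lit 1658784280) (nat_lit 228) (nat_lit 8276078939) (nat_lit 76) (nat_lit 6314428259) (nat_lit 41) (nat_lit 5) (nat_lit 44) (nat_lit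 5) (nat_lit 42) (nat_lit 5) (nat_lit 338) (nat_lit 240) (nat_lit 202)))) (XT.nd (nat_lit 78) (nat_lit 228) (nat_lit 0) (XT.lf (nat_lit 0) (nat_lit 2423673181) (nat_lit 228) (nat_lit 4494928699) (nat_lit 304) (nat_lit 9687540442) (nat_lit 38) (nat_lit 5) (nat_lit 41) (nat_lit 5) (nat_lit 42) (nat_lit 5) (nat_lit 339) (nat_lit 240) (nat_lit 201)) (XT.nd (nat_lit 78) (nat_lit 228) (nat_lit 0) (XT.lf (nat_lit 0) (nat_lit 12325703525) (nat_lit 304) (nat_lit 3549265297) (nat_lit 76) (nat_lit 1098966194) (nat_lit 38) (nat_lit 5) (nat_lit 42) (nat_lit 5) (nat_lit 39) (nat_lit 4) (nat_lit 340) (nat_lit 240) (nat_lit 200)) (XT.lf (nat_lit 0) (nat_lit 540914859) (nat_lit 228) (nat_lit 10010139865) (nat_lit 76) (nat_lit 6801545813) (nat_lit 35) (nat_lit 5) (nat_lit 38) (nat_lit 5) (nat_lit 36) (nat_lit 5) (nat_lit 341) (nat_lit 240) (nat_lit 199))))) (XT.nd (nat_lit 234) (nat_lit 380) (nat_lit 0) (XT.nd (nat_lit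 78) (nat_lit 152) (nat_lit 0) (XT.lf (nat_lit 0) (nat_lit 723519008) (nat_lit 152) (nat_lit 5057152812) (nat_lit 228) (nat_lit 11962202094) (nat_lit 33) (nat_lit 5) (nat_lit 35) (nat_lit 5) (nat_lit 36) (nat_lit 5) (nat_lit 342) (nat_lit 240) (nat_lit 198)) (XT.nd (nat_lit 78) (nat_lit 152) (nat_lit 0) (XT.lf (nat_lit 0) (nat_lit 11179595191) (nat_lit 228) (nat_lit 6352862199) (nat_lit 76) (nat_lit 612382060) (nat_lit 33) (nat_lit 5) (nat_lit 36) (nat_lit 5) (nat_lit 34) (nat_lit 4) (nat_lit 343) (nat_lit 240) (nat_lit 197)) (XT.lf (nat_lit 0) (nat_lit 4541685074) (nat_lit 152) (nat_lit 12193940133) (nat_lit 228) (nat_lit 1823358715) (nat_lit 31) (nat_lit 5) (nat_lit 33) (nat_lit 5) (nat_lit 34) (nat_lit 4) (nat_lit 344) (nat_lit 240) (nat_lit 196)))) (XT.nd (nat_lit 156) (nat_lit 152) (nat_lit 0) (XT.nd (nat_lit 78) (nat_lit 152) (nat_lit 0) (XT.lf (nat_lit 0) (nat_lit 3403171910) (nat_lit 228)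 (nat_lit 3274190560) (nat_lit 76) (nat_lit 12308242267) (nat_lit 30) (nat_lit 5) (nat_lit 33) (nat_lit 5) (nat_lit 31) (nat_lit 5) (nat_lit 345) (nat_lit 240) (nat_lit 195)) (XT.lf (nat_lit 0) (nat_lit 7767595782) (nat_lit 152) (nat_lit 979267660) (nat_lit 228) (nat_lit 10678237964) (nat_lit 28) (nat_lit 5) (nat_lit 30) (nat_lit 5) (nat_lit 31) (nat_lit 5) (nat_lit 346) (nat_lit 240) (nat_lit 194))) (XT.nd (nat_lit 78) (nat_lit 152) (nat_lit 0) (XT.lf (nat_lit 0) (nat_lit 14240386710) (nat_lit 228) (nat_lit 836236391) (nat_lit 76) (nat_lit 4801389863) (nat_lit 28) (nat_lit 5) (nat_lit 31) (nat_lit 5) (nat_lit 29) (nat_lit 4) (nat_lit 347) (nat_lit 240) (nat_lit 193)) (XT.lf (nat_lit 0) (nat_lit 10329413711) (nat_lit 152) (nat_lit 9580236049) (nat_lit 228) (nat_lit 434663244) (nat_lit 26) (nat_lit 5) (nat_lit 28) (nat_lit 5) (nat_lit 29) (nat_lit 4) (nat_lit 348) (nat_lit 240) (nat_lit 192)))))))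 (XT.nd (nat_lit 1014) (nat_lit 228) (nat_lit 0) (XT.nd (nat_lit 468) (nat_lit 380) (nat_lit 0) (XT.nd (nat_lit 234) (nat_lit 228) (nat_lit 0) (XT.nd (nat_lit 78) (nat_lit 76) (nat_lit 0) (XT.lf (nat_lit 0) (nat_lit 888380758) (nat_lit 152) (nat_lit 3920917268) (nat_lit 228) (nat_lit 16015693561) (nat_lit 23) (nat_lit 5) (nat_lit 25) (nat_lit 5) (nat_lit 26) (nat_lit 5) (nat_lit 349) (nat_lit 240) (nat_lit 191)) (XT.nd (nat_lit 78) (nat_lit 76) (nat_lit 0) (XT.lf (nat_lit 0) (nat_lit 10224248182) (nat_lit 228) (nat_lit 9186068717) (nat_lit 76) (nat_lit 1909342970) (nat_lit 23) (nat_lit 5) (nat_lit 26) (nat_lit 5) (nat_lit 24) (nat_lit 4) (nat_lit 350) (nat_lit 240) (nat_lit 190)) (XT.lf (nat_lit 0) (nat_lit 1779805571) (nat_lit 76) (nat_lit 14000238271) (nat_lit 152) (nat_lit 6049574197) (nat_lit 22) (nat_lit 5) (nat_lit 23) (nat_lit 5) (nat_lit 24) (nat_lit 4) (nat_lit 351) (nat_lit 240) (nat_lit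 189)))) (XT.nd (nat_lit 78) (nat_lit 228) (nat_lit 0) (XT.lf (nat_lit 0) (nat_lit 13097783040) (nat_lit 76) (nat_lit 8408661714) (nat_lit 152) (nat_lit 848368834) (nat_lit 22) (nat_lit 5) (nat_lit 23) (nat_lit 5) (nat_lit 24) (nat_lit 4) (nat_lit 352) (nat_lit 240) (nat_lit 188)) (XT.nd (nat_lit 78) (nat_lit 0) (nat_lit 0) (XT.lf (nat_lit 0) (nat_lit 1752850464) (nat_lit 152) (nat_lit 2651258938) (nat_lit 228) (nat_lit 18491999111) (nat_lit 19) (nat_lit 5) (nat_lit 21) (nat_lit 5) (nat_lit 22) (nat_lit 5) (nat_lit 353) (nat_lit 240) (nat_lit 187)) (XT.lf (nat_lit 0) (nat_lit 9830866389) (nat_lit 228) (nat_lit 10359653395) (nat_lit 76) (nat_lit 3262461690) (nat_lit 19) (nat_lit 5) (nat_lit 22) (nat_lit 5) (nat_lit 20) (nat_lit 4) (nat_lit 354) (nat_lit 240) (nat_lit 186))))) (XT.nd (nat_lit 234) (nat_lit 228) (nat_lit 0) (XT.nd (nat_lit 78) (nat_lit 76) (nat_lit 0) (XT.lf (nat_lit 0) (nat_lit 641415446)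 (nat_lit 76) (nat_lit 14746276298) (nat_lit 152) (nat_lit 8639539054) (nat_lit 18) (nat_lit 5) (nat_lit 19) (nat_lit 5) (nat_lit 20) (nat_lit 4) (nat_lit 355) (nat_lit 240) (nat_lit 185)) (XT.nd (nat_lit 78) (nat_lit 76) (nat_lit 0) (XT.lf (nat_lit 0) (nat_lit 12019164103) (nat_lit 76) (nat_lit 9108602376) (nat_lit 152) (nat_lit 3490625267) (nat_lit 18) (nat_lit 5) (nat_lit 19) (nat_lit 5) (nat_lit 20) (nat_lit 4) (nat_lit 356) (nat_lit 240) (nat_lit 184)) (XT.lf (nat_lit 0) (nat_lit 1736529043) (nat_lit 152) (nat_lit 1593908555) (nat_lit 76) (nat_lit 21897677888) (nat_lit 17) (nat_lit 5) (nat_lit 19) (nat_lit 5) (nat_lit 18) (nat_lit 5) (nat_lit 357) (nat_lit 240) (nat_lit 183)))) (XT.nd (nat_lit 156) (nat_lit 76) (nat_lit 0) (XT.nd (nat_lit 78) (nat_lit 0) (nat_lit 0) (XT.lf (nat_lit 0) (nat_lit 7103096532) (nat_lit 228) (nat_lit 16116974631) (nat_lit 76) (nat_lit 2635011760) (nat_lit 15) (nat_lit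 5) (nat_lit 18) (nat_lit 5) (nat_lit 16) (nat_lit 4) (nat_lit 358) (nat_lit 240) (nat_lit 182)) (XT.lf (nat_lit 0) (nat_lit 12613534335) (nat_lit 228) (nat_lit 5180763681) (nat_lit 76) (nat_lit 8706917392) (nat_lit 15) (nat_lit 5) (nat_lit 18) (nat_lit 5) (nat_lit 16) (nat_lit 4) (nat_lit 359) (nat_lit 240) (nat_lit 181))) (XT.nd (nat_lit 78) (nat_lit 0) (nat_lit 0) (XT.lf (nat_lit 0) (nat_lit 6076155514) (nat_lit 76) (nat_lit 12203773218) (nat_lit 152) (nat_lit 8887003362) (nat_lit 14) (nat_lit 5) (nat_lit 15) (nat_lit 5) (nat_lit 16) (nat_lit 4) (nat_lit 360) (nat_lit 240) (nat_lit 180)) (XT.lf (nat_lit 0) (nat_lit 17656042018) (nat_lit 76) (nat_lit 6447437895) (nat_lit 152) (nat_lit 3749409786) (nat_lit 14) (nat_lit 5) (nat_lit 15) (nat_lit 5) (nat_lit 16) (nat_lit 4) (nat_lit 361) (nat_lit 240) (nat_lit 179)))))) (XT.nd (nat_lit 35958) (nat_lit 0) (nat_lit 10488) (XT.nd (nat_lit 35646) (nat_lit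 0) (nat_lit 14744) (XT.nd (nat_lit 78) (nat_lit 0) (nat_lit 0) (XT.lf (nat_lit 0) (nat_lit 942450294) (nat_lit 152) (nat_lit 538887007) (nat_lit 228) (nat_lit 27078715491) (nat_lit 11) (nat_lit 5) (nat_lit 13) (nat_lit 5) (nat_lit 14) (nat_lit 5) (nat_lit 362) (nat_lit 240) (nat_lit 178)) (XT.nd (nat_lit 78) (nat_lit 0) (nat_lit 0) (XT.lf (nat_lit 0) (nat_lit 6877654176) (nat_lit 228) (nat_lit 16876223551) (nat_lit 76) (nat_lit 5532877387) (nat_lit 11) (nat_lit 5) (nat_lit 14) (nat_lit 5) (nat_lit 12) (nat_lit 4) (nat_lit 363) (nat_lit 240) (nat_lit 177)) (XT.lf (nat_lit 0) (nat_lit 12394539907) (nat_lit 228) (nat_lit 5896917823) (nat_lit 76) (nat_lit 11744638597) (nat_lit 11) (nat_lit 5) (nat_lit 14) (nat_lit 5) (nat_lit 12) (nat_lit 4) (nat_lit 364) (nat_lit 240) (nat_lit 176)))) (XT.nd (nat_lit 156) (nat_lit 1216) (nat_lit 0) (XT.nd (nat_lit 78) (nat_lit 684) (nat_lit 0) (XT.lf (nat_lit 0) (nat_lit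 1558225883) (nat_lit 684) (nat_lit 968265406) (nat_lit 0) (nat_lit 1558225883) (nat_lit 230) (nat_lit 5) (nat_lit 239) (nat_lit 4) (nat_lit 230) (nat_lit 4) (nat_lit 298) (nat_lit 241) (nat_lit 241)) (XT.lf (nat_lit 0) (nat_lit 125628541) (nat_lit 684) (nat_lit 1503962904) (nat_lit 76) (nat_lit 6638749773) (nat_lit 221) (nat_lit 5) (nat_lit 230) (nat_lit 5) (nat_lit 222) (nat_lit 4) (nat_lit 299) (nat_lit 241) (nat_lit 240))) (XT.nd (nat_lit 78) (nat_lit 684) (nat_lit 0) (XT.lf (nat_lit 0) (nat_lit 5328024440) (nat_lit 608) (nat_lit 1111217188) (nat_lit 0) (nat_lit 1931682263) (nat_lit 214) (nat_lit 5) (nat_lit 222) (nat_lit 4) (nat_lit 214) (nat_lit 4) (nat_lit 300) (nat_lit 241) (nat_lit 239)) (XT.lf (nat_lit 0) (nat_lit 2118068180) (nat_lit 684) (nat_lit 742189078) (nat_lit 76) (nat_lit 5617409398) (nat_lit 205) (nat_lit 5) (nat_lit 214) (nat_lit 5) (nat_lit 206) (nat_lit 4) (nat_lit 301) (nat_lit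 241) (nat_lit 238))))) (XT.nd (nat_lit 234) (nat_lit 1976) (nat_lit 0) (XT.nd (nat_lit 78) (nat_lit 1748) (nat_lit 0) (XT.lf (nat_lit 0) (nat_lit 7327197203) (nat_lit 608) (nat_lit 402584080) (nat_lit 0) (nat_lit 858843850) (nat_lit 198) (nat_lit 5) (nat_lit 206) (nat_lit 4) (nat_lit 198) (nat_lit 4) (nat_lit 302) (nat_lit 241) (nat_lit 237)) (XT.nd (nat_lit 78) (nat_lit 1140) (nat_lit 0) (XT.lf (nat_lit 0) (nat_lit 3887568025) (nat_lit 608) (nat_lit 116544960) (nat_lit 76) (nat_lit 4699381102) (nat_lit 190) (nat_lit 5) (nat_lit 198) (nat_lit 5) (nat_lit 191) (nat_lit 4) (nat_lit 303) (nat_lit 241) (nat_lit 236)) (XT.lf (nat_lit 0) (nat_lit 146850705) (nat_lit 532) (nat_lit 134545429) (nat_lit 608) (nat_lit 8541624132) (nat_lit 175) (nat_lit 5) (nat_lit 182) (nat_lit 5) (nat_lit 183) (nat_lit 5) (nat_lit 304) (nat_lit 241) (nat_lit 235)))) (XT.nd (nat_lit 156) (nat_lit 988) (nat_lit 0) (XT.nd (nat_lit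 78) (nat_lit 532) (nat_lit 0) (XT.lf (nat_lit 0) (nat_lit 334070103) (nat_lit 456) (nat_lit 5093251333) (nat_lit 532) (nat_lit 3519047895) (nat_lit 169) (nat_lit 5) (nat_lit 175) (nat_lit 5) (nat_lit 176) (nat_lit 4) (nat_lit 305) (nat_lit 241) (nat_lit 234)) (XT.lf (nat_lit 0) (nat_lit 483607075) (nat_lit 456) (nat_lit 1086405962) (nat_lit 532) (nat_lit 7504532376) (nat_lit 162) (nat_lit 5) (nat_lit 168) (nat_lit 5) (nat_lit 169) (nat_lit 5) (nat_lit 306) (nat_lit 241) (nat_lit 233))) (XT.nd (nat_lit 78) (nat_lit 532) (nat_lit 0) (XT.lf (nat_lit 0) (nat_lit 557216858) (nat_lit 456) (nat_lit 6165644500) (nat_lit 532) (nat_lit 2484150428) (nat_lit 156) (nat_lit 5) (nat_lit 162) (nat_lit 5) (nat_lit 163) (nat_lit 4) (nat_lit 307) (nat_lit 241) (nat_lit 232)) (XT.lf (nat_lit 0) (nat_lit 567235600) (nat_lit 456) (nat_lit 2032080269) (nat_lit 532) (nat_lit 6744917623) (nat_lit 149) (nat_lit 5) (nat_lit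 155) (nat_lit 5) (nat_lit 156) (nat_lit 5) (nat_lit 308) (nat_lit 241) (nat_lit 231))))))))
noncomputable def xc21 : XT := (XT.nd (nat_lit 2028) (nat_lit 2736) (nat_lit 0) (XT.nd (nat_lit 1014) (nat_lit 2812) (nat_lit 0) (XT.nd (nat_lit 468) (nat_lit 2508) (nat_lit 0) (XT.nd (nat_lit 234) (nat_lit 912) (nat_lit 0) (XT.nd (nat_lit 78) (nat_lit 912) (nat_lit 0) (XT.lf (nat_lit 0) (nat_lit 500261427) (nat_lit 380) (nat_lit 7258478368) (nat_lit 456) (nat_lit 1727441584) (nat_lit 144) (nat_lit 5) (nat_lit 149) (nat_lit 5) (nat_lit 150) (nat_lit 4) (nat_lit 309) (nat_lit 241) (nat_lit 230)) (XT.nd (nat_lit 78) (nat_lit 380) (nat_lit 0) (XT.lf (nat_lit 0) (nat_lit 344454396) (nat_lit 456) (nat_lit 3008535346) (nat_lit 532) (nat_lit 6279878156) (nat_lit 137) (nat_lit 5) (nat_lit 143) (nat_lit 5) (nat_lit 144) (nat_lit 5) (nat_lit 310) (nat_lit 241) (nat_lit 229)) (XT.lf (nat_lit 0) (nat_lit 107717673)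 (nat_lit 380) (nat_lit 8409561858) (nat_lit 456) (nat_lit 1267424603) (nat_lit 132) (nat_lit 5) (nat_lit 137) (nat_lit 5) (nat_lit 138) (nat_lit 4) (nat_lit 311) (nat_lit 241) (nat_lit 228)))) (XT.nd (nat_lit 78) (nat_lit 836) (nat_lit 0) (XT.lf (nat_lit 0) (nat_lit 3813173345) (nat_lit 456) (nat_lit 239517719) (nat_lit 76) (nat_lit 5888593500) (nat_lit 131) (nat_lit 5) (nat_lit 137) (nat_lit 5) (nat_lit 132) (nat_lit 5) (nat_lit 312) (nat_lit 241) (nat_lit 227)) (XT.nd (nat_lit 78) (nat_lit 456) (nat_lit 0) (XT.lf (nat_lit 0) (nat_lit 8982000344) (nat_lit 456) (nat_lit 671957596) (nat_lit 76) (nat_lit 449446335) (nat_lit 126) (nat_lit 5) (nat_lit 132) (nat_lit 5) (nat_lit 127) (nat_lit 4) (nat_lit 313) (nat_lit 241) (nat_lit 226)) (XT.lf (nat_lit 0) (nat_lit 3960501574) (nat_lit 456) (nat_lit 1240996532) (nat_lit 76) (nat_lit 5068873638) (nat_lit 120) (nat_lit 5) (nat_lit 126) (nat_lit 5) (nat_lit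 121) (nat_lit 5) (nat_lit 314) (nat_lit 241) (nat_lit 225))))) (XT.nd (nat_lit 234) (nat_lit 1368) (nat_lit 0) (XT.nd (nat_lit 78) (nat_lit 760) (nat_lit 0) (XT.lf (nat_lit 0) (nat_lit 8533017107) (nat_lit 380) (nat_lit 598667702) (nat_lit 456) (nat_lit 1311538774) (nat_lit 115) (nat_lit 5) (nat_lit 120) (nat_lit 5) (nat_lit 121) (nat_lit 5) (nat_lit 315) (nat_lit 241) (nat_lit 224)) (XT.nd (nat_lit 78) (nat_lit 380) (nat_lit 0) (XT.lf (nat_lit 0) (nat_lit 3766744732) (nat_lit 380) (nat_lit 2732813369) (nat_lit 76) (nat_lit 4121659828) (nat_lit 110) (nat_lit 5) (nat_lit 115) (nat_lit 5) (nat_lit 111) (nat_lit 5) (nat_lit 316) (nat_lit 241) (nat_lit 223)) (XT.lf (nat_lit 0) (nat_lit 7125243909) (nat_lit 380) (nat_lit 1812810158) (nat_lit 456) (nat_lit 1867214537) (nat_lit 105) (nat_lit 5) (nat_lit 110) (nat_lit 5) (nat_lit 111) (nat_lit 5) (nat_lit 317) (nat_lit 241) (nat_lit 222)))) (XT.nd (nat_lit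 156) (nat_lit 684) (nat_lit 0) (XT.nd (nat_lit 78) (nat_lit 304) (nat_lit 0) (XT.lf (nat_lit 0) (nat_lit 3202001933) (nat_lit 380) (nat_lit 4789887903) (nat_lit 76) (nat_lit 3003078868) (nat_lit 100) (nat_lit 5) (nat_lit 105) (nat_lit 5) (nat_lit 101) (nat_lit 5) (nat_lit 318) (nat_lit 241) (nat_lit 221)) (XT.lf (nat_lit 0) (nat_lit 5133567976) (nat_lit 304) (nat_lit 3233135617) (nat_lit 380) (nat_lit 2824089098) (nat_lit 96) (nat_lit 5) (nat_lit 100) (nat_lit 5) (nat_lit 101) (nat_lit 5) (nat_lit 319) (nat_lit 241) (nat_lit 220))) (XT.nd (nat_lit 78) (nat_lit 304) (nat_lit 0) (XT.lf (nat_lit 0) (nat_lit 2232120839) (nat_lit 380) (nat_lit 7494535828) (nat_lit 76) (nat_lit 1666222467) (nat_lit 91) (nat_lit 5) (nat_lit 96) (nat_lit 5) (nat_lit 92) (nat_lit 5) (nat_lit 320) (nat_lit 241) (nat_lit 219)) (XT.lf (nat_lit 0) (nat_lit 2472682634) (nat_lit 304) (nat_lit 4909102168) (nat_lit 380) (nat_lit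 4219318374) (nat_lit 87) (nat_lit 5) (nat_lit 91) (nat_lit 5) (nat_lit 92) (nat_lit 5) (nat_lit 321) (nat_lit 241) (nat_lit 218)))))) (XT.nd (nat_lit 468) (nat_lit 1292) (nat_lit 0) (XT.nd (nat_lit 234) (nat_lit 912) (nat_lit 0) (XT.nd (nat_lit 78) (nat_lit 304) (nat_lit 0) (XT.lf (nat_lit 0) (nat_lit 818312294) (nat_lit 304) (nat_lit 10937335454) (nat_lit 76) (nat_lit 60674535) (nat_lit 83) (nat_lit 5) (nat_lit 87) (nat_lit 5) (nat_lit 84) (nat_lit 5) (nat_lit 322) (nat_lit 241) (nat_lit 217)) (XT.nd (nat_lit 78) (nat_lit 304) (nat_lit 0) (XT.lf (nat_lit 0) (nat_lit 5948820805) (nat_lit 304) (nat_lit 938875145) (nat_lit 76) (nat_lit 5149809958) (nat_lit 83) (nat_lit 5) (nat_lit 87) (nat_lit 5) (nat_lit 84) (nat_lit 5) (nat_lit 323) (nat_lit 241) (nat_lit 216)) (XT.lf (nat_lit 0) (nat_lit 9334165449) (nat_lit 304) (nat_lit 1866139125) (nat_lit 380) (nat_lit 1065725090) (nat_lit 79) (nat_lit 5)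 (nat_lit 83) (nat_lit 5) (nat_lit 84) (nat_lit 5) (nat_lit 324) (nat_lit 241) (nat_lit 215)))) (XT.nd (nat_lit 78) (nat_lit 608) (nat_lit 0) (XT.lf (nat_lit 0) (nat_lit 4037406149) (nat_lit 304) (nat_lit 5173350196) (nat_lit 76) (nat_lit 3290495805) (nat_lit 75) (nat_lit 5) (nat_lit 79) (nat_lit 5) (nat_lit 76) (nat_lit 5) (nat_lit 325) (nat_lit 241) (nat_lit 214)) (XT.nd (nat_lit 78) (nat_lit 304) (nat_lit 0) (XT.lf (nat_lit 0) (nat_lit 5093731284) (nat_lit 304) (nat_lit 4160046009) (nat_lit 380) (nat_lit 3490162974) (nat_lit 71) (nat_lit 5) (nat_lit 75) (nat_lit 5) (nat_lit 76) (nat_lit 5) (nat_lit 326) (nat_lit 241) (nat_lit 213)) (XT.lf (nat_lit 0) (nat_lit 1580558589) (nat_lit 304) (nat_lit 10375951395) (nat_lit 76) (nat_lit 1037842501) (nat_lit 67) (nat_lit 5) (nat_lit 71) (nat_lit 5) (nat_lit 68) (nat_lit 5) (nat_lit 327) (nat_lit 241) (nat_lit 212))))) (XT.nd (nat_lit 234) (nat_lit 760)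 (nat_lit 0) (XT.nd (nat_lit 78) (nat_lit 532) (nat_lit 0) (XT.lf (nat_lit 0) (nat_lit 6747681553) (nat_lit 304) (nat_lit 146727196) (nat_lit 76) (nat_lit 6357612105) (nat_lit 67) (nat_lit 5) (nat_lit 71) (nat_lit 5) (nat_lit 68) (nat_lit 5) (nat_lit 328) (nat_lit 241) (nat_lit 211)) (XT.nd (nat_lit 78) (nat_lit 304) (nat_lit 0) (XT.lf (nat_lit 0) (nat_lit 10386005518) (nat_lit 228) (nat_lit 1665248897) (nat_lit 304) (nat_lit 1466574127) (nat_lit 64) (nat_lit 5) (nat_lit 67) (nat_lit 5) (nat_lit 68) (nat_lit 5) (nat_lit 329) (nat_lit 241) (nat_lit 210)) (XT.lf (nat_lit 0) (nat_lit 3661732693) (nat_lit 304) (nat_lit 6436918446) (nat_lit 76) (nat_lit 3692747575) (nat_lit 60) (nat_lit 5) (nat_lit 64) (nat_lit 5) (nat_lit 61) (nat_lit 5) (nat_lit 330) (nat_lit 241) (nat_lit 209)))) (XT.nd (nat_lit 156) (nat_lit 304) (nat_lit 0) (XT.nd (nat_lit 78) (nat_lit 228) (nat_lit 0) (XT.lf (nat_lit 0) (nat_lit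 4019525898) (nat_lit 228) (nat_lit 4879416635) (nat_lit 304) (nat_lit 5174575111) (nat_lit 57) (nat_lit 5) (nat_lit 60) (nat_lit 5) (nat_lit 61) (nat_lit 5) (nat_lit 331) (nat_lit 241) (nat_lit 208)) (XT.lf (nat_lit 0) (nat_lit 379312029) (nat_lit 228) (nat_lit 13881033080) (nat_lit 304) (nat_lit 104447589) (nat_lit 54) (nat_lit 5) (nat_lit 57) (nat_lit 5) (nat_lit 58) (nat_lit 4) (nat_lit 332) (nat_lit 241) (nat_lit 207))) (XT.nd (nat_lit 78) (nat_lit 228) (nat_lit 0) (XT.lf (nat_lit 0) (nat_lit 5070318729) (nat_lit 304) (nat_lit 3602112757) (nat_lit 76) (nat_lit 5991349289) (nat_lit 53) (nat_lit 5) (nat_lit 57) (nat_lit 5) (nat_lit 54) (nat_lit 5) (nat_lit 333) (nat_lit 241) (nat_lit 206)) (XT.lf (nat_lit 0) (nat_lit 7052912460) (nat_lit 228) (nat_lit 3312616814) (nat_lit 304) (nat_lit 4606894507) (nat_lit 50) (nat_lit 5) (nat_lit 53) (nat_lit 5) (nat_lit 54) (nat_lit 5) (nat_lit 334) (nat_lit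 241) (nat_lit 205))))))) (XT.nd (nat_lit 1014) (nat_lit 1064) (nat_lit 0) (XT.nd (nat_lit 468) (nat_lit 760) (nat_lit 0) (XT.nd (nat_lit 234) (nat_lit 456) (nat_lit 0) (XT.nd (nat_lit 78) (nat_lit 228) (nat_lit 0) (XT.lf (nat_lit 0) (nat_lit 500390055) (nat_lit 228) (nat_lit 12617174667) (nat_lit 76) (nat_lit 2173161380) (nat_lit 47) (nat_lit 5) (nat_lit 50) (nat_lit 5) (nat_lit 48) (nat_lit 5) (nat_lit 335) (nat_lit 241) (nat_lit 204)) (XT.nd (nat_lit 78) (nat_lit 228) (nat_lit 0) (XT.lf (nat_lit 0) (nat_lit 5697684261) (nat_lit 228) (nat_lit 2107702519) (nat_lit 76) (nat_lit 7812623177) (nat_lit 47) (nat_lit 5) (nat_lit 50) (nat_lit 5) (nat_lit 48) (nat_lit 5) (nat_lit 336) (nat_lit 241) (nat_lit 203)) (XT.lf (nat_lit 0) (nat_lit 8705311692) (nat_lit 228) (nat_lit 2327203851) (nat_lit 304) (nat_lit 4922992680) (nat_lit 44) (nat_lit 5) (nat_lit 47) (nat_lit 5) (nat_lit 48) (nat_lit 5) (nat_lit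 337) (nat_lit 241) (nat_lit 202)))) (XT.nd (nat_lit 78) (nat_lit 228) (nat_lit 0) (XT.lf (nat_lit 0) (nat_lit 205753768) (nat_lit 228) (nat_lit 12837284727) (nat_lit 76) (nat_lit 3260402028) (nat_lit 41) (nat_lit 5) (nat_lit 44) (nat_lit 5) (nat_lit 42) (nat_lit 5) (nat_lit 338) (nat_lit 241) (nat_lit 201)) (XT.nd (nat_lit 78) (nat_lit 228) (nat_lit 0) (XT.lf (nat_lit 0) (nat_lit 5413871730) (nat_lit 228) (nat_lit 2230408065) (nat_lit 76) (nat_lit 9017058429) (nat_lit 41) (nat_lit 5) (nat_lit 44) (nat_lit 5) (nat_lit 42) (nat_lit 5) (nat_lit 339) (nat_lit 241) (nat_lit 200)) (XT.lf (nat_lit 0) (nat_lit 8688224704) (nat_lit 228) (nat_lit 2075538638) (nat_lit 304) (nat_lit 6266524267) (nat_lit 38) (nat_lit 5) (nat_lit 41) (nat_lit 5) (nat_lit 42) (nat_lit 5) (nat_lit 340) (nat_lit 241) (nat_lit 199))))) (XT.nd (nat_lit 234) (nat_lit 380) (nat_lit 0) (XT.nd (nat_lit 78) (nat_lit 228) (nat_lit 0) (XT.lf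 (nat_lit 0) (nat_lit 2443582931) (nat_lit 152) (nat_lit 13815511637) (nat_lit 228) (nat_lit 1151536669) (nat_lit 36) (nat_lit 5) (nat_lit 38) (nat_lit 5) (nat_lit 39) (nat_lit 4) (nat_lit 341) (nat_lit 241) (nat_lit 198)) (XT.nd (nat_lit 78) (nat_lit 152) (nat_lit 0) (XT.lf (nat_lit 0) (nat_lit 4064582434) (nat_lit 228) (nat_lit 4293798996) (nat_lit 76) (nat_lit 9443459067) (nat_lit 35) (nat_lit 5) (nat_lit 38) (nat_lit 5) (nat_lit 36) (nat_lit 5) (nat_lit 342) (nat_lit 241) (nat_lit 197)) (XT.lf (nat_lit 0) (nat_lit 6664256725) (nat_lit 152) (nat_lit 2733547211) (nat_lit 228) (nat_lit 8807327341) (nat_lit 33) (nat_lit 5) (nat_lit 35) (nat_lit 5) (nat_lit 36) (nat_lit 5) (nat_lit 343) (nat_lit 241) (nat_lit 196)))) (XT.nd (nat_lit 156) (nat_lit 152) (nat_lit 0) (XT.nd (nat_lit 78) (nat_lit 228) (nat_lit 0) (XT.lf (nat_lit 0) (nat_lit 14873996039) (nat_lit 228) (nat_lit 744429055) (nat_lit 76) (nat_lit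 3002458294) (nat_lit 33) (nat_lit 5) (nat_lit 36) (nat_lit 5) (nat_lit 34) (nat_lit 4) (nat_lit 344) (nat_lit 241) (nat_lit 195)) (XT.lf (nat_lit 0) (nat_lit 1467706071) (nat_lit 228) (nat_lit 8675484265) (nat_lit 76) (nat_lit 8905317291) (nat_lit 30) (nat_lit 5) (nat_lit 33) (nat_lit 5) (nat_lit 31) (nat_lit 5) (nat_lit 345) (nat_lit 241) (nat_lit 194))) (XT.nd (nat_lit 78) (nat_lit 0) (nat_lit 0) (XT.lf (nat_lit 0) (nat_lit 2239616837) (nat_lit 152) (nat_lit 4504593697) (nat_lit 228) (nat_lit 12745147557) (nat_lit 28) (nat_lit 5) (nat_lit 30) (nat_lit 5) (nat_lit 31) (nat_lit 5) (nat_lit 346) (nat_lit 241) (nat_lit 193)) (XT.lf (nat_lit 0) (nat_lit 12183968142) (nat_lit 228) (nat_lit 6459366779) (nat_lit 76) (nat_lit 1300019804) (nat_lit 28) (nat_lit 5) (nat_lit 31) (nat_lit 5) (nat_lit 29) (nat_lit 4) (nat_lit 347) (nat_lit 241) (nat_lit 192)))))) (XT.nd (nat_lit 546) (nat_lit 380) (nat_lit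 0) (XT.nd (nat_lit 234) (nat_lit 304) (nat_lit 0) (XT.nd (nat_lit 78) (nat_lit 228) (nat_lit 0) (XT.lf (nat_lit 0) (nat_lit 4578643941) (nat_lit 152) (nat_lit 13207271860) (nat_lit 228) (nat_lit 2625094749) (nat_lit 26) (nat_lit 5) (nat_lit 28) (nat_lit 5) (nat_lit 29) (nat_lit 4) (nat_lit 348) (nat_lit 241) (nat_lit 191)) (XT.nd (nat_lit 78) (nat_lit 152) (nat_lit 0) (XT.lf (nat_lit 0) (nat_lit 2612184462) (nat_lit 228) (nat_lit 4978288886) (nat_lit 76) (nat_lit 13302217440) (nat_lit 25) (nat_lit 5) (nat_lit 28) (nat_lit 5) (nat_lit 26) (nat_lit 5) (nat_lit 349) (nat_lit 241) (nat_lit 190)) (XT.lf (nat_lit 0) (nat_lit 6162642526) (nat_lit 152) (nat_lit 1790069387) (nat_lit 228) (nat_lit 13436144370) (nat_lit 23) (nat_lit 5) (nat_lit 25) (nat_lit 5) (nat_lit 26) (nat_lit 5) (nat_lit 350) (nat_lit 241) (nat_lit 189)))) (XT.nd (nat_lit 156) (nat_lit 228) (nat_lit 0) (XT.nd (nat_lit 78) (nat_lit 76)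 (nat_lit 0) (XT.lf (nat_lit 0) (nat_lit 13456930520) (nat_lit 228) (nat_lit 4321945145) (nat_lit 76) (nat_lit 4120978832) (nat_lit 23) (nat_lit 5) (nat_lit 26) (nat_lit 5) (nat_lit 24) (nat_lit 4) (nat_lit 351) (nat_lit 241) (nat_lit 188)) (XT.lf (nat_lit 0) (nat_lit 6889519755) (nat_lit 76) (nat_lit 12237487292) (nat_lit 152) (nat_lit 3299177743) (nat_lit 22) (nat_lit 5) (nat_lit 23) (nat_lit 5) (nat_lit 24) (nat_lit 4) (nat_lit 352) (nat_lit 241) (nat_lit 187))) (XT.nd (nat_lit 78) (nat_lit 152) (nat_lit 0) (XT.lf (nat_lit 0) (nat_lit 1946797200) (nat_lit 152) (nat_lit 4581877683) (nat_lit 76) (nat_lit 16439903856) (nat_lit 21) (nat_lit 5) (nat_lit 23) (nat_lit 5) (nat_lit 22) (nat_lit 5) (nat_lit 353) (nat_lit 241) (nat_lit 186)) (XT.lf (nat_lit 0) (nat_lit 6672364055) (nat_lit 152) (nat_lit 622804649) (nat_lit 228) (nat_lit 16231858336) (nat_lit 19) (nat_lit 5) (nat_lit 21) (nat_lit 5) (nat_lit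 22) (nat_lit 5) (nat_lit 354) (nat_lit 241) (nat_lit 185))))) (XT.nd (nat_lit 234) (nat_lit 304) (nat_lit 0) (XT.nd (nat_lit 78) (nat_lit 76) (nat_lit 0) (XT.lf (nat_lit 0) (nat_lit 12817658888) (nat_lit 228) (nat_lit 5904223265) (nat_lit 76) (nat_lit 5380088321) (nat_lit 19) (nat_lit 5) (nat_lit 22) (nat_lit 5) (nat_lit 20) (nat_lit 4) (nat_lit 355) (nat_lit 241) (nat_lit 184)) (XT.nd (nat_lit 78) (nat_lit 0) (nat_lit 0) (XT.lf (nat_lit 0) (nat_lit 5349551389) (nat_lit 76) (nat_lit 13143677143) (nat_lit 152) (nat_lit 6201200182) (nat_lit 18) (nat_lit 5) (nat_lit 19) (nat_lit 5) (nat_lit 20) (nat_lit 4) (nat_lit 356) (nat_lit 241) (nat_lit 183)) (XT.lf (nat_lit 0) (nat_lit 16932062792) (nat_lit 76) (nat_lit 7396435744) (nat_lit 152) (nat_lit 976387671) (nat_lit 18) (nat_lit 5) (nat_lit 19) (nat_lit 5) (nat_lit 20) (nat_lit 4) (nat_lit 357) (nat_lit 241) (nat_lit 182)))) (XT.nd (nat_lit 156) (nat_lit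 76) (nat_lit 0) (XT.nd (nat_lit 78) (nat_lit 0) (nat_lit 0) (XT.lf (nat_lit 0) (nat_lit 2849408827) (nat_lit 152) (nat_lit 1467044756) (nat_lit 228) (nat_lit 21617264129) (nat_lit 15) (nat_lit 5) (nat_lit 17) (nat_lit 5) (nat_lit 18) (nat_lit 5) (nat_lit 358) (nat_lit 241) (nat_lit 181)) (XT.lf (nat_lit 0) (nat_lit 9793323516) (nat_lit 228) (nat_lit 12181463526) (nat_lit 76) (nat_lit 4605740964) (nat_lit 15) (nat_lit 5) (nat_lit 18) (nat_lit 5) (nat_lit 16) (nat_lit 4) (nat_lit 359) (nat_lit 241) (nat_lit 180))) (XT.nd (nat_lit 78) (nat_lit 76) (nat_lit 0) (XT.lf (nat_lit 0) (nat_lit 15396924916) (nat_lit 228) (nat_lit 1045875578) (nat_lit 76) (nat_lit 10804706322) (nat_lit 15) (nat_lit 5) (nat_lit 18) (nat_lit 5) (nat_lit 16) (nat_lit 4) (nat_lit 360) (nat_lit 241) (nat_lit 179)) (XT.lf (nat_lit 0) (nat_lit 10479145994) (nat_lit 76) (nat_lit 10711520680) (nat_lit 152) (nat_lit 6743400017) (nat_lit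 14) (nat_lit 5) (nat_lit 15) (nat_lit 5) (nat_lit 16) (nat_lit 4) (nat_lit 361) (nat_lit 241) (nat_lit 178))))))))
noncomputable def xc22 : XT := (XT.nd (nat_lit 37362) (nat_lit 0) (nat_lit 1444) (XT.nd (nat_lit 36348) (nat_lit 0) (nat_lit 6460) (XT.nd (nat_lit 35802) (nat_lit 0) (nat_lit 11932) (XT.nd (nat_lit 35568) (nat_lit 0) (nat_lit 15960) (XT.nd (nat_lit 78) (nat_lit 228) (nat_lit 0) (XT.lf (nat_lit 0) (nat_lit 22283495913) (nat_lit 76) (nat_lit 4836622454) (nat_lit 152) (nat_lit 1521879025) (nat_lit 14) (nat_lit 5) (nat_lit 15) (nat_lit 5) (nat_lit 16) (nat_lit 4) (nat_lit 362) (nat_lit 241) (nat_lit 177)) (XT.nd (nat_lit 35412) (nat_lit 0) (nat_lit 18012) (XT.lf (nat_lit 0) (nat_lit 3802254276) (nat_lit 228) (nat_lit 24346154897) (nat_lit 76) (nat_lit 1222336647) (nat_lit 11) (nat_lit 5) (nat_lit 14) (nat_lit 5) (nat_lit 12) (nat_lit 4) (nat_lit 363) (nat_lit 241) (nat_lit 176)) (XT.lf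 (nat_lit 0) (nat_lit 1306433275) (nat_lit 760) (nat_lit 1378250521) (nat_lit 0) (nat_lit 1306433275) (nat_lit 248) (nat_lit 5) (nat_lit 258) (nat_lit 4) (nat_lit 248) (nat_lit 4) (nat_lit 296) (nat_lit 242) (nat_lit 242)))) (XT.nd (nat_lit 78) (nat_lit 1368) (nat_lit 0) (XT.lf (nat_lit 0) (nat_lit 5699562480) (nat_lit 684) (nat_lit 2110917404) (nat_lit 684) (nat_lit 264243579) (nat_lit 239) (nat_lit 4) (nat_lit 248) (nat_lit 5) (nat_lit 248) (nat_lit 4) (nat_lit 297) (nat_lit 242) (nat_lit 241)) (XT.nd (nat_lit 78) (nat_lit 684) (nat_lit 0) (XT.lf (nat_lit 0) (nat_lit 4858756980) (nat_lit 684) (nat_lit 2021541804) (nat_lit 0) (nat_lit 1290559889) (nat_lit 230) (nat_lit 5) (nat_lit 239) (nat_lit 4) (nat_lit 230) (nat_lit 4) (nat_lit 298) (nat_lit 242) (nat_lit 240)) (XT.lf (nat_lit 0) (nat_lit 1775896971) (nat_lit 684) (nat_lit 1687421672) (nat_lit 76) (nat_lit 4807634644) (nat_lit 221) (nat_lit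 5) (nat_lit 230) (nat_lit 5) (nat_lit 222) (nat_lit 4) (nat_lit 299) (nat_lit 242) (nat_lit 239))))) (XT.nd (nat_lit 234) (nat_lit 2204) (nat_lit 0) (XT.nd (nat_lit 78) (nat_lit 1292) (nat_lit 0) (XT.lf (nat_lit 0) (nat_lit 6899259119) (nat_lit 608) (nat_lit 1372306928) (nat_lit 0) (nat_lit 103607087) (nat_lit 214) (nat_lit 5) (nat_lit 222) (nat_lit 4) (nat_lit 214) (nat_lit 4) (nat_lit 300) (nat_lit 242) (nat_lit 238)) (XT.nd (nat_lit 78) (nat_lit 608) (nat_lit 0) (XT.lf (nat_lit 0) (nat_lit 3597758983) (nat_lit 684) (nat_lit 1105212503) (nat_lit 76) (nat_lit 3780129580) (nat_lit 205) (nat_lit 5) (nat_lit 214) (nat_lit 5) (nat_lit 206) (nat_lit 4) (nat_lit 301) (nat_lit 242) (nat_lit 237)) (XT.lf (nat_lit 0) (nat_lit 137814947) (nat_lit 608) (nat_lit 855150537) (nat_lit 76) (nat_lit 7602562055) (nat_lit 197) (nat_lit 5) (nat_lit 205) (nat_lit 5) (nat_lit 198) (nat_lit 5) (nat_lit 302) (nat_lit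 242) (nat_lit 236)))) (XT.nd (nat_lit 156) (nat_lit 1064) (nat_lit 0) (XT.nd (nat_lit 78) (nat_lit 608) (nat_lit 0) (XT.lf (nat_lit 0) (nat_lit 5197900700) (nat_lit 608) (nat_lit 667193217) (nat_lit 76) (nat_lit 2846635800) (nat_lit 190) (nat_lit 5) (nat_lit 198) (nat_lit 5) (nat_lit 191) (nat_lit 4) (nat_lit 303) (nat_lit 242) (nat_lit 235)) (XT.lf (nat_lit 0) (nat_lit 1499737971) (nat_lit 608) (nat_lit 512681185) (nat_lit 76) (nat_lit 6820048521) (nat_lit 182) (nat_lit 5) (nat_lit 190) (nat_lit 5) (nat_lit 183) (nat_lit 5) (nat_lit 304) (nat_lit 242) (nat_lit 234))) (XT.nd (nat_lit 78) (nat_lit 532) (nat_lit 0) (XT.lf (nat_lit 0) (nat_lit 6566972585) (nat_lit 608) (nat_lit 416640394) (nat_lit 76) (nat_lit 1973823502) (nat_lit 175) (nat_lit 5) (nat_lit 183) (nat_lit 5) (nat_lit 176) (nat_lit 4) (nat_lit 305) (nat_lit 242) (nat_lit 233)) (XT.lf (nat_lit 0) (nat_lit 2617769672) (nat_lit 532) (nat_lit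 379599424) (nat_lit 76) (nat_lit 6089461145) (nat_lit 168) (nat_lit 5) (nat_lit 175) (nat_lit 5) (nat_lit 169) (nat_lit 5) (nat_lit 306) (nat_lit 242) (nat_lit 232)))))) (XT.nd (nat_lit 468) (nat_lit 2660) (nat_lit 0) (XT.nd (nat_lit 234) (nat_lit 1368) (nat_lit 0) (XT.nd (nat_lit 78) (nat_lit 988) (nat_lit 0) (XT.lf (nat_lit 0) (nat_lit 7693036146) (nat_lit 532) (nat_lit 400183026) (nat_lit 76) (nat_lit 1127671519) (nat_lit 162) (nat_lit 5) (nat_lit 169) (nat_lit 5) (nat_lit 163) (nat_lit 4) (nat_lit 307) (nat_lit 242) (nat_lit 231)) (XT.nd (nat_lit 78) (nat_lit 456) (nat_lit 0) (XT.lf (nat_lit 0) (nat_lit 3478466422) (nat_lit 532) (nat_lit 504460212) (nat_lit 76) (nat_lit 5376394049) (nat_lit 155) (nat_lit 5) (nat_lit 162) (nat_lit 5) (nat_lit 156) (nat_lit 5) (nat_lit 308) (nat_lit 242) (nat_lit 230)) (XT.lf (nat_lit 0) (nat_lit 8561392909) (nat_lit 532) (nat_lit 668290965) (nat_lit 76) (nat_lit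 273153864) (nat_lit 149) (nat_lit 5) (nat_lit 156) (nat_lit 5) (nat_lit 150) (nat_lit 4) (nat_lit 309) (nat_lit 242) (nat_lit 229)))) (XT.nd (nat_lit 78) (nat_lit 912) (nat_lit 0) (XT.lf (nat_lit 0) (nat_lit 4065513409) (nat_lit 456) (nat_lit 939913394) (nat_lit 76) (nat_lit 4645296013) (nat_lit 143) (nat_lit 5) (nat_lit 149) (nat_lit 5) (nat_lit 144) (nat_lit 5) (nat_lit 310) (nat_lit 242) (nat_lit 228)) (XT.nd (nat_lit 78) (nat_lit 456) (nat_lit 0) (XT.lf (nat_lit 0) (nat_lit 8524096964) (nat_lit 456) (nat_lit 634409319) (nat_lit 532) (nat_lit 645514951) (nat_lit 137) (nat_lit 5) (nat_lit 143) (nat_lit 5) (nat_lit 144) (nat_lit 5) (nat_lit 311) (nat_lit 242) (nat_lit 227)) (XT.lf (nat_lit 0) (nat_lit 4359513783) (nat_lit 456) (nat_lit 1743257294) (nat_lit 76) (nat_lit 3859132583) (nat_lit 131) (nat_lit 5) (nat_lit 137) (nat_lit 5) (nat_lit 132) (nat_lit 5) (nat_lit 312) (nat_lit 242) (nat_lit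 226))))) (XT.nd (nat_lit 234) (nat_lit 1444) (nat_lit 0) (XT.nd (nat_lit 78) (nat_lit 836) (nat_lit 0) (XT.lf (nat_lit 0) (nat_lit 7832293376) (nat_lit 380) (nat_lit 1629467369) (nat_lit 456) (nat_lit 663627720) (nat_lit 126) (nat_lit 5) (nat_lit 131) (nat_lit 5) (nat_lit 132) (nat_lit 5) (nat_lit 313) (nat_lit 242) (nat_lit 225)) (XT.nd (nat_lit 78) (nat_lit 380) (nat_lit 0) (XT.lf (nat_lit 0) (nat_lit 4337748347) (nat_lit 456) (nat_lit 2977041974) (nat_lit 76) (nat_lit 2979028561) (nat_lit 120) (nat_lit 5) (nat_lit 126) (nat_lit 5) (nat_lit 121) (nat_lit 5) (nat_lit 314) (nat_lit 242) (nat_lit 224)) (XT.lf (nat_lit 0) (nat_lit 6696335275) (nat_lit 380) (nat_lit 2749011127) (nat_lit 456) (nat_lit 1022626974) (nat_lit 115) (nat_lit 5) (nat_lit 120) (nat_lit 5) (nat_lit 121) (nat_lit 5) (nat_lit 315) (nat_lit 242) (nat_lit 223)))) (XT.nd (nat_lit 156) (nat_lit 684) (nat_lit 0) (XT.nd (nat_lit 78)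 (nat_lit 380) (nat_lit 0) (XT.lf (nat_lit 0) (nat_lit 3973903300) (nat_lit 380) (nat_lit 4709728014) (nat_lit 76) (nat_lit 1963887634) (nat_lit 110) (nat_lit 5) (nat_lit 115) (nat_lit 5) (nat_lit 111) (nat_lit 5) (nat_lit 316) (nat_lit 242) (nat_lit 222)) (XT.lf (nat_lit 0) (nat_lit 5045403624) (nat_lit 380) (nat_lit 4036135129) (nat_lit 456) (nat_lit 1751332950) (nat_lit 105) (nat_lit 5) (nat_lit 110) (nat_lit 5) (nat_lit 111) (nat_lit 5) (nat_lit 317) (nat_lit 242) (nat_lit 221))) (XT.nd (nat_lit 78) (nat_lit 304) (nat_lit 0) (XT.lf (nat_lit 0) (nat_lit 3237763196) (nat_lit 380) (nat_lit 7016407177) (nat_lit 76) (nat_lit 769985618) (nat_lit 100) (nat_lit 5) (nat_lit 105) (nat_lit 5) (nat_lit 101) (nat_lit 5) (nat_lit 318) (nat_lit 242) (nat_lit 220)) (XT.lf (nat_lit 0) (nat_lit 2801744650) (nat_lit 304) (nat_lit 5536834212) (nat_lit 380) (nat_lit 2882705268) (nat_lit 96) (nat_lit 5) (nat_lit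 100) (nat_lit 5) (nat_lit 101) (nat_lit 5) (nat_lit 319) (nat_lit 242) (nat_lit 219))))))) (XT.nd (nat_lit 1014) (nat_lit 2052) (nat_lit 0) (XT.nd (nat_lit 468) (nat_lit 1368) (nat_lit 0) (XT.nd (nat_lit 234) (nat_lit 836) (nat_lit 0) (XT.nd (nat_lit 78) (nat_lit 380) (nat_lit 0) (XT.lf (nat_lit 0) (nat_lit 1441041258) (nat_lit 304) (nat_lit 658097516) (nat_lit 380) (nat_lit 9325767262) (nat_lit 91) (nat_lit 5) (nat_lit 95) (nat_lit 5) (nat_lit 96) (nat_lit 5) (nat_lit 320) (nat_lit 242) (nat_lit 218)) (XT.nd (nat_lit 78) (nat_lit 380) (nat_lit 0) (XT.lf (nat_lit 0) (nat_lit 7181091313) (nat_lit 380) (nat_lit 118575837) (nat_lit 76) (nat_lit 4334841583) (nat_lit 91) (nat_lit 5) (nat_lit 96) (nat_lit 5) (nat_lit 92) (nat_lit 5) (nat_lit 321) (nat_lit 242) (nat_lit 217)) (XT.lf (nat_lit 0) (nat_lit 533582848) (nat_lit 380) (nat_lit 1830090833) (nat_lit 76) (nat_lit 9487181821) (nat_lit 86) (nat_lit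 5) (nat_lit 91) (nat_lit 5) (nat_lit 87) (nat_lit 5) (nat_lit 322) (nat_lit 242) (nat_lit 216)))) (XT.nd (nat_lit 78) (nat_lit 608) (nat_lit 0) (XT.lf (nat_lit 0) (nat_lit 5590544429) (nat_lit 304) (nat_lit 3764425826) (nat_lit 76) (nat_lit 2718562384) (nat_lit 83) (nat_lit 5) (nat_lit 87) (nat_lit 5) (nat_lit 84) (nat_lit 5) (nat_lit 323) (nat_lit 242) (nat_lit 215)) (XT.nd (nat_lit 78) (nat_lit 304) (nat_lit 0) (XT.lf (nat_lit 0) (nat_lit 6399441525) (nat_lit 304) (nat_lit 4378794066) (nat_lit 380) (nat_lit 1525118571) (nat_lit 79) (nat_lit 5) (nat_lit 83) (nat_lit 5) (nat_lit 84) (nat_lit 5) (nat_lit 324) (nat_lit 242) (nat_lit 214)) (XT.lf (nat_lit 0) (nat_lit 3503209941) (nat_lit 304) (nat_lit 8275005152) (nat_lit 76) (nat_lit 762058623) (nat_lit 75) (nat_lit 5) (nat_lit 79) (nat_lit 5) (nat_lit 76) (nat_lit 5) (nat_lit 325) (nat_lit 242) (nat_lit 213))))) (XT.nd (nat_lit 234) (nat_lit 760)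 (nat_lit 0) (XT.nd (nat_lit 78) (nat_lit 304) (nat_lit 0) (XT.lf (nat_lit 0) (nat_lit 1880202142) (nat_lit 304) (nat_lit 6774988857) (nat_lit 380) (nat_lit 4129078887) (nat_lit 71) (nat_lit 5) (nat_lit 75) (nat_lit 5) (nat_lit 76) (nat_lit 5) (nat_lit 326) (nat_lit 242) (nat_lit 212)) (XT.nd (nat_lit 78) (nat_lit 228) (nat_lit 0) (XT.lf (nat_lit 0) (nat_lit 883143080) (nat_lit 380) (nat_lit 727964791) (nat_lit 76) (nat_lit 11425014058) (nat_lit 70) (nat_lit 5) (nat_lit 75) (nat_lit 5) (nat_lit 71) (nat_lit 5) (nat_lit 327) (nat_lit 242) (nat_lit 211)) (XT.lf (nat_lit 0) (nat_lit 5992621834) (nat_lit 304) (nat_lit 3602900350) (nat_lit 76) (nat_lit 3699439714) (nat_lit 67) (nat_lit 5) (nat_lit 71) (nat_lit 5) (nat_lit 68) (nat_lit 5) (nat_lit 328) (nat_lit 242) (nat_lit 210)))) (XT.nd (nat_lit 156) (nat_lit 228) (nat_lit 0) (XT.nd (nat_lit 78) (nat_lit 304) (nat_lit 0) (XT.lf (nat_lit 0) (nat_lit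 6816257318) (nat_lit 228) (nat_lit 4415631206) (nat_lit 304) (nat_lit 2330185355) (nat_lit 64) (nat_lit 5) (nat_lit 67) (nat_lit 5) (nat_lit 68) (nat_lit 5) (nat_lit 329) (nat_lit 242) (nat_lit 209)) (XT.lf (nat_lit 0) (nat_lit 2726409935) (nat_lit 304) (nat_lit 10187820531) (nat_lit 76) (nat_lit 923203782) (nat_lit 60) (nat_lit 5) (nat_lit 64) (nat_lit 5) (nat_lit 61) (nat_lit 5) (nat_lit 330) (nat_lit 242) (nat_lit 208))) (XT.nd (nat_lit 78) (nat_lit 0) (nat_lit 0) (XT.lf (nat_lit 0) (nat_lit 152094458) (nat_lit 228) (nat_lit 7746369845) (nat_lit 304) (nat_lit 6222408775) (nat_lit 57) (nat_lit 5) (nat_lit 60) (nat_lit 5) (nat_lit 61) (nat_lit 5) (nat_lit 331) (nat_lit 242) (nat_lit 207)) (XT.lf (nat_lit 0) (nat_lit 10810237902) (nat_lit 228) (nat_lit 2404700306) (nat_lit 304) (nat_lit 1198124800) (nat_lit 57) (nat_lit 5) (nat_lit 60) (nat_lit 5) (nat_lit 61) (nat_lit 5) (nat_lit 332) (nat_lit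 242) (nat_lit 206)))))) (XT.nd (nat_lit 546) (nat_lit 836) (nat_lit 0) (XT.nd (nat_lit 234) (nat_lit 684) (nat_lit 0) (XT.nd (nat_lit 78) (nat_lit 228) (nat_lit 0) (XT.lf (nat_lit 0) (nat_lit 3912507685) (nat_lit 304) (nat_lit 7722853129) (nat_lit 76) (nat_lit 3078417358) (nat_lit 53) (nat_lit 5) (nat_lit 57) (nat_lit 5) (nat_lit 54) (nat_lit 5) (nat_lit 333) (nat_lit 242) (nat_lit 205)) (XT.nd (nat_lit 78) (nat_lit 0) (nat_lit 0) (XT.lf (nat_lit 0) (nat_lit 2813611751) (nat_lit 228) (nat_lit 6328713264) (nat_lit 304) (nat_lit 5881419091) (nat_lit 50) (nat_lit 5) (nat_lit 53) (nat_lit 5) (nat_lit 54) (nat_lit 5) (nat_lit 334) (nat_lit 242) (nat_lit 204)) (XT.lf (nat_lit 0) (nat_lit 13646144668) (nat_lit 228) (nat_lit 859773570) (nat_lit 304) (nat_lit 837582846) (nat_lit 50) (nat_lit 5) (nat_lit 53) (nat_lit 5) (nat_lit 54) (nat_lit 5) (nat_lit 335) (nat_lit 242) (nat_lit 203)))) (XT.nd (nat_lit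 156) (nat_lit 228) (nat_lit 0) (XT.nd (nat_lit 78) (nat_lit 228) (nat_lit 0) (XT.lf (nat_lit 0) (nat_lit 4316975680) (nat_lit 228) (nat_lit 6605097864) (nat_lit 76) (nat_lit 4749908494) (nat_lit 47) (nat_lit 5) (nat_lit 50) (nat_lit 5) (nat_lit 48) (nat_lit 5) (nat_lit 336) (nat_lit 242) (nat_lit 202)) (XT.lf (nat_lit 0) (nat_lit 4087128120) (nat_lit 228) (nat_lit 5498871485) (nat_lit 304) (nat_lit 6424810362) (nat_lit 44) (nat_lit 5) (nat_lit 47) (nat_lit 5) (nat_lit 48) (nat_lit 5) (nat_lit 337) (nat_lit 242) (nat_lit 201))) (XT.nd (nat_lit 78) (nat_lit 228) (nat_lit 0) (XT.lf (nat_lit 0) (nat_lit 14987013034) (nat_lit 304) (nat_lit 1290636595) (nat_lit 76) (nat_lit 82701369) (nat_lit 44) (nat_lit 5) (nat_lit 48) (nat_lit 5) (nat_lit 45) (nat_lit 4) (nat_lit 338) (nat_lit 242) (nat_lit 200)) (XT.lf (nat_lit 0) (nat_lit 3809328247) (nat_lit 228) (nat_lit 7111769053) (nat_lit 76) (nat_lit 5798211489)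 (nat_lit 41) (nat_lit 5) (nat_lit 44) (nat_lit 5) (nat_lit 42) (nat_lit 5) (nat_lit 339) (nat_lit 242) (nat_lit 199))))) (XT.nd (nat_lit 234) (nat_lit 380) (nat_lit 0) (XT.nd (nat_lit 78) (nat_lit 228) (nat_lit 0) (XT.lf (nat_lit 0) (nat_lit 3683645949) (nat_lit 228) (nat_lit 5409181776) (nat_lit 304) (nat_lit 7996770419) (nat_lit 38) (nat_lit 5) (nat_lit 41) (nat_lit 5) (nat_lit 42) (nat_lit 5) (nat_lit 340) (nat_lit 242) (nat_lit 198)) (XT.nd (nat_lit 78) (nat_lit 228) (nat_lit 0) (XT.lf (nat_lit 0) (nat_lit 14517218115) (nat_lit 304) (nat_lit 2687883428) (nat_lit 76) (nat_lit 266270819) (nat_lit 38) (nat_lit 5) (nat_lit 42) (nat_lit 5) (nat_lit 39) (nat_lit 4) (nat_lit 341) (nat_lit 242) (nat_lit 197)) (XT.lf (nat_lit 0) (nat_lit 2234754597) (nat_lit 228) (nat_lit 9566955944) (nat_lit 76) (nat_lit 6062133401) (nat_lit 35) (nat_lit 5) (nat_lit 38) (nat_lit 5) (nat_lit 36) (nat_lit 5) (nat_lit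 342) (nat_lit 242) (nat_lit 196)))) (XT.nd (nat_lit 156) (nat_lit 228) (nat_lit 0) (XT.nd (nat_lit 78) (nat_lit 0) (nat_lit 0) (XT.lf (nat_lit 0) (nat_lit 1265245987) (nat_lit 152) (nat_lit 6235587454) (nat_lit 228) (nat_lit 10767655015) (nat_lit 33) (nat_lit 5) (nat_lit 35) (nat_lit 5) (nat_lit 36) (nat_lit 5) (nat_lit 343) (nat_lit 242) (nat_lit 195)) (XT.lf (nat_lit 0) (nat_lit 12443439914) (nat_lit 152) (nat_lit 482326947) (nat_lit 228) (nat_lit 5759509442) (nat_lit 33) (nat_lit 5) (nat_lit 35) (nat_lit 5) (nat_lit 36) (nat_lit 5) (nat_lit 344) (nat_lit 242) (nat_lit 194))) (XT.nd (nat_lit 78) (nat_lit 76) (nat_lit 0) (XT.lf (nat_lit 0) (nat_lit 4761821819) (nat_lit 152) (nat_lit 13755502912) (nat_lit 228) (nat_lit 597186346) (nat_lit 31) (nat_lit 5) (nat_lit 33) (nat_lit 5) (nat_lit 34) (nat_lit 4) (nat_lit 345) (nat_lit 242) (nat_lit 193)) (XT.lf (nat_lit 0) (nat_lit 4642225010) (nat_lit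 228) (nat_lit 3515690407) (nat_lit 76) (nat_lit 11398431938) (nat_lit 30) (nat_lit 5) (nat_lit 33) (nat_lit 5) (nat_lit 31) (nat_lit 5) (nat_lit 346) (nat_lit 242) (nat_lit 192))))))))
noncomputable def xc23 : XT := (XT.nd (nat_lit 37284) (nat_lit 0) (nat_lit 3800) (XT.nd (nat_lit 1014) (nat_lit 152) (nat_lit 0) (XT.nd (nat_lit 468) (nat_lit 532) (nat_lit 0) (XT.nd (nat_lit 234) (nat_lit 228) (nat_lit 0) (XT.nd (nat_lit 78) (nat_lit 228) (nat_lit 0) (XT.lf (nat_lit 0) (nat_lit 7638929720) (nat_lit 152) (nat_lit 2381535320) (nat_lit 228) (nat_lit 9991118778) (nat_lit 28) (nat_lit 5) (nat_lit 30) (nat_lit 5) (nat_lit 31) (nat_lit 5) (nat_lit 347) (nat_lit 242) (nat_lit 191)) (XT.nd (nat_lit 78) (nat_lit 228) (nat_lit 0) (XT.lf (nat_lit 0) (nat_lit 15548118155) (nat_lit 228) (nat_lit 1429926728) (nat_lit 76) (nat_lit 3502689854) (nat_lit 28) (nat_lit 5) (nat_lit 31) (nat_lit 5) (nat_lit 29) (nat_lit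 4) (nat_lit 348) (nat_lit 242) (nat_lit 190)) (XT.lf (nat_lit 0) (nat_lit 296677833) (nat_lit 228) (nat_lit 11110995445) (nat_lit 76) (nat_lit 9555815060) (nat_lit 25) (nat_lit 5) (nat_lit 28) (nat_lit 5) (nat_lit 26) (nat_lit 5) (nat_lit 349) (nat_lit 242) (nat_lit 189)))) (XT.nd (nat_lit 78) (nat_lit 228) (nat_lit 0) (XT.lf (nat_lit 0) (nat_lit 5569252888) (nat_lit 228) (nat_lit 99689018) (nat_lit 76) (nat_lit 15792079478) (nat_lit 25) (nat_lit 5) (nat_lit 28) (nat_lit 5) (nat_lit 26) (nat_lit 5) (nat_lit 350) (nat_lit 242) (nat_lit 188)) (XT.nd (nat_lit 78) (nat_lit 76) (nat_lit 0) (XT.lf (nat_lit 0) (nat_lit 11020055189) (nat_lit 228) (nat_lit 10681023714) (nat_lit 76) (nat_lit 272017277) (nat_lit 23) (nat_lit 5) (nat_lit 26) (nat_lit 5) (nat_lit 24) (nat_lit 4) (nat_lit 351) (nat_lit 242) (nat_lit 187)) (XT.lf (nat_lit 0) (nat_lit 398285591) (nat_lit 76) (nat_lit 16222931891) (nat_lit 152)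 (nat_lit 5879595289) (nat_lit 22) (nat_lit 5) (nat_lit 23) (nat_lit 5) (nat_lit 24) (nat_lit 4) (nat_lit 352) (nat_lit 242) (nat_lit 186))))) (XT.nd (nat_lit 234) (nat_lit 304) (nat_lit 0) (XT.nd (nat_lit 78) (nat_lit 228) (nat_lit 0) (XT.lf (nat_lit 0) (nat_lit 11862271909) (nat_lit 76) (nat_lit 10547153029) (nat_lit 152) (nat_lit 634571512) (nat_lit 22) (nat_lit 5) (nat_lit 23) (nat_lit 5) (nat_lit 24) (nat_lit 4) (nat_lit 353) (nat_lit 242) (nat_lit 185)) (XT.nd (nat_lit 78) (nat_lit 152) (nat_lit 0) (XT.lf (nat_lit 0) (nat_lit 4653100819) (nat_lit 152) (nat_lit 56132615) (nat_lit 76) (nat_lit 18894681558) (nat_lit 21) (nat_lit 5) (nat_lit 23) (nat_lit 5) (nat_lit 22) (nat_lit 5) (nat_lit 354) (nat_lit 242) (nat_lit 184)) (XT.lf (nat_lit 0) (nat_lit 10123321422) (nat_lit 228) (nat_lit 12728740106) (nat_lit 76) (nat_lit 1327849480) (nat_lit 19) (nat_lit 5) (nat_lit 22) (nat_lit 5) (nat_lit 20)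 (nat_lit 4) (nat_lit 355) (nat_lit 242) (nat_lit 183)))) (XT.nd (nat_lit 156) (nat_lit 228) (nat_lit 0) (XT.nd (nat_lit 78) (nat_lit 76) (nat_lit 0) (XT.lf (nat_lit 0) (nat_lit 15739531012) (nat_lit 228) (nat_lit 1588730742) (nat_lit 76) (nat_lit 7445301678) (nat_lit 19) (nat_lit 5) (nat_lit 22) (nat_lit 5) (nat_lit 20) (nat_lit 4) (nat_lit 356) (nat_lit 242) (nat_lit 182)) (XT.lf (nat_lit 0) (nat_lit 9929769742) (nat_lit 76) (nat_lit 11610390658) (nat_lit 152) (nat_lit 3844560116) (nat_lit 18) (nat_lit 5) (nat_lit 19) (nat_lit 5) (nat_lit 20) (nat_lit 4) (nat_lit 357) (nat_lit 242) (nat_lit 181))) (XT.nd (nat_lit 78) (nat_lit 152) (nat_lit 0) (XT.lf (nat_lit 0) (nat_lit 1443751544) (nat_lit 152) (nat_lit 4293435736) (nat_lit 76) (nat_lit 20277586557) (nat_lit 17) (nat_lit 5) (nat_lit 19) (nat_lit 5) (nat_lit 18) (nat_lit 5) (nat_lit 358) (nat_lit 242) (nat_lit 180)) (XT.lf (nat_lit 0) (nat_lit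 6841120964) (nat_lit 228) (nat_lit 19476716360) (nat_lit 76) (nat_lit 345343081) (nat_lit 15) (nat_lit 5) (nat_lit 18) (nat_lit 5) (nat_lit 16) (nat_lit 4) (nat_lit 359) (nat_lit 242) (nat_lit 179)))))) (XT.nd (nat_lit 35724) (nat_lit 0) (nat_lit 13452) (XT.nd (nat_lit 234) (nat_lit 76) (nat_lit 0) (XT.nd (nat_lit 78) (nat_lit 76) (nat_lit 0) (XT.lf (nat_lit 0) (nat_lit 12422059679) (nat_lit 228) (nat_lit 8381556934) (nat_lit 76) (nat_lit 6527001939) (nat_lit 15) (nat_lit 5) (nat_lit 18) (nat_lit 5) (nat_lit 16) (nat_lit 4) (nat_lit 360) (nat_lit 242) (nat_lit 178)) (XT.nd (nat_lit 78) (nat_lit 0) (nat_lit 0) (XT.lf (nat_lit 0) (nat_lit 3006204678) (nat_lit 76) (nat_lit 15139074859) (nat_lit 152) (nat_lit 9873315230) (nat_lit 14) (nat_lit 5) (nat_lit 15) (nat_lit 5) (nat_lit 16) (nat_lit 4) (nat_lit 361) (nat_lit 242) (nat_lit 177)) (XT.lf (nat_lit 0) (nat_lit 14771940408) (nat_lit 76) (nat_lit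 9281178360) (nat_lit 152) (nat_lit 4673844683) (nat_lit 14) (nat_lit 5) (nat_lit 15) (nat_lit 5) (nat_lit 16) (nat_lit 4) (nat_lit 362) (nat_lit 242) (nat_lit 176)))) (XT.nd (nat_lit 35334) (nat_lit 0) (nat_lit 17860) (XT.nd (nat_lit 35256) (nat_lit 0) (nat_lit 19304) (XT.lf (nat_lit 0) (nat_lit 629781866) (nat_lit 152) (nat_lit 2647045191) (nat_lit 76) (nat_lit 26180536479) (nat_lit 13) (nat_lit 5) (nat_lit 15) (nat_lit 5) (nat_lit 14) (nat_lit 5) (nat_lit 363) (nat_lit 242) (nat_lit 175)) (XT.lf (nat_lit 0) (nat_lit 1086962579) (nat_lit 760) (nat_lit 1729786040) (nat_lit 0) (nat_lit 1086962579) (nat_lit 267) (nat_lit 5) (nat_lit 277) (nat_lit 4) (nat_lit 267) (nat_lit 4) (nat_lit 294) (nat_lit 243) (nat_lit 243))) (XT.nd (nat_lit 78) (nat_lit 760) (nat_lit 0) (XT.lf (nat_lit 0) (nat_lit 4751832748) (nat_lit 684) (nat_lit 2541002214) (nat_lit 684) (nat_lit 600886693) (nat_lit 258) (nat_lit 4)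 (nat_lit 267) (nat_lit 5) (nat_lit 267) (nat_lit 4) (nat_lit 295) (nat_lit 243) (nat_lit 242)) (XT.lf (nat_lit 0) (nat_lit 4446467100) (nat_lit 760) (nat_lit 2839481511) (nat_lit 0) (nat_lit 697719235) (nat_lit 248) (nat_lit 5) (nat_lit 258) (nat_lit 4) (nat_lit 248) (nat_lit 4) (nat_lit 296) (nat_lit 243) (nat_lit 241))))) (XT.nd (nat_lit 234) (nat_lit 2356) (nat_lit 0) (XT.nd (nat_lit 78) (nat_lit 1292) (nat_lit 0) (XT.lf (nat_lit 0) (nat_lit 1479295679) (nat_lit 760) (nat_lit 2553457801) (nat_lit 76) (nat_lit 4044622505) (nat_lit 238) (nat_lit 5) (nat_lit 248) (nat_lit 5) (nat_lit 239) (nat_lit 4) (nat_lit 297) (nat_lit 243) (nat_lit 240)) (XT.nd (nat_lit 78) (nat_lit 684) (nat_lit 0) (XT.lf (nat_lit 0) (nat_lit 5894319861) (nat_lit 608) (nat_lit 628760399) (nat_lit 684) (nat_lit 1651970985) (nat_lit 230) (nat_lit 5) (nat_lit 238) (nat_lit 5) (nat_lit 239) (nat_lit 4) (nat_lit 298) (nat_lit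 243) (nat_lit 239)) (XT.lf (nat_lit 0) (nat_lit 3343196235) (nat_lit 684) (nat_lit 2043087148) (nat_lit 76) (nat_lit 2890124574) (nat_lit 221) (nat_lit 5) (nat_lit 230) (nat_lit 5) (nat_lit 222) (nat_lit 4) (nat_lit 299) (nat_lit 243) (nat_lit 238)))) (XT.nd (nat_lit 156) (nat_lit 1140) (nat_lit 0) (XT.nd (nat_lit 78) (nat_lit 608) (nat_lit 0) (XT.lf (nat_lit 0) (nat_lit 17401370) (nat_lit 608) (nat_lit 1819753239) (nat_lit 76) (nat_lit 6544863857) (nat_lit 213) (nat_lit 5) (nat_lit 221) (nat_lit 5) (nat_lit 214) (nat_lit 5) (nat_lit 300) (nat_lit 243) (nat_lit 237)) (XT.lf (nat_lit 0) (nat_lit 4993705597) (nat_lit 684) (nat_lit 1644715128) (nat_lit 76) (nat_lit 1852946471) (nat_lit 205) (nat_lit 5) (nat_lit 214) (nat_lit 5) (nat_lit 206) (nat_lit 4) (nat_lit 301) (nat_lit 243) (nat_lit 236))) (XT.nd (nat_lit 78) (nat_lit 532) (nat_lit 0) (XT.lf (nat_lit 0) (nat_lit 1441460369) (nat_lit 608) (nat_lit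 1500270654) (nat_lit 76) (nat_lit 5663248855) (nat_lit 197) (nat_lit 5) (nat_lit 205) (nat_lit 5) (nat_lit 198) (nat_lit 5) (nat_lit 302) (nat_lit 243) (nat_lit 235)) (XT.lf (nat_lit 0) (nat_lit 6423531580) (nat_lit 608) (nat_lit 1398696629) (nat_lit 76) (nat_lit 900562386) (nat_lit 190) (nat_lit 5) (nat_lit 198) (nat_lit 5) (nat_lit 191) (nat_lit 4) (nat_lit 303) (nat_lit 243) (nat_lit 234))))))) (XT.nd (nat_lit 1014) (nat_lit 3572) (nat_lit 0) (XT.nd (nat_lit 468) (nat_lit 2964) (nat_lit 0) (XT.nd (nat_lit 234) (nat_lit 1444) (nat_lit 0) (XT.nd (nat_lit 78) (nat_lit 1064) (nat_lit 0) (XT.lf (nat_lit 0) (nat_lit 2633264524) (nat_lit 608) (nat_lit 1353404001) (nat_lit 76) (nat_lit 4858050524) (nat_lit 182) (nat_lit 5) (nat_lit 190) (nat_lit 5) (nat_lit 183) (nat_lit 5) (nat_lit 304) (nat_lit 243) (nat_lit 233)) (XT.nd (nat_lit 78) (nat_lit 532) (nat_lit 0) (XT.lf (nat_lit 0) (nat_lit 7622954037)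 (nat_lit 608) (nat_lit 1348318758) (nat_lit 76) (nat_lit 10547) (nat_lit 175) (nat_lit 5) (nat_lit 183) (nat_lit 5) (nat_lit 176) (nat_lit 4) (nat_lit 305) (nat_lit 243) (nat_lit 232)) (XT.lf (nat_lit 0) (nat_lit 3581691010) (nat_lit 532) (nat_lit 1424145793) (nat_lit 76) (nat_lit 4096038325) (nat_lit 168) (nat_lit 5) (nat_lit 175) (nat_lit 5) (nat_lit 169) (nat_lit 5) (nat_lit 306) (nat_lit 243) (nat_lit 231)))) (XT.nd (nat_lit 78) (nat_lit 988) (nat_lit 0) (XT.lf (nat_lit 0) (nat_lit 7691350213) (nat_lit 456) (nat_lit 894131550) (nat_lit 532) (nat_lit 651924533) (nat_lit 162) (nat_lit 5) (nat_lit 168) (nat_lit 5) (nat_lit 169) (nat_lit 5) (nat_lit 307) (nat_lit 243) (nat_lit 230)) (XT.nd (nat_lit 78) (nat_lit 456) (nat_lit 0) (XT.lf (nat_lit 0) (nat_lit 4272941537) (nat_lit 532) (nat_lit 1761103555) (nat_lit 76) (nat_lit 3343116012) (nat_lit 155) (nat_lit 5) (nat_lit 162) (nat_lit 5) (nat_lit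 156) (nat_lit 5) (nat_lit 308) (nat_lit 243) (nat_lit 229)) (XT.lf (nat_lit 0) (nat_lit 7485274744) (nat_lit 456) (nat_lit 1805098645) (nat_lit 532) (nat_lit 231652740) (nat_lit 149) (nat_lit 5) (nat_lit 155) (nat_lit 5) (nat_lit 156) (nat_lit 5) (nat_lit 309) (nat_lit 243) (nat_lit 228))))) (XT.nd (nat_lit 234) (nat_lit 1596) (nat_lit 0) (XT.nd (nat_lit 78) (nat_lit 912) (nat_lit 0) (XT.lf (nat_lit 0) (nat_lit 4690357194) (nat_lit 456) (nat_lit 2417007980) (nat_lit 76) (nat_lit 2564002893) (nat_lit 143) (nat_lit 5) (nat_lit 149) (nat_lit 5) (nat_lit 144) (nat_lit 5) (nat_lit 310) (nat_lit 243) (nat_lit 227)) (XT.nd (nat_lit 78) (nat_lit 456) (nat_lit 0) (XT.lf (nat_lit 0) (nat_lit 6950391419) (nat_lit 456) (nat_lit 2769482172) (nat_lit 532) (nat_lit 106097611) (nat_lit 137) (nat_lit 5) (nat_lit 143) (nat_lit 5) (nat_lit 144) (nat_lit 5) (nat_lit 311) (nat_lit 243) (nat_lit 226)) (XT.lf (nat_lit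 0) (nat_lit 4814206196) (nat_lit 456) (nat_lit 3449265589) (nat_lit 76) (nat_lit 1721898298) (nat_lit 131) (nat_lit 5) (nat_lit 137) (nat_lit 5) (nat_lit 132) (nat_lit 5) (nat_lit 312) (nat_lit 243) (nat_lit 225)))) (XT.nd (nat_lit 156) (nat_lit 760) (nat_lit 0) (XT.nd (nat_lit 78) (nat_lit 456) (nat_lit 0) (XT.lf (nat_lit 0) (nat_lit 6027452116) (nat_lit 380) (nat_lit 3825612128) (nat_lit 456) (nat_lit 297090940) (nat_lit 126) (nat_lit 5) (nat_lit 131) (nat_lit 5) (nat_lit 132) (nat_lit 5) (nat_lit 313) (nat_lit 243) (nat_lit 224)) (XT.lf (nat_lit 0) (nat_lit 4621442271) (nat_lit 456) (nat_lit 4920561172) (nat_lit 76) (nat_lit 778126227) (nat_lit 120) (nat_lit 5) (nat_lit 126) (nat_lit 5) (nat_lit 121) (nat_lit 5) (nat_lit 314) (nat_lit 243) (nat_lit 223))) (XT.nd (nat_lit 78) (nat_lit 380) (nat_lit 0) (XT.lf (nat_lit 0) (nat_lit 4651681653) (nat_lit 380) (nat_lit 5013927870) (nat_lit 456) (nat_lit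 829973308) (nat_lit 115) (nat_lit 5) (nat_lit 120) (nat_lit 5) (nat_lit 121) (nat_lit 5) (nat_lit 315) (nat_lit 243) (nat_lit 222)) (XT.lf (nat_lit 0) (nat_lit 3775119633) (nat_lit 304) (nat_lit 312339442) (nat_lit 380) (nat_lit 6589204337) (nat_lit 110) (nat_lit 5) (nat_lit 114) (nat_lit 5) (nat_lit 115) (nat_lit 5) (nat_lit 316) (nat_lit 243) (nat_lit 221)))))) (XT.nd (nat_lit 546) (nat_lit 1520) (nat_lit 0) (XT.nd (nat_lit 234) (nat_lit 988) (nat_lit 0) (XT.nd (nat_lit 78) (nat_lit 684) (nat_lit 0) (XT.lf (nat_lit 0) (nat_lit 2752093786) (nat_lit 380) (nat_lit 6377374228) (nat_lit 456) (nat_lit 1733888454) (nat_lit 105) (nat_lit 5) (nat_lit 110) (nat_lit 5) (nat_lit 111) (nat_lit 5) (nat_lit 317) (nat_lit 243) (nat_lit 220)) (XT.nd (nat_lit 78) (nat_lit 304) (nat_lit 0) (XT.lf (nat_lit 0) (nat_lit 1584236446) (nat_lit 304) (nat_lit 1601805950) (nat_lit 380) (nat_lit 7870001257) (nat_lit 100)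 (nat_lit 5) (nat_lit 104) (nat_lit 5) (nat_lit 105) (nat_lit 5) (nat_lit 318) (nat_lit 243) (nat_lit 219)) (XT.lf (nat_lit 0) (nat_lit 250742347) (nat_lit 304) (nat_lit 7961826474) (nat_lit 380) (nat_lit 3042114417) (nat_lit 96) (nat_lit 5) (nat_lit 100) (nat_lit 5) (nat_lit 101) (nat_lit 5) (nat_lit 319) (nat_lit 243) (nat_lit 218)))) (XT.nd (nat_lit 156) (nat_lit 608) (nat_lit 0) (XT.nd (nat_lit 78) (nat_lit 304) (nat_lit 0) (XT.lf (nat_lit 0) (nat_lit 1885720774) (nat_lit 380) (nat_lit 1233238742) (nat_lit 76) (nat_lit 8340512745) (nat_lit 95) (nat_lit 5) (nat_lit 100) (nat_lit 5) (nat_lit 96) (nat_lit 5) (nat_lit 320) (nat_lit 243) (nat_lit 217)) (XT.lf (nat_lit 0) (nat_lit 6897524423) (nat_lit 380) (nat_lit 2899566077) (nat_lit 76) (nat_lit 1873411151) (nat_lit 91) (nat_lit 5) (nat_lit 96) (nat_lit 5) (nat_lit 92) (nat_lit 5) (nat_lit 321) (nat_lit 243) (nat_lit 216))) (XT.nd (nat_lit 78)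 (nat_lit 228) (nat_lit 0) (XT.lf (nat_lit 0) (nat_lit 154353675) (nat_lit 380) (nat_lit 4753290255) (nat_lit 76) (nat_lit 6980545768) (nat_lit 86) (nat_lit 5) (nat_lit 91) (nat_lit 5) (nat_lit 87) (nat_lit 5) (nat_lit 322) (nat_lit 243) (nat_lit 215)) (XT.lf (nat_lit 0) (nat_lit 5130700744) (nat_lit 304) (nat_lit 6818231164) (nat_lit 76) (nat_lit 163569131) (nat_lit 83) (nat_lit 5) (nat_lit 87) (nat_lit 5) (nat_lit 84) (nat_lit 5) (nat_lit 323) (nat_lit 243) (nat_lit 214))))) (XT.nd (nat_lit 234) (nat_lit 912) (nat_lit 0) (XT.nd (nat_lit 78) (nat_lit 304) (nat_lit 0) (XT.lf (nat_lit 0) (nat_lit 3235515671) (nat_lit 304) (nat_lit 7018898558) (nat_lit 380) (nat_lit 2089209164) (nat_lit 79) (nat_lit 5) (nat_lit 83) (nat_lit 5) (nat_lit 84) (nat_lit 5) (nat_lit 324) (nat_lit 243) (nat_lit 213)) (XT.nd (nat_lit 78) (nat_lit 0) (nat_lit 0) (XT.lf (nat_lit 0) (nat_lit 958309089) (nat_lit 228) (nat_lit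 1918779530) (nat_lit 304) (nat_lit 9704936406) (nat_lit 75) (nat_lit 5) (nat_lit 78) (nat_lit 5) (nat_lit 79) (nat_lit 5) (nat_lit 325) (nat_lit 243) (nat_lit 212)) (XT.lf (nat_lit 0) (nat_lit 7962146187) (nat_lit 304) (nat_lit 1548407097) (nat_lit 76) (nat_lit 3316826043) (nat_lit 75) (nat_lit 5) (nat_lit 79) (nat_lit 5) (nat_lit 76) (nat_lit 5) (nat_lit 326) (nat_lit 243) (nat_lit 211)))) (XT.nd (nat_lit 156) (nat_lit 304) (nat_lit 0) (XT.nd (nat_lit 78) (nat_lit 228) (nat_lit 0) (XT.lf (nat_lit 0) (nat_lit 104636292) (nat_lit 380) (nat_lit 4282790199) (nat_lit 76) (nat_lit 8692959333) (nat_lit 70) (nat_lit 5) (nat_lit 75) (nat_lit 5) (nat_lit 71) (nat_lit 5) (nat_lit 327) (nat_lit 243) (nat_lit 210)) (XT.lf (nat_lit 0) (nat_lit 5131418453) (nat_lit 304) (nat_lit 7298275727) (nat_lit 76) (nat_lit 911203714) (nat_lit 67) (nat_lit 5) (nat_lit 71) (nat_lit 5) (nat_lit 68) (nat_lit 5) (nat_lit 328)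 (nat_lit 243) (nat_lit 209))) (XT.nd (nat_lit 78) (nat_lit 76) (nat_lit 0) (XT.lf (nat_lit 0) (nat_lit 3006098245) (nat_lit 228) (nat_lit 7299917750) (nat_lit 304) (nat_lit 3303304905) (nat_lit 64) (nat_lit 5) (nat_lit 67) (nat_lit 5) (nat_lit 68) (nat_lit 5) (nat_lit 329) (nat_lit 243) (nat_lit 208)) (XT.lf (nat_lit 0) (nat_lit 1696784985) (nat_lit 304) (nat_lit 307528082) (nat_lit 76) (nat_lit 11881896717) (nat_lit 63) (nat_lit 5) (nat_lit 67) (nat_lit 5) (nat_lit 64) (nat_lit 5) (nat_lit 330) (nat_lit 243) (nat_lit 207))))))))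
noncomputable def xc24 : XT := (XT.nd (nat_lit 2028) (nat_lit 380) (nat_lit 0) (XT.nd (nat_lit 1014) (nat_lit 1216) (nat_lit 0) (XT.nd (nat_lit 468) (nat_lit 912) (nat_lit 0) (XT.nd (nat_lit 234) (nat_lit 456) (nat_lit 0) (XT.nd (nat_lit 78) (nat_lit 532) (nat_lit 0) (XT.lf (nat_lit 0) (nat_lit 6813922749) (nat_lit 304) (nat_lit 3910808824) (nat_lit 76) (nat_lit 3446031675) (nat_lit 60) (nat_lit 5) (nat_lit 64) (nat_lit 5) (nat_lit 61) (nat_lit 5) (nat_lit 331) (nat_lit 243) (nat_lit 206)) (XT.nd (nat_lit 78) (nat_lit 304) (nat_lit 0) (XT.lf (nat_lit 0) (nat_lit 6632507998) (nat_lit 228) (nat_lit 5434004796) (nat_lit 304) (nat_lit 2397733888) (nat_lit 57) (nat_lit 5) (nat_lit 60) (nat_lit 5) (nat_lit 61) (nat_lit 5) (nat_lit 332) (nat_lit 243) (nat_lit 205)) (XT.lf (nat_lit 0) (nat_lit 2643088519) (nat_lit 304) (nat_lit 12095026838) (nat_lit 76) (nat_lit 28728191) (nat_lit 53) (nat_lit 5) (nat_lit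 57) (nat_lit 5) (nat_lit 54) (nat_lit 5) (nat_lit 333) (nat_lit 243) (nat_lit 204)))) (XT.nd (nat_lit 78) (nat_lit 456) (nat_lit 0) (XT.lf (nat_lit 0) (nat_lit 7817872130) (nat_lit 304) (nat_lit 1656590308) (nat_lit 76) (nat_lit 5603462346) (nat_lit 53) (nat_lit 5) (nat_lit 57) (nat_lit 5) (nat_lit 54) (nat_lit 5) (nat_lit 334) (nat_lit 243) (nat_lit 203)) (XT.nd (nat_lit 78) (nat_lit 228) (nat_lit 0) (XT.lf (nat_lit 0) (nat_lit 9093791787) (nat_lit 228) (nat_lit 4040689470) (nat_lit 304) (nat_lit 2264154386) (nat_lit 50) (nat_lit 5) (nat_lit 53) (nat_lit 5) (nat_lit 54) (nat_lit 5) (nat_lit 335) (nat_lit 243) (nat_lit 202)) (XT.lf (nat_lit 0) (nat_lit 2822125058) (nat_lit 228) (nat_lit 11359661505) (nat_lit 76) (nat_lit 1547268572) (nat_lit 47) (nat_lit 5) (nat_lit 50) (nat_lit 5) (nat_lit 48) (nat_lit 5) (nat_lit 336) (nat_lit 243) (nat_lit 201))))) (XT.nd (nat_lit 234) (nat_lit 456) (nat_lit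 0) (XT.nd (nat_lit 78) (nat_lit 456) (nat_lit 0) (XT.lf (nat_lit 0) (nat_lit 8029832979) (nat_lit 228) (nat_lit 779504882) (nat_lit 76) (nat_lit 7259784645) (nat_lit 47) (nat_lit 5) (nat_lit 50) (nat_lit 5) (nat_lit 48) (nat_lit 5) (nat_lit 337) (nat_lit 243) (nat_lit 200)) (XT.nd (nat_lit 78) (nat_lit 228) (nat_lit 0) (XT.lf (nat_lit 0) (nat_lit 10135759759) (nat_lit 228) (nat_lit 3255274141) (nat_lit 304) (nat_lit 3028438629) (nat_lit 44) (nat_lit 5) (nat_lit 47) (nat_lit 5) (nat_lit 48) (nat_lit 5) (nat_lit 338) (nat_lit 243) (nat_lit 199)) (XT.lf (nat_lit 0) (nat_lit 2087833307) (nat_lit 228) (nat_lit 12256461959) (nat_lit 76) (nat_lit 2436124124) (nat_lit 41) (nat_lit 5) (nat_lit 44) (nat_lit 5) (nat_lit 42) (nat_lit 5) (nat_lit 339) (nat_lit 243) (nat_lit 198)))) (XT.nd (nat_lit 156) (nat_lit 228) (nat_lit 0) (XT.nd (nat_lit 78) (nat_lit 228) (nat_lit 0) (XT.lf (nat_lit 0) (nat_lit 7314504376)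 (nat_lit 228) (nat_lit 1565263311) (nat_lit 76) (nat_lit 8272089401) (nat_lit 41) (nat_lit 5) (nat_lit 44) (nat_lit 5) (nat_lit 42) (nat_lit 5) (nat_lit 340) (nat_lit 243) (nat_lit 197)) (XT.lf (nat_lit 0) (nat_lit 9460567275) (nat_lit 228) (nat_lit 3233967699) (nat_lit 304) (nat_lit 4839994958) (nat_lit 38) (nat_lit 5) (nat_lit 41) (nat_lit 5) (nat_lit 42) (nat_lit 5) (nat_lit 341) (nat_lit 243) (nat_lit 196))) (XT.nd (nat_lit 78) (nat_lit 0) (nat_lit 0) (XT.lf (nat_lit 0) (nat_lit 284891865) (nat_lit 228) (nat_lit 15110048531) (nat_lit 76) (nat_lit 2534091983) (nat_lit 35) (nat_lit 5) (nat_lit 38) (nat_lit 5) (nat_lit 36) (nat_lit 5) (nat_lit 342) (nat_lit 243) (nat_lit 195)) (XT.lf (nat_lit 0) (nat_lit 5511601815) (nat_lit 228) (nat_lit 4347882074) (nat_lit 76) (nat_lit 8474990944) (nat_lit 35) (nat_lit 5) (nat_lit 38) (nat_lit 5) (nat_lit 36) (nat_lit 5) (nat_lit 343) (nat_lit 243) (nat_lit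 194)))))) (XT.nd (nat_lit 468) (nat_lit 532) (nat_lit 0) (XT.nd (nat_lit 234) (nat_lit 304) (nat_lit 0) (XT.nd (nat_lit 78) (nat_lit 228) (nat_lit 0) (XT.lf (nat_lit 0) (nat_lit 6719956267) (nat_lit 152) (nat_lit 4157386455) (nat_lit 228) (nat_lit 7875114064) (nat_lit 33) (nat_lit 5) (nat_lit 35) (nat_lit 5) (nat_lit 36) (nat_lit 5) (nat_lit 344) (nat_lit 243) (nat_lit 193)) (XT.nd (nat_lit 78) (nat_lit 228) (nat_lit 0) (XT.lf (nat_lit 0) (nat_lit 16384287057) (nat_lit 228) (nat_lit 1118942067) (nat_lit 76) (nat_lit 1680164664) (nat_lit 33) (nat_lit 5) (nat_lit 36) (nat_lit 5) (nat_lit 34) (nat_lit 4) (nat_lit 345) (nat_lit 243) (nat_lit 192)) (XT.lf (nat_lit 0) (nat_lit 2432273737) (nat_lit 228) (nat_lit 9517083679) (nat_lit 76) (nat_lit 7676906244) (nat_lit 30) (nat_lit 5) (nat_lit 33) (nat_lit 5) (nat_lit 31) (nat_lit 5) (nat_lit 346) (nat_lit 243) (nat_lit 191)))) (XT.nd (nat_lit 78) (nat_lit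 152) (nat_lit 0) (XT.lf (nat_lit 0) (nat_lit 1507535338) (nat_lit 152) (nat_lit 6234529293) (nat_lit 228) (nat_lit 12340813675) (nat_lit 28) (nat_lit 5) (nat_lit 30) (nat_lit 5) (nat_lit 31) (nat_lit 5) (nat_lit 347) (nat_lit 243) (nat_lit 190)) (XT.nd (nat_lit 78) (nat_lit 152) (nat_lit 0) (XT.lf (nat_lit 0) (nat_lit 12894136237) (nat_lit 152) (nat_lit 324414891) (nat_lit 228) (nat_lit 7334510362) (nat_lit 28) (nat_lit 5) (nat_lit 30) (nat_lit 5) (nat_lit 31) (nat_lit 5) (nat_lit 348) (nat_lit 243) (nat_lit 189)) (XT.lf (nat_lit 0) (nat_lit 3496418425) (nat_lit 152) (nat_lit 15367341625) (nat_lit 228) (nat_lit 2173519169) (nat_lit 26) (nat_lit 5) (nat_lit 28) (nat_lit 5) (nat_lit 29) (nat_lit 4) (nat_lit 349) (nat_lit 243) (nat_lit 188))))) (XT.nd (nat_lit 234) (nat_lit 304) (nat_lit 0) (XT.nd (nat_lit 78) (nat_lit 152) (nat_lit 0) (XT.lf (nat_lit 0) (nat_lit 3100435345) (nat_lit 228) (nat_lit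 6562821876) (nat_lit 76) (nat_lit 11872388070) (nat_lit 25) (nat_lit 5) (nat_lit 28) (nat_lit 5) (nat_lit 26) (nat_lit 5) (nat_lit 350) (nat_lit 243) (nat_lit 187)) (XT.nd (nat_lit 78) (nat_lit 0) (nat_lit 0) (XT.lf (nat_lit 0) (nat_lit 4698262590) (nat_lit 152) (nat_lit 3782025691) (nat_lit 228) (nat_lit 13568858808) (nat_lit 23) (nat_lit 5) (nat_lit 25) (nat_lit 5) (nat_lit 26) (nat_lit 5) (nat_lit 351) (nat_lit 243) (nat_lit 186)) (XT.lf (nat_lit 0) (nat_lit 14028320060) (nat_lit 228) (nat_lit 6297895683) (nat_lit 76) (nat_lit 2251718328) (nat_lit 23) (nat_lit 5) (nat_lit 26) (nat_lit 5) (nat_lit 24) (nat_lit 4) (nat_lit 352) (nat_lit 243) (nat_lit 185)))) (XT.nd (nat_lit 156) (nat_lit 152) (nat_lit 0) (XT.nd (nat_lit 78) (nat_lit 76) (nat_lit 0) (XT.lf (nat_lit 0) (nat_lit 5037483248) (nat_lit 76) (nat_lit 14712086953) (nat_lit 152) (nat_lit 3372894251) (nat_lit 22) (nat_lit 5) (nat_lit 23)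 (nat_lit 5) (nat_lit 24) (nat_lit 4) (nat_lit 353) (nat_lit 243) (nat_lit 184)) (XT.lf (nat_lit 0) (nat_lit 1925739948) (nat_lit 152) (nat_lit 6985552618) (nat_lit 76) (nat_lit 14771952234) (nat_lit 21) (nat_lit 5) (nat_lit 23) (nat_lit 5) (nat_lit 22) (nat_lit 5) (nat_lit 354) (nat_lit 243) (nat_lit 183))) (XT.nd (nat_lit 78) (nat_lit 0) (nat_lit 0) (XT.lf (nat_lit 0) (nat_lit 4395343690) (nat_lit 152) (nat_lit 2921787068) (nat_lit 228) (nat_lit 16943693637) (nat_lit 19) (nat_lit 5) (nat_lit 21) (nat_lit 5) (nat_lit 22) (nat_lit 5) (nat_lit 355) (nat_lit 243) (nat_lit 182)) (XT.lf (nat_lit 0) (nat_lit 12890460247) (nat_lit 228) (nat_lit 8748836076) (nat_lit 76) (nat_lit 3216044875) (nat_lit 19) (nat_lit 5) (nat_lit 22) (nat_lit 5) (nat_lit 20) (nat_lit 4) (nat_lit 356) (nat_lit 243) (nat_lit 181))))))) (XT.nd (nat_lit 36036) (nat_lit 0) (nat_lit 9272) (XT.nd (nat_lit 468) (nat_lit 0) (nat_lit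 0) (XT.nd (nat_lit 234) (nat_lit 228) (nat_lit 0) (XT.nd (nat_lit 78) (nat_lit 76) (nat_lit 0) (XT.lf (nat_lit 0) (nat_lit 2632862296) (nat_lit 76) (nat_lit 15987637460) (nat_lit 152) (nat_lit 6847416904) (nat_lit 18) (nat_lit 5) (nat_lit 19) (nat_lit 5) (nat_lit 20) (nat_lit 4) (nat_lit 357) (nat_lit 243) (nat_lit 180)) (XT.nd (nat_lit 78) (nat_lit 76) (nat_lit 0) (XT.lf (nat_lit 0) (nat_lit 14393683959) (nat_lit 76) (nat_lit 10141757520) (nat_lit 152) (nat_lit 1563180857) (nat_lit 18) (nat_lit 5) (nat_lit 19) (nat_lit 5) (nat_lit 20) (nat_lit 4) (nat_lit 358) (nat_lit 243) (nat_lit 179)) (XT.lf (nat_lit 0) (nat_lit 3783455062) (nat_lit 152) (nat_lit 346413711) (nat_lit 76) (nat_lit 22618793894) (nat_lit 17) (nat_lit 5) (nat_lit 19) (nat_lit 5) (nat_lit 18) (nat_lit 5) (nat_lit 359) (nat_lit 243) (nat_lit 178)))) (XT.nd (nat_lit 78) (nat_lit 76) (nat_lit 0) (XT.lf (nat_lit 0) (nat_lit 9313283192)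 (nat_lit 228) (nat_lit 16016988241) (nat_lit 76) (nat_lit 2086857496) (nat_lit 15) (nat_lit 5) (nat_lit 18) (nat_lit 5) (nat_lit 16) (nat_lit 4) (nat_lit 360) (nat_lit 243) (nat_lit 177)) (XT.nd (nat_lit 78) (nat_lit 76) (nat_lit 0) (XT.lf (nat_lit 0) (nat_lit 14995623022) (nat_lit 228) (nat_lit 4706761302) (nat_lit 76) (nat_lit 8403544155) (nat_lit 15) (nat_lit 5) (nat_lit 18) (nat_lit 5) (nat_lit 16) (nat_lit 4) (nat_lit 361) (nat_lit 243) (nat_lit 176)) (XT.lf (nat_lit 0) (nat_lit 6958934541) (nat_lit 76) (nat_lit 13892579202) (nat_lit 152) (nat_lit 7963827954) (nat_lit 14) (nat_lit 5) (nat_lit 15) (nat_lit 5) (nat_lit 16) (nat_lit 4) (nat_lit 362) (nat_lit 243) (nat_lit 175))))) (XT.nd (nat_lit 35256) (nat_lit 0) (nat_lit 17024) (XT.nd (nat_lit 35100) (nat_lit 0) (nat_lit 19988) (XT.lf (nat_lit 0) (nat_lit 18965141069) (nat_lit 76) (nat_lit 7908479825) (nat_lit 152) (nat_lit 2672616594) (nat_lit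 14) (nat_lit 5) (nat_lit 15) (nat_lit 5) (nat_lit 16) (nat_lit 4) (nat_lit 363) (nat_lit 243) (nat_lit 174)) (XT.nd (nat_lit 78) (nat_lit 760) (nat_lit 0) (XT.lf (nat_lit 0) (nat_lit 905280480) (nat_lit 836) (nat_lit 2011719260) (nat_lit 0) (nat_lit 905280480) (nat_lit 287) (nat_lit 5) (nat_lit 298) (nat_lit 4) (nat_lit 287) (nat_lit 4) (nat_lit 292) (nat_lit 244) (nat_lit 244)) (XT.lf (nat_lit 0) (nat_lit 3945040341) (nat_lit 760) (nat_lit 2909068746) (nat_lit 760) (nat_lit 870783380) (nat_lit 277) (nat_lit 4) (nat_lit 287) (nat_lit 5) (nat_lit 287) (nat_lit 4) (nat_lit 293) (nat_lit 244) (nat_lit 243)))) (XT.nd (nat_lit 156) (nat_lit 1444) (nat_lit 0) (XT.nd (nat_lit 78) (nat_lit 760) (nat_lit 0) (XT.lf (nat_lit 0) (nat_lit 4103409252) (nat_lit 760) (nat_lit 3540482579) (nat_lit 0) (nat_lit 164974746) (nat_lit 267) (nat_lit 5) (nat_lit 277) (nat_lit 4) (nat_lit 267) (nat_lit 4) (nat_lit 294)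 (nat_lit 244) (nat_lit 242)) (XT.lf (nat_lit 0) (nat_lit 1241354078) (nat_lit 760) (nat_lit 3314506568) (nat_lit 76) (nat_lit 3340564952) (nat_lit 257) (nat_lit 5) (nat_lit 267) (nat_lit 5) (nat_lit 258) (nat_lit 4) (nat_lit 295) (nat_lit 244) (nat_lit 241))) (XT.nd (nat_lit 78) (nat_lit 760) (nat_lit 0) (XT.lf (nat_lit 0) (nat_lit 4890746748) (nat_lit 684) (nat_lit 1317933206) (nat_lit 760) (nat_lit 1779119113) (nat_lit 248) (nat_lit 5) (nat_lit 257) (nat_lit 5) (nat_lit 258) (nat_lit 4) (nat_lit 296) (nat_lit 244) (nat_lit 240)) (XT.lf (nat_lit 0) (nat_lit 3138509079) (nat_lit 760) (nat_lit 2901650185) (nat_lit 76) (nat_lit 2042695219) (nat_lit 238) (nat_lit 5) (nat_lit 248) (nat_lit 5) (nat_lit 239) (nat_lit 4) (nat_lit 297) (nat_lit 244) (nat_lit 239)))))) (XT.nd (nat_lit 546) (nat_lit 3496) (nat_lit 0) (XT.nd (nat_lit 234) (nat_lit 2356) (nat_lit 0) (XT.nd (nat_lit 78) (nat_lit 1292) (nat_lit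 0) (XT.lf (nat_lit 0) (nat_lit 5462614152) (nat_lit 608) (nat_lit 2653237742) (nat_lit 684) (nat_lit 66064315) (nat_lit 230) (nat_lit 5) (nat_lit 238) (nat_lit 5) (nat_lit 239) (nat_lit 4) (nat_lit 298) (nat_lit 244) (nat_lit 238)) (XT.nd (nat_lit 78) (nat_lit 608) (nat_lit 0) (XT.lf (nat_lit 0) (nat_lit 4828895817) (nat_lit 684) (nat_lit 2571270105) (nat_lit 76) (nat_lit 884544068) (nat_lit 221) (nat_lit 5) (nat_lit 230) (nat_lit 5) (nat_lit 222) (nat_lit 4) (nat_lit 299) (nat_lit 244) (nat_lit 237)) (XT.lf (nat_lit 0) (nat_lit 1409438591) (nat_lit 608) (nat_lit 2452213206) (nat_lit 76) (nat_lit 4529848750) (nat_lit 213) (nat_lit 5) (nat_lit 221) (nat_lit 5) (nat_lit 214) (nat_lit 5) (nat_lit 300) (nat_lit 244) (nat_lit 236)))) (XT.nd (nat_lit 156) (nat_lit 1140) (nat_lit 0) (XT.nd (nat_lit 78) (nat_lit 608) (nat_lit 0) (XT.lf (nat_lit 0) (nat_lit 6140191141) (nat_lit 608) (nat_lit 168027587)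 (nat_lit 684) (nat_lit 2194231721) (nat_lit 205) (nat_lit 5) (nat_lit 213) (nat_lit 5) (nat_lit 214) (nat_lit 5) (nat_lit 301) (nat_lit 244) (nat_lit 235)) (XT.lf (nat_lit 0) (nat_lit 2661503588) (nat_lit 608) (nat_lit 2324630395) (nat_lit 76) (nat_lit 3631133982) (nat_lit 197) (nat_lit 5) (nat_lit 205) (nat_lit 5) (nat_lit 198) (nat_lit 5) (nat_lit 302) (nat_lit 244) (nat_lit 234))) (XT.nd (nat_lit 78) (nat_lit 608) (nat_lit 0) (XT.lf (nat_lit 0) (nat_lit 6417338394) (nat_lit 532) (nat_lit 1155696762) (nat_lit 608) (nat_lit 1163501163) (nat_lit 190) (nat_lit 5) (nat_lit 197) (nat_lit 5) (nat_lit 198) (nat_lit 5) (nat_lit 303) (nat_lit 244) (nat_lit 233)) (XT.lf (nat_lit 0) (nat_lit 3682012801) (nat_lit 608) (nat_lit 2377978326) (nat_lit 76) (nat_lit 2799813029) (nat_lit 182) (nat_lit 5) (nat_lit 190) (nat_lit 5) (nat_lit 183) (nat_lit 5) (nat_lit 304) (nat_lit 244) (nat_lit 232))))) (XT.nd (nat_lit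 234) (nat_lit 1900) (nat_lit 0) (XT.nd (nat_lit 78) (nat_lit 1064) (nat_lit 0) (XT.lf (nat_lit 0) (nat_lit 6507899279) (nat_lit 532) (nat_lit 2099753201) (nat_lit 608) (nat_lit 380040257) (nat_lit 175) (nat_lit 5) (nat_lit 182) (nat_lit 5) (nat_lit 183) (nat_lit 5) (nat_lit 305) (nat_lit 244) (nat_lit 231)) (XT.nd (nat_lit 78) (nat_lit 532) (nat_lit 0) (XT.lf (nat_lit 0) (nat_lit 4459479415) (nat_lit 532) (nat_lit 2657287336) (nat_lit 76) (nat_lit 2002989267) (nat_lit 168) (nat_lit 5) (nat_lit 175) (nat_lit 5) (nat_lit 169) (nat_lit 5) (nat_lit 306) (nat_lit 244) (nat_lit 230)) (XT.lf (nat_lit 0) (nat_lit 141162354) (nat_lit 532) (nat_lit 2891918226) (nat_lit 76) (nat_lit 6223500677) (nat_lit 161) (nat_lit 5) (nat_lit 168) (nat_lit 5) (nat_lit 162) (nat_lit 5) (nat_lit 307) (nat_lit 244) (nat_lit 229)))) (XT.nd (nat_lit 156) (nat_lit 912) (nat_lit 0) (XT.nd (nat_lit 78) (nat_lit 532) (nat_lit 0)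 (XT.lf (nat_lit 0) (nat_lit 4979752548) (nat_lit 532) (nat_lit 3211231862) (nat_lit 76) (nat_lit 1206859591) (nat_lit 155) (nat_lit 5) (nat_lit 162) (nat_lit 5) (nat_lit 156) (nat_lit 5) (nat_lit 308) (nat_lit 244) (nat_lit 228)) (XT.lf (nat_lit 0) (nat_lit 384702760) (nat_lit 532) (nat_lit 3606165725) (nat_lit 76) (nat_lit 5553094012) (nat_lit 148) (nat_lit 5) (nat_lit 155) (nat_lit 5) (nat_lit 149) (nat_lit 5) (nat_lit 309) (nat_lit 244) (nat_lit 227))) (XT.nd (nat_lit 78) (nat_lit 532) (nat_lit 0) (XT.lf (nat_lit 0) (nat_lit 5225830651) (nat_lit 456) (nat_lit 4092637607) (nat_lit 76) (nat_lit 376398163) (nat_lit 143) (nat_lit 5) (nat_lit 149) (nat_lit 5) (nat_lit 144) (nat_lit 5) (nat_lit 310) (nat_lit 244) (nat_lit 226)) (XT.lf (nat_lit 0) (nat_lit 336885127) (nat_lit 532) (nat_lit 4675229829) (nat_lit 76) (nat_lit 4838608772) (nat_lit 136) (nat_lit 5) (nat_lit 143) (nat_lit 5) (nat_lit 137)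 (nat_lit 5) (nat_lit 311) (nat_lit 244) (nat_lit 225))))))))
noncomputable def xc25 : XT := (XT.nd (nat_lit 2028) (nat_lit 2508) (nat_lit 0) (XT.nd (nat_lit 1014) (nat_lit 2736) (nat_lit 0) (XT.nd (nat_lit 468) (nat_lit 1672) (nat_lit 0) (XT.nd (nat_lit 234) (nat_lit 1140) (nat_lit 0) (XT.nd (nat_lit 78) (nat_lit 836) (nat_lit 0) (XT.lf (nat_lit 0) (nat_lit 4649148178) (nat_lit 380) (nat_lit 531953504) (nat_lit 456) (nat_lit 4830533583) (nat_lit 131) (nat_lit 5) (nat_lit 136) (nat_lit 5) (nat_lit 137) (nat_lit 5) (nat_lit 312) (nat_lit 244) (nat_lit 224)) (XT.nd (nat_lit 78) (nat_lit 456) (nat_lit 0) (XT.lf (nat_lit 0) (nat_lit 4018361875) (nat_lit 380) (nat_lit 6134933999) (nat_lit 456) (nat_lit 24489339) (nat_lit 126) (nat_lit 5) (nat_lit 131) (nat_lit 5) (nat_lit 132) (nat_lit 5) (nat_lit 313) (nat_lit 244) (nat_lit 223)) (XT.lf (nat_lit 0) (nat_lit 3265769018) (nat_lit 380) (nat_lit 1556165877)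 (nat_lit 456) (nat_lit 5527190131) (nat_lit 120) (nat_lit 5) (nat_lit 125) (nat_lit 5) (nat_lit 126) (nat_lit 5) (nat_lit 314) (nat_lit 244) (nat_lit 222)))) (XT.nd (nat_lit 78) (nat_lit 760) (nat_lit 0) (XT.lf (nat_lit 0) (nat_lit 2397269648) (nat_lit 380) (nat_lit 7395396985) (nat_lit 456) (nat_lit 733409438) (nat_lit 115) (nat_lit 5) (nat_lit 120) (nat_lit 5) (nat_lit 121) (nat_lit 5) (nat_lit 315) (nat_lit 244) (nat_lit 221)) (XT.nd (nat_lit 78) (nat_lit 380) (nat_lit 0) (XT.lf (nat_lit 0) (nat_lit 1386611775) (nat_lit 304) (nat_lit 2732555554) (nat_lit 380) (nat_lit 6589276337) (nat_lit 110) (nat_lit 5) (nat_lit 114) (nat_lit 5) (nat_lit 115) (nat_lit 5) (nat_lit 316) (nat_lit 244) (nat_lit 220)) (XT.lf (nat_lit 0) (nat_lit 243310532) (nat_lit 380) (nat_lit 8838573197) (nat_lit 456) (nat_lit 1814865805) (nat_lit 105) (nat_lit 5) (nat_lit 110) (nat_lit 5) (nat_lit 111) (nat_lit 5) (nat_lit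 317) (nat_lit 244) (nat_lit 219))))) (XT.nd (nat_lit 234) (nat_lit 912) (nat_lit 0) (XT.nd (nat_lit 78) (nat_lit 684) (nat_lit 0) (XT.lf (nat_lit 0) (nat_lit 3049139984) (nat_lit 456) (nat_lit 1048986754) (nat_lit 76) (nat_lit 6992485899) (nat_lit 104) (nat_lit 5) (nat_lit 110) (nat_lit 5) (nat_lit 105) (nat_lit 5) (nat_lit 318) (nat_lit 244) (nat_lit 218)) (XT.nd (nat_lit 78) (nat_lit 380) (nat_lit 0) (XT.lf (nat_lit 0) (nat_lit 8004935706) (nat_lit 380) (nat_lit 2488595835) (nat_lit 76) (nat_lit 797160212) (nat_lit 100) (nat_lit 5) (nat_lit 105) (nat_lit 5) (nat_lit 101) (nat_lit 5) (nat_lit 319) (nat_lit 244) (nat_lit 217)) (XT.lf (nat_lit 0) (nat_lit 1583411903) (nat_lit 380) (nat_lit 4110211272) (nat_lit 76) (nat_lit 5803150205) (nat_lit 95) (nat_lit 5) (nat_lit 100) (nat_lit 5) (nat_lit 96) (nat_lit 5) (nat_lit 320) (nat_lit 244) (nat_lit 216)))) (XT.nd (nat_lit 156) (nat_lit 304) (nat_lit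 0) (XT.nd (nat_lit 78) (nat_lit 304) (nat_lit 0) (XT.lf (nat_lit 0) (nat_lit 5799518915) (nat_lit 304) (nat_lit 719937455) (nat_lit 380) (nat_lit 5189884608) (nat_lit 91) (nat_lit 5) (nat_lit 95) (nat_lit 5) (nat_lit 96) (nat_lit 5) (nat_lit 321) (nat_lit 244) (nat_lit 215)) (XT.lf (nat_lit 0) (nat_lit 4022001334) (nat_lit 304) (nat_lit 7576290171) (nat_lit 380) (nat_lit 330145290) (nat_lit 87) (nat_lit 5) (nat_lit 91) (nat_lit 5) (nat_lit 92) (nat_lit 5) (nat_lit 322) (nat_lit 244) (nat_lit 214))) (XT.nd (nat_lit 78) (nat_lit 0) (nat_lit 0) (XT.lf (nat_lit 0) (nat_lit 2034592532) (nat_lit 228) (nat_lit 2550857267) (nat_lit 304) (nat_lit 7568664123) (nat_lit 83) (nat_lit 5) (nat_lit 86) (nat_lit 5) (nat_lit 87) (nat_lit 5) (nat_lit 323) (nat_lit 244) (nat_lit 213)) (XT.lf (nat_lit 0) (nat_lit 9629424051) (nat_lit 304) (nat_lit 158273339) (nat_lit 76) (nat_lit 2599154328) (nat_lit 83) (nat_lit 5)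 (nat_lit 87) (nat_lit 5) (nat_lit 84) (nat_lit 5) (nat_lit 324) (nat_lit 244) (nat_lit 212)))))) (XT.nd (nat_lit 468) (nat_lit 1216) (nat_lit 0) (XT.nd (nat_lit 234) (nat_lit 608) (nat_lit 0) (XT.nd (nat_lit 78) (nat_lit 532) (nat_lit 0) (XT.lf (nat_lit 0) (nat_lit 2168702458) (nat_lit 380) (nat_lit 2555174082) (nat_lit 76) (nat_lit 7902461872) (nat_lit 78) (nat_lit 5) (nat_lit 83) (nat_lit 5) (nat_lit 79) (nat_lit 5) (nat_lit 325) (nat_lit 244) (nat_lit 211)) (XT.nd (nat_lit 78) (nat_lit 304) (nat_lit 0) (XT.lf (nat_lit 0) (nat_lit 7177598625) (nat_lit 304) (nat_lit 5187898396) (nat_lit 76) (nat_lit 507738011) (nat_lit 75) (nat_lit 5) (nat_lit 79) (nat_lit 5) (nat_lit 76) (nat_lit 5) (nat_lit 326) (nat_lit 244) (nat_lit 210)) (XT.lf (nat_lit 0) (nat_lit 5045780395) (nat_lit 304) (nat_lit 7291902455) (nat_lit 380) (nat_lit 789874901) (nat_lit 71) (nat_lit 5) (nat_lit 75) (nat_lit 5) (nat_lit 76)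 (nat_lit 5) (nat_lit 327) (nat_lit 244) (nat_lit 209)))) (XT.nd (nat_lit 78) (nat_lit 304) (nat_lit 0) (XT.lf (nat_lit 0) (nat_lit 2140301670) (nat_lit 228) (nat_lit 2036237841) (nat_lit 304) (nat_lit 9213065062) (nat_lit 67) (nat_lit 5) (nat_lit 70) (nat_lit 5) (nat_lit 71) (nat_lit 5) (nat_lit 328) (nat_lit 244) (nat_lit 208)) (XT.nd (nat_lit 78) (nat_lit 304) (nat_lit 0) (XT.lf (nat_lit 0) (nat_lit 9279630836) (nat_lit 304) (nat_lit 1034058866) (nat_lit 76) (nat_lit 3345785128) (nat_lit 67) (nat_lit 5) (nat_lit 71) (nat_lit 5) (nat_lit 68) (nat_lit 5) (nat_lit 329) (nat_lit 244) (nat_lit 207)) (XT.lf (nat_lit 0) (nat_lit 589207707) (nat_lit 304) (nat_lit 4467112172) (nat_lit 76) (nat_lit 8881103072) (nat_lit 63) (nat_lit 5) (nat_lit 67) (nat_lit 5) (nat_lit 64) (nat_lit 5) (nat_lit 330) (nat_lit 244) (nat_lit 206))))) (XT.nd (nat_lit 234) (nat_lit 684) (nat_lit 0) (XT.nd (nat_lit 78) (nat_lit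 304) (nat_lit 0) (XT.lf (nat_lit 0) (nat_lit 5621236141) (nat_lit 304) (nat_lit 8219464884) (nat_lit 76) (nat_lit 382993404) (nat_lit 60) (nat_lit 5) (nat_lit 64) (nat_lit 5) (nat_lit 61) (nat_lit 5) (nat_lit 331) (nat_lit 244) (nat_lit 205)) (XT.nd (nat_lit 78) (nat_lit 76) (nat_lit 0) (XT.lf (nat_lit 0) (nat_lit 2205568837) (nat_lit 228) (nat_lit 8602867381) (nat_lit 304) (nat_lit 3710064812) (nat_lit 57) (nat_lit 5) (nat_lit 60) (nat_lit 5) (nat_lit 61) (nat_lit 5) (nat_lit 332) (nat_lit 244) (nat_lit 204)) (XT.lf (nat_lit 0) (nat_lit 1294214084) (nat_lit 304) (nat_lit 1895449267) (nat_lit 76) (nat_lit 11632694680) (nat_lit 56) (nat_lit 5) (nat_lit 60) (nat_lit 5) (nat_lit 57) (nat_lit 5) (nat_lit 333) (nat_lit 244) (nat_lit 203)))) (XT.nd (nat_lit 156) (nat_lit 228) (nat_lit 0) (XT.nd (nat_lit 78) (nat_lit 228) (nat_lit 0) (XT.lf (nat_lit 0) (nat_lit 6400040606) (nat_lit 304) (nat_lit 6343364620)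 (nat_lit 76) (nat_lit 2391427384) (nat_lit 53) (nat_lit 5) (nat_lit 57) (nat_lit 5) (nat_lit 54) (nat_lit 5) (nat_lit 334) (nat_lit 244) (nat_lit 202)) (XT.lf (nat_lit 0) (nat_lit 4286348626) (nat_lit 228) (nat_lit 7364432623) (nat_lit 304) (nat_lit 3806093375) (nat_lit 50) (nat_lit 5) (nat_lit 53) (nat_lit 5) (nat_lit 54) (nat_lit 5) (nat_lit 335) (nat_lit 244) (nat_lit 201))) (XT.nd (nat_lit 78) (nat_lit 152) (nat_lit 0) (XT.lf (nat_lit 0) (nat_lit 1227540573) (nat_lit 304) (nat_lit 590487691) (nat_lit 76) (nat_lit 13970936567) (nat_lit 49) (nat_lit 5) (nat_lit 53) (nat_lit 5) (nat_lit 50) (nat_lit 5) (nat_lit 336) (nat_lit 244) (nat_lit 200)) (XT.lf (nat_lit 0) (nat_lit 6385767478) (nat_lit 228) (nat_lit 5852154344) (nat_lit 76) (nat_lit 3892112742) (nat_lit 47) (nat_lit 5) (nat_lit 50) (nat_lit 5) (nat_lit 48) (nat_lit 5) (nat_lit 337) (nat_lit 244) (nat_lit 199))))))) (XT.nd (nat_lit 1014)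 (nat_lit 836) (nat_lit 0) (XT.nd (nat_lit 468) (nat_lit 760) (nat_lit 0) (XT.nd (nat_lit 234) (nat_lit 456) (nat_lit 0) (XT.nd (nat_lit 78) (nat_lit 228) (nat_lit 0) (XT.lf (nat_lit 0) (nat_lit 4939855320) (nat_lit 228) (nat_lit 6740594659) (nat_lit 304) (nat_lit 4801277345) (nat_lit 44) (nat_lit 5) (nat_lit 47) (nat_lit 5) (nat_lit 48) (nat_lit 5) (nat_lit 338) (nat_lit 244) (nat_lit 198)) (XT.nd (nat_lit 78) (nat_lit 152) (nat_lit 0) (XT.lf (nat_lit 0) (nat_lit 260334602) (nat_lit 304) (nat_lit 820548688) (nat_lit 76) (nat_lit 15763591099) (nat_lit 43) (nat_lit 5) (nat_lit 47) (nat_lit 5) (nat_lit 44) (nat_lit 5) (nat_lit 339) (nat_lit 244) (nat_lit 197)) (XT.lf (nat_lit 0) (nat_lit 5442600619) (nat_lit 228) (nat_lit 7032059882) (nat_lit 76) (nat_lit 4742151117) (nat_lit 41) (nat_lit 5) (nat_lit 44) (nat_lit 5) (nat_lit 42) (nat_lit 5) (nat_lit 340) (nat_lit 244) (nat_lit 196)))) (XT.nd (nat_lit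 78) (nat_lit 228) (nat_lit 0) (XT.lf (nat_lit 0) (nat_lit 3867724040) (nat_lit 228) (nat_lit 6887572260) (nat_lit 304) (nat_lit 6845545958) (nat_lit 38) (nat_lit 5) (nat_lit 41) (nat_lit 5) (nat_lit 42) (nat_lit 5) (nat_lit 341) (nat_lit 244) (nat_lit 195)) (XT.nd (nat_lit 78) (nat_lit 228) (nat_lit 0) (XT.lf (nat_lit 0) (nat_lit 15085521015) (nat_lit 228) (nat_lit 1127678661) (nat_lit 304) (nat_lit 1783499479) (nat_lit 38) (nat_lit 5) (nat_lit 41) (nat_lit 5) (nat_lit 42) (nat_lit 5) (nat_lit 342) (nat_lit 244) (nat_lit 194)) (XT.lf (nat_lit 0) (nat_lit 3409753747) (nat_lit 228) (nat_lit 10217638774) (nat_lit 76) (nat_lit 4776127890) (nat_lit 35) (nat_lit 5) (nat_lit 38) (nat_lit 5) (nat_lit 36) (nat_lit 5) (nat_lit 343) (nat_lit 244) (nat_lit 193))))) (XT.nd (nat_lit 234) (nat_lit 380) (nat_lit 0) (XT.nd (nat_lit 78) (nat_lit 228) (nat_lit 0) (XT.lf (nat_lit 0) (nat_lit 721150365) (nat_lit 152)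 (nat_lit 7986030357) (nat_lit 228) (nat_lit 10115697879) (nat_lit 33) (nat_lit 5) (nat_lit 35) (nat_lit 5) (nat_lit 36) (nat_lit 5) (nat_lit 344) (nat_lit 244) (nat_lit 192)) (XT.nd (nat_lit 78) (nat_lit 228) (nat_lit 0) (XT.lf (nat_lit 0) (nat_lit 12027364080) (nat_lit 152) (nat_lit 2146875113) (nat_lit 228) (nat_lit 5080383792) (nat_lit 33) (nat_lit 5) (nat_lit 35) (nat_lit 5) (nat_lit 36) (nat_lit 5) (nat_lit 345) (nat_lit 244) (nat_lit 191)) (XT.lf (nat_lit 0) (nat_lit 97884612) (nat_lit 228) (nat_lit 15799179891) (nat_lit 76) (nat_lit 3802394415) (nat_lit 30) (nat_lit 5) (nat_lit 33) (nat_lit 5) (nat_lit 31) (nat_lit 5) (nat_lit 346) (nat_lit 244) (nat_lit 190)))) (XT.nd (nat_lit 156) (nat_lit 228) (nat_lit 0) (XT.nd (nat_lit 78) (nat_lit 152) (nat_lit 0) (XT.lf (nat_lit 0) (nat_lit 5370081709) (nat_lit 228) (nat_lit 4842474964) (nat_lit 76) (nat_lit 9944277701) (nat_lit 30) (nat_lit 5) (nat_lit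 33) (nat_lit 5) (nat_lit 31) (nat_lit 5) (nat_lit 347) (nat_lit 244) (nat_lit 189)) (XT.lf (nat_lit 0) (nat_lit 6432410549) (nat_lit 152) (nat_lit 4354995765) (nat_lit 228) (nat_lit 9840803154) (nat_lit 28) (nat_lit 5) (nat_lit 30) (nat_lit 5) (nat_lit 31) (nat_lit 5) (nat_lit 348) (nat_lit 244) (nat_lit 188))) (XT.nd (nat_lit 78) (nat_lit 228) (nat_lit 0) (XT.lf (nat_lit 0) (nat_lit 16357110276) (nat_lit 228) (nat_lit 3106536322) (nat_lit 76) (nat_lit 1650299119) (nat_lit 28) (nat_lit 5) (nat_lit 31) (nat_lit 5) (nat_lit 29) (nat_lit 4) (nat_lit 349) (nat_lit 244) (nat_lit 187)) (XT.lf (nat_lit 0) (nat_lit 504090102) (nat_lit 228) (nat_lit 13313227612) (nat_lit 76) (nat_lit 7796275735) (nat_lit 25) (nat_lit 5) (nat_lit 28) (nat_lit 5) (nat_lit 26) (nat_lit 5) (nat_lit 350) (nat_lit 244) (nat_lit 186)))))) (XT.nd (nat_lit 546) (nat_lit 380) (nat_lit 0) (XT.nd (nat_lit 234) (nat_lit 304) (nat_lit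 0) (XT.nd (nat_lit 78) (nat_lit 152) (nat_lit 0) (XT.lf (nat_lit 0) (nat_lit 5827869346) (nat_lit 228) (nat_lit 2158421367) (nat_lit 76) (nat_lit 14141933788) (nat_lit 25) (nat_lit 5) (nat_lit 28) (nat_lit 5) (nat_lit 26) (nat_lit 5) (nat_lit 351) (nat_lit 244) (nat_lit 185)) (XT.nd (nat_lit 78) (nat_lit 0) (nat_lit 0) (XT.lf (nat_lit 0) (nat_lit 9365845248) (nat_lit 152) (nat_lit 1955931831) (nat_lit 228) (nat_lit 11336324442) (nat_lit 23) (nat_lit 5) (nat_lit 25) (nat_lit 5) (nat_lit 26) (nat_lit 5) (nat_lit 352) (nat_lit 244) (nat_lit 184)) (XT.lf (nat_lit 0) (nat_lit 16973124055) (nat_lit 228) (nat_lit 2053277325) (nat_lit 76) (nat_lit 4177635920) (nat_lit 23) (nat_lit 5) (nat_lit 26) (nat_lit 5) (nat_lit 24) (nat_lit 4) (nat_lit 353) (nat_lit 244) (nat_lit 183)))) (XT.nd (nat_lit 156) (nat_lit 152) (nat_lit 0) (XT.nd (nat_lit 78) (nat_lit 76) (nat_lit 0) (XT.lf (nat_lit 0) (nat_lit 9550233808)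 (nat_lit 76) (nat_lit 13270583227) (nat_lit 152) (nat_lit 945012461) (nat_lit 22) (nat_lit 5) (nat_lit 23) (nat_lit 5) (nat_lit 24) (nat_lit 4) (nat_lit 354) (nat_lit 244) (nat_lit 182)) (XT.lf (nat_lit 0) (nat_lit 4406715474) (nat_lit 152) (nat_lit 2927629331) (nat_lit 76) (nat_lit 17010234913) (nat_lit 21) (nat_lit 5) (nat_lit 23) (nat_lit 5) (nat_lit 22) (nat_lit 5) (nat_lit 355) (nat_lit 244) (nat_lit 181))) (XT.nd (nat_lit 78) (nat_lit 0) (nat_lit 0) (XT.lf (nat_lit 0) (nat_lit 8725458913) (nat_lit 152) (nat_lit 1191068214) (nat_lit 228) (nat_lit 15023846333) (nat_lit 19) (nat_lit 5) (nat_lit 21) (nat_lit 5) (nat_lit 22) (nat_lit 5) (nat_lit 356) (nat_lit 244) (nat_lit 180)) (XT.lf (nat_lit 0) (nat_lit 15599201749) (nat_lit 228) (nat_lit 4899918149) (nat_lit 76) (nat_lit 5054782711) (nat_lit 19) (nat_lit 5) (nat_lit 22) (nat_lit 5) (nat_lit 20) (nat_lit 4) (nat_lit 357) (nat_lit 244) (nat_lit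 179))))) (XT.nd (nat_lit 234) (nat_lit 76) (nat_lit 0) (XT.nd (nat_lit 78) (nat_lit 228) (nat_lit 0) (XT.lf (nat_lit 0) (nat_lit 6756528869) (nat_lit 76) (nat_lit 14703242450) (nat_lit 152) (nat_lit 4725930612) (nat_lit 18) (nat_lit 5) (nat_lit 19) (nat_lit 5) (nat_lit 20) (nat_lit 4) (nat_lit 358) (nat_lit 244) (nat_lit 178)) (XT.nd (nat_lit 78) (nat_lit 152) (nat_lit 0) (XT.lf (nat_lit 0) (nat_lit 640545954) (nat_lit 152) (nat_lit 8088521101) (nat_lit 76) (nat_lit 18107524593) (nat_lit 17) (nat_lit 5) (nat_lit 19) (nat_lit 5) (nat_lit 18) (nat_lit 5) (nat_lit 359) (nat_lit 244) (nat_lit 177)) (XT.lf (nat_lit 0) (nat_lit 3531364419) (nat_lit 152) (nat_lit 2553090990) (nat_lit 228) (nat_lit 21422326607) (nat_lit 15) (nat_lit 5) (nat_lit 17) (nat_lit 5) (nat_lit 18) (nat_lit 5) (nat_lit 360) (nat_lit 244) (nat_lit 176)))) (XT.nd (nat_lit 156) (nat_lit 76) (nat_lit 0) (XT.nd (nat_lit 78) (nat_lit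 0) (nat_lit 0) (XT.lf (nat_lit 0) (nat_lit 11729479312) (nat_lit 228) (nat_lit 12685612122) (nat_lit 76) (nat_lit 3781242015) (nat_lit 15) (nat_lit 5) (nat_lit 18) (nat_lit 5) (nat_lit 16) (nat_lit 4) (nat_lit 361) (nat_lit 244) (nat_lit 175)) (XT.lf (nat_lit 0) (nat_lit 17520052513) (nat_lit 228) (nat_lit 1147104173) (nat_lit 76) (nat_lit 10239901736) (nat_lit 15) (nat_lit 5) (nat_lit 18) (nat_lit 5) (nat_lit 16) (nat_lit 4) (nat_lit 362) (nat_lit 244) (nat_lit 174))) (XT.nd (nat_lit 34944) (nat_lit 0) (nat_lit 22420) (XT.lf (nat_lit 0) (nat_lit 10808520489) (nat_lit 76) (nat_lit 12706313971) (nat_lit 152) (nat_lit 6123671502) (nat_lit 14) (nat_lit 5) (nat_lit 15) (nat_lit 5) (nat_lit 16) (nat_lit 4) (nat_lit 363) (nat_lit 244) (nat_lit 173)) (XT.lf (nat_lit 0) (nat_lit 766373076) (nat_lit 836) (nat_lit 2213880284) (nat_lit 0) (nat_lit 766373076) (nat_lit 309) (nat_lit 5) (nat_lit 320) (nat_lit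 4) (nat_lit 309) (nat_lit 4) (nat_lit 290) (nat_lit 245) (nat_lit 245))))))))
noncomputable def xc26 : XT := (XT.nd (nat_lit 2028) (nat_lit 6004) (nat_lit 0) (XT.nd (nat_lit 1014) (nat_lit 5776) (nat_lit 0) (XT.nd (nat_lit 468) (nat_lit 4408) (nat_lit 0) (XT.nd (nat_lit 234) (nat_lit 2128) (nat_lit 0) (XT.nd (nat_lit 78) (nat_lit 1672) (nat_lit 0) (XT.lf (nat_lit 0) (nat_lit 3300128869) (nat_lit 836) (nat_lit 3204557174) (nat_lit 836) (nat_lit 1063134568) (nat_lit 298) (nat_lit 4) (nat_lit 309) (nat_lit 5) (nat_lit 309) (nat_lit 4) (nat_lit 291) (nat_lit 245) (nat_lit 244)) (XT.nd (nat_lit 78) (nat_lit 836) (nat_lit 0) (XT.lf (nat_lit 0) (nat_lit 3541786452) (nat_lit 760) (nat_lit 300916582) (nat_lit 836) (nat_lit 3803274141) (nat_lit 287) (nat_lit 5) (nat_lit 297) (nat_lit 5) (nat_lit 298) (nat_lit 4) (nat_lit 292) (nat_lit 245) (nat_lit 243)) (XT.lf (nat_lit 0) (nat_lit 1073992042) (nat_lit 836)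 (nat_lit 3947173197) (nat_lit 76) (nat_lit 2706475564) (nat_lit 276) (nat_lit 5) (nat_lit 287) (nat_lit 5) (nat_lit 277) (nat_lit 4) (nat_lit 293) (nat_lit 245) (nat_lit 242)))) (XT.nd (nat_lit 78) (nat_lit 1444) (nat_lit 0) (XT.lf (nat_lit 0) (nat_lit 4016996518) (nat_lit 684) (nat_lit 1950782238) (nat_lit 760) (nat_lit 1845168307) (nat_lit 267) (nat_lit 5) (nat_lit 276) (nat_lit 5) (nat_lit 277) (nat_lit 4) (nat_lit 294) (nat_lit 245) (nat_lit 241)) (XT.nd (nat_lit 78) (nat_lit 684) (nat_lit 0) (XT.lf (nat_lit 0) (nat_lit 2997006432) (nat_lit 760) (nat_lit 3655102322) (nat_lit 76) (nat_lit 1249822901) (nat_lit 257) (nat_lit 5) (nat_lit 267) (nat_lit 5) (nat_lit 258) (nat_lit 4) (nat_lit 295) (nat_lit 245) (nat_lit 240)) (XT.lf (nat_lit 0) (nat_lit 4468676315) (nat_lit 684) (nat_lit 3428953470) (nat_lit 760) (nat_lit 97069933) (nat_lit 248) (nat_lit 5) (nat_lit 257) (nat_lit 5) (nat_lit 258) (nat_lit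 4) (nat_lit 296) (nat_lit 245) (nat_lit 239))))) (XT.nd (nat_lit 234) (nat_lit 2356) (nat_lit 0) (XT.nd (nat_lit 78) (nat_lit 1292) (nat_lit 0) (XT.lf (nat_lit 0) (nat_lit 4672566394) (nat_lit 684) (nat_lit 46044580) (nat_lit 760) (nat_lit 3372581109) (nat_lit 238) (nat_lit 5) (nat_lit 247) (nat_lit 5) (nat_lit 248) (nat_lit 5) (nat_lit 297) (nat_lit 245) (nat_lit 238)) (XT.nd (nat_lit 78) (nat_lit 608) (nat_lit 0) (XT.lf (nat_lit 0) (nat_lit 1419479588) (nat_lit 684) (nat_lit 3338485194) (nat_lit 76) (nat_lit 3433477817) (nat_lit 229) (nat_lit 5) (nat_lit 238) (nat_lit 5) (nat_lit 230) (nat_lit 5) (nat_lit 298) (nat_lit 245) (nat_lit 237)) (XT.lf (nat_lit 0) (nat_lit 5015309078) (nat_lit 608) (nat_lit 1226951003) (nat_lit 684) (nat_lit 2053447241) (nat_lit 221) (nat_lit 5) (nat_lit 229) (nat_lit 5) (nat_lit 230) (nat_lit 5) (nat_lit 299) (nat_lit 245) (nat_lit 236)))) (XT.nd (nat_lit 156) (nat_lit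 1140) (nat_lit 0) (XT.nd (nat_lit 78) (nat_lit 608) (nat_lit 0) (XT.lf (nat_lit 0) (nat_lit 2720084729) (nat_lit 608) (nat_lit 3259970709) (nat_lit 76) (nat_lit 2423777598) (nat_lit 213) (nat_lit 5) (nat_lit 221) (nat_lit 5) (nat_lit 214) (nat_lit 5) (nat_lit 300) (nat_lit 245) (nat_lit 235)) (XT.lf (nat_lit 0) (nat_lit 5245941541) (nat_lit 608) (nat_lit 2308218130) (nat_lit 684) (nat_lit 961966586) (nat_lit 205) (nat_lit 5) (nat_lit 213) (nat_lit 5) (nat_lit 214) (nat_lit 5) (nat_lit 301) (nat_lit 245) (nat_lit 234))) (XT.nd (nat_lit 78) (nat_lit 532) (nat_lit 0) (XT.lf (nat_lit 0) (nat_lit 3799010662) (nat_lit 608) (nat_lit 3328950072) (nat_lit 76) (nat_lit 1504441803) (nat_lit 197) (nat_lit 5) (nat_lit 205) (nat_lit 5) (nat_lit 198) (nat_lit 5) (nat_lit 302) (nat_lit 245) (nat_lit 233)) (XT.lf (nat_lit 0) (nat_lit 5324444872) (nat_lit 532) (nat_lit 3322022543) (nat_lit 608) (nat_lit 106530452)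 (nat_lit 190) (nat_lit 5) (nat_lit 197) (nat_lit 5) (nat_lit 198) (nat_lit 5) (nat_lit 303) (nat_lit 245) (nat_lit 232)))))) (XT.nd (nat_lit 468) (nat_lit 2584) (nat_lit 0) (XT.nd (nat_lit 234) (nat_lit 1520) (nat_lit 0) (XT.nd (nat_lit 78) (nat_lit 1064) (nat_lit 0) (XT.lf (nat_lit 0) (nat_lit 4646899185) (nat_lit 608) (nat_lit 3587299421) (nat_lit 76) (nat_lit 643537575) (nat_lit 182) (nat_lit 5) (nat_lit 190) (nat_lit 5) (nat_lit 183) (nat_lit 5) (nat_lit 304) (nat_lit 245) (nat_lit 231)) (XT.nd (nat_lit 78) (nat_lit 456) (nat_lit 0) (XT.lf (nat_lit 0) (nat_lit 495420273) (nat_lit 608) (nat_lit 3802327032) (nat_lit 76) (nat_lit 4709126219) (nat_lit 174) (nat_lit 5) (nat_lit 182) (nat_lit 5) (nat_lit 175) (nat_lit 5) (nat_lit 305) (nat_lit 245) (nat_lit 230)) (XT.lf (nat_lit 0) (nat_lit 5059101817) (nat_lit 456) (nat_lit 194060036) (nat_lit 532) (nat_lit 3887301483) (nat_lit 168) (nat_lit 5)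 (nat_lit 174) (nat_lit 5) (nat_lit 175) (nat_lit 5) (nat_lit 306) (nat_lit 245) (nat_lit 229)))) (XT.nd (nat_lit 78) (nat_lit 988) (nat_lit 0) (XT.lf (nat_lit 0) (nat_lit 839011377) (nat_lit 532) (nat_lit 4434259457) (nat_lit 76) (nat_lit 4005255211) (nat_lit 161) (nat_lit 5) (nat_lit 168) (nat_lit 5) (nat_lit 162) (nat_lit 5) (nat_lit 307) (nat_lit 245) (nat_lit 228)) (XT.nd (nat_lit 78) (nat_lit 532) (nat_lit 0) (XT.lf (nat_lit 0) (nat_lit 4558334906) (nat_lit 456) (nat_lit 1047986373) (nat_lit 532) (nat_lit 3814930086) (nat_lit 155) (nat_lit 5) (nat_lit 161) (nat_lit 5) (nat_lit 162) (nat_lit 5) (nat_lit 308) (nat_lit 245) (nat_lit 227)) (XT.lf (nat_lit 0) (nat_lit 909581331) (nat_lit 532) (nat_lit 5374497311) (nat_lit 76) (nat_lit 3284655529) (nat_lit 148) (nat_lit 5) (nat_lit 155) (nat_lit 5) (nat_lit 149) (nat_lit 5) (nat_lit 309) (nat_lit 245) (nat_lit 226))))) (XT.nd (nat_lit 234) (nat_lit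 1292) (nat_lit 0) (XT.nd (nat_lit 78) (nat_lit 912) (nat_lit 0) (XT.lf (nat_lit 0) (nat_lit 3740091609) (nat_lit 380) (nat_lit 1944937888) (nat_lit 456) (nat_lit 4035956354) (nat_lit 143) (nat_lit 5) (nat_lit 148) (nat_lit 5) (nat_lit 149) (nat_lit 5) (nat_lit 310) (nat_lit 245) (nat_lit 225)) (XT.nd (nat_lit 78) (nat_lit 380) (nat_lit 0) (XT.lf (nat_lit 0) (nat_lit 688110699) (nat_lit 532) (nat_lit 6678322973) (nat_lit 76) (nat_lit 2511909246) (nat_lit 136) (nat_lit 5) (nat_lit 143) (nat_lit 5) (nat_lit 137) (nat_lit 5) (nat_lit 311) (nat_lit 245) (nat_lit 224)) (XT.lf (nat_lit 0) (nat_lit 2547350803) (nat_lit 380) (nat_lit 2921775731) (nat_lit 456) (nat_lit 4571423506) (nat_lit 131) (nat_lit 5) (nat_lit 136) (nat_lit 5) (nat_lit 137) (nat_lit 5) (nat_lit 312) (nat_lit 245) (nat_lit 223)))) (XT.nd (nat_lit 156) (nat_lit 456) (nat_lit 0) (XT.nd (nat_lit 78) (nat_lit 380) (nat_lit 0) (XT.lf (nat_lit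 0) (nat_lit 152390094) (nat_lit 456) (nat_lit 8406038123) (nat_lit 76) (nat_lit 1649854425) (nat_lit 125) (nat_lit 5) (nat_lit 131) (nat_lit 5) (nat_lit 126) (nat_lit 5) (nat_lit 313) (nat_lit 245) (nat_lit 222)) (XT.lf (nat_lit 0) (nat_lit 917835359) (nat_lit 380) (nat_lit 4017329404) (nat_lit 456) (nat_lit 5445750255) (nat_lit 120) (nat_lit 5) (nat_lit 125) (nat_lit 5) (nat_lit 126) (nat_lit 5) (nat_lit 314) (nat_lit 245) (nat_lit 221))) (XT.nd (nat_lit 78) (nat_lit 456) (nat_lit 0) (XT.lf (nat_lit 0) (nat_lit 9827075909) (nat_lit 456) (nat_lit 67967361) (nat_lit 76) (nat_lit 664427529) (nat_lit 120) (nat_lit 5) (nat_lit 126) (nat_lit 5) (nat_lit 121) (nat_lit 5) (nat_lit 315) (nat_lit 245) (nat_lit 220)) (XT.lf (nat_lit 0) (nat_lit 4064034695) (nat_lit 456) (nat_lit 1200684498) (nat_lit 76) (nat_lit 5478268708) (nat_lit 114) (nat_lit 5) (nat_lit 120) (nat_lit 5) (nat_lit 115) (nat_lit 5) (nat_lit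 316) (nat_lit 245) (nat_lit 219))))))) (XT.nd (nat_lit 1014) (nat_lit 2432) (nat_lit 0) (XT.nd (nat_lit 468) (nat_lit 1520) (nat_lit 0) (XT.nd (nat_lit 234) (nat_lit 988) (nat_lit 0) (XT.nd (nat_lit 78) (nat_lit 760) (nat_lit 0) (XT.lf (nat_lit 0) (nat_lit 8479014230) (nat_lit 304) (nat_lit 478962010) (nat_lit 380) (nat_lit 1974719201) (nat_lit 110) (nat_lit 5) (nat_lit 114) (nat_lit 5) (nat_lit 115) (nat_lit 5) (nat_lit 317) (nat_lit 245) (nat_lit 218)) (XT.nd (nat_lit 78) (nat_lit 304) (nat_lit 0) (XT.lf (nat_lit 0) (nat_lit 2826682857) (nat_lit 456) (nat_lit 3879333974) (nat_lit 76) (nat_lit 4421881390) (nat_lit 104) (nat_lit 5) (nat_lit 110) (nat_lit 5) (nat_lit 105) (nat_lit 5) (nat_lit 318) (nat_lit 245) (nat_lit 217)) (XT.lf (nat_lit 0) (nat_lit 5871866249) (nat_lit 304) (nat_lit 1842287786) (nat_lit 380) (nat_lit 3615213981) (nat_lit 100) (nat_lit 5) (nat_lit 104) (nat_lit 5) (nat_lit 105)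 (nat_lit 5) (nat_lit 319) (nat_lit 245) (nat_lit 216)))) (XT.nd (nat_lit 78) (nat_lit 608) (nat_lit 0) (XT.lf (nat_lit 0) (nat_lit 1182591810) (nat_lit 380) (nat_lit 7211289708) (nat_lit 76) (nat_lit 3143147594) (nat_lit 95) (nat_lit 5) (nat_lit 100) (nat_lit 5) (nat_lit 96) (nat_lit 5) (nat_lit 320) (nat_lit 245) (nat_lit 215)) (XT.nd (nat_lit 78) (nat_lit 304) (nat_lit 0) (XT.lf (nat_lit 0) (nat_lit 2590449892) (nat_lit 304) (nat_lit 3464574208) (nat_lit 380) (nat_lit 5695867206) (nat_lit 91) (nat_lit 5) (nat_lit 95) (nat_lit 5) (nat_lit 96) (nat_lit 5) (nat_lit 321) (nat_lit 245) (nat_lit 214)) (XT.lf (nat_lit 0) (nat_lit 679822668) (nat_lit 304) (nat_lit 10372416566) (nat_lit 380) (nat_lit 919401992) (nat_lit 87) (nat_lit 5) (nat_lit 91) (nat_lit 5) (nat_lit 92) (nat_lit 5) (nat_lit 322) (nat_lit 245) (nat_lit 213))))) (XT.nd (nat_lit 234) (nat_lit 836) (nat_lit 0) (XT.nd (nat_lit 78) (nat_lit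 608) (nat_lit 0) (XT.lf (nat_lit 0) (nat_lit 3949124328) (nat_lit 380) (nat_lit 1438704729) (nat_lit 76) (nat_lit 6810682410) (nat_lit 86) (nat_lit 5) (nat_lit 91) (nat_lit 5) (nat_lit 87) (nat_lit 5) (nat_lit 323) (nat_lit 245) (nat_lit 212)) (XT.nd (nat_lit 78) (nat_lit 380) (nat_lit 0) (XT.lf (nat_lit 0) (nat_lit 8689602674) (nat_lit 228) (nat_lit 236139728) (nat_lit 304) (nat_lit 3506874039) (nat_lit 83) (nat_lit 5) (nat_lit 86) (nat_lit 5) (nat_lit 87) (nat_lit 5) (nat_lit 324) (nat_lit 245) (nat_lit 211)) (XT.lf (nat_lit 0) (nat_lit 1363364151) (nat_lit 380) (nat_lit 6291427833) (nat_lit 76) (nat_lit 5018741980) (nat_lit 78) (nat_lit 5) (nat_lit 83) (nat_lit 5) (nat_lit 79) (nat_lit 5) (nat_lit 325) (nat_lit 245) (nat_lit 210)))) (XT.nd (nat_lit 156) (nat_lit 304) (nat_lit 0) (XT.nd (nat_lit 78) (nat_lit 304) (nat_lit 0) (XT.lf (nat_lit 0) (nat_lit 3839685810) (nat_lit 228) (nat_lit 2464973701)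 (nat_lit 304) (nat_lit 6617141623) (nat_lit 75) (nat_lit 5) (nat_lit 78) (nat_lit 5) (nat_lit 79) (nat_lit 5) (nat_lit 326) (nat_lit 245) (nat_lit 209)) (XT.lf (nat_lit 0) (nat_lit 1053252410) (nat_lit 304) (nat_lit 10330892902) (nat_lit 380) (nat_lit 1793608502) (nat_lit 71) (nat_lit 5) (nat_lit 75) (nat_lit 5) (nat_lit 76) (nat_lit 5) (nat_lit 327) (nat_lit 245) (nat_lit 208))) (XT.nd (nat_lit 78) (nat_lit 228) (nat_lit 0) (XT.lf (nat_lit 0) (nat_lit 3133863908) (nat_lit 380) (nat_lit 1985448303) (nat_lit 76) (nat_lit 8321678013) (nat_lit 70) (nat_lit 5) (nat_lit 75) (nat_lit 5) (nat_lit 71) (nat_lit 5) (nat_lit 328) (nat_lit 245) (nat_lit 207)) (XT.lf (nat_lit 0) (nat_lit 8166150344) (nat_lit 304) (nat_lit 5278829684) (nat_lit 76) (nat_lit 267313179) (nat_lit 67) (nat_lit 5) (nat_lit 71) (nat_lit 5) (nat_lit 68) (nat_lit 5) (nat_lit 329) (nat_lit 245) (nat_lit 206)))))) (XT.nd (nat_lit 546)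 (nat_lit 1140) (nat_lit 0) (XT.nd (nat_lit 234) (nat_lit 760) (nat_lit 0) (XT.nd (nat_lit 78) (nat_lit 304) (nat_lit 0) (XT.lf (nat_lit 0) (nat_lit 5112981979) (nat_lit 228) (nat_lit 8243217053) (nat_lit 304) (nat_lit 635433148) (nat_lit 64) (nat_lit 5) (nat_lit 67) (nat_lit 5) (nat_lit 68) (nat_lit 5) (nat_lit 330) (nat_lit 245) (nat_lit 205)) (XT.nd (nat_lit 78) (nat_lit 0) (nat_lit 0) (XT.lf (nat_lit 0) (nat_lit 1481187198) (nat_lit 228) (nat_lit 2855728915) (nat_lit 304) (nat_lit 9942445683) (nat_lit 60) (nat_lit 5) (nat_lit 63) (nat_lit 5) (nat_lit 64) (nat_lit 5) (nat_lit 331) (nat_lit 245) (nat_lit 204)) (XT.lf (nat_lit 0) (nat_lit 9455674944) (nat_lit 304) (nat_lit 2441994952) (nat_lit 76) (nat_lit 2677882243) (nat_lit 60) (nat_lit 5) (nat_lit 64) (nat_lit 5) (nat_lit 61) (nat_lit 5) (nat_lit 332) (nat_lit 245) (nat_lit 203)))) (XT.nd (nat_lit 156) (nat_lit 228) (nat_lit 0) (XT.nd (nat_lit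 78) (nat_lit 304) (nat_lit 0) (XT.lf (nat_lit 0) (nat_lit 8198056663) (nat_lit 228) (nat_lit 6532141042) (nat_lit 304) (nat_lit 150415869) (nat_lit 57) (nat_lit 5) (nat_lit 60) (nat_lit 5) (nat_lit 61) (nat_lit 5) (nat_lit 333) (nat_lit 245) (nat_lit 202)) (XT.lf (nat_lit 0) (nat_lit 3900718695) (nat_lit 228) (nat_lit 974934956) (nat_lit 304) (nat_lit 10319102414) (nat_lit 53) (nat_lit 5) (nat_lit 56) (nat_lit 5) (nat_lit 57) (nat_lit 5) (nat_lit 334) (nat_lit 245) (nat_lit 201))) (XT.nd (nat_lit 78) (nat_lit 228) (nat_lit 0) (XT.lf (nat_lit 0) (nat_lit 10058588560) (nat_lit 304) (nat_lit 770150595) (nat_lit 76) (nat_lit 4689428426) (nat_lit 53) (nat_lit 5) (nat_lit 57) (nat_lit 5) (nat_lit 54) (nat_lit 5) (nat_lit 335) (nat_lit 245) (nat_lit 200)) (XT.lf (nat_lit 0) (nat_lit 10084947865) (nat_lit 228) (nat_lit 5317749635) (nat_lit 304) (nat_lit 448496603) (nat_lit 50) (nat_lit 5) (nat_lit 53)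 (nat_lit 5) (nat_lit 54) (nat_lit 5) (nat_lit 336) (nat_lit 245) (nat_lit 199))))) (XT.nd (nat_lit 234) (nat_lit 684) (nat_lit 0) (XT.nd (nat_lit 78) (nat_lit 228) (nat_lit 0) (XT.lf (nat_lit 0) (nat_lit 4625830193) (nat_lit 228) (nat_lit 11188856095) (nat_lit 76) (nat_lit 379443801) (nat_lit 47) (nat_lit 5) (nat_lit 50) (nat_lit 5) (nat_lit 48) (nat_lit 5) (nat_lit 337) (nat_lit 245) (nat_lit 198)) (XT.nd (nat_lit 78) (nat_lit 228) (nat_lit 0) (XT.lf (nat_lit 0) (nat_lit 9856611564) (nat_lit 228) (nat_lit 515138140) (nat_lit 76) (nat_lit 6175363176) (nat_lit 47) (nat_lit 5) (nat_lit 50) (nat_lit 5) (nat_lit 48) (nat_lit 5) (nat_lit 338) (nat_lit 245) (nat_lit 197)) (XT.lf (nat_lit 0) (nat_lit 10511196739) (nat_lit 228) (nat_lit 4738635710) (nat_lit 304) (nat_lit 1660766053) (nat_lit 44) (nat_lit 5) (nat_lit 47) (nat_lit 5) (nat_lit 48) (nat_lit 5) (nat_lit 339) (nat_lit 245) (nat_lit 196)))) (XT.nd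 (nat_lit 156) (nat_lit 456) (nat_lit 0) (XT.nd (nat_lit 78) (nat_lit 0) (nat_lit 0) (XT.lf (nat_lit 0) (nat_lit 3451564138) (nat_lit 228) (nat_lit 12769832254) (nat_lit 76) (nat_lit 1063600434) (nat_lit 41) (nat_lit 5) (nat_lit 44) (nat_lit 5) (nat_lit 42) (nat_lit 5) (nat_lit 340) (nat_lit 245) (nat_lit 195)) (XT.lf (nat_lit 0) (nat_lit 8709029088) (nat_lit 228) (nat_lit 1971934926) (nat_lit 76) (nat_lit 6989178842) (nat_lit 41) (nat_lit 5) (nat_lit 44) (nat_lit 5) (nat_lit 42) (nat_lit 5) (nat_lit 341) (nat_lit 245) (nat_lit 194))) (XT.nd (nat_lit 78) (nat_lit 228) (nat_lit 0) (XT.lf (nat_lit 0) (nat_lit 9169325394) (nat_lit 228) (nat_lit 4955065381) (nat_lit 304) (nat_lit 3942470271) (nat_lit 38) (nat_lit 5) (nat_lit 41) (nat_lit 5) (nat_lit 42) (nat_lit 5) (nat_lit 342) (nat_lit 245) (nat_lit 193)) (XT.lf (nat_lit 0) (nat_lit 1185237854) (nat_lit 228) (nat_lit 16365746956) (nat_lit 76) (nat_lit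 924865006) (nat_lit 35) (nat_lit 5) (nat_lit 38) (nat_lit 5) (nat_lit 36) (nat_lit 5) (nat_lit 343) (nat_lit 245) (nat_lit 192))))))))
noncomputable def xc27 : XT := (XT.nd (nat_lit 36816) (nat_lit 0) (nat_lit 6156) (XT.nd (nat_lit 1014) (nat_lit 380) (nat_lit 0) (XT.nd (nat_lit 468) (nat_lit 684) (nat_lit 0) (XT.nd (nat_lit 234) (nat_lit 380) (nat_lit 0) (XT.nd (nat_lit 78) (nat_lit 152) (nat_lit 0) (XT.lf (nat_lit 0) (nat_lit 6449472249) (nat_lit 228) (nat_lit 5485322418) (nat_lit 76) (nat_lit 6961086858) (nat_lit 35) (nat_lit 5) (nat_lit 38) (nat_lit 5) (nat_lit 36) (nat_lit 5) (nat_lit 344) (nat_lit 245) (nat_lit 191)) (XT.nd (nat_lit 78) (nat_lit 0) (nat_lit 0) (XT.lf (nat_lit 0) (nat_lit 5699881114) (nat_lit 152) (nat_lit 6152569582) (nat_lit 228) (nat_lit 7476466199) (nat_lit 33) (nat_lit 5) (nat_lit 35) (nat_lit 5) (nat_lit 36) (nat_lit 5) (nat_lit 345) (nat_lit 245) (nat_lit 190)) (XT.lf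 (nat_lit 0) (nat_lit 17200899796) (nat_lit 152) (nat_lit 198619536) (nat_lit 228) (nat_lit 2375802475) (nat_lit 33) (nat_lit 5) (nat_lit 35) (nat_lit 5) (nat_lit 36) (nat_lit 5) (nat_lit 346) (nat_lit 245) (nat_lit 189)))) (XT.nd (nat_lit 78) (nat_lit 152) (nat_lit 0) (XT.lf (nat_lit 0) (nat_lit 2882218976) (nat_lit 228) (nat_lit 11457503613) (nat_lit 76) (nat_lit 5894198548) (nat_lit 30) (nat_lit 5) (nat_lit 33) (nat_lit 5) (nat_lit 31) (nat_lit 5) (nat_lit 347) (nat_lit 245) (nat_lit 188)) (XT.nd (nat_lit 78) (nat_lit 152) (nat_lit 0) (XT.lf (nat_lit 0) (nat_lit 8231570398) (nat_lit 228) (nat_lit 312359238) (nat_lit 76) (nat_lit 12162734480) (nat_lit 30) (nat_lit 5) (nat_lit 33) (nat_lit 5) (nat_lit 31) (nat_lit 5) (nat_lit 348) (nat_lit 245) (nat_lit 187)) (XT.lf (nat_lit 0) (nat_lit 11224920194) (nat_lit 152) (nat_lit 2537705770) (nat_lit 228) (nat_lit 7430555544) (nat_lit 28) (nat_lit 5) (nat_lit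 30) (nat_lit 5) (nat_lit 31) (nat_lit 5) (nat_lit 349) (nat_lit 245) (nat_lit 186))))) (XT.nd (nat_lit 234) (nat_lit 304) (nat_lit 0) (XT.nd (nat_lit 78) (nat_lit 228) (nat_lit 0) (XT.lf (nat_lit 0) (nat_lit 1323218196) (nat_lit 152) (nat_lit 18119842011) (nat_lit 228) (nat_lit 2251581385) (nat_lit 26) (nat_lit 5) (nat_lit 28) (nat_lit 5) (nat_lit 29) (nat_lit 4) (nat_lit 350) (nat_lit 245) (nat_lit 185)) (XT.nd (nat_lit 78) (nat_lit 152) (nat_lit 0) (XT.lf (nat_lit 0) (nat_lit 3076903039) (nat_lit 228) (nat_lit 9245357289) (nat_lit 76) (nat_lit 9887808741) (nat_lit 25) (nat_lit 5) (nat_lit 28) (nat_lit 5) (nat_lit 26) (nat_lit 5) (nat_lit 351) (nat_lit 245) (nat_lit 184)) (XT.lf (nat_lit 0) (nat_lit 2142072227) (nat_lit 152) (nat_lit 6357735355) (nat_lit 228) (nat_lit 14241565906) (nat_lit 23) (nat_lit 5) (nat_lit 25) (nat_lit 5) (nat_lit 26) (nat_lit 5) (nat_lit 352) (nat_lit 245) (nat_lit 183))))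 (XT.nd (nat_lit 156) (nat_lit 228) (nat_lit 0) (XT.nd (nat_lit 78) (nat_lit 76) (nat_lit 0) (XT.lf (nat_lit 0) (nat_lit 13913608031) (nat_lit 152) (nat_lit 186393525) (nat_lit 228) (nat_lit 9188337891) (nat_lit 23) (nat_lit 5) (nat_lit 25) (nat_lit 5) (nat_lit 26) (nat_lit 5) (nat_lit 353) (nat_lit 245) (nat_lit 182)) (XT.lf (nat_lit 0) (nat_lit 2091607180) (nat_lit 76) (nat_lit 17783359783) (nat_lit 152) (nat_lit 3976626146) (nat_lit 22) (nat_lit 5) (nat_lit 23) (nat_lit 5) (nat_lit 24) (nat_lit 4) (nat_lit 354) (nat_lit 245) (nat_lit 181))) (XT.nd (nat_lit 78) (nat_lit 152) (nat_lit 0) (XT.lf (nat_lit 0) (nat_lit 1392027583) (nat_lit 152) (nat_lit 10492549798) (nat_lit 76) (nat_lit 12546622884) (nat_lit 21) (nat_lit 5) (nat_lit 23) (nat_lit 5) (nat_lit 22) (nat_lit 5) (nat_lit 355) (nat_lit 245) (nat_lit 180)) (XT.lf (nat_lit 0) (nat_lit 1020443578) (nat_lit 152) (nat_lit 5809200300) (nat_lit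 228) (nat_lit 18198800423) (nat_lit 19) (nat_lit 5) (nat_lit 21) (nat_lit 5) (nat_lit 22) (nat_lit 5) (nat_lit 356) (nat_lit 245) (nat_lit 179)))))) (XT.nd (nat_lit 35256) (nat_lit 0) (nat_lit 19228) (XT.nd (nat_lit 234) (nat_lit 304) (nat_lit 0) (XT.nd (nat_lit 78) (nat_lit 76) (nat_lit 0) (XT.lf (nat_lit 0) (nat_lit 12460453560) (nat_lit 228) (nat_lit 12701762793) (nat_lit 76) (nat_lit 480800600) (nat_lit 19) (nat_lit 5) (nat_lit 22) (nat_lit 5) (nat_lit 20) (nat_lit 4) (nat_lit 357) (nat_lit 245) (nat_lit 178)) (XT.nd (nat_lit 78) (nat_lit 76) (nat_lit 0) (XT.lf (nat_lit 0) (nat_lit 18255911608) (nat_lit 228) (nat_lit 1171542889) (nat_lit 76) (nat_lit 6848670032) (nat_lit 19) (nat_lit 5) (nat_lit 22) (nat_lit 5) (nat_lit 20) (nat_lit 4) (nat_lit 358) (nat_lit 245) (nat_lit 177)) (XT.lf (nat_lit 0) (nat_lit 10771724221) (nat_lit 76) (nat_lit 13481577792) (nat_lit 152) (nat_lit 2674373816) (nat_lit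 18) (nat_lit 5) (nat_lit 19) (nat_lit 5) (nat_lit 20) (nat_lit 4) (nat_lit 359) (nat_lit 245) (nat_lit 176)))) (XT.nd (nat_lit 156) (nat_lit 76) (nat_lit 0) (XT.nd (nat_lit 78) (nat_lit 152) (nat_lit 0) (XT.lf (nat_lit 0) (nat_lit 2761285377) (nat_lit 152) (nat_lit 4601219392) (nat_lit 76) (nat_lit 20236580772) (nat_lit 17) (nat_lit 5) (nat_lit 19) (nat_lit 5) (nat_lit 18) (nat_lit 5) (nat_lit 360) (nat_lit 245) (nat_lit 175)) (XT.lf (nat_lit 0) (nat_lit 7306748567) (nat_lit 152) (nat_lit 1024378599) (nat_lit 228) (nat_lit 19959018853) (nat_lit 15) (nat_lit 5) (nat_lit 17) (nat_lit 5) (nat_lit 18) (nat_lit 5) (nat_lit 361) (nat_lit 245) (nat_lit 174))) (XT.nd (nat_lit 78) (nat_lit 76) (nat_lit 0) (XT.lf (nat_lit 0) (nat_lit 14095500390) (nat_lit 228) (nat_lit 9473112556) (nat_lit 76) (nat_lit 5432787291) (nat_lit 15) (nat_lit 5) (nat_lit 18) (nat_lit 5) (nat_lit 16) (nat_lit 4) (nat_lit 362) (nat_lit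 245) (nat_lit 173)) (XT.lf (nat_lit 0) (nat_lit 2337555629) (nat_lit 76) (nat_lit 17678747943) (nat_lit 152) (nat_lit 9718028873) (nat_lit 14) (nat_lit 5) (nat_lit 15) (nat_lit 5) (nat_lit 16) (nat_lit 4) (nat_lit 363) (nat_lit 245) (nat_lit 172))))) (XT.nd (nat_lit 234) (nat_lit 3192) (nat_lit 0) (XT.nd (nat_lit 78) (nat_lit 1672) (nat_lit 0) (XT.lf (nat_lit 0) (nat_lit 674808912) (nat_lit 912) (nat_lit 2326954624) (nat_lit 0) (nat_lit 674808912) (nat_lit 331) (nat_lit 5) (nat_lit 343) (nat_lit 4) (nat_lit 331) (nat_lit 4) (nat_lit 288) (nat_lit 246) (nat_lit 246)) (XT.nd (nat_lit 78) (nat_lit 836) (nat_lit 0) (XT.lf (nat_lit 0) (nat_lit 2836242611) (nat_lit 836) (nat_lit 3417834276) (nat_lit 836) (nat_lit 1168055687) (nat_lit 320) (nat_lit 4) (nat_lit 331) (nat_lit 5) (nat_lit 331) (nat_lit 4) (nat_lit 289) (nat_lit 246) (nat_lit 245)) (XT.lf (nat_lit 0) (nat_lit 2985767059) (nat_lit 760) (nat_lit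 687399626) (nat_lit 836) (nat_lit 3821465569) (nat_lit 309) (nat_lit 5) (nat_lit 319) (nat_lit 5) (nat_lit 320) (nat_lit 4) (nat_lit 290) (nat_lit 246) (nat_lit 244)))) (XT.nd (nat_lit 156) (nat_lit 1520) (nat_lit 0) (XT.nd (nat_lit 78) (nat_lit 760) (nat_lit 0) (XT.lf (nat_lit 0) (nat_lit 988105885) (nat_lit 912) (nat_lit 4430165073) (nat_lit 76) (nat_lit 2152334019) (nat_lit 297) (nat_lit 5) (nat_lit 309) (nat_lit 5) (nat_lit 298) (nat_lit 4) (nat_lit 291) (nat_lit 246) (nat_lit 243)) (XT.lf (nat_lit 0) (nat_lit 3295016932) (nat_lit 760) (nat_lit 2516692018) (nat_lit 836) (nat_lit 1838349198) (nat_lit 287) (nat_lit 5) (nat_lit 297) (nat_lit 5) (nat_lit 298) (nat_lit 4) (nat_lit 292) (nat_lit 246) (nat_lit 242))) (XT.nd (nat_lit 78) (nat_lit 684) (nat_lit 0) (XT.lf (nat_lit 0) (nat_lit 2930838380) (nat_lit 836) (nat_lit 4280039986) (nat_lit 76) (nat_lit 522299940) (nat_lit 276) (nat_lit 5) (nat_lit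 287) (nat_lit 5) (nat_lit 277) (nat_lit 4) (nat_lit 293) (nat_lit 246) (nat_lit 241)) (XT.lf (nat_lit 0) (nat_lit 3604734231) (nat_lit 684) (nat_lit 4152883391) (nat_lit 760) (nat_lit 62270703) (nat_lit 267) (nat_lit 5) (nat_lit 276) (nat_lit 5) (nat_lit 277) (nat_lit 4) (nat_lit 294) (nat_lit 246) (nat_lit 240))))))) (XT.nd (nat_lit 1014) (nat_lit 5016) (nat_lit 0) (XT.nd (nat_lit 468) (nat_lit 3952) (nat_lit 0) (XT.nd (nat_lit 234) (nat_lit 1900) (nat_lit 0) (XT.nd (nat_lit 78) (nat_lit 1444) (nat_lit 0) (XT.lf (nat_lit 0) (nat_lit 3744041428) (nat_lit 684) (nat_lit 937530813) (nat_lit 760) (nat_lit 3228628680) (nat_lit 257) (nat_lit 5) (nat_lit 266) (nat_lit 5) (nat_lit 267) (nat_lit 5) (nat_lit 295) (nat_lit 246) (nat_lit 239)) (XT.nd (nat_lit 78) (nat_lit 684) (nat_lit 0) (XT.lf (nat_lit 0) (nat_lit 1485986501) (nat_lit 760) (nat_lit 4131955563) (nat_lit 76) (nat_lit 2386330048) (nat_lit 247)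 (nat_lit 5) (nat_lit 257) (nat_lit 5) (nat_lit 248) (nat_lit 5) (nat_lit 296) (nat_lit 246) (nat_lit 238)) (XT.lf (nat_lit 0) (nat_lit 3983566916) (nat_lit 684) (nat_lit 2251133855) (nat_lit 760) (nat_lit 1867420921) (nat_lit 238) (nat_lit 5) (nat_lit 247) (nat_lit 5) (nat_lit 248) (nat_lit 5) (nat_lit 297) (nat_lit 246) (nat_lit 237)))) (XT.nd (nat_lit 78) (nat_lit 1216) (nat_lit 0) (XT.lf (nat_lit 0) (nat_lit 2825024577) (nat_lit 684) (nat_lit 4129383312) (nat_lit 76) (nat_lit 1249419620) (nat_lit 229) (nat_lit 5) (nat_lit 238) (nat_lit 5) (nat_lit 230) (nat_lit 5) (nat_lit 298) (nat_lit 246) (nat_lit 236)) (XT.nd (nat_lit 78) (nat_lit 608) (nat_lit 0) (XT.lf (nat_lit 0) (nat_lit 4139900169) (nat_lit 608) (nat_lit 3443073051) (nat_lit 684) (nat_lit 726467354) (nat_lit 221) (nat_lit 5) (nat_lit 229) (nat_lit 5) (nat_lit 230) (nat_lit 5) (nat_lit 299) (nat_lit 246) (nat_lit 235)) (XT.lf (nat_lit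 0) (nat_lit 3950485010) (nat_lit 608) (nat_lit 4243731558) (nat_lit 76) (nat_lit 224810143) (nat_lit 213) (nat_lit 5) (nat_lit 221) (nat_lit 5) (nat_lit 214) (nat_lit 5) (nat_lit 300) (nat_lit 246) (nat_lit 234))))) (XT.nd (nat_lit 234) (nat_lit 2128) (nat_lit 0) (XT.nd (nat_lit 78) (nat_lit 1140) (nat_lit 0) (XT.lf (nat_lit 0) (nat_lit 185313576) (nat_lit 684) (nat_lit 4358313415) (nat_lit 76) (nat_lit 3988999003) (nat_lit 204) (nat_lit 5) (nat_lit 213) (nat_lit 5) (nat_lit 205) (nat_lit 5) (nat_lit 301) (nat_lit 246) (nat_lit 233)) (XT.nd (nat_lit 78) (nat_lit 608) (nat_lit 0) (XT.lf (nat_lit 0) (nat_lit 4131466809) (nat_lit 532) (nat_lit 728236915) (nat_lit 608) (nat_lit 3790598530) (nat_lit 197) (nat_lit 5) (nat_lit 204) (nat_lit 5) (nat_lit 205) (nat_lit 5) (nat_lit 302) (nat_lit 246) (nat_lit 232)) (XT.lf (nat_lit 0) (nat_lit 855168696) (nat_lit 608) (nat_lit 4727432533) (nat_lit 76) (nat_lit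 3189594366) (nat_lit 189) (nat_lit 5) (nat_lit 197) (nat_lit 5) (nat_lit 190) (nat_lit 5) (nat_lit 303) (nat_lit 246) (nat_lit 231)))) (XT.nd (nat_lit 156) (nat_lit 988) (nat_lit 0) (XT.nd (nat_lit 78) (nat_lit 608) (nat_lit 0) (XT.lf (nat_lit 0) (nat_lit 3905285022) (nat_lit 532) (nat_lit 1634091363) (nat_lit 608) (nat_lit 3358942216) (nat_lit 182) (nat_lit 5) (nat_lit 189) (nat_lit 5) (nat_lit 190) (nat_lit 5) (nat_lit 304) (nat_lit 246) (nat_lit 230)) (XT.lf (nat_lit 0) (nat_lit 1281543516) (nat_lit 608) (nat_lit 5315725348) (nat_lit 76) (nat_lit 2431600593) (nat_lit 174) (nat_lit 5) (nat_lit 182) (nat_lit 5) (nat_lit 175) (nat_lit 5) (nat_lit 305) (nat_lit 246) (nat_lit 229))) (XT.nd (nat_lit 78) (nat_lit 532) (nat_lit 0) (XT.lf (nat_lit 0) (nat_lit 3453553985) (nat_lit 456) (nat_lit 2522474425) (nat_lit 532) (nat_lit 3187734833) (nat_lit 168) (nat_lit 5) (nat_lit 174) (nat_lit 5) (nat_lit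 175) (nat_lit 5) (nat_lit 306) (nat_lit 246) (nat_lit 228)) (XT.lf (nat_lit 0) (nat_lit 1450782414) (nat_lit 532) (nat_lit 6170194728) (nat_lit 76) (nat_lit 1682367351) (nat_lit 161) (nat_lit 5) (nat_lit 168) (nat_lit 5) (nat_lit 162) (nat_lit 5) (nat_lit 307) (nat_lit 246) (nat_lit 227)))))) (XT.nd (nat_lit 546) (nat_lit 2280) (nat_lit 0) (XT.nd (nat_lit 234) (nat_lit 1368) (nat_lit 0) (XT.nd (nat_lit 78) (nat_lit 912) (nat_lit 0) (XT.lf (nat_lit 0) (nat_lit 2727934082) (nat_lit 456) (nat_lit 3427093486) (nat_lit 532) (nat_lit 3292339431) (nat_lit 155) (nat_lit 5) (nat_lit 161) (nat_lit 5) (nat_lit 162) (nat_lit 5) (nat_lit 308) (nat_lit 246) (nat_lit 226)) (XT.nd (nat_lit 78) (nat_lit 380) (nat_lit 0) (XT.lf (nat_lit 0) (nat_lit 1346479771) (nat_lit 532) (nat_lit 7341787243) (nat_lit 76) (nat_lit 908125860) (nat_lit 148) (nat_lit 5) (nat_lit 155) (nat_lit 5) (nat_lit 149) (nat_lit 5) (nat_lit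 309) (nat_lit 246) (nat_lit 225)) (XT.lf (nat_lit 0) (nat_lit 1675947474) (nat_lit 380) (nat_lit 4382970134) (nat_lit 456) (nat_lit 3691020322) (nat_lit 143) (nat_lit 5) (nat_lit 148) (nat_lit 5) (nat_lit 149) (nat_lit 5) (nat_lit 310) (nat_lit 246) (nat_lit 224)))) (XT.nd (nat_lit 156) (nat_lit 456) (nat_lit 0) (XT.nd (nat_lit 78) (nat_lit 380) (nat_lit 0) (XT.lf (nat_lit 0) (nat_lit 949277489) (nat_lit 532) (nat_lit 8885920637) (nat_lit 76) (nat_lit 73668557) (nat_lit 136) (nat_lit 5) (nat_lit 143) (nat_lit 5) (nat_lit 137) (nat_lit 5) (nat_lit 311) (nat_lit 246) (nat_lit 223)) (XT.lf (nat_lit 0) (nat_lit 240430690) (nat_lit 380) (nat_lit 5426773455) (nat_lit 456) (nat_lit 4405162094) (nat_lit 131) (nat_lit 5) (nat_lit 136) (nat_lit 5) (nat_lit 137) (nat_lit 5) (nat_lit 312) (nat_lit 246) (nat_lit 222))) (XT.nd (nat_lit 78) (nat_lit 380) (nat_lit 0) (XT.lf (nat_lit 0) (nat_lit 246350796) (nat_lit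 456) (nat_lit 618888420) (nat_lit 76) (nat_lit 9376269613) (nat_lit 130) (nat_lit 5) (nat_lit 136) (nat_lit 5) (nat_lit 131) (nat_lit 5) (nat_lit 313) (nat_lit 246) (nat_lit 221)) (XT.lf (nat_lit 0) (nat_lit 4966766428) (nat_lit 456) (nat_lit 1619539605) (nat_lit 76) (nat_lit 3829110678) (nat_lit 125) (nat_lit 5) (nat_lit 131) (nat_lit 5) (nat_lit 126) (nat_lit 5) (nat_lit 314) (nat_lit 246) (nat_lit 220))))) (XT.nd (nat_lit 234) (nat_lit 1140) (nat_lit 0) (XT.nd (nat_lit 78) (nat_lit 760) (nat_lit 0) (XT.lf (nat_lit 0) (nat_lit 7869855865) (nat_lit 380) (nat_lit 1928035426) (nat_lit 456) (nat_lit 797324427) (nat_lit 120) (nat_lit 5) (nat_lit 125) (nat_lit 5) (nat_lit 126) (nat_lit 5) (nat_lit 315) (nat_lit 246) (nat_lit 219)) (XT.nd (nat_lit 78) (nat_lit 304) (nat_lit 0) (XT.lf (nat_lit 0) (nat_lit 3924518693) (nat_lit 456) (nat_lit 3983968429) (nat_lit 76) (nat_lit 2871789066) (nat_lit 114) (nat_lit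 5) (nat_lit 120) (nat_lit 5) (nat_lit 115) (nat_lit 5) (nat_lit 316) (nat_lit 246) (nat_lit 218)) (XT.lf (nat_lit 0) (nat_lit 5592300681) (nat_lit 304) (nat_lit 3163415818) (nat_lit 380) (nat_lit 2215547516) (nat_lit 110) (nat_lit 5) (nat_lit 114) (nat_lit 5) (nat_lit 115) (nat_lit 5) (nat_lit 317) (nat_lit 246) (nat_lit 217)))) (XT.nd (nat_lit 156) (nat_lit 380) (nat_lit 0) (XT.nd (nat_lit 78) (nat_lit 304) (nat_lit 0) (XT.lf (nat_lit 0) (nat_lit 2508190724) (nat_lit 456) (nat_lit 6930055878) (nat_lit 76) (nat_lit 1729892102) (nat_lit 104) (nat_lit 5) (nat_lit 110) (nat_lit 5) (nat_lit 105) (nat_lit 5) (nat_lit 318) (nat_lit 246) (nat_lit 216)) (XT.lf (nat_lit 0) (nat_lit 2714953326) (nat_lit 304) (nat_lit 4617473608) (nat_lit 380) (nat_lit 4038469749) (nat_lit 100) (nat_lit 5) (nat_lit 104) (nat_lit 5) (nat_lit 105) (nat_lit 5) (nat_lit 319) (nat_lit 246) (nat_lit 215))) (XT.nd (nat_lit 78) (nat_lit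 0) (nat_lit 0) (XT.lf (nat_lit 0) (nat_lit 682910265) (nat_lit 380) (nat_lit 10539183728) (nat_lit 76) (nat_lit 358180636) (nat_lit 95) (nat_lit 5) (nat_lit 100) (nat_lit 5) (nat_lit 96) (nat_lit 5) (nat_lit 320) (nat_lit 246) (nat_lit 214)) (XT.lf (nat_lit 0) (nat_lit 5496992789) (nat_lit 380) (nat_lit 835401906) (nat_lit 76) (nat_lit 5462930826) (nat_lit 95) (nat_lit 5) (nat_lit 100) (nat_lit 5) (nat_lit 96) (nat_lit 5) (nat_lit 321) (nat_lit 246) (nat_lit 213))))))))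
noncomputable def xc28 : XT := (XT.nd (nat_lit 2028) (nat_lit 1140) (nat_lit 0) (XT.nd (nat_lit 1014) (nat_lit 1976) (nat_lit 0) (XT.nd (nat_lit 468) (nat_lit 1444) (nat_lit 0) (XT.nd (nat_lit 234) (nat_lit 608) (nat_lit 0) (XT.nd (nat_lit 78) (nat_lit 608) (nat_lit 0) (XT.lf (nat_lit 0) (nat_lit 9153438839) (nat_lit 304) (nat_lit 1279637087) (nat_lit 380) (nat_lit 1584243225) (nat_lit 91) (nat_lit 5) (nat_lit 95) (nat_lit 5) (nat_lit 96) (nat_lit 5) (nat_lit 322) (nat_lit 246) (nat_lit 212)) (XT.nd (nat_lit 78) (nat_lit 228) (nat_lit 0) (XT.lf (nat_lit 0) (nat_lit 3225352480) (nat_lit 380) (nat_lit 5116933434) (nat_lit 76) (nat_lit 3903362868) (nat_lit 86) (nat_lit 5) (nat_lit 91) (nat_lit 5) (nat_lit 87) (nat_lit 5) (nat_lit 323) (nat_lit 246) (nat_lit 211)) (XT.lf (nat_lit 0) (nat_lit 4900355829) (nat_lit 228) (nat_lit 3237812633) (nat_lit 304) (nat_lit 4342880807) (nat_lit 83) (nat_lit 5) (nat_lit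 86) (nat_lit 5) (nat_lit 87) (nat_lit 5) (nat_lit 324) (nat_lit 246) (nat_lit 210)))) (XT.nd (nat_lit 78) (nat_lit 228) (nat_lit 0) (XT.lf (nat_lit 0) (nat_lit 454148027) (nat_lit 380) (nat_lit 10266285246) (nat_lit 76) (nat_lit 2003344087) (nat_lit 78) (nat_lit 5) (nat_lit 83) (nat_lit 5) (nat_lit 79) (nat_lit 5) (nat_lit 325) (nat_lit 246) (nat_lit 209)) (XT.nd (nat_lit 78) (nat_lit 228) (nat_lit 0) (XT.lf (nat_lit 0) (nat_lit 5332387593) (nat_lit 380) (nat_lit 246037710) (nat_lit 76) (nat_lit 7394898335) (nat_lit 78) (nat_lit 5) (nat_lit 83) (nat_lit 5) (nat_lit 79) (nat_lit 5) (nat_lit 326) (nat_lit 246) (nat_lit 208)) (XT.lf (nat_lit 0) (nat_lit 10087867942) (nat_lit 228) (nat_lit 259461985) (nat_lit 304) (nat_lit 2883254731) (nat_lit 75) (nat_lit 5) (nat_lit 78) (nat_lit 5) (nat_lit 79) (nat_lit 5) (nat_lit 327) (nat_lit 246) (nat_lit 207))))) (XT.nd (nat_lit 234) (nat_lit 608) (nat_lit 0)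 (XT.nd (nat_lit 78) (nat_lit 456) (nat_lit 0) (XT.lf (nat_lit 0) (nat_lit 1998914313) (nat_lit 380) (nat_lit 6327212539) (nat_lit 76) (nat_lit 5169044223) (nat_lit 70) (nat_lit 5) (nat_lit 75) (nat_lit 5) (nat_lit 71) (nat_lit 5) (nat_lit 328) (nat_lit 246) (nat_lit 206)) (XT.nd (nat_lit 78) (nat_lit 228) (nat_lit 0) (XT.lf (nat_lit 0) (nat_lit 3977079676) (nat_lit 228) (nat_lit 2987400501) (nat_lit 304) (nat_lit 6803344437) (nat_lit 67) (nat_lit 5) (nat_lit 70) (nat_lit 5) (nat_lit 71) (nat_lit 5) (nat_lit 329) (nat_lit 246) (nat_lit 205)) (XT.lf (nat_lit 0) (nat_lit 502409108) (nat_lit 228) (nat_lit 11567310438) (nat_lit 304) (nat_lit 1979155900) (nat_lit 64) (nat_lit 5) (nat_lit 67) (nat_lit 5) (nat_lit 68) (nat_lit 5) (nat_lit 330) (nat_lit 246) (nat_lit 204)))) (XT.nd (nat_lit 156) (nat_lit 304) (nat_lit 0) (XT.nd (nat_lit 78) (nat_lit 228) (nat_lit 0) (XT.lf (nat_lit 0) (nat_lit 2966141406)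 (nat_lit 304) (nat_lit 3254462517) (nat_lit 76) (nat_lit 8117084048) (nat_lit 63) (nat_lit 5) (nat_lit 67) (nat_lit 5) (nat_lit 64) (nat_lit 5) (nat_lit 331) (nat_lit 246) (nat_lit 203)) (XT.lf (nat_lit 0) (nat_lit 7316422393) (nat_lit 228) (nat_lit 695047182) (nat_lit 304) (nat_lit 6623891837) (nat_lit 60) (nat_lit 5) (nat_lit 63) (nat_lit 5) (nat_lit 64) (nat_lit 5) (nat_lit 332) (nat_lit 246) (nat_lit 202))) (XT.nd (nat_lit 78) (nat_lit 76) (nat_lit 0) (XT.lf (nat_lit 0) (nat_lit 3205028262) (nat_lit 228) (nat_lit 10010495804) (nat_lit 304) (nat_lit 1726322208) (nat_lit 57) (nat_lit 5) (nat_lit 60) (nat_lit 5) (nat_lit 61) (nat_lit 5) (nat_lit 333) (nat_lit 246) (nat_lit 201)) (XT.lf (nat_lit 0) (nat_lit 3261945405) (nat_lit 304) (nat_lit 1249141494) (nat_lit 76) (nat_lit 10746289293) (nat_lit 56) (nat_lit 5) (nat_lit 60) (nat_lit 5) (nat_lit 57) (nat_lit 5) (nat_lit 334) (nat_lit 246) (nat_lit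 200)))))) (XT.nd (nat_lit 468) (nat_lit 988) (nat_lit 0) (XT.nd (nat_lit 234) (nat_lit 456) (nat_lit 0) (XT.nd (nat_lit 78) (nat_lit 304) (nat_lit 0) (XT.lf (nat_lit 0) (nat_lit 8380982795) (nat_lit 304) (nat_lit 6030693075) (nat_lit 76) (nat_lit 1170402783) (nat_lit 53) (nat_lit 5) (nat_lit 57) (nat_lit 5) (nat_lit 54) (nat_lit 5) (nat_lit 335) (nat_lit 246) (nat_lit 199)) (XT.nd (nat_lit 78) (nat_lit 76) (nat_lit 0) (XT.lf (nat_lit 0) (nat_lit 4701065836) (nat_lit 228) (nat_lit 8957355590) (nat_lit 304) (nat_lit 2258029772) (nat_lit 50) (nat_lit 5) (nat_lit 53) (nat_lit 5) (nat_lit 54) (nat_lit 5) (nat_lit 336) (nat_lit 246) (nat_lit 198)) (XT.lf (nat_lit 0) (nat_lit 2773673066) (nat_lit 304) (nat_lit 547550718) (nat_lit 76) (nat_lit 12939737509) (nat_lit 49) (nat_lit 5) (nat_lit 53) (nat_lit 5) (nat_lit 50) (nat_lit 5) (nat_lit 337) (nat_lit 246) (nat_lit 197)))) (XT.nd (nat_lit 78) (nat_lit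 304) (nat_lit 0) (XT.lf (nat_lit 0) (nat_lit 7948363411) (nat_lit 228) (nat_lit 6172501551) (nat_lit 76) (nat_lit 2494212602) (nat_lit 47) (nat_lit 5) (nat_lit 50) (nat_lit 5) (nat_lit 48) (nat_lit 5) (nat_lit 338) (nat_lit 246) (nat_lit 196)) (XT.nd (nat_lit 78) (nat_lit 76) (nat_lit 0) (XT.lf (nat_lit 0) (nat_lit 4727546480) (nat_lit 228) (nat_lit 8546485285) (nat_lit 304) (nat_lit 3705893791) (nat_lit 44) (nat_lit 5) (nat_lit 47) (nat_lit 5) (nat_lit 48) (nat_lit 5) (nat_lit 339) (nat_lit 246) (nat_lit 195)) (XT.lf (nat_lit 0) (nat_lit 1367244039) (nat_lit 304) (nat_lit 1426727792) (nat_lit 76) (nat_lit 14561948682) (nat_lit 43) (nat_lit 5) (nat_lit 47) (nat_lit 5) (nat_lit 44) (nat_lit 5) (nat_lit 340) (nat_lit 246) (nat_lit 194))))) (XT.nd (nat_lit 234) (nat_lit 608) (nat_lit 0) (XT.nd (nat_lit 78) (nat_lit 228) (nat_lit 0) (XT.lf (nat_lit 0) (nat_lit 6567878490) (nat_lit 228) (nat_lit 8035367268)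 (nat_lit 76) (nat_lit 3138967855) (nat_lit 41) (nat_lit 5) (nat_lit 44) (nat_lit 5) (nat_lit 42) (nat_lit 5) (nat_lit 341) (nat_lit 246) (nat_lit 193)) (XT.nd (nat_lit 78) (nat_lit 0) (nat_lit 0) (XT.lf (nat_lit 0) (nat_lit 2976448492) (nat_lit 228) (nat_lit 8938193466) (nat_lit 304) (nat_lit 6225671965) (nat_lit 38) (nat_lit 5) (nat_lit 41) (nat_lit 5) (nat_lit 42) (nat_lit 5) (nat_lit 342) (nat_lit 246) (nat_lit 192)) (XT.lf (nat_lit 0) (nat_lit 14332301877) (nat_lit 228) (nat_lit 3087378340) (nat_lit 304) (nat_lit 1130739604) (nat_lit 38) (nat_lit 5) (nat_lit 41) (nat_lit 5) (nat_lit 42) (nat_lit 5) (nat_lit 343) (nat_lit 246) (nat_lit 191)))) (XT.nd (nat_lit 156) (nat_lit 380) (nat_lit 0) (XT.nd (nat_lit 78) (nat_lit 0) (nat_lit 0) (XT.lf (nat_lit 0) (nat_lit 4072664785) (nat_lit 228) (nat_lit 11964636335) (nat_lit 76) (nat_lit 2934819822) (nat_lit 35) (nat_lit 5) (nat_lit 38) (nat_lit 5) (nat_lit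 36) (nat_lit 5) (nat_lit 344) (nat_lit 246) (nat_lit 190)) (XT.lf (nat_lit 0) (nat_lit 9411762043) (nat_lit 228) (nat_lit 900286916) (nat_lit 76) (nat_lit 9094394090) (nat_lit 35) (nat_lit 5) (nat_lit 38) (nat_lit 5) (nat_lit 36) (nat_lit 5) (nat_lit 345) (nat_lit 246) (nat_lit 189))) (XT.nd (nat_lit 78) (nat_lit 228) (nat_lit 0) (XT.lf (nat_lit 0) (nat_lit 10543416182) (nat_lit 152) (nat_lit 4383106057) (nat_lit 228) (nat_lit 4926980738) (nat_lit 33) (nat_lit 5) (nat_lit 35) (nat_lit 5) (nat_lit 36) (nat_lit 5) (nat_lit 346) (nat_lit 246) (nat_lit 188)) (XT.lf (nat_lit 0) (nat_lit 266514653) (nat_lit 228) (nat_lit 18363102326) (nat_lit 76) (nat_lit 1684784732) (nat_lit 30) (nat_lit 5) (nat_lit 33) (nat_lit 5) (nat_lit 31) (nat_lit 5) (nat_lit 347) (nat_lit 246) (nat_lit 187))))))) (XT.nd (nat_lit 1014) (nat_lit 228) (nat_lit 0) (XT.nd (nat_lit 468) (nat_lit 380) (nat_lit 0) (XT.nd (nat_lit 234)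 (nat_lit 380) (nat_lit 0) (XT.nd (nat_lit 78) (nat_lit 152) (nat_lit 0) (XT.lf (nat_lit 0) (nat_lit 5590419757) (nat_lit 228) (nat_lit 7262015153) (nat_lit 76) (nat_lit 7935226881) (nat_lit 30) (nat_lit 5) (nat_lit 33) (nat_lit 5) (nat_lit 31) (nat_lit 5) (nat_lit 348) (nat_lit 246) (nat_lit 186)) (XT.nd (nat_lit 78) (nat_lit 0) (nat_lit 0) (XT.lf (nat_lit 0) (nat_lit 4139564582) (nat_lit 152) (nat_lit 6911202748) (nat_lit 228) (nat_lit 10224833950) (nat_lit 28) (nat_lit 5) (nat_lit 30) (nat_lit 5) (nat_lit 31) (nat_lit 5) (nat_lit 349) (nat_lit 246) (nat_lit 185)) (XT.lf (nat_lit 0) (nat_lit 15897172868) (nat_lit 152) (nat_lit 777716791) (nat_lit 228) (nat_lit 5103305649) (nat_lit 28) (nat_lit 5) (nat_lit 30) (nat_lit 5) (nat_lit 31) (nat_lit 5) (nat_lit 350) (nat_lit 246) (nat_lit 184)))) (XT.nd (nat_lit 78) (nat_lit 152) (nat_lit 0) (XT.lf (nat_lit 0) (nat_lit 194481366) (nat_lit 228) (nat_lit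 16630356203) (nat_lit 76) (nat_lit 5470524824) (nat_lit 25) (nat_lit 5) (nat_lit 28) (nat_lit 5) (nat_lit 26) (nat_lit 5) (nat_lit 351) (nat_lit 246) (nat_lit 183)) (XT.nd (nat_lit 78) (nat_lit 152) (nat_lit 0) (XT.lf (nat_lit 0) (nat_lit 5580078482) (nat_lit 228) (nat_lit 5311890267) (nat_lit 76) (nat_lit 11935451331) (nat_lit 25) (nat_lit 5) (nat_lit 28) (nat_lit 5) (nat_lit 26) (nat_lit 5) (nat_lit 352) (nat_lit 246) (nat_lit 182)) (XT.lf (nat_lit 0) (nat_lit 6348846458) (nat_lit 152) (nat_lit 4773500173) (nat_lit 228) (nat_lit 12253204840) (nat_lit 23) (nat_lit 5) (nat_lit 25) (nat_lit 5) (nat_lit 26) (nat_lit 5) (nat_lit 353) (nat_lit 246) (nat_lit 181))))) (XT.nd (nat_lit 234) (nat_lit 228) (nat_lit 0) (XT.nd (nat_lit 78) (nat_lit 152) (nat_lit 0) (XT.lf (nat_lit 0) (nat_lit 16831530919) (nat_lit 228) (nat_lit 5597395775) (nat_lit 76) (nat_lit 1511200773) (nat_lit 23) (nat_lit 5) (nat_lit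 26) (nat_lit 5) (nat_lit 24) (nat_lit 4) (nat_lit 354) (nat_lit 246) (nat_lit 180)) (XT.nd (nat_lit 78) (nat_lit 76) (nat_lit 0) (XT.lf (nat_lit 0) (nat_lit 6145861108) (nat_lit 76) (nat_lit 16593771154) (nat_lit 152) (nat_lit 1781468879) (nat_lit 22) (nat_lit 5) (nat_lit 23) (nat_lit 5) (nat_lit 24) (nat_lit 4) (nat_lit 355) (nat_lit 246) (nat_lit 179)) (XT.lf (nat_lit 0) (nat_lit 3651362725) (nat_lit 152) (nat_lit 6901968535) (nat_lit 76) (nat_lit 14565814430) (nat_lit 21) (nat_lit 5) (nat_lit 23) (nat_lit 5) (nat_lit 22) (nat_lit 5) (nat_lit 356) (nat_lit 246) (nat_lit 178)))) (XT.nd (nat_lit 156) (nat_lit 76) (nat_lit 0) (XT.nd (nat_lit 78) (nat_lit 0) (nat_lit 0) (XT.lf (nat_lit 0) (nat_lit 4893054852) (nat_lit 152) (nat_lit 4319407913) (nat_lit 228) (nat_lit 16522655791) (nat_lit 19) (nat_lit 5) (nat_lit 21) (nat_lit 5) (nat_lit 22) (nat_lit 5) (nat_lit 357) (nat_lit 246) (nat_lit 177)) (XT.lf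 (nat_lit 0) (nat_lit 14959251445) (nat_lit 228) (nat_lit 9320317808) (nat_lit 76) (nat_lit 2089636113) (nat_lit 19) (nat_lit 5) (nat_lit 22) (nat_lit 5) (nat_lit 20) (nat_lit 4) (nat_lit 358) (nat_lit 246) (nat_lit 176))) (XT.nd (nat_lit 78) (nat_lit 0) (nat_lit 0) (XT.lf (nat_lit 0) (nat_lit 2478730371) (nat_lit 76) (nat_lit 18404043679) (nat_lit 152) (nat_lit 6139465649) (nat_lit 18) (nat_lit 5) (nat_lit 19) (nat_lit 5) (nat_lit 20) (nat_lit 4) (nat_lit 359) (nat_lit 246) (nat_lit 175)) (XT.lf (nat_lit 0) (nat_lit 14688522366) (nat_lit 76) (nat_lit 12318712531) (nat_lit 152) (nat_lit 687176701) (nat_lit 18) (nat_lit 5) (nat_lit 19) (nat_lit 5) (nat_lit 20) (nat_lit 4) (nat_lit 360) (nat_lit 246) (nat_lit 174)))))) (XT.nd (nat_lit 35100) (nat_lit 0) (nat_lit 17632) (XT.nd (nat_lit 34788) (nat_lit 0) (nat_lit 23104) (XT.nd (nat_lit 78) (nat_lit 152) (nat_lit 0) (XT.lf (nat_lit 0) (nat_lit 4825010962)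 (nat_lit 152) (nat_lit 1223413441) (nat_lit 76) (nat_lit 22338475482) (nat_lit 17) (nat_lit 5) (nat_lit 19) (nat_lit 5) (nat_lit 18) (nat_lit 5) (nat_lit 361) (nat_lit 246) (nat_lit 173)) (XT.nd (nat_lit 78) (nat_lit 0) (nat_lit 0) (XT.lf (nat_lit 0) (nat_lit 10529683031) (nat_lit 228) (nat_lit 18117633436) (nat_lit 76) (nat_lit 452036752) (nat_lit 15) (nat_lit 5) (nat_lit 18) (nat_lit 5) (nat_lit 16) (nat_lit 4) (nat_lit 362) (nat_lit 246) (nat_lit 172)) (XT.lf (nat_lit 0) (nat_lit 16416882415) (nat_lit 228) (nat_lit 6370494800) (nat_lit 76) (nat_lit 7045585234) (nat_lit 15) (nat_lit 5) (nat_lit 18) (nat_lit 5) (nat_lit 16) (nat_lit 4) (nat_lit 363) (nat_lit 246) (nat_lit 171)))) (XT.nd (nat_lit 156) (nat_lit 1824) (nat_lit 0) (XT.nd (nat_lit 78) (nat_lit 1140) (nat_lit 0) (XT.lf (nat_lit 0) (nat_lit 634796351) (nat_lit 1748) (nat_lit 2342367260) (nat_lit 0) (nat_lit 634796351) (nat_lit 358) (nat_lit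 5) (nat_lit 381) (nat_lit 4) (nat_lit 358) (nat_lit 4) (nat_lit 286) (nat_lit 247) (nat_lit 247)) (XT.lf (nat_lit 0) (nat_lit 2570967843) (nat_lit 1140) (nat_lit 3540071830) (nat_lit 1140) (nat_lit 1176454444) (nat_lit 343) (nat_lit 4) (nat_lit 358) (nat_lit 5) (nat_lit 358) (nat_lit 4) (nat_lit 287) (nat_lit 247) (nat_lit 246))) (XT.nd (nat_lit 78) (nat_lit 912) (nat_lit 0) (XT.lf (nat_lit 0) (nat_lit 2619769615) (nat_lit 836) (nat_lit 983280464) (nat_lit 912) (nat_lit 3751449867) (nat_lit 331) (nat_lit 5) (nat_lit 342) (nat_lit 5) (nat_lit 343) (nat_lit 4) (nat_lit 288) (nat_lit 247) (nat_lit 245)) (XT.lf (nat_lit 0) (nat_lit 993701495) (nat_lit 912) (nat_lit 4744024572) (nat_lit 76) (nat_lit 1687217332) (nat_lit 319) (nat_lit 5) (nat_lit 331) (nat_lit 5) (nat_lit 320) (nat_lit 4) (nat_lit 289) (nat_lit 247) (nat_lit 244))))) (XT.nd (nat_lit 234) (nat_lit 2964) (nat_lit 0) (XT.nd (nat_lit 78)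 (nat_lit 1748) (nat_lit 0) (XT.lf (nat_lit 0) (nat_lit 2744827312) (nat_lit 760) (nat_lit 3006044469) (nat_lit 836) (nat_lit 1747866594) (nat_lit 309) (nat_lit 5) (nat_lit 319) (nat_lit 5) (nat_lit 320) (nat_lit 4) (nat_lit 290) (nat_lit 247) (nat_lit 243)) (XT.nd (nat_lit 78) (nat_lit 836) (nat_lit 0) (XT.lf (nat_lit 0) (nat_lit 2820143425) (nat_lit 836) (nat_lit 131855760) (nat_lit 912) (nat_lit 4624161682) (nat_lit 297) (nat_lit 5) (nat_lit 308) (nat_lit 5) (nat_lit 309) (nat_lit 5) (nat_lit 291) (nat_lit 247) (nat_lit 242)) (XT.lf (nat_lit 0) (nat_lit 49682204) (nat_lit 836) (nat_lit 4764624461) (nat_lit 76) (nat_lit 2842731955) (nat_lit 286) (nat_lit 5) (nat_lit 297) (nat_lit 5) (nat_lit 287) (nat_lit 5) (nat_lit 292) (nat_lit 247) (nat_lit 241)))) (XT.nd (nat_lit 156) (nat_lit 1444) (nat_lit 0) (XT.nd (nat_lit 78) (nat_lit 760) (nat_lit 0) (XT.lf (nat_lit 0) (nat_lit 2956828307) (nat_lit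 760) (nat_lit 1767445723) (nat_lit 836) (nat_lit 3017119351) (nat_lit 276) (nat_lit 5) (nat_lit 286) (nat_lit 5) (nat_lit 287) (nat_lit 5) (nat_lit 293) (nat_lit 247) (nat_lit 240)) (XT.lf (nat_lit 0) (nat_lit 1622129051) (nat_lit 760) (nat_lit 4808046060) (nat_lit 76) (nat_lit 1399329584) (nat_lit 266) (nat_lit 5) (nat_lit 276) (nat_lit 5) (nat_lit 267) (nat_lit 5) (nat_lit 294) (nat_lit 247) (nat_lit 239))) (XT.nd (nat_lit 78) (nat_lit 760) (nat_lit 0) (XT.lf (nat_lit 0) (nat_lit 3070364697) (nat_lit 684) (nat_lit 3228856099) (nat_lit 760) (nat_lit 1621965880) (nat_lit 257) (nat_lit 5) (nat_lit 266) (nat_lit 5) (nat_lit 267) (nat_lit 5) (nat_lit 295) (nat_lit 247) (nat_lit 238)) (XT.lf (nat_lit 0) (nat_lit 2990946531) (nat_lit 760) (nat_lit 4905718308) (nat_lit 76) (nat_lit 120052971) (nat_lit 247) (nat_lit 5) (nat_lit 257) (nat_lit 5) (nat_lit 248) (nat_lit 5) (nat_lit 296) (nat_lit 247) (nat_lit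 237))))))))
noncomputable def xc29 : XT := (XT.nd (nat_lit 2028) (nat_lit 4636) (nat_lit 0) (XT.nd (nat_lit 1014) (nat_lit 4332) (nat_lit 0) (XT.nd (nat_lit 468) (nat_lit 3724) (nat_lit 0) (XT.nd (nat_lit 234) (nat_lit 1748) (nat_lit 0) (XT.nd (nat_lit 78) (nat_lit 1368) (nat_lit 0) (XT.lf (nat_lit 0) (nat_lit 3127311387) (nat_lit 684) (nat_lit 4547353039) (nat_lit 760) (nat_lit 441257212) (nat_lit 238) (nat_lit 5) (nat_lit 247) (nat_lit 5) (nat_lit 248) (nat_lit 5) (nat_lit 297) (nat_lit 247) (nat_lit 236)) (XT.nd (nat_lit 78) (nat_lit 684) (nat_lit 0) (XT.lf (nat_lit 0) (nat_lit 3119947904) (nat_lit 608) (nat_lit 1039466242) (nat_lit 684) (nat_lit 4059541215) (nat_lit 229) (nat_lit 5) (nat_lit 237) (nat_lit 5) (nat_lit 238) (nat_lit 5) (nat_lit 298) (nat_lit 247) (nat_lit 235)) (XT.lf (nat_lit 0) (nat_lit 513524753) (nat_lit 684) (nat_lit 5237032591) (nat_lit 76) (nat_lit 2575413220) (nat_lit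 220) (nat_lit 5) (nat_lit 229) (nat_lit 5) (nat_lit 221) (nat_lit 5) (nat_lit 299) (nat_lit 247) (nat_lit 234)))) (XT.nd (nat_lit 78) (nat_lit 1216) (nat_lit 0) (XT.lf (nat_lit 0) (nat_lit 3018855586) (nat_lit 532) (nat_lit 2096470630) (nat_lit 608) (nat_lit 3321496396) (nat_lit 213) (nat_lit 5) (nat_lit 220) (nat_lit 5) (nat_lit 221) (nat_lit 5) (nat_lit 300) (nat_lit 247) (nat_lit 233)) (XT.nd (nat_lit 78) (nat_lit 532) (nat_lit 0) (XT.lf (nat_lit 0) (nat_lit 1239528869) (nat_lit 684) (nat_lit 5632092421) (nat_lit 76) (nat_lit 1680252863) (nat_lit 204) (nat_lit 5) (nat_lit 213) (nat_lit 5) (nat_lit 205) (nat_lit 5) (nat_lit 301) (nat_lit 247) (nat_lit 232)) (XT.lf (nat_lit 0) (nat_lit 2769727747) (nat_lit 532) (nat_lit 3080594388) (nat_lit 608) (nat_lit 2820544371) (nat_lit 197) (nat_lit 5) (nat_lit 204) (nat_lit 5) (nat_lit 205) (nat_lit 5) (nat_lit 302) (nat_lit 247) (nat_lit 231))))) (XT.nd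 (nat_lit 234) (nat_lit 1976) (nat_lit 0) (XT.nd (nat_lit 78) (nat_lit 1140) (nat_lit 0) (XT.lf (nat_lit 0) (nat_lit 1733503408) (nat_lit 608) (nat_lit 6211492867) (nat_lit 76) (nat_lit 849259576) (nat_lit 189) (nat_lit 5) (nat_lit 197) (nat_lit 5) (nat_lit 190) (nat_lit 5) (nat_lit 303) (nat_lit 247) (nat_lit 230)) (XT.nd (nat_lit 78) (nat_lit 608) (nat_lit 0) (XT.lf (nat_lit 0) (nat_lit 2330989305) (nat_lit 532) (nat_lit 4023520206) (nat_lit 608) (nat_lit 2567174180) (nat_lit 182) (nat_lit 5) (nat_lit 189) (nat_lit 5) (nat_lit 190) (nat_lit 5) (nat_lit 304) (nat_lit 247) (nat_lit 229)) (XT.lf (nat_lit 0) (nat_lit 1984000674) (nat_lit 608) (nat_lit 7018843322) (nat_lit 76) (nat_lit 50905112) (nat_lit 174) (nat_lit 5) (nat_lit 182) (nat_lit 5) (nat_lit 175) (nat_lit 5) (nat_lit 305) (nat_lit 247) (nat_lit 228)))) (XT.nd (nat_lit 156) (nat_lit 988) (nat_lit 0) (XT.nd (nat_lit 78) (nat_lit 532) (nat_lit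 0) (XT.lf (nat_lit 0) (nat_lit 1657863394) (nat_lit 456) (nat_lit 4957669761) (nat_lit 532) (nat_lit 2574406495) (nat_lit 168) (nat_lit 5) (nat_lit 174) (nat_lit 5) (nat_lit 175) (nat_lit 5) (nat_lit 306) (nat_lit 247) (nat_lit 227)) (XT.lf (nat_lit 0) (nat_lit 1224803354) (nat_lit 456) (nat_lit 757122408) (nat_lit 532) (nat_lit 7349034208) (nat_lit 161) (nat_lit 5) (nat_lit 167) (nat_lit 5) (nat_lit 168) (nat_lit 5) (nat_lit 307) (nat_lit 247) (nat_lit 226))) (XT.nd (nat_lit 78) (nat_lit 532) (nat_lit 0) (XT.lf (nat_lit 0) (nat_lit 701908953) (nat_lit 456) (nat_lit 5916502048) (nat_lit 532) (nat_lit 2857961519) (nat_lit 155) (nat_lit 5) (nat_lit 161) (nat_lit 5) (nat_lit 162) (nat_lit 5) (nat_lit 308) (nat_lit 247) (nat_lit 225)) (XT.lf (nat_lit 0) (nat_lit 106615218) (nat_lit 456) (nat_lit 1599549957) (nat_lit 532) (nat_lit 7920589895) (nat_lit 148) (nat_lit 5) (nat_lit 154) (nat_lit 5) (nat_lit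 155) (nat_lit 5) (nat_lit 309) (nat_lit 247) (nat_lit 224)))))) (XT.nd (nat_lit 468) (nat_lit 2204) (nat_lit 0) (XT.nd (nat_lit 234) (nat_lit 1216) (nat_lit 0) (XT.nd (nat_lit 78) (nat_lit 912) (nat_lit 0) (XT.lf (nat_lit 0) (nat_lit 6349172683) (nat_lit 532) (nat_lit 581750227) (nat_lit 76) (nat_lit 2850798023) (nat_lit 148) (nat_lit 5) (nat_lit 155) (nat_lit 5) (nat_lit 149) (nat_lit 5) (nat_lit 310) (nat_lit 247) (nat_lit 223)) (XT.nd (nat_lit 78) (nat_lit 456) (nat_lit 0) (XT.lf (nat_lit 0) (nat_lit 1145840547) (nat_lit 456) (nat_lit 1356236741) (nat_lit 76) (nat_lit 7439739867) (nat_lit 142) (nat_lit 5) (nat_lit 148) (nat_lit 5) (nat_lit 143) (nat_lit 5) (nat_lit 311) (nat_lit 247) (nat_lit 222)) (XT.lf (nat_lit 0) (nat_lit 5790269493) (nat_lit 532) (nat_lit 2243808875) (nat_lit 76) (nat_lit 2072738056) (nat_lit 136) (nat_lit 5) (nat_lit 143) (nat_lit 5) (nat_lit 137) (nat_lit 5) (nat_lit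 312) (nat_lit 247) (nat_lit 221)))) (XT.nd (nat_lit 78) (nat_lit 760) (nat_lit 0) (XT.lf (nat_lit 0) (nat_lit 272834765) (nat_lit 456) (nat_lit 3234778365) (nat_lit 76) (nat_lit 6769582083) (nat_lit 130) (nat_lit 5) (nat_lit 136) (nat_lit 5) (nat_lit 131) (nat_lit 5) (nat_lit 313) (nat_lit 247) (nat_lit 220)) (XT.nd (nat_lit 78) (nat_lit 380) (nat_lit 0) (XT.lf (nat_lit 0) (nat_lit 4913446758) (nat_lit 456) (nat_lit 4355280901) (nat_lit 76) (nat_lit 1183999008) (nat_lit 125) (nat_lit 5) (nat_lit 131) (nat_lit 5) (nat_lit 126) (nat_lit 5) (nat_lit 314) (nat_lit 247) (nat_lit 219)) (XT.lf (nat_lit 0) (nat_lit 5032507096) (nat_lit 380) (nat_lit 4649638867) (nat_lit 456) (nat_lit 951654924) (nat_lit 120) (nat_lit 5) (nat_lit 125) (nat_lit 5) (nat_lit 126) (nat_lit 5) (nat_lit 315) (nat_lit 247) (nat_lit 218))))) (XT.nd (nat_lit 234) (nat_lit 988) (nat_lit 0) (XT.nd (nat_lit 78) (nat_lit 760) (nat_lit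 0) (XT.lf (nat_lit 0) (nat_lit 3691494613) (nat_lit 456) (nat_lit 6983857674) (nat_lit 76) (nat_lit 145168875) (nat_lit 114) (nat_lit 5) (nat_lit 120) (nat_lit 5) (nat_lit 115) (nat_lit 5) (nat_lit 316) (nat_lit 247) (nat_lit 217)) (XT.nd (nat_lit 78) (nat_lit 456) (nat_lit 0) (XT.lf (nat_lit 0) (nat_lit 2488038430) (nat_lit 304) (nat_lit 5971779371) (nat_lit 380) (nat_lit 2552973354) (nat_lit 110) (nat_lit 5) (nat_lit 114) (nat_lit 5) (nat_lit 115) (nat_lit 5) (nat_lit 317) (nat_lit 247) (nat_lit 216)) (XT.lf (nat_lit 0) (nat_lit 1000264582) (nat_lit 380) (nat_lit 1100264352) (nat_lit 456) (nat_lit 9110697437) (nat_lit 104) (nat_lit 5) (nat_lit 109) (nat_lit 5) (nat_lit 110) (nat_lit 5) (nat_lit 318) (nat_lit 247) (nat_lit 215)))) (XT.nd (nat_lit 156) (nat_lit 608) (nat_lit 0) (XT.nd (nat_lit 78) (nat_lit 380) (nat_lit 0) (XT.lf (nat_lit 0) (nat_lit 6858500828) (nat_lit 456) (nat_lit 657316565)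 (nat_lit 76) (nat_lit 3899515045) (nat_lit 104) (nat_lit 5) (nat_lit 110) (nat_lit 5) (nat_lit 105) (nat_lit 5) (nat_lit 319) (nat_lit 247) (nat_lit 214)) (XT.lf (nat_lit 0) (nat_lit 116884304) (nat_lit 380) (nat_lit 2454770788) (nat_lit 76) (nat_lit 9054233554) (nat_lit 99) (nat_lit 5) (nat_lit 104) (nat_lit 5) (nat_lit 100) (nat_lit 5) (nat_lit 320) (nat_lit 247) (nat_lit 213))) (XT.nd (nat_lit 78) (nat_lit 304) (nat_lit 0) (XT.lf (nat_lit 0) (nat_lit 4857691967) (nat_lit 380) (nat_lit 4455139343) (nat_lit 76) (nat_lit 2529594797) (nat_lit 95) (nat_lit 5) (nat_lit 100) (nat_lit 5) (nat_lit 96) (nat_lit 5) (nat_lit 321) (nat_lit 247) (nat_lit 212)) (XT.lf (nat_lit 0) (nat_lit 5424484855) (nat_lit 304) (nat_lit 4305932599) (nat_lit 380) (nat_lit 2335289892) (nat_lit 91) (nat_lit 5) (nat_lit 95) (nat_lit 5) (nat_lit 96) (nat_lit 5) (nat_lit 322) (nat_lit 247) (nat_lit 211))))))) (XT.nd (nat_lit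 1014) (nat_lit 1748) (nat_lit 0) (XT.nd (nat_lit 468) (nat_lit 1292) (nat_lit 0) (XT.nd (nat_lit 234) (nat_lit 988) (nat_lit 0) (XT.nd (nat_lit 78) (nat_lit 228) (nat_lit 0) (XT.lf (nat_lit 0) (nat_lit 2400291908) (nat_lit 380) (nat_lit 9029991616) (nat_lit 76) (nat_lit 865547730) (nat_lit 86) (nat_lit 5) (nat_lit 91) (nat_lit 5) (nat_lit 87) (nat_lit 5) (nat_lit 323) (nat_lit 247) (nat_lit 210)) (XT.nd (nat_lit 78) (nat_lit 0) (nat_lit 0) (XT.lf (nat_lit 0) (nat_lit 874968546) (nat_lit 228) (nat_lit 6373945815) (nat_lit 304) (nat_lit 5283620156) (nat_lit 83) (nat_lit 5) (nat_lit 86) (nat_lit 5) (nat_lit 87) (nat_lit 5) (nat_lit 324) (nat_lit 247) (nat_lit 209)) (XT.lf (nat_lit 0) (nat_lit 11081785317) (nat_lit 228) (nat_lit 1146620690) (nat_lit 304) (nat_lit 548261919) (nat_lit 83) (nat_lit 5) (nat_lit 86) (nat_lit 5) (nat_lit 87) (nat_lit 5) (nat_lit 325) (nat_lit 247) (nat_lit 208)))) (XT.nd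 (nat_lit 78) (nat_lit 608) (nat_lit 0) (XT.lf (nat_lit 0) (nat_lit 4281483649) (nat_lit 380) (nat_lit 4521717534) (nat_lit 76) (nat_lit 4224215376) (nat_lit 78) (nat_lit 5) (nat_lit 83) (nat_lit 5) (nat_lit 79) (nat_lit 5) (nat_lit 326) (nat_lit 247) (nat_lit 207)) (XT.nd (nat_lit 78) (nat_lit 380) (nat_lit 0) (XT.lf (nat_lit 0) (nat_lit 5697574089) (nat_lit 228) (nat_lit 3534409776) (nat_lit 304) (nat_lit 4053999516) (nat_lit 75) (nat_lit 5) (nat_lit 78) (nat_lit 5) (nat_lit 79) (nat_lit 5) (nat_lit 327) (nat_lit 247) (nat_lit 206)) (XT.lf (nat_lit 0) (nat_lit 756802764) (nat_lit 380) (nat_lit 10916855254) (nat_lit 76) (nat_lit 1878814375) (nat_lit 70) (nat_lit 5) (nat_lit 75) (nat_lit 5) (nat_lit 71) (nat_lit 5) (nat_lit 328) (nat_lit 247) (nat_lit 205))))) (XT.nd (nat_lit 234) (nat_lit 760) (nat_lit 0) (XT.nd (nat_lit 78) (nat_lit 532) (nat_lit 0) (XT.lf (nat_lit 0) (nat_lit 5661579328) (nat_lit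 380) (nat_lit 720979096) (nat_lit 76) (nat_lit 7443798968) (nat_lit 70) (nat_lit 5) (nat_lit 75) (nat_lit 5) (nat_lit 71) (nat_lit 5) (nat_lit 329) (nat_lit 247) (nat_lit 204)) (XT.nd (nat_lit 78) (nat_lit 304) (nat_lit 0) (XT.lf (nat_lit 0) (nat_lit 9798407863) (nat_lit 228) (nat_lit 909792634) (nat_lit 304) (nat_lit 3400395308) (nat_lit 67) (nat_lit 5) (nat_lit 70) (nat_lit 5) (nat_lit 71) (nat_lit 5) (nat_lit 330) (nat_lit 247) (nat_lit 203)) (XT.lf (nat_lit 0) (nat_lit 1495053383) (nat_lit 304) (nat_lit 8224772635) (nat_lit 76) (nat_lit 4679151117) (nat_lit 63) (nat_lit 5) (nat_lit 67) (nat_lit 5) (nat_lit 64) (nat_lit 5) (nat_lit 331) (nat_lit 247) (nat_lit 202)))) (XT.nd (nat_lit 156) (nat_lit 532) (nat_lit 0) (XT.nd (nat_lit 78) (nat_lit 0) (nat_lit 0) (XT.lf (nat_lit 0) (nat_lit 2225491523) (nat_lit 228) (nat_lit 4248790547) (nat_lit 304) (nat_lit 8223704560) (nat_lit 60) (nat_lit 5) (nat_lit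 63) (nat_lit 5) (nat_lit 64) (nat_lit 5) (nat_lit 332) (nat_lit 247) (nat_lit 201)) (XT.lf (nat_lit 0) (nat_lit 11601893443) (nat_lit 304) (nat_lit 2020996440) (nat_lit 76) (nat_lit 1383124124) (nat_lit 60) (nat_lit 5) (nat_lit 64) (nat_lit 5) (nat_lit 61) (nat_lit 5) (nat_lit 333) (nat_lit 247) (nat_lit 200))) (XT.nd (nat_lit 78) (nat_lit 228) (nat_lit 0) (XT.lf (nat_lit 0) (nat_lit 1560588807) (nat_lit 304) (nat_lit 6608556291) (nat_lit 76) (nat_lit 7153540946) (nat_lit 56) (nat_lit 5) (nat_lit 60) (nat_lit 5) (nat_lit 57) (nat_lit 5) (nat_lit 334) (nat_lit 247) (nat_lit 199)) (XT.lf (nat_lit 0) (nat_lit 4076382261) (nat_lit 228) (nat_lit 2528704029) (nat_lit 304) (nat_lit 9043805629) (nat_lit 53) (nat_lit 5) (nat_lit 56) (nat_lit 5) (nat_lit 57) (nat_lit 5) (nat_lit 335) (nat_lit 247) (nat_lit 198)))))) (XT.nd (nat_lit 546) (nat_lit 836) (nat_lit 0) (XT.nd (nat_lit 234) (nat_lit 456) (nat_lit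 0) (XT.nd (nat_lit 78) (nat_lit 456) (nat_lit 0) (XT.lf (nat_lit 0) (nat_lit 11804793610) (nat_lit 304) (nat_lit 937181221) (nat_lit 76) (nat_lit 3242856509) (nat_lit 53) (nat_lit 5) (nat_lit 57) (nat_lit 5) (nat_lit 54) (nat_lit 5) (nat_lit 336) (nat_lit 247) (nat_lit 197)) (XT.nd (nat_lit 78) (nat_lit 152) (nat_lit 0) (XT.lf (nat_lit 0) (nat_lit 840233196) (nat_lit 304) (nat_lit 6305014815) (nat_lit 76) (nat_lit 9185087450) (nat_lit 49) (nat_lit 5) (nat_lit 53) (nat_lit 5) (nat_lit 50) (nat_lit 5) (nat_lit 337) (nat_lit 247) (nat_lit 196)) (XT.lf (nat_lit 0) (nat_lit 4575380831) (nat_lit 152) (nat_lit 1355384525) (nat_lit 228) (nat_lit 10755380860) (nat_lit 47) (nat_lit 5) (nat_lit 49) (nat_lit 5) (nat_lit 50) (nat_lit 5) (nat_lit 338) (nat_lit 247) (nat_lit 195)))) (XT.nd (nat_lit 156) (nat_lit 228) (nat_lit 0) (XT.nd (nat_lit 78) (nat_lit 228) (nat_lit 0) (XT.lf (nat_lit 0) (nat_lit 11187811873)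 (nat_lit 228) (nat_lit 1312884226) (nat_lit 76) (nat_lit 4551681536) (nat_lit 47) (nat_lit 5) (nat_lit 50) (nat_lit 5) (nat_lit 48) (nat_lit 5) (nat_lit 339) (nat_lit 247) (nat_lit 194)) (XT.lf (nat_lit 0) (nat_lit 9832319484) (nat_lit 228) (nat_lit 6785745840) (nat_lit 304) (nat_lit 811242422) (nat_lit 44) (nat_lit 5) (nat_lit 47) (nat_lit 5) (nat_lit 48) (nat_lit 5) (nat_lit 340) (nat_lit 247) (nat_lit 193))) (XT.nd (nat_lit 78) (nat_lit 0) (nat_lit 0) (XT.lf (nat_lit 0) (nat_lit 3433212481) (nat_lit 152) (nat_lit 877345596) (nat_lit 228) (nat_lit 13506947739) (nat_lit 41) (nat_lit 5) (nat_lit 43) (nat_lit 5) (nat_lit 44) (nat_lit 5) (nat_lit 341) (nat_lit 247) (nat_lit 192)) (XT.lf (nat_lit 0) (nat_lit 9604737097) (nat_lit 228) (nat_lit 3452637208) (nat_lit 76) (nat_lit 5159293370) (nat_lit 41) (nat_lit 5) (nat_lit 44) (nat_lit 5) (nat_lit 42) (nat_lit 5) (nat_lit 342) (nat_lit 247) (nat_lit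 191))))) (XT.nd (nat_lit 234) (nat_lit 380) (nat_lit 0) (XT.nd (nat_lit 78) (nat_lit 228) (nat_lit 0) (XT.lf (nat_lit 0) (nat_lit 7811272745) (nat_lit 228) (nat_lit 7248728588) (nat_lit 304) (nat_lit 3567777294) (nat_lit 38) (nat_lit 5) (nat_lit 41) (nat_lit 5) (nat_lit 42) (nat_lit 5) (nat_lit 343) (nat_lit 247) (nat_lit 190)) (XT.nd (nat_lit 78) (nat_lit 0) (nat_lit 0) (XT.lf (nat_lit 0) (nat_lit 311456991) (nat_lit 152) (nat_lit 1266767023) (nat_lit 228) (nat_lit 17473368609) (nat_lit 35) (nat_lit 5) (nat_lit 37) (nat_lit 5) (nat_lit 38) (nat_lit 5) (nat_lit 344) (nat_lit 247) (nat_lit 189)) (XT.lf (nat_lit 0) (nat_lit 6883005531) (nat_lit 228) (nat_lit 7712317975) (nat_lit 76) (nat_lit 4891286384) (nat_lit 35) (nat_lit 5) (nat_lit 38) (nat_lit 5) (nat_lit 36) (nat_lit 5) (nat_lit 345) (nat_lit 247) (nat_lit 188)))) (XT.nd (nat_lit 156) (nat_lit 228) (nat_lit 0) (XT.nd (nat_lit 78) (nat_lit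 0) (nat_lit 0) (XT.lf (nat_lit 0) (nat_lit 3596826482) (nat_lit 152) (nat_lit 8730506262) (nat_lit 228) (nat_lit 7607754323) (nat_lit 33) (nat_lit 5) (nat_lit 35) (nat_lit 5) (nat_lit 36) (nat_lit 5) (nat_lit 346) (nat_lit 247) (nat_lit 187)) (XT.lf (nat_lit 0) (nat_lit 15264034470) (nat_lit 152) (nat_lit 2672728552) (nat_lit 228) (nat_lit 2460237000) (nat_lit 33) (nat_lit 5) (nat_lit 35) (nat_lit 5) (nat_lit 36) (nat_lit 5) (nat_lit 347) (nat_lit 247) (nat_lit 186))) (XT.nd (nat_lit 78) (nat_lit 0) (nat_lit 0) (XT.lf (nat_lit 0) (nat_lit 2819883114) (nat_lit 228) (nat_lit 14506991931) (nat_lit 76) (nat_lit 3545233493) (nat_lit 30) (nat_lit 5) (nat_lit 33) (nat_lit 5) (nat_lit 31) (nat_lit 5) (nat_lit 348) (nat_lit 247) (nat_lit 185)) (XT.lf (nat_lit 0) (nat_lit 8229368292) (nat_lit 228) (nat_lit 3201231468) (nat_lit 76) (nat_lit 9930473221) (nat_lit 30) (nat_lit 5) (nat_lit 33) (nat_lit 5) (nat_lit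 31) (nat_lit 5) (nat_lit 349) (nat_lit 247) (nat_lit 184))))))))
noncomputable def xc30 : XT := (XT.nd (nat_lit 36426) (nat_lit 0) (nat_lit 5776) (XT.nd (nat_lit 1014) (nat_lit 0) (nat_lit 0) (XT.nd (nat_lit 468) (nat_lit 608) (nat_lit 0) (XT.nd (nat_lit 234) (nat_lit 152) (nat_lit 0) (XT.nd (nat_lit 78) (nat_lit 228) (nat_lit 0) (XT.lf (nat_lit 0) (nat_lit 8472979742) (nat_lit 152) (nat_lit 5335897906) (nat_lit 228) (nat_lit 8055689103) (nat_lit 28) (nat_lit 5) (nat_lit 30) (nat_lit 5) (nat_lit 31) (nat_lit 5) (nat_lit 350) (nat_lit 247) (nat_lit 183)) (XT.nd (nat_lit 78) (nat_lit 228) (nat_lit 0) (XT.lf (nat_lit 0) (nat_lit 19537082390) (nat_lit 228) (nat_lit 1928993244) (nat_lit 76) (nat_lit 917478244) (nat_lit 28) (nat_lit 5) (nat_lit 31) (nat_lit 5) (nat_lit 29) (nat_lit 4) (nat_lit 351) (nat_lit 247) (nat_lit 182)) (XT.lf (nat_lit 0) (nat_lit 2540964692) (nat_lit 228) (nat_lit 13041084615)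 (nat_lit 76) (nat_lit 7334648654) (nat_lit 25) (nat_lit 5) (nat_lit 28) (nat_lit 5) (nat_lit 26) (nat_lit 5) (nat_lit 352) (nat_lit 247) (nat_lit 181)))) (XT.nd (nat_lit 78) (nat_lit 152) (nat_lit 0) (XT.lf (nat_lit 0) (nat_lit 8019955482) (nat_lit 228) (nat_lit 1502137971) (nat_lit 76) (nat_lit 13944008157) (nat_lit 25) (nat_lit 5) (nat_lit 28) (nat_lit 5) (nat_lit 26) (nat_lit 5) (nat_lit 353) (nat_lit 247) (nat_lit 180)) (XT.nd (nat_lit 78) (nat_lit 0) (nat_lit 0) (XT.lf (nat_lit 0) (nat_lit 10444026777) (nat_lit 152) (nat_lit 3243628316) (nat_lit 228) (nat_lit 10343858725) (nat_lit 23) (nat_lit 5) (nat_lit 25) (nat_lit 5) (nat_lit 26) (nat_lit 5) (nat_lit 354) (nat_lit 247) (nat_lit 179)) (XT.lf (nat_lit 0) (nat_lit 19513662077) (nat_lit 228) (nat_lit 1940893961) (nat_lit 76) (nat_lit 3159579668) (nat_lit 23) (nat_lit 5) (nat_lit 26) (nat_lit 5) (nat_lit 24) (nat_lit 4) (nat_lit 355) (nat_lit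 247) (nat_lit 178))))) (XT.nd (nat_lit 234) (nat_lit 304) (nat_lit 0) (XT.nd (nat_lit 78) (nat_lit 152) (nat_lit 0) (XT.lf (nat_lit 0) (nat_lit 342137038) (nat_lit 152) (nat_lit 15122974291) (nat_lit 76) (nat_lit 9748180938) (nat_lit 21) (nat_lit 5) (nat_lit 23) (nat_lit 5) (nat_lit 22) (nat_lit 5) (nat_lit 356) (nat_lit 247) (nat_lit 177)) (XT.nd (nat_lit 78) (nat_lit 152) (nat_lit 0) (XT.lf (nat_lit 0) (nat_lit 5851180084) (nat_lit 152) (nat_lit 3427853346) (nat_lit 76) (nat_lit 16551278691) (nat_lit 21) (nat_lit 5) (nat_lit 23) (nat_lit 5) (nat_lit 22) (nat_lit 5) (nat_lit 357) (nat_lit 247) (nat_lit 176)) (XT.lf (nat_lit 0) (nat_lit 8661298064) (nat_lit 152) (nat_lit 2880446088) (nat_lit 228) (nat_lit 14923784947) (nat_lit 19) (nat_lit 5) (nat_lit 21) (nat_lit 5) (nat_lit 22) (nat_lit 5) (nat_lit 358) (nat_lit 247) (nat_lit 175)))) (XT.nd (nat_lit 156) (nat_lit 228) (nat_lit 0) (XT.nd (nat_lit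 78) (nat_lit 76) (nat_lit 0) (XT.lf (nat_lit 0) (nat_lit 17411030476) (nat_lit 228) (nat_lit 6053412243) (nat_lit 76) (nat_lit 3655210950) (nat_lit 19) (nat_lit 5) (nat_lit 22) (nat_lit 5) (nat_lit 20) (nat_lit 4) (nat_lit 359) (nat_lit 247) (nat_lit 174)) (XT.lf (nat_lit 0) (nat_lit 6042069387) (nat_lit 76) (nat_lit 17434502276) (nat_lit 152) (nat_lit 4316437648) (nat_lit 18) (nat_lit 5) (nat_lit 19) (nat_lit 5) (nat_lit 20) (nat_lit 4) (nat_lit 360) (nat_lit 247) (nat_lit 173))) (XT.nd (nat_lit 78) (nat_lit 152) (nat_lit 0) (XT.lf (nat_lit 0) (nat_lit 1224682102) (nat_lit 152) (nat_lit 9978031102) (nat_lit 76) (nat_lit 17283634085) (nat_lit 17) (nat_lit 5) (nat_lit 19) (nat_lit 5) (nat_lit 18) (nat_lit 5) (nat_lit 361) (nat_lit 247) (nat_lit 172)) (XT.lf (nat_lit 0) (nat_lit 2081198232) (nat_lit 152) (nat_lit 4769251584) (nat_lit 228) (nat_lit 22349933840) (nat_lit 15) (nat_lit 5) (nat_lit 17)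 (nat_lit 5) (nat_lit 18) (nat_lit 5) (nat_lit 362) (nat_lit 247) (nat_lit 171)))))) (XT.nd (nat_lit 34866) (nat_lit 0) (nat_lit 18392) (XT.nd (nat_lit 34632) (nat_lit 0) (nat_lit 24016) (XT.nd (nat_lit 34476) (nat_lit 0) (nat_lit 27816) (XT.lf (nat_lit 0) (nat_lit 12688793923) (nat_lit 228) (nat_lit 15372996292) (nat_lit 76) (nat_lit 1873184577) (nat_lit 15) (nat_lit 5) (nat_lit 18) (nat_lit 5) (nat_lit 16) (nat_lit 4) (nat_lit 363) (nat_lit 247) (nat_lit 170)) (XT.nd (nat_lit 78) (nat_lit 1596) (nat_lit 0) (XT.lf (nat_lit 0) (nat_lit 650235870) (nat_lit 1596) (nat_lit 2252176975) (nat_lit 0) (nat_lit 650235870) (nat_lit 402) (nat_lit 5) (nat_lit 423) (nat_lit 4) (nat_lit 402) (nat_lit 4) (nat_lit 284) (nat_lit 248) (nat_lit 248)) (XT.lf (nat_lit 0) (nat_lit 2520552639) (nat_lit 1596) (nat_lit 3563135905) (nat_lit 1596) (nat_lit 1079919479) (nat_lit 381) (nat_lit 4) (nat_lit 402) (nat_lit 5) (nat_lit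 402) (nat_lit 4) (nat_lit 285) (nat_lit 248) (nat_lit 247)))) (XT.nd (nat_lit 78) (nat_lit 2052) (nat_lit 0) (XT.lf (nat_lit 0) (nat_lit 2460685354) (nat_lit 1672) (nat_lit 1180300543) (nat_lit 1748) (nat_lit 3584278895) (nat_lit 358) (nat_lit 5) (nat_lit 380) (nat_lit 5) (nat_lit 381) (nat_lit 4) (nat_lit 286) (nat_lit 248) (nat_lit 246)) (XT.nd (nat_lit 78) (nat_lit 836) (nat_lit 0) (XT.lf (nat_lit 0) (nat_lit 1100015565) (nat_lit 1216) (nat_lit 4870886012) (nat_lit 76) (nat_lit 1319419151) (nat_lit 342) (nat_lit 5) (nat_lit 358) (nat_lit 5) (nat_lit 343) (nat_lit 4) (nat_lit 287) (nat_lit 248) (nat_lit 245)) (XT.lf (nat_lit 0) (nat_lit 2384771534) (nat_lit 836) (nat_lit 3410092360) (nat_lit 912) (nat_lit 1563770407) (nat_lit 331) (nat_lit 5) (nat_lit 342) (nat_lit 5) (nat_lit 343) (nat_lit 4) (nat_lit 288) (nat_lit 248) (nat_lit 244))))) (XT.nd (nat_lit 234) (nat_lit 3040) (nat_lit 0) (XT.nd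 (nat_lit 78) (nat_lit 1672) (nat_lit 0) (XT.lf (nat_lit 0) (nat_lit 2364868909) (nat_lit 836) (nat_lit 707907827) (nat_lit 912) (nat_lit 4357687503) (nat_lit 319) (nat_lit 5) (nat_lit 330) (nat_lit 5) (nat_lit 331) (nat_lit 5) (nat_lit 289) (nat_lit 248) (nat_lit 243)) (XT.nd (nat_lit 78) (nat_lit 836) (nat_lit 0) (XT.lf (nat_lit 0) (nat_lit 248513932) (nat_lit 836) (nat_lit 5154663395) (nat_lit 76) (nat_lit 2102566477) (nat_lit 308) (nat_lit 5) (nat_lit 319) (nat_lit 5) (nat_lit 309) (nat_lit 5) (nat_lit 290) (nat_lit 248) (nat_lit 242)) (XT.lf (nat_lit 0) (nat_lit 2331891161) (nat_lit 836) (nat_lit 2526145777) (nat_lit 912) (nat_lit 2726317602) (nat_lit 297) (nat_lit 5) (nat_lit 308) (nat_lit 5) (nat_lit 309) (nat_lit 5) (nat_lit 291) (nat_lit 248) (nat_lit 241)))) (XT.nd (nat_lit 156) (nat_lit 1444) (nat_lit 0) (XT.nd (nat_lit 78) (nat_lit 760) (nat_lit 0) (XT.lf (nat_lit 0) (nat_lit 1839998520)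 (nat_lit 836) (nat_lit 5344422744) (nat_lit 76) (nat_lit 482280941) (nat_lit 286) (nat_lit 5) (nat_lit 297) (nat_lit 5) (nat_lit 287) (nat_lit 5) (nat_lit 292) (nat_lit 248) (nat_lit 240)) (XT.lf (nat_lit 0) (nat_lit 2298747986) (nat_lit 760) (nat_lit 4149623880) (nat_lit 836) (nat_lit 1304071224) (nat_lit 276) (nat_lit 5) (nat_lit 286) (nat_lit 5) (nat_lit 287) (nat_lit 5) (nat_lit 293) (nat_lit 248) (nat_lit 239))) (XT.nd (nat_lit 78) (nat_lit 684) (nat_lit 0) (XT.lf (nat_lit 0) (nat_lit 2271242981) (nat_lit 684) (nat_lit 966282452) (nat_lit 760) (nat_lit 4604369004) (nat_lit 266) (nat_lit 5) (nat_lit 275) (nat_lit 5) (nat_lit 276) (nat_lit 5) (nat_lit 294) (nat_lit 248) (nat_lit 238)) (XT.lf (nat_lit 0) (nat_lit 2233597461) (nat_lit 684) (nat_lit 5609545598) (nat_lit 760) (nat_lit 91919911) (nat_lit 257) (nat_lit 5) (nat_lit 266) (nat_lit 5) (nat_lit 267) (nat_lit 5) (nat_lit 295) (nat_lit 248)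 (nat_lit 237))))))) (XT.nd (nat_lit 1014) (nat_lit 5320) (nat_lit 0) (XT.nd (nat_lit 468) (nat_lit 3268) (nat_lit 0) (XT.nd (nat_lit 234) (nat_lit 1900) (nat_lit 0) (XT.nd (nat_lit 78) (nat_lit 1368) (nat_lit 0) (XT.lf (nat_lit 0) (nat_lit 2169700099) (nat_lit 684) (nat_lit 2265406682) (nat_lit 760) (nat_lit 3596659339) (nat_lit 247) (nat_lit 5) (nat_lit 256) (nat_lit 5) (nat_lit 257) (nat_lit 5) (nat_lit 296) (nat_lit 248) (nat_lit 236)) (XT.nd (nat_lit 78) (nat_lit 608) (nat_lit 0) (XT.lf (nat_lit 0) (nat_lit 895258663) (nat_lit 760) (nat_lit 6035442217) (nat_lit 76) (nat_lit 1201785301) (nat_lit 237) (nat_lit 5) (nat_lit 247) (nat_lit 5) (nat_lit 238) (nat_lit 5) (nat_lit 297) (nat_lit 248) (nat_lit 235)) (XT.lf (nat_lit 0) (nat_lit 1986514827) (nat_lit 608) (nat_lit 3439377552) (nat_lit 684) (nat_lit 2810905435) (nat_lit 229) (nat_lit 5) (nat_lit 237) (nat_lit 5) (nat_lit 238) (nat_lit 5) (nat_lit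 298) (nat_lit 248) (nat_lit 234)))) (XT.nd (nat_lit 78) (nat_lit 1216) (nat_lit 0) (XT.lf (nat_lit 0) (nat_lit 1665952324) (nat_lit 684) (nat_lit 6484629467) (nat_lit 76) (nat_lit 194713510) (nat_lit 220) (nat_lit 5) (nat_lit 229) (nat_lit 5) (nat_lit 221) (nat_lit 5) (nat_lit 299) (nat_lit 248) (nat_lit 233)) (XT.nd (nat_lit 78) (nat_lit 684) (nat_lit 0) (XT.lf (nat_lit 0) (nat_lit 1685270868) (nat_lit 532) (nat_lit 4518847734) (nat_lit 608) (nat_lit 2253347839) (nat_lit 213) (nat_lit 5) (nat_lit 220) (nat_lit 5) (nat_lit 221) (nat_lit 5) (nat_lit 300) (nat_lit 248) (nat_lit 232)) (XT.lf (nat_lit 0) (nat_lit 1482747623) (nat_lit 608) (nat_lit 736249412) (nat_lit 684) (nat_lit 6354919828) (nat_lit 204) (nat_lit 5) (nat_lit 212) (nat_lit 5) (nat_lit 213) (nat_lit 5) (nat_lit 301) (nat_lit 248) (nat_lit 231))))) (XT.nd (nat_lit 234) (nat_lit 1596) (nat_lit 0) (XT.nd (nat_lit 78) (nat_lit 1140) (nat_lit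 0) (XT.lf (nat_lit 0) (nat_lit 1227141008) (nat_lit 532) (nat_lit 5534692832) (nat_lit 608) (nat_lit 1932477374) (nat_lit 197) (nat_lit 5) (nat_lit 204) (nat_lit 5) (nat_lit 205) (nat_lit 5) (nat_lit 302) (nat_lit 248) (nat_lit 230)) (XT.nd (nat_lit 78) (nat_lit 532) (nat_lit 0) (XT.lf (nat_lit 0) (nat_lit 927184368) (nat_lit 532) (nat_lit 1613932682) (nat_lit 608) (nat_lit 6277885119) (nat_lit 189) (nat_lit 5) (nat_lit 196) (nat_lit 5) (nat_lit 197) (nat_lit 5) (nat_lit 303) (nat_lit 248) (nat_lit 229)) (XT.lf (nat_lit 0) (nat_lit 570492489) (nat_lit 532) (nat_lit 6518284529) (nat_lit 608) (nat_lit 1859159531) (nat_lit 182) (nat_lit 5) (nat_lit 189) (nat_lit 5) (nat_lit 190) (nat_lit 5) (nat_lit 304) (nat_lit 248) (nat_lit 228)))) (XT.nd (nat_lit 156) (nat_lit 988) (nat_lit 0) (XT.nd (nat_lit 78) (nat_lit 0) (nat_lit 0) (XT.lf (nat_lit 0) (nat_lit 152024699) (nat_lit 532) (nat_lit 2467400846)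 (nat_lit 608) (nat_lit 6461788270) (nat_lit 174) (nat_lit 5) (nat_lit 181) (nat_lit 5) (nat_lit 182) (nat_lit 5) (nat_lit 305) (nat_lit 248) (nat_lit 227)) (XT.lf (nat_lit 0) (nat_lit 7174374465) (nat_lit 608) (nat_lit 325217042) (nat_lit 76) (nat_lit 1719381129) (nat_lit 174) (nat_lit 5) (nat_lit 182) (nat_lit 5) (nat_lit 175) (nat_lit 5) (nat_lit 306) (nat_lit 248) (nat_lit 226))) (XT.nd (nat_lit 78) (nat_lit 456) (nat_lit 0) (XT.lf (nat_lit 0) (nat_lit 2445544299) (nat_lit 532) (nat_lit 877776153) (nat_lit 76) (nat_lit 6037823380) (nat_lit 167) (nat_lit 5) (nat_lit 174) (nat_lit 5) (nat_lit 168) (nat_lit 5) (nat_lit 307) (nat_lit 248) (nat_lit 225)) (XT.lf (nat_lit 0) (nat_lit 7006755135) (nat_lit 532) (nat_lit 1501555906) (nat_lit 76) (nat_lit 999784661) (nat_lit 161) (nat_lit 5) (nat_lit 168) (nat_lit 5) (nat_lit 162) (nat_lit 5) (nat_lit 308) (nat_lit 248) (nat_lit 224)))))) (XT.nd (nat_lit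 546) (nat_lit 2204) (nat_lit 0) (XT.nd (nat_lit 234) (nat_lit 1672) (nat_lit 0) (XT.nd (nat_lit 78) (nat_lit 912) (nat_lit 0) (XT.lf (nat_lit 0) (nat_lit 1999865591) (nat_lit 532) (nat_lit 2218375784) (nat_lit 76) (nat_lit 5441387637) (nat_lit 154) (nat_lit 5) (nat_lit 161) (nat_lit 5) (nat_lit 155) (nat_lit 5) (nat_lit 309) (nat_lit 248) (nat_lit 223)) (XT.nd (nat_lit 78) (nat_lit 456) (nat_lit 0) (XT.lf (nat_lit 0) (nat_lit 6564418783) (nat_lit 532) (nat_lit 3018065952) (nat_lit 76) (nat_lit 233710491) (nat_lit 148) (nat_lit 5) (nat_lit 155) (nat_lit 5) (nat_lit 149) (nat_lit 5) (nat_lit 310) (nat_lit 248) (nat_lit 222)) (XT.lf (nat_lit 0) (nat_lit 1261954591) (nat_lit 456) (nat_lit 3926144946) (nat_lit 76) (nat_lit 4789443933) (nat_lit 142) (nat_lit 5) (nat_lit 148) (nat_lit 5) (nat_lit 143) (nat_lit 5) (nat_lit 311) (nat_lit 248) (nat_lit 221)))) (XT.nd (nat_lit 156) (nat_lit 760) (nat_lit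 0) (XT.nd (nat_lit 78) (nat_lit 456) (nat_lit 0) (XT.lf (nat_lit 0) (nat_lit 5208563326) (nat_lit 456) (nat_lit 622050932) (nat_lit 532) (nat_lit 4313472758) (nat_lit 136) (nat_lit 5) (nat_lit 142) (nat_lit 5) (nat_lit 143) (nat_lit 5) (nat_lit 312) (nat_lit 248) (nat_lit 220)) (XT.lf (nat_lit 0) (nat_lit 209237590) (nat_lit 456) (nat_lit 6060421614) (nat_lit 76) (nat_lit 4046166323) (nat_lit 130) (nat_lit 5) (nat_lit 136) (nat_lit 5) (nat_lit 131) (nat_lit 5) (nat_lit 313) (nat_lit 248) (nat_lit 219))) (XT.nd (nat_lit 78) (nat_lit 380) (nat_lit 0) (XT.lf (nat_lit 0) (nat_lit 3178577349) (nat_lit 380) (nat_lit 1601017487) (nat_lit 456) (nat_lit 5713193938) (nat_lit 125) (nat_lit 5) (nat_lit 130) (nat_lit 5) (nat_lit 131) (nat_lit 5) (nat_lit 314) (nat_lit 248) (nat_lit 218)) (XT.lf (nat_lit 0) (nat_lit 1981436552) (nat_lit 380) (nat_lit 7493930999) (nat_lit 456) (nat_lit 1199979893) (nat_lit 120)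 (nat_lit 5) (nat_lit 125) (nat_lit 5) (nat_lit 126) (nat_lit 5) (nat_lit 315) (nat_lit 248) (nat_lit 217))))) (XT.nd (nat_lit 234) (nat_lit 1368) (nat_lit 0) (XT.nd (nat_lit 78) (nat_lit 380) (nat_lit 0) (XT.lf (nat_lit 0) (nat_lit 642639406) (nat_lit 380) (nat_lit 2739908741) (nat_lit 456) (nat_lit 7480854059) (nat_lit 114) (nat_lit 5) (nat_lit 119) (nat_lit 5) (nat_lit 120) (nat_lit 5) (nat_lit 316) (nat_lit 248) (nat_lit 216)) (XT.nd (nat_lit 78) (nat_lit 380) (nat_lit 0) (XT.lf (nat_lit 0) (nat_lit 8075452609) (nat_lit 456) (nat_lit 825514335) (nat_lit 76) (nat_lit 2156237584) (nat_lit 114) (nat_lit 5) (nat_lit 120) (nat_lit 5) (nat_lit 115) (nat_lit 5) (nat_lit 317) (nat_lit 248) (nat_lit 215)) (XT.lf (nat_lit 0) (nat_lit 1624458098) (nat_lit 380) (nat_lit 2440449803) (nat_lit 76) (nat_lit 7191868636) (nat_lit 109) (nat_lit 5) (nat_lit 114) (nat_lit 5) (nat_lit 110) (nat_lit 5) (nat_lit 318)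 (nat_lit 248) (nat_lit 214)))) (XT.nd (nat_lit 156) (nat_lit 684) (nat_lit 0) (XT.nd (nat_lit 78) (nat_lit 304) (nat_lit 0) (XT.lf (nat_lit 0) (nat_lit 6306734791) (nat_lit 456) (nat_lit 4218048232) (nat_lit 76) (nat_lit 937635621) (nat_lit 104) (nat_lit 5) (nat_lit 110) (nat_lit 5) (nat_lit 105) (nat_lit 5) (nat_lit 319) (nat_lit 248) (nat_lit 213)) (XT.lf (nat_lit 0) (nat_lit 5503772590) (nat_lit 304) (nat_lit 5625875602) (nat_lit 380) (nat_lit 544622082) (nat_lit 100) (nat_lit 5) (nat_lit 104) (nat_lit 5) (nat_lit 105) (nat_lit 5) (nat_lit 320) (nat_lit 248) (nat_lit 212))) (XT.nd (nat_lit 78) (nat_lit 304) (nat_lit 0) (XT.lf (nat_lit 0) (nat_lit 3583093885) (nat_lit 304) (nat_lit 540157275) (nat_lit 380) (nat_lit 7769249297) (nat_lit 95) (nat_lit 5) (nat_lit 99) (nat_lit 5) (nat_lit 100) (nat_lit 5) (nat_lit 321) (nat_lit 248) (nat_lit 211)) (XT.lf (nat_lit 0) (nat_lit 1463217933) (nat_lit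 304) (nat_lit 7465525874) (nat_lit 380) (nat_lit 3188402406) (nat_lit 91) (nat_lit 5) (nat_lit 95) (nat_lit 5) (nat_lit 96) (nat_lit 5) (nat_lit 322) (nat_lit 248) (nat_lit 210))))))))
noncomputable def xc31 : XT := (XT.nd (nat_lit 2106) (nat_lit 1140) (nat_lit 0) (XT.nd (nat_lit 1014) (nat_lit 1976) (nat_lit 0) (XT.nd (nat_lit 468) (nat_lit 1444) (nat_lit 0) (XT.nd (nat_lit 234) (nat_lit 608) (nat_lit 0) (XT.nd (nat_lit 78) (nat_lit 532) (nat_lit 0) (XT.lf (nat_lit 0) (nat_lit 1493892519) (nat_lit 380) (nat_lit 836548985) (nat_lit 76) (nat_lit 10018247813) (nat_lit 90) (nat_lit 5) (nat_lit 95) (nat_lit 5) (nat_lit 91) (nat_lit 5) (nat_lit 323) (nat_lit 248) (nat_lit 209)) (XT.nd (nat_lit 78) (nat_lit 228) (nat_lit 0) (XT.lf (nat_lit 0) (nat_lit 6279213706) (nat_lit 380) (nat_lit 3345615040) (nat_lit 76) (nat_lit 2961848213) (nat_lit 86) (nat_lit 5) (nat_lit 91) (nat_lit 5) (nat_lit 87) (nat_lit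 5) (nat_lit 324) (nat_lit 248) (nat_lit 208)) (XT.lf (nat_lit 0) (nat_lit 6759876644) (nat_lit 228) (nat_lit 4440575527) (nat_lit 304) (nat_lit 1631541078) (nat_lit 83) (nat_lit 5) (nat_lit 86) (nat_lit 5) (nat_lit 87) (nat_lit 5) (nat_lit 325) (nat_lit 248) (nat_lit 207)))) (XT.nd (nat_lit 78) (nat_lit 228) (nat_lit 0) (XT.lf (nat_lit 0) (nat_lit 3126099628) (nat_lit 380) (nat_lit 9041447859) (nat_lit 76) (nat_lit 917078269) (nat_lit 78) (nat_lit 5) (nat_lit 83) (nat_lit 5) (nat_lit 79) (nat_lit 5) (nat_lit 326) (nat_lit 248) (nat_lit 206)) (XT.nd (nat_lit 78) (nat_lit 0) (nat_lit 0) (XT.lf (nat_lit 0) (nat_lit 1061669708) (nat_lit 228) (nat_lit 6949940072) (nat_lit 304) (nat_lit 5332899067) (nat_lit 75) (nat_lit 5) (nat_lit 78) (nat_lit 5) (nat_lit 79) (nat_lit 5) (nat_lit 327) (nat_lit 248) (nat_lit 205)) (XT.lf (nat_lit 0) (nat_lit 11481057382) (nat_lit 228) (nat_lit 1554412415) (nat_lit 304)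 (nat_lit 576915396) (nat_lit 75) (nat_lit 5) (nat_lit 78) (nat_lit 5) (nat_lit 79) (nat_lit 5) (nat_lit 328) (nat_lit 248) (nat_lit 204))))) (XT.nd (nat_lit 234) (nat_lit 608) (nat_lit 0) (XT.nd (nat_lit 78) (nat_lit 456) (nat_lit 0) (XT.lf (nat_lit 0) (nat_lit 4277271493) (nat_lit 380) (nat_lit 5617128077) (nat_lit 76) (nat_lit 3993123872) (nat_lit 70) (nat_lit 5) (nat_lit 75) (nat_lit 5) (nat_lit 71) (nat_lit 5) (nat_lit 329) (nat_lit 248) (nat_lit 203)) (XT.nd (nat_lit 78) (nat_lit 228) (nat_lit 0) (XT.lf (nat_lit 0) (nat_lit 4783460321) (nat_lit 228) (nat_lit 4474911789) (nat_lit 304) (nat_lit 4912714931) (nat_lit 67) (nat_lit 5) (nat_lit 70) (nat_lit 5) (nat_lit 71) (nat_lit 5) (nat_lit 330) (nat_lit 248) (nat_lit 202)) (XT.lf (nat_lit 0) (nat_lit 1009377505) (nat_lit 228) (nat_lit 13365676467) (nat_lit 304) (nat_lit 88409728) (nat_lit 64) (nat_lit 5) (nat_lit 67) (nat_lit 5) (nat_lit 68)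 (nat_lit 5) (nat_lit 331) (nat_lit 248) (nat_lit 201)))) (XT.nd (nat_lit 156) (nat_lit 304) (nat_lit 0) (XT.nd (nat_lit 78) (nat_lit 228) (nat_lit 0) (XT.lf (nat_lit 0) (nat_lit 4845445815) (nat_lit 304) (nat_lit 3084719509) (nat_lit 76) (nat_lit 6833263657) (nat_lit 63) (nat_lit 5) (nat_lit 67) (nat_lit 5) (nat_lit 64) (nat_lit 5) (nat_lit 332) (nat_lit 248) (nat_lit 200)) (XT.lf (nat_lit 0) (nat_lit 7591658204) (nat_lit 228) (nat_lit 2320522502) (nat_lit 304) (nat_lit 5160506437) (nat_lit 60) (nat_lit 5) (nat_lit 63) (nat_lit 5) (nat_lit 64) (nat_lit 5) (nat_lit 333) (nat_lit 248) (nat_lit 199))) (XT.nd (nat_lit 78) (nat_lit 76) (nat_lit 0) (XT.lf (nat_lit 0) (nat_lit 3156169185) (nat_lit 228) (nat_lit 11976425769) (nat_lit 304) (nat_lit 258620673) (nat_lit 57) (nat_lit 5) (nat_lit 60) (nat_lit 5) (nat_lit 61) (nat_lit 5) (nat_lit 334) (nat_lit 248) (nat_lit 198)) (XT.lf (nat_lit 0) (nat_lit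 4732470497) (nat_lit 304) (nat_lit 1651924130) (nat_lit 76) (nat_lit 9334208672) (nat_lit 56) (nat_lit 5) (nat_lit 60) (nat_lit 5) (nat_lit 57) (nat_lit 5) (nat_lit 335) (nat_lit 248) (nat_lit 197)))))) (XT.nd (nat_lit 546) (nat_lit 836) (nat_lit 0) (XT.nd (nat_lit 234) (nat_lit 608) (nat_lit 0) (XT.nd (nat_lit 78) (nat_lit 304) (nat_lit 0) (XT.lf (nat_lit 0) (nat_lit 9269930631) (nat_lit 228) (nat_lit 600276955) (nat_lit 304) (nat_lit 6185586430) (nat_lit 53) (nat_lit 5) (nat_lit 56) (nat_lit 5) (nat_lit 57) (nat_lit 5) (nat_lit 336) (nat_lit 248) (nat_lit 196)) (XT.nd (nat_lit 78) (nat_lit 76) (nat_lit 0) (XT.lf (nat_lit 0) (nat_lit 4059604420) (nat_lit 228) (nat_lit 11115964309) (nat_lit 304) (nat_lit 1227285327) (nat_lit 50) (nat_lit 5) (nat_lit 53) (nat_lit 5) (nat_lit 54) (nat_lit 5) (nat_lit 337) (nat_lit 248) (nat_lit 195)) (XT.lf (nat_lit 0) (nat_lit 3820950572) (nat_lit 304) (nat_lit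 1562756396) (nat_lit 76) (nat_lit 11376296045) (nat_lit 49) (nat_lit 5) (nat_lit 53) (nat_lit 5) (nat_lit 50) (nat_lit 5) (nat_lit 338) (nat_lit 248) (nat_lit 194)))) (XT.nd (nat_lit 156) (nat_lit 228) (nat_lit 0) (XT.nd (nat_lit 78) (nat_lit 228) (nat_lit 0) (XT.lf (nat_lit 0) (nat_lit 9013214124) (nat_lit 228) (nat_lit 7567167618) (nat_lit 76) (nat_lit 547159019) (nat_lit 47) (nat_lit 5) (nat_lit 50) (nat_lit 5) (nat_lit 48) (nat_lit 5) (nat_lit 339) (nat_lit 248) (nat_lit 193)) (XT.lf (nat_lit 0) (nat_lit 3448153046) (nat_lit 228) (nat_lit 10926408903) (nat_lit 304) (nat_lit 3131297395) (nat_lit 44) (nat_lit 5) (nat_lit 47) (nat_lit 5) (nat_lit 48) (nat_lit 5) (nat_lit 340) (nat_lit 248) (nat_lit 192))) (XT.nd (nat_lit 78) (nat_lit 152) (nat_lit 0) (XT.lf (nat_lit 0) (nat_lit 1971501436) (nat_lit 304) (nat_lit 3103244707) (nat_lit 76) (nat_lit 12820610990) (nat_lit 43) (nat_lit 5) (nat_lit 47)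 (nat_lit 5) (nat_lit 44) (nat_lit 5) (nat_lit 341) (nat_lit 248) (nat_lit 191)) (XT.lf (nat_lit 0) (nat_lit 7191116604) (nat_lit 228) (nat_lit 10126662628) (nat_lit 76) (nat_lit 978240611) (nat_lit 41) (nat_lit 5) (nat_lit 44) (nat_lit 5) (nat_lit 42) (nat_lit 5) (nat_lit 342) (nat_lit 248) (nat_lit 190))))) (XT.nd (nat_lit 234) (nat_lit 380) (nat_lit 0) (XT.nd (nat_lit 78) (nat_lit 228) (nat_lit 0) (XT.lf (nat_lit 0) (nat_lit 1003834885) (nat_lit 228) (nat_lit 11572366723) (nat_lit 304) (nat_lit 6132342065) (nat_lit 38) (nat_lit 5) (nat_lit 41) (nat_lit 5) (nat_lit 42) (nat_lit 5) (nat_lit 343) (nat_lit 248) (nat_lit 189)) (XT.nd (nat_lit 78) (nat_lit 228) (nat_lit 0) (XT.lf (nat_lit 0) (nat_lit 12518728844) (nat_lit 228) (nat_lit 5620954626) (nat_lit 304) (nat_lit 993441181) (nat_lit 38) (nat_lit 5) (nat_lit 41) (nat_lit 5) (nat_lit 42) (nat_lit 5) (nat_lit 344) (nat_lit 248) (nat_lit 188)) (XT.lf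 (nat_lit 0) (nat_lit 4226964159) (nat_lit 228) (nat_lit 14816919288) (nat_lit 76) (nat_lit 526344169) (nat_lit 35) (nat_lit 5) (nat_lit 38) (nat_lit 5) (nat_lit 36) (nat_lit 5) (nat_lit 345) (nat_lit 248) (nat_lit 187)))) (XT.nd (nat_lit 156) (nat_lit 228) (nat_lit 0) (XT.nd (nat_lit 78) (nat_lit 152) (nat_lit 0) (XT.lf (nat_lit 0) (nat_lit 9623345073) (nat_lit 228) (nat_lit 3597135106) (nat_lit 76) (nat_lit 6799191879) (nat_lit 35) (nat_lit 5) (nat_lit 38) (nat_lit 5) (nat_lit 36) (nat_lit 5) (nat_lit 346) (nat_lit 248) (nat_lit 186)) (XT.lf (nat_lit 0) (nat_lit 7980766036) (nat_lit 152) (nat_lit 7204197481) (nat_lit 228) (nat_lit 5297585827) (nat_lit 33) (nat_lit 5) (nat_lit 35) (nat_lit 5) (nat_lit 36) (nat_lit 5) (nat_lit 347) (nat_lit 248) (nat_lit 185))) (XT.nd (nat_lit 78) (nat_lit 228) (nat_lit 0) (XT.lf (nat_lit 0) (nat_lit 19873445562) (nat_lit 152) (nat_lit 1016770633) (nat_lit 228)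 (nat_lit 69576998) (nat_lit 33) (nat_lit 5) (nat_lit 35) (nat_lit 5) (nat_lit 36) (nat_lit 5) (nat_lit 348) (nat_lit 248) (nat_lit 184)) (XT.lf (nat_lit 0) (nat_lit 5303737804) (nat_lit 228) (nat_lit 10788178252) (nat_lit 76) (nat_lit 5357599754) (nat_lit 30) (nat_lit 5) (nat_lit 33) (nat_lit 5) (nat_lit 31) (nat_lit 5) (nat_lit 349) (nat_lit 248) (nat_lit 183))))))) (XT.nd (nat_lit 1014) (nat_lit 152) (nat_lit 0) (XT.nd (nat_lit 468) (nat_lit 456) (nat_lit 0) (XT.nd (nat_lit 234) (nat_lit 228) (nat_lit 0) (XT.nd (nat_lit 78) (nat_lit 152) (nat_lit 0) (XT.lf (nat_lit 0) (nat_lit 745541968) (nat_lit 152) (nat_lit 10064924816) (nat_lit 228) (nat_lit 11144005668) (nat_lit 28) (nat_lit 5) (nat_lit 30) (nat_lit 5) (nat_lit 31) (nat_lit 5) (nat_lit 350) (nat_lit 248) (nat_lit 182)) (XT.nd (nat_lit 78) (nat_lit 152) (nat_lit 0) (XT.lf (nat_lit 0) (nat_lit 12694770437) (nat_lit 152) (nat_lit 3815664801)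 (nat_lit 228) (nat_lit 5963596118) (nat_lit 28) (nat_lit 5) (nat_lit 30) (nat_lit 5) (nat_lit 31) (nat_lit 5) (nat_lit 351) (nat_lit 248) (nat_lit 181)) (XT.lf (nat_lit 0) (nat_lit 1924950026) (nat_lit 152) (nat_lit 20442005944) (nat_lit 228) (nat_lit 642523893) (nat_lit 26) (nat_lit 5) (nat_lit 28) (nat_lit 5) (nat_lit 29) (nat_lit 4) (nat_lit 352) (nat_lit 248) (nat_lit 180)))) (XT.nd (nat_lit 78) (nat_lit 152) (nat_lit 0) (XT.lf (nat_lit 0) (nat_lit 4823479697) (nat_lit 228) (nat_lit 9578813267) (nat_lit 76) (nat_lit 9157108780) (nat_lit 25) (nat_lit 5) (nat_lit 28) (nat_lit 5) (nat_lit 26) (nat_lit 5) (nat_lit 353) (nat_lit 248) (nat_lit 179)) (XT.nd (nat_lit 78) (nat_lit 0) (nat_lit 0) (XT.lf (nat_lit 0) (nat_lit 2223221751) (nat_lit 152) (nat_lit 8193792330) (nat_lit 228) (nat_lit 13709289501) (nat_lit 23) (nat_lit 5) (nat_lit 25) (nat_lit 5) (nat_lit 26) (nat_lit 5) (nat_lit 354) (nat_lit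 248) (nat_lit 178)) (XT.lf (nat_lit 0) (nat_lit 14437915895) (nat_lit 152) (nat_lit 1763901759) (nat_lit 228) (nat_lit 8507938028) (nat_lit 23) (nat_lit 5) (nat_lit 25) (nat_lit 5) (nat_lit 26) (nat_lit 5) (nat_lit 355) (nat_lit 248) (nat_lit 177))))) (XT.nd (nat_lit 234) (nat_lit 304) (nat_lit 0) (XT.nd (nat_lit 78) (nat_lit 76) (nat_lit 0) (XT.lf (nat_lit 0) (nat_lit 1627105116) (nat_lit 76) (nat_lit 20534736960) (nat_lit 152) (nat_lit 3148847840) (nat_lit 22) (nat_lit 5) (nat_lit 23) (nat_lit 5) (nat_lit 24) (nat_lit 4) (nat_lit 356) (nat_lit 248) (nat_lit 176)) (XT.nd (nat_lit 78) (nat_lit 0) (nat_lit 0) (XT.lf (nat_lit 0) (nat_lit 2381795787) (nat_lit 152) (nat_lit 12002707942) (nat_lit 76) (nat_lit 11544014549) (nat_lit 21) (nat_lit 5) (nat_lit 23) (nat_lit 5) (nat_lit 22) (nat_lit 5) (nat_lit 357) (nat_lit 248) (nat_lit 175)) (XT.lf (nat_lit 0) (nat_lit 7997001543) (nat_lit 152) (nat_lit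 60829162) (nat_lit 76) (nat_lit 18507417229) (nat_lit 21) (nat_lit 5) (nat_lit 23) (nat_lit 5) (nat_lit 22) (nat_lit 5) (nat_lit 358) (nat_lit 248) (nat_lit 174)))) (XT.nd (nat_lit 156) (nat_lit 152) (nat_lit 0) (XT.nd (nat_lit 78) (nat_lit 0) (nat_lit 0) (XT.lf (nat_lit 0) (nat_lit 12334702438) (nat_lit 152) (nat_lit 1488356253) (nat_lit 228) (nat_lit 13397183746) (nat_lit 19) (nat_lit 5) (nat_lit 21) (nat_lit 5) (nat_lit 22) (nat_lit 5) (nat_lit 359) (nat_lit 248) (nat_lit 173)) (XT.lf (nat_lit 0) (nat_lit 19821382398) (nat_lit 228) (nat_lit 2892083986) (nat_lit 76) (nat_lit 5181481241) (nat_lit 19) (nat_lit 5) (nat_lit 22) (nat_lit 5) (nat_lit 20) (nat_lit 4) (nat_lit 360) (nat_lit 248) (nat_lit 172))) (XT.nd (nat_lit 78) (nat_lit 76) (nat_lit 0) (XT.lf (nat_lit 0) (nat_lit 9512027015) (nat_lit 76) (nat_lit 16523224296) (nat_lit 152) (nat_lit 2553940985) (nat_lit 18) (nat_lit 5) (nat_lit 19)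 (nat_lit 5) (nat_lit 20) (nat_lit 4) (nat_lit 361) (nat_lit 248) (nat_lit 171)) (XT.lf (nat_lit 0) (nat_lit 3074214804) (nat_lit 152) (nat_lit 7059878066) (nat_lit 76) (nat_lit 19170094377) (nat_lit 17) (nat_lit 5) (nat_lit 19) (nat_lit 5) (nat_lit 18) (nat_lit 5) (nat_lit 362) (nat_lit 248) (nat_lit 170)))))) (XT.nd (nat_lit 34788) (nat_lit 0) (nat_lit 19076) (XT.nd (nat_lit 34476) (nat_lit 0) (nat_lit 24852) (XT.nd (nat_lit 34320) (nat_lit 0) (nat_lit 31008) (XT.lf (nat_lit 0) (nat_lit 5308928131) (nat_lit 152) (nat_lit 3527578832) (nat_lit 228) (nat_lit 21203797120) (nat_lit 15) (nat_lit 5) (nat_lit 17) (nat_lit 5) (nat_lit 18) (nat_lit 5) (nat_lit 363) (nat_lit 248) (nat_lit 169)) (XT.nd (nat_lit 78) (nat_lit 1444) (nat_lit 0) (XT.lf (nat_lit 0) (nat_lit 724767787) (nat_lit 1444) (nat_lit 2048979957) (nat_lit 0) (nat_lit 724767787) (nat_lit 442) (nat_lit 5) (nat_lit 461) (nat_lit 4) (nat_lit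 442) (nat_lit 4) (nat_lit 282) (nat_lit 249) (nat_lit 249)) (XT.lf (nat_lit 0) (nat_lit 2700107337) (nat_lit 1444) (nat_lit 3479485965) (nat_lit 1444) (nat_lit 870618789) (nat_lit 423) (nat_lit 4) (nat_lit 442) (nat_lit 5) (nat_lit 442) (nat_lit 4) (nat_lit 283) (nat_lit 249) (nat_lit 248)))) (XT.nd (nat_lit 156) (nat_lit 2888) (nat_lit 0) (XT.nd (nat_lit 78) (nat_lit 1672) (nat_lit 0) (XT.lf (nat_lit 0) (nat_lit 2524169891) (nat_lit 1520) (nat_lit 1270838931) (nat_lit 1596) (nat_lit 3311638500) (nat_lit 402) (nat_lit 5) (nat_lit 422) (nat_lit 5) (nat_lit 423) (nat_lit 4) (nat_lit 284) (nat_lit 249) (nat_lit 247)) (XT.lf (nat_lit 0) (nat_lit 1315626121) (nat_lit 1672) (nat_lit 4794254311) (nat_lit 76) (nat_lit 1056558303) (nat_lit 380) (nat_lit 5) (nat_lit 402) (nat_lit 5) (nat_lit 381) (nat_lit 4) (nat_lit 285) (nat_lit 249) (nat_lit 246))) (XT.nd (nat_lit 78) (nat_lit 1216) (nat_lit 0) (XT.lf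 (nat_lit 0) (nat_lit 2231748324) (nat_lit 1672) (nat_lit 3720844272) (nat_lit 1748) (nat_lit 1276838006) (nat_lit 358) (nat_lit 5) (nat_lit 380) (nat_lit 5) (nat_lit 381) (nat_lit 4) (nat_lit 286) (nat_lit 249) (nat_lit 245)) (XT.lf (nat_lit 0) (nat_lit 2108414261) (nat_lit 1140) (nat_lit 1190771324) (nat_lit 1216) (nat_lit 3996637464) (nat_lit 342) (nat_lit 5) (nat_lit 357) (nat_lit 5) (nat_lit 358) (nat_lit 5) (nat_lit 287) (nat_lit 249) (nat_lit 244))))) (XT.nd (nat_lit 234) (nat_lit 3192) (nat_lit 0) (XT.nd (nat_lit 78) (nat_lit 1672) (nat_lit 0) (XT.lf (nat_lit 0) (nat_lit 545121841) (nat_lit 912) (nat_lit 5366222769) (nat_lit 76) (nat_lit 1454312818) (nat_lit 330) (nat_lit 5) (nat_lit 342) (nat_lit 5) (nat_lit 331) (nat_lit 5) (nat_lit 288) (nat_lit 249) (nat_lit 243)) (XT.nd (nat_lit 78) (nat_lit 836) (nat_lit 0) (XT.lf (nat_lit 0) (nat_lit 1888395980) (nat_lit 836) (nat_lit 3204925851)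 (nat_lit 912) (nat_lit 2345389444) (nat_lit 319) (nat_lit 5) (nat_lit 330) (nat_lit 5) (nat_lit 331) (nat_lit 5) (nat_lit 289) (nat_lit 249) (nat_lit 242)) (XT.lf (nat_lit 0) (nat_lit 1792365167) (nat_lit 760) (nat_lit 360725748) (nat_lit 836) (nat_lit 5362332036) (nat_lit 308) (nat_lit 5) (nat_lit 318) (nat_lit 5) (nat_lit 319) (nat_lit 5) (nat_lit 290) (nat_lit 249) (nat_lit 241)))) (XT.nd (nat_lit 156) (nat_lit 1520) (nat_lit 0) (XT.nd (nat_lit 78) (nat_lit 836) (nat_lit 0) (XT.lf (nat_lit 0) (nat_lit 1689699775) (nat_lit 836) (nat_lit 5004024745) (nat_lit 912) (nat_lit 901751836) (nat_lit 297) (nat_lit 5) (nat_lit 308) (nat_lit 5) (nat_lit 309) (nat_lit 5) (nat_lit 291) (nat_lit 249) (nat_lit 240)) (XT.lf (nat_lit 0) (nat_lit 1583123204) (nat_lit 760) (nat_lit 1988058975) (nat_lit 836) (nat_lit 4107855725) (nat_lit 286) (nat_lit 5) (nat_lit 296) (nat_lit 5) (nat_lit 297) (nat_lit 5) (nat_lit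 292) (nat_lit 249) (nat_lit 239))) (XT.nd (nat_lit 78) (nat_lit 684) (nat_lit 0) (XT.lf (nat_lit 0) (nat_lit 330405469) (nat_lit 836) (nat_lit 6286752289) (nat_lit 76) (nat_lit 1149204581) (nat_lit 275) (nat_lit 5) (nat_lit 286) (nat_lit 5) (nat_lit 276) (nat_lit 5) (nat_lit 293) (nat_lit 249) (nat_lit 238)) (XT.lf (nat_lit 0) (nat_lit 1350270031) (nat_lit 684) (nat_lit 3439380635) (nat_lit 760) (nat_lit 3067355717) (nat_lit 266) (nat_lit 5) (nat_lit 275) (nat_lit 5) (nat_lit 276) (nat_lit 5) (nat_lit 294) (nat_lit 249) (nat_lit 237))))))))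
noncomputable def xc32 : XT := (XT.nd (nat_lit 2028) (nat_lit 5092) (nat_lit 0) (XT.nd (nat_lit 1014) (nat_lit 5092) (nat_lit 0) (XT.nd (nat_lit 468) (nat_lit 3496) (nat_lit 0) (XT.nd (nat_lit 234) (nat_lit 1824) (nat_lit 0) (XT.nd (nat_lit 78) (nat_lit 1444) (nat_lit 0) (XT.lf (nat_lit 0) (nat_lit 1223171193) (nat_lit 684) (nat_lit 122596973) (nat_lit 760) (nat_lit 6605880872) (nat_lit 256) (nat_lit 5) (nat_lit 265) (nat_lit 5) (nat_lit 266) (nat_lit 5) (nat_lit 295) (nat_lit 249) (nat_lit 236)) (XT.nd (nat_lit 78) (nat_lit 760) (nat_lit 0) (XT.lf (nat_lit 0) (nat_lit 1061191817) (nat_lit 684) (nat_lit 4745207941) (nat_lit 760) (nat_lit 2243297025) (nat_lit 247) (nat_lit 5) (nat_lit 256) (nat_lit 5) (nat_lit 257) (nat_lit 5) (nat_lit 296) (nat_lit 249) (nat_lit 235)) (XT.lf (nat_lit 0) (nat_lit 887040765) (nat_lit 684) (nat_lit 1271635069) (nat_lit 760) (nat_lit 5993059379) (nat_lit 237) (nat_lit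 5) (nat_lit 246) (nat_lit 5) (nat_lit 247) (nat_lit 5) (nat_lit 297) (nat_lit 249) (nat_lit 234)))) (XT.nd (nat_lit 78) (nat_lit 1216) (nat_lit 0) (XT.lf (nat_lit 0) (nat_lit 681538851) (nat_lit 608) (nat_lit 5935807189) (nat_lit 684) (nat_lit 1640188813) (nat_lit 229) (nat_lit 5) (nat_lit 237) (nat_lit 5) (nat_lit 238) (nat_lit 5) (nat_lit 298) (nat_lit 249) (nat_lit 233)) (XT.nd (nat_lit 78) (nat_lit 532) (nat_lit 0) (XT.lf (nat_lit 0) (nat_lit 443504578) (nat_lit 608) (nat_lit 2312862141) (nat_lit 684) (nat_lit 5610858950) (nat_lit 220) (nat_lit 5) (nat_lit 228) (nat_lit 5) (nat_lit 229) (nat_lit 5) (nat_lit 299) (nat_lit 249) (nat_lit 232)) (XT.lf (nat_lit 0) (nat_lit 174884324) (nat_lit 532) (nat_lit 7041450200) (nat_lit 608) (nat_lit 1264671293) (nat_lit 213) (nat_lit 5) (nat_lit 220) (nat_lit 5) (nat_lit 221) (nat_lit 5) (nat_lit 300) (nat_lit 249) (nat_lit 231))))) (XT.nd (nat_lit 234)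 (nat_lit 2204) (nat_lit 0) (XT.nd (nat_lit 78) (nat_lit 1216) (nat_lit 0) (XT.lf (nat_lit 0) (nat_lit 3132445223) (nat_lit 608) (nat_lit 143209936) (nat_lit 76) (nat_lit 5322960800) (nat_lit 212) (nat_lit 5) (nat_lit 220) (nat_lit 5) (nat_lit 213) (nat_lit 5) (nat_lit 301) (nat_lit 249) (nat_lit 230)) (XT.nd (nat_lit 78) (nat_lit 608) (nat_lit 0) (XT.lf (nat_lit 0) (nat_lit 7598266323) (nat_lit 684) (nat_lit 491114646) (nat_lit 76) (nat_lit 631211276) (nat_lit 204) (nat_lit 5) (nat_lit 213) (nat_lit 5) (nat_lit 205) (nat_lit 5) (nat_lit 302) (nat_lit 249) (nat_lit 229)) (XT.lf (nat_lit 0) (nat_lit 3280465233) (nat_lit 608) (nat_lit 907063077) (nat_lit 76) (nat_lit 4658892863) (nat_lit 196) (nat_lit 5) (nat_lit 204) (nat_lit 5) (nat_lit 197) (nat_lit 5) (nat_lit 303) (nat_lit 249) (nat_lit 228)))) (XT.nd (nat_lit 156) (nat_lit 1064) (nat_lit 0) (XT.nd (nat_lit 78) (nat_lit 608) (nat_lit 0) (XT.lf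 (nat_lit 0) (nat_lit 7616344144) (nat_lit 532) (nat_lit 136306571) (nat_lit 608) (nat_lit 1224252790) (nat_lit 189) (nat_lit 5) (nat_lit 196) (nat_lit 5) (nat_lit 197) (nat_lit 5) (nat_lit 304) (nat_lit 249) (nat_lit 227)) (XT.lf (nat_lit 0) (nat_lit 3185858922) (nat_lit 608) (nat_lit 1896646731) (nat_lit 76) (nat_lit 4028832212) (nat_lit 181) (nat_lit 5) (nat_lit 189) (nat_lit 5) (nat_lit 182) (nat_lit 5) (nat_lit 305) (nat_lit 249) (nat_lit 226))) (XT.nd (nat_lit 78) (nat_lit 532) (nat_lit 0) (XT.lf (nat_lit 0) (nat_lit 6767254118) (nat_lit 532) (nat_lit 901518273) (nat_lit 608) (nat_lit 1581800548) (nat_lit 174) (nat_lit 5) (nat_lit 181) (nat_lit 5) (nat_lit 182) (nat_lit 5) (nat_lit 306) (nat_lit 249) (nat_lit 225)) (XT.lf (nat_lit 0) (nat_lit 2834422789) (nat_lit 532) (nat_lit 3158171696) (nat_lit 76) (nat_lit 3401480374) (nat_lit 167) (nat_lit 5) (nat_lit 174) (nat_lit 5) (nat_lit 168) (nat_lit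 5) (nat_lit 307) (nat_lit 249) (nat_lit 224)))))) (XT.nd (nat_lit 468) (nat_lit 2280) (nat_lit 0) (XT.nd (nat_lit 234) (nat_lit 1368) (nat_lit 0) (XT.nd (nat_lit 78) (nat_lit 988) (nat_lit 0) (XT.lf (nat_lit 0) (nat_lit 5638925347) (nat_lit 456) (nat_lit 1688400364) (nat_lit 532) (nat_lit 2215100021) (nat_lit 161) (nat_lit 5) (nat_lit 167) (nat_lit 5) (nat_lit 168) (nat_lit 5) (nat_lit 308) (nat_lit 249) (nat_lit 223)) (XT.nd (nat_lit 78) (nat_lit 456) (nat_lit 0) (XT.lf (nat_lit 0) (nat_lit 2209262430) (nat_lit 532) (nat_lit 4741758346) (nat_lit 76) (nat_lit 2744394154) (nat_lit 154) (nat_lit 5) (nat_lit 161) (nat_lit 5) (nat_lit 155) (nat_lit 5) (nat_lit 309) (nat_lit 249) (nat_lit 222)) (XT.lf (nat_lit 0) (nat_lit 4179740396) (nat_lit 456) (nat_lit 2530652906) (nat_lit 532) (nat_lit 3142886641) (nat_lit 148) (nat_lit 5) (nat_lit 154) (nat_lit 5) (nat_lit 155) (nat_lit 5) (nat_lit 310) (nat_lit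 249) (nat_lit 221)))) (XT.nd (nat_lit 78) (nat_lit 912) (nat_lit 0) (XT.lf (nat_lit 0) (nat_lit 1290591564) (nat_lit 456) (nat_lit 6701952369) (nat_lit 76) (nat_lit 2023675502) (nat_lit 142) (nat_lit 5) (nat_lit 148) (nat_lit 5) (nat_lit 143) (nat_lit 5) (nat_lit 311) (nat_lit 249) (nat_lit 220)) (XT.nd (nat_lit 78) (nat_lit 456) (nat_lit 0) (XT.lf (nat_lit 0) (nat_lit 2333447025) (nat_lit 456) (nat_lit 3463634010) (nat_lit 532) (nat_lit 4386953399) (nat_lit 136) (nat_lit 5) (nat_lit 142) (nat_lit 5) (nat_lit 143) (nat_lit 5) (nat_lit 312) (nat_lit 249) (nat_lit 219)) (XT.lf (nat_lit 0) (nat_lit 55503698) (nat_lit 456) (nat_lit 9098287176) (nat_lit 76) (nat_lit 1203642650) (nat_lit 130) (nat_lit 5) (nat_lit 136) (nat_lit 5) (nat_lit 131) (nat_lit 5) (nat_lit 313) (nat_lit 249) (nat_lit 218))))) (XT.nd (nat_lit 234) (nat_lit 1444) (nat_lit 0) (XT.nd (nat_lit 78) (nat_lit 456) (nat_lit 0) (XT.lf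 (nat_lit 0) (nat_lit 38574023) (nat_lit 380) (nat_lit 4524703371) (nat_lit 456) (nat_lit 5972396971) (nat_lit 125) (nat_lit 5) (nat_lit 130) (nat_lit 5) (nat_lit 131) (nat_lit 5) (nat_lit 314) (nat_lit 249) (nat_lit 217)) (XT.nd (nat_lit 78) (nat_lit 456) (nat_lit 0) (XT.lf (nat_lit 0) (nat_lit 9185725085) (nat_lit 456) (nat_lit 1269155342) (nat_lit 76) (nat_lit 264844275) (nat_lit 125) (nat_lit 5) (nat_lit 131) (nat_lit 5) (nat_lit 126) (nat_lit 5) (nat_lit 315) (nat_lit 249) (nat_lit 216)) (XT.lf (nat_lit 0) (nat_lit 2999381012) (nat_lit 456) (nat_lit 2735849498) (nat_lit 76) (nat_lit 5173686843) (nat_lit 119) (nat_lit 5) (nat_lit 125) (nat_lit 5) (nat_lit 120) (nat_lit 5) (nat_lit 316) (nat_lit 249) (nat_lit 215)))) (XT.nd (nat_lit 156) (nat_lit 684) (nat_lit 0) (XT.nd (nat_lit 78) (nat_lit 380) (nat_lit 0) (XT.lf (nat_lit 0) (nat_lit 6772008786) (nat_lit 380) (nat_lit 847948906) (nat_lit 456)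 (nat_lit 3484231795) (nat_lit 114) (nat_lit 5) (nat_lit 119) (nat_lit 5) (nat_lit 120) (nat_lit 5) (nat_lit 317) (nat_lit 249) (nat_lit 214)) (XT.lf (nat_lit 0) (nat_lit 1060078365) (nat_lit 380) (nat_lit 6091826348) (nat_lit 76) (nat_lit 4153313969) (nat_lit 109) (nat_lit 5) (nat_lit 114) (nat_lit 5) (nat_lit 110) (nat_lit 5) (nat_lit 318) (nat_lit 249) (nat_lit 213))) (XT.nd (nat_lit 78) (nat_lit 304) (nat_lit 0) (XT.lf (nat_lit 0) (nat_lit 3492144955) (nat_lit 380) (nat_lit 2181035193) (nat_lit 456) (nat_lit 5839085630) (nat_lit 104) (nat_lit 5) (nat_lit 109) (nat_lit 5) (nat_lit 110) (nat_lit 5) (nat_lit 319) (nat_lit 249) (nat_lit 212)) (XT.lf (nat_lit 0) (nat_lit 1607193500) (nat_lit 304) (nat_lit 8811467813) (nat_lit 380) (nat_lit 1307025605) (nat_lit 100) (nat_lit 5) (nat_lit 104) (nat_lit 5) (nat_lit 105) (nat_lit 5) (nat_lit 320) (nat_lit 249) (nat_lit 211))))))) (XT.nd (nat_lit 1014)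 (nat_lit 2052) (nat_lit 0) (XT.nd (nat_lit 468) (nat_lit 1672) (nat_lit 0) (XT.nd (nat_lit 234) (nat_lit 608) (nat_lit 0) (XT.nd (nat_lit 78) (nat_lit 684) (nat_lit 0) (XT.lf (nat_lit 0) (nat_lit 3310082283) (nat_lit 380) (nat_lit 464091964) (nat_lit 76) (nat_lit 8171077004) (nat_lit 99) (nat_lit 5) (nat_lit 104) (nat_lit 5) (nat_lit 100) (nat_lit 5) (nat_lit 321) (nat_lit 249) (nat_lit 210)) (XT.nd (nat_lit 78) (nat_lit 380) (nat_lit 0) (XT.lf (nat_lit 0) (nat_lit 8045104289) (nat_lit 380) (nat_lit 2697968642) (nat_lit 76) (nat_lit 1428252771) (nat_lit 95) (nat_lit 5) (nat_lit 100) (nat_lit 5) (nat_lit 96) (nat_lit 5) (nat_lit 322) (nat_lit 249) (nat_lit 209)) (XT.lf (nat_lit 0) (nat_lit 514059718) (nat_lit 380) (nat_lit 5138347109) (nat_lit 76) (nat_lit 6751688381) (nat_lit 90) (nat_lit 5) (nat_lit 95) (nat_lit 5) (nat_lit 91) (nat_lit 5) (nat_lit 323) (nat_lit 249) (nat_lit 208)))) (XT.nd (nat_lit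 78) (nat_lit 304) (nat_lit 0) (XT.lf (nat_lit 0) (nat_lit 4846457247) (nat_lit 304) (nat_lit 369391504) (nat_lit 380) (nat_lit 7427922561) (nat_lit 86) (nat_lit 5) (nat_lit 90) (nat_lit 5) (nat_lit 91) (nat_lit 5) (nat_lit 324) (nat_lit 249) (nat_lit 207)) (XT.nd (nat_lit 78) (nat_lit 76) (nat_lit 0) (XT.lf (nat_lit 0) (nat_lit 2196239688) (nat_lit 228) (nat_lit 7873990532) (nat_lit 304) (nat_lit 2820211822) (nat_lit 83) (nat_lit 5) (nat_lit 86) (nat_lit 5) (nat_lit 87) (nat_lit 5) (nat_lit 325) (nat_lit 249) (nat_lit 206)) (XT.lf (nat_lit 0) (nat_lit 1886289257) (nat_lit 304) (nat_lit 672216959) (nat_lit 76) (nat_lit 10586073738) (nat_lit 82) (nat_lit 5) (nat_lit 86) (nat_lit 5) (nat_lit 83) (nat_lit 5) (nat_lit 326) (nat_lit 249) (nat_lit 205))))) (XT.nd (nat_lit 234) (nat_lit 760) (nat_lit 0) (XT.nd (nat_lit 78) (nat_lit 608) (nat_lit 0) (XT.lf (nat_lit 0) (nat_lit 6709968595) (nat_lit 380)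 (nat_lit 3773744907) (nat_lit 76) (nat_lit 2922002145) (nat_lit 78) (nat_lit 5) (nat_lit 83) (nat_lit 5) (nat_lit 79) (nat_lit 5) (nat_lit 327) (nat_lit 249) (nat_lit 204)) (XT.nd (nat_lit 78) (nat_lit 380) (nat_lit 0) (XT.lf (nat_lit 0) (nat_lit 6542603363) (nat_lit 228) (nat_lit 5133166765) (nat_lit 304) (nat_lit 1998998558) (nat_lit 75) (nat_lit 5) (nat_lit 78) (nat_lit 5) (nat_lit 79) (nat_lit 5) (nat_lit 328) (nat_lit 249) (nat_lit 203)) (XT.lf (nat_lit 0) (nat_lit 2784525246) (nat_lit 380) (nat_lit 10767805570) (nat_lit 76) (nat_lit 399561835) (nat_lit 70) (nat_lit 5) (nat_lit 75) (nat_lit 5) (nat_lit 71) (nat_lit 5) (nat_lit 329) (nat_lit 249) (nat_lit 202)))) (XT.nd (nat_lit 156) (nat_lit 532) (nat_lit 0) (XT.nd (nat_lit 78) (nat_lit 228) (nat_lit 0) (XT.lf (nat_lit 0) (nat_lit 7702568285) (nat_lit 380) (nat_lit 481435271) (nat_lit 76) (nat_lit 6052728189) (nat_lit 70) (nat_lit 5) (nat_lit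 75) (nat_lit 5) (nat_lit 71) (nat_lit 5) (nat_lit 330) (nat_lit 249) (nat_lit 201)) (XT.lf (nat_lit 0) (nat_lit 10145116329) (nat_lit 228) (nat_lit 2625836793) (nat_lit 304) (nat_lit 1759135149) (nat_lit 67) (nat_lit 5) (nat_lit 70) (nat_lit 5) (nat_lit 71) (nat_lit 5) (nat_lit 331) (nat_lit 249) (nat_lit 200))) (XT.nd (nat_lit 78) (nat_lit 228) (nat_lit 0) (XT.lf (nat_lit 0) (nat_lit 3119395215) (nat_lit 304) (nat_lit 8627218220) (nat_lit 76) (nat_lit 3085215059) (nat_lit 63) (nat_lit 5) (nat_lit 67) (nat_lit 5) (nat_lit 64) (nat_lit 5) (nat_lit 332) (nat_lit 249) (nat_lit 199)) (XT.lf (nat_lit 0) (nat_lit 1925565200) (nat_lit 228) (nat_lit 6193535299) (nat_lit 304) (nat_lit 7023339619) (nat_lit 60) (nat_lit 5) (nat_lit 63) (nat_lit 5) (nat_lit 64) (nat_lit 5) (nat_lit 333) (nat_lit 249) (nat_lit 198)))))) (XT.nd (nat_lit 546) (nat_lit 1064) (nat_lit 0) (XT.nd (nat_lit 234) (nat_lit 456) (nat_lit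 0) (XT.nd (nat_lit 78) (nat_lit 532) (nat_lit 0) (XT.lf (nat_lit 0) (nat_lit 12814602535) (nat_lit 228) (nat_lit 452413828) (nat_lit 304) (nat_lit 2195414702) (nat_lit 60) (nat_lit 5) (nat_lit 63) (nat_lit 5) (nat_lit 64) (nat_lit 5) (nat_lit 334) (nat_lit 249) (nat_lit 197)) (XT.nd (nat_lit 78) (nat_lit 228) (nat_lit 0) (XT.lf (nat_lit 0) (nat_lit 2771157062) (nat_lit 304) (nat_lit 7595621869) (nat_lit 76) (nat_lit 5424301614) (nat_lit 56) (nat_lit 5) (nat_lit 60) (nat_lit 5) (nat_lit 57) (nat_lit 5) (nat_lit 335) (nat_lit 249) (nat_lit 196)) (XT.lf (nat_lit 0) (nat_lit 3199456737) (nat_lit 228) (nat_lit 4641433436) (nat_lit 304) (nat_lit 8288752715) (nat_lit 53) (nat_lit 5) (nat_lit 56) (nat_lit 5) (nat_lit 57) (nat_lit 5) (nat_lit 336) (nat_lit 249) (nat_lit 195)))) (XT.nd (nat_lit 156) (nat_lit 152) (nat_lit 0) (XT.nd (nat_lit 78) (nat_lit 304) (nat_lit 0) (XT.lf (nat_lit 0) (nat_lit 13065477813)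 (nat_lit 304) (nat_lit 2158571925) (nat_lit 76) (nat_lit 1254279869) (nat_lit 53) (nat_lit 5) (nat_lit 57) (nat_lit 5) (nat_lit 54) (nat_lit 5) (nat_lit 337) (nat_lit 249) (nat_lit 194)) (XT.lf (nat_lit 0) (nat_lit 1621902616) (nat_lit 304) (nat_lit 7917564129) (nat_lit 76) (nat_lit 7297149204) (nat_lit 49) (nat_lit 5) (nat_lit 53) (nat_lit 5) (nat_lit 50) (nat_lit 5) (nat_lit 338) (nat_lit 249) (nat_lit 193))) (XT.nd (nat_lit 78) (nat_lit 0) (nat_lit 0) (XT.lf (nat_lit 0) (nat_lit 3079069278) (nat_lit 152) (nat_lit 3662353164) (nat_lit 228) (nat_lit 10464196489) (nat_lit 47) (nat_lit 5) (nat_lit 49) (nat_lit 5) (nat_lit 50) (nat_lit 5) (nat_lit 339) (nat_lit 249) (nat_lit 192)) (XT.lf (nat_lit 0) (nat_lit 12029948435) (nat_lit 228) (nat_lit 3177482985) (nat_lit 76) (nat_lit 2377972588) (nat_lit 47) (nat_lit 5) (nat_lit 50) (nat_lit 5) (nat_lit 48) (nat_lit 5) (nat_lit 340) (nat_lit 249) (nat_lit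 191))))) (XT.nd (nat_lit 234) (nat_lit 608) (nat_lit 0) (XT.nd (nat_lit 78) (nat_lit 228) (nat_lit 0) (XT.lf (nat_lit 0) (nat_lit 8093396832) (nat_lit 228) (nat_lit 9408237812) (nat_lit 304) (nat_lit 474477726) (nat_lit 44) (nat_lit 5) (nat_lit 47) (nat_lit 5) (nat_lit 48) (nat_lit 5) (nat_lit 341) (nat_lit 249) (nat_lit 190)) (XT.nd (nat_lit 78) (nat_lit 0) (nat_lit 0) (XT.lf (nat_lit 0) (nat_lit 1265755848) (nat_lit 152) (nat_lit 3408722249) (nat_lit 228) (nat_lit 13703905533) (nat_lit 41) (nat_lit 5) (nat_lit 43) (nat_lit 5) (nat_lit 44) (nat_lit 5) (nat_lit 342) (nat_lit 249) (nat_lit 189)) (XT.lf (nat_lit 0) (nat_lit 10005689750) (nat_lit 228) (nat_lit 6016010336) (nat_lit 76) (nat_lit 2770293866) (nat_lit 41) (nat_lit 5) (nat_lit 44) (nat_lit 5) (nat_lit 42) (nat_lit 5) (nat_lit 343) (nat_lit 249) (nat_lit 188)))) (XT.nd (nat_lit 156) (nat_lit 304) (nat_lit 0) (XT.nd (nat_lit 78) (nat_lit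 76) (nat_lit 0) (XT.lf (nat_lit 0) (nat_lit 5376782861) (nat_lit 228) (nat_lit 10128046638) (nat_lit 304) (nat_lit 3713041033) (nat_lit 38) (nat_lit 5) (nat_lit 41) (nat_lit 5) (nat_lit 42) (nat_lit 5) (nat_lit 344) (nat_lit 249) (nat_lit 187)) (XT.lf (nat_lit 0) (nat_lit 1484475542) (nat_lit 304) (nat_lit 2555834375) (nat_lit 76) (nat_lit 15616196205) (nat_lit 37) (nat_lit 5) (nat_lit 41) (nat_lit 5) (nat_lit 38) (nat_lit 5) (nat_lit 345) (nat_lit 249) (nat_lit 186))) (XT.nd (nat_lit 78) (nat_lit 152) (nat_lit 0) (XT.lf (nat_lit 0) (nat_lit 6813821022) (nat_lit 228) (nat_lit 11041473071) (nat_lit 76) (nat_lit 2252005274) (nat_lit 35) (nat_lit 5) (nat_lit 38) (nat_lit 5) (nat_lit 36) (nat_lit 5) (nat_lit 346) (nat_lit 249) (nat_lit 185)) (XT.lf (nat_lit 0) (nat_lit 397202745) (nat_lit 152) (nat_lit 11905817640) (nat_lit 228) (nat_lit 8268612512) (nat_lit 33) (nat_lit 5) (nat_lit 35) (nat_lit 5)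 (nat_lit 36) (nat_lit 5) (nat_lit 347) (nat_lit 249) (nat_lit 184))))))))
noncomputable def xc33 : XT := (XT.nd (nat_lit 36114) (nat_lit 0) (nat_lit 7752) (XT.nd (nat_lit 1014) (nat_lit 152) (nat_lit 0) (XT.nd (nat_lit 468) (nat_lit 456) (nat_lit 0) (XT.nd (nat_lit 234) (nat_lit 380) (nat_lit 0) (XT.nd (nat_lit 78) (nat_lit 228) (nat_lit 0) (XT.lf (nat_lit 0) (nat_lit 12250761889) (nat_lit 152) (nat_lit 5734750809) (nat_lit 228) (nat_lit 3063826885) (nat_lit 33) (nat_lit 5) (nat_lit 35) (nat_lit 5) (nat_lit 36) (nat_lit 5) (nat_lit 348) (nat_lit 249) (nat_lit 183)) (XT.nd (nat_lit 78) (nat_lit 0) (nat_lit 0) (XT.lf (nat_lit 0) (nat_lit 2244442690) (nat_lit 228) (nat_lit 18682196275) (nat_lit 76) (nat_lit 614905618) (nat_lit 30) (nat_lit 5) (nat_lit 33) (nat_lit 5) (nat_lit 31) (nat_lit 5) (nat_lit 349) (nat_lit 249) (nat_lit 182)) (XT.lf (nat_lit 0) (nat_lit 7724380900) (nat_lit 228) (nat_lit 7196258101)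 (nat_lit 76) (nat_lit 7126405092) (nat_lit 30) (nat_lit 5) (nat_lit 33) (nat_lit 5) (nat_lit 31) (nat_lit 5) (nat_lit 350) (nat_lit 249) (nat_lit 181)))) (XT.nd (nat_lit 78) (nat_lit 228) (nat_lit 0) (XT.lf (nat_lit 0) (nat_lit 4619948327) (nat_lit 152) (nat_lit 8735503588) (nat_lit 228) (nat_lit 9212535879) (nat_lit 28) (nat_lit 5) (nat_lit 30) (nat_lit 5) (nat_lit 31) (nat_lit 5) (nat_lit 351) (nat_lit 249) (nat_lit 180)) (XT.nd (nat_lit 78) (nat_lit 228) (nat_lit 0) (XT.lf (nat_lit 0) (nat_lit 16815458307) (nat_lit 152) (nat_lit 2346281374) (nat_lit 228) (nat_lit 3942707924) (nat_lit 28) (nat_lit 5) (nat_lit 30) (nat_lit 5) (nat_lit 31) (nat_lit 5) (nat_lit 352) (nat_lit 249) (nat_lit 179)) (XT.lf (nat_lit 0) (nat_lit 1488905315) (nat_lit 228) (nat_lit 17971502981) (nat_lit 76) (nat_lit 4195949515) (nat_lit 25) (nat_lit 5) (nat_lit 28) (nat_lit 5) (nat_lit 26) (nat_lit 5) (nat_lit 353) (nat_lit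 249) (nat_lit 178))))) (XT.nd (nat_lit 234) (nat_lit 304) (nat_lit 0) (XT.nd (nat_lit 78) (nat_lit 152) (nat_lit 0) (XT.lf (nat_lit 0) (nat_lit 7047820306) (nat_lit 228) (nat_lit 6233880666) (nat_lit 76) (nat_lit 10942257208) (nat_lit 25) (nat_lit 5) (nat_lit 28) (nat_lit 5) (nat_lit 26) (nat_lit 5) (nat_lit 354) (nat_lit 249) (nat_lit 177)) (XT.nd (nat_lit 78) (nat_lit 0) (nat_lit 0) (XT.lf (nat_lit 0) (nat_lit 5863285699) (nat_lit 152) (nat_lit 6908503764) (nat_lit 228) (nat_lit 12036843468) (nat_lit 23) (nat_lit 5) (nat_lit 25) (nat_lit 5) (nat_lit 26) (nat_lit 5) (nat_lit 355) (nat_lit 249) (nat_lit 176)) (XT.lf (nat_lit 0) (nat_lit 18340342008) (nat_lit 152) (nat_lit 330311690) (nat_lit 228) (nat_lit 6740142462) (nat_lit 23) (nat_lit 5) (nat_lit 25) (nat_lit 5) (nat_lit 26) (nat_lit 5) (nat_lit 356) (nat_lit 249) (nat_lit 175)))) (XT.nd (nat_lit 156) (nat_lit 152) (nat_lit 0) (XT.nd (nat_lit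 78) (nat_lit 76) (nat_lit 0) (XT.lf (nat_lit 0) (nat_lit 5119026160) (nat_lit 76) (nat_lit 19664426997) (nat_lit 152) (nat_lit 1246843155) (nat_lit 22) (nat_lit 5) (nat_lit 23) (nat_lit 5) (nat_lit 24) (nat_lit 4) (nat_lit 357) (nat_lit 249) (nat_lit 174)) (XT.lf (nat_lit 0) (nat_lit 4366148744) (nat_lit 152) (nat_lit 8993993273) (nat_lit 76) (nat_lit 13307422537) (nat_lit 21) (nat_lit 5) (nat_lit 23) (nat_lit 5) (nat_lit 22) (nat_lit 5) (nat_lit 358) (nat_lit 249) (nat_lit 173))) (XT.nd (nat_lit 78) (nat_lit 0) (nat_lit 0) (XT.lf (nat_lit 0) (nat_lit 3250654519) (nat_lit 152) (nat_lit 6864546052) (nat_lit 228) (nat_lit 17208903789) (nat_lit 19) (nat_lit 5) (nat_lit 21) (nat_lit 5) (nat_lit 22) (nat_lit 5) (nat_lit 359) (nat_lit 249) (nat_lit 172)) (XT.lf (nat_lit 0) (nat_lit 15922356323) (nat_lit 152) (nat_lit 139375857) (nat_lit 228) (nat_lit 11938118252) (nat_lit 19) (nat_lit 5) (nat_lit 21)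 (nat_lit 5) (nat_lit 22) (nat_lit 5) (nat_lit 360) (nat_lit 249) (nat_lit 171)))))) (XT.nd (nat_lit 34554) (nat_lit 0) (nat_lit 22952) (XT.nd (nat_lit 34320) (nat_lit 0) (nat_lit 32300) (XT.nd (nat_lit 78) (nat_lit 76) (nat_lit 0) (XT.lf (nat_lit 0) (nat_lit 174474489) (nat_lit 76) (nat_lit 22022323064) (nat_lit 152) (nat_lit 6498878519) (nat_lit 18) (nat_lit 5) (nat_lit 19) (nat_lit 5) (nat_lit 20) (nat_lit 4) (nat_lit 361) (nat_lit 249) (nat_lit 170)) (XT.nd (nat_lit 78) (nat_lit 76) (nat_lit 0) (XT.lf (nat_lit 0) (nat_lit 12897298794) (nat_lit 76) (nat_lit 15666943412) (nat_lit 152) (nat_lit 847177377) (nat_lit 18) (nat_lit 5) (nat_lit 19) (nat_lit 5) (nat_lit 20) (nat_lit 4) (nat_lit 362) (nat_lit 249) (nat_lit 169)) (XT.lf (nat_lit 0) (nat_lit 4875171796) (nat_lit 152) (nat_lit 4238877756) (nat_lit 76) (nat_lit 21034622478) (nat_lit 17) (nat_lit 5) (nat_lit 19) (nat_lit 5) (nat_lit 18) (nat_lit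 5) (nat_lit 363) (nat_lit 249) (nat_lit 168)))) (XT.nd (nat_lit 78) (nat_lit 2736) (nat_lit 0) (XT.lf (nat_lit 0) (nat_lit 861815887) (nat_lit 1292) (nat_lit 1725821682) (nat_lit 0) (nat_lit 861815887) (nat_lit 478) (nat_lit 5) (nat_lit 495) (nat_lit 4) (nat_lit 478) (nat_lit 4) (nat_lit 280) (nat_lit 250) (nat_lit 250)) (XT.nd (nat_lit 78) (nat_lit 1444) (nat_lit 0) (XT.lf (nat_lit 0) (nat_lit 3123787638) (nat_lit 1292) (nat_lit 3282082776) (nat_lit 1292) (nat_lit 541206921) (nat_lit 461) (nat_lit 4) (nat_lit 478) (nat_lit 5) (nat_lit 478) (nat_lit 4) (nat_lit 281) (nat_lit 250) (nat_lit 249)) (XT.lf (nat_lit 0) (nat_lit 2824834774) (nat_lit 1368) (nat_lit 1247816289) (nat_lit 1444) (nat_lit 2925751096) (nat_lit 442) (nat_lit 5) (nat_lit 460) (nat_lit 5) (nat_lit 461) (nat_lit 4) (nat_lit 282) (nat_lit 250) (nat_lit 248))))) (XT.nd (nat_lit 234) (nat_lit 4636) (nat_lit 0) (XT.nd (nat_lit 78) (nat_lit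 3192) (nat_lit 0) (XT.lf (nat_lit 0) (nat_lit 1648553442) (nat_lit 1520) (nat_lit 4498803168) (nat_lit 76) (nat_lit 905677678) (nat_lit 422) (nat_lit 5) (nat_lit 442) (nat_lit 5) (nat_lit 423) (nat_lit 4) (nat_lit 283) (nat_lit 250) (nat_lit 247)) (XT.nd (nat_lit 78) (nat_lit 1672) (nat_lit 0) (XT.lf (nat_lit 0) (nat_lit 2301421152) (nat_lit 1520) (nat_lit 3930959938) (nat_lit 1596) (nat_lit 878466866) (nat_lit 402) (nat_lit 5) (nat_lit 422) (nat_lit 5) (nat_lit 423) (nat_lit 4) (nat_lit 284) (nat_lit 250) (nat_lit 246)) (XT.lf (nat_lit 0) (nat_lit 2067036462) (nat_lit 1596) (nat_lit 1572999365) (nat_lit 1672) (nat_lit 3531904415) (nat_lit 380) (nat_lit 5) (nat_lit 401) (nat_lit 5) (nat_lit 402) (nat_lit 5) (nat_lit 285) (nat_lit 250) (nat_lit 245)))) (XT.nd (nat_lit 156) (nat_lit 1748) (nat_lit 0) (XT.nd (nat_lit 78) (nat_lit 1140) (nat_lit 0) (XT.lf (nat_lit 0) (nat_lit 948881879) (nat_lit 1748)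 (nat_lit 5382136781) (nat_lit 76) (nat_lit 905444533) (nat_lit 357) (nat_lit 5) (nat_lit 380) (nat_lit 5) (nat_lit 358) (nat_lit 5) (nat_lit 286) (nat_lit 250) (nat_lit 244)) (XT.lf (nat_lit 0) (nat_lit 1643951993) (nat_lit 1140) (nat_lit 3795899552) (nat_lit 1216) (nat_lit 1864278215) (nat_lit 342) (nat_lit 5) (nat_lit 357) (nat_lit 5) (nat_lit 358) (nat_lit 5) (nat_lit 287) (nat_lit 250) (nat_lit 243))) (XT.nd (nat_lit 78) (nat_lit 836) (nat_lit 0) (XT.lf (nat_lit 0) (nat_lit 1449756843) (nat_lit 836) (nat_lit 1122254808) (nat_lit 912) (nat_lit 4803295865) (nat_lit 330) (nat_lit 5) (nat_lit 341) (nat_lit 5) (nat_lit 342) (nat_lit 5) (nat_lit 288) (nat_lit 250) (nat_lit 242)) (XT.lf (nat_lit 0) (nat_lit 1262405820) (nat_lit 836) (nat_lit 5783596370) (nat_lit 912) (nat_lit 403911526) (nat_lit 319) (nat_lit 5) (nat_lit 330) (nat_lit 5) (nat_lit 331) (nat_lit 5) (nat_lit 289) (nat_lit 250) (nat_lit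 241))))))) (XT.nd (nat_lit 1014) (nat_lit 6460) (nat_lit 0) (XT.nd (nat_lit 468) (nat_lit 3952) (nat_lit 0) (XT.nd (nat_lit 234) (nat_lit 2280) (nat_lit 0) (XT.nd (nat_lit 78) (nat_lit 1672) (nat_lit 0) (XT.lf (nat_lit 0) (nat_lit 1067500538) (nat_lit 760) (nat_lit 2934979168) (nat_lit 836) (nat_lit 3525290986) (nat_lit 308) (nat_lit 5) (nat_lit 318) (nat_lit 5) (nat_lit 319) (nat_lit 5) (nat_lit 290) (nat_lit 250) (nat_lit 240)) (XT.nd (nat_lit 78) (nat_lit 760) (nat_lit 0) (XT.lf (nat_lit 0) (nat_lit 839967173) (nat_lit 912) (nat_lit 6722054005) (nat_lit 76) (nat_lit 47404335) (nat_lit 296) (nat_lit 5) (nat_lit 308) (nat_lit 5) (nat_lit 297) (nat_lit 5) (nat_lit 291) (nat_lit 250) (nat_lit 239)) (XT.lf (nat_lit 0) (nat_lit 683663846) (nat_lit 760) (nat_lit 4551901311) (nat_lit 836) (nat_lit 2458674953) (nat_lit 286) (nat_lit 5) (nat_lit 296) (nat_lit 5) (nat_lit 297) (nat_lit 5) (nat_lit 292)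 (nat_lit 250) (nat_lit 238)))) (XT.nd (nat_lit 78) (nat_lit 1444) (nat_lit 0) (XT.lf (nat_lit 0) (nat_lit 483481282) (nat_lit 760) (nat_lit 1401603504) (nat_lit 836) (nat_lit 5897780120) (nat_lit 275) (nat_lit 5) (nat_lit 285) (nat_lit 5) (nat_lit 286) (nat_lit 5) (nat_lit 293) (nat_lit 250) (nat_lit 237)) (XT.nd (nat_lit 78) (nat_lit 760) (nat_lit 0) (XT.lf (nat_lit 0) (nat_lit 267125289) (nat_lit 684) (nat_lit 6003529569) (nat_lit 760) (nat_lit 1604383002) (nat_lit 266) (nat_lit 5) (nat_lit 275) (nat_lit 5) (nat_lit 276) (nat_lit 5) (nat_lit 294) (nat_lit 250) (nat_lit 236)) (XT.lf (nat_lit 0) (nat_lit 31717121) (nat_lit 684) (nat_lit 2693390790) (nat_lit 760) (nat_lit 5245724288) (nat_lit 256) (nat_lit 5) (nat_lit 265) (nat_lit 5) (nat_lit 266) (nat_lit 5) (nat_lit 295) (nat_lit 250) (nat_lit 235))))) (XT.nd (nat_lit 234) (nat_lit 2508) (nat_lit 0) (XT.nd (nat_lit 78) (nat_lit 1444) (nat_lit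 0) (XT.lf (nat_lit 0) (nat_lit 7106627753) (nat_lit 760) (nat_lit 211872650) (nat_lit 76) (nat_lit 752012977) (nat_lit 256) (nat_lit 5) (nat_lit 266) (nat_lit 5) (nat_lit 257) (nat_lit 5) (nat_lit 296) (nat_lit 250) (nat_lit 234)) (XT.nd (nat_lit 78) (nat_lit 684) (nat_lit 0) (XT.lf (nat_lit 0) (nat_lit 3359406720) (nat_lit 760) (nat_lit 494534296) (nat_lit 76) (nat_lit 4319731412) (nat_lit 246) (nat_lit 5) (nat_lit 256) (nat_lit 5) (nat_lit 247) (nat_lit 5) (nat_lit 297) (nat_lit 250) (nat_lit 233)) (XT.lf (nat_lit 0) (nat_lit 7493760909) (nat_lit 684) (nat_lit 247833337) (nat_lit 760) (nat_lit 539454794) (nat_lit 237) (nat_lit 5) (nat_lit 246) (nat_lit 5) (nat_lit 247) (nat_lit 5) (nat_lit 298) (nat_lit 250) (nat_lit 232)))) (XT.nd (nat_lit 156) (nat_lit 1216) (nat_lit 0) (XT.nd (nat_lit 78) (nat_lit 608) (nat_lit 0) (XT.lf (nat_lit 0) (nat_lit 3780090677) (nat_lit 684) (nat_lit 1135334745) (nat_lit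 76) (nat_lit 3476468012) (nat_lit 228) (nat_lit 5) (nat_lit 237) (nat_lit 5) (nat_lit 229) (nat_lit 5) (nat_lit 299) (nat_lit 250) (nat_lit 231)) (XT.lf (nat_lit 0) (nat_lit 7005780715) (nat_lit 608) (nat_lit 1164465661) (nat_lit 684) (nat_lit 336867174) (nat_lit 220) (nat_lit 5) (nat_lit 228) (nat_lit 5) (nat_lit 229) (nat_lit 5) (nat_lit 300) (nat_lit 250) (nat_lit 230))) (XT.nd (nat_lit 78) (nat_lit 608) (nat_lit 0) (XT.lf (nat_lit 0) (nat_lit 3979476283) (nat_lit 608) (nat_lit 1928321149) (nat_lit 76) (nat_lit 2718219497) (nat_lit 212) (nat_lit 5) (nat_lit 220) (nat_lit 5) (nat_lit 213) (nat_lit 5) (nat_lit 301) (nat_lit 250) (nat_lit 229)) (XT.lf (nat_lit 0) (nat_lit 6361682327) (nat_lit 608) (nat_lit 2017694623) (nat_lit 684) (nat_lit 369975081) (nat_lit 204) (nat_lit 5) (nat_lit 212) (nat_lit 5) (nat_lit 213) (nat_lit 5) (nat_lit 302) (nat_lit 250) (nat_lit 228)))))) (XT.nd (nat_lit 546)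 (nat_lit 2660) (nat_lit 0) (XT.nd (nat_lit 234) (nat_lit 2052) (nat_lit 0) (XT.nd (nat_lit 78) (nat_lit 1140) (nat_lit 0) (XT.lf (nat_lit 0) (nat_lit 3947865692) (nat_lit 608) (nat_lit 2913340064) (nat_lit 76) (nat_lit 2015417633) (nat_lit 196) (nat_lit 5) (nat_lit 204) (nat_lit 5) (nat_lit 197) (nat_lit 5) (nat_lit 303) (nat_lit 250) (nat_lit 227)) (XT.nd (nat_lit 78) (nat_lit 608) (nat_lit 0) (XT.lf (nat_lit 0) (nat_lit 5520633517) (nat_lit 532) (nat_lit 2837827432) (nat_lit 608) (nat_lit 649913918) (nat_lit 189) (nat_lit 5) (nat_lit 196) (nat_lit 5) (nat_lit 197) (nat_lit 5) (nat_lit 304) (nat_lit 250) (nat_lit 226)) (XT.lf (nat_lit 0) (nat_lit 3673208665) (nat_lit 608) (nat_lit 4133266406) (nat_lit 76) (nat_lit 1337884251) (nat_lit 181) (nat_lit 5) (nat_lit 189) (nat_lit 5) (nat_lit 182) (nat_lit 5) (nat_lit 305) (nat_lit 250) (nat_lit 225)))) (XT.nd (nat_lit 156) (nat_lit 988) (nat_lit 0)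 (XT.nd (nat_lit 78) (nat_lit 532) (nat_lit 0) (XT.lf (nat_lit 0) (nat_lit 4438617196) (nat_lit 532) (nat_lit 3655949759) (nat_lit 608) (nat_lit 1190293052) (nat_lit 174) (nat_lit 5) (nat_lit 181) (nat_lit 5) (nat_lit 182) (nat_lit 5) (nat_lit 306) (nat_lit 250) (nat_lit 224)) (XT.lf (nat_lit 0) (nat_lit 3140948795) (nat_lit 532) (nat_lit 5634439368) (nat_lit 76) (nat_lit 654552707) (nat_lit 167) (nat_lit 5) (nat_lit 174) (nat_lit 5) (nat_lit 168) (nat_lit 5) (nat_lit 307) (nat_lit 250) (nat_lit 223))) (XT.nd (nat_lit 78) (nat_lit 532) (nat_lit 0) (XT.lf (nat_lit 0) (nat_lit 3067979740) (nat_lit 456) (nat_lit 4504213967) (nat_lit 532) (nat_lit 2007363087) (nat_lit 161) (nat_lit 5) (nat_lit 167) (nat_lit 5) (nat_lit 168) (nat_lit 5) (nat_lit 308) (nat_lit 250) (nat_lit 222)) (XT.lf (nat_lit 0) (nat_lit 2266573871) (nat_lit 456) (nat_lit 67712206) (nat_lit 532) (nat_lit 7399863068) (nat_lit 154) (nat_lit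 5) (nat_lit 160) (nat_lit 5) (nat_lit 161) (nat_lit 5) (nat_lit 309) (nat_lit 250) (nat_lit 221))))) (XT.nd (nat_lit 234) (nat_lit 1748) (nat_lit 0) (XT.nd (nat_lit 78) (nat_lit 456) (nat_lit 0) (XT.lf (nat_lit 0) (nat_lit 1356940182) (nat_lit 456) (nat_lit 5416142410) (nat_lit 532) (nat_lit 3120207723) (nat_lit 148) (nat_lit 5) (nat_lit 154) (nat_lit 5) (nat_lit 155) (nat_lit 5) (nat_lit 310) (nat_lit 250) (nat_lit 220)) (XT.nd (nat_lit 78) (nat_lit 0) (nat_lit 0) (XT.lf (nat_lit 0) (nat_lit 366023438) (nat_lit 380) (nat_lit 871410828) (nat_lit 456) (nat_lit 8820331421) (nat_lit 142) (nat_lit 5) (nat_lit 147) (nat_lit 5) (nat_lit 148) (nat_lit 5) (nat_lit 311) (nat_lit 250) (nat_lit 219)) (XT.lf (nat_lit 0) (nat_lit 5680879720) (nat_lit 456) (nat_lit 741095655) (nat_lit 76) (nat_lit 3804893424) (nat_lit 142) (nat_lit 5) (nat_lit 148) (nat_lit 5) (nat_lit 143) (nat_lit 5) (nat_lit 312) (nat_lit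 250) (nat_lit 218)))) (XT.nd (nat_lit 156) (nat_lit 836) (nat_lit 0) (XT.nd (nat_lit 78) (nat_lit 456) (nat_lit 0) (XT.lf (nat_lit 0) (nat_lit 8465395966) (nat_lit 456) (nat_lit 1769781311) (nat_lit 532) (nat_lit 166370426) (nat_lit 136) (nat_lit 5) (nat_lit 142) (nat_lit 5) (nat_lit 143) (nat_lit 5) (nat_lit 313) (nat_lit 250) (nat_lit 217)) (XT.lf (nat_lit 0) (nat_lit 4278054468) (nat_lit 456) (nat_lit 3273854840) (nat_lit 76) (nat_lit 3029236621) (nat_lit 130) (nat_lit 5) (nat_lit 136) (nat_lit 5) (nat_lit 131) (nat_lit 5) (nat_lit 314) (nat_lit 250) (nat_lit 216))) (XT.nd (nat_lit 78) (nat_lit 456) (nat_lit 0) (XT.lf (nat_lit 0) (nat_lit 6038189433) (nat_lit 380) (nat_lit 2798879493) (nat_lit 456) (nat_lit 1929420438) (nat_lit 125) (nat_lit 5) (nat_lit 130) (nat_lit 5) (nat_lit 131) (nat_lit 5) (nat_lit 315) (nat_lit 250) (nat_lit 215)) (XT.lf (nat_lit 0) (nat_lit 2528307825) (nat_lit 456)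 (nat_lit 6325820092) (nat_lit 76) (nat_lit 2103245470) (nat_lit 119) (nat_lit 5) (nat_lit 125) (nat_lit 5) (nat_lit 120) (nat_lit 5) (nat_lit 316) (nat_lit 250) (nat_lit 214))))))))
noncomputable def xc34 : XT := (XT.nd (nat_lit 2028) (nat_lit 1976) (nat_lit 0) (XT.nd (nat_lit 1014) (nat_lit 2356) (nat_lit 0) (XT.nd (nat_lit 468) (nat_lit 1596) (nat_lit 0) (XT.nd (nat_lit 234) (nat_lit 1064) (nat_lit 0) (XT.nd (nat_lit 78) (nat_lit 380) (nat_lit 0) (XT.lf (nat_lit 0) (nat_lit 3076752682) (nat_lit 380) (nat_lit 4009539810) (nat_lit 456) (nat_lit 4067627448) (nat_lit 114) (nat_lit 5) (nat_lit 119) (nat_lit 5) (nat_lit 120) (nat_lit 5) (nat_lit 317) (nat_lit 250) (nat_lit 213)) (XT.nd (nat_lit 78) (nat_lit 0) (nat_lit 0) (XT.lf (nat_lit 0) (nat_lit 400402206) (nat_lit 380) (nat_lit 9970174225) (nat_lit 76) (nat_lit 986148589) (nat_lit 109) (nat_lit 5) (nat_lit 114) (nat_lit 5) (nat_lit 110) (nat_lit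 5) (nat_lit 318) (nat_lit 250) (nat_lit 212)) (XT.lf (nat_lit 0) (nat_lit 4953351576) (nat_lit 380) (nat_lit 488165465) (nat_lit 76) (nat_lit 6123478989) (nat_lit 109) (nat_lit 5) (nat_lit 114) (nat_lit 5) (nat_lit 110) (nat_lit 5) (nat_lit 319) (nat_lit 250) (nat_lit 211)))) (XT.nd (nat_lit 78) (nat_lit 684) (nat_lit 0) (XT.lf (nat_lit 0) (nat_lit 9289447258) (nat_lit 380) (nat_lit 339888862) (nat_lit 456) (nat_lit 2150491239) (nat_lit 104) (nat_lit 5) (nat_lit 109) (nat_lit 5) (nat_lit 110) (nat_lit 5) (nat_lit 320) (nat_lit 250) (nat_lit 210)) (XT.nd (nat_lit 78) (nat_lit 304) (nat_lit 0) (XT.lf (nat_lit 0) (nat_lit 2422571143) (nat_lit 380) (nat_lit 4696920648) (nat_lit 76) (nat_lit 4881130865) (nat_lit 99) (nat_lit 5) (nat_lit 104) (nat_lit 5) (nat_lit 100) (nat_lit 5) (nat_lit 321) (nat_lit 250) (nat_lit 209)) (XT.lf (nat_lit 0) (nat_lit 5139278039) (nat_lit 304) (nat_lit 1945368862) (nat_lit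 380) (nat_lit 5143527852) (nat_lit 95) (nat_lit 5) (nat_lit 99) (nat_lit 5) (nat_lit 100) (nat_lit 5) (nat_lit 322) (nat_lit 250) (nat_lit 208))))) (XT.nd (nat_lit 234) (nat_lit 912) (nat_lit 0) (XT.nd (nat_lit 78) (nat_lit 380) (nat_lit 0) (XT.lf (nat_lit 0) (nat_lit 2778417649) (nat_lit 304) (nat_lit 9109609935) (nat_lit 380) (nat_lit 574533873) (nat_lit 91) (nat_lit 5) (nat_lit 95) (nat_lit 5) (nat_lit 96) (nat_lit 5) (nat_lit 323) (nat_lit 250) (nat_lit 207)) (XT.nd (nat_lit 78) (nat_lit 0) (nat_lit 0) (XT.lf (nat_lit 0) (nat_lit 190132550) (nat_lit 304) (nat_lit 3880071816) (nat_lit 380) (nat_lit 8633416818) (nat_lit 86) (nat_lit 5) (nat_lit 90) (nat_lit 5) (nat_lit 91) (nat_lit 5) (nat_lit 324) (nat_lit 250) (nat_lit 206)) (XT.lf (nat_lit 0) (nat_lit 8853718645) (nat_lit 380) (nat_lit 2578841745) (nat_lit 76) (nat_lit 1519165664) (nat_lit 86) (nat_lit 5) (nat_lit 91) (nat_lit 5) (nat_lit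 87) (nat_lit 5) (nat_lit 325) (nat_lit 250) (nat_lit 205)))) (XT.nd (nat_lit 156) (nat_lit 304) (nat_lit 0) (XT.nd (nat_lit 78) (nat_lit 304) (nat_lit 0) (XT.lf (nat_lit 0) (nat_lit 574770953) (nat_lit 304) (nat_lit 5587282685) (nat_lit 76) (nat_lit 7045001867) (nat_lit 82) (nat_lit 5) (nat_lit 86) (nat_lit 5) (nat_lit 83) (nat_lit 5) (nat_lit 326) (nat_lit 250) (nat_lit 204)) (XT.lf (nat_lit 0) (nat_lit 4619548109) (nat_lit 304) (nat_lit 694577285) (nat_lit 380) (nat_lit 8155767823) (nat_lit 78) (nat_lit 5) (nat_lit 82) (nat_lit 5) (nat_lit 83) (nat_lit 5) (nat_lit 327) (nat_lit 250) (nat_lit 203))) (XT.nd (nat_lit 78) (nat_lit 76) (nat_lit 0) (XT.lf (nat_lit 0) (nat_lit 1351759520) (nat_lit 228) (nat_lit 8858025419) (nat_lit 304) (nat_lit 3530579226) (nat_lit 75) (nat_lit 5) (nat_lit 78) (nat_lit 5) (nat_lit 79) (nat_lit 5) (nat_lit 328) (nat_lit 250) (nat_lit 202)) (XT.lf (nat_lit 0) (nat_lit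 1218166736) (nat_lit 304) (nat_lit 2151807852) (nat_lit 76) (nat_lit 10648824062) (nat_lit 74) (nat_lit 5) (nat_lit 78) (nat_lit 5) (nat_lit 75) (nat_lit 5) (nat_lit 329) (nat_lit 250) (nat_lit 201)))))) (XT.nd (nat_lit 468) (nat_lit 988) (nat_lit 0) (XT.nd (nat_lit 234) (nat_lit 532) (nat_lit 0) (XT.nd (nat_lit 78) (nat_lit 532) (nat_lit 0) (XT.lf (nat_lit 0) (nat_lit 6069011145) (nat_lit 380) (nat_lit 5941124544) (nat_lit 76) (nat_lit 2294859952) (nat_lit 70) (nat_lit 5) (nat_lit 75) (nat_lit 5) (nat_lit 71) (nat_lit 5) (nat_lit 330) (nat_lit 250) (nat_lit 200)) (XT.nd (nat_lit 78) (nat_lit 304) (nat_lit 0) (XT.lf (nat_lit 0) (nat_lit 4563698891) (nat_lit 228) (nat_lit 6507295587) (nat_lit 304) (nat_lit 3528699240) (nat_lit 67) (nat_lit 5) (nat_lit 70) (nat_lit 5) (nat_lit 71) (nat_lit 5) (nat_lit 331) (nat_lit 250) (nat_lit 199)) (XT.lf (nat_lit 0) (nat_lit 462045163) (nat_lit 228) (nat_lit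 823474081) (nat_lit 304) (nat_lit 13617907752) (nat_lit 63) (nat_lit 5) (nat_lit 66) (nat_lit 5) (nat_lit 67) (nat_lit 5) (nat_lit 332) (nat_lit 250) (nat_lit 198)))) (XT.nd (nat_lit 78) (nat_lit 532) (nat_lit 0) (XT.lf (nat_lit 0) (nat_lit 6238015192) (nat_lit 304) (nat_lit 3956353057) (nat_lit 76) (nat_lit 5020627052) (nat_lit 63) (nat_lit 5) (nat_lit 67) (nat_lit 5) (nat_lit 64) (nat_lit 5) (nat_lit 333) (nat_lit 250) (nat_lit 197)) (XT.nd (nat_lit 78) (nat_lit 304) (nat_lit 0) (XT.lf (nat_lit 0) (nat_lit 6833035637) (nat_lit 228) (nat_lit 4498055582) (nat_lit 304) (nat_lit 4205003956) (nat_lit 60) (nat_lit 5) (nat_lit 63) (nat_lit 5) (nat_lit 64) (nat_lit 5) (nat_lit 334) (nat_lit 250) (nat_lit 196)) (XT.lf (nat_lit 0) (nat_lit 692965640) (nat_lit 304) (nat_lit 13813366962) (nat_lit 76) (nat_lit 1360583716) (nat_lit 56) (nat_lit 5) (nat_lit 60) (nat_lit 5) (nat_lit 57) (nat_lit 5) (nat_lit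 335) (nat_lit 250) (nat_lit 195))))) (XT.nd (nat_lit 234) (nat_lit 532) (nat_lit 0) (XT.nd (nat_lit 78) (nat_lit 456) (nat_lit 0) (XT.lf (nat_lit 0) (nat_lit 5714168052) (nat_lit 304) (nat_lit 3106036990) (nat_lit 76) (nat_lit 7386255443) (nat_lit 56) (nat_lit 5) (nat_lit 60) (nat_lit 5) (nat_lit 57) (nat_lit 5) (nat_lit 336) (nat_lit 250) (nat_lit 194)) (XT.nd (nat_lit 78) (nat_lit 228) (nat_lit 0) (XT.lf (nat_lit 0) (nat_lit 7936358895) (nat_lit 228) (nat_lit 2946468815) (nat_lit 304) (nat_lit 5673448936) (nat_lit 53) (nat_lit 5) (nat_lit 56) (nat_lit 5) (nat_lit 57) (nat_lit 5) (nat_lit 337) (nat_lit 250) (nat_lit 193)) (XT.lf (nat_lit 0) (nat_lit 2357360051) (nat_lit 228) (nat_lit 13851911645) (nat_lit 304) (nat_lit 707282556) (nat_lit 50) (nat_lit 5) (nat_lit 53) (nat_lit 5) (nat_lit 54) (nat_lit 5) (nat_lit 338) (nat_lit 250) (nat_lit 192)))) (XT.nd (nat_lit 156) (nat_lit 304) (nat_lit 0)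 (XT.nd (nat_lit 78) (nat_lit 152) (nat_lit 0) (XT.lf (nat_lit 0) (nat_lit 4375270367) (nat_lit 304) (nat_lit 3642153363) (nat_lit 76) (nat_lit 9269160264) (nat_lit 49) (nat_lit 5) (nat_lit 53) (nat_lit 5) (nat_lit 50) (nat_lit 5) (nat_lit 339) (nat_lit 250) (nat_lit 191)) (XT.lf (nat_lit 0) (nat_lit 7611161994) (nat_lit 152) (nat_lit 1987261426) (nat_lit 228) (nat_lit 8069262875) (nat_lit 47) (nat_lit 5) (nat_lit 49) (nat_lit 5) (nat_lit 50) (nat_lit 5) (nat_lit 340) (nat_lit 250) (nat_lit 190))) (XT.nd (nat_lit 78) (nat_lit 76) (nat_lit 0) (XT.lf (nat_lit 0) (nat_lit 1093212417) (nat_lit 228) (nat_lit 13893419188) (nat_lit 304) (nat_lit 3073442093) (nat_lit 44) (nat_lit 5) (nat_lit 47) (nat_lit 5) (nat_lit 48) (nat_lit 5) (nat_lit 341) (nat_lit 250) (nat_lit 189)) (XT.lf (nat_lit 0) (nat_lit 2076545539) (nat_lit 304) (nat_lit 5860007183) (nat_lit 76) (nat_lit 10526799826) (nat_lit 43) (nat_lit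 5) (nat_lit 47) (nat_lit 5) (nat_lit 44) (nat_lit 5) (nat_lit 342) (nat_lit 250) (nat_lit 188))))))) (XT.nd (nat_lit 1014) (nat_lit 608) (nat_lit 0) (XT.nd (nat_lit 468) (nat_lit 608) (nat_lit 0) (XT.nd (nat_lit 234) (nat_lit 380) (nat_lit 0) (XT.nd (nat_lit 78) (nat_lit 228) (nat_lit 0) (XT.lf (nat_lit 0) (nat_lit 5549723058) (nat_lit 152) (nat_lit 1776875691) (nat_lit 228) (nat_lit 11551996049) (nat_lit 41) (nat_lit 5) (nat_lit 43) (nat_lit 5) (nat_lit 44) (nat_lit 5) (nat_lit 343) (nat_lit 250) (nat_lit 187)) (XT.nd (nat_lit 78) (nat_lit 228) (nat_lit 0) (XT.lf (nat_lit 0) (nat_lit 12755516063) (nat_lit 228) (nat_lit 2035446089) (nat_lit 76) (nat_lit 4514922180) (nat_lit 41) (nat_lit 5) (nat_lit 44) (nat_lit 5) (nat_lit 42) (nat_lit 5) (nat_lit 344) (nat_lit 250) (nat_lit 186)) (XT.lf (nat_lit 0) (nat_lit 9631622900) (nat_lit 228) (nat_lit 8743235866) (nat_lit 304) (nat_lit 1370599393) (nat_lit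 38) (nat_lit 5) (nat_lit 41) (nat_lit 5) (nat_lit 42) (nat_lit 5) (nat_lit 345) (nat_lit 250) (nat_lit 185)))) (XT.nd (nat_lit 78) (nat_lit 152) (nat_lit 0) (XT.lf (nat_lit 0) (nat_lit 1392110637) (nat_lit 152) (nat_lit 2497054580) (nat_lit 228) (nat_lit 16309023155) (nat_lit 35) (nat_lit 5) (nat_lit 37) (nat_lit 5) (nat_lit 38) (nat_lit 5) (nat_lit 346) (nat_lit 250) (nat_lit 184)) (XT.nd (nat_lit 78) (nat_lit 152) (nat_lit 0) (XT.lf (nat_lit 0) (nat_lit 9337066775) (nat_lit 228) (nat_lit 7395006080) (nat_lit 76) (nat_lit 3931282635) (nat_lit 35) (nat_lit 5) (nat_lit 38) (nat_lit 5) (nat_lit 36) (nat_lit 5) (nat_lit 347) (nat_lit 250) (nat_lit 183)) (XT.lf (nat_lit 0) (nat_lit 4322296373) (nat_lit 152) (nat_lit 10626513919) (nat_lit 228) (nat_lit 6193674269) (nat_lit 33) (nat_lit 5) (nat_lit 35) (nat_lit 5) (nat_lit 36) (nat_lit 5) (nat_lit 348) (nat_lit 250) (nat_lit 182))))) (XT.nd (nat_lit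 234) (nat_lit 380) (nat_lit 0) (XT.nd (nat_lit 78) (nat_lit 228) (nat_lit 0) (XT.lf (nat_lit 0) (nat_lit 16417486247) (nat_lit 152) (nat_lit 4317979499) (nat_lit 228) (nat_lit 900405168) (nat_lit 33) (nat_lit 5) (nat_lit 35) (nat_lit 5) (nat_lit 36) (nat_lit 5) (nat_lit 349) (nat_lit 250) (nat_lit 181)) (XT.nd (nat_lit 78) (nat_lit 0) (nat_lit 0) (XT.lf (nat_lit 0) (nat_lit 4507437099) (nat_lit 228) (nat_lit 15441142262) (nat_lit 76) (nat_lit 2194592928) (nat_lit 30) (nat_lit 5) (nat_lit 33) (nat_lit 5) (nat_lit 31) (nat_lit 5) (nat_lit 350) (nat_lit 250) (nat_lit 180)) (XT.lf (nat_lit 0) (nat_lit 10087822159) (nat_lit 228) (nat_lit 3721349824) (nat_lit 76) (nat_lit 8855964372) (nat_lit 30) (nat_lit 5) (nat_lit 33) (nat_lit 5) (nat_lit 31) (nat_lit 5) (nat_lit 351) (nat_lit 250) (nat_lit 179)))) (XT.nd (nat_lit 156) (nat_lit 228) (nat_lit 0) (XT.nd (nat_lit 78) (nat_lit 0) (nat_lit 0) (XT.lf (nat_lit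 0) (nat_lit 8389464016) (nat_lit 152) (nat_lit 7459846975) (nat_lit 228) (nat_lit 7353187608) (nat_lit 28) (nat_lit 5) (nat_lit 30) (nat_lit 5) (nat_lit 31) (nat_lit 5) (nat_lit 352) (nat_lit 250) (nat_lit 178)) (XT.lf (nat_lit 0) (nat_lit 20845084426) (nat_lit 152) (nat_lit 923736106) (nat_lit 228) (nat_lit 1987470379) (nat_lit 28) (nat_lit 5) (nat_lit 30) (nat_lit 5) (nat_lit 31) (nat_lit 5) (nat_lit 353) (nat_lit 250) (nat_lit 177))) (XT.nd (nat_lit 78) (nat_lit 0) (nat_lit 0) (XT.lf (nat_lit 0) (nat_lit 3552636763) (nat_lit 228) (nat_lit 14984146129) (nat_lit 76) (nat_lit 5788269908) (nat_lit 25) (nat_lit 5) (nat_lit 28) (nat_lit 5) (nat_lit 26) (nat_lit 5) (nat_lit 354) (nat_lit 250) (nat_lit 176)) (XT.lf (nat_lit 0) (nat_lit 9219511506) (nat_lit 228) (nat_lit 2997108794) (nat_lit 76) (nat_lit 12694254931) (nat_lit 25) (nat_lit 5) (nat_lit 28) (nat_lit 5) (nat_lit 26) (nat_lit 5) (nat_lit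 355) (nat_lit 250) (nat_lit 175)))))) (XT.nd (nat_lit 546) (nat_lit 76) (nat_lit 0) (XT.nd (nat_lit 234) (nat_lit 228) (nat_lit 0) (XT.nd (nat_lit 78) (nat_lit 152) (nat_lit 0) (XT.lf (nat_lit 0) (nat_lit 9407425665) (nat_lit 152) (nat_lit 5672548079) (nat_lit 228) (nat_lit 10433838378) (nat_lit 23) (nat_lit 5) (nat_lit 25) (nat_lit 5) (nat_lit 26) (nat_lit 5) (nat_lit 356) (nat_lit 250) (nat_lit 174)) (XT.nd (nat_lit 78) (nat_lit 152) (nat_lit 0) (XT.lf (nat_lit 0) (nat_lit 21106623474) (nat_lit 228) (nat_lit 3981377370) (nat_lit 76) (nat_lit 1047039882) (nat_lit 23) (nat_lit 5) (nat_lit 26) (nat_lit 5) (nat_lit 24) (nat_lit 4) (nat_lit 357) (nat_lit 250) (nat_lit 173)) (XT.lf (nat_lit 0) (nat_lit 589778276) (nat_lit 152) (nat_lit 18259594426) (nat_lit 76) (nat_lit 7924320358) (nat_lit 21) (nat_lit 5) (nat_lit 23) (nat_lit 5) (nat_lit 22) (nat_lit 5) (nat_lit 358) (nat_lit 250) (nat_lit 172))))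 (XT.nd (nat_lit 156) (nat_lit 76) (nat_lit 0) (XT.nd (nat_lit 78) (nat_lit 152) (nat_lit 0) (XT.lf (nat_lit 0) (nat_lit 6300224058) (nat_lit 152) (nat_lit 6088399830) (nat_lit 76) (nat_lit 15042386141) (nat_lit 21) (nat_lit 5) (nat_lit 23) (nat_lit 5) (nat_lit 22) (nat_lit 5) (nat_lit 359) (nat_lit 250) (nat_lit 171)) (XT.lf (nat_lit 0) (nat_lit 6472070088) (nat_lit 152) (nat_lit 5717442546) (nat_lit 228) (nat_lit 15918393226) (nat_lit 19) (nat_lit 5) (nat_lit 21) (nat_lit 5) (nat_lit 22) (nat_lit 5) (nat_lit 360) (nat_lit 250) (nat_lit 170))) (XT.nd (nat_lit 78) (nat_lit 76) (nat_lit 0) (XT.lf (nat_lit 0) (nat_lit 18270458756) (nat_lit 228) (nat_lit 9379631786) (nat_lit 76) (nat_lit 1154728096) (nat_lit 19) (nat_lit 5) (nat_lit 22) (nat_lit 5) (nat_lit 20) (nat_lit 4) (nat_lit 361) (nat_lit 250) (nat_lit 169)) (XT.lf (nat_lit 0) (nat_lit 3189331023) (nat_lit 76) (nat_lit 21370393132) (nat_lit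 152) (nat_lit 4962406196) (nat_lit 18) (nat_lit 5) (nat_lit 19) (nat_lit 5) (nat_lit 20) (nat_lit 4) (nat_lit 362) (nat_lit 250) (nat_lit 168))))) (XT.nd (nat_lit 34164) (nat_lit 0) (nat_lit 30780) (XT.nd (nat_lit 34008) (nat_lit 0) (nat_lit 36328) (XT.lf (nat_lit 0) (nat_lit 797813208) (nat_lit 152) (nat_lit 14059416193) (nat_lit 76) (nat_lit 15403014200) (nat_lit 17) (nat_lit 5) (nat_lit 19) (nat_lit 5) (nat_lit 18) (nat_lit 5) (nat_lit 363) (nat_lit 250) (nat_lit 167)) (XT.nd (nat_lit 78) (nat_lit 1140) (nat_lit 0) (XT.lf (nat_lit 0) (nat_lit 1064627383) (nat_lit 1140) (nat_lit 1276116251) (nat_lit 0) (nat_lit 1064627383) (nat_lit 510) (nat_lit 5) (nat_lit 525) (nat_lit 4) (nat_lit 510) (nat_lit 4) (nat_lit 278) (nat_lit 251) (nat_lit 251)) (XT.lf (nat_lit 0) (nat_lit 3804962137) (nat_lit 1140) (nat_lit 2964304219) (nat_lit 1140) (nat_lit 84740045) (nat_lit 495) (nat_lit 4) (nat_lit 510) (nat_lit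 5) (nat_lit 510) (nat_lit 4) (nat_lit 279) (nat_lit 251) (nat_lit 250)))) (XT.nd (nat_lit 156) (nat_lit 2888) (nat_lit 0) (XT.nd (nat_lit 78) (nat_lit 1368) (nat_lit 0) (XT.lf (nat_lit 0) (nat_lit 3376422583) (nat_lit 1216) (nat_lit 1104607183) (nat_lit 1292) (nat_lit 2419286566) (nat_lit 478) (nat_lit 5) (nat_lit 494) (nat_lit 5) (nat_lit 495) (nat_lit 4) (nat_lit 280) (nat_lit 251) (nat_lit 249)) (XT.lf (nat_lit 0) (nat_lit 2106352351) (nat_lit 1368) (nat_lit 3970190757) (nat_lit 76) (nat_lit 873334432) (nat_lit 460) (nat_lit 5) (nat_lit 478) (nat_lit 5) (nat_lit 461) (nat_lit 4) (nat_lit 281) (nat_lit 251) (nat_lit 248))) (XT.nd (nat_lit 78) (nat_lit 1520) (nat_lit 0) (XT.lf (nat_lit 0) (nat_lit 2608409796) (nat_lit 1368) (nat_lit 4033654892) (nat_lit 1444) (nat_lit 360576451) (nat_lit 442) (nat_lit 5) (nat_lit 460) (nat_lit 5) (nat_lit 461) (nat_lit 4) (nat_lit 282) (nat_lit 251) (nat_lit 247))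 (XT.lf (nat_lit 0) (nat_lit 2255855370) (nat_lit 1444) (nat_lit 1847742487) (nat_lit 1520) (nat_lit 2954955921) (nat_lit 422) (nat_lit 5) (nat_lit 441) (nat_lit 5) (nat_lit 442) (nat_lit 5) (nat_lit 283) (nat_lit 251) (nat_lit 246))))))))
noncomputable def xc35 : XT := (XT.nd (nat_lit 2028) (nat_lit 7904) (nat_lit 0) (XT.nd (nat_lit 1014) (nat_lit 7220) (nat_lit 0) (XT.nd (nat_lit 468) (nat_lit 4788) (nat_lit 0) (XT.nd (nat_lit 234) (nat_lit 2964) (nat_lit 0) (XT.nd (nat_lit 78) (nat_lit 3344) (nat_lit 0) (XT.lf (nat_lit 0) (nat_lit 1468571881) (nat_lit 1596) (nat_lit 5186506300) (nat_lit 76) (nat_lit 462802706) (nat_lit 401) (nat_lit 5) (nat_lit 422) (nat_lit 5) (nat_lit 402) (nat_lit 5) (nat_lit 284) (nat_lit 251) (nat_lit 245)) (XT.nd (nat_lit 78) (nat_lit 1748) (nat_lit 0) (XT.lf (nat_lit 0) (nat_lit 1614831532) (nat_lit 1596) (nat_lit 4291890491) (nat_lit 1672) (nat_lit 1273591198) (nat_lit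 380) (nat_lit 5) (nat_lit 401) (nat_lit 5) (nat_lit 402) (nat_lit 5) (nat_lit 285) (nat_lit 251) (nat_lit 244)) (XT.lf (nat_lit 0) (nat_lit 1314606797) (nat_lit 1672) (nat_lit 1788587412) (nat_lit 1748) (nat_lit 4142910128) (nat_lit 357) (nat_lit 5) (nat_lit 379) (nat_lit 5) (nat_lit 380) (nat_lit 5) (nat_lit 286) (nat_lit 251) (nat_lit 243)))) (XT.nd (nat_lit 78) (nat_lit 1748) (nat_lit 0) (XT.lf (nat_lit 0) (nat_lit 197161639) (nat_lit 1216) (nat_lit 6282222772) (nat_lit 76) (nat_lit 836011371) (nat_lit 341) (nat_lit 5) (nat_lit 357) (nat_lit 5) (nat_lit 342) (nat_lit 5) (nat_lit 287) (nat_lit 251) (nat_lit 242)) (XT.nd (nat_lit 78) (nat_lit 912) (nat_lit 0) (XT.lf (nat_lit 0) (nat_lit 742756400) (nat_lit 836) (nat_lit 3799224272) (nat_lit 912) (nat_lit 2845759358) (nat_lit 330) (nat_lit 5) (nat_lit 341) (nat_lit 5) (nat_lit 342) (nat_lit 5) (nat_lit 288) (nat_lit 251) (nat_lit 241)) (XT.lf (nat_lit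 0) (nat_lit 470100293) (nat_lit 836) (nat_lit 985481907) (nat_lit 912) (nat_lit 6008180500) (nat_lit 318) (nat_lit 5) (nat_lit 329) (nat_lit 5) (nat_lit 330) (nat_lit 5) (nat_lit 289) (nat_lit 251) (nat_lit 240))))) (XT.nd (nat_lit 234) (nat_lit 3116) (nat_lit 0) (XT.nd (nat_lit 78) (nat_lit 912) (nat_lit 0) (XT.lf (nat_lit 0) (nat_lit 189962475) (nat_lit 760) (nat_lit 5594501127) (nat_lit 836) (nat_lit 1758610866) (nat_lit 308) (nat_lit 5) (nat_lit 318) (nat_lit 5) (nat_lit 319) (nat_lit 5) (nat_lit 290) (nat_lit 251) (nat_lit 239)) (XT.nd (nat_lit 78) (nat_lit 836) (nat_lit 0) (XT.lf (nat_lit 0) (nat_lit 2518179964) (nat_lit 836) (nat_lit 91729641) (nat_lit 76) (nat_lit 5015956172) (nat_lit 307) (nat_lit 5) (nat_lit 318) (nat_lit 5) (nat_lit 308) (nat_lit 5) (nat_lit 291) (nat_lit 251) (nat_lit 238)) (XT.lf (nat_lit 0) (nat_lit 6833854843) (nat_lit 912) (nat_lit 368747724) (nat_lit 76) (nat_lit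 509734479) (nat_lit 296) (nat_lit 5) (nat_lit 308) (nat_lit 5) (nat_lit 297) (nat_lit 5) (nat_lit 292) (nat_lit 251) (nat_lit 237)))) (XT.nd (nat_lit 156) (nat_lit 1520) (nat_lit 0) (XT.nd (nat_lit 78) (nat_lit 760) (nat_lit 0) (XT.lf (nat_lit 0) (nat_lit 3381890353) (nat_lit 836) (nat_lit 671964479) (nat_lit 76) (nat_lit 3748210478) (nat_lit 285) (nat_lit 5) (nat_lit 296) (nat_lit 5) (nat_lit 286) (nat_lit 5) (nat_lit 293) (nat_lit 251) (nat_lit 236)) (XT.lf (nat_lit 0) (nat_lit 6924490707) (nat_lit 760) (nat_lit 768689438) (nat_lit 836) (nat_lit 202597518) (nat_lit 275) (nat_lit 5) (nat_lit 285) (nat_lit 5) (nat_lit 286) (nat_lit 5) (nat_lit 294) (nat_lit 251) (nat_lit 235))) (XT.nd (nat_lit 78) (nat_lit 760) (nat_lit 0) (XT.lf (nat_lit 0) (nat_lit 4041821234) (nat_lit 760) (nat_lit 1308210222) (nat_lit 76) (nat_lit 2642743472) (nat_lit 265) (nat_lit 5) (nat_lit 275) (nat_lit 5) (nat_lit 266)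 (nat_lit 5) (nat_lit 295) (nat_lit 251) (nat_lit 234)) (XT.lf (nat_lit 0) (nat_lit 258636996) (nat_lit 760) (nat_lit 1651410492) (nat_lit 76) (nat_lit 6183772557) (nat_lit 255) (nat_lit 5) (nat_lit 265) (nat_lit 5) (nat_lit 256) (nat_lit 5) (nat_lit 296) (nat_lit 251) (nat_lit 233)))))) (XT.nd (nat_lit 468) (nat_lit 3268) (nat_lit 0) (XT.nd (nat_lit 234) (nat_lit 1900) (nat_lit 0) (XT.nd (nat_lit 78) (nat_lit 1368) (nat_lit 0) (XT.lf (nat_lit 0) (nat_lit 4494209063) (nat_lit 760) (nat_lit 2033521425) (nat_lit 76) (nat_lit 1670672335) (nat_lit 246) (nat_lit 5) (nat_lit 256) (nat_lit 5) (nat_lit 247) (nat_lit 5) (nat_lit 297) (nat_lit 251) (nat_lit 232)) (XT.nd (nat_lit 78) (nat_lit 608) (nat_lit 0) (XT.lf (nat_lit 0) (nat_lit 500552952) (nat_lit 760) (nat_lit 2438045285) (nat_lit 76) (nat_lit 5368403747) (nat_lit 236) (nat_lit 5) (nat_lit 246) (nat_lit 5) (nat_lit 237) (nat_lit 5) (nat_lit 298)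 (nat_lit 251) (nat_lit 231)) (XT.lf (nat_lit 0) (nat_lit 4733289636) (nat_lit 684) (nat_lit 2882890167) (nat_lit 76) (nat_lit 803234927) (nat_lit 228) (nat_lit 5) (nat_lit 237) (nat_lit 5) (nat_lit 229) (nat_lit 5) (nat_lit 299) (nat_lit 251) (nat_lit 230)))) (XT.nd (nat_lit 78) (nat_lit 1216) (nat_lit 0) (XT.lf (nat_lit 0) (nat_lit 518903394) (nat_lit 684) (nat_lit 3366036975) (nat_lit 76) (nat_lit 4650903333) (nat_lit 219) (nat_lit 5) (nat_lit 228) (nat_lit 5) (nat_lit 220) (nat_lit 5) (nat_lit 300) (nat_lit 251) (nat_lit 229)) (XT.nd (nat_lit 78) (nat_lit 684) (nat_lit 0) (XT.lf (nat_lit 0) (nat_lit 4751203357) (nat_lit 608) (nat_lit 3893592323) (nat_lit 76) (nat_lit 11540573) (nat_lit 212) (nat_lit 5) (nat_lit 220) (nat_lit 5) (nat_lit 213) (nat_lit 5) (nat_lit 301) (nat_lit 251) (nat_lit 228)) (XT.lf (nat_lit 0) (nat_lit 304619295) (nat_lit 684) (nat_lit 4474006800) (nat_lit 76) (nat_lit 4002274330)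 (nat_lit 203) (nat_lit 5) (nat_lit 212) (nat_lit 5) (nat_lit 204) (nat_lit 5) (nat_lit 302) (nat_lit 251) (nat_lit 227))))) (XT.nd (nat_lit 234) (nat_lit 1596) (nat_lit 0) (XT.nd (nat_lit 78) (nat_lit 1140) (nat_lit 0) (XT.lf (nat_lit 0) (nat_lit 3799272348) (nat_lit 532) (nat_lit 743436230) (nat_lit 608) (nat_lit 4366950490) (nat_lit 196) (nat_lit 5) (nat_lit 203) (nat_lit 5) (nat_lit 204) (nat_lit 5) (nat_lit 303) (nat_lit 251) (nat_lit 226)) (XT.nd (nat_lit 78) (nat_lit 608) (nat_lit 0) (XT.lf (nat_lit 0) (nat_lit 3238337309) (nat_lit 532) (nat_lit 5648735559) (nat_lit 608) (nat_lit 155698550) (nat_lit 189) (nat_lit 5) (nat_lit 196) (nat_lit 5) (nat_lit 197) (nat_lit 5) (nat_lit 304) (nat_lit 251) (nat_lit 225)) (XT.lf (nat_lit 0) (nat_lit 2608731030) (nat_lit 532) (nat_lit 1481803390) (nat_lit 608) (nat_lit 5089599944) (nat_lit 181) (nat_lit 5) (nat_lit 188) (nat_lit 5) (nat_lit 189) (nat_lit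 5) (nat_lit 305) (nat_lit 251) (nat_lit 224)))) (XT.nd (nat_lit 156) (nat_lit 532) (nat_lit 0) (XT.nd (nat_lit 78) (nat_lit 532) (nat_lit 0) (XT.lf (nat_lit 0) (nat_lit 1917348050) (nat_lit 532) (nat_lit 6523470443) (nat_lit 608) (nat_lit 881271543) (nat_lit 174) (nat_lit 5) (nat_lit 181) (nat_lit 5) (nat_lit 182) (nat_lit 5) (nat_lit 306) (nat_lit 251) (nat_lit 223)) (XT.lf (nat_lit 0) (nat_lit 1145231183) (nat_lit 456) (nat_lit 2234667919) (nat_lit 532) (nat_lit 6088583926) (nat_lit 167) (nat_lit 5) (nat_lit 173) (nat_lit 5) (nat_lit 174) (nat_lit 5) (nat_lit 307) (nat_lit 251) (nat_lit 222))) (XT.nd (nat_lit 78) (nat_lit 76) (nat_lit 0) (XT.lf (nat_lit 0) (nat_lit 298165597) (nat_lit 456) (nat_lit 7436829953) (nat_lit 532) (nat_lit 1884657330) (nat_lit 161) (nat_lit 5) (nat_lit 167) (nat_lit 5) (nat_lit 168) (nat_lit 5) (nat_lit 308) (nat_lit 251) (nat_lit 221)) (XT.lf (nat_lit 0) (nat_lit 2397591028)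 (nat_lit 532) (nat_lit 632685298) (nat_lit 76) (nat_lit 6745138271) (nat_lit 160) (nat_lit 5) (nat_lit 167) (nat_lit 5) (nat_lit 161) (nat_lit 5) (nat_lit 309) (nat_lit 251) (nat_lit 220))))))) (XT.nd (nat_lit 1014) (nat_lit 2964) (nat_lit 0) (XT.nd (nat_lit 468) (nat_lit 2280) (nat_lit 0) (XT.nd (nat_lit 234) (nat_lit 1292) (nat_lit 0) (XT.nd (nat_lit 78) (nat_lit 912) (nat_lit 0) (XT.lf (nat_lit 0) (nat_lit 6761854201) (nat_lit 532) (nat_lit 1649251881) (nat_lit 76) (nat_lit 1524968962) (nat_lit 154) (nat_lit 5) (nat_lit 161) (nat_lit 5) (nat_lit 155) (nat_lit 5) (nat_lit 310) (nat_lit 251) (nat_lit 219)) (XT.nd (nat_lit 78) (nat_lit 380) (nat_lit 0) (XT.lf (nat_lit 0) (nat_lit 1129088152) (nat_lit 532) (nat_lit 2767738664) (nat_lit 76) (nat_lit 6204858674) (nat_lit 147) (nat_lit 5) (nat_lit 154) (nat_lit 5) (nat_lit 148) (nat_lit 5) (nat_lit 311) (nat_lit 251) (nat_lit 218)) (XT.lf (nat_lit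 0) (nat_lit 5493555423) (nat_lit 456) (nat_lit 3994224982) (nat_lit 76) (nat_lit 784614202) (nat_lit 142) (nat_lit 5) (nat_lit 148) (nat_lit 5) (nat_lit 143) (nat_lit 5) (nat_lit 312) (nat_lit 251) (nat_lit 217)))) (XT.nd (nat_lit 78) (nat_lit 836) (nat_lit 0) (XT.lf (nat_lit 0) (nat_lit 5111911250) (nat_lit 456) (nat_lit 4874357245) (nat_lit 532) (nat_lit 462062375) (nat_lit 136) (nat_lit 5) (nat_lit 142) (nat_lit 5) (nat_lit 143) (nat_lit 5) (nat_lit 313) (nat_lit 251) (nat_lit 216)) (XT.nd (nat_lit 78) (nat_lit 380) (nat_lit 0) (XT.lf (nat_lit 0) (nat_lit 3827358383) (nat_lit 380) (nat_lit 76932075) (nat_lit 456) (nat_lit 6725340470) (nat_lit 130) (nat_lit 5) (nat_lit 135) (nat_lit 5) (nat_lit 136) (nat_lit 5) (nat_lit 314) (nat_lit 251) (nat_lit 215)) (XT.lf (nat_lit 0) (nat_lit 2406862288) (nat_lit 380) (nat_lit 5993750315) (nat_lit 456) (nat_lit 2415639329) (nat_lit 125) (nat_lit 5) (nat_lit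 130) (nat_lit 5) (nat_lit 131) (nat_lit 5) (nat_lit 315) (nat_lit 251) (nat_lit 214))))) (XT.nd (nat_lit 234) (nat_lit 1444) (nat_lit 0) (XT.nd (nat_lit 78) (nat_lit 380) (nat_lit 0) (XT.lf (nat_lit 0) (nat_lit 862712603) (nat_lit 380) (nat_lit 1109233805) (nat_lit 456) (nat_lit 9036805651) (nat_lit 119) (nat_lit 5) (nat_lit 124) (nat_lit 5) (nat_lit 125) (nat_lit 5) (nat_lit 316) (nat_lit 251) (nat_lit 213)) (XT.nd (nat_lit 78) (nat_lit 380) (nat_lit 0) (XT.lf (nat_lit 0) (nat_lit 6465277187) (nat_lit 456) (nat_lit 831783528) (nat_lit 76) (nat_lit 3909552895) (nat_lit 119) (nat_lit 5) (nat_lit 125) (nat_lit 5) (nat_lit 120) (nat_lit 5) (nat_lit 317) (nat_lit 251) (nat_lit 212)) (XT.lf (nat_lit 0) (nat_lit 8760653346) (nat_lit 380) (nat_lit 2323192602) (nat_lit 456) (nat_lit 326799505) (nat_lit 114) (nat_lit 5) (nat_lit 119) (nat_lit 5) (nat_lit 120) (nat_lit 5) (nat_lit 318) (nat_lit 251) (nat_lit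 211)))) (XT.nd (nat_lit 156) (nat_lit 684) (nat_lit 0) (XT.nd (nat_lit 78) (nat_lit 380) (nat_lit 0) (XT.lf (nat_lit 0) (nat_lit 4161415107) (nat_lit 380) (nat_lit 4651400157) (nat_lit 76) (nat_lit 2807544309) (nat_lit 109) (nat_lit 5) (nat_lit 114) (nat_lit 5) (nat_lit 110) (nat_lit 5) (nat_lit 319) (nat_lit 251) (nat_lit 210)) (XT.lf (nat_lit 0) (nat_lit 5017243362) (nat_lit 380) (nat_lit 3757090669) (nat_lit 456) (nat_lit 3062137853) (nat_lit 104) (nat_lit 5) (nat_lit 109) (nat_lit 5) (nat_lit 110) (nat_lit 5) (nat_lit 320) (nat_lit 251) (nat_lit 209))) (XT.nd (nat_lit 78) (nat_lit 304) (nat_lit 0) (XT.lf (nat_lit 0) (nat_lit 1436678424) (nat_lit 380) (nat_lit 9166083673) (nat_lit 76) (nat_lit 1456366233) (nat_lit 99) (nat_lit 5) (nat_lit 104) (nat_lit 5) (nat_lit 100) (nat_lit 5) (nat_lit 321) (nat_lit 251) (nat_lit 208)) (XT.lf (nat_lit 0) (nat_lit 557729373) (nat_lit 304) (nat_lit 5476960003)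 (nat_lit 380) (nat_lit 6253290523) (nat_lit 95) (nat_lit 5) (nat_lit 99) (nat_lit 5) (nat_lit 100) (nat_lit 5) (nat_lit 322) (nat_lit 251) (nat_lit 207)))))) (XT.nd (nat_lit 546) (nat_lit 1444) (nat_lit 0) (XT.nd (nat_lit 234) (nat_lit 836) (nat_lit 0) (XT.nd (nat_lit 78) (nat_lit 684) (nat_lit 0) (XT.lf (nat_lit 0) (nat_lit 10594281460) (nat_lit 304) (nat_lit 170156223) (nat_lit 380) (nat_lit 1759419213) (nat_lit 95) (nat_lit 5) (nat_lit 99) (nat_lit 5) (nat_lit 100) (nat_lit 5) (nat_lit 323) (nat_lit 251) (nat_lit 206)) (XT.nd (nat_lit 78) (nat_lit 304) (nat_lit 0) (XT.lf (nat_lit 0) (nat_lit 2852387773) (nat_lit 380) (nat_lit 4650305134) (nat_lit 76) (nat_lit 5263363798) (nat_lit 90) (nat_lit 5) (nat_lit 95) (nat_lit 5) (nat_lit 91) (nat_lit 5) (nat_lit 324) (nat_lit 251) (nat_lit 205)) (XT.lf (nat_lit 0) (nat_lit 5430038223) (nat_lit 304) (nat_lit 2132563460) (nat_lit 380) (nat_lit 5453042209)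 (nat_lit 86) (nat_lit 5) (nat_lit 90) (nat_lit 5) (nat_lit 91) (nat_lit 5) (nat_lit 325) (nat_lit 251) (nat_lit 204)))) (XT.nd (nat_lit 156) (nat_lit 532) (nat_lit 0) (XT.nd (nat_lit 78) (nat_lit 76) (nat_lit 0) (XT.lf (nat_lit 0) (nat_lit 2513836085) (nat_lit 228) (nat_lit 9905692241) (nat_lit 304) (nat_lit 853114379) (nat_lit 83) (nat_lit 5) (nat_lit 86) (nat_lit 5) (nat_lit 87) (nat_lit 5) (nat_lit 326) (nat_lit 251) (nat_lit 203)) (XT.lf (nat_lit 0) (nat_lit 3835950285) (nat_lit 304) (nat_lit 656507599) (nat_lit 76) (nat_lit 9044377954) (nat_lit 82) (nat_lit 5) (nat_lit 86) (nat_lit 5) (nat_lit 83) (nat_lit 5) (nat_lit 327) (nat_lit 251) (nat_lit 202))) (XT.nd (nat_lit 78) (nat_lit 228) (nat_lit 0) (XT.lf (nat_lit 0) (nat_lit 8662827284) (nat_lit 380) (nat_lit 4042289928) (nat_lit 76) (nat_lit 1103579853) (nat_lit 78) (nat_lit 5) (nat_lit 83) (nat_lit 5) (nat_lit 79) (nat_lit 5) (nat_lit 328)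 (nat_lit 251) (nat_lit 201)) (XT.lf (nat_lit 0) (nat_lit 6378995680) (nat_lit 228) (nat_lit 7270355852) (nat_lit 304) (nat_lit 439094615) (nat_lit 75) (nat_lit 5) (nat_lit 78) (nat_lit 5) (nat_lit 79) (nat_lit 5) (nat_lit 329) (nat_lit 251) (nat_lit 200))))) (XT.nd (nat_lit 234) (nat_lit 836) (nat_lit 0) (XT.nd (nat_lit 78) (nat_lit 228) (nat_lit 0) (XT.lf (nat_lit 0) (nat_lit 2702629659) (nat_lit 304) (nat_lit 1633190008) (nat_lit 380) (nat_lit 10040527788) (nat_lit 70) (nat_lit 5) (nat_lit 74) (nat_lit 5) (nat_lit 75) (nat_lit 5) (nat_lit 330) (nat_lit 251) (nat_lit 199)) (XT.nd (nat_lit 78) (nat_lit 228) (nat_lit 0) (XT.lf (nat_lit 0) (nat_lit 9268283989) (nat_lit 380) (nat_lit 1265257806) (nat_lit 76) (nat_lit 4138907243) (nat_lit 70) (nat_lit 5) (nat_lit 75) (nat_lit 5) (nat_lit 71) (nat_lit 5) (nat_lit 331) (nat_lit 251) (nat_lit 198)) (XT.lf (nat_lit 0) (nat_lit 9475958319) (nat_lit 228)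 (nat_lit 4887493548) (nat_lit 304) (nat_lit 613713079) (nat_lit 67) (nat_lit 5) (nat_lit 70) (nat_lit 5) (nat_lit 71) (nat_lit 5) (nat_lit 332) (nat_lit 251) (nat_lit 197)))) (XT.nd (nat_lit 156) (nat_lit 304) (nat_lit 0) (XT.nd (nat_lit 78) (nat_lit 228) (nat_lit 0) (XT.lf (nat_lit 0) (nat_lit 4255508099) (nat_lit 304) (nat_lit 10083017605) (nat_lit 76) (nat_lit 952125843) (nat_lit 63) (nat_lit 5) (nat_lit 67) (nat_lit 5) (nat_lit 64) (nat_lit 5) (nat_lit 333) (nat_lit 251) (nat_lit 196)) (XT.lf (nat_lit 0) (nat_lit 579251146) (nat_lit 228) (nat_lit 8701053941) (nat_lit 304) (nat_lit 6332823693) (nat_lit 60) (nat_lit 5) (nat_lit 63) (nat_lit 5) (nat_lit 64) (nat_lit 5) (nat_lit 334) (nat_lit 251) (nat_lit 195))) (XT.nd (nat_lit 78) (nat_lit 304) (nat_lit 0) (XT.lf (nat_lit 0) (nat_lit 11609337367) (nat_lit 228) (nat_lit 2859704974) (nat_lit 304) (nat_lit 1475997271) (nat_lit 60) (nat_lit 5) (nat_lit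 63) (nat_lit 5) (nat_lit 64) (nat_lit 5) (nat_lit 335) (nat_lit 251) (nat_lit 194)) (XT.lf (nat_lit 0) (nat_lit 3490333520) (nat_lit 304) (nat_lit 9647715995) (nat_lit 76) (nat_lit 3148221403) (nat_lit 56) (nat_lit 5) (nat_lit 60) (nat_lit 5) (nat_lit 57) (nat_lit 5) (nat_lit 336) (nat_lit 251) (nat_lit 193))))))))
noncomputable def xc36 : XT := (XT.nd (nat_lit 2028) (nat_lit 76) (nat_lit 0) (XT.nd (nat_lit 1014) (nat_lit 1064) (nat_lit 0) (XT.nd (nat_lit 468) (nat_lit 836) (nat_lit 0) (XT.nd (nat_lit 234) (nat_lit 380) (nat_lit 0) (XT.nd (nat_lit 78) (nat_lit 304) (nat_lit 0) (XT.lf (nat_lit 0) (nat_lit 1264012049) (nat_lit 228) (nat_lit 7325495529) (nat_lit 304) (nat_lit 8047979780) (nat_lit 53) (nat_lit 5) (nat_lit 56) (nat_lit 5) (nat_lit 57) (nat_lit 5) (nat_lit 337) (nat_lit 251) (nat_lit 192)) (XT.nd (nat_lit 78) (nat_lit 304) (nat_lit 0) (XT.lf (nat_lit 0) (nat_lit 12548960414) (nat_lit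 228) (nat_lit 1305946276) (nat_lit 304) (nat_lit 3144089430) (nat_lit 53) (nat_lit 5) (nat_lit 56) (nat_lit 5) (nat_lit 57) (nat_lit 5) (nat_lit 338) (nat_lit 251) (nat_lit 191)) (XT.lf (nat_lit 0) (nat_lit 1906986081) (nat_lit 304) (nat_lit 10609747213) (nat_lit 76) (nat_lit 4853887493) (nat_lit 49) (nat_lit 5) (nat_lit 53) (nat_lit 5) (nat_lit 50) (nat_lit 5) (nat_lit 339) (nat_lit 251) (nat_lit 190)))) (XT.nd (nat_lit 78) (nat_lit 228) (nat_lit 0) (XT.lf (nat_lit 0) (nat_lit 509136050) (nat_lit 152) (nat_lit 6550147293) (nat_lit 228) (nat_lit 10693866339) (nat_lit 47) (nat_lit 5) (nat_lit 49) (nat_lit 5) (nat_lit 50) (nat_lit 5) (nat_lit 340) (nat_lit 251) (nat_lit 189)) (XT.nd (nat_lit 78) (nat_lit 228) (nat_lit 0) (XT.lf (nat_lit 0) (nat_lit 12024359364) (nat_lit 152) (nat_lit 364381075) (nat_lit 228) (nat_lit 5757980871) (nat_lit 47) (nat_lit 5) (nat_lit 49) (nat_lit 5) (nat_lit 50) (nat_lit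 5) (nat_lit 341) (nat_lit 251) (nat_lit 188)) (XT.lf (nat_lit 0) (nat_lit 5282398442) (nat_lit 228) (nat_lit 12620903792) (nat_lit 304) (nat_lit 648311574) (nat_lit 44) (nat_lit 5) (nat_lit 47) (nat_lit 5) (nat_lit 48) (nat_lit 5) (nat_lit 342) (nat_lit 251) (nat_lit 187))))) (XT.nd (nat_lit 234) (nat_lit 380) (nat_lit 0) (XT.nd (nat_lit 78) (nat_lit 380) (nat_lit 0) (XT.lf (nat_lit 0) (nat_lit 4550801610) (nat_lit 304) (nat_lit 1967547639) (nat_lit 76) (nat_lit 12449788356) (nat_lit 43) (nat_lit 5) (nat_lit 47) (nat_lit 5) (nat_lit 44) (nat_lit 5) (nat_lit 343) (nat_lit 251) (nat_lit 186)) (XT.nd (nat_lit 78) (nat_lit 228) (nat_lit 0) (XT.lf (nat_lit 0) (nat_lit 9718471827) (nat_lit 152) (nat_lit 195618643) (nat_lit 228) (nat_lit 9482657496) (nat_lit 41) (nat_lit 5) (nat_lit 43) (nat_lit 5) (nat_lit 44) (nat_lit 5) (nat_lit 344) (nat_lit 251) (nat_lit 185)) (XT.lf (nat_lit 0) (nat_lit 1849936353)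 (nat_lit 228) (nat_lit 13609291573) (nat_lit 304) (nat_lit 4378585989) (nat_lit 38) (nat_lit 5) (nat_lit 41) (nat_lit 5) (nat_lit 42) (nat_lit 5) (nat_lit 345) (nat_lit 251) (nat_lit 184)))) (XT.nd (nat_lit 156) (nat_lit 152) (nat_lit 0) (XT.nd (nat_lit 78) (nat_lit 152) (nat_lit 0) (XT.lf (nat_lit 0) (nat_lit 889435323) (nat_lit 304) (nat_lit 6518412412) (nat_lit 76) (nat_lit 12883718493) (nat_lit 37) (nat_lit 5) (nat_lit 41) (nat_lit 5) (nat_lit 38) (nat_lit 5) (nat_lit 346) (nat_lit 251) (nat_lit 183)) (XT.lf (nat_lit 0) (nat_lit 5260440748) (nat_lit 152) (nat_lit 986397212) (nat_lit 228) (nat_lit 14511712771) (nat_lit 35) (nat_lit 5) (nat_lit 37) (nat_lit 5) (nat_lit 38) (nat_lit 5) (nat_lit 347) (nat_lit 251) (nat_lit 182))) (XT.nd (nat_lit 78) (nat_lit 152) (nat_lit 0) (XT.lf (nat_lit 0) (nat_lit 11802899508) (nat_lit 228) (nat_lit 3867481973) (nat_lit 76) (nat_lit 5568419155) (nat_lit 35)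 (nat_lit 5) (nat_lit 38) (nat_lit 5) (nat_lit 36) (nat_lit 5) (nat_lit 348) (nat_lit 251) (nat_lit 181)) (XT.lf (nat_lit 0) (nat_lit 8140510410) (nat_lit 152) (nat_lit 9402771633) (nat_lit 228) (nat_lit 4189837387) (nat_lit 33) (nat_lit 5) (nat_lit 35) (nat_lit 5) (nat_lit 36) (nat_lit 5) (nat_lit 349) (nat_lit 251) (nat_lit 180)))))) (XT.nd (nat_lit 468) (nat_lit 456) (nat_lit 0) (XT.nd (nat_lit 234) (nat_lit 380) (nat_lit 0) (XT.nd (nat_lit 78) (nat_lit 152) (nat_lit 0) (XT.lf (nat_lit 0) (nat_lit 1182735720) (nat_lit 228) (nat_lit 1759236963) (nat_lit 76) (nat_lit 19300450126) (nat_lit 32) (nat_lit 5) (nat_lit 35) (nat_lit 5) (nat_lit 33) (nat_lit 5) (nat_lit 350) (nat_lit 251) (nat_lit 179)) (XT.nd (nat_lit 78) (nat_lit 0) (nat_lit 0) (XT.lf (nat_lit 0) (nat_lit 6712281408) (nat_lit 228) (nat_lit 12321079423) (nat_lit 76) (nat_lit 3732049286) (nat_lit 30) (nat_lit 5) (nat_lit 33) (nat_lit 5)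 (nat_lit 31) (nat_lit 5) (nat_lit 351) (nat_lit 251) (nat_lit 178)) (XT.lf (nat_lit 0) (nat_lit 12399797792) (nat_lit 228) (nat_lit 354061088) (nat_lit 76) (nat_lit 10550399197) (nat_lit 30) (nat_lit 5) (nat_lit 33) (nat_lit 5) (nat_lit 31) (nat_lit 5) (nat_lit 352) (nat_lit 251) (nat_lit 177)))) (XT.nd (nat_lit 78) (nat_lit 228) (nat_lit 0) (XT.lf (nat_lit 0) (nat_lit 12063635674) (nat_lit 152) (nat_lit 6234192182) (nat_lit 228) (nat_lit 5560658204) (nat_lit 28) (nat_lit 5) (nat_lit 30) (nat_lit 5) (nat_lit 31) (nat_lit 5) (nat_lit 353) (nat_lit 251) (nat_lit 176)) (XT.nd (nat_lit 78) (nat_lit 76) (nat_lit 0) (XT.lf (nat_lit 0) (nat_lit 365008745) (nat_lit 152) (nat_lit 23977775961) (nat_lit 228) (nat_lit 87168448) (nat_lit 26) (nat_lit 5) (nat_lit 28) (nat_lit 5) (nat_lit 29) (nat_lit 4) (nat_lit 354) (nat_lit 251) (nat_lit 175)) (XT.lf (nat_lit 0) (nat_lit 5562377606) (nat_lit 228) (nat_lit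 12109604210) (nat_lit 76) (nat_lit 7344180148) (nat_lit 25) (nat_lit 5) (nat_lit 28) (nat_lit 5) (nat_lit 26) (nat_lit 5) (nat_lit 355) (nat_lit 251) (nat_lit 174))))) (XT.nd (nat_lit 234) (nat_lit 304) (nat_lit 0) (XT.nd (nat_lit 78) (nat_lit 0) (nat_lit 0) (XT.lf (nat_lit 0) (nat_lit 142090320) (nat_lit 152) (nat_lit 11202658920) (nat_lit 228) (nat_lit 14275916884) (nat_lit 23) (nat_lit 5) (nat_lit 25) (nat_lit 5) (nat_lit 26) (nat_lit 5) (nat_lit 356) (nat_lit 251) (nat_lit 173)) (XT.nd (nat_lit 78) (nat_lit 0) (nat_lit 0) (XT.lf (nat_lit 0) (nat_lit 12864538995) (nat_lit 152) (nat_lit 4482359927) (nat_lit 228) (nat_lit 8895491106) (nat_lit 23) (nat_lit 5) (nat_lit 25) (nat_lit 5) (nat_lit 26) (nat_lit 5) (nat_lit 357) (nat_lit 251) (nat_lit 172)) (XT.lf (nat_lit 0) (nat_lit 23510073008) (nat_lit 228) (nat_lit 991212256) (nat_lit 76) (nat_lit 2381871630) (nat_lit 23) (nat_lit 5) (nat_lit 26)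 (nat_lit 5) (nat_lit 24) (nat_lit 4) (nat_lit 358) (nat_lit 251) (nat_lit 171)))) (XT.nd (nat_lit 156) (nat_lit 152) (nat_lit 0) (XT.nd (nat_lit 78) (nat_lit 0) (nat_lit 0) (XT.lf (nat_lit 0) (nat_lit 2358045266) (nat_lit 152) (nat_lit 15724456783) (nat_lit 76) (nat_lit 9458885822) (nat_lit 21) (nat_lit 5) (nat_lit 23) (nat_lit 5) (nat_lit 22) (nat_lit 5) (nat_lit 359) (nat_lit 251) (nat_lit 170)) (XT.lf (nat_lit 0) (nat_lit 8188816839) (nat_lit 152) (nat_lit 3277920295) (nat_lit 76) (nat_lit 16752721661) (nat_lit 21) (nat_lit 5) (nat_lit 23) (nat_lit 5) (nat_lit 22) (nat_lit 5) (nat_lit 360) (nat_lit 251) (nat_lit 169))) (XT.nd (nat_lit 78) (nat_lit 0) (nat_lit 0) (XT.lf (nat_lit 0) (nat_lit 9610803718) (nat_lit 152) (nat_lit 4613595960) (nat_lit 228) (nat_lit 14692883777) (nat_lit 19) (nat_lit 5) (nat_lit 21) (nat_lit 5) (nat_lit 22) (nat_lit 5) (nat_lit 361) (nat_lit 251) (nat_lit 168)) (XT.lf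 (nat_lit 0) (nat_lit 20447196025) (nat_lit 228) (nat_lit 6777379417) (nat_lit 76) (nat_lit 2411353587) (nat_lit 19) (nat_lit 5) (nat_lit 22) (nat_lit 5) (nat_lit 20) (nat_lit 4) (nat_lit 362) (nat_lit 251) (nat_lit 167))))))) (XT.nd (nat_lit 34788) (nat_lit 0) (nat_lit 14744) (XT.nd (nat_lit 34242) (nat_lit 0) (nat_lit 24548) (XT.nd (nat_lit 34008) (nat_lit 0) (nat_lit 34884) (XT.nd (nat_lit 33852) (nat_lit 0) (nat_lit 38456) (XT.lf (nat_lit 0) (nat_lit 6121868621) (nat_lit 76) (nat_lit 20774253891) (nat_lit 152) (nat_lit 3479231368) (nat_lit 18) (nat_lit 5) (nat_lit 19) (nat_lit 5) (nat_lit 20) (nat_lit 4) (nat_lit 363) (nat_lit 251) (nat_lit 166)) (XT.nd (nat_lit 78) (nat_lit 1064) (nat_lit 0) (XT.lf (nat_lit 0) (nat_lit 1336309585) (nat_lit 988) (nat_lit 693572374) (nat_lit 0) (nat_lit 1336309585) (nat_lit 538) (nat_lit 5) (nat_lit 551) (nat_lit 4) (nat_lit 538) (nat_lit 4) (nat_lit 276) (nat_lit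 252) (nat_lit 252)) (XT.lf (nat_lit 0) (nat_lit 498773503) (nat_lit 1064) (nat_lit 2017747644) (nat_lit 76) (nat_lit 4254245382) (nat_lit 524) (nat_lit 5) (nat_lit 538) (nat_lit 5) (nat_lit 525) (nat_lit 4) (nat_lit 277) (nat_lit 252) (nat_lit 251)))) (XT.nd (nat_lit 78) (nat_lit 2508) (nat_lit 0) (XT.lf (nat_lit 0) (nat_lit 4191967299) (nat_lit 1064) (nat_lit 834959867) (nat_lit 1140) (nat_lit 1785280600) (nat_lit 510) (nat_lit 5) (nat_lit 524) (nat_lit 5) (nat_lit 525) (nat_lit 4) (nat_lit 278) (nat_lit 252) (nat_lit 250)) (XT.nd (nat_lit 78) (nat_lit 1292) (nat_lit 0) (XT.lf (nat_lit 0) (nat_lit 2696196782) (nat_lit 1216) (nat_lit 3194891145) (nat_lit 76) (nat_lit 965682403) (nat_lit 494) (nat_lit 5) (nat_lit 510) (nat_lit 5) (nat_lit 495) (nat_lit 4) (nat_lit 279) (nat_lit 252) (nat_lit 249)) (XT.lf (nat_lit 0) (nat_lit 280750603) (nat_lit 1292) (nat_lit 3739978916) (nat_lit 76) (nat_lit 2883830880)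 (nat_lit 477) (nat_lit 5) (nat_lit 494) (nat_lit 5) (nat_lit 478) (nat_lit 5) (nat_lit 280) (nat_lit 252) (nat_lit 248))))) (XT.nd (nat_lit 234) (nat_lit 6156) (nat_lit 0) (XT.nd (nat_lit 78) (nat_lit 2888) (nat_lit 0) (XT.lf (nat_lit 0) (nat_lit 2689036852) (nat_lit 1292) (nat_lit 2008657955) (nat_lit 1368) (nat_lit 2257740055) (nat_lit 460) (nat_lit 5) (nat_lit 477) (nat_lit 5) (nat_lit 478) (nat_lit 5) (nat_lit 281) (nat_lit 252) (nat_lit 247)) (XT.nd (nat_lit 78) (nat_lit 1444) (nat_lit 0) (XT.lf (nat_lit 0) (nat_lit 2112469109) (nat_lit 1444) (nat_lit 4764506007) (nat_lit 76) (nat_lit 132689362) (nat_lit 441) (nat_lit 5) (nat_lit 460) (nat_lit 5) (nat_lit 442) (nat_lit 5) (nat_lit 282) (nat_lit 252) (nat_lit 246)) (XT.lf (nat_lit 0) (nat_lit 1816170545) (nat_lit 1444) (nat_lit 4686333411) (nat_lit 1520) (nat_lit 564495963) (nat_lit 422) (nat_lit 5) (nat_lit 441) (nat_lit 5) (nat_lit 442) (nat_lit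 5) (nat_lit 283) (nat_lit 252) (nat_lit 245)))) (XT.nd (nat_lit 156) (nat_lit 2888) (nat_lit 0) (XT.nd (nat_lit 78) (nat_lit 1672) (nat_lit 0) (XT.lf (nat_lit 0) (nat_lit 1402596938) (nat_lit 1520) (nat_lit 2353068212) (nat_lit 1596) (nat_lit 3371869269) (nat_lit 401) (nat_lit 5) (nat_lit 421) (nat_lit 5) (nat_lit 422) (nat_lit 5) (nat_lit 284) (nat_lit 252) (nat_lit 244)) (XT.lf (nat_lit 0) (nat_lit 906957272) (nat_lit 1672) (nat_lit 6175406268) (nat_lit 76) (nat_lit 109221132) (nat_lit 379) (nat_lit 5) (nat_lit 401) (nat_lit 5) (nat_lit 380) (nat_lit 5) (nat_lit 285) (nat_lit 252) (nat_lit 243))) (XT.nd (nat_lit 78) (nat_lit 1216) (nat_lit 0) (XT.lf (nat_lit 0) (nat_lit 625829254) (nat_lit 1672) (nat_lit 4573745656) (nat_lit 1748) (nat_lit 2059056400) (nat_lit 357) (nat_lit 5) (nat_lit 379) (nat_lit 5) (nat_lit 380) (nat_lit 5) (nat_lit 286) (nat_lit 252) (nat_lit 242)) (XT.lf (nat_lit 0) (nat_lit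 252188064) (nat_lit 1140) (nat_lit 1928862974) (nat_lit 1216) (nat_lit 5148121970) (nat_lit 341) (nat_lit 5) (nat_lit 356) (nat_lit 5) (nat_lit 357) (nat_lit 5) (nat_lit 287) (nat_lit 252) (nat_lit 241)))))) (XT.nd (nat_lit 546) (nat_lit 4712) (nat_lit 0) (XT.nd (nat_lit 234) (nat_lit 3344) (nat_lit 0) (XT.nd (nat_lit 78) (nat_lit 1748) (nat_lit 0) (XT.lf (nat_lit 0) (nat_lit 6447912326) (nat_lit 1216) (nat_lit 110950754) (nat_lit 76) (nat_lit 844279508) (nat_lit 341) (nat_lit 5) (nat_lit 357) (nat_lit 5) (nat_lit 342) (nat_lit 5) (nat_lit 288) (nat_lit 252) (nat_lit 240)) (XT.nd (nat_lit 78) (nat_lit 836) (nat_lit 0) (XT.lf (nat_lit 0) (nat_lit 3257833261) (nat_lit 912) (nat_lit 480515614) (nat_lit 76) (nat_lit 3741903551) (nat_lit 329) (nat_lit 5) (nat_lit 341) (nat_lit 5) (nat_lit 330) (nat_lit 5) (nat_lit 289) (nat_lit 252) (nat_lit 239)) (XT.lf (nat_lit 0) (nat_lit 6726053347) (nat_lit 836)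 (nat_lit 785104177) (nat_lit 912) (nat_lit 49978969) (nat_lit 318) (nat_lit 5) (nat_lit 329) (nat_lit 5) (nat_lit 330) (nat_lit 5) (nat_lit 290) (nat_lit 252) (nat_lit 238)))) (XT.nd (nat_lit 156) (nat_lit 1596) (nat_lit 0) (XT.nd (nat_lit 78) (nat_lit 912) (nat_lit 0) (XT.lf (nat_lit 0) (nat_lit 4136278317) (nat_lit 836) (nat_lit 1213621020) (nat_lit 76) (nat_lit 2295227296) (nat_lit 307) (nat_lit 5) (nat_lit 318) (nat_lit 5) (nat_lit 308) (nat_lit 5) (nat_lit 291) (nat_lit 252) (nat_lit 237)) (XT.lf (nat_lit 0) (nat_lit 643458512) (nat_lit 912) (nat_lit 1587634127) (nat_lit 76) (nat_lit 5501816113) (nat_lit 295) (nat_lit 5) (nat_lit 307) (nat_lit 5) (nat_lit 296) (nat_lit 5) (nat_lit 292) (nat_lit 252) (nat_lit 236))) (XT.nd (nat_lit 78) (nat_lit 836) (nat_lit 0) (XT.lf (nat_lit 0) (nat_lit 4814332808) (nat_lit 836) (nat_lit 1980503202) (nat_lit 76) (nat_lit 1029300263) (nat_lit 285) (nat_lit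 5) (nat_lit 296) (nat_lit 5) (nat_lit 286) (nat_lit 5) (nat_lit 293) (nat_lit 252) (nat_lit 235)) (XT.lf (nat_lit 0) (nat_lit 1128659490) (nat_lit 836) (nat_lit 2388578521) (nat_lit 76) (nat_lit 4401770469) (nat_lit 274) (nat_lit 5) (nat_lit 285) (nat_lit 5) (nat_lit 275) (nat_lit 5) (nat_lit 294) (nat_lit 252) (nat_lit 234))))) (XT.nd (nat_lit 234) (nat_lit 2584) (nat_lit 0) (XT.nd (nat_lit 78) (nat_lit 1444) (nat_lit 0) (XT.lf (nat_lit 0) (nat_lit 5204499240) (nat_lit 684) (nat_lit 85792769) (nat_lit 760) (nat_lit 2727339722) (nat_lit 265) (nat_lit 5) (nat_lit 274) (nat_lit 5) (nat_lit 275) (nat_lit 5) (nat_lit 295) (nat_lit 252) (nat_lit 233)) (XT.nd (nat_lit 78) (nat_lit 684) (nat_lit 0) (XT.lf (nat_lit 0) (nat_lit 1402995684) (nat_lit 760) (nat_lit 3269873305) (nat_lit 76) (nat_lit 3446960434) (nat_lit 255) (nat_lit 5) (nat_lit 265) (nat_lit 5) (nat_lit 256) (nat_lit 5) (nat_lit 296) (nat_lit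 252) (nat_lit 232)) (XT.lf (nat_lit 0) (nat_lit 4475949295) (nat_lit 684) (nat_lit 1089439246) (nat_lit 760) (nat_lit 2660533182) (nat_lit 246) (nat_lit 5) (nat_lit 255) (nat_lit 5) (nat_lit 256) (nat_lit 5) (nat_lit 297) (nat_lit 252) (nat_lit 231)))) (XT.nd (nat_lit 156) (nat_lit 1216) (nat_lit 0) (XT.nd (nat_lit 78) (nat_lit 608) (nat_lit 0) (XT.lf (nat_lit 0) (nat_lit 1461222538) (nat_lit 760) (nat_lit 4265599205) (nat_lit 76) (nat_lit 2608993408) (nat_lit 236) (nat_lit 5) (nat_lit 246) (nat_lit 5) (nat_lit 237) (nat_lit 5) (nat_lit 298) (nat_lit 252) (nat_lit 230)) (XT.lf (nat_lit 0) (nat_lit 3630142440) (nat_lit 608) (nat_lit 1996738675) (nat_lit 684) (nat_lit 2822730798) (nat_lit 228) (nat_lit 5) (nat_lit 236) (nat_lit 5) (nat_lit 237) (nat_lit 5) (nat_lit 299) (nat_lit 252) (nat_lit 229))) (XT.nd (nat_lit 78) (nat_lit 532) (nat_lit 0) (XT.lf (nat_lit 0) (nat_lit 1296047535) (nat_lit 684)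 (nat_lit 5411969926) (nat_lit 76) (nat_lit 1859450248) (nat_lit 219) (nat_lit 5) (nat_lit 228) (nat_lit 5) (nat_lit 220) (nat_lit 5) (nat_lit 300) (nat_lit 252) (nat_lit 228)) (XT.lf (nat_lit 0) (nat_lit 2630074019) (nat_lit 532) (nat_lit 2836644128) (nat_lit 608) (nat_lit 3222513932) (nat_lit 212) (nat_lit 5) (nat_lit 219) (nat_lit 5) (nat_lit 220) (nat_lit 5) (nat_lit 301) (nat_lit 252) (nat_lit 227))))))))
noncomputable def xc37 : XT := (XT.nd (nat_lit 2028) (nat_lit 4104) (nat_lit 0) (XT.nd (nat_lit 1014) (nat_lit 3648) (nat_lit 0) (XT.nd (nat_lit 468) (nat_lit 3268) (nat_lit 0) (XT.nd (nat_lit 234) (nat_lit 1140) (nat_lit 0) (XT.nd (nat_lit 78) (nat_lit 1140) (nat_lit 0) (XT.lf (nat_lit 0) (nat_lit 898024848) (nat_lit 684) (nat_lit 6747690325) (nat_lit 76) (nat_lit 1169634993) (nat_lit 203) (nat_lit 5) (nat_lit 212) (nat_lit 5) (nat_lit 204) (nat_lit 5) (nat_lit 302) (nat_lit 252) (nat_lit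 226)) (XT.nd (nat_lit 78) (nat_lit 608) (nat_lit 0) (XT.lf (nat_lit 0) (nat_lit 1436112546) (nat_lit 532) (nat_lit 3638540064) (nat_lit 608) (nat_lit 3870721684) (nat_lit 196) (nat_lit 5) (nat_lit 203) (nat_lit 5) (nat_lit 204) (nat_lit 5) (nat_lit 303) (nat_lit 252) (nat_lit 225)) (XT.lf (nat_lit 0) (nat_lit 255430614) (nat_lit 608) (nat_lit 8314342396) (nat_lit 76) (nat_lit 510316594) (nat_lit 188) (nat_lit 5) (nat_lit 196) (nat_lit 5) (nat_lit 189) (nat_lit 5) (nat_lit 304) (nat_lit 252) (nat_lit 224)))) (XT.nd (nat_lit 78) (nat_lit 608) (nat_lit 0) (XT.lf (nat_lit 0) (nat_lit 5600340) (nat_lit 532) (nat_lit 4432508326) (nat_lit 608) (nat_lit 4780587426) (nat_lit 181) (nat_lit 5) (nat_lit 188) (nat_lit 5) (nat_lit 189) (nat_lit 5) (nat_lit 305) (nat_lit 252) (nat_lit 223)) (XT.nd (nat_lit 78) (nat_lit 608) (nat_lit 0) (XT.lf (nat_lit 0) (nat_lit 8572977836) (nat_lit 532) (nat_lit 140952935)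 (nat_lit 608) (nat_lit 648242760) (nat_lit 181) (nat_lit 5) (nat_lit 188) (nat_lit 5) (nat_lit 189) (nat_lit 5) (nat_lit 306) (nat_lit 252) (nat_lit 222)) (XT.lf (nat_lit 0) (nat_lit 3553113641) (nat_lit 608) (nat_lit 1685183656) (nat_lit 76) (nat_lit 4271405087) (nat_lit 173) (nat_lit 5) (nat_lit 181) (nat_lit 5) (nat_lit 174) (nat_lit 5) (nat_lit 307) (nat_lit 252) (nat_lit 221))))) (XT.nd (nat_lit 234) (nat_lit 1824) (nat_lit 0) (XT.nd (nat_lit 78) (nat_lit 988) (nat_lit 0) (XT.lf (nat_lit 0) (nat_lit 7019093835) (nat_lit 456) (nat_lit 819454587) (nat_lit 532) (nat_lit 1823747107) (nat_lit 167) (nat_lit 5) (nat_lit 173) (nat_lit 5) (nat_lit 174) (nat_lit 5) (nat_lit 308) (nat_lit 252) (nat_lit 220)) (XT.nd (nat_lit 78) (nat_lit 456) (nat_lit 0) (XT.lf (nat_lit 0) (nat_lit 2393056537) (nat_lit 532) (nat_lit 3704242012) (nat_lit 76) (nat_lit 3722072315) (nat_lit 160) (nat_lit 5) (nat_lit 167)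 (nat_lit 5) (nat_lit 161) (nat_lit 5) (nat_lit 309) (nat_lit 252) (nat_lit 219)) (XT.lf (nat_lit 0) (nat_lit 5128494642) (nat_lit 456) (nat_lit 1557617277) (nat_lit 532) (nat_lit 3295371325) (nat_lit 154) (nat_lit 5) (nat_lit 160) (nat_lit 5) (nat_lit 161) (nat_lit 5) (nat_lit 310) (nat_lit 252) (nat_lit 218)))) (XT.nd (nat_lit 156) (nat_lit 912) (nat_lit 0) (XT.nd (nat_lit 78) (nat_lit 380) (nat_lit 0) (XT.lf (nat_lit 0) (nat_lit 937669785) (nat_lit 532) (nat_lit 6105417280) (nat_lit 76) (nat_lit 3105485933) (nat_lit 147) (nat_lit 5) (nat_lit 154) (nat_lit 5) (nat_lit 148) (nat_lit 5) (nat_lit 311) (nat_lit 252) (nat_lit 217)) (XT.lf (nat_lit 0) (nat_lit 2845742629) (nat_lit 380) (nat_lit 2389566197) (nat_lit 456) (nat_lit 5085335523) (nat_lit 142) (nat_lit 5) (nat_lit 147) (nat_lit 5) (nat_lit 148) (nat_lit 5) (nat_lit 312) (nat_lit 252) (nat_lit 216))) (XT.nd (nat_lit 78) (nat_lit 456) (nat_lit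 0) (XT.lf (nat_lit 0) (nat_lit 1545239743) (nat_lit 456) (nat_lit 8105458427) (nat_lit 532) (nat_lit 847453838) (nat_lit 136) (nat_lit 5) (nat_lit 142) (nat_lit 5) (nat_lit 143) (nat_lit 5) (nat_lit 313) (nat_lit 252) (nat_lit 215)) (XT.lf (nat_lit 0) (nat_lit 110242675) (nat_lit 380) (nat_lit 3351426417) (nat_lit 456) (nat_lit 7219102428) (nat_lit 130) (nat_lit 5) (nat_lit 135) (nat_lit 5) (nat_lit 136) (nat_lit 5) (nat_lit 314) (nat_lit 252) (nat_lit 214)))))) (XT.nd (nat_lit 468) (nat_lit 1672) (nat_lit 0) (XT.nd (nat_lit 234) (nat_lit 1140) (nat_lit 0) (XT.nd (nat_lit 78) (nat_lit 836) (nat_lit 0) (XT.lf (nat_lit 0) (nat_lit 7883612999) (nat_lit 456) (nat_lit 1425858920) (nat_lit 76) (nat_lit 1559431200) (nat_lit 130) (nat_lit 5) (nat_lit 136) (nat_lit 5) (nat_lit 131) (nat_lit 5) (nat_lit 315) (nat_lit 252) (nat_lit 213)) (XT.nd (nat_lit 78) (nat_lit 380) (nat_lit 0) (XT.lf (nat_lit 0) (nat_lit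 1357712142) (nat_lit 456) (nat_lit 3103144055) (nat_lit 76) (nat_lit 6601684033) (nat_lit 124) (nat_lit 5) (nat_lit 130) (nat_lit 5) (nat_lit 125) (nat_lit 5) (nat_lit 316) (nat_lit 252) (nat_lit 212)) (XT.lf (nat_lit 0) (nat_lit 5772347179) (nat_lit 456) (nat_lit 4924739433) (nat_lit 76) (nat_lit 564910368) (nat_lit 119) (nat_lit 5) (nat_lit 125) (nat_lit 5) (nat_lit 120) (nat_lit 5) (nat_lit 317) (nat_lit 252) (nat_lit 211)))) (XT.nd (nat_lit 78) (nat_lit 760) (nat_lit 0) (XT.lf (nat_lit 0) (nat_lit 4560613384) (nat_lit 380) (nat_lit 5767708682) (nat_lit 456) (nat_lit 1138979298) (nat_lit 114) (nat_lit 5) (nat_lit 119) (nat_lit 5) (nat_lit 120) (nat_lit 5) (nat_lit 318) (nat_lit 252) (nat_lit 210)) (XT.nd (nat_lit 78) (nat_lit 380) (nat_lit 0) (XT.lf (nat_lit 0) (nat_lit 2627552119) (nat_lit 304) (nat_lit 650677950) (nat_lit 380) (nat_lit 8400543689) (nat_lit 109) (nat_lit 5) (nat_lit 113) (nat_lit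 5) (nat_lit 114) (nat_lit 5) (nat_lit 319) (nat_lit 252) (nat_lit 209)) (XT.lf (nat_lit 0) (nat_lit 511151726) (nat_lit 380) (nat_lit 7312217420) (nat_lit 456) (nat_lit 4072891614) (nat_lit 104) (nat_lit 5) (nat_lit 109) (nat_lit 5) (nat_lit 110) (nat_lit 5) (nat_lit 320) (nat_lit 252) (nat_lit 208))))) (XT.nd (nat_lit 234) (nat_lit 988) (nat_lit 0) (XT.nd (nat_lit 78) (nat_lit 608) (nat_lit 0) (XT.lf (nat_lit 0) (nat_lit 376883534) (nat_lit 456) (nat_lit 1745602374) (nat_lit 76) (nat_lit 9997826672) (nat_lit 103) (nat_lit 5) (nat_lit 109) (nat_lit 5) (nat_lit 104) (nat_lit 5) (nat_lit 321) (nat_lit 252) (nat_lit 207)) (XT.nd (nat_lit 78) (nat_lit 304) (nat_lit 0) (XT.lf (nat_lit 0) (nat_lit 4912613680) (nat_lit 380) (nat_lit 4209762378) (nat_lit 76) (nat_lit 3228051353) (nat_lit 99) (nat_lit 5) (nat_lit 104) (nat_lit 5) (nat_lit 100) (nat_lit 5) (nat_lit 322) (nat_lit 252) (nat_lit 206)) (XT.lf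 (nat_lit 0) (nat_lit 5720893371) (nat_lit 304) (nat_lit 3861100158) (nat_lit 380) (nat_lit 3005535380) (nat_lit 95) (nat_lit 5) (nat_lit 99) (nat_lit 5) (nat_lit 100) (nat_lit 5) (nat_lit 323) (nat_lit 252) (nat_lit 205)))) (XT.nd (nat_lit 156) (nat_lit 304) (nat_lit 0) (XT.nd (nat_lit 78) (nat_lit 304) (nat_lit 0) (XT.lf (nat_lit 0) (nat_lit 1533572924) (nat_lit 380) (nat_lit 9735164429) (nat_lit 76) (nat_lit 1562950320) (nat_lit 90) (nat_lit 5) (nat_lit 95) (nat_lit 5) (nat_lit 91) (nat_lit 5) (nat_lit 324) (nat_lit 252) (nat_lit 204)) (XT.lf (nat_lit 0) (nat_lit 228280819) (nat_lit 304) (nat_lit 5950294015) (nat_lit 380) (nat_lit 6904020094) (nat_lit 86) (nat_lit 5) (nat_lit 90) (nat_lit 5) (nat_lit 91) (nat_lit 5) (nat_lit 325) (nat_lit 252) (nat_lit 203))) (XT.nd (nat_lit 78) (nat_lit 304) (nat_lit 0) (XT.lf (nat_lit 0) (nat_lit 10526676476) (nat_lit 304) (nat_lit 439625941) (nat_lit 380)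 (nat_lit 2374690677) (nat_lit 86) (nat_lit 5) (nat_lit 90) (nat_lit 5) (nat_lit 91) (nat_lit 5) (nat_lit 326) (nat_lit 252) (nat_lit 202)) (XT.lf (nat_lit 0) (nat_lit 2282269224) (nat_lit 304) (nat_lit 6125968998) (nat_lit 76) (nat_lit 5198201427) (nat_lit 82) (nat_lit 5) (nat_lit 86) (nat_lit 5) (nat_lit 83) (nat_lit 5) (nat_lit 327) (nat_lit 252) (nat_lit 201))))))) (XT.nd (nat_lit 1014) (nat_lit 1596) (nat_lit 0) (XT.nd (nat_lit 468) (nat_lit 1292) (nat_lit 0) (XT.nd (nat_lit 234) (nat_lit 608) (nat_lit 0) (XT.nd (nat_lit 78) (nat_lit 304) (nat_lit 0) (XT.lf (nat_lit 0) (nat_lit 4184401266) (nat_lit 304) (nat_lit 2851516430) (nat_lit 380) (nat_lit 6843861957) (nat_lit 78) (nat_lit 5) (nat_lit 82) (nat_lit 5) (nat_lit 83) (nat_lit 5) (nat_lit 328) (nat_lit 252) (nat_lit 200)) (XT.nd (nat_lit 78) (nat_lit 76) (nat_lit 0) (XT.lf (nat_lit 0) (nat_lit 622550039) (nat_lit 228) (nat_lit 11314782895)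 (nat_lit 304) (nat_lit 2223911771) (nat_lit 75) (nat_lit 5) (nat_lit 78) (nat_lit 5) (nat_lit 79) (nat_lit 5) (nat_lit 329) (nat_lit 252) (nat_lit 199)) (XT.lf (nat_lit 0) (nat_lit 2527994857) (nat_lit 304) (nat_lit 3196490499) (nat_lit 76) (nat_lit 8725833865) (nat_lit 74) (nat_lit 5) (nat_lit 78) (nat_lit 5) (nat_lit 75) (nat_lit 5) (nat_lit 330) (nat_lit 252) (nat_lit 198)))) (XT.nd (nat_lit 78) (nat_lit 304) (nat_lit 0) (XT.lf (nat_lit 0) (nat_lit 7384295217) (nat_lit 380) (nat_lit 7300288557) (nat_lit 76) (nat_lit 63373053) (nat_lit 70) (nat_lit 5) (nat_lit 75) (nat_lit 5) (nat_lit 71) (nat_lit 5) (nat_lit 331) (nat_lit 252) (nat_lit 197)) (XT.nd (nat_lit 78) (nat_lit 76) (nat_lit 0) (XT.lf (nat_lit 0) (nat_lit 3315726052) (nat_lit 228) (nat_lit 9096137091) (nat_lit 304) (nat_lit 2642173964) (nat_lit 67) (nat_lit 5) (nat_lit 70) (nat_lit 5) (nat_lit 71) (nat_lit 5) (nat_lit 332) (nat_lit 252)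 (nat_lit 196)) (XT.lf (nat_lit 0) (nat_lit 2186259444) (nat_lit 304) (nat_lit 1122356676) (nat_lit 76) (nat_lit 12060530596) (nat_lit 66) (nat_lit 5) (nat_lit 70) (nat_lit 5) (nat_lit 67) (nat_lit 5) (nat_lit 333) (nat_lit 252) (nat_lit 195))))) (XT.nd (nat_lit 234) (nat_lit 760) (nat_lit 0) (XT.nd (nat_lit 78) (nat_lit 304) (nat_lit 0) (XT.lf (nat_lit 0) (nat_lit 7151511747) (nat_lit 304) (nat_lit 5874151033) (nat_lit 76) (nat_lit 2667163496) (nat_lit 63) (nat_lit 5) (nat_lit 67) (nat_lit 5) (nat_lit 64) (nat_lit 5) (nat_lit 334) (nat_lit 252) (nat_lit 194)) (XT.nd (nat_lit 78) (nat_lit 76) (nat_lit 0) (XT.lf (nat_lit 0) (nat_lit 5034794371) (nat_lit 228) (nat_lit 7240442573) (nat_lit 304) (nat_lit 3750811508) (nat_lit 60) (nat_lit 5) (nat_lit 63) (nat_lit 5) (nat_lit 64) (nat_lit 5) (nat_lit 335) (nat_lit 252) (nat_lit 193)) (XT.lf (nat_lit 0) (nat_lit 1155624293) (nat_lit 304) (nat_lit 110618938)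 (nat_lit 76) (nat_lit 15103137076) (nat_lit 59) (nat_lit 5) (nat_lit 63) (nat_lit 5) (nat_lit 60) (nat_lit 5) (nat_lit 336) (nat_lit 252) (nat_lit 192)))) (XT.nd (nat_lit 156) (nat_lit 304) (nat_lit 0) (XT.nd (nat_lit 78) (nat_lit 228) (nat_lit 0) (XT.lf (nat_lit 0) (nat_lit 6212235449) (nat_lit 304) (nat_lit 5620009218) (nat_lit 76) (nat_lit 4889213597) (nat_lit 56) (nat_lit 5) (nat_lit 60) (nat_lit 5) (nat_lit 57) (nat_lit 5) (nat_lit 337) (nat_lit 252) (nat_lit 191)) (XT.lf (nat_lit 0) (nat_lit 5549030228) (nat_lit 228) (nat_lit 5866700586) (nat_lit 304) (nat_lit 5668484246) (nat_lit 53) (nat_lit 5) (nat_lit 56) (nat_lit 5) (nat_lit 57) (nat_lit 5) (nat_lit 338) (nat_lit 252) (nat_lit 190))) (XT.nd (nat_lit 78) (nat_lit 304) (nat_lit 0) (XT.lf (nat_lit 0) (nat_lit 16766127568) (nat_lit 304) (nat_lit 411117499) (nat_lit 76) (nat_lit 280813192) (nat_lit 53) (nat_lit 5) (nat_lit 57) (nat_lit 5)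 (nat_lit 54) (nat_lit 5) (nat_lit 339) (nat_lit 252) (nat_lit 189)) (XT.lf (nat_lit 0) (nat_lit 4439389077) (nat_lit 304) (nat_lit 6798062343) (nat_lit 76) (nat_lit 6603835834) (nat_lit 49) (nat_lit 5) (nat_lit 53) (nat_lit 5) (nat_lit 50) (nat_lit 5) (nat_lit 340) (nat_lit 252) (nat_lit 188)))))) (XT.nd (nat_lit 546) (nat_lit 684) (nat_lit 0) (XT.nd (nat_lit 234) (nat_lit 456) (nat_lit 0) (XT.nd (nat_lit 78) (nat_lit 304) (nat_lit 0) (XT.lf (nat_lit 0) (nat_lit 4587383442) (nat_lit 152) (nat_lit 5113158320) (nat_lit 228) (nat_lit 8535692144) (nat_lit 47) (nat_lit 5) (nat_lit 49) (nat_lit 5) (nat_lit 50) (nat_lit 5) (nat_lit 341) (nat_lit 252) (nat_lit 187)) (XT.nd (nat_lit 78) (nat_lit 304) (nat_lit 0) (XT.lf (nat_lit 0) (nat_lit 15126981061) (nat_lit 228) (nat_lit 2321190344) (nat_lit 76) (nat_lit 1194726125) (nat_lit 47) (nat_lit 5) (nat_lit 50) (nat_lit 5) (nat_lit 48) (nat_lit 5) (nat_lit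 342) (nat_lit 252) (nat_lit 186)) (XT.lf (nat_lit 0) (nat_lit 1682705333) (nat_lit 304) (nat_lit 9713189525) (nat_lit 76) (nat_lit 7664669105) (nat_lit 43) (nat_lit 5) (nat_lit 47) (nat_lit 5) (nat_lit 44) (nat_lit 5) (nat_lit 343) (nat_lit 252) (nat_lit 185)))) (XT.nd (nat_lit 156) (nat_lit 304) (nat_lit 0) (XT.nd (nat_lit 78) (nat_lit 0) (nat_lit 0) (XT.lf (nat_lit 0) (nat_lit 1832180311) (nat_lit 152) (nat_lit 5140544427) (nat_lit 228) (nat_lit 12517922993) (nat_lit 41) (nat_lit 5) (nat_lit 43) (nat_lit 5) (nat_lit 44) (nat_lit 5) (nat_lit 344) (nat_lit 252) (nat_lit 184)) (XT.lf (nat_lit 0) (nat_lit 12451986906) (nat_lit 228) (nat_lit 6159371014) (nat_lit 76) (nat_lit 1321681049) (nat_lit 41) (nat_lit 5) (nat_lit 44) (nat_lit 5) (nat_lit 42) (nat_lit 5) (nat_lit 345) (nat_lit 252) (nat_lit 183))) (XT.nd (nat_lit 78) (nat_lit 76) (nat_lit 0) (XT.lf (nat_lit 0) (nat_lit 5651600277) (nat_lit 228)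 (nat_lit 12472214371) (nat_lit 304) (nat_lit 2264338883) (nat_lit 38) (nat_lit 5) (nat_lit 41) (nat_lit 5) (nat_lit 42) (nat_lit 5) (nat_lit 346) (nat_lit 252) (nat_lit 182)) (XT.lf (nat_lit 0) (nat_lit 3067723408) (nat_lit 304) (nat_lit 3047575775) (nat_lit 76) (nat_lit 14741240827) (nat_lit 37) (nat_lit 5) (nat_lit 41) (nat_lit 5) (nat_lit 38) (nat_lit 5) (nat_lit 347) (nat_lit 252) (nat_lit 181))))) (XT.nd (nat_lit 234) (nat_lit 380) (nat_lit 0) (XT.nd (nat_lit 78) (nat_lit 152) (nat_lit 0) (XT.lf (nat_lit 0) (nat_lit 8549705585) (nat_lit 228) (nat_lit 12316287595) (nat_lit 76) (nat_lit 472285305) (nat_lit 35) (nat_lit 5) (nat_lit 38) (nat_lit 5) (nat_lit 36) (nat_lit 5) (nat_lit 348) (nat_lit 252) (nat_lit 180)) (XT.nd (nat_lit 78) (nat_lit 152) (nat_lit 0) (XT.lf (nat_lit 0) (nat_lit 14217237911) (nat_lit 228) (nat_lit 449361565) (nat_lit 76) (nat_lit 7167461589) (nat_lit 35) (nat_lit 5) (nat_lit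 38) (nat_lit 5) (nat_lit 36) (nat_lit 5) (nat_lit 349) (nat_lit 252) (nat_lit 179)) (XT.lf (nat_lit 0) (nat_lit 11861533287) (nat_lit 152) (nat_lit 8230865054) (nat_lit 228) (nat_lit 2251580101) (nat_lit 33) (nat_lit 5) (nat_lit 35) (nat_lit 5) (nat_lit 36) (nat_lit 5) (nat_lit 350) (nat_lit 252) (nat_lit 178)))) (XT.nd (nat_lit 156) (nat_lit 152) (nat_lit 0) (XT.nd (nat_lit 78) (nat_lit 0) (nat_lit 0) (XT.lf (nat_lit 0) (nat_lit 1611589779) (nat_lit 152) (nat_lit 1594648125) (nat_lit 228) (nat_lit 19663051637) (nat_lit 30) (nat_lit 5) (nat_lit 32) (nat_lit 5) (nat_lit 33) (nat_lit 5) (nat_lit 351) (nat_lit 252) (nat_lit 177)) (XT.lf (nat_lit 0) (nat_lit 8864466324) (nat_lit 228) (nat_lit 9313110611) (nat_lit 76) (nat_lit 5231152409) (nat_lit 30) (nat_lit 5) (nat_lit 33) (nat_lit 5) (nat_lit 31) (nat_lit 5) (nat_lit 352) (nat_lit 252) (nat_lit 176))) (XT.nd (nat_lit 78) (nat_lit 0) (nat_lit 0)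 (XT.lf (nat_lit 0) (nat_lit 2953274262) (nat_lit 152) (nat_lit 11731688654) (nat_lit 228) (nat_lit 9279550986) (nat_lit 28) (nat_lit 5) (nat_lit 30) (nat_lit 5) (nat_lit 31) (nat_lit 5) (nat_lit 353) (nat_lit 252) (nat_lit 175)) (XT.lf (nat_lit 0) (nat_lit 15651567684) (nat_lit 152) (nat_lit 5054972115) (nat_lit 228) (nat_lit 3829914531) (nat_lit 28) (nat_lit 5) (nat_lit 30) (nat_lit 5) (nat_lit 31) (nat_lit 5) (nat_lit 354) (nat_lit 252) (nat_lit 174))))))))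
noncomputable def xc38 : XT := (XT.nd (nat_lit 35724) (nat_lit 0) (nat_lit 7220) (XT.nd (nat_lit 34710) (nat_lit 0) (nat_lit 21888) (XT.nd (nat_lit 468) (nat_lit 152) (nat_lit 0) (XT.nd (nat_lit 234) (nat_lit 152) (nat_lit 0) (XT.nd (nat_lit 78) (nat_lit 152) (nat_lit 0) (XT.lf (nat_lit 0) (nat_lit 1759123869) (nat_lit 228) (nat_lit 21559060970) (nat_lit 76) (nat_lit 1807161655) (nat_lit 25) (nat_lit 5) (nat_lit 28) (nat_lit 5) (nat_lit 26) (nat_lit 5) (nat_lit 355) (nat_lit 252) (nat_lit 173)) (XT.nd (nat_lit 78) (nat_lit 152) (nat_lit 0) (XT.lf (nat_lit 0) (nat_lit 7523161404) (nat_lit 228) (nat_lit 9339641037) (nat_lit 76) (nat_lit 8867420194) (nat_lit 25) (nat_lit 5) (nat_lit 28) (nat_lit 5) (nat_lit 26) (nat_lit 5) (nat_lit 356) (nat_lit 252) (nat_lit 172)) (XT.lf (nat_lit 0) (nat_lit 3228771048) (nat_lit 152) (nat_lit 10217996363) (nat_lit 228) (nat_lit 12906755145) (nat_lit 23) (nat_lit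 5) (nat_lit 25) (nat_lit 5) (nat_lit 26) (nat_lit 5) (nat_lit 357) (nat_lit 252) (nat_lit 171)))) (XT.nd (nat_lit 78) (nat_lit 152) (nat_lit 0) (XT.lf (nat_lit 0) (nat_lit 16243114018) (nat_lit 152) (nat_lit 3334556623) (nat_lit 228) (nat_lit 7417269193) (nat_lit 23) (nat_lit 5) (nat_lit 25) (nat_lit 5) (nat_lit 26) (nat_lit 5) (nat_lit 358) (nat_lit 252) (nat_lit 170)) (XT.nd (nat_lit 78) (nat_lit 76) (nat_lit 0) (XT.lf (nat_lit 0) (nat_lit 1935538617) (nat_lit 76) (nat_lit 23961034572) (nat_lit 152) (nat_lit 1758954841) (nat_lit 22) (nat_lit 5) (nat_lit 23) (nat_lit 5) (nat_lit 24) (nat_lit 4) (nat_lit 359) (nat_lit 252) (nat_lit 169)) (XT.lf (nat_lit 0) (nat_lit 4078870177) (nat_lit 152) (nat_lit 13290237544) (nat_lit 76) (nat_lit 10965044566) (nat_lit 21) (nat_lit 5) (nat_lit 23) (nat_lit 5) (nat_lit 22) (nat_lit 5) (nat_lit 360) (nat_lit 252) (nat_lit 168))))) (XT.nd (nat_lit 33930) (nat_lit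 0) (nat_lit 37240) (XT.nd (nat_lit 78) (nat_lit 152) (nat_lit 0) (XT.lf (nat_lit 0) (nat_lit 10036504212) (nat_lit 152) (nat_lit 554944367) (nat_lit 76) (nat_lit 18442091825) (nat_lit 21) (nat_lit 5) (nat_lit 23) (nat_lit 5) (nat_lit 22) (nat_lit 5) (nat_lit 361) (nat_lit 252) (nat_lit 167)) (XT.nd (nat_lit 33774) (nat_lit 0) (nat_lit 40432) (XT.lf (nat_lit 0) (nat_lit 12674668905) (nat_lit 152) (nat_lit 3549845423) (nat_lit 228) (nat_lit 13528371726) (nat_lit 19) (nat_lit 5) (nat_lit 21) (nat_lit 5) (nat_lit 22) (nat_lit 5) (nat_lit 362) (nat_lit 252) (nat_lit 166)) (XT.lf (nat_lit 0) (nat_lit 28245139) (nat_lit 836) (nat_lit 1651801896) (nat_lit 836) (nat_lit 1651801896) (nat_lit 551) (nat_lit 4) (nat_lit 562) (nat_lit 5) (nat_lit 562) (nat_lit 4) (nat_lit 274) (nat_lit 253) (nat_lit 253)))) (XT.nd (nat_lit 156) (nat_lit 2204) (nat_lit 0) (XT.nd (nat_lit 78) (nat_lit 912) (nat_lit 0) (XT.lf (nat_lit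 0) (nat_lit 1219382069) (nat_lit 912) (nat_lit 715197008) (nat_lit 76) (nat_lit 4762676932) (nat_lit 550) (nat_lit 5) (nat_lit 562) (nat_lit 5) (nat_lit 551) (nat_lit 4) (nat_lit 275) (nat_lit 253) (nat_lit 252)) (XT.lf (nat_lit 0) (nat_lit 5283941502) (nat_lit 912) (nat_lit 432922762) (nat_lit 988) (nat_lit 1017059714) (nat_lit 538) (nat_lit 5) (nat_lit 550) (nat_lit 5) (nat_lit 551) (nat_lit 4) (nat_lit 276) (nat_lit 253) (nat_lit 251))) (XT.nd (nat_lit 78) (nat_lit 1140) (nat_lit 0) (XT.lf (nat_lit 0) (nat_lit 3424957433) (nat_lit 1064) (nat_lit 2160039788) (nat_lit 76) (nat_lit 1188547545) (nat_lit 524) (nat_lit 5) (nat_lit 538) (nat_lit 5) (nat_lit 525) (nat_lit 4) (nat_lit 277) (nat_lit 253) (nat_lit 250)) (XT.lf (nat_lit 0) (nat_lit 1050051429) (nat_lit 1140) (nat_lit 2834811688) (nat_lit 76) (nat_lit 2931533371) (nat_lit 509) (nat_lit 5) (nat_lit 524) (nat_lit 5) (nat_lit 510) (nat_lit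 5) (nat_lit 278) (nat_lit 253) (nat_lit 249)))))) (XT.nd (nat_lit 468) (nat_lit 7144) (nat_lit 0) (XT.nd (nat_lit 234) (nat_lit 4408) (nat_lit 0) (XT.nd (nat_lit 78) (nat_lit 2660) (nat_lit 0) (XT.lf (nat_lit 0) (nat_lit 3379960332) (nat_lit 1140) (nat_lit 2049826982) (nat_lit 1216) (nat_lit 1432599015) (nat_lit 494) (nat_lit 5) (nat_lit 509) (nat_lit 5) (nat_lit 510) (nat_lit 5) (nat_lit 279) (nat_lit 253) (nat_lit 248)) (XT.nd (nat_lit 78) (nat_lit 1368) (nat_lit 0) (XT.lf (nat_lit 0) (nat_lit 2808861823) (nat_lit 1216) (nat_lit 80097873) (nat_lit 1292) (nat_lit 4022630316) (nat_lit 477) (nat_lit 5) (nat_lit 493) (nat_lit 5) (nat_lit 494) (nat_lit 5) (nat_lit 280) (nat_lit 253) (nat_lit 247)) (XT.lf (nat_lit 0) (nat_lit 267815452) (nat_lit 1368) (nat_lit 4703571544) (nat_lit 76) (nat_lit 1992539134) (nat_lit 459) (nat_lit 5) (nat_lit 477) (nat_lit 5) (nat_lit 460) (nat_lit 5) (nat_lit 281) (nat_lit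 253) (nat_lit 246)))) (XT.nd (nat_lit 78) (nat_lit 3040) (nat_lit 0) (XT.lf (nat_lit 0) (nat_lit 1728366739) (nat_lit 1368) (nat_lit 2809602108) (nat_lit 1444) (nat_lit 2481384042) (nat_lit 441) (nat_lit 5) (nat_lit 459) (nat_lit 5) (nat_lit 460) (nat_lit 5) (nat_lit 282) (nat_lit 253) (nat_lit 245)) (XT.nd (nat_lit 78) (nat_lit 1520) (nat_lit 0) (XT.lf (nat_lit 0) (nat_lit 1225768771) (nat_lit 1444) (nat_lit 517379724) (nat_lit 1520) (nat_lit 5335054659) (nat_lit 421) (nat_lit 5) (nat_lit 440) (nat_lit 5) (nat_lit 441) (nat_lit 5) (nat_lit 283) (nat_lit 253) (nat_lit 244)) (XT.lf (nat_lit 0) (nat_lit 732424609) (nat_lit 1520) (nat_lit 5252162145) (nat_lit 1596) (nat_lit 1155579223) (nat_lit 401) (nat_lit 5) (nat_lit 421) (nat_lit 5) (nat_lit 422) (nat_lit 5) (nat_lit 284) (nat_lit 253) (nat_lit 243))))) (XT.nd (nat_lit 234) (nat_lit 3724) (nat_lit 0) (XT.nd (nat_lit 78) (nat_lit 1748) (nat_lit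 0) (XT.lf (nat_lit 0) (nat_lit 250252038) (nat_lit 1596) (nat_lit 2775612241) (nat_lit 1672) (nat_lit 4179502091) (nat_lit 379) (nat_lit 5) (nat_lit 400) (nat_lit 5) (nat_lit 401) (nat_lit 5) (nat_lit 285) (nat_lit 253) (nat_lit 242)) (XT.nd (nat_lit 78) (nat_lit 1748) (nat_lit 0) (XT.lf (nat_lit 0) (nat_lit 7069217359) (nat_lit 1596) (nat_lit 167107456) (nat_lit 1672) (nat_lit 37800862) (nat_lit 379) (nat_lit 5) (nat_lit 400) (nat_lit 5) (nat_lit 401) (nat_lit 5) (nat_lit 286) (nat_lit 253) (nat_lit 241)) (XT.lf (nat_lit 0) (nat_lit 4111497665) (nat_lit 1748) (nat_lit 671785651) (nat_lit 76) (nat_lit 2562473766) (nat_lit 356) (nat_lit 5) (nat_lit 379) (nat_lit 5) (nat_lit 357) (nat_lit 5) (nat_lit 287) (nat_lit 253) (nat_lit 240)))) (XT.nd (nat_lit 156) (nat_lit 1672) (nat_lit 0) (XT.nd (nat_lit 78) (nat_lit 836) (nat_lit 0) (XT.lf (nat_lit 0) (nat_lit 876718891) (nat_lit 1216) (nat_lit 1120666171)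 (nat_lit 76) (nat_lit 5423666924) (nat_lit 340) (nat_lit 5) (nat_lit 356) (nat_lit 5) (nat_lit 341) (nat_lit 5) (nat_lit 288) (nat_lit 253) (nat_lit 239)) (XT.lf (nat_lit 0) (nat_lit 4999641496) (nat_lit 912) (nat_lit 1574669806) (nat_lit 76) (nat_lit 925339897) (nat_lit 329) (nat_lit 5) (nat_lit 341) (nat_lit 5) (nat_lit 330) (nat_lit 5) (nat_lit 289) (nat_lit 253) (nat_lit 238))) (XT.nd (nat_lit 78) (nat_lit 760) (nat_lit 0) (XT.lf (nat_lit 0) (nat_lit 1586164942) (nat_lit 912) (nat_lit 2033766805) (nat_lit 76) (nat_lit 3961731186) (nat_lit 317) (nat_lit 5) (nat_lit 329) (nat_lit 5) (nat_lit 318) (nat_lit 5) (nat_lit 290) (nat_lit 253) (nat_lit 237)) (XT.lf (nat_lit 0) (nat_lit 5173297828) (nat_lit 760) (nat_lit 519677026) (nat_lit 836) (nat_lit 1974304082) (nat_lit 307) (nat_lit 5) (nat_lit 317) (nat_lit 5) (nat_lit 318) (nat_lit 5) (nat_lit 291) (nat_lit 253) (nat_lit 236))))))) (XT.nd (nat_lit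 1014) (nat_lit 6156) (nat_lit 0) (XT.nd (nat_lit 468) (nat_lit 3876) (nat_lit 0) (XT.nd (nat_lit 234) (nat_lit 2128) (nat_lit 0) (XT.nd (nat_lit 78) (nat_lit 1596) (nat_lit 0) (XT.lf (nat_lit 0) (nat_lit 2091029723) (nat_lit 912) (nat_lit 2973499420) (nat_lit 76) (nat_lit 2691723384) (nat_lit 295) (nat_lit 5) (nat_lit 307) (nat_lit 5) (nat_lit 296) (nat_lit 5) (nat_lit 292) (nat_lit 253) (nat_lit 235)) (XT.nd (nat_lit 78) (nat_lit 836) (nat_lit 0) (XT.lf (nat_lit 0) (nat_lit 4387589308) (nat_lit 760) (nat_lit 1804652410) (nat_lit 836) (nat_lit 1656683802) (nat_lit 285) (nat_lit 5) (nat_lit 295) (nat_lit 5) (nat_lit 296) (nat_lit 5) (nat_lit 293) (nat_lit 253) (nat_lit 234)) (XT.lf (nat_lit 0) (nat_lit 2389490952) (nat_lit 836) (nat_lit 3970627740) (nat_lit 76) (nat_lit 1585043876) (nat_lit 274) (nat_lit 5) (nat_lit 285) (nat_lit 5) (nat_lit 275) (nat_lit 5) (nat_lit 294) (nat_lit 253) (nat_lit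 233)))) (XT.nd (nat_lit 78) (nat_lit 1444) (nat_lit 0) (XT.lf (nat_lit 0) (nat_lit 3542842737) (nat_lit 684) (nat_lit 2946018418) (nat_lit 760) (nat_lit 1556218173) (nat_lit 265) (nat_lit 5) (nat_lit 274) (nat_lit 5) (nat_lit 275) (nat_lit 5) (nat_lit 295) (nat_lit 253) (nat_lit 232)) (XT.nd (nat_lit 78) (nat_lit 684) (nat_lit 0) (XT.lf (nat_lit 0) (nat_lit 2477851675) (nat_lit 760) (nat_lit 5057436877) (nat_lit 76) (nat_lit 613500455) (nat_lit 255) (nat_lit 5) (nat_lit 265) (nat_lit 5) (nat_lit 256) (nat_lit 5) (nat_lit 296) (nat_lit 253) (nat_lit 231)) (XT.lf (nat_lit 0) (nat_lit 2606210662) (nat_lit 684) (nat_lit 3972234591) (nat_lit 760) (nat_lit 1677716641) (nat_lit 246) (nat_lit 5) (nat_lit 255) (nat_lit 5) (nat_lit 256) (nat_lit 5) (nat_lit 297) (nat_lit 253) (nat_lit 230))))) (XT.nd (nat_lit 234) (nat_lit 1824) (nat_lit 0) (XT.nd (nat_lit 78) (nat_lit 1292) (nat_lit 0) (XT.lf (nat_lit 0)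 (nat_lit 2097855618) (nat_lit 684) (nat_lit 254263660) (nat_lit 760) (nat_lit 6015431474) (nat_lit 236) (nat_lit 5) (nat_lit 245) (nat_lit 5) (nat_lit 246) (nat_lit 5) (nat_lit 298) (nat_lit 253) (nat_lit 229)) (XT.nd (nat_lit 78) (nat_lit 684) (nat_lit 0) (XT.lf (nat_lit 0) (nat_lit 1542900382) (nat_lit 608) (nat_lit 4911731978) (nat_lit 684) (nat_lit 2028019279) (nat_lit 228) (nat_lit 5) (nat_lit 236) (nat_lit 5) (nat_lit 237) (nat_lit 5) (nat_lit 299) (nat_lit 253) (nat_lit 228)) (XT.lf (nat_lit 0) (nat_lit 956370344) (nat_lit 608) (nat_lit 1050110048) (nat_lit 684) (nat_lit 6595440196) (nat_lit 219) (nat_lit 5) (nat_lit 227) (nat_lit 5) (nat_lit 228) (nat_lit 5) (nat_lit 300) (nat_lit 253) (nat_lit 227)))) (XT.nd (nat_lit 156) (nat_lit 1216) (nat_lit 0) (XT.nd (nat_lit 78) (nat_lit 76) (nat_lit 0) (XT.lf (nat_lit 0) (nat_lit 315830833) (nat_lit 532) (nat_lit 5793159845) (nat_lit 608) (nat_lit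 2616095576) (nat_lit 212) (nat_lit 5) (nat_lit 219) (nat_lit 5) (nat_lit 220) (nat_lit 5) (nat_lit 301) (nat_lit 253) (nat_lit 226)) (XT.lf (nat_lit 0) (nat_lit 1429650075) (nat_lit 608) (nat_lit 362592076) (nat_lit 76) (nat_lit 7060256495) (nat_lit 211) (nat_lit 5) (nat_lit 219) (nat_lit 5) (nat_lit 212) (nat_lit 5) (nat_lit 302) (nat_lit 253) (nat_lit 225))) (XT.nd (nat_lit 78) (nat_lit 608) (nat_lit 0) (XT.lf (nat_lit 0) (nat_lit 5538140877) (nat_lit 684) (nat_lit 1100116495) (nat_lit 76) (nat_lit 2345663339) (nat_lit 203) (nat_lit 5) (nat_lit 212) (nat_lit 5) (nat_lit 204) (nat_lit 5) (nat_lit 303) (nat_lit 253) (nat_lit 224)) (XT.lf (nat_lit 0) (nat_lit 615004792) (nat_lit 608) (nat_lit 1889646151) (nat_lit 76) (nat_lit 6615159290) (nat_lit 195) (nat_lit 5) (nat_lit 203) (nat_lit 5) (nat_lit 196) (nat_lit 5) (nat_lit 304) (nat_lit 253) (nat_lit 223)))))) (XT.nd (nat_lit 546) (nat_lit 2508)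 (nat_lit 0) (XT.nd (nat_lit 234) (nat_lit 1976) (nat_lit 0) (XT.nd (nat_lit 78) (nat_lit 1140) (nat_lit 0) (XT.lf (nat_lit 0) (nat_lit 4725558132) (nat_lit 608) (nat_lit 2754983543) (nat_lit 76) (nat_lit 1779350068) (nat_lit 188) (nat_lit 5) (nat_lit 196) (nat_lit 5) (nat_lit 189) (nat_lit 5) (nat_lit 305) (nat_lit 253) (nat_lit 222)) (XT.nd (nat_lit 78) (nat_lit 608) (nat_lit 0) (XT.lf (nat_lit 0) (nat_lit 5720316773) (nat_lit 532) (nat_lit 3220527696) (nat_lit 608) (nat_lit 463767008) (nat_lit 181) (nat_lit 5) (nat_lit 188) (nat_lit 5) (nat_lit 189) (nat_lit 5) (nat_lit 306) (nat_lit 253) (nat_lit 221)) (XT.lf (nat_lit 0) (nat_lit 3654079364) (nat_lit 608) (nat_lit 4698587230) (nat_lit 76) (nat_lit 1201101652) (nat_lit 173) (nat_lit 5) (nat_lit 181) (nat_lit 5) (nat_lit 174) (nat_lit 5) (nat_lit 307) (nat_lit 253) (nat_lit 220)))) (XT.nd (nat_lit 156) (nat_lit 988) (nat_lit 0) (XT.nd (nat_lit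 78) (nat_lit 532) (nat_lit 0) (XT.lf (nat_lit 0) (nat_lit 3910616799) (nat_lit 456) (nat_lit 3968012999) (nat_lit 532) (nat_lit 1828978463) (nat_lit 167) (nat_lit 5) (nat_lit 173) (nat_lit 5) (nat_lit 174) (nat_lit 5) (nat_lit 308) (nat_lit 253) (nat_lit 219)) (XT.lf (nat_lit 0) (nat_lit 2305962543) (nat_lit 532) (nat_lit 6980506679) (nat_lit 76) (nat_lit 579881456) (nat_lit 160) (nat_lit 5) (nat_lit 167) (nat_lit 5) (nat_lit 161) (nat_lit 5) (nat_lit 309) (nat_lit 253) (nat_lit 218))) (XT.nd (nat_lit 78) (nat_lit 532) (nat_lit 0) (XT.lf (nat_lit 0) (nat_lit 1754140842) (nat_lit 456) (nat_lit 4783548449) (nat_lit 532) (nat_lit 3492027309) (nat_lit 154) (nat_lit 5) (nat_lit 160) (nat_lit 5) (nat_lit 161) (nat_lit 5) (nat_lit 310) (nat_lit 253) (nat_lit 217)) (XT.lf (nat_lit 0) (nat_lit 543003309) (nat_lit 456) (nat_lit 118400867) (nat_lit 532) (nat_lit 9537097160) (nat_lit 147) (nat_lit 5) (nat_lit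 153) (nat_lit 5) (nat_lit 154) (nat_lit 5) (nat_lit 311) (nat_lit 253) (nat_lit 216))))) (XT.nd (nat_lit 234) (nat_lit 1596) (nat_lit 0) (XT.nd (nat_lit 78) (nat_lit 912) (nat_lit 0) (XT.lf (nat_lit 0) (nat_lit 4901597530) (nat_lit 532) (nat_lit 794219578) (nat_lit 76) (nat_lit 4675929414) (nat_lit 147) (nat_lit 5) (nat_lit 154) (nat_lit 5) (nat_lit 148) (nat_lit 5) (nat_lit 312) (nat_lit 253) (nat_lit 215)) (XT.nd (nat_lit 78) (nat_lit 532) (nat_lit 0) (XT.lf (nat_lit 0) (nat_lit 8336335661) (nat_lit 380) (nat_lit 912289476) (nat_lit 456) (nat_lit 1302020475) (nat_lit 142) (nat_lit 5) (nat_lit 147) (nat_lit 5) (nat_lit 148) (nat_lit 5) (nat_lit 313) (nat_lit 253) (nat_lit 214)) (XT.lf (nat_lit 0) (nat_lit 2954721694) (nat_lit 532) (nat_lit 3776784745) (nat_lit 76) (nat_lit 4003007592) (nat_lit 135) (nat_lit 5) (nat_lit 142) (nat_lit 5) (nat_lit 136) (nat_lit 5) (nat_lit 314) (nat_lit 253) (nat_lit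 213)))) (XT.nd (nat_lit 156) (nat_lit 760) (nat_lit 0) (XT.nd (nat_lit 78) (nat_lit 456) (nat_lit 0) (XT.lf (nat_lit 0) (nat_lit 5464355459) (nat_lit 380) (nat_lit 1840905852) (nat_lit 456) (nat_lit 3618834765) (nat_lit 130) (nat_lit 5) (nat_lit 135) (nat_lit 5) (nat_lit 136) (nat_lit 5) (nat_lit 315) (nat_lit 253) (nat_lit 212)) (XT.lf (nat_lit 0) (nat_lit 657877225) (nat_lit 456) (nat_lit 7282343088) (nat_lit 76) (nat_lit 3179108410) (nat_lit 124) (nat_lit 5) (nat_lit 130) (nat_lit 5) (nat_lit 125) (nat_lit 5) (nat_lit 316) (nat_lit 253) (nat_lit 211))) (XT.nd (nat_lit 78) (nat_lit 380) (nat_lit 0) (XT.lf (nat_lit 0) (nat_lit 2054930358) (nat_lit 380) (nat_lit 2951151151) (nat_lit 456) (nat_lit 6314053244) (nat_lit 119) (nat_lit 5) (nat_lit 124) (nat_lit 5) (nat_lit 125) (nat_lit 5) (nat_lit 317) (nat_lit 253) (nat_lit 210)) (XT.lf (nat_lit 0) (nat_lit 130725251) (nat_lit 380) (nat_lit 9349112978)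 (nat_lit 456) (nat_lit 2047265331) (nat_lit 114) (nat_lit 5) (nat_lit 119) (nat_lit 5) (nat_lit 120) (nat_lit 5) (nat_lit 318) (nat_lit 253) (nat_lit 209))))))))
noncomputable def xc39 : XT := (XT.nd (nat_lit 2106) (nat_lit 1672) (nat_lit 0) (XT.nd (nat_lit 1014) (nat_lit 2204) (nat_lit 0) (XT.nd (nat_lit 468) (nat_lit 1824) (nat_lit 0) (XT.nd (nat_lit 234) (nat_lit 760) (nat_lit 0) (XT.nd (nat_lit 78) (nat_lit 684) (nat_lit 0) (XT.lf (nat_lit 0) (nat_lit 2330935566) (nat_lit 456) (nat_lit 1940837082) (nat_lit 76) (nat_lit 7467958762) (nat_lit 113) (nat_lit 5) (nat_lit 119) (nat_lit 5) (nat_lit 114) (nat_lit 5) (nat_lit 319) (nat_lit 253) (nat_lit 208)) (XT.nd (nat_lit 78) (nat_lit 380) (nat_lit 0) (XT.lf (nat_lit 0) (nat_lit 6803092445) (nat_lit 380) (nat_lit 4177251536) (nat_lit 76) (nat_lit 978352614) (nat_lit 109) (nat_lit 5) (nat_lit 114) (nat_lit 5) (nat_lit 110) (nat_lit 5) (nat_lit 320)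 (nat_lit 253) (nat_lit 207)) (XT.lf (nat_lit 0) (nat_lit 5584232520) (nat_lit 380) (nat_lit 5837614629) (nat_lit 456) (nat_lit 762171463) (nat_lit 104) (nat_lit 5) (nat_lit 109) (nat_lit 5) (nat_lit 110) (nat_lit 5) (nat_lit 321) (nat_lit 253) (nat_lit 206)))) (XT.nd (nat_lit 78) (nat_lit 380) (nat_lit 0) (XT.lf (nat_lit 0) (nat_lit 3199907110) (nat_lit 304) (nat_lit 498266332) (nat_lit 380) (nat_lit 8717783729) (nat_lit 99) (nat_lit 5) (nat_lit 103) (nat_lit 5) (nat_lit 104) (nat_lit 5) (nat_lit 322) (nat_lit 253) (nat_lit 205)) (XT.nd (nat_lit 78) (nat_lit 76) (nat_lit 0) (XT.lf (nat_lit 0) (nat_lit 602856893) (nat_lit 304) (nat_lit 7696825480) (nat_lit 380) (nat_lit 4354750347) (nat_lit 95) (nat_lit 5) (nat_lit 99) (nat_lit 5) (nat_lit 100) (nat_lit 5) (nat_lit 323) (nat_lit 253) (nat_lit 204)) (XT.lf (nat_lit 0) (nat_lit 140580806) (nat_lit 380) (nat_lit 2157429303) (nat_lit 76) (nat_lit 10602001854)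 (nat_lit 94) (nat_lit 5) (nat_lit 99) (nat_lit 5) (nat_lit 95) (nat_lit 5) (nat_lit 324) (nat_lit 253) (nat_lit 203))))) (XT.nd (nat_lit 234) (nat_lit 912) (nat_lit 0) (XT.nd (nat_lit 78) (nat_lit 608) (nat_lit 0) (XT.lf (nat_lit 0) (nat_lit 4724369702) (nat_lit 380) (nat_lit 5158189105) (nat_lit 76) (nat_lit 3269600044) (nat_lit 90) (nat_lit 5) (nat_lit 95) (nat_lit 5) (nat_lit 91) (nat_lit 5) (nat_lit 325) (nat_lit 253) (nat_lit 202)) (XT.nd (nat_lit 78) (nat_lit 304) (nat_lit 0) (XT.lf (nat_lit 0) (nat_lit 5025165270) (nat_lit 304) (nat_lit 4423060678) (nat_lit 380) (nat_lit 3963623418) (nat_lit 86) (nat_lit 5) (nat_lit 90) (nat_lit 5) (nat_lit 91) (nat_lit 5) (nat_lit 326) (nat_lit 253) (nat_lit 201)) (XT.lf (nat_lit 0) (nat_lit 621731459) (nat_lit 304) (nat_lit 11854201433) (nat_lit 76) (nat_lit 1203432446) (nat_lit 82) (nat_lit 5) (nat_lit 86) (nat_lit 5) (nat_lit 83) (nat_lit 5) (nat_lit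 327) (nat_lit 253) (nat_lit 200)))) (XT.nd (nat_lit 156) (nat_lit 608) (nat_lit 0) (XT.nd (nat_lit 78) (nat_lit 304) (nat_lit 0) (XT.lf (nat_lit 0) (nat_lit 5319398461) (nat_lit 304) (nat_lit 1643995720) (nat_lit 76) (nat_lit 6990444579) (nat_lit 82) (nat_lit 5) (nat_lit 86) (nat_lit 5) (nat_lit 83) (nat_lit 5) (nat_lit 328) (nat_lit 253) (nat_lit 199)) (XT.lf (nat_lit 0) (nat_lit 8899989363) (nat_lit 304) (nat_lit 1259002853) (nat_lit 380) (nat_lit 4077561415) (nat_lit 78) (nat_lit 5) (nat_lit 82) (nat_lit 5) (nat_lit 83) (nat_lit 5) (nat_lit 329) (nat_lit 253) (nat_lit 198))) (XT.nd (nat_lit 78) (nat_lit 304) (nat_lit 0) (XT.lf (nat_lit 0) (nat_lit 627112638) (nat_lit 304) (nat_lit 9326772483) (nat_lit 76) (nat_lit 4573427344) (nat_lit 74) (nat_lit 5) (nat_lit 78) (nat_lit 5) (nat_lit 75) (nat_lit 5) (nat_lit 330) (nat_lit 253) (nat_lit 197)) (XT.lf (nat_lit 0) (nat_lit 1192389832) (nat_lit 304)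 (nat_lit 4222778646) (nat_lit 380) (nat_lit 9411158856) (nat_lit 70) (nat_lit 5) (nat_lit 74) (nat_lit 5) (nat_lit 75) (nat_lit 5) (nat_lit 331) (nat_lit 253) (nat_lit 196)))))) (XT.nd (nat_lit 546) (nat_lit 1140) (nat_lit 0) (XT.nd (nat_lit 234) (nat_lit 532) (nat_lit 0) (XT.nd (nat_lit 78) (nat_lit 532) (nat_lit 0) (XT.lf (nat_lit 0) (nat_lit 10366991785) (nat_lit 380) (nat_lit 3077107651) (nat_lit 76) (nat_lit 1689835083) (nat_lit 70) (nat_lit 5) (nat_lit 75) (nat_lit 5) (nat_lit 71) (nat_lit 5) (nat_lit 332) (nat_lit 253) (nat_lit 195)) (XT.nd (nat_lit 78) (nat_lit 228) (nat_lit 0) (XT.lf (nat_lit 0) (nat_lit 42499088) (nat_lit 304) (nat_lit 7665235680) (nat_lit 76) (nat_lit 7742533869) (nat_lit 66) (nat_lit 5) (nat_lit 70) (nat_lit 5) (nat_lit 67) (nat_lit 5) (nat_lit 333) (nat_lit 253) (nat_lit 194)) (XT.lf (nat_lit 0) (nat_lit 3164657597) (nat_lit 228) (nat_lit 1756519314) (nat_lit 304)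 (nat_lit 10854513876) (nat_lit 63) (nat_lit 5) (nat_lit 66) (nat_lit 5) (nat_lit 67) (nat_lit 5) (nat_lit 334) (nat_lit 253) (nat_lit 193)))) (XT.nd (nat_lit 156) (nat_lit 304) (nat_lit 0) (XT.nd (nat_lit 78) (nat_lit 228) (nat_lit 0) (XT.lf (nat_lit 0) (nat_lit 9975481555) (nat_lit 304) (nat_lit 1797988817) (nat_lit 76) (nat_lit 4336841779) (nat_lit 63) (nat_lit 5) (nat_lit 67) (nat_lit 5) (nat_lit 64) (nat_lit 5) (nat_lit 335) (nat_lit 253) (nat_lit 192)) (XT.lf (nat_lit 0) (nat_lit 9369235026) (nat_lit 228) (nat_lit 5834842214) (nat_lit 304) (nat_lit 1250462919) (nat_lit 60) (nat_lit 5) (nat_lit 63) (nat_lit 5) (nat_lit 64) (nat_lit 5) (nat_lit 336) (nat_lit 253) (nat_lit 191))) (XT.nd (nat_lit 78) (nat_lit 0) (nat_lit 0) (XT.lf (nat_lit 0) (nat_lit 3722033571) (nat_lit 304) (nat_lit 12776059126) (nat_lit 76) (nat_lit 310708050) (nat_lit 56) (nat_lit 5) (nat_lit 60) (nat_lit 5) (nat_lit 57)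 (nat_lit 5) (nat_lit 337) (nat_lit 253) (nat_lit 190)) (XT.lf (nat_lit 0) (nat_lit 8865556912) (nat_lit 304) (nat_lit 1719292635) (nat_lit 76) (nat_lit 6587917106) (nat_lit 56) (nat_lit 5) (nat_lit 60) (nat_lit 5) (nat_lit 57) (nat_lit 5) (nat_lit 338) (nat_lit 253) (nat_lit 189))))) (XT.nd (nat_lit 234) (nat_lit 608) (nat_lit 0) (XT.nd (nat_lit 78) (nat_lit 304) (nat_lit 0) (XT.lf (nat_lit 0) (nat_lit 9718798163) (nat_lit 228) (nat_lit 4460497995) (nat_lit 304) (nat_lit 3368056233) (nat_lit 53) (nat_lit 5) (nat_lit 56) (nat_lit 5) (nat_lit 57) (nat_lit 5) (nat_lit 339) (nat_lit 253) (nat_lit 188)) (XT.nd (nat_lit 78) (nat_lit 0) (nat_lit 0) (XT.lf (nat_lit 0) (nat_lit 1696954516) (nat_lit 304) (nat_lit 14396601809) (nat_lit 76) (nat_lit 1839409638) (nat_lit 49) (nat_lit 5) (nat_lit 53) (nat_lit 5) (nat_lit 50) (nat_lit 5) (nat_lit 340) (nat_lit 253) (nat_lit 187)) (XT.lf (nat_lit 0) (nat_lit 6905677935)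 (nat_lit 304) (nat_lit 3109104519) (nat_lit 76) (nat_lit 8314187422) (nat_lit 49) (nat_lit 5) (nat_lit 53) (nat_lit 5) (nat_lit 50) (nat_lit 5) (nat_lit 341) (nat_lit 253) (nat_lit 186)))) (XT.nd (nat_lit 156) (nat_lit 228) (nat_lit 0) (XT.nd (nat_lit 78) (nat_lit 228) (nat_lit 0) (XT.lf (nat_lit 0) (nat_lit 8554746968) (nat_lit 152) (nat_lit 3726828881) (nat_lit 228) (nat_lit 6455076902) (nat_lit 47) (nat_lit 5) (nat_lit 49) (nat_lit 5) (nat_lit 50) (nat_lit 5) (nat_lit 342) (nat_lit 253) (nat_lit 185)) (XT.lf (nat_lit 0) (nat_lit 1381086448) (nat_lit 228) (nat_lit 16441694998) (nat_lit 304) (nat_lit 1333720651) (nat_lit 44) (nat_lit 5) (nat_lit 47) (nat_lit 5) (nat_lit 48) (nat_lit 5) (nat_lit 343) (nat_lit 253) (nat_lit 184))) (XT.nd (nat_lit 78) (nat_lit 152) (nat_lit 0) (XT.lf (nat_lit 0) (nat_lit 3940471300) (nat_lit 304) (nat_lit 6281551224) (nat_lit 76) (nat_lit 9365410701) (nat_lit 43)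 (nat_lit 5) (nat_lit 47) (nat_lit 5) (nat_lit 44) (nat_lit 5) (nat_lit 344) (nat_lit 253) (nat_lit 183)) (XT.lf (nat_lit 0) (nat_lit 5549777904) (nat_lit 152) (nat_lit 3798903772) (nat_lit 228) (nat_lit 10682571380) (nat_lit 41) (nat_lit 5) (nat_lit 43) (nat_lit 5) (nat_lit 44) (nat_lit 5) (nat_lit 345) (nat_lit 253) (nat_lit 182))))))) (XT.nd (nat_lit 1014) (nat_lit 304) (nat_lit 0) (XT.nd (nat_lit 468) (nat_lit 760) (nat_lit 0) (XT.nd (nat_lit 234) (nat_lit 152) (nat_lit 0) (XT.nd (nat_lit 78) (nat_lit 456) (nat_lit 0) (XT.lf (nat_lit 0) (nat_lit 14938640971) (nat_lit 228) (nat_lit 2754798557) (nat_lit 76) (nat_lit 2794572795) (nat_lit 41) (nat_lit 5) (nat_lit 44) (nat_lit 5) (nat_lit 42) (nat_lit 5) (nat_lit 346) (nat_lit 253) (nat_lit 181)) (XT.nd (nat_lit 78) (nat_lit 228) (nat_lit 0) (XT.lf (nat_lit 0) (nat_lit 9352268875) (nat_lit 228) (nat_lit 11389734606) (nat_lit 304) (nat_lit 215571260)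 (nat_lit 38) (nat_lit 5) (nat_lit 41) (nat_lit 5) (nat_lit 42) (nat_lit 5) (nat_lit 347) (nat_lit 253) (nat_lit 180)) (XT.lf (nat_lit 0) (nat_lit 321131935) (nat_lit 152) (nat_lit 4868802271) (nat_lit 228) (nat_lit 16250999861) (nat_lit 35) (nat_lit 5) (nat_lit 37) (nat_lit 5) (nat_lit 38) (nat_lit 5) (nat_lit 348) (nat_lit 253) (nat_lit 179)))) (XT.nd (nat_lit 78) (nat_lit 152) (nat_lit 0) (XT.lf (nat_lit 0) (nat_lit 10806440848) (nat_lit 228) (nat_lit 9254567614) (nat_lit 76) (nat_lit 1876735281) (nat_lit 35) (nat_lit 5) (nat_lit 38) (nat_lit 5) (nat_lit 36) (nat_lit 5) (nat_lit 349) (nat_lit 253) (nat_lit 178)) (XT.nd (nat_lit 78) (nat_lit 0) (nat_lit 0) (XT.lf (nat_lit 0) (nat_lit 2906547981) (nat_lit 152) (nat_lit 13698062864) (nat_lit 228) (nat_lit 5844596476) (nat_lit 33) (nat_lit 5) (nat_lit 35) (nat_lit 5) (nat_lit 36) (nat_lit 5) (nat_lit 350) (nat_lit 253) (nat_lit 177)) (XT.lf (nat_lit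 0) (nat_lit 15494603874) (nat_lit 152) (nat_lit 7107266235) (nat_lit 228) (nat_lit 373654408) (nat_lit 33) (nat_lit 5) (nat_lit 35) (nat_lit 5) (nat_lit 36) (nat_lit 5) (nat_lit 351) (nat_lit 253) (nat_lit 176))))) (XT.nd (nat_lit 234) (nat_lit 380) (nat_lit 0) (XT.nd (nat_lit 78) (nat_lit 152) (nat_lit 0) (XT.lf (nat_lit 0) (nat_lit 4909710840) (nat_lit 152) (nat_lit 277850650) (nat_lit 228) (nat_lit 18329495516) (nat_lit 30) (nat_lit 5) (nat_lit 32) (nat_lit 5) (nat_lit 33) (nat_lit 5) (nat_lit 352) (nat_lit 253) (nat_lit 175)) (XT.nd (nat_lit 78) (nat_lit 152) (nat_lit 0) (XT.lf (nat_lit 0) (nat_lit 10969231941) (nat_lit 228) (nat_lit 6408790860) (nat_lit 76) (nat_lit 6695601020) (nat_lit 30) (nat_lit 5) (nat_lit 33) (nat_lit 5) (nat_lit 31) (nat_lit 5) (nat_lit 353) (nat_lit 253) (nat_lit 174)) (XT.lf (nat_lit 0) (nat_lit 6173933597) (nat_lit 152) (nat_lit 10757187050) (nat_lit 228) (nat_lit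 7715642933) (nat_lit 28) (nat_lit 5) (nat_lit 30) (nat_lit 5) (nat_lit 31) (nat_lit 5) (nat_lit 354) (nat_lit 253) (nat_lit 173)))) (XT.nd (nat_lit 156) (nat_lit 152) (nat_lit 0) (XT.nd (nat_lit 78) (nat_lit 228) (nat_lit 0) (XT.lf (nat_lit 0) (nat_lit 19161950740) (nat_lit 152) (nat_lit 3918803547) (nat_lit 228) (nat_lit 2156176449) (nat_lit 28) (nat_lit 5) (nat_lit 30) (nat_lit 5) (nat_lit 31) (nat_lit 5) (nat_lit 355) (nat_lit 253) (nat_lit 172)) (XT.lf (nat_lit 0) (nat_lit 3553560177) (nat_lit 228) (nat_lit 19163841246) (nat_lit 76) (nat_lit 3126342176) (nat_lit 25) (nat_lit 5) (nat_lit 28) (nat_lit 5) (nat_lit 26) (nat_lit 5) (nat_lit 356) (nat_lit 253) (nat_lit 171))) (XT.nd (nat_lit 78) (nat_lit 152) (nat_lit 0) (XT.lf (nat_lit 0) (nat_lit 9439790802) (nat_lit 228) (nat_lit 6666440411) (nat_lit 76) (nat_lit 10361564811) (nat_lit 25) (nat_lit 5) (nat_lit 28) (nat_lit 5) (nat_lit 26) (nat_lit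 5) (nat_lit 357) (nat_lit 253) (nat_lit 170)) (XT.lf (nat_lit 0) (nat_lit 6231108795) (nat_lit 152) (nat_lit 9279609942) (nat_lit 228) (nat_lit 11599698920) (nat_lit 23) (nat_lit 5) (nat_lit 25) (nat_lit 5) (nat_lit 26) (nat_lit 5) (nat_lit 358) (nat_lit 253) (nat_lit 169)))))) (XT.nd (nat_lit 34086) (nat_lit 0) (nat_lit 33440) (XT.nd (nat_lit 234) (nat_lit 152) (nat_lit 0) (XT.nd (nat_lit 78) (nat_lit 152) (nat_lit 0) (XT.lf (nat_lit 0) (nat_lit 19551256580) (nat_lit 152) (nat_lit 2225926999) (nat_lit 228) (nat_lit 5994875735) (nat_lit 23) (nat_lit 5) (nat_lit 25) (nat_lit 5) (nat_lit 26) (nat_lit 5) (nat_lit 359) (nat_lit 253) (nat_lit 168)) (XT.nd (nat_lit 78) (nat_lit 76) (nat_lit 0) (XT.lf (nat_lit 0) (nat_lit 4793166574) (nat_lit 76) (nat_lit 23471325356) (nat_lit 152) (nat_lit 188410578) (nat_lit 22) (nat_lit 5) (nat_lit 23) (nat_lit 5) (nat_lit 24) (nat_lit 4) (nat_lit 360) (nat_lit 253)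 (nat_lit 167)) (XT.lf (nat_lit 0) (nat_lit 5756598289) (nat_lit 152) (nat_lit 10949805315) (nat_lit 76) (nat_lit 12446217762) (nat_lit 21) (nat_lit 5) (nat_lit 23) (nat_lit 5) (nat_lit 22) (nat_lit 5) (nat_lit 361) (nat_lit 253) (nat_lit 166)))) (XT.nd (nat_lit 33696) (nat_lit 0) (nat_lit 41268) (XT.nd (nat_lit 33618) (nat_lit 0) (nat_lit 42104) (XT.lf (nat_lit 0) (nat_lit 2115511208) (nat_lit 152) (nat_lit 9745883633) (nat_lit 228) (nat_lit 18012240671) (nat_lit 19) (nat_lit 5) (nat_lit 21) (nat_lit 5) (nat_lit 22) (nat_lit 5) (nat_lit 362) (nat_lit 253) (nat_lit 165)) (XT.lf (nat_lit 0) (nat_lit 906008420) (nat_lit 684) (nat_lit 1198089699) (nat_lit 684) (nat_lit 1198089699) (nat_lit 573) (nat_lit 4) (nat_lit 582) (nat_lit 5) (nat_lit 582) (nat_lit 4) (nat_lit 272) (nat_lit 254) (nat_lit 254))) (XT.nd (nat_lit 78) (nat_lit 0) (nat_lit 0) (XT.lf (nat_lit 0) (nat_lit 882684893) (nat_lit 760) (nat_lit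 1207343884) (nat_lit 836) (nat_lit 4543231407) (nat_lit 562) (nat_lit 5) (nat_lit 572) (nat_lit 5) (nat_lit 573) (nat_lit 4) (nat_lit 273) (nat_lit 254) (nat_lit 253)) (XT.lf (nat_lit 0) (nat_lit 6557864876) (nat_lit 836) (nat_lit 1645274) (nat_lit 0) (nat_lit 105816834) (nat_lit 562) (nat_lit 5) (nat_lit 573) (nat_lit 4) (nat_lit 562) (nat_lit 4) (nat_lit 274) (nat_lit 254) (nat_lit 252))))) (XT.nd (nat_lit 234) (nat_lit 4940) (nat_lit 0) (XT.nd (nat_lit 78) (nat_lit 1976) (nat_lit 0) (XT.lf (nat_lit 0) (nat_lit 4299273250) (nat_lit 912) (nat_lit 853291599) (nat_lit 76) (nat_lit 1547497129) (nat_lit 550) (nat_lit 5) (nat_lit 562) (nat_lit 5) (nat_lit 551) (nat_lit 4) (nat_lit 275) (nat_lit 254) (nat_lit 251)) (XT.nd (nat_lit 78) (nat_lit 988) (nat_lit 0) (XT.lf (nat_lit 0) (nat_lit 1958987684) (nat_lit 988) (nat_lit 1663799791) (nat_lit 76) (nat_lit 3115255533) (nat_lit 537) (nat_lit 5) (nat_lit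 550) (nat_lit 5) (nat_lit 538) (nat_lit 5) (nat_lit 276) (nat_lit 254) (nat_lit 250)) (XT.lf (nat_lit 0) (nat_lit 4341372418) (nat_lit 988) (nat_lit 1965679067) (nat_lit 1064) (nat_lit 472189772) (nat_lit 524) (nat_lit 5) (nat_lit 537) (nat_lit 5) (nat_lit 538) (nat_lit 5) (nat_lit 277) (nat_lit 254) (nat_lit 249)))) (XT.nd (nat_lit 156) (nat_lit 2584) (nat_lit 0) (XT.nd (nat_lit 78) (nat_lit 1216) (nat_lit 0) (XT.lf (nat_lit 0) (nat_lit 3635964770) (nat_lit 1064) (nat_lit 169154019) (nat_lit 1140) (nat_lit 3018365353) (nat_lit 509) (nat_lit 5) (nat_lit 523) (nat_lit 5) (nat_lit 524) (nat_lit 5) (nat_lit 278) (nat_lit 254) (nat_lit 248)) (XT.lf (nat_lit 0) (nat_lit 1225720138) (nat_lit 1216) (nat_lit 3912892372) (nat_lit 76) (nat_lit 1732226949) (nat_lit 493) (nat_lit 5) (nat_lit 509) (nat_lit 5) (nat_lit 494) (nat_lit 5) (nat_lit 279) (nat_lit 254) (nat_lit 247))) (XT.nd (nat_lit 78) (nat_lit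 1368) (nat_lit 0) (XT.lf (nat_lit 0) (nat_lit 2305688418) (nat_lit 1216) (nat_lit 3152568659) (nat_lit 1292) (nat_lit 1463090232) (nat_lit 477) (nat_lit 5) (nat_lit 493) (nat_lit 5) (nat_lit 494) (nat_lit 5) (nat_lit 280) (nat_lit 254) (nat_lit 246)) (XT.lf (nat_lit 0) (nat_lit 1679541890) (nat_lit 1292) (nat_lit 1031384830) (nat_lit 1368) (nat_lit 4264162955) (nat_lit 459) (nat_lit 5) (nat_lit 476) (nat_lit 5) (nat_lit 477) (nat_lit 5) (nat_lit 281) (nat_lit 254) (nat_lit 245))))))))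
noncomputable def xc40 : XT := (XT.nd (nat_lit 2028) (nat_lit 8132) (nat_lit 0) (XT.nd (nat_lit 1014) (nat_lit 7676) (nat_lit 0) (XT.nd (nat_lit 468) (nat_lit 6232) (nat_lit 0) (XT.nd (nat_lit 234) (nat_lit 4864) (nat_lit 0) (XT.nd (nat_lit 78) (nat_lit 1596) (nat_lit 0) (XT.lf (nat_lit 0) (nat_lit 1077206681) (nat_lit 1368) (nat_lit 5828666703) (nat_lit 1444) (nat_lit 126226229) (nat_lit 441) (nat_lit 5) (nat_lit 459) (nat_lit 5) (nat_lit 460) (nat_lit 5) (nat_lit 282) (nat_lit 254) (nat_lit 244)) (XT.nd (nat_lit 78) (nat_lit 76) (nat_lit 0) (XT.lf (nat_lit 0) (nat_lit 479456799) (nat_lit 1444) (nat_lit 3519847687) (nat_lit 1520) (nat_lit 3092777073) (nat_lit 421) (nat_lit 5) (nat_lit 440) (nat_lit 5) (nat_lit 441) (nat_lit 5) (nat_lit 283) (nat_lit 254) (nat_lit 243)) (XT.lf (nat_lit 0) (nat_lit 992914738) (nat_lit 1520) (nat_lit 89218943) (nat_lit 76) (nat_lit 6073431830) (nat_lit 420) (nat_lit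 5) (nat_lit 440) (nat_lit 5) (nat_lit 421) (nat_lit 5) (nat_lit 284) (nat_lit 254) (nat_lit 242)))) (XT.nd (nat_lit 78) (nat_lit 3344) (nat_lit 0) (XT.lf (nat_lit 0) (nat_lit 5089165128) (nat_lit 1596) (nat_lit 649424029) (nat_lit 76) (nat_lit 1483496968) (nat_lit 400) (nat_lit 5) (nat_lit 421) (nat_lit 5) (nat_lit 401) (nat_lit 5) (nat_lit 285) (nat_lit 254) (nat_lit 241)) (XT.nd (nat_lit 78) (nat_lit 1672) (nat_lit 0) (XT.lf (nat_lit 0) (nat_lit 1918280375) (nat_lit 1672) (nat_lit 1200640436) (nat_lit 76) (nat_lit 4173013041) (nat_lit 378) (nat_lit 5) (nat_lit 400) (nat_lit 5) (nat_lit 379) (nat_lit 5) (nat_lit 286) (nat_lit 254) (nat_lit 240)) (XT.lf (nat_lit 0) (nat_lit 5625281710) (nat_lit 1672) (nat_lit 359912400) (nat_lit 1748) (nat_lit 1380068269) (nat_lit 356) (nat_lit 5) (nat_lit 378) (nat_lit 5) (nat_lit 379) (nat_lit 5) (nat_lit 287) (nat_lit 254) (nat_lit 239))))) (XT.nd (nat_lit 234)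 (nat_lit 3268) (nat_lit 0) (XT.nd (nat_lit 78) (nat_lit 1748) (nat_lit 0) (XT.lf (nat_lit 0) (nat_lit 2639607666) (nat_lit 1216) (nat_lit 2290161983) (nat_lit 76) (nat_lit 2511947704) (nat_lit 340) (nat_lit 5) (nat_lit 356) (nat_lit 5) (nat_lit 341) (nat_lit 5) (nat_lit 288) (nat_lit 254) (nat_lit 238)) (XT.nd (nat_lit 78) (nat_lit 912) (nat_lit 0) (XT.lf (nat_lit 0) (nat_lit 4689287028) (nat_lit 836) (nat_lit 2003195717) (nat_lit 912) (nat_lit 829294147) (nat_lit 329) (nat_lit 5) (nat_lit 340) (nat_lit 5) (nat_lit 341) (nat_lit 5) (nat_lit 289) (nat_lit 254) (nat_lit 237)) (XT.lf (nat_lit 0) (nat_lit 3158210163) (nat_lit 912) (nat_lit 3386278531) (nat_lit 76) (nat_lit 1060674671) (nat_lit 317) (nat_lit 5) (nat_lit 329) (nat_lit 5) (nat_lit 318) (nat_lit 5) (nat_lit 290) (nat_lit 254) (nat_lit 236)))) (XT.nd (nat_lit 156) (nat_lit 1596) (nat_lit 0) (XT.nd (nat_lit 78) (nat_lit 912) (nat_lit 0)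 (XT.lf (nat_lit 0) (nat_lit 3745853073) (nat_lit 760) (nat_lit 3456090743) (nat_lit 836) (nat_lit 490151945) (nat_lit 307) (nat_lit 5) (nat_lit 317) (nat_lit 5) (nat_lit 318) (nat_lit 5) (nat_lit 291) (nat_lit 254) (nat_lit 235)) (XT.lf (nat_lit 0) (nat_lit 3262689048) (nat_lit 836) (nat_lit 212331573) (nat_lit 912) (nat_lit 4307522163) (nat_lit 295) (nat_lit 5) (nat_lit 306) (nat_lit 5) (nat_lit 307) (nat_lit 5) (nat_lit 292) (nat_lit 254) (nat_lit 234))) (XT.nd (nat_lit 78) (nat_lit 836) (nat_lit 0) (XT.lf (nat_lit 0) (nat_lit 2765122261) (nat_lit 760) (nat_lit 4747360595) (nat_lit 836) (nat_lit 364058621) (nat_lit 285) (nat_lit 5) (nat_lit 295) (nat_lit 5) (nat_lit 296) (nat_lit 5) (nat_lit 293) (nat_lit 254) (nat_lit 233)) (XT.lf (nat_lit 0) (nat_lit 2247883516) (nat_lit 760) (nat_lit 1344501546) (nat_lit 836) (nat_lit 4381729437) (nat_lit 274) (nat_lit 5) (nat_lit 284) (nat_lit 5) (nat_lit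 285) (nat_lit 5) (nat_lit 294) (nat_lit 254) (nat_lit 232)))))) (XT.nd (nat_lit 468) (nat_lit 4104) (nat_lit 0) (XT.nd (nat_lit 234) (nat_lit 1444) (nat_lit 0) (XT.nd (nat_lit 78) (nat_lit 1444) (nat_lit 0) (XT.lf (nat_lit 0) (nat_lit 1715877464) (nat_lit 684) (nat_lit 5905312030) (nat_lit 760) (nat_lit 454299937) (nat_lit 265) (nat_lit 5) (nat_lit 274) (nat_lit 5) (nat_lit 275) (nat_lit 5) (nat_lit 295) (nat_lit 254) (nat_lit 231)) (XT.nd (nat_lit 78) (nat_lit 684) (nat_lit 0) (XT.lf (nat_lit 0) (nat_lit 1149498678) (nat_lit 684) (nat_lit 2349902611) (nat_lit 760) (nat_lit 4681017670) (nat_lit 255) (nat_lit 5) (nat_lit 264) (nat_lit 5) (nat_lit 265) (nat_lit 5) (nat_lit 296) (nat_lit 254) (nat_lit 230)) (XT.lf (nat_lit 0) (nat_lit 565242836) (nat_lit 684) (nat_lit 6958030290) (nat_lit 760) (nat_lit 766096455) (nat_lit 246) (nat_lit 5) (nat_lit 255) (nat_lit 5) (nat_lit 256) (nat_lit 5) (nat_lit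 297) (nat_lit 254) (nat_lit 229)))) (XT.nd (nat_lit 78) (nat_lit 1368) (nat_lit 0) (XT.lf (nat_lit 0) (nat_lit 3190642332) (nat_lit 760) (nat_lit 65491005) (nat_lit 76) (nat_lit 5145770764) (nat_lit 245) (nat_lit 5) (nat_lit 255) (nat_lit 5) (nat_lit 246) (nat_lit 5) (nat_lit 298) (nat_lit 254) (nat_lit 228)) (XT.nd (nat_lit 78) (nat_lit 684) (nat_lit 0) (XT.lf (nat_lit 0) (nat_lit 7216667545) (nat_lit 760) (nat_lit 712170907) (nat_lit 76) (nat_lit 589736310) (nat_lit 236) (nat_lit 5) (nat_lit 246) (nat_lit 5) (nat_lit 237) (nat_lit 5) (nat_lit 299) (nat_lit 254) (nat_lit 227)) (XT.lf (nat_lit 0) (nat_lit 2666256773) (nat_lit 684) (nat_lit 1416901840) (nat_lit 76) (nat_lit 4555765150) (nat_lit 227) (nat_lit 5) (nat_lit 236) (nat_lit 5) (nat_lit 228) (nat_lit 5) (nat_lit 300) (nat_lit 254) (nat_lit 226))))) (XT.nd (nat_lit 234) (nat_lit 2280) (nat_lit 0) (XT.nd (nat_lit 78) (nat_lit 1216) (nat_lit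 0) (XT.lf (nat_lit 0) (nat_lit 6609781830) (nat_lit 608) (nat_lit 83432641) (nat_lit 684) (nat_lit 2070422988) (nat_lit 219) (nat_lit 5) (nat_lit 227) (nat_lit 5) (nat_lit 228) (nat_lit 5) (nat_lit 301) (nat_lit 254) (nat_lit 225)) (XT.nd (nat_lit 78) (nat_lit 608) (nat_lit 0) (XT.lf (nat_lit 0) (nat_lit 1909021301) (nat_lit 608) (nat_lit 2957833873) (nat_lit 76) (nat_lit 4025341914) (nat_lit 211) (nat_lit 5) (nat_lit 219) (nat_lit 5) (nat_lit 212) (nat_lit 5) (nat_lit 302) (nat_lit 254) (nat_lit 224)) (XT.lf (nat_lit 0) (nat_lit 5215519255) (nat_lit 608) (nat_lit 726086685) (nat_lit 684) (nat_lit 3083565508) (nat_lit 203) (nat_lit 5) (nat_lit 211) (nat_lit 5) (nat_lit 212) (nat_lit 5) (nat_lit 303) (nat_lit 254) (nat_lit 223)))) (XT.nd (nat_lit 156) (nat_lit 1140) (nat_lit 0) (XT.nd (nat_lit 78) (nat_lit 532) (nat_lit 0) (XT.lf (nat_lit 0) (nat_lit 906938952) (nat_lit 608) (nat_lit 4729150618)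 (nat_lit 76) (nat_lit 3526267487) (nat_lit 195) (nat_lit 5) (nat_lit 203) (nat_lit 5) (nat_lit 196) (nat_lit 5) (nat_lit 304) (nat_lit 254) (nat_lit 222)) (XT.lf (nat_lit 0) (nat_lit 3585664440) (nat_lit 532) (nat_lit 1359467614) (nat_lit 608) (nat_lit 4358785296) (nat_lit 188) (nat_lit 5) (nat_lit 195) (nat_lit 5) (nat_lit 196) (nat_lit 5) (nat_lit 305) (nat_lit 254) (nat_lit 221))) (XT.nd (nat_lit 78) (nat_lit 608) (nat_lit 0) (XT.lf (nat_lit 0) (nat_lit 2672761565) (nat_lit 532) (nat_lit 6418217529) (nat_lit 608) (nat_lit 359077436) (nat_lit 181) (nat_lit 5) (nat_lit 188) (nat_lit 5) (nat_lit 189) (nat_lit 5) (nat_lit 306) (nat_lit 254) (nat_lit 220)) (XT.lf (nat_lit 0) (nat_lit 1674900057) (nat_lit 532) (nat_lit 2013622608) (nat_lit 608) (nat_lit 5912083687) (nat_lit 173) (nat_lit 5) (nat_lit 180) (nat_lit 5) (nat_lit 181) (nat_lit 5) (nat_lit 307) (nat_lit 254) (nat_lit 219))))))) (XT.nd (nat_lit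 1014) (nat_lit 3268) (nat_lit 0) (XT.nd (nat_lit 468) (nat_lit 2508) (nat_lit 0) (XT.nd (nat_lit 234) (nat_lit 1368) (nat_lit 0) (XT.nd (nat_lit 78) (nat_lit 532) (nat_lit 0) (XT.lf (nat_lit 0) (nat_lit 600434348) (nat_lit 456) (nat_lit 7238556523) (nat_lit 532) (nat_lit 1916965474) (nat_lit 167) (nat_lit 5) (nat_lit 173) (nat_lit 5) (nat_lit 174) (nat_lit 5) (nat_lit 308) (nat_lit 254) (nat_lit 218)) (XT.nd (nat_lit 78) (nat_lit 456) (nat_lit 0) (XT.lf (nat_lit 0) (nat_lit 2157566605) (nat_lit 532) (nat_lit 558536568) (nat_lit 76) (nat_lit 7199865242) (nat_lit 166) (nat_lit 5) (nat_lit 173) (nat_lit 5) (nat_lit 167) (nat_lit 5) (nat_lit 309) (nat_lit 254) (nat_lit 217)) (XT.lf (nat_lit 0) (nat_lit 6318298713) (nat_lit 532) (nat_lit 1804966303) (nat_lit 76) (nat_lit 1957515396) (nat_lit 160) (nat_lit 5) (nat_lit 167) (nat_lit 5) (nat_lit 161) (nat_lit 5) (nat_lit 310) (nat_lit 254) (nat_lit 216))))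 (XT.nd (nat_lit 78) (nat_lit 836) (nat_lit 0) (XT.lf (nat_lit 0) (nat_lit 341253458) (nat_lit 532) (nat_lit 3148623911) (nat_lit 76) (nat_lit 6760812688) (nat_lit 153) (nat_lit 5) (nat_lit 160) (nat_lit 5) (nat_lit 154) (nat_lit 5) (nat_lit 311) (nat_lit 254) (nat_lit 215)) (XT.nd (nat_lit 78) (nat_lit 380) (nat_lit 0) (XT.lf (nat_lit 0) (nat_lit 4501617271) (nat_lit 532) (nat_lit 4610040857) (nat_lit 76) (nat_lit 1313897902) (nat_lit 147) (nat_lit 5) (nat_lit 154) (nat_lit 5) (nat_lit 148) (nat_lit 5) (nat_lit 312) (nat_lit 254) (nat_lit 214)) (XT.lf (nat_lit 0) (nat_lit 4418869570) (nat_lit 380) (nat_lit 4368332882) (nat_lit 456) (nat_lit 1818505008) (nat_lit 142) (nat_lit 5) (nat_lit 147) (nat_lit 5) (nat_lit 148) (nat_lit 5) (nat_lit 313) (nat_lit 254) (nat_lit 213))))) (XT.nd (nat_lit 234) (nat_lit 1596) (nat_lit 0) (XT.nd (nat_lit 78) (nat_lit 380) (nat_lit 0) (XT.lf (nat_lit 0) (nat_lit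 2360303480) (nat_lit 532) (nat_lit 7882977985) (nat_lit 76) (nat_lit 548077992) (nat_lit 135) (nat_lit 5) (nat_lit 142) (nat_lit 5) (nat_lit 136) (nat_lit 5) (nat_lit 314) (nat_lit 254) (nat_lit 212)) (XT.nd (nat_lit 78) (nat_lit 0) (nat_lit 0) (XT.lf (nat_lit 0) (nat_lit 1253171285) (nat_lit 380) (nat_lit 5395416991) (nat_lit 456) (nat_lit 4333620030) (nat_lit 130) (nat_lit 5) (nat_lit 135) (nat_lit 5) (nat_lit 136) (nat_lit 5) (nat_lit 315) (nat_lit 254) (nat_lit 211)) (XT.lf (nat_lit 0) (nat_lit 10671933502) (nat_lit 380) (nat_lit 377551298) (nat_lit 456) (nat_lit 129661343) (nat_lit 130) (nat_lit 5) (nat_lit 135) (nat_lit 5) (nat_lit 136) (nat_lit 5) (nat_lit 316) (nat_lit 254) (nat_lit 210)))) (XT.nd (nat_lit 156) (nat_lit 760) (nat_lit 0) (XT.nd (nat_lit 78) (nat_lit 380) (nat_lit 0) (XT.lf (nat_lit 0) (nat_lit 4167221340) (nat_lit 456) (nat_lit 2428757115) (nat_lit 76) (nat_lit 4785071057)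 (nat_lit 124) (nat_lit 5) (nat_lit 130) (nat_lit 5) (nat_lit 125) (nat_lit 5) (nat_lit 317) (nat_lit 254) (nat_lit 209)) (XT.lf (nat_lit 0) (nat_lit 7106346447) (nat_lit 380) (nat_lit 1470283127) (nat_lit 456) (nat_lit 3012695192) (nat_lit 119) (nat_lit 5) (nat_lit 124) (nat_lit 5) (nat_lit 125) (nat_lit 5) (nat_lit 318) (nat_lit 254) (nat_lit 208))) (XT.nd (nat_lit 78) (nat_lit 304) (nat_lit 0) (XT.lf (nat_lit 0) (nat_lit 1306058089) (nat_lit 456) (nat_lit 6709593564) (nat_lit 76) (nat_lit 3787887056) (nat_lit 113) (nat_lit 5) (nat_lit 119) (nat_lit 5) (nat_lit 114) (nat_lit 5) (nat_lit 319) (nat_lit 254) (nat_lit 207)) (XT.lf (nat_lit 0) (nat_lit 2907994270) (nat_lit 304) (nat_lit 2800182632) (nat_lit 380) (nat_lit 6315745753) (nat_lit 109) (nat_lit 5) (nat_lit 113) (nat_lit 5) (nat_lit 114) (nat_lit 5) (nat_lit 320) (nat_lit 254) (nat_lit 206)))))) (XT.nd (nat_lit 546) (nat_lit 1520) (nat_lit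 0) (XT.nd (nat_lit 234) (nat_lit 988) (nat_lit 0) (XT.nd (nat_lit 78) (nat_lit 380) (nat_lit 0) (XT.lf (nat_lit 0) (nat_lit 550685283) (nat_lit 380) (nat_lit 9693996403) (nat_lit 456) (nat_lit 2006225458) (nat_lit 104) (nat_lit 5) (nat_lit 109) (nat_lit 5) (nat_lit 110) (nat_lit 5) (nat_lit 321) (nat_lit 254) (nat_lit 205)) (XT.nd (nat_lit 78) (nat_lit 304) (nat_lit 0) (XT.lf (nat_lit 0) (nat_lit 2418664612) (nat_lit 456) (nat_lit 1981119397) (nat_lit 76) (nat_lit 8084275288) (nat_lit 103) (nat_lit 5) (nat_lit 109) (nat_lit 5) (nat_lit 104) (nat_lit 5) (nat_lit 322) (nat_lit 254) (nat_lit 204)) (XT.lf (nat_lit 0) (nat_lit 6947316748) (nat_lit 380) (nat_lit 4701815390) (nat_lit 76) (nat_lit 1074875993) (nat_lit 99) (nat_lit 5) (nat_lit 104) (nat_lit 5) (nat_lit 100) (nat_lit 5) (nat_lit 323) (nat_lit 254) (nat_lit 203)))) (XT.nd (nat_lit 156) (nat_lit 304) (nat_lit 0) (XT.nd (nat_lit 78) (nat_lit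 380) (nat_lit 0) (XT.lf (nat_lit 0) (nat_lit 5330657027) (nat_lit 304) (nat_lit 6298623757) (nat_lit 380) (nat_lit 1341557427) (nat_lit 95) (nat_lit 5) (nat_lit 99) (nat_lit 5) (nat_lit 100) (nat_lit 5) (nat_lit 324) (nat_lit 254) (nat_lit 202)) (XT.lf (nat_lit 0) (nat_lit 2423742484) (nat_lit 304) (nat_lit 749028662) (nat_lit 380) (nat_lit 10052144183) (nat_lit 90) (nat_lit 5) (nat_lit 94) (nat_lit 5) (nat_lit 95) (nat_lit 5) (nat_lit 325) (nat_lit 254) (nat_lit 201))) (XT.nd (nat_lit 78) (nat_lit 304) (nat_lit 0) (XT.lf (nat_lit 0) (nat_lit 7830366596) (nat_lit 380) (nat_lit 723406776) (nat_lit 76) (nat_lit 4932172177) (nat_lit 90) (nat_lit 5) (nat_lit 95) (nat_lit 5) (nat_lit 91) (nat_lit 5) (nat_lit 326) (nat_lit 254) (nat_lit 200)) (XT.lf (nat_lit 0) (nat_lit 9690988590) (nat_lit 304) (nat_lit 2947926919) (nat_lit 380) (nat_lit 1115695209) (nat_lit 86) (nat_lit 5) (nat_lit 90) (nat_lit 5)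 (nat_lit 91) (nat_lit 5) (nat_lit 327) (nat_lit 254) (nat_lit 199))))) (XT.nd (nat_lit 234) (nat_lit 912) (nat_lit 0) (XT.nd (nat_lit 78) (nat_lit 304) (nat_lit 0) (XT.lf (nat_lit 0) (nat_lit 3522578703) (nat_lit 304) (nat_lit 7679970828) (nat_lit 76) (nat_lit 2828173389) (nat_lit 82) (nat_lit 5) (nat_lit 86) (nat_lit 5) (nat_lit 83) (nat_lit 5) (nat_lit 328) (nat_lit 254) (nat_lit 198)) (XT.nd (nat_lit 78) (nat_lit 0) (nat_lit 0) (XT.lf (nat_lit 0) (nat_lit 2740546241) (nat_lit 304) (nat_lit 5554475483) (nat_lit 380) (nat_lit 6019772081) (nat_lit 78) (nat_lit 5) (nat_lit 82) (nat_lit 5) (nat_lit 83) (nat_lit 5) (nat_lit 329) (nat_lit 254) (nat_lit 197)) (XT.lf (nat_lit 0) (nat_lit 13210448573) (nat_lit 380) (nat_lit 1115746259) (nat_lit 76) (nat_lit 281221391) (nat_lit 78) (nat_lit 5) (nat_lit 83) (nat_lit 5) (nat_lit 79) (nat_lit 5) (nat_lit 330) (nat_lit 254) (nat_lit 196)))) (XT.nd (nat_lit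 156) (nat_lit 304) (nat_lit 0) (XT.nd (nat_lit 78) (nat_lit 304) (nat_lit 0) (XT.lf (nat_lit 0) (nat_lit 3367859988) (nat_lit 304) (nat_lit 5267608045) (nat_lit 76) (nat_lit 6271987467) (nat_lit 74) (nat_lit 5) (nat_lit 78) (nat_lit 5) (nat_lit 75) (nat_lit 5) (nat_lit 331) (nat_lit 254) (nat_lit 195)) (XT.lf (nat_lit 0) (nat_lit 5496734545) (nat_lit 304) (nat_lit 2751257736) (nat_lit 380) (nat_lit 6968515888) (nat_lit 70) (nat_lit 5) (nat_lit 74) (nat_lit 5) (nat_lit 75) (nat_lit 5) (nat_lit 332) (nat_lit 254) (nat_lit 194))) (XT.nd (nat_lit 78) (nat_lit 76) (nat_lit 0) (XT.lf (nat_lit 0) (nat_lit 1031294440) (nat_lit 228) (nat_lit 12256068335) (nat_lit 304) (nat_lit 2247235944) (nat_lit 67) (nat_lit 5) (nat_lit 70) (nat_lit 5) (nat_lit 71) (nat_lit 5) (nat_lit 333) (nat_lit 254) (nat_lit 193)) (XT.lf (nat_lit 0) (nat_lit 2615407680) (nat_lit 304) (nat_lit 3740649137) (nat_lit 76) (nat_lit 9505176781)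 (nat_lit 66) (nat_lit 5) (nat_lit 70) (nat_lit 5) (nat_lit 67) (nat_lit 5) (nat_lit 334) (nat_lit 254) (nat_lit 192))))))))
noncomputable def xc41 : XT := (XT.nd (nat_lit 2028) (nat_lit 152) (nat_lit 0) (XT.nd (nat_lit 1014) (nat_lit 1140) (nat_lit 0) (XT.nd (nat_lit 468) (nat_lit 1140) (nat_lit 0) (XT.nd (nat_lit 234) (nat_lit 456) (nat_lit 0) (XT.nd (nat_lit 78) (nat_lit 304) (nat_lit 0) (XT.lf (nat_lit 0) (nat_lit 7346738404) (nat_lit 228) (nat_lit 245341916) (nat_lit 304) (nat_lit 8605337747) (nat_lit 63) (nat_lit 5) (nat_lit 66) (nat_lit 5) (nat_lit 67) (nat_lit 5) (nat_lit 335) (nat_lit 254) (nat_lit 191)) (XT.nd (nat_lit 78) (nat_lit 76) (nat_lit 0) (XT.lf (nat_lit 0) (nat_lit 2185010677) (nat_lit 228) (nat_lit 10563554680) (nat_lit 304) (nat_lit 3794533090) (nat_lit 60) (nat_lit 5) (nat_lit 63) (nat_lit 5) (nat_lit 64) (nat_lit 5) (nat_lit 336) (nat_lit 254) (nat_lit 190)) (XT.lf (nat_lit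 0) (nat_lit 1159497421) (nat_lit 304) (nat_lit 3312951727) (nat_lit 76) (nat_lit 12426286550) (nat_lit 59) (nat_lit 5) (nat_lit 63) (nat_lit 5) (nat_lit 60) (nat_lit 5) (nat_lit 337) (nat_lit 254) (nat_lit 189)))) (XT.nd (nat_lit 78) (nat_lit 228) (nat_lit 0) (XT.lf (nat_lit 0) (nat_lit 6228795938) (nat_lit 304) (nat_lit 9208547832) (nat_lit 76) (nat_lit 1826851719) (nat_lit 56) (nat_lit 5) (nat_lit 60) (nat_lit 5) (nat_lit 57) (nat_lit 5) (nat_lit 338) (nat_lit 254) (nat_lit 188)) (XT.nd (nat_lit 78) (nat_lit 0) (nat_lit 0) (XT.lf (nat_lit 0) (nat_lit 2092290779) (nat_lit 228) (nat_lit 9378158505) (nat_lit 304) (nat_lit 6169782775) (nat_lit 53) (nat_lit 5) (nat_lit 56) (nat_lit 5) (nat_lit 57) (nat_lit 5) (nat_lit 339) (nat_lit 254) (nat_lit 187)) (XT.lf (nat_lit 0) (nat_lit 13783853509) (nat_lit 228) (nat_lit 3102934285) (nat_lit 304) (nat_lit 1140431185) (nat_lit 53) (nat_lit 5) (nat_lit 56)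 (nat_lit 5) (nat_lit 57) (nat_lit 5) (nat_lit 340) (nat_lit 254) (nat_lit 186))))) (XT.nd (nat_lit 234) (nat_lit 684) (nat_lit 0) (XT.nd (nat_lit 78) (nat_lit 152) (nat_lit 0) (XT.lf (nat_lit 0) (nat_lit 4013015759) (nat_lit 304) (nat_lit 11048985597) (nat_lit 76) (nat_lit 3362782717) (nat_lit 49) (nat_lit 5) (nat_lit 53) (nat_lit 5) (nat_lit 50) (nat_lit 5) (nat_lit 341) (nat_lit 254) (nat_lit 185)) (XT.nd (nat_lit 78) (nat_lit 0) (nat_lit 0) (XT.lf (nat_lit 0) (nat_lit 473260569) (nat_lit 152) (nat_lit 8841837715) (nat_lit 228) (nat_lit 9518853148) (nat_lit 47) (nat_lit 5) (nat_lit 49) (nat_lit 5) (nat_lit 50) (nat_lit 5) (nat_lit 342) (nat_lit 254) (nat_lit 184)) (XT.lf (nat_lit 0) (nat_lit 12421288540) (nat_lit 152) (nat_lit 2387296026) (nat_lit 228) (nat_lit 4446178538) (nat_lit 47) (nat_lit 5) (nat_lit 49) (nat_lit 5) (nat_lit 50) (nat_lit 5) (nat_lit 343) (nat_lit 254) (nat_lit 183)))) (XT.nd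 (nat_lit 156) (nat_lit 380) (nat_lit 0) (XT.nd (nat_lit 78) (nat_lit 0) (nat_lit 0) (XT.lf (nat_lit 0) (nat_lit 787279432) (nat_lit 304) (nat_lit 14685162834) (nat_lit 76) (nat_lit 4215294774) (nat_lit 43) (nat_lit 5) (nat_lit 47) (nat_lit 5) (nat_lit 44) (nat_lit 5) (nat_lit 344) (nat_lit 254) (nat_lit 182)) (XT.lf (nat_lit 0) (nat_lit 6139263068) (nat_lit 304) (nat_lit 2960681155) (nat_lit 76) (nat_lit 11032744520) (nat_lit 43) (nat_lit 5) (nat_lit 47) (nat_lit 5) (nat_lit 44) (nat_lit 5) (nat_lit 345) (nat_lit 254) (nat_lit 181))) (XT.nd (nat_lit 78) (nat_lit 228) (nat_lit 0) (XT.lf (nat_lit 0) (nat_lit 9168653354) (nat_lit 152) (nat_lit 2502882207) (nat_lit 228) (nat_lit 8919073309) (nat_lit 41) (nat_lit 5) (nat_lit 43) (nat_lit 5) (nat_lit 44) (nat_lit 5) (nat_lit 346) (nat_lit 254) (nat_lit 180)) (XT.lf (nat_lit 0) (nat_lit 553121784) (nat_lit 228) (nat_lit 16829063839) (nat_lit 304) (nat_lit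 3679846828) (nat_lit 38) (nat_lit 5) (nat_lit 41) (nat_lit 5) (nat_lit 42) (nat_lit 5) (nat_lit 347) (nat_lit 254) (nat_lit 179)))))) (XT.nd (nat_lit 468) (nat_lit 532) (nat_lit 0) (XT.nd (nat_lit 234) (nat_lit 380) (nat_lit 0) (XT.nd (nat_lit 78) (nat_lit 152) (nat_lit 0) (XT.lf (nat_lit 0) (nat_lit 1749897068) (nat_lit 304) (nat_lit 8596758100) (nat_lit 76) (nat_lit 11199616964) (nat_lit 37) (nat_lit 5) (nat_lit 41) (nat_lit 5) (nat_lit 38) (nat_lit 5) (nat_lit 348) (nat_lit 254) (nat_lit 178)) (XT.nd (nat_lit 78) (nat_lit 0) (nat_lit 0) (XT.lf (nat_lit 0) (nat_lit 3631596022) (nat_lit 152) (nat_lit 3647140587) (nat_lit 228) (nat_lit 14766104933) (nat_lit 35) (nat_lit 5) (nat_lit 37) (nat_lit 5) (nat_lit 38) (nat_lit 5) (nat_lit 349) (nat_lit 254) (nat_lit 177)) (XT.lf (nat_lit 0) (nat_lit 13016055976) (nat_lit 228) (nat_lit 6297961445) (nat_lit 76) (nat_lit 3243510915) (nat_lit 35) (nat_lit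 5) (nat_lit 38) (nat_lit 5) (nat_lit 36) (nat_lit 5) (nat_lit 350) (nat_lit 254) (nat_lit 176)))) (XT.nd (nat_lit 78) (nat_lit 228) (nat_lit 0) (XT.lf (nat_lit 0) (nat_lit 6175515865) (nat_lit 152) (nat_lit 12778398177) (nat_lit 228) (nat_lit 4131125538) (nat_lit 33) (nat_lit 5) (nat_lit 35) (nat_lit 5) (nat_lit 36) (nat_lit 5) (nat_lit 351) (nat_lit 254) (nat_lit 175)) (XT.nd (nat_lit 78) (nat_lit 152) (nat_lit 0) (XT.lf (nat_lit 0) (nat_lit 1429927951) (nat_lit 228) (nat_lit 4589109659) (nat_lit 76) (nat_lit 17609016959) (nat_lit 32) (nat_lit 5) (nat_lit 35) (nat_lit 5) (nat_lit 33) (nat_lit 5) (nat_lit 352) (nat_lit 254) (nat_lit 174)) (XT.lf (nat_lit 0) (nat_lit 7126603649) (nat_lit 228) (nat_lit 16072724879) (nat_lit 76) (nat_lit 986998319) (nat_lit 30) (nat_lit 5) (nat_lit 33) (nat_lit 5) (nat_lit 31) (nat_lit 5) (nat_lit 353) (nat_lit 254) (nat_lit 173))))) (XT.nd (nat_lit 234) (nat_lit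 380) (nat_lit 0) (XT.nd (nat_lit 78) (nat_lit 152) (nat_lit 0) (XT.lf (nat_lit 0) (nat_lit 13031584069) (nat_lit 228) (nat_lit 3600099672) (nat_lit 76) (nat_lit 8128926435) (nat_lit 30) (nat_lit 5) (nat_lit 33) (nat_lit 5) (nat_lit 31) (nat_lit 5) (nat_lit 354) (nat_lit 254) (nat_lit 172)) (XT.nd (nat_lit 78) (nat_lit 0) (nat_lit 0) (XT.lf (nat_lit 0) (nat_lit 9311419591) (nat_lit 152) (nat_lit 9829594184) (nat_lit 228) (nat_lit 6210572884) (nat_lit 28) (nat_lit 5) (nat_lit 30) (nat_lit 5) (nat_lit 31) (nat_lit 5) (nat_lit 355) (nat_lit 254) (nat_lit 171)) (XT.lf (nat_lit 0) (nat_lit 22603088861) (nat_lit 152) (nat_lit 2822475928) (nat_lit 228) (nat_lit 534901222) (nat_lit 28) (nat_lit 5) (nat_lit 30) (nat_lit 5) (nat_lit 31) (nat_lit 5) (nat_lit 356) (nat_lit 254) (nat_lit 170)))) (XT.nd (nat_lit 156) (nat_lit 152) (nat_lit 0) (XT.nd (nat_lit 78) (nat_lit 0) (nat_lit 0) (XT.lf (nat_lit 0) (nat_lit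 5301851017) (nat_lit 228) (nat_lit 16871387691) (nat_lit 76) (nat_lit 4412483909) (nat_lit 25) (nat_lit 5) (nat_lit 28) (nat_lit 5) (nat_lit 26) (nat_lit 5) (nat_lit 357) (nat_lit 254) (nat_lit 169)) (XT.lf (nat_lit 0) (nat_lit 11316852520) (nat_lit 228) (nat_lit 4082580427) (nat_lit 76) (nat_lit 11830034538) (nat_lit 25) (nat_lit 5) (nat_lit 28) (nat_lit 5) (nat_lit 26) (nat_lit 5) (nat_lit 358) (nat_lit 254) (nat_lit 168))) (XT.nd (nat_lit 78) (nat_lit 0) (nat_lit 0) (XT.lf (nat_lit 0) (nat_lit 9156730545) (nat_lit 152) (nat_lit 8384535791) (nat_lit 228) (nat_lit 10350688398) (nat_lit 23) (nat_lit 5) (nat_lit 25) (nat_lit 5) (nat_lit 26) (nat_lit 5) (nat_lit 359) (nat_lit 254) (nat_lit 167)) (XT.lf (nat_lit 0) (nat_lit 22796715138) (nat_lit 152) (nat_lit 1153420878) (nat_lit 228) (nat_lit 4624235124) (nat_lit 23) (nat_lit 5) (nat_lit 25) (nat_lit 5) (nat_lit 26) (nat_lit 5) (nat_lit 360) (nat_lit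 254) (nat_lit 166))))))) (XT.nd (nat_lit 34398) (nat_lit 0) (nat_lit 19228) (XT.nd (nat_lit 33852) (nat_lit 0) (nat_lit 34580) (XT.nd (nat_lit 33618) (nat_lit 0) (nat_lit 41116) (XT.nd (nat_lit 78) (nat_lit 0) (nat_lit 0) (XT.lf (nat_lit 0) (nat_lit 1318542474) (nat_lit 152) (nat_lit 21708909431) (nat_lit 76) (nat_lit 6248426481) (nat_lit 21) (nat_lit 5) (nat_lit 23) (nat_lit 5) (nat_lit 22) (nat_lit 5) (nat_lit 361) (nat_lit 254) (nat_lit 165)) (XT.nd (nat_lit 33462) (nat_lit 0) (nat_lit 43320) (XT.lf (nat_lit 0) (nat_lit 7395374103) (nat_lit 152) (nat_lit 8696397923) (nat_lit 76) (nat_lit 13905683905) (nat_lit 21) (nat_lit 5) (nat_lit 23) (nat_lit 5) (nat_lit 22) (nat_lit 5) (nat_lit 362) (nat_lit 254) (nat_lit 164)) (XT.lf (nat_lit 0) (nat_lit 1936372560) (nat_lit 532) (nat_lit 670445357) (nat_lit 532) (nat_lit 670445357) (nat_lit 591) (nat_lit 4) (nat_lit 598) (nat_lit 5) (nat_lit 598) (nat_lit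 4) (nat_lit 270) (nat_lit 255) (nat_lit 255)))) (XT.nd (nat_lit 78) (nat_lit 1520) (nat_lit 0) (XT.lf (nat_lit 0) (nat_lit 2789434448) (nat_lit 608) (nat_lit 328174389) (nat_lit 684) (nat_lit 3461067812) (nat_lit 582) (nat_lit 5) (nat_lit 590) (nat_lit 5) (nat_lit 591) (nat_lit 4) (nat_lit 271) (nat_lit 255) (nat_lit 254)) (XT.nd (nat_lit 78) (nat_lit 760) (nat_lit 0) (XT.lf (nat_lit 0) (nat_lit 951897154) (nat_lit 760) (nat_lit 4855689420) (nat_lit 76) (nat_lit 798319283) (nat_lit 572) (nat_lit 5) (nat_lit 582) (nat_lit 5) (nat_lit 573) (nat_lit 4) (nat_lit 272) (nat_lit 255) (nat_lit 253)) (XT.lf (nat_lit 0) (nat_lit 747108207) (nat_lit 760) (nat_lit 4583359934) (nat_lit 836) (nat_lit 1305645881) (nat_lit 562) (nat_lit 5) (nat_lit 572) (nat_lit 5) (nat_lit 573) (nat_lit 4) (nat_lit 273) (nat_lit 255) (nat_lit 252))))) (XT.nd (nat_lit 234) (nat_lit 4636) (nat_lit 0) (XT.nd (nat_lit 78) (nat_lit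 1824) (nat_lit 0) (XT.lf (nat_lit 0) (nat_lit 3014290670) (nat_lit 836) (nat_lit 214807080) (nat_lit 76) (nat_lit 3440277453) (nat_lit 561) (nat_lit 5) (nat_lit 572) (nat_lit 5) (nat_lit 562) (nat_lit 5) (nat_lit 274) (nat_lit 255) (nat_lit 251)) (XT.nd (nat_lit 78) (nat_lit 912) (nat_lit 0) (XT.lf (nat_lit 0) (nat_lit 622318745) (nat_lit 912) (nat_lit 1124427851) (nat_lit 76) (nat_lit 4959033241) (nat_lit 549) (nat_lit 5) (nat_lit 561) (nat_lit 5) (nat_lit 550) (nat_lit 5) (nat_lit 275) (nat_lit 255) (nat_lit 250)) (XT.lf (nat_lit 0) (nat_lit 4739842954) (nat_lit 912) (nat_lit 127480087) (nat_lit 988) (nat_lit 1877889025) (nat_lit 537) (nat_lit 5) (nat_lit 549) (nat_lit 5) (nat_lit 550) (nat_lit 5) (nat_lit 276) (nat_lit 255) (nat_lit 249)))) (XT.nd (nat_lit 156) (nat_lit 2508) (nat_lit 0) (XT.nd (nat_lit 78) (nat_lit 1064) (nat_lit 0) (XT.lf (nat_lit 0) (nat_lit 2324211547) (nat_lit 1064) (nat_lit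 2862244980) (nat_lit 76) (nat_lit 1601189107) (nat_lit 523) (nat_lit 5) (nat_lit 537) (nat_lit 5) (nat_lit 524) (nat_lit 5) (nat_lit 277) (nat_lit 255) (nat_lit 248)) (XT.lf (nat_lit 0) (nat_lit 3147627373) (nat_lit 1064) (nat_lit 3376744047) (nat_lit 1140) (nat_lit 308964762) (nat_lit 509) (nat_lit 5) (nat_lit 523) (nat_lit 5) (nat_lit 524) (nat_lit 5) (nat_lit 278) (nat_lit 255) (nat_lit 247))) (XT.nd (nat_lit 78) (nat_lit 1292) (nat_lit 0) (XT.lf (nat_lit 0) (nat_lit 2391632281) (nat_lit 1140) (nat_lit 1426122390) (nat_lit 1216) (nat_lit 3064307173) (nat_lit 493) (nat_lit 5) (nat_lit 508) (nat_lit 5) (nat_lit 509) (nat_lit 5) (nat_lit 279) (nat_lit 255) (nat_lit 246)) (XT.lf (nat_lit 0) (nat_lit 1024085367) (nat_lit 1292) (nat_lit 5266984045) (nat_lit 76) (nat_lit 643016105) (nat_lit 476) (nat_lit 5) (nat_lit 493) (nat_lit 5) (nat_lit 477) (nat_lit 5) (nat_lit 280) (nat_lit 255) (nat_lit 245))))))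 (XT.nd (nat_lit 546) (nat_lit 6156) (nat_lit 0) (XT.nd (nat_lit 234) (nat_lit 6460) (nat_lit 0) (XT.nd (nat_lit 78) (nat_lit 1444) (nat_lit 0) (XT.lf (nat_lit 0) (nat_lit 954015645) (nat_lit 1292) (nat_lit 4156213269) (nat_lit 1368) (nat_lit 1878861720) (nat_lit 459) (nat_lit 5) (nat_lit 476) (nat_lit 5) (nat_lit 477) (nat_lit 5) (nat_lit 281) (nat_lit 255) (nat_lit 244)) (XT.nd (nat_lit 78) (nat_lit 0) (nat_lit 0) (XT.lf (nat_lit 0) (nat_lit 265128421) (nat_lit 1368) (nat_lit 1888123417) (nat_lit 1444) (nat_lit 4894154522) (nat_lit 440) (nat_lit 5) (nat_lit 458) (nat_lit 5) (nat_lit 459) (nat_lit 5) (nat_lit 282) (nat_lit 255) (nat_lit 243)) (XT.lf (nat_lit 0) (nat_lit 6200329979) (nat_lit 1444) (nat_lit 398433203) (nat_lit 76) (nat_lit 510217720) (nat_lit 440) (nat_lit 5) (nat_lit 459) (nat_lit 5) (nat_lit 441) (nat_lit 5) (nat_lit 283) (nat_lit 255) (nat_lit 242)))) (XT.nd (nat_lit 156) (nat_lit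 3420) (nat_lit 0) (XT.nd (nat_lit 78) (nat_lit 1520) (nat_lit 0) (XT.lf (nat_lit 0) (nat_lit 3085298161) (nat_lit 1520) (nat_lit 1059145395) (nat_lit 76) (nat_lit 3029069159) (nat_lit 420) (nat_lit 5) (nat_lit 440) (nat_lit 5) (nat_lit 421) (nat_lit 5) (nat_lit 284) (nat_lit 255) (nat_lit 241)) (XT.lf (nat_lit 0) (nat_lit 5545077071) (nat_lit 1520) (nat_lit 1561277282) (nat_lit 1596) (nat_lit 135250362) (nat_lit 400) (nat_lit 5) (nat_lit 420) (nat_lit 5) (nat_lit 421) (nat_lit 5) (nat_lit 285) (nat_lit 255) (nat_lit 240))) (XT.nd (nat_lit 78) (nat_lit 1748) (nat_lit 0) (XT.lf (nat_lit 0) (nat_lit 3814569678) (nat_lit 1672) (nat_lit 2340032055) (nat_lit 76) (nat_lit 1158159185) (nat_lit 378) (nat_lit 5) (nat_lit 400) (nat_lit 5) (nat_lit 379) (nat_lit 5) (nat_lit 286) (nat_lit 255) (nat_lit 239)) (XT.lf (nat_lit 0) (nat_lit 424138676) (nat_lit 1748) (nat_lit 2974500528) (nat_lit 76) (nat_lit 3988742232)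 (nat_lit 355) (nat_lit 5) (nat_lit 378) (nat_lit 5) (nat_lit 356) (nat_lit 5) (nat_lit 287) (nat_lit 255) (nat_lit 238))))) (XT.nd (nat_lit 234) (nat_lit 3268) (nat_lit 0) (XT.nd (nat_lit 78) (nat_lit 1748) (nat_lit 0) (XT.lf (nat_lit 0) (nat_lit 3853469912) (nat_lit 1140) (nat_lit 491635321) (nat_lit 1216) (nat_lit 3120223537) (nat_lit 340) (nat_lit 5) (nat_lit 355) (nat_lit 5) (nat_lit 356) (nat_lit 5) (nat_lit 288) (nat_lit 255) (nat_lit 237)) (XT.nd (nat_lit 78) (nat_lit 836) (nat_lit 0) (XT.lf (nat_lit 0) (nat_lit 774419561) (nat_lit 912) (nat_lit 4253820540) (nat_lit 76) (nat_lit 2518433821) (nat_lit 328) (nat_lit 5) (nat_lit 340) (nat_lit 5) (nat_lit 329) (nat_lit 5) (nat_lit 289) (nat_lit 255) (nat_lit 236)) (XT.lf (nat_lit 0) (nat_lit 2725237887) (nat_lit 836) (nat_lit 1955645268) (nat_lit 912) (nat_lit 2950527710) (nat_lit 317) (nat_lit 5) (nat_lit 328) (nat_lit 5) (nat_lit 329) (nat_lit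 5) (nat_lit 290) (nat_lit 255) (nat_lit 235)))) (XT.nd (nat_lit 156) (nat_lit 1596) (nat_lit 0) (XT.nd (nat_lit 78) (nat_lit 836) (nat_lit 0) (XT.lf (nat_lit 0) (nat_lit 917312145) (nat_lit 836) (nat_lit 5562609497) (nat_lit 76) (nat_lit 1239858457) (nat_lit 306) (nat_lit 5) (nat_lit 317) (nat_lit 5) (nat_lit 307) (nat_lit 5) (nat_lit 291) (nat_lit 255) (nat_lit 234)) (XT.lf (nat_lit 0) (nat_lit 1566469894) (nat_lit 836) (nat_lit 3247116060) (nat_lit 912) (nat_lit 2997877633) (nat_lit 295) (nat_lit 5) (nat_lit 306) (nat_lit 5) (nat_lit 307) (nat_lit 5) (nat_lit 292) (nat_lit 255) (nat_lit 233))) (XT.nd (nat_lit 78) (nat_lit 760) (nat_lit 0) (XT.lf (nat_lit 0) (nat_lit 850985262) (nat_lit 836) (nat_lit 6931020909) (nat_lit 76) (nat_lit 125025566) (nat_lit 284) (nat_lit 5) (nat_lit 295) (nat_lit 5) (nat_lit 285) (nat_lit 5) (nat_lit 293) (nat_lit 255) (nat_lit 232)) (XT.lf (nat_lit 0) (nat_lit 346586764)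 (nat_lit 760) (nat_lit 4394139985) (nat_lit 836) (nat_lit 3265116144) (nat_lit 274) (nat_lit 5) (nat_lit 284) (nat_lit 5) (nat_lit 285) (nat_lit 5) (nat_lit 294) (nat_lit 255) (nat_lit 231))))))))
noncomputable def xc42 : XT := (XT.nd (nat_lit 2028) (nat_lit 5472) (nat_lit 0) (XT.nd (nat_lit 1014) (nat_lit 5092) (nat_lit 0) (XT.nd (nat_lit 468) (nat_lit 3572) (nat_lit 0) (XT.nd (nat_lit 234) (nat_lit 2052) (nat_lit 0) (XT.nd (nat_lit 78) (nat_lit 1444) (nat_lit 0) (XT.lf (nat_lit 0) (nat_lit 579262049) (nat_lit 836) (nat_lit 283786684) (nat_lit 76) (nat_lit 7245614989) (nat_lit 273) (nat_lit 5) (nat_lit 284) (nat_lit 5) (nat_lit 274) (nat_lit 5) (nat_lit 295) (nat_lit 255) (nat_lit 230)) (XT.nd (nat_lit 78) (nat_lit 760) (nat_lit 0) (XT.lf (nat_lit 0) (nat_lit 4464247179) (nat_lit 760) (nat_lit 953848275) (nat_lit 76) (nat_lit 2796737262) (nat_lit 264) (nat_lit 5) (nat_lit 274) (nat_lit 5) (nat_lit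 265) (nat_lit 5) (nat_lit 296) (nat_lit 255) (nat_lit 229)) (XT.lf (nat_lit 0) (nat_lit 96259671) (nat_lit 760) (nat_lit 1639018117) (nat_lit 76) (nat_lit 6589843842) (nat_lit 254) (nat_lit 5) (nat_lit 264) (nat_lit 5) (nat_lit 255) (nat_lit 5) (nat_lit 297) (nat_lit 255) (nat_lit 228)))) (XT.nd (nat_lit 78) (nat_lit 1368) (nat_lit 0) (XT.lf (nat_lit 0) (nat_lit 3974693656) (nat_lit 760) (nat_lit 2375252439) (nat_lit 76) (nat_lit 2089015736) (nat_lit 245) (nat_lit 5) (nat_lit 255) (nat_lit 5) (nat_lit 246) (nat_lit 5) (nat_lit 298) (nat_lit 255) (nat_lit 227)) (XT.nd (nat_lit 78) (nat_lit 684) (nat_lit 0) (XT.lf (nat_lit 0) (nat_lit 5416667238) (nat_lit 684) (nat_lit 2519837802) (nat_lit 760) (nat_lit 620450577) (nat_lit 236) (nat_lit 5) (nat_lit 245) (nat_lit 5) (nat_lit 246) (nat_lit 5) (nat_lit 299) (nat_lit 255) (nat_lit 226)) (XT.lf (nat_lit 0) (nat_lit 3261784952) (nat_lit 684) (nat_lit 3957823319)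 (nat_lit 76) (nat_lit 1459184659) (nat_lit 227) (nat_lit 5) (nat_lit 236) (nat_lit 5) (nat_lit 228) (nat_lit 5) (nat_lit 300) (nat_lit 255) (nat_lit 225))))) (XT.nd (nat_lit 234) (nat_lit 1748) (nat_lit 0) (XT.nd (nat_lit 78) (nat_lit 1216) (nat_lit 0) (XT.lf (nat_lit 0) (nat_lit 3982089895) (nat_lit 608) (nat_lit 3246339290) (nat_lit 684) (nat_lit 1576319612) (nat_lit 219) (nat_lit 5) (nat_lit 227) (nat_lit 5) (nat_lit 228) (nat_lit 5) (nat_lit 301) (nat_lit 255) (nat_lit 224)) (XT.nd (nat_lit 78) (nat_lit 608) (nat_lit 0) (XT.lf (nat_lit 0) (nat_lit 2315386849) (nat_lit 608) (nat_lit 5739705036) (nat_lit 76) (nat_lit 879811705) (nat_lit 211) (nat_lit 5) (nat_lit 219) (nat_lit 5) (nat_lit 212) (nat_lit 5) (nat_lit 302) (nat_lit 255) (nat_lit 223)) (XT.lf (nat_lit 0) (nat_lit 2343965476) (nat_lit 608) (nat_lit 3943568104) (nat_lit 684) (nat_lit 2781586306) (nat_lit 203) (nat_lit 5) (nat_lit 211)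 (nat_lit 5) (nat_lit 212) (nat_lit 5) (nat_lit 303) (nat_lit 255) (nat_lit 222)))) (XT.nd (nat_lit 156) (nat_lit 608) (nat_lit 0) (XT.nd (nat_lit 78) (nat_lit 532) (nat_lit 0) (XT.lf (nat_lit 0) (nat_lit 1123136861) (nat_lit 608) (nat_lit 7761910644) (nat_lit 76) (nat_lit 322886771) (nat_lit 195) (nat_lit 5) (nat_lit 203) (nat_lit 5) (nat_lit 196) (nat_lit 5) (nat_lit 304) (nat_lit 255) (nat_lit 221)) (XT.lf (nat_lit 0) (nat_lit 460227668) (nat_lit 532) (nat_lit 4640399406) (nat_lit 608) (nat_lit 4250112214) (nat_lit 188) (nat_lit 5) (nat_lit 195) (nat_lit 5) (nat_lit 196) (nat_lit 5) (nat_lit 305) (nat_lit 255) (nat_lit 220))) (XT.nd (nat_lit 78) (nat_lit 608) (nat_lit 0) (XT.lf (nat_lit 0) (nat_lit 8932055893) (nat_lit 532) (nat_lit 237669125) (nat_lit 608) (nat_lit 328718198) (nat_lit 188) (nat_lit 5) (nat_lit 195) (nat_lit 5) (nat_lit 196) (nat_lit 5) (nat_lit 306) (nat_lit 255) (nat_lit 219))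 (XT.lf (nat_lit 0) (nat_lit 3663217647) (nat_lit 608) (nat_lit 1692139133) (nat_lit 76) (nat_lit 4294765972) (nat_lit 180) (nat_lit 5) (nat_lit 188) (nat_lit 5) (nat_lit 181) (nat_lit 5) (nat_lit 307) (nat_lit 255) (nat_lit 218)))))) (XT.nd (nat_lit 468) (nat_lit 2204) (nat_lit 0) (XT.nd (nat_lit 234) (nat_lit 1368) (nat_lit 0) (XT.nd (nat_lit 78) (nat_lit 988) (nat_lit 0) (XT.lf (nat_lit 0) (nat_lit 6925460170) (nat_lit 532) (nat_lit 818372116) (nat_lit 608) (nat_lit 2063065037) (nat_lit 173) (nat_lit 5) (nat_lit 180) (nat_lit 5) (nat_lit 181) (nat_lit 5) (nat_lit 308) (nat_lit 255) (nat_lit 217)) (XT.nd (nat_lit 78) (nat_lit 456) (nat_lit 0) (XT.lf (nat_lit 0) (nat_lit 1951137089) (nat_lit 532) (nat_lit 4174520052) (nat_lit 76) (nat_lit 3842542328) (nat_lit 166) (nat_lit 5) (nat_lit 173) (nat_lit 5) (nat_lit 167) (nat_lit 5) (nat_lit 309) (nat_lit 255) (nat_lit 216)) (XT.lf (nat_lit 0) (nat_lit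 4574851026) (nat_lit 456) (nat_lit 1463277526) (nat_lit 532) (nat_lit 4096383148) (nat_lit 160) (nat_lit 5) (nat_lit 166) (nat_lit 5) (nat_lit 167) (nat_lit 5) (nat_lit 310) (nat_lit 255) (nat_lit 215)))) (XT.nd (nat_lit 78) (nat_lit 912) (nat_lit 0) (XT.lf (nat_lit 0) (nat_lit 3259470343) (nat_lit 456) (nat_lit 6986343908) (nat_lit 532) (nat_lit 60087457) (nat_lit 154) (nat_lit 5) (nat_lit 160) (nat_lit 5) (nat_lit 161) (nat_lit 5) (nat_lit 311) (nat_lit 255) (nat_lit 214)) (XT.nd (nat_lit 78) (nat_lit 380) (nat_lit 0) (XT.lf (nat_lit 0) (nat_lit 1825506579) (nat_lit 456) (nat_lit 2205354145) (nat_lit 532) (nat_lit 6451342325) (nat_lit 147) (nat_lit 5) (nat_lit 153) (nat_lit 5) (nat_lit 154) (nat_lit 5) (nat_lit 312) (nat_lit 255) (nat_lit 213)) (XT.lf (nat_lit 0) (nat_lit 283493919) (nat_lit 380) (nat_lit 7956824893) (nat_lit 456) (nat_lit 2423581016) (nat_lit 142) (nat_lit 5) (nat_lit 147) (nat_lit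 5) (nat_lit 148) (nat_lit 5) (nat_lit 313) (nat_lit 255) (nat_lit 212))))) (XT.nd (nat_lit 234) (nat_lit 1292) (nat_lit 0) (XT.nd (nat_lit 78) (nat_lit 836) (nat_lit 0) (XT.lf (nat_lit 0) (nat_lit 1706149297) (nat_lit 456) (nat_lit 1364263194) (nat_lit 76) (nat_lit 7780379890) (nat_lit 141) (nat_lit 5) (nat_lit 147) (nat_lit 5) (nat_lit 142) (nat_lit 5) (nat_lit 314) (nat_lit 255) (nat_lit 211)) (XT.nd (nat_lit 78) (nat_lit 380) (nat_lit 0) (XT.lf (nat_lit 0) (nat_lit 5923431528) (nat_lit 532) (nat_lit 3141968288) (nat_lit 76) (nat_lit 1977682542) (nat_lit 135) (nat_lit 5) (nat_lit 142) (nat_lit 5) (nat_lit 136) (nat_lit 5) (nat_lit 315) (nat_lit 255) (nat_lit 210)) (XT.lf (nat_lit 0) (nat_lit 6187511451) (nat_lit 380) (nat_lit 4082928307) (nat_lit 456) (nat_lit 970678666) (nat_lit 130) (nat_lit 5) (nat_lit 135) (nat_lit 5) (nat_lit 136) (nat_lit 5) (nat_lit 316) (nat_lit 255) (nat_lit 209))))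 (XT.nd (nat_lit 156) (nat_lit 456) (nat_lit 0) (XT.nd (nat_lit 78) (nat_lit 380) (nat_lit 0) (XT.lf (nat_lit 0) (nat_lit 3250184452) (nat_lit 456) (nat_lit 7116219908) (nat_lit 76) (nat_lit 1078487113) (nat_lit 124) (nat_lit 5) (nat_lit 130) (nat_lit 5) (nat_lit 125) (nat_lit 5) (nat_lit 317) (nat_lit 255) (nat_lit 208)) (XT.lf (nat_lit 0) (nat_lit 2309570085) (nat_lit 380) (nat_lit 5286953191) (nat_lit 456) (nat_lit 4057923749) (nat_lit 119) (nat_lit 5) (nat_lit 124) (nat_lit 5) (nat_lit 125) (nat_lit 5) (nat_lit 318) (nat_lit 255) (nat_lit 207))) (XT.nd (nat_lit 78) (nat_lit 0) (nat_lit 0) (XT.lf (nat_lit 0) (nat_lit 153030199) (nat_lit 380) (nat_lit 32825225) (nat_lit 456) (nat_lit 11684732917) (nat_lit 113) (nat_lit 5) (nat_lit 118) (nat_lit 5) (nat_lit 119) (nat_lit 5) (nat_lit 319) (nat_lit 255) (nat_lit 206)) (XT.lf (nat_lit 0) (nat_lit 4537892880) (nat_lit 456) (nat_lit 2183776907) (nat_lit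 76) (nat_lit 5370321600) (nat_lit 113) (nat_lit 5) (nat_lit 119) (nat_lit 5) (nat_lit 114) (nat_lit 5) (nat_lit 320) (nat_lit 255) (nat_lit 205))))))) (XT.nd (nat_lit 1014) (nat_lit 2204) (nat_lit 0) (XT.nd (nat_lit 468) (nat_lit 1520) (nat_lit 0) (XT.nd (nat_lit 234) (nat_lit 684) (nat_lit 0) (XT.nd (nat_lit 78) (nat_lit 760) (nat_lit 0) (XT.lf (nat_lit 0) (nat_lit 7645646907) (nat_lit 304) (nat_lit 1363632020) (nat_lit 380) (nat_lit 3311016291) (nat_lit 109) (nat_lit 5) (nat_lit 113) (nat_lit 5) (nat_lit 114) (nat_lit 5) (nat_lit 321) (nat_lit 255) (nat_lit 204)) (XT.nd (nat_lit 78) (nat_lit 304) (nat_lit 0) (XT.lf (nat_lit 0) (nat_lit 1061082663) (nat_lit 456) (nat_lit 7366391319) (nat_lit 76) (nat_lit 4127557043) (nat_lit 103) (nat_lit 5) (nat_lit 109) (nat_lit 5) (nat_lit 104) (nat_lit 5) (nat_lit 322) (nat_lit 255) (nat_lit 203)) (XT.lf (nat_lit 0) (nat_lit 2527961574) (nat_lit 304) (nat_lit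 2989766974) (nat_lit 380) (nat_lit 7278707115) (nat_lit 99) (nat_lit 5) (nat_lit 103) (nat_lit 5) (nat_lit 104) (nat_lit 5) (nat_lit 323) (nat_lit 255) (nat_lit 202)))) (XT.nd (nat_lit 78) (nat_lit 684) (nat_lit 0) (XT.lf (nat_lit 0) (nat_lit 10116929793) (nat_lit 380) (nat_lit 330301235) (nat_lit 76) (nat_lit 2597705192) (nat_lit 99) (nat_lit 5) (nat_lit 104) (nat_lit 5) (nat_lit 100) (nat_lit 5) (nat_lit 324) (nat_lit 255) (nat_lit 201)) (XT.nd (nat_lit 78) (nat_lit 304) (nat_lit 0) (XT.lf (nat_lit 0) (nat_lit 1560819791) (nat_lit 380) (nat_lit 3380699644) (nat_lit 76) (nat_lit 8358640575) (nat_lit 94) (nat_lit 5) (nat_lit 99) (nat_lit 5) (nat_lit 95) (nat_lit 5) (nat_lit 325) (nat_lit 255) (nat_lit 200)) (XT.lf (nat_lit 0) (nat_lit 6140873158) (nat_lit 380) (nat_lit 6664346516) (nat_lit 76) (nat_lit 757535464) (nat_lit 90) (nat_lit 5) (nat_lit 95) (nat_lit 5) (nat_lit 91) (nat_lit 5) (nat_lit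 326) (nat_lit 255) (nat_lit 199))))) (XT.nd (nat_lit 234) (nat_lit 912) (nat_lit 0) (XT.nd (nat_lit 78) (nat_lit 304) (nat_lit 0) (XT.lf (nat_lit 0) (nat_lit 3628550430) (nat_lit 304) (nat_lit 7254390939) (nat_lit 380) (nat_lit 2949822210) (nat_lit 86) (nat_lit 5) (nat_lit 90) (nat_lit 5) (nat_lit 91) (nat_lit 5) (nat_lit 327) (nat_lit 255) (nat_lit 198)) (XT.nd (nat_lit 78) (nat_lit 0) (nat_lit 0) (XT.lf (nat_lit 0) (nat_lit 117370929) (nat_lit 228) (nat_lit 1509147937) (nat_lit 304) (nat_lit 12484327836) (nat_lit 82) (nat_lit 5) (nat_lit 85) (nat_lit 5) (nat_lit 86) (nat_lit 5) (nat_lit 328) (nat_lit 255) (nat_lit 197)) (XT.lf (nat_lit 0) (nat_lit 6345001564) (nat_lit 304) (nat_lit 3640545606) (nat_lit 76) (nat_lit 4410462243) (nat_lit 82) (nat_lit 5) (nat_lit 86) (nat_lit 5) (nat_lit 83) (nat_lit 5) (nat_lit 329) (nat_lit 255) (nat_lit 196)))) (XT.nd (nat_lit 156) (nat_lit 304) (nat_lit 0) (XT.nd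 (nat_lit 78) (nat_lit 304) (nat_lit 0) (XT.lf (nat_lit 0) (nat_lit 7023314147) (nat_lit 304) (nat_lit 4185447985) (nat_lit 380) (nat_lit 3480915279) (nat_lit 78) (nat_lit 5) (nat_lit 82) (nat_lit 5) (nat_lit 83) (nat_lit 5) (nat_lit 330) (nat_lit 255) (nat_lit 195)) (XT.lf (nat_lit 0) (nat_lit 1215038066) (nat_lit 304) (nat_lit 11988298956) (nat_lit 76) (nat_lit 1788586048) (nat_lit 74) (nat_lit 5) (nat_lit 78) (nat_lit 5) (nat_lit 75) (nat_lit 5) (nat_lit 331) (nat_lit 255) (nat_lit 194))) (XT.nd (nat_lit 78) (nat_lit 304) (nat_lit 0) (XT.lf (nat_lit 0) (nat_lit 6034579614) (nat_lit 304) (nat_lit 1335743166) (nat_lit 76) (nat_lit 7931876097) (nat_lit 74) (nat_lit 5) (nat_lit 78) (nat_lit 5) (nat_lit 75) (nat_lit 5) (nat_lit 332) (nat_lit 255) (nat_lit 193)) (XT.lf (nat_lit 0) (nat_lit 9685176045) (nat_lit 304) (nat_lit 1327334662) (nat_lit 380) (nat_lit 4609018500) (nat_lit 70) (nat_lit 5) (nat_lit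 74) (nat_lit 5) (nat_lit 75) (nat_lit 5) (nat_lit 333) (nat_lit 255) (nat_lit 192)))))) (XT.nd (nat_lit 546) (nat_lit 912) (nat_lit 0) (XT.nd (nat_lit 234) (nat_lit 760) (nat_lit 0) (XT.nd (nat_lit 78) (nat_lit 228) (nat_lit 0) (XT.lf (nat_lit 0) (nat_lit 212435738) (nat_lit 304) (nat_lit 10889837656) (nat_lit 76) (nat_lit 4847651136) (nat_lit 66) (nat_lit 5) (nat_lit 70) (nat_lit 5) (nat_lit 67) (nat_lit 5) (nat_lit 334) (nat_lit 255) (nat_lit 191)) (XT.nd (nat_lit 78) (nat_lit 0) (nat_lit 0) (XT.lf (nat_lit 0) (nat_lit 64026926) (nat_lit 228) (nat_lit 5054270020) (nat_lit 304) (nat_lit 11169238439) (nat_lit 63) (nat_lit 5) (nat_lit 66) (nat_lit 5) (nat_lit 67) (nat_lit 5) (nat_lit 335) (nat_lit 255) (nat_lit 190)) (XT.lf (nat_lit 0) (nat_lit 10206195046) (nat_lit 304) (nat_lit 5223023079) (nat_lit 76) (nat_lit 1205379242) (nat_lit 63) (nat_lit 5) (nat_lit 67) (nat_lit 5) (nat_lit 64) (nat_lit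 5) (nat_lit 336) (nat_lit 255) (nat_lit 189)))) (XT.nd (nat_lit 156) (nat_lit 228) (nat_lit 0) (XT.nd (nat_lit 78) (nat_lit 304) (nat_lit 0) (XT.lf (nat_lit 0) (nat_lit 6078961709) (nat_lit 228) (nat_lit 9395356957) (nat_lit 304) (nat_lit 1517220210) (nat_lit 60) (nat_lit 5) (nat_lit 63) (nat_lit 5) (nat_lit 64) (nat_lit 5) (nat_lit 337) (nat_lit 255) (nat_lit 188)) (XT.lf (nat_lit 0) (nat_lit 340404095) (nat_lit 228) (nat_lit 3147145198) (nat_lit 304) (nat_lit 13871344057) (nat_lit 56) (nat_lit 5) (nat_lit 59) (nat_lit 5) (nat_lit 60) (nat_lit 5) (nat_lit 338) (nat_lit 255) (nat_lit 187))) (XT.nd (nat_lit 78) (nat_lit 228) (nat_lit 0) (XT.lf (nat_lit 0) (nat_lit 8673272559) (nat_lit 304) (nat_lit 5760802884) (nat_lit 76) (nat_lit 3301981928) (nat_lit 56) (nat_lit 5) (nat_lit 60) (nat_lit 5) (nat_lit 57) (nat_lit 5) (nat_lit 339) (nat_lit 255) (nat_lit 186)) (XT.lf (nat_lit 0) (nat_lit 5818643388)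 (nat_lit 228) (nat_lit 8211562824) (nat_lit 304) (nat_lit 4094034767) (nat_lit 53) (nat_lit 5) (nat_lit 56) (nat_lit 5) (nat_lit 57) (nat_lit 5) (nat_lit 340) (nat_lit 255) (nat_lit 185))))) (XT.nd (nat_lit 234) (nat_lit 456) (nat_lit 0) (XT.nd (nat_lit 78) (nat_lit 380) (nat_lit 0) (XT.lf (nat_lit 0) (nat_lit 1006965575) (nat_lit 304) (nat_lit 776532055) (nat_lit 76) (nat_lit 16740523828) (nat_lit 52) (nat_lit 5) (nat_lit 56) (nat_lit 5) (nat_lit 53) (nat_lit 5) (nat_lit 341) (nat_lit 255) (nat_lit 184)) (XT.nd (nat_lit 78) (nat_lit 152) (nat_lit 0) (XT.lf (nat_lit 0) (nat_lit 6268529814) (nat_lit 304) (nat_lit 7817900479) (nat_lit 76) (nat_lit 4847576830) (nat_lit 49) (nat_lit 5) (nat_lit 53) (nat_lit 5) (nat_lit 50) (nat_lit 5) (nat_lit 342) (nat_lit 255) (nat_lit 183)) (XT.lf (nat_lit 0) (nat_lit 3992214855) (nat_lit 152) (nat_lit 7698027098) (nat_lit 228) (nat_lit 7666020033) (nat_lit 47)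 (nat_lit 5) (nat_lit 49) (nat_lit 5) (nat_lit 50) (nat_lit 5) (nat_lit 343) (nat_lit 255) (nat_lit 182)))) (XT.nd (nat_lit 156) (nat_lit 152) (nat_lit 0) (XT.nd (nat_lit 78) (nat_lit 304) (nat_lit 0) (XT.lf (nat_lit 0) (nat_lit 16196603379) (nat_lit 152) (nat_lit 1090889908) (nat_lit 228) (nat_lit 2503448641) (nat_lit 47) (nat_lit 5) (nat_lit 49) (nat_lit 5) (nat_lit 50) (nat_lit 5) (nat_lit 344) (nat_lit 255) (nat_lit 181)) (XT.lf (nat_lit 0) (nat_lit 2830876096) (nat_lit 304) (nat_lit 11718614219) (nat_lit 76) (nat_lit 5687745363) (nat_lit 43) (nat_lit 5) (nat_lit 47) (nat_lit 5) (nat_lit 44) (nat_lit 5) (nat_lit 345) (nat_lit 255) (nat_lit 180))) (XT.nd (nat_lit 78) (nat_lit 0) (nat_lit 0) (XT.lf (nat_lit 0) (nat_lit 261799432) (nat_lit 152) (nat_lit 8024485265) (nat_lit 228) (nat_lit 12410415301) (nat_lit 41) (nat_lit 5) (nat_lit 43) (nat_lit 5) (nat_lit 44) (nat_lit 5) (nat_lit 346) (nat_lit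 255) (nat_lit 179)) (XT.lf (nat_lit 0) (nat_lit 12697914210) (nat_lit 152) (nat_lit 1248919114) (nat_lit 228) (nat_lit 7222298999) (nat_lit 41) (nat_lit 5) (nat_lit 43) (nat_lit 5) (nat_lit 44) (nat_lit 5) (nat_lit 347) (nat_lit 255) (nat_lit 178))))))))
noncomputable def xc43 : XT := (XT.nd (nat_lit 35334) (nat_lit 0) (nat_lit 12692) (XT.nd (nat_lit 1014) (nat_lit 152) (nat_lit 0) (XT.nd (nat_lit 468) (nat_lit 684) (nat_lit 0) (XT.nd (nat_lit 234) (nat_lit 228) (nat_lit 0) (XT.nd (nat_lit 78) (nat_lit 228) (nat_lit 0) (XT.lf (nat_lit 0) (nat_lit 3801190994) (nat_lit 228) (nat_lit 16000898138) (nat_lit 304) (nat_lit 1853163905) (nat_lit 38) (nat_lit 5) (nat_lit 41) (nat_lit 5) (nat_lit 42) (nat_lit 5) (nat_lit 348) (nat_lit 255) (nat_lit 177)) (XT.nd (nat_lit 78) (nat_lit 152) (nat_lit 0) (XT.lf (nat_lit 0) (nat_lit 3658387376) (nat_lit 304) (nat_lit 5692001477) (nat_lit 76) (nat_lit 12804512294)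 (nat_lit 37) (nat_lit 5) (nat_lit 41) (nat_lit 5) (nat_lit 38) (nat_lit 5) (nat_lit 349) (nat_lit 255) (nat_lit 176)) (XT.lf (nat_lit 0) (nat_lit 6851892878) (nat_lit 152) (nat_lit 2467342106) (nat_lit 228) (nat_lit 13349888416) (nat_lit 35) (nat_lit 5) (nat_lit 37) (nat_lit 5) (nat_lit 38) (nat_lit 5) (nat_lit 350) (nat_lit 255) (nat_lit 175)))) (XT.nd (nat_lit 78) (nat_lit 228) (nat_lit 0) (XT.lf (nat_lit 0) (nat_lit 15183728626) (nat_lit 228) (nat_lit 3438315880) (nat_lit 76) (nat_lit 4576063274) (nat_lit 35) (nat_lit 5) (nat_lit 38) (nat_lit 5) (nat_lit 36) (nat_lit 5) (nat_lit 351) (nat_lit 255) (nat_lit 174)) (XT.nd (nat_lit 78) (nat_lit 76) (nat_lit 0) (XT.lf (nat_lit 0) (nat_lit 9359906088) (nat_lit 152) (nat_lit 11907525809) (nat_lit 228) (nat_lit 2474675827) (nat_lit 33) (nat_lit 5) (nat_lit 35) (nat_lit 5) (nat_lit 36) (nat_lit 5) (nat_lit 352) (nat_lit 255) (nat_lit 173)) (XT.lf (nat_lit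 0) (nat_lit 3178683487) (nat_lit 228) (nat_lit 1791784541) (nat_lit 76) (nat_lit 19331754167) (nat_lit 32) (nat_lit 5) (nat_lit 35) (nat_lit 5) (nat_lit 33) (nat_lit 5) (nat_lit 353) (nat_lit 255) (nat_lit 172))))) (XT.nd (nat_lit 234) (nat_lit 380) (nat_lit 0) (XT.nd (nat_lit 78) (nat_lit 152) (nat_lit 0) (XT.lf (nat_lit 0) (nat_lit 9023193185) (nat_lit 228) (nat_lit 13641358165) (nat_lit 76) (nat_lit 2213168836) (nat_lit 30) (nat_lit 5) (nat_lit 33) (nat_lit 5) (nat_lit 31) (nat_lit 5) (nat_lit 354) (nat_lit 255) (nat_lit 171)) (XT.nd (nat_lit 78) (nat_lit 152) (nat_lit 0) (XT.lf (nat_lit 0) (nat_lit 15056309675) (nat_lit 228) (nat_lit 879414836) (nat_lit 76) (nat_lit 9534503517) (nat_lit 30) (nat_lit 5) (nat_lit 33) (nat_lit 5) (nat_lit 31) (nat_lit 5) (nat_lit 355) (nat_lit 255) (nat_lit 170)) (XT.lf (nat_lit 0) (nat_lit 12373557905) (nat_lit 152) (nat_lit 8945946354) (nat_lit 228) (nat_lit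 4760035195) (nat_lit 28) (nat_lit 5) (nat_lit 30) (nat_lit 5) (nat_lit 31) (nat_lit 5) (nat_lit 356) (nat_lit 255) (nat_lit 169)))) (XT.nd (nat_lit 156) (nat_lit 152) (nat_lit 0) (XT.nd (nat_lit 78) (nat_lit 152) (nat_lit 0) (XT.lf (nat_lit 0) (nat_lit 1024614642) (nat_lit 228) (nat_lit 731450485) (nat_lit 76) (nat_lit 24951434605) (nat_lit 27) (nat_lit 5) (nat_lit 30) (nat_lit 5) (nat_lit 28) (nat_lit 5) (nat_lit 357) (nat_lit 255) (nat_lit 168)) (XT.lf (nat_lit 0) (nat_lit 7008351202) (nat_lit 228) (nat_lit 14674759227) (nat_lit 76) (nat_lit 5668764041) (nat_lit 25) (nat_lit 5) (nat_lit 28) (nat_lit 5) (nat_lit 26) (nat_lit 5) (nat_lit 358) (nat_lit 255) (nat_lit 167))) (XT.nd (nat_lit 78) (nat_lit 152) (nat_lit 0) (XT.lf (nat_lit 0) (nat_lit 13158731547) (nat_lit 228) (nat_lit 1581009204) (nat_lit 76) (nat_lit 13276106075) (nat_lit 25) (nat_lit 5) (nat_lit 28) (nat_lit 5) (nat_lit 26) (nat_lit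 5) (nat_lit 359) (nat_lit 255) (nat_lit 166)) (XT.lf (nat_lit 0) (nat_lit 12012909025) (nat_lit 152) (nat_lit 7529970960) (nat_lit 228) (nat_lit 9155881980) (nat_lit 23) (nat_lit 5) (nat_lit 25) (nat_lit 5) (nat_lit 26) (nat_lit 5) (nat_lit 360) (nat_lit 255) (nat_lit 165)))))) (XT.nd (nat_lit 33774) (nat_lit 0) (nat_lit 35872) (XT.nd (nat_lit 33462) (nat_lit 0) (nat_lit 41876) (XT.nd (nat_lit 78) (nat_lit 152) (nat_lit 0) (XT.lf (nat_lit 0) (nat_lit 25986904518) (nat_lit 152) (nat_lit 114139132) (nat_lit 228) (nat_lit 3301479585) (nat_lit 23) (nat_lit 5) (nat_lit 25) (nat_lit 5) (nat_lit 26) (nat_lit 5) (nat_lit 361) (nat_lit 255) (nat_lit 164)) (XT.nd (nat_lit 33306) (nat_lit 0) (nat_lit 44384) (XT.lf (nat_lit 0) (nat_lit 2781475316) (nat_lit 152) (nat_lit 19853476179) (nat_lit 76) (nat_lit 7490325499) (nat_lit 21) (nat_lit 5) (nat_lit 23) (nat_lit 5) (nat_lit 22) (nat_lit 5) (nat_lit 362) (nat_lit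 255) (nat_lit 163)) (XT.lf (nat_lit 0) (nat_lit 3125157382) (nat_lit 380) (nat_lit 65947328) (nat_lit 380) (nat_lit 65947328) (nat_lit 605) (nat_lit 4) (nat_lit 610) (nat_lit 5) (nat_lit 610) (nat_lit 4) (nat_lit 268) (nat_lit 256) (nat_lit 256)))) (XT.nd (nat_lit 156) (nat_lit 1368) (nat_lit 0) (XT.nd (nat_lit 78) (nat_lit 608) (nat_lit 0) (XT.lf (nat_lit 0) (nat_lit 4307972149) (nat_lit 532) (nat_lit 1530883913) (nat_lit 0) (nat_lit 694592683) (nat_lit 598) (nat_lit 5) (nat_lit 605) (nat_lit 4) (nat_lit 598) (nat_lit 4) (nat_lit 269) (nat_lit 256) (nat_lit 255)) (XT.lf (nat_lit 0) (nat_lit 2163973954) (nat_lit 608) (nat_lit 2750287481) (nat_lit 76) (nat_lit 1641663869) (nat_lit 590) (nat_lit 5) (nat_lit 598) (nat_lit 5) (nat_lit 591) (nat_lit 4) (nat_lit 270) (nat_lit 256) (nat_lit 254))) (XT.nd (nat_lit 78) (nat_lit 760) (nat_lit 0) (XT.lf (nat_lit 0) (nat_lit 2658316846) (nat_lit 608) (nat_lit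 3869301182) (nat_lit 684) (nat_lit 53944789) (nat_lit 582) (nat_lit 5) (nat_lit 590) (nat_lit 5) (nat_lit 591) (nat_lit 4) (nat_lit 271) (nat_lit 256) (nat_lit 253)) (XT.lf (nat_lit 0) (nat_lit 1544228367) (nat_lit 684) (nat_lit 2688351943) (nat_lit 760) (nat_lit 2377514939) (nat_lit 572) (nat_lit 5) (nat_lit 581) (nat_lit 5) (nat_lit 582) (nat_lit 5) (nat_lit 272) (nat_lit 256) (nat_lit 252))))) (XT.nd (nat_lit 234) (nat_lit 4256) (nat_lit 0) (XT.nd (nat_lit 78) (nat_lit 912) (nat_lit 0) (XT.lf (nat_lit 0) (nat_lit 476204966) (nat_lit 760) (nat_lit 1384860012) (nat_lit 836) (nat_lit 4780766436) (nat_lit 561) (nat_lit 5) (nat_lit 571) (nat_lit 5) (nat_lit 572) (nat_lit 5) (nat_lit 273) (nat_lit 256) (nat_lit 251)) (XT.nd (nat_lit 78) (nat_lit 912) (nat_lit 0) (XT.lf (nat_lit 0) (nat_lit 6082964143) (nat_lit 836) (nat_lit 544417500) (nat_lit 76) (nat_lit 49261846) (nat_lit 561) (nat_lit 5) (nat_lit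 572) (nat_lit 5) (nat_lit 562) (nat_lit 5) (nat_lit 274) (nat_lit 256) (nat_lit 250)) (XT.lf (nat_lit 0) (nat_lit 3570658517) (nat_lit 912) (nat_lit 1539265872) (nat_lit 76) (nat_lit 1604281733) (nat_lit 549) (nat_lit 5) (nat_lit 561) (nat_lit 5) (nat_lit 550) (nat_lit 5) (nat_lit 275) (nat_lit 256) (nat_lit 249)))) (XT.nd (nat_lit 156) (nat_lit 2280) (nat_lit 0) (XT.nd (nat_lit 78) (nat_lit 988) (nat_lit 0) (XT.lf (nat_lit 0) (nat_lit 975783959) (nat_lit 988) (nat_lit 2494897808) (nat_lit 76) (nat_lit 3284357471) (nat_lit 536) (nat_lit 5) (nat_lit 549) (nat_lit 5) (nat_lit 537) (nat_lit 5) (nat_lit 276) (nat_lit 256) (nat_lit 248)) (XT.lf (nat_lit 0) (nat_lit 3374810293) (nat_lit 988) (nat_lit 1696728252) (nat_lit 1064) (nat_lit 1727414616) (nat_lit 523) (nat_lit 5) (nat_lit 536) (nat_lit 5) (nat_lit 537) (nat_lit 5) (nat_lit 277) (nat_lit 256) (nat_lit 247))) (XT.nd (nat_lit 78) (nat_lit 1140)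 (nat_lit 0) (XT.lf (nat_lit 0) (nat_lit 2313802797) (nat_lit 1140) (nat_lit 4325751294) (nat_lit 76) (nat_lit 206488405) (nat_lit 508) (nat_lit 5) (nat_lit 523) (nat_lit 5) (nat_lit 509) (nat_lit 5) (nat_lit 278) (nat_lit 256) (nat_lit 246)) (XT.lf (nat_lit 0) (nat_lit 1687358253) (nat_lit 1140) (nat_lit 4679798275) (nat_lit 1216) (nat_lit 529040823) (nat_lit 493) (nat_lit 5) (nat_lit 508) (nat_lit 5) (nat_lit 509) (nat_lit 5) (nat_lit 279) (nat_lit 256) (nat_lit 245))))))) (XT.nd (nat_lit 1014) (nat_lit 8968) (nat_lit 0) (XT.nd (nat_lit 468) (nat_lit 7068) (nat_lit 0) (XT.nd (nat_lit 234) (nat_lit 4484) (nat_lit 0) (XT.nd (nat_lit 78) (nat_lit 1368) (nat_lit 0) (XT.lf (nat_lit 0) (nat_lit 873020526) (nat_lit 1216) (nat_lit 2579974805) (nat_lit 1292) (nat_lit 3496437643) (nat_lit 476) (nat_lit 5) (nat_lit 492) (nat_lit 5) (nat_lit 493) (nat_lit 5) (nat_lit 280) (nat_lit 256) (nat_lit 244)) (XT.nd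 (nat_lit 78) (nat_lit 0) (nat_lit 0) (XT.lf (nat_lit 0) (nat_lit 91200121) (nat_lit 1292) (nat_lit 353720508) (nat_lit 1368) (nat_lit 6561178614) (nat_lit 458) (nat_lit 5) (nat_lit 475) (nat_lit 5) (nat_lit 476) (nat_lit 5) (nat_lit 281) (nat_lit 256) (nat_lit 243)) (XT.lf (nat_lit 0) (nat_lit 4387255490) (nat_lit 1368) (nat_lit 681670141) (nat_lit 76) (nat_lit 1996621149) (nat_lit 458) (nat_lit 5) (nat_lit 476) (nat_lit 5) (nat_lit 459) (nat_lit 5) (nat_lit 282) (nat_lit 256) (nat_lit 242)))) (XT.nd (nat_lit 78) (nat_lit 3040) (nat_lit 0) (XT.lf (nat_lit 0) (nat_lit 1222028185) (nat_lit 1444) (nat_lit 1431193903) (nat_lit 76) (nat_lit 4475159811) (nat_lit 439) (nat_lit 5) (nat_lit 458) (nat_lit 5) (nat_lit 440) (nat_lit 5) (nat_lit 283) (nat_lit 256) (nat_lit 241)) (XT.nd (nat_lit 78) (nat_lit 1596) (nat_lit 0) (XT.lf (nat_lit 0) (nat_lit 5026081809) (nat_lit 1444) (nat_lit 95836673) (nat_lit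 1520) (nat_lit 2072587574) (nat_lit 420) (nat_lit 5) (nat_lit 439) (nat_lit 5) (nat_lit 440) (nat_lit 5) (nat_lit 284) (nat_lit 256) (nat_lit 240)) (XT.lf (nat_lit 0) (nat_lit 1789969064) (nat_lit 1596) (nat_lit 2907187609) (nat_lit 76) (nat_lit 2566576383) (nat_lit 399) (nat_lit 5) (nat_lit 420) (nat_lit 5) (nat_lit 400) (nat_lit 5) (nat_lit 285) (nat_lit 256) (nat_lit 239))))) (XT.nd (nat_lit 234) (nat_lit 2584) (nat_lit 0) (XT.nd (nat_lit 78) (nat_lit 2888) (nat_lit 0) (XT.lf (nat_lit 0) (nat_lit 3699775393) (nat_lit 1596) (nat_lit 1966210313) (nat_lit 1672) (nat_lit 1670388961) (nat_lit 378) (nat_lit 5) (nat_lit 399) (nat_lit 5) (nat_lit 400) (nat_lit 5) (nat_lit 286) (nat_lit 256) (nat_lit 238)) (XT.nd (nat_lit 78) (nat_lit 1140) (nat_lit 0) (XT.lf (nat_lit 0) (nat_lit 2151070432) (nat_lit 1748) (nat_lit 4365343738) (nat_lit 76) (nat_lit 895941014) (nat_lit 355) (nat_lit 5) (nat_lit 378) (nat_lit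 5) (nat_lit 356) (nat_lit 5) (nat_lit 287) (nat_lit 256) (nat_lit 237)) (XT.lf (nat_lit 0) (nat_lit 2390806647) (nat_lit 1140) (nat_lit 3617805521) (nat_lit 1216) (nat_lit 1483016492) (nat_lit 340) (nat_lit 5) (nat_lit 355) (nat_lit 5) (nat_lit 356) (nat_lit 5) (nat_lit 288) (nat_lit 256) (nat_lit 236)))) (XT.nd (nat_lit 156) (nat_lit 836) (nat_lit 0) (XT.nd (nat_lit 78) (nat_lit 836) (nat_lit 0) (XT.lf (nat_lit 0) (nat_lit 1736989829) (nat_lit 836) (nat_lit 573286522) (nat_lit 912) (nat_lit 5264137294) (nat_lit 328) (nat_lit 5) (nat_lit 339) (nat_lit 5) (nat_lit 340) (nat_lit 5) (nat_lit 289) (nat_lit 256) (nat_lit 235)) (XT.lf (nat_lit 0) (nat_lit 1070876184) (nat_lit 836) (nat_lit 5079514670) (nat_lit 912) (nat_lit 1510139987) (nat_lit 317) (nat_lit 5) (nat_lit 328) (nat_lit 5) (nat_lit 329) (nat_lit 5) (nat_lit 290) (nat_lit 256) (nat_lit 234))) (XT.nd (nat_lit 78) (nat_lit 0) (nat_lit 0) (XT.lf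 (nat_lit 0) (nat_lit 396803664) (nat_lit 760) (nat_lit 1871266296) (nat_lit 836) (nat_lit 5482108561) (nat_lit 306) (nat_lit 5) (nat_lit 316) (nat_lit 5) (nat_lit 317) (nat_lit 5) (nat_lit 291) (nat_lit 256) (nat_lit 233)) (XT.lf (nat_lit 0) (nat_lit 6092065115) (nat_lit 836) (nat_lit 285529077) (nat_lit 76) (nat_lit 1465762618) (nat_lit 306) (nat_lit 5) (nat_lit 317) (nat_lit 5) (nat_lit 307) (nat_lit 5) (nat_lit 292) (nat_lit 256) (nat_lit 232)))))) (XT.nd (nat_lit 546) (nat_lit 3648) (nat_lit 0) (XT.nd (nat_lit 234) (nat_lit 2812) (nat_lit 0) (XT.nd (nat_lit 78) (nat_lit 1596) (nat_lit 0) (XT.lf (nat_lit 0) (nat_lit 2022954585) (nat_lit 912) (nat_lit 984449450) (nat_lit 76) (nat_lit 4932571258) (nat_lit 294) (nat_lit 5) (nat_lit 306) (nat_lit 5) (nat_lit 295) (nat_lit 5) (nat_lit 293) (nat_lit 256) (nat_lit 231)) (XT.nd (nat_lit 78) (nat_lit 836) (nat_lit 0) (XT.lf (nat_lit 0) (nat_lit 5836261348)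 (nat_lit 836) (nat_lit 1697817179) (nat_lit 76) (nat_lit 506282109) (nat_lit 284) (nat_lit 5) (nat_lit 295) (nat_lit 5) (nat_lit 285) (nat_lit 5) (nat_lit 294) (nat_lit 256) (nat_lit 230)) (XT.lf (nat_lit 0) (nat_lit 1567690240) (nat_lit 836) (nat_lit 2444937698) (nat_lit 76) (nat_lit 4131632517) (nat_lit 273) (nat_lit 5) (nat_lit 284) (nat_lit 5) (nat_lit 274) (nat_lit 5) (nat_lit 295) (nat_lit 256) (nat_lit 229)))) (XT.nd (nat_lit 156) (nat_lit 1368) (nat_lit 0) (XT.nd (nat_lit 78) (nat_lit 760) (nat_lit 0) (XT.lf (nat_lit 0) (nat_lit 5038106293) (nat_lit 684) (nat_lit 335567263) (nat_lit 760) (nat_lit 2878377970) (nat_lit 264) (nat_lit 5) (nat_lit 273) (nat_lit 5) (nat_lit 274) (nat_lit 5) (nat_lit 296) (nat_lit 256) (nat_lit 228)) (XT.lf (nat_lit 0) (nat_lit 894137078) (nat_lit 760) (nat_lit 4022554201) (nat_lit 76) (nat_lit 3446833736) (nat_lit 254) (nat_lit 5) (nat_lit 264) (nat_lit 5) (nat_lit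 255) (nat_lit 5) (nat_lit 297) (nat_lit 256) (nat_lit 227))) (XT.nd (nat_lit 78) (nat_lit 684) (nat_lit 0) (XT.lf (nat_lit 0) (nat_lit 3610865858) (nat_lit 684) (nat_lit 1087532800) (nat_lit 760) (nat_lit 3780488858) (nat_lit 245) (nat_lit 5) (nat_lit 254) (nat_lit 5) (nat_lit 255) (nat_lit 5) (nat_lit 298) (nat_lit 256) (nat_lit 226)) (XT.lf (nat_lit 0) (nat_lit 2846238735) (nat_lit 684) (nat_lit 5746733500) (nat_lit 760) (nat_lit 5291543) (nat_lit 236) (nat_lit 5) (nat_lit 245) (nat_lit 5) (nat_lit 246) (nat_lit 5) (nat_lit 299) (nat_lit 256) (nat_lit 225))))) (XT.nd (nat_lit 234) (nat_lit 1748) (nat_lit 0) (XT.nd (nat_lit 78) (nat_lit 1216) (nat_lit 0) (XT.lf (nat_lit 0) (nat_lit 2028807576) (nat_lit 608) (nat_lit 1770060735) (nat_lit 684) (nat_lit 4922588956) (nat_lit 227) (nat_lit 5) (nat_lit 235) (nat_lit 5) (nat_lit 236) (nat_lit 5) (nat_lit 300) (nat_lit 256) (nat_lit 224)) (XT.nd (nat_lit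 78) (nat_lit 608) (nat_lit 0) (XT.lf (nat_lit 0) (nat_lit 1171105085) (nat_lit 608) (nat_lit 6522671317) (nat_lit 684) (nat_lit 1155106311) (nat_lit 219) (nat_lit 5) (nat_lit 227) (nat_lit 5) (nat_lit 228) (nat_lit 5) (nat_lit 301) (nat_lit 256) (nat_lit 223)) (XT.lf (nat_lit 0) (nat_lit 254054244) (nat_lit 532) (nat_lit 2410699409) (nat_lit 608) (nat_lit 6315588778) (nat_lit 211) (nat_lit 5) (nat_lit 218) (nat_lit 5) (nat_lit 219) (nat_lit 5) (nat_lit 302) (nat_lit 256) (nat_lit 222)))) (XT.nd (nat_lit 156) (nat_lit 1064) (nat_lit 0) (XT.nd (nat_lit 78) (nat_lit 684) (nat_lit 0) (XT.lf (nat_lit 0) (nat_lit 6565453368) (nat_lit 608) (nat_lit 708213822) (nat_lit 76) (nat_lit 1842352689) (nat_lit 211) (nat_lit 5) (nat_lit 219) (nat_lit 5) (nat_lit 212) (nat_lit 5) (nat_lit 303) (nat_lit 256) (nat_lit 221)) (XT.lf (nat_lit 0) (nat_lit 1294898535) (nat_lit 684) (nat_lit 1731105705) (nat_lit 76) (nat_lit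 6229955256) (nat_lit 202) (nat_lit 5) (nat_lit 211) (nat_lit 5) (nat_lit 203) (nat_lit 5) (nat_lit 304) (nat_lit 256) (nat_lit 220))) (XT.nd (nat_lit 78) (nat_lit 532) (nat_lit 0) (XT.lf (nat_lit 0) (nat_lit 5199056065) (nat_lit 608) (nat_lit 2824654529) (nat_lit 76) (nat_lit 1376550333) (nat_lit 195) (nat_lit 5) (nat_lit 203) (nat_lit 5) (nat_lit 196) (nat_lit 5) (nat_lit 305) (nat_lit 256) (nat_lit 219)) (XT.lf (nat_lit 0) (nat_lit 5560268984) (nat_lit 532) (nat_lit 3650890496) (nat_lit 608) (nat_lit 337974165) (nat_lit 188) (nat_lit 5) (nat_lit 195) (nat_lit 5) (nat_lit 196) (nat_lit 5) (nat_lit 306) (nat_lit 256) (nat_lit 218))))))))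
noncomputable def xc44 : XT := (XT.nd (nat_lit 2028) (nat_lit 3724) (nat_lit 0) (XT.nd (nat_lit 1014) (nat_lit 3420) (nat_lit 0) (XT.nd (nat_lit 468) (nat_lit 2584) (nat_lit 0) (XT.nd (nat_lit 234) (nat_lit 988) (nat_lit 0) (XT.nd (nat_lit 78) (nat_lit 1064) (nat_lit 0) (XT.lf (nat_lit 0) (nat_lit 3571298013) (nat_lit 608) (nat_lit 5238681846) (nat_lit 76) (nat_lit 892517734) (nat_lit 180) (nat_lit 5) (nat_lit 188) (nat_lit 5) (nat_lit 181) (nat_lit 5) (nat_lit 307) (nat_lit 256) (nat_lit 217)) (XT.nd (nat_lit 78) (nat_lit 532) (nat_lit 0) (XT.lf (nat_lit 0) (nat_lit 3282782105) (nat_lit 532) (nat_lit 4308626709) (nat_lit 608) (nat_lit 2269100134) (nat_lit 173) (nat_lit 5) (nat_lit 180) (nat_lit 5) (nat_lit 181) (nat_lit 5) (nat_lit 308) (nat_lit 256) (nat_lit 216)) (XT.lf (nat_lit 0) (nat_lit 1663916533) (nat_lit 532) (nat_lit 7999274137) (nat_lit 76) (nat_lit 360350351) (nat_lit 166) (nat_lit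 5) (nat_lit 173) (nat_lit 5) (nat_lit 167) (nat_lit 5) (nat_lit 309) (nat_lit 256) (nat_lit 215)))) (XT.nd (nat_lit 78) (nat_lit 532) (nat_lit 0) (XT.lf (nat_lit 0) (nat_lit 650665019) (nat_lit 456) (nat_lit 5039087024) (nat_lit 532) (nat_lit 4501349008) (nat_lit 160) (nat_lit 5) (nat_lit 166) (nat_lit 5) (nat_lit 167) (nat_lit 5) (nat_lit 310) (nat_lit 256) (nat_lit 214)) (XT.nd (nat_lit 78) (nat_lit 532) (nat_lit 0) (XT.lf (nat_lit 0) (nat_lit 9573807394) (nat_lit 456) (nat_lit 245822983) (nat_lit 532) (nat_lit 544440791) (nat_lit 160) (nat_lit 5) (nat_lit 166) (nat_lit 5) (nat_lit 167) (nat_lit 5) (nat_lit 311) (nat_lit 256) (nat_lit 213)) (XT.lf (nat_lit 0) (nat_lit 3499617989) (nat_lit 532) (nat_lit 2359706591) (nat_lit 76) (nat_lit 4682198466) (nat_lit 153) (nat_lit 5) (nat_lit 160) (nat_lit 5) (nat_lit 154) (nat_lit 5) (nat_lit 312) (nat_lit 256) (nat_lit 212))))) (XT.nd (nat_lit 234) (nat_lit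 1216) (nat_lit 0) (XT.nd (nat_lit 78) (nat_lit 912) (nat_lit 0) (XT.lf (nat_lit 0) (nat_lit 6698528039) (nat_lit 456) (nat_lit 941528590) (nat_lit 532) (nat_lit 3084565729) (nat_lit 147) (nat_lit 5) (nat_lit 153) (nat_lit 5) (nat_lit 154) (nat_lit 5) (nat_lit 313) (nat_lit 256) (nat_lit 211)) (XT.nd (nat_lit 78) (nat_lit 456) (nat_lit 0) (XT.lf (nat_lit 0) (nat_lit 987561441) (nat_lit 456) (nat_lit 5825106950) (nat_lit 76) (nat_lit 4100278869) (nat_lit 141) (nat_lit 5) (nat_lit 147) (nat_lit 5) (nat_lit 142) (nat_lit 5) (nat_lit 314) (nat_lit 256) (nat_lit 210)) (XT.lf (nat_lit 0) (nat_lit 3347944578) (nat_lit 456) (nat_lit 1781719106) (nat_lit 532) (nat_lit 5977097615) (nat_lit 135) (nat_lit 5) (nat_lit 141) (nat_lit 5) (nat_lit 142) (nat_lit 5) (nat_lit 315) (nat_lit 256) (nat_lit 209)))) (XT.nd (nat_lit 156) (nat_lit 760) (nat_lit 0) (XT.nd (nat_lit 78) (nat_lit 76) (nat_lit 0) (XT.lf (nat_lit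 0) (nat_lit 1474886290) (nat_lit 380) (nat_lit 7927669674) (nat_lit 456) (nat_lit 1903743586) (nat_lit 130) (nat_lit 5) (nat_lit 135) (nat_lit 5) (nat_lit 136) (nat_lit 5) (nat_lit 316) (nat_lit 256) (nat_lit 208)) (XT.lf (nat_lit 0) (nat_lit 2262572918) (nat_lit 456) (nat_lit 537942778) (nat_lit 76) (nat_lit 8711032652) (nat_lit 129) (nat_lit 5) (nat_lit 135) (nat_lit 5) (nat_lit 130) (nat_lit 5) (nat_lit 317) (nat_lit 256) (nat_lit 207))) (XT.nd (nat_lit 78) (nat_lit 380) (nat_lit 0) (XT.lf (nat_lit 0) (nat_lit 6541175456) (nat_lit 456) (nat_lit 2688056517) (nat_lit 76) (nat_lit 2493245012) (nat_lit 124) (nat_lit 5) (nat_lit 130) (nat_lit 5) (nat_lit 125) (nat_lit 5) (nat_lit 318) (nat_lit 256) (nat_lit 206)) (XT.lf (nat_lit 0) (nat_lit 6945201919) (nat_lit 380) (nat_lit 4009336126) (nat_lit 456) (nat_lit 985103581) (nat_lit 119) (nat_lit 5) (nat_lit 124) (nat_lit 5) (nat_lit 125) (nat_lit 5)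 (nat_lit 319) (nat_lit 256) (nat_lit 205)))))) (XT.nd (nat_lit 468) (nat_lit 1596) (nat_lit 0) (XT.nd (nat_lit 234) (nat_lit 1064) (nat_lit 0) (XT.nd (nat_lit 78) (nat_lit 304) (nat_lit 0) (XT.lf (nat_lit 0) (nat_lit 3290874724) (nat_lit 456) (nat_lit 7479443561) (nat_lit 76) (nat_lit 1392650852) (nat_lit 113) (nat_lit 5) (nat_lit 119) (nat_lit 5) (nat_lit 114) (nat_lit 5) (nat_lit 320) (nat_lit 256) (nat_lit 204)) (XT.nd (nat_lit 78) (nat_lit 0) (nat_lit 0) (XT.lf (nat_lit 0) (nat_lit 2235781794) (nat_lit 304) (nat_lit 5462145754) (nat_lit 380) (nat_lit 4694648555) (nat_lit 109) (nat_lit 5) (nat_lit 113) (nat_lit 5) (nat_lit 114) (nat_lit 5) (nat_lit 321) (nat_lit 256) (nat_lit 203)) (XT.lf (nat_lit 0) (nat_lit 12229933963) (nat_lit 380) (nat_lit 370962756) (nat_lit 76) (nat_lit 28352183) (nat_lit 109) (nat_lit 5) (nat_lit 114) (nat_lit 5) (nat_lit 110) (nat_lit 5) (nat_lit 322) (nat_lit 256)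 (nat_lit 202)))) (XT.nd (nat_lit 78) (nat_lit 608) (nat_lit 0) (XT.lf (nat_lit 0) (nat_lit 4015333390) (nat_lit 456) (nat_lit 3184121036) (nat_lit 76) (nat_lit 5672210880) (nat_lit 103) (nat_lit 5) (nat_lit 109) (nat_lit 5) (nat_lit 104) (nat_lit 5) (nat_lit 323) (nat_lit 256) (nat_lit 201)) (XT.nd (nat_lit 78) (nat_lit 304) (nat_lit 0) (XT.lf (nat_lit 0) (nat_lit 6935624749) (nat_lit 304) (nat_lit 1613060001) (nat_lit 380) (nat_lit 4572812889) (nat_lit 99) (nat_lit 5) (nat_lit 103) (nat_lit 5) (nat_lit 104) (nat_lit 5) (nat_lit 324) (nat_lit 256) (nat_lit 200)) (XT.lf (nat_lit 0) (nat_lit 3965324387) (nat_lit 304) (nat_lit 9272067735) (nat_lit 380) (nat_lit 141074838) (nat_lit 95) (nat_lit 5) (nat_lit 99) (nat_lit 5) (nat_lit 100) (nat_lit 5) (nat_lit 325) (nat_lit 256) (nat_lit 199))))) (XT.nd (nat_lit 234) (nat_lit 912) (nat_lit 0) (XT.nd (nat_lit 78) (nat_lit 304) (nat_lit 0) (XT.lf (nat_lit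 0) (nat_lit 750280831) (nat_lit 304) (nat_lit 3618857867) (nat_lit 380) (nat_lit 9273389166) (nat_lit 90) (nat_lit 5) (nat_lit 94) (nat_lit 5) (nat_lit 95) (nat_lit 5) (nat_lit 326) (nat_lit 256) (nat_lit 198)) (XT.nd (nat_lit 78) (nat_lit 304) (nat_lit 0) (XT.lf (nat_lit 0) (nat_lit 9037822479) (nat_lit 380) (nat_lit 2664208640) (nat_lit 76) (nat_lit 2211986132) (nat_lit 90) (nat_lit 5) (nat_lit 95) (nat_lit 5) (nat_lit 91) (nat_lit 5) (nat_lit 327) (nat_lit 256) (nat_lit 197)) (XT.lf (nat_lit 0) (nat_lit 7869334097) (nat_lit 304) (nat_lit 6000634498) (nat_lit 380) (nat_lit 323240822) (nat_lit 86) (nat_lit 5) (nat_lit 90) (nat_lit 5) (nat_lit 91) (nat_lit 5) (nat_lit 328) (nat_lit 256) (nat_lit 196)))) (XT.nd (nat_lit 156) (nat_lit 304) (nat_lit 0) (XT.nd (nat_lit 78) (nat_lit 304) (nat_lit 0) (XT.lf (nat_lit 0) (nat_lit 4222093791) (nat_lit 228) (nat_lit 81272968) (nat_lit 304) (nat_lit 10176981885)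 (nat_lit 82) (nat_lit 5) (nat_lit 85) (nat_lit 5) (nat_lit 86) (nat_lit 5) (nat_lit 329) (nat_lit 256) (nat_lit 195)) (XT.lf (nat_lit 0) (nat_lit 278611020) (nat_lit 304) (nat_lit 8819342713) (nat_lit 380) (nat_lit 5677458278) (nat_lit 78) (nat_lit 5) (nat_lit 82) (nat_lit 5) (nat_lit 83) (nat_lit 5) (nat_lit 330) (nat_lit 256) (nat_lit 194))) (XT.nd (nat_lit 78) (nat_lit 304) (nat_lit 0) (XT.lf (nat_lit 0) (nat_lit 11193436249) (nat_lit 304) (nat_lit 2863502930) (nat_lit 380) (nat_lit 1022000326) (nat_lit 78) (nat_lit 5) (nat_lit 82) (nat_lit 5) (nat_lit 83) (nat_lit 5) (nat_lit 331) (nat_lit 256) (nat_lit 193)) (XT.lf (nat_lit 0) (nat_lit 3742444379) (nat_lit 304) (nat_lit 8377177904) (nat_lit 76) (nat_lit 3271106742) (nat_lit 74) (nat_lit 5) (nat_lit 78) (nat_lit 5) (nat_lit 75) (nat_lit 5) (nat_lit 332) (nat_lit 256) (nat_lit 192))))))) (XT.nd (nat_lit 1014) (nat_lit 1672) (nat_lit 0) (XT.nd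 (nat_lit 468) (nat_lit 912) (nat_lit 0) (XT.nd (nat_lit 234) (nat_lit 532) (nat_lit 0) (XT.nd (nat_lit 78) (nat_lit 304) (nat_lit 0) (XT.lf (nat_lit 0) (nat_lit 2512249669) (nat_lit 304) (nat_lit 6138081603) (nat_lit 380) (nat_lit 7061139642) (nat_lit 70) (nat_lit 5) (nat_lit 74) (nat_lit 5) (nat_lit 75) (nat_lit 5) (nat_lit 333) (nat_lit 256) (nat_lit 191)) (XT.nd (nat_lit 78) (nat_lit 304) (nat_lit 0) (XT.lf (nat_lit 0) (nat_lit 13715817077) (nat_lit 380) (nat_lit 2273695543) (nat_lit 76) (nat_lit 52136227) (nat_lit 70) (nat_lit 5) (nat_lit 75) (nat_lit 5) (nat_lit 71) (nat_lit 5) (nat_lit 334) (nat_lit 256) (nat_lit 190)) (XT.lf (nat_lit 0) (nat_lit 2572217868) (nat_lit 304) (nat_lit 7414536850) (nat_lit 76) (nat_lit 6393583170) (nat_lit 66) (nat_lit 5) (nat_lit 70) (nat_lit 5) (nat_lit 67) (nat_lit 5) (nat_lit 335) (nat_lit 256) (nat_lit 189)))) (XT.nd (nat_lit 78) (nat_lit 304) (nat_lit 0)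 (XT.lf (nat_lit 0) (nat_lit 3806260803) (nat_lit 228) (nat_lit 3774732808) (nat_lit 304) (nat_lit 9147998282) (nat_lit 63) (nat_lit 5) (nat_lit 66) (nat_lit 5) (nat_lit 67) (nat_lit 5) (nat_lit 336) (nat_lit 256) (nat_lit 188)) (XT.nd (nat_lit 78) (nat_lit 304) (nat_lit 0) (XT.lf (nat_lit 0) (nat_lit 12763293355) (nat_lit 304) (nat_lit 1711567609) (nat_lit 76) (nat_lit 2612798213) (nat_lit 63) (nat_lit 5) (nat_lit 67) (nat_lit 5) (nat_lit 64) (nat_lit 5) (nat_lit 337) (nat_lit 256) (nat_lit 187)) (XT.lf (nat_lit 0) (nat_lit 682085767) (nat_lit 304) (nat_lit 7590701446) (nat_lit 76) (nat_lit 9183302486) (nat_lit 59) (nat_lit 5) (nat_lit 63) (nat_lit 5) (nat_lit 60) (nat_lit 5) (nat_lit 338) (nat_lit 256) (nat_lit 186))))) (XT.nd (nat_lit 234) (nat_lit 456) (nat_lit 0) (XT.nd (nat_lit 78) (nat_lit 228) (nat_lit 0) (XT.lf (nat_lit 0) (nat_lit 3930682748) (nat_lit 228) (nat_lit 1844277977) (nat_lit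 304) (nat_lit 12060158552) (nat_lit 56) (nat_lit 5) (nat_lit 59) (nat_lit 5) (nat_lit 60) (nat_lit 5) (nat_lit 339) (nat_lit 256) (nat_lit 185)) (XT.nd (nat_lit 78) (nat_lit 228) (nat_lit 0) (XT.lf (nat_lit 0) (nat_lit 11061487272) (nat_lit 304) (nat_lit 2423398501) (nat_lit 76) (nat_lit 4739833597) (nat_lit 56) (nat_lit 5) (nat_lit 60) (nat_lit 5) (nat_lit 57) (nat_lit 5) (nat_lit 340) (nat_lit 256) (nat_lit 184)) (XT.lf (nat_lit 0) (nat_lit 9446481872) (nat_lit 228) (nat_lit 7093086976) (nat_lit 304) (nat_lit 2085795869) (nat_lit 53) (nat_lit 5) (nat_lit 56) (nat_lit 5) (nat_lit 57) (nat_lit 5) (nat_lit 341) (nat_lit 256) (nat_lit 183)))) (XT.nd (nat_lit 156) (nat_lit 152) (nat_lit 0) (XT.nd (nat_lit 78) (nat_lit 0) (nat_lit 0) (XT.lf (nat_lit 0) (nat_lit 2615097041) (nat_lit 228) (nat_lit 480911500) (nat_lit 304) (nat_lit 15941762705) (nat_lit 49) (nat_lit 5) (nat_lit 52) (nat_lit 5) (nat_lit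 53) (nat_lit 5) (nat_lit 342) (nat_lit 256) (nat_lit 182)) (XT.lf (nat_lit 0) (nat_lit 8469144462) (nat_lit 304) (nat_lit 4694388020) (nat_lit 76) (nat_lit 6297472635) (nat_lit 49) (nat_lit 5) (nat_lit 53) (nat_lit 5) (nat_lit 50) (nat_lit 5) (nat_lit 343) (nat_lit 256) (nat_lit 181))) (XT.nd (nat_lit 78) (nat_lit 0) (nat_lit 0) (XT.lf (nat_lit 0) (nat_lit 7415550410) (nat_lit 152) (nat_lit 6600788300) (nat_lit 228) (nat_lit 5880354758) (nat_lit 47) (nat_lit 5) (nat_lit 49) (nat_lit 5) (nat_lit 50) (nat_lit 5) (nat_lit 344) (nat_lit 256) (nat_lit 180)) (XT.lf (nat_lit 0) (nat_lit 19725048960) (nat_lit 228) (nat_lit 456813186) (nat_lit 76) (nat_lit 163702639) (nat_lit 47) (nat_lit 5) (nat_lit 50) (nat_lit 5) (nat_lit 48) (nat_lit 5) (nat_lit 345) (nat_lit 256) (nat_lit 179)))))) (XT.nd (nat_lit 546) (nat_lit 760) (nat_lit 0) (XT.nd (nat_lit 234) (nat_lit 456) (nat_lit 0) (XT.nd (nat_lit 78) (nat_lit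 152) (nat_lit 0) (XT.lf (nat_lit 0) (nat_lit 4819825642) (nat_lit 304) (nat_lit 8858650824) (nat_lit 76) (nat_lit 7127104037) (nat_lit 43) (nat_lit 5) (nat_lit 47) (nat_lit 5) (nat_lit 44) (nat_lit 5) (nat_lit 346) (nat_lit 256) (nat_lit 178)) (XT.nd (nat_lit 78) (nat_lit 0) (nat_lit 0) (XT.lf (nat_lit 0) (nat_lit 3429072110) (nat_lit 152) (nat_lit 6974880444) (nat_lit 228) (nat_lit 10875595227) (nat_lit 41) (nat_lit 5) (nat_lit 43) (nat_lit 5) (nat_lit 44) (nat_lit 5) (nat_lit 347) (nat_lit 256) (nat_lit 177)) (XT.lf (nat_lit 0) (nat_lit 16146248428) (nat_lit 152) (nat_lit 33630010) (nat_lit 228) (nat_lit 5587382985) (nat_lit 41) (nat_lit 5) (nat_lit 43) (nat_lit 5) (nat_lit 44) (nat_lit 5) (nat_lit 348) (nat_lit 256) (nat_lit 176)))) (XT.nd (nat_lit 156) (nat_lit 152) (nat_lit 0) (XT.nd (nat_lit 78) (nat_lit 76) (nat_lit 0) (XT.lf (nat_lit 0) (nat_lit 6961202363) (nat_lit 228) (nat_lit 15224409278)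 (nat_lit 304) (nat_lit 82876715) (nat_lit 38) (nat_lit 5) (nat_lit 41) (nat_lit 5) (nat_lit 42) (nat_lit 5) (nat_lit 349) (nat_lit 256) (nat_lit 175)) (XT.lf (nat_lit 0) (nat_lit 5517590779) (nat_lit 304) (nat_lit 2881651740) (nat_lit 76) (nat_lit 14384714041) (nat_lit 37) (nat_lit 5) (nat_lit 41) (nat_lit 5) (nat_lit 38) (nat_lit 5) (nat_lit 350) (nat_lit 256) (nat_lit 174))) (XT.nd (nat_lit 78) (nat_lit 0) (nat_lit 0) (XT.lf (nat_lit 0) (nat_lit 9990194481) (nat_lit 152) (nat_lit 1326155753) (nat_lit 228) (nat_lit 11997911070) (nat_lit 35) (nat_lit 5) (nat_lit 37) (nat_lit 5) (nat_lit 38) (nat_lit 5) (nat_lit 351) (nat_lit 256) (nat_lit 173)) (XT.lf (nat_lit 0) (nat_lit 17314413425) (nat_lit 228) (nat_lit 667882165) (nat_lit 76) (nat_lit 5877683971) (nat_lit 35) (nat_lit 5) (nat_lit 38) (nat_lit 5) (nat_lit 36) (nat_lit 5) (nat_lit 352) (nat_lit 256) (nat_lit 172))))) (XT.nd (nat_lit 234) (nat_lit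 380) (nat_lit 0) (XT.nd (nat_lit 78) (nat_lit 228) (nat_lit 0) (XT.lf (nat_lit 0) (nat_lit 12467665989) (nat_lit 152) (nat_lit 11082524877) (nat_lit 228) (nat_lit 870733919) (nat_lit 33) (nat_lit 5) (nat_lit 35) (nat_lit 5) (nat_lit 36) (nat_lit 5) (nat_lit 353) (nat_lit 256) (nat_lit 171)) (XT.nd (nat_lit 78) (nat_lit 0) (nat_lit 0) (XT.lf (nat_lit 0) (nat_lit 933218746) (nat_lit 152) (nat_lit 3954818808) (nat_lit 228) (nat_lit 20110446546) (nat_lit 30) (nat_lit 5) (nat_lit 32) (nat_lit 5) (nat_lit 33) (nat_lit 5) (nat_lit 354) (nat_lit 256) (nat_lit 170)) (XT.lf (nat_lit 0) (nat_lit 10880081296) (nat_lit 228) (nat_lit 11304300050) (nat_lit 76) (nat_lit 3407436997) (nat_lit 30) (nat_lit 5) (nat_lit 33) (nat_lit 5) (nat_lit 31) (nat_lit 5) (nat_lit 355) (nat_lit 256) (nat_lit 169)))) (XT.nd (nat_lit 156) (nat_lit 228) (nat_lit 0) (XT.nd (nat_lit 78) (nat_lit 0) (nat_lit 0) (XT.lf (nat_lit 0) (nat_lit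 1783908572) (nat_lit 152) (nat_lit 15275665249) (nat_lit 228) (nat_lit 9143234790) (nat_lit 28) (nat_lit 5) (nat_lit 30) (nat_lit 5) (nat_lit 31) (nat_lit 5) (nat_lit 356) (nat_lit 256) (nat_lit 168)) (XT.lf (nat_lit 0) (nat_lit 15367816510) (nat_lit 152) (nat_lit 8103441856) (nat_lit 228) (nat_lit 3359943542) (nat_lit 28) (nat_lit 5) (nat_lit 30) (nat_lit 5) (nat_lit 31) (nat_lit 5) (nat_lit 357) (nat_lit 256) (nat_lit 167))) (XT.nd (nat_lit 78) (nat_lit 0) (nat_lit 0) (XT.lf (nat_lit 0) (nat_lit 1837460069) (nat_lit 152) (nat_lit 708131170) (nat_lit 228) (nat_lit 24932871506) (nat_lit 25) (nat_lit 5) (nat_lit 27) (nat_lit 5) (nat_lit 28) (nat_lit 5) (nat_lit 358) (nat_lit 256) (nat_lit 166)) (XT.lf (nat_lit 0) (nat_lit 8677216740) (nat_lit 228) (nat_lit 12567381970) (nat_lit 76) (nat_lit 6898215797) (nat_lit 25) (nat_lit 5) (nat_lit 28) (nat_lit 5) (nat_lit 26) (nat_lit 5) (nat_lit 359) (nat_lit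 256) (nat_lit 165))))))))
noncomputable def xc45 : XT := (XT.nd (nat_lit 35100) (nat_lit 0) (nat_lit 8968) (XT.nd (nat_lit 34086) (nat_lit 0) (nat_lit 24016) (XT.nd (nat_lit 33540) (nat_lit 0) (nat_lit 39976) (XT.nd (nat_lit 33306) (nat_lit 0) (nat_lit 44156) (XT.nd (nat_lit 78) (nat_lit 0) (nat_lit 0) (XT.lf (nat_lit 0) (nat_lit 856207341) (nat_lit 152) (nat_lit 14118976288) (nat_lit 228) (nat_lit 13852273831) (nat_lit 23) (nat_lit 5) (nat_lit 25) (nat_lit 5) (nat_lit 26) (nat_lit 5) (nat_lit 360) (nat_lit 256) (nat_lit 164)) (XT.nd (nat_lit 78) (nat_lit 0) (nat_lit 0) (XT.lf (nat_lit 0) (nat_lit 14806585544) (nat_lit 152) (nat_lit 6713263902) (nat_lit 228) (nat_lit 8011643301) (nat_lit 23) (nat_lit 5) (nat_lit 25) (nat_lit 5) (nat_lit 26) (nat_lit 5) (nat_lit 361) (nat_lit 256) (nat_lit 163)) (XT.lf (nat_lit 0) (nat_lit 28240061517) (nat_lit 228) (nat_lit 1134069577) (nat_lit 76) (nat_lit 882941877)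 (nat_lit 23) (nat_lit 5) (nat_lit 26) (nat_lit 5) (nat_lit 24) (nat_lit 4) (nat_lit 362) (nat_lit 256) (nat_lit 162)))) (XT.nd (nat_lit 78) (nat_lit 456) (nat_lit 0) (XT.lf (nat_lit 0) (nat_lit 622413649) (nat_lit 380) (nat_lit 1996391793) (nat_lit 0) (nat_lit 622413649) (nat_lit 610) (nat_lit 5) (nat_lit 615) (nat_lit 4) (nat_lit 610) (nat_lit 4) (nat_lit 266) (nat_lit 257) (nat_lit 257)) (XT.nd (nat_lit 78) (nat_lit 76) (nat_lit 0) (XT.lf (nat_lit 0) (nat_lit 1051357809) (nat_lit 380) (nat_lit 4621146484) (nat_lit 380) (nat_lit 824930018) (nat_lit 605) (nat_lit 4) (nat_lit 610) (nat_lit 5) (nat_lit 610) (nat_lit 4) (nat_lit 267) (nat_lit 257) (nat_lit 256)) (XT.lf (nat_lit 0) (nat_lit 3536347977) (nat_lit 456) (nat_lit 338440608) (nat_lit 76) (nat_lit 2640563665) (nat_lit 604) (nat_lit 5) (nat_lit 610) (nat_lit 5) (nat_lit 605) (nat_lit 4) (nat_lit 268) (nat_lit 257) (nat_lit 255))))) (XT.nd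 (nat_lit 234) (nat_lit 2432) (nat_lit 0) (XT.nd (nat_lit 78) (nat_lit 1216) (nat_lit 0) (XT.lf (nat_lit 0) (nat_lit 1337272652) (nat_lit 532) (nat_lit 1664579365) (nat_lit 76) (nat_lit 3534433421) (nat_lit 597) (nat_lit 5) (nat_lit 604) (nat_lit 5) (nat_lit 598) (nat_lit 5) (nat_lit 269) (nat_lit 257) (nat_lit 254)) (XT.nd (nat_lit 78) (nat_lit 684) (nat_lit 0) (XT.lf (nat_lit 0) (nat_lit 3611511868) (nat_lit 532) (nat_lit 2002230046) (nat_lit 608) (nat_lit 946523118) (nat_lit 590) (nat_lit 5) (nat_lit 597) (nat_lit 5) (nat_lit 598) (nat_lit 5) (nat_lit 270) (nat_lit 257) (nat_lit 253)) (XT.lf (nat_lit 0) (nat_lit 2391413428) (nat_lit 608) (nat_lit 871805750) (nat_lit 684) (nat_lit 3324029211) (nat_lit 581) (nat_lit 5) (nat_lit 589) (nat_lit 5) (nat_lit 590) (nat_lit 5) (nat_lit 271) (nat_lit 257) (nat_lit 252)))) (XT.nd (nat_lit 156) (nat_lit 912) (nat_lit 0) (XT.nd (nat_lit 78) (nat_lit 760)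 (nat_lit 0) (XT.lf (nat_lit 0) (nat_lit 839686687) (nat_lit 760) (nat_lit 5401219242) (nat_lit 76) (nat_lit 376478652) (nat_lit 571) (nat_lit 5) (nat_lit 581) (nat_lit 5) (nat_lit 572) (nat_lit 5) (nat_lit 272) (nat_lit 257) (nat_lit 251)) (XT.lf (nat_lit 0) (nat_lit 68924846) (nat_lit 760) (nat_lit 4903798918) (nat_lit 836) (nat_lit 1677677644) (nat_lit 561) (nat_lit 5) (nat_lit 571) (nat_lit 5) (nat_lit 572) (nat_lit 5) (nat_lit 273) (nat_lit 257) (nat_lit 250))) (XT.nd (nat_lit 78) (nat_lit 836) (nat_lit 0) (XT.lf (nat_lit 0) (nat_lit 2405655850) (nat_lit 836) (nat_lit 1027588448) (nat_lit 76) (nat_lit 3253157416) (nat_lit 560) (nat_lit 5) (nat_lit 571) (nat_lit 5) (nat_lit 561) (nat_lit 5) (nat_lit 274) (nat_lit 257) (nat_lit 249)) (XT.lf (nat_lit 0) (nat_lit 4641356273) (nat_lit 836) (nat_lit 1838626565) (nat_lit 912) (nat_lit 245643321) (nat_lit 549) (nat_lit 5) (nat_lit 560) (nat_lit 5)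 (nat_lit 561) (nat_lit 5) (nat_lit 275) (nat_lit 257) (nat_lit 248)))))) (XT.nd (nat_lit 468) (nat_lit 10336) (nat_lit 0) (XT.nd (nat_lit 234) (nat_lit 2508) (nat_lit 0) (XT.nd (nat_lit 78) (nat_lit 2128) (nat_lit 0) (XT.lf (nat_lit 0) (nat_lit 3649404537) (nat_lit 912) (nat_lit 103866223) (nat_lit 988) (nat_lit 3014550294) (nat_lit 536) (nat_lit 5) (nat_lit 548) (nat_lit 5) (nat_lit 549) (nat_lit 5) (nat_lit 276) (nat_lit 257) (nat_lit 247)) (XT.nd (nat_lit 78) (nat_lit 1064) (nat_lit 0) (XT.lf (nat_lit 0) (nat_lit 952454882) (nat_lit 1064) (nat_lit 4127217483) (nat_lit 76) (nat_lit 1733438073) (nat_lit 522) (nat_lit 5) (nat_lit 536) (nat_lit 5) (nat_lit 523) (nat_lit 5) (nat_lit 277) (nat_lit 257) (nat_lit 246)) (XT.lf (nat_lit 0) (nat_lit 1746371284) (nat_lit 1064) (nat_lit 3153760564) (nat_lit 1140) (nat_lit 1961344361) (nat_lit 508) (nat_lit 5) (nat_lit 522) (nat_lit 5) (nat_lit 523) (nat_lit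 5) (nat_lit 278) (nat_lit 257) (nat_lit 245)))) (XT.nd (nat_lit 78) (nat_lit 1292) (nat_lit 0) (XT.lf (nat_lit 0) (nat_lit 835947520) (nat_lit 1140) (nat_lit 1096853566) (nat_lit 1216) (nat_lit 4980289363) (nat_lit 492) (nat_lit 5) (nat_lit 507) (nat_lit 5) (nat_lit 508) (nat_lit 5) (nat_lit 279) (nat_lit 257) (nat_lit 244)) (XT.nd (nat_lit 78) (nat_lit 1292) (nat_lit 0) (XT.lf (nat_lit 0) (nat_lit 5833272322) (nat_lit 1216) (nat_lit 54555879) (nat_lit 76) (nat_lit 1079998442) (nat_lit 492) (nat_lit 5) (nat_lit 508) (nat_lit 5) (nat_lit 493) (nat_lit 5) (nat_lit 280) (nat_lit 257) (nat_lit 243)) (XT.lf (nat_lit 0) (nat_lit 2714036041) (nat_lit 1292) (nat_lit 923586035) (nat_lit 76) (nat_lit 3387873012) (nat_lit 475) (nat_lit 5) (nat_lit 492) (nat_lit 5) (nat_lit 476) (nat_lit 5) (nat_lit 281) (nat_lit 257) (nat_lit 242))))) (XT.nd (nat_lit 234) (nat_lit 6156) (nat_lit 0) (XT.nd (nat_lit 78) (nat_lit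 2888) (nat_lit 0) (XT.lf (nat_lit 0) (nat_lit 5319496069) (nat_lit 1292) (nat_lit 1258267664) (nat_lit 1368) (nat_lit 508821952) (nat_lit 458) (nat_lit 5) (nat_lit 475) (nat_lit 5) (nat_lit 476) (nat_lit 5) (nat_lit 282) (nat_lit 257) (nat_lit 241)) (XT.nd (nat_lit 78) (nat_lit 1444) (nat_lit 0) (XT.lf (nat_lit 0) (nat_lit 3289292164) (nat_lit 1444) (nat_lit 2610121913) (nat_lit 76) (nat_lit 1251267564) (nat_lit 439) (nat_lit 5) (nat_lit 458) (nat_lit 5) (nat_lit 440) (nat_lit 5) (nat_lit 283) (nat_lit 257) (nat_lit 240)) (XT.lf (nat_lit 0) (nat_lit 3780297323) (nat_lit 1444) (nat_lit 3344102833) (nat_lit 1520) (nat_lit 93766824) (nat_lit 420) (nat_lit 5) (nat_lit 439) (nat_lit 5) (nat_lit 440) (nat_lit 5) (nat_lit 284) (nat_lit 257) (nat_lit 239)))) (XT.nd (nat_lit 156) (nat_lit 2888) (nat_lit 0) (XT.nd (nat_lit 78) (nat_lit 1672) (nat_lit 0) (XT.lf (nat_lit 0) (nat_lit 3023261091) (nat_lit 1520)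 (nat_lit 638127679) (nat_lit 1596) (nat_lit 3627439601) (nat_lit 399) (nat_lit 5) (nat_lit 419) (nat_lit 5) (nat_lit 420) (nat_lit 5) (nat_lit 285) (nat_lit 257) (nat_lit 238)) (XT.lf (nat_lit 0) (nat_lit 105270727) (nat_lit 1672) (nat_lit 5087578617) (nat_lit 76) (nat_lit 2170024314) (nat_lit 377) (nat_lit 5) (nat_lit 399) (nat_lit 5) (nat_lit 378) (nat_lit 5) (nat_lit 286) (nat_lit 257) (nat_lit 237))) (XT.nd (nat_lit 78) (nat_lit 1216) (nat_lit 0) (XT.lf (nat_lit 0) (nat_lit 1520287724) (nat_lit 1672) (nat_lit 2315079118) (nat_lit 1748) (nat_lit 3604717189) (nat_lit 355) (nat_lit 5) (nat_lit 377) (nat_lit 5) (nat_lit 378) (nat_lit 5) (nat_lit 287) (nat_lit 257) (nat_lit 236)) (XT.lf (nat_lit 0) (nat_lit 92851577) (nat_lit 1216) (nat_lit 6742437378) (nat_lit 76) (nat_lit 685669352) (nat_lit 339) (nat_lit 5) (nat_lit 355) (nat_lit 5) (nat_lit 340) (nat_lit 5) (nat_lit 288) (nat_lit 257) (nat_lit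 235))))))) (XT.nd (nat_lit 1014) (nat_lit 6536) (nat_lit 0) (XT.nd (nat_lit 468) (nat_lit 4332) (nat_lit 0) (XT.nd (nat_lit 234) (nat_lit 2432) (nat_lit 0) (XT.nd (nat_lit 78) (nat_lit 912) (nat_lit 0) (XT.lf (nat_lit 0) (nat_lit 12110525) (nat_lit 836) (nat_lit 3791833426) (nat_lit 912) (nat_lit 3800915047) (nat_lit 328) (nat_lit 5) (nat_lit 339) (nat_lit 5) (nat_lit 340) (nat_lit 5) (nat_lit 289) (nat_lit 257) (nat_lit 234)) (XT.nd (nat_lit 78) (nat_lit 912) (nat_lit 0) (XT.lf (nat_lit 0) (nat_lit 6959709882) (nat_lit 836) (nat_lit 610085385) (nat_lit 912) (nat_lit 122717911) (nat_lit 328) (nat_lit 5) (nat_lit 339) (nat_lit 5) (nat_lit 340) (nat_lit 5) (nat_lit 290) (nat_lit 257) (nat_lit 233)) (XT.lf (nat_lit 0) (nat_lit 3576295148) (nat_lit 912) (nat_lit 1510035424) (nat_lit 76) (nat_lit 2696919365) (nat_lit 316) (nat_lit 5) (nat_lit 328) (nat_lit 5) (nat_lit 317) (nat_lit 5) (nat_lit 291)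 (nat_lit 257) (nat_lit 232)))) (XT.nd (nat_lit 78) (nat_lit 1672) (nat_lit 0) (XT.lf (nat_lit 0) (nat_lit 5590463449) (nat_lit 760) (nat_lit 1741757447) (nat_lit 836) (nat_lit 545616512) (nat_lit 306) (nat_lit 5) (nat_lit 316) (nat_lit 5) (nat_lit 317) (nat_lit 5) (nat_lit 292) (nat_lit 257) (nat_lit 231)) (XT.nd (nat_lit 78) (nat_lit 760) (nat_lit 0) (XT.lf (nat_lit 0) (nat_lit 3140472972) (nat_lit 912) (nat_lit 3095221733) (nat_lit 76) (nat_lit 1740097002) (nat_lit 294) (nat_lit 5) (nat_lit 306) (nat_lit 5) (nat_lit 295) (nat_lit 5) (nat_lit 293) (nat_lit 257) (nat_lit 230)) (XT.lf (nat_lit 0) (nat_lit 4156799597) (nat_lit 760) (nat_lit 2733049323) (nat_lit 836) (nat_lit 1187650914) (nat_lit 284) (nat_lit 5) (nat_lit 294) (nat_lit 5) (nat_lit 295) (nat_lit 5) (nat_lit 294) (nat_lit 257) (nat_lit 229))))) (XT.nd (nat_lit 234) (nat_lit 2052) (nat_lit 0) (XT.nd (nat_lit 78) (nat_lit 1444) (nat_lit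 0) (XT.lf (nat_lit 0) (nat_lit 2492293887) (nat_lit 836) (nat_lit 4774646350) (nat_lit 76) (nat_lit 915939743) (nat_lit 273) (nat_lit 5) (nat_lit 284) (nat_lit 5) (nat_lit 274) (nat_lit 5) (nat_lit 295) (nat_lit 257) (nat_lit 228)) (XT.nd (nat_lit 78) (nat_lit 760) (nat_lit 0) (XT.lf (nat_lit 0) (nat_lit 2627170871) (nat_lit 684) (nat_lit 3610746168) (nat_lit 760) (nat_lit 2054002031) (nat_lit 264) (nat_lit 5) (nat_lit 273) (nat_lit 5) (nat_lit 274) (nat_lit 5) (nat_lit 296) (nat_lit 257) (nat_lit 227)) (XT.lf (nat_lit 0) (nat_lit 1625793685) (nat_lit 760) (nat_lit 6581070557) (nat_lit 76) (nat_lit 198098270) (nat_lit 254) (nat_lit 5) (nat_lit 264) (nat_lit 5) (nat_lit 255) (nat_lit 5) (nat_lit 297) (nat_lit 257) (nat_lit 226)))) (XT.nd (nat_lit 156) (nat_lit 608) (nat_lit 0) (XT.nd (nat_lit 78) (nat_lit 760) (nat_lit 0) (XT.lf (nat_lit 0) (nat_lit 968202628) (nat_lit 684) (nat_lit 4401575904)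 (nat_lit 760) (nat_lit 3151789735) (nat_lit 245) (nat_lit 5) (nat_lit 254) (nat_lit 5) (nat_lit 255) (nat_lit 5) (nat_lit 298) (nat_lit 257) (nat_lit 225)) (XT.lf (nat_lit 0) (nat_lit 90301250) (nat_lit 684) (nat_lit 445658056) (nat_lit 760) (nat_lit 8106525616) (nat_lit 235) (nat_lit 5) (nat_lit 244) (nat_lit 5) (nat_lit 245) (nat_lit 5) (nat_lit 299) (nat_lit 257) (nat_lit 224))) (XT.nd (nat_lit 78) (nat_lit 608) (nat_lit 0) (XT.lf (nat_lit 0) (nat_lit 4282367407) (nat_lit 760) (nat_lit 844407491) (nat_lit 76) (nat_lit 3640091329) (nat_lit 235) (nat_lit 5) (nat_lit 245) (nat_lit 5) (nat_lit 236) (nat_lit 5) (nat_lit 300) (nat_lit 257) (nat_lit 223)) (XT.lf (nat_lit 0) (nat_lit 7087395437) (nat_lit 608) (nat_lit 1020747864) (nat_lit 684) (nat_lit 787564858) (nat_lit 227) (nat_lit 5) (nat_lit 235) (nat_lit 5) (nat_lit 236) (nat_lit 5) (nat_lit 301) (nat_lit 257) (nat_lit 222)))))) (XT.nd (nat_lit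 546) (nat_lit 2964) (nat_lit 0) (XT.nd (nat_lit 234) (nat_lit 1672) (nat_lit 0) (XT.nd (nat_lit 78) (nat_lit 1216) (nat_lit 0) (XT.lf (nat_lit 0) (nat_lit 2967028331) (nat_lit 684) (nat_lit 2844542172) (nat_lit 76) (nat_lit 3216790787) (nat_lit 218) (nat_lit 5) (nat_lit 227) (nat_lit 5) (nat_lit 219) (nat_lit 5) (nat_lit 302) (nat_lit 257) (nat_lit 221)) (XT.nd (nat_lit 78) (nat_lit 684) (nat_lit 0) (XT.lf (nat_lit 0) (nat_lit 5235494884) (nat_lit 532) (nat_lit 1562061625) (nat_lit 608) (nat_lit 2367916931) (nat_lit 211) (nat_lit 5) (nat_lit 218) (nat_lit 5) (nat_lit 219) (nat_lit 5) (nat_lit 303) (nat_lit 257) (nat_lit 220)) (XT.lf (nat_lit 0) (nat_lit 1404828648) (nat_lit 684) (nat_lit 5085252930) (nat_lit 76) (nat_lit 2816744008) (nat_lit 202) (nat_lit 5) (nat_lit 211) (nat_lit 5) (nat_lit 203) (nat_lit 5) (nat_lit 304) (nat_lit 257) (nat_lit 219)))) (XT.nd (nat_lit 156) (nat_lit 608) (nat_lit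 0) (XT.nd (nat_lit 78) (nat_lit 532) (nat_lit 0) (XT.lf (nat_lit 0) (nat_lit 3138127312) (nat_lit 532) (nat_lit 2101709823) (nat_lit 608) (nat_lit 4212701764) (nat_lit 195) (nat_lit 5) (nat_lit 202) (nat_lit 5) (nat_lit 203) (nat_lit 5) (nat_lit 305) (nat_lit 257) (nat_lit 218)) (XT.lf (nat_lit 0) (nat_lit 1990033251) (nat_lit 532) (nat_lit 7188099953) (nat_lit 608) (nat_lit 424782619) (nat_lit 188) (nat_lit 5) (nat_lit 195) (nat_lit 5) (nat_lit 196) (nat_lit 5) (nat_lit 306) (nat_lit 257) (nat_lit 217))) (XT.nd (nat_lit 78) (nat_lit 0) (nat_lit 0) (XT.lf (nat_lit 0) (nat_lit 750527616) (nat_lit 532) (nat_lit 2668607638) (nat_lit 608) (nat_lit 6338512350) (nat_lit 180) (nat_lit 5) (nat_lit 187) (nat_lit 5) (nat_lit 188) (nat_lit 5) (nat_lit 307) (nat_lit 257) (nat_lit 216)) (XT.lf (nat_lit 0) (nat_lit 7364825924) (nat_lit 608) (nat_lit 558336345) (nat_lit 76) (nat_lit 1994011023) (nat_lit 180)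 (nat_lit 5) (nat_lit 188) (nat_lit 5) (nat_lit 181) (nat_lit 5) (nat_lit 308) (nat_lit 257) (nat_lit 215))))) (XT.nd (nat_lit 234) (nat_lit 1444) (nat_lit 0) (XT.nd (nat_lit 78) (nat_lit 912) (nat_lit 0) (XT.lf (nat_lit 0) (nat_lit 1329862821) (nat_lit 608) (nat_lit 1949992593) (nat_lit 76) (nat_lit 6801501837) (nat_lit 172) (nat_lit 5) (nat_lit 180) (nat_lit 5) (nat_lit 173) (nat_lit 5) (nat_lit 309) (nat_lit 257) (nat_lit 214)) (XT.nd (nat_lit 78) (nat_lit 456) (nat_lit 0) (XT.lf (nat_lit 0) (nat_lit 5282626546) (nat_lit 532) (nat_lit 3441303735) (nat_lit 76) (nat_lit 1526472397) (nat_lit 166) (nat_lit 5) (nat_lit 173) (nat_lit 5) (nat_lit 167) (nat_lit 5) (nat_lit 310) (nat_lit 257) (nat_lit 213)) (XT.lf (nat_lit 0) (nat_lit 5390292580) (nat_lit 456) (nat_lit 3965645198) (nat_lit 532) (nat_lit 1068589622) (nat_lit 160) (nat_lit 5) (nat_lit 166) (nat_lit 5) (nat_lit 167) (nat_lit 5) (nat_lit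 311) (nat_lit 257) (nat_lit 212)))) (XT.nd (nat_lit 156) (nat_lit 456) (nat_lit 0) (XT.nd (nat_lit 78) (nat_lit 456) (nat_lit 0) (XT.lf (nat_lit 0) (nat_lit 2896532937) (nat_lit 532) (nat_lit 6739505075) (nat_lit 76) (nat_lit 967747683) (nat_lit 153) (nat_lit 5) (nat_lit 160) (nat_lit 5) (nat_lit 154) (nat_lit 5) (nat_lit 312) (nat_lit 257) (nat_lit 211)) (XT.lf (nat_lit 0) (nat_lit 2215120876) (nat_lit 456) (nat_lit 4760165520) (nat_lit 532) (nat_lit 3812853812) (nat_lit 147) (nat_lit 5) (nat_lit 153) (nat_lit 5) (nat_lit 154) (nat_lit 5) (nat_lit 313) (nat_lit 257) (nat_lit 210))) (XT.nd (nat_lit 78) (nat_lit 0) (nat_lit 0) (XT.lf (nat_lit 0) (nat_lit 181399222) (nat_lit 456) (nat_lit 10512561909) (nat_lit 76) (nat_lit 284367527) (nat_lit 141) (nat_lit 5) (nat_lit 147) (nat_lit 5) (nat_lit 142) (nat_lit 5) (nat_lit 314) (nat_lit 257) (nat_lit 209)) (XT.lf (nat_lit 0) (nat_lit 4270191034) (nat_lit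 456) (nat_lit 1427795329) (nat_lit 76) (nat_lit 5475242410) (nat_lit 141) (nat_lit 5) (nat_lit 147) (nat_lit 5) (nat_lit 142) (nat_lit 5) (nat_lit 315) (nat_lit 257) (nat_lit 208))))))))
noncomputable def xc46 : XT := (XT.nd (nat_lit 2028) (nat_lit 2280) (nat_lit 0) (XT.nd (nat_lit 1014) (nat_lit 2508) (nat_lit 0) (XT.nd (nat_lit 468) (nat_lit 2052) (nat_lit 0) (XT.nd (nat_lit 234) (nat_lit 836) (nat_lit 0) (XT.nd (nat_lit 78) (nat_lit 836) (nat_lit 0) (XT.lf (nat_lit 0) (nat_lit 7946271425) (nat_lit 456) (nat_lit 524740543) (nat_lit 532) (nat_lit 2903215771) (nat_lit 135) (nat_lit 5) (nat_lit 141) (nat_lit 5) (nat_lit 142) (nat_lit 5) (nat_lit 316) (nat_lit 257) (nat_lit 207)) (XT.nd (nat_lit 78) (nat_lit 380) (nat_lit 0) (XT.lf (nat_lit 0) (nat_lit 1219481861) (nat_lit 456) (nat_lit 5588594340) (nat_lit 76) (nat_lit 4772683022) (nat_lit 129) (nat_lit 5) (nat_lit 135) (nat_lit 5) (nat_lit 130)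 (nat_lit 5) (nat_lit 317) (nat_lit 257) (nat_lit 206)) (XT.lf (nat_lit 0) (nat_lit 3890172395) (nat_lit 380) (nat_lit 1528273908) (nat_lit 456) (nat_lit 6374852143) (nat_lit 124) (nat_lit 5) (nat_lit 129) (nat_lit 5) (nat_lit 130) (nat_lit 5) (nat_lit 318) (nat_lit 257) (nat_lit 205)))) (XT.nd (nat_lit 78) (nat_lit 456) (nat_lit 0) (XT.lf (nat_lit 0) (nat_lit 1627851643) (nat_lit 380) (nat_lit 8130294510) (nat_lit 456) (nat_lit 2253807493) (nat_lit 119) (nat_lit 5) (nat_lit 124) (nat_lit 5) (nat_lit 125) (nat_lit 5) (nat_lit 319) (nat_lit 257) (nat_lit 204)) (XT.nd (nat_lit 78) (nat_lit 380) (nat_lit 0) (XT.lf (nat_lit 0) (nat_lit 1970335774) (nat_lit 456) (nat_lit 792278012) (nat_lit 76) (nat_lit 9474218075) (nat_lit 118) (nat_lit 5) (nat_lit 124) (nat_lit 5) (nat_lit 119) (nat_lit 5) (nat_lit 320) (nat_lit 257) (nat_lit 203)) (XT.lf (nat_lit 0) (nat_lit 6311330775) (nat_lit 456) (nat_lit 3377856645)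 (nat_lit 76) (nat_lit 2778588555) (nat_lit 113) (nat_lit 5) (nat_lit 119) (nat_lit 5) (nat_lit 114) (nat_lit 5) (nat_lit 321) (nat_lit 257) (nat_lit 202))))) (XT.nd (nat_lit 234) (nat_lit 988) (nat_lit 0) (XT.nd (nat_lit 78) (nat_lit 760) (nat_lit 0) (XT.lf (nat_lit 0) (nat_lit 6558641742) (nat_lit 304) (nat_lit 4234485904) (nat_lit 380) (nat_lit 1912340845) (nat_lit 109) (nat_lit 5) (nat_lit 113) (nat_lit 5) (nat_lit 114) (nat_lit 5) (nat_lit 322) (nat_lit 257) (nat_lit 201)) (XT.nd (nat_lit 78) (nat_lit 304) (nat_lit 0) (XT.lf (nat_lit 0) (nat_lit 2428868672) (nat_lit 456) (nat_lit 9117647366) (nat_lit 76) (nat_lit 1403445756) (nat_lit 103) (nat_lit 5) (nat_lit 109) (nat_lit 5) (nat_lit 104) (nat_lit 5) (nat_lit 323) (nat_lit 257) (nat_lit 200)) (XT.lf (nat_lit 0) (nat_lit 882425267) (nat_lit 304) (nat_lit 6013756899) (nat_lit 380) (nat_lit 6304947066) (nat_lit 99) (nat_lit 5) (nat_lit 103) (nat_lit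 5) (nat_lit 104) (nat_lit 5) (nat_lit 324) (nat_lit 257) (nat_lit 199)))) (XT.nd (nat_lit 156) (nat_lit 608) (nat_lit 0) (XT.nd (nat_lit 78) (nat_lit 380) (nat_lit 0) (XT.lf (nat_lit 0) (nat_lit 11226853382) (nat_lit 304) (nat_lit 279229177) (nat_lit 380) (nat_lit 1953606062) (nat_lit 99) (nat_lit 5) (nat_lit 103) (nat_lit 5) (nat_lit 104) (nat_lit 5) (nat_lit 325) (nat_lit 257) (nat_lit 198)) (XT.lf (nat_lit 0) (nat_lit 2532931647) (nat_lit 380) (nat_lit 5595019248) (nat_lit 76) (nat_lit 5596996203) (nat_lit 94) (nat_lit 5) (nat_lit 99) (nat_lit 5) (nat_lit 95) (nat_lit 5) (nat_lit 326) (nat_lit 257) (nat_lit 197))) (XT.nd (nat_lit 78) (nat_lit 304) (nat_lit 0) (XT.lf (nat_lit 0) (nat_lit 4805852708) (nat_lit 304) (nat_lit 2318927030) (nat_lit 380) (nat_lit 6873206335) (nat_lit 90) (nat_lit 5) (nat_lit 94) (nat_lit 5) (nat_lit 95) (nat_lit 5) (nat_lit 327) (nat_lit 257) (nat_lit 196)) (XT.lf (nat_lit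 0) (nat_lit 1230976751) (nat_lit 304) (nat_lit 10642974440) (nat_lit 380) (nat_lit 2404899037) (nat_lit 86) (nat_lit 5) (nat_lit 90) (nat_lit 5) (nat_lit 91) (nat_lit 5) (nat_lit 328) (nat_lit 257) (nat_lit 195)))))) (XT.nd (nat_lit 468) (nat_lit 1292) (nat_lit 0) (XT.nd (nat_lit 234) (nat_lit 608) (nat_lit 0) (XT.nd (nat_lit 78) (nat_lit 532) (nat_lit 0) (XT.lf (nat_lit 0) (nat_lit 2197083451) (nat_lit 380) (nat_lit 2581902026) (nat_lit 76) (nat_lit 9788324713) (nat_lit 85) (nat_lit 5) (nat_lit 90) (nat_lit 5) (nat_lit 86) (nat_lit 5) (nat_lit 329) (nat_lit 257) (nat_lit 194)) (XT.nd (nat_lit 78) (nat_lit 304) (nat_lit 0) (XT.lf (nat_lit 0) (nat_lit 6918131239) (nat_lit 304) (nat_lit 6657964853) (nat_lit 76) (nat_lit 1287759797) (nat_lit 82) (nat_lit 5) (nat_lit 86) (nat_lit 5) (nat_lit 83) (nat_lit 5) (nat_lit 330) (nat_lit 257) (nat_lit 193)) (XT.lf (nat_lit 0) (nat_lit 4131069037) (nat_lit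 304) (nat_lit 7678574941) (nat_lit 380) (nat_lit 3359100073) (nat_lit 78) (nat_lit 5) (nat_lit 82) (nat_lit 5) (nat_lit 83) (nat_lit 5) (nat_lit 331) (nat_lit 257) (nat_lit 192)))) (XT.nd (nat_lit 78) (nat_lit 532) (nat_lit 0) (XT.lf (nat_lit 0) (nat_lit 1345652717) (nat_lit 380) (nat_lit 230309677) (nat_lit 76) (nat_lit 13906692200) (nat_lit 77) (nat_lit 5) (nat_lit 82) (nat_lit 5) (nat_lit 78) (nat_lit 5) (nat_lit 332) (nat_lit 257) (nat_lit 191)) (XT.nd (nat_lit 78) (nat_lit 304) (nat_lit 0) (XT.lf (nat_lit 0) (nat_lit 6202681865) (nat_lit 304) (nat_lit 4885661664) (nat_lit 76) (nat_lit 4716080469) (nat_lit 74) (nat_lit 5) (nat_lit 78) (nat_lit 5) (nat_lit 75) (nat_lit 5) (nat_lit 333) (nat_lit 257) (nat_lit 190)) (XT.lf (nat_lit 0) (nat_lit 6269725741) (nat_lit 304) (nat_lit 4943599009) (nat_lit 380) (nat_lit 4922384100) (nat_lit 70) (nat_lit 5) (nat_lit 74) (nat_lit 5) (nat_lit 75) (nat_lit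 5) (nat_lit 334) (nat_lit 257) (nat_lit 189))))) (XT.nd (nat_lit 234) (nat_lit 760) (nat_lit 0) (XT.nd (nat_lit 78) (nat_lit 304) (nat_lit 0) (XT.lf (nat_lit 0) (nat_lit 1286877849) (nat_lit 228) (nat_lit 15093851031) (nat_lit 304) (nat_lit 96094357) (nat_lit 67) (nat_lit 5) (nat_lit 70) (nat_lit 5) (nat_lit 71) (nat_lit 5) (nat_lit 335) (nat_lit 257) (nat_lit 188)) (XT.nd (nat_lit 78) (nat_lit 228) (nat_lit 0) (XT.lf (nat_lit 0) (nat_lit 4867698155) (nat_lit 304) (nat_lit 4053227139) (nat_lit 76) (nat_lit 7905498593) (nat_lit 66) (nat_lit 5) (nat_lit 70) (nat_lit 5) (nat_lit 67) (nat_lit 5) (nat_lit 336) (nat_lit 257) (nat_lit 187)) (XT.lf (nat_lit 0) (nat_lit 7446052424) (nat_lit 228) (nat_lit 2538964224) (nat_lit 304) (nat_lit 7201383174) (nat_lit 63) (nat_lit 5) (nat_lit 66) (nat_lit 5) (nat_lit 67) (nat_lit 5) (nat_lit 337) (nat_lit 257) (nat_lit 186)))) (XT.nd (nat_lit 156) (nat_lit 456)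 (nat_lit 0) (XT.nd (nat_lit 78) (nat_lit 76) (nat_lit 0) (XT.lf (nat_lit 0) (nat_lit 1717186134) (nat_lit 228) (nat_lit 13561856007) (nat_lit 304) (nat_lit 2277686935) (nat_lit 60) (nat_lit 5) (nat_lit 63) (nat_lit 5) (nat_lit 64) (nat_lit 5) (nat_lit 338) (nat_lit 257) (nat_lit 185)) (XT.lf (nat_lit 0) (nat_lit 2799189881) (nat_lit 304) (nat_lit 4388215388) (nat_lit 76) (nat_lit 10749574898) (nat_lit 59) (nat_lit 5) (nat_lit 63) (nat_lit 5) (nat_lit 60) (nat_lit 5) (nat_lit 339) (nat_lit 257) (nat_lit 184))) (XT.nd (nat_lit 78) (nat_lit 228) (nat_lit 0) (XT.lf (nat_lit 0) (nat_lit 7423159296) (nat_lit 228) (nat_lit 582534419) (nat_lit 304) (nat_lit 10322495097) (nat_lit 56) (nat_lit 5) (nat_lit 59) (nat_lit 5) (nat_lit 60) (nat_lit 5) (nat_lit 340) (nat_lit 257) (nat_lit 183)) (XT.lf (nat_lit 0) (nat_lit 823425918) (nat_lit 228) (nat_lit 12581111880) (nat_lit 304) (nat_lit 5325888975) (nat_lit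 53) (nat_lit 5) (nat_lit 56) (nat_lit 5) (nat_lit 57) (nat_lit 5) (nat_lit 341) (nat_lit 257) (nat_lit 182))))))) (XT.nd (nat_lit 1014) (nat_lit 684) (nat_lit 0) (XT.nd (nat_lit 468) (nat_lit 836) (nat_lit 0) (XT.nd (nat_lit 234) (nat_lit 456) (nat_lit 0) (XT.nd (nat_lit 78) (nat_lit 304) (nat_lit 0) (XT.lf (nat_lit 0) (nat_lit 12984923160) (nat_lit 228) (nat_lit 6019403262) (nat_lit 304) (nat_lit 139641363) (nat_lit 53) (nat_lit 5) (nat_lit 56) (nat_lit 5) (nat_lit 57) (nat_lit 5) (nat_lit 342) (nat_lit 257) (nat_lit 181)) (XT.nd (nat_lit 78) (nat_lit 0) (nat_lit 0) (XT.lf (nat_lit 0) (nat_lit 5139613267) (nat_lit 304) (nat_lit 13651896157) (nat_lit 76) (nat_lit 777631884) (nat_lit 49) (nat_lit 5) (nat_lit 53) (nat_lit 5) (nat_lit 50) (nat_lit 5) (nat_lit 343) (nat_lit 257) (nat_lit 180)) (XT.lf (nat_lit 0) (nat_lit 10620248443) (nat_lit 304) (nat_lit 1669935964) (nat_lit 76) (nat_lit 7715983486)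 (nat_lit 49) (nat_lit 5) (nat_lit 53) (nat_lit 5) (nat_lit 50) (nat_lit 5) (nat_lit 344) (nat_lit 257) (nat_lit 179)))) (XT.nd (nat_lit 78) (nat_lit 304) (nat_lit 0) (XT.lf (nat_lit 0) (nat_lit 10751947651) (nat_lit 152) (nat_lit 5546875281) (nat_lit 228) (nat_lit 4156825844) (nat_lit 47) (nat_lit 5) (nat_lit 49) (nat_lit 5) (nat_lit 50) (nat_lit 5) (nat_lit 345) (nat_lit 257) (nat_lit 178)) (XT.nd (nat_lit 78) (nat_lit 0) (nat_lit 0) (XT.lf (nat_lit 0) (nat_lit 1214701285) (nat_lit 304) (nat_lit 18310611639) (nat_lit 76) (nat_lit 1393121164) (nat_lit 43) (nat_lit 5) (nat_lit 47) (nat_lit 5) (nat_lit 44) (nat_lit 5) (nat_lit 346) (nat_lit 257) (nat_lit 177)) (XT.lf (nat_lit 0) (nat_lit 6759144951) (nat_lit 304) (nat_lit 6097243017) (nat_lit 76) (nat_lit 8536813391) (nat_lit 43) (nat_lit 5) (nat_lit 47) (nat_lit 5) (nat_lit 44) (nat_lit 5) (nat_lit 347) (nat_lit 257) (nat_lit 176))))) (XT.nd (nat_lit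 234) (nat_lit 380) (nat_lit 0) (XT.nd (nat_lit 78) (nat_lit 304) (nat_lit 0) (XT.lf (nat_lit 0) (nat_lit 6509999411) (nat_lit 152) (nat_lit 5967858239) (nat_lit 228) (nat_lit 9404207759) (nat_lit 41) (nat_lit 5) (nat_lit 43) (nat_lit 5) (nat_lit 44) (nat_lit 5) (nat_lit 348) (nat_lit 257) (nat_lit 175)) (XT.nd (nat_lit 78) (nat_lit 304) (nat_lit 0) (XT.lf (nat_lit 0) (nat_lit 18383189059) (nat_lit 228) (nat_lit 2870945553) (nat_lit 76) (nat_lit 1131171732) (nat_lit 41) (nat_lit 5) (nat_lit 44) (nat_lit 5) (nat_lit 42) (nat_lit 5) (nat_lit 349) (nat_lit 257) (nat_lit 174)) (XT.lf (nat_lit 0) (nat_lit 1614253410) (nat_lit 304) (nat_lit 12871668999) (nat_lit 76) (nat_lit 8416076711) (nat_lit 37) (nat_lit 5) (nat_lit 41) (nat_lit 5) (nat_lit 38) (nat_lit 5) (nat_lit 350) (nat_lit 257) (nat_lit 173)))) (XT.nd (nat_lit 156) (nat_lit 228) (nat_lit 0) (XT.nd (nat_lit 78) (nat_lit 152) (nat_lit 0) (XT.lf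 (nat_lit 0) (nat_lit 7332144596) (nat_lit 304) (nat_lit 158119408) (nat_lit 76) (nat_lit 15943662737) (nat_lit 37) (nat_lit 5) (nat_lit 41) (nat_lit 5) (nat_lit 38) (nat_lit 5) (nat_lit 351) (nat_lit 257) (nat_lit 172)) (XT.lf (nat_lit 0) (nat_lit 13054293581) (nat_lit 152) (nat_lit 220491641) (nat_lit 228) (nat_lit 10705973580) (nat_lit 35) (nat_lit 5) (nat_lit 37) (nat_lit 5) (nat_lit 38) (nat_lit 5) (nat_lit 352) (nat_lit 257) (nat_lit 171))) (XT.nd (nat_lit 78) (nat_lit 76) (nat_lit 0) (XT.lf (nat_lit 0) (nat_lit 2047563290) (nat_lit 152) (nat_lit 17378587836) (nat_lit 228) (nat_lit 5117246327) (nat_lit 33) (nat_lit 5) (nat_lit 35) (nat_lit 5) (nat_lit 36) (nat_lit 5) (nat_lit 353) (nat_lit 257) (nat_lit 170)) (XT.lf (nat_lit 0) (nat_lit 676007933) (nat_lit 228) (nat_lit 9620094264) (nat_lit 76) (nat_lit 14825835159) (nat_lit 32) (nat_lit 5) (nat_lit 35) (nat_lit 5) (nat_lit 33) (nat_lit 5)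 (nat_lit 354) (nat_lit 257) (nat_lit 169)))))) (XT.nd (nat_lit 546) (nat_lit 0) (nat_lit 0) (XT.nd (nat_lit 234) (nat_lit 380) (nat_lit 0) (XT.nd (nat_lit 78) (nat_lit 152) (nat_lit 0) (XT.lf (nat_lit 0) (nat_lit 3603578447) (nat_lit 152) (nat_lit 2963888677) (nat_lit 228) (nat_lit 19149820969) (nat_lit 30) (nat_lit 5) (nat_lit 32) (nat_lit 5) (nat_lit 33) (nat_lit 5) (nat_lit 355) (nat_lit 257) (nat_lit 168)) (XT.nd (nat_lit 78) (nat_lit 152) (nat_lit 0) (XT.lf (nat_lit 0) (nat_lit 12701622121) (nat_lit 228) (nat_lit 9054778981) (nat_lit 76) (nat_lit 4572788673) (nat_lit 30) (nat_lit 5) (nat_lit 33) (nat_lit 5) (nat_lit 31) (nat_lit 5) (nat_lit 356) (nat_lit 257) (nat_lit 167)) (XT.lf (nat_lit 0) (nat_lit 4384078128) (nat_lit 152) (nat_lit 14655408130) (nat_lit 228) (nat_lit 7919577747) (nat_lit 28) (nat_lit 5) (nat_lit 30) (nat_lit 5) (nat_lit 31) (nat_lit 5) (nat_lit 357) (nat_lit 257) (nat_lit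 166)))) (XT.nd (nat_lit 156) (nat_lit 152) (nat_lit 0) (XT.nd (nat_lit 78) (nat_lit 228) (nat_lit 0) (XT.lf (nat_lit 0) (nat_lit 18301328965) (nat_lit 152) (nat_lit 7299431446) (nat_lit 228) (nat_lit 2006417493) (nat_lit 28) (nat_lit 5) (nat_lit 30) (nat_lit 5) (nat_lit 31) (nat_lit 5) (nat_lit 358) (nat_lit 257) (nat_lit 165)) (XT.lf (nat_lit 0) (nat_lit 4033354459) (nat_lit 228) (nat_lit 23932079661) (nat_lit 76) (nat_lit 308723629) (nat_lit 25) (nat_lit 5) (nat_lit 28) (nat_lit 5) (nat_lit 26) (nat_lit 5) (nat_lit 359) (nat_lit 257) (nat_lit 164))) (XT.nd (nat_lit 78) (nat_lit 152) (nat_lit 0) (XT.lf (nat_lit 0) (nat_lit 10312417776) (nat_lit 228) (nat_lit 10543027207) (nat_lit 76) (nat_lit 8103737853) (nat_lit 25) (nat_lit 5) (nat_lit 28) (nat_lit 5) (nat_lit 26) (nat_lit 5) (nat_lit 360) (nat_lit 257) (nat_lit 163)) (XT.lf (nat_lit 0) (nat_lit 3244310307) (nat_lit 152) (nat_lit 13530306560)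 (nat_lit 228) (nat_lit 12890254533) (nat_lit 23) (nat_lit 5) (nat_lit 25) (nat_lit 5) (nat_lit 26) (nat_lit 5) (nat_lit 361) (nat_lit 257) (nat_lit 162))))) (XT.nd (nat_lit 33150) (nat_lit 0) (nat_lit 43624) (XT.nd (nat_lit 32994) (nat_lit 0) (nat_lit 44916) (XT.lf (nat_lit 0) (nat_lit 17544391602) (nat_lit 152) (nat_lit 5931905492) (nat_lit 228) (nat_lit 6914528994) (nat_lit 23) (nat_lit 5) (nat_lit 25) (nat_lit 5) (nat_lit 26) (nat_lit 5) (nat_lit 362) (nat_lit 257) (nat_lit 161)) (XT.nd (nat_lit 78) (nat_lit 304) (nat_lit 0) (XT.lf (nat_lit 0) (nat_lit 1394458433) (nat_lit 228) (nat_lit 441095680) (nat_lit 0) (nat_lit 1394458433) (nat_lit 618) (nat_lit 5) (nat_lit 621) (nat_lit 4) (nat_lit 618) (nat_lit 4) (nat_lit 264) (nat_lit 258) (nat_lit 258)) (XT.lf (nat_lit 0) (nat_lit 740095907) (nat_lit 304) (nat_lit 2493311287) (nat_lit 76) (nat_lit 3237054259) (nat_lit 614) (nat_lit 5) (nat_lit 618)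 (nat_lit 5) (nat_lit 615) (nat_lit 4) (nat_lit 265) (nat_lit 258) (nat_lit 257)))) (XT.nd (nat_lit 156) (nat_lit 532) (nat_lit 0) (XT.nd (nat_lit 78) (nat_lit 456) (nat_lit 0) (XT.lf (nat_lit 0) (nat_lit 2423254510) (nat_lit 304) (nat_lit 2667686245) (nat_lit 380) (nat_lit 1392909262) (nat_lit 610) (nat_lit 5) (nat_lit 614) (nat_lit 5) (nat_lit 615) (nat_lit 4) (nat_lit 266) (nat_lit 258) (nat_lit 256)) (XT.lf (nat_lit 0) (nat_lit 918085675) (nat_lit 380) (nat_lit 1977233528) (nat_lit 456) (nat_lit 3604957447) (nat_lit 604) (nat_lit 5) (nat_lit 609) (nat_lit 5) (nat_lit 610) (nat_lit 5) (nat_lit 267) (nat_lit 258) (nat_lit 255))) (XT.nd (nat_lit 78) (nat_lit 456) (nat_lit 0) (XT.lf (nat_lit 0) (nat_lit 634629827) (nat_lit 456) (nat_lit 528205026) (nat_lit 76) (nat_lit 5356948091) (nat_lit 603) (nat_lit 5) (nat_lit 609) (nat_lit 5) (nat_lit 604) (nat_lit 5) (nat_lit 268) (nat_lit 258) (nat_lit 254))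 (XT.lf (nat_lit 0) (nat_lit 4617942759) (nat_lit 456) (nat_lit 210190527) (nat_lit 532) (nat_lit 1713986226) (nat_lit 597) (nat_lit 5) (nat_lit 603) (nat_lit 5) (nat_lit 604) (nat_lit 5) (nat_lit 269) (nat_lit 258) (nat_lit 253))))))))
noncomputable def xc47 : XT := (XT.nd (nat_lit 2106) (nat_lit 11856) (nat_lit 0) (XT.nd (nat_lit 1014) (nat_lit 14668) (nat_lit 0) (XT.nd (nat_lit 468) (nat_lit 6916) (nat_lit 0) (XT.nd (nat_lit 234) (nat_lit 1748) (nat_lit 0) (XT.nd (nat_lit 78) (nat_lit 1368) (nat_lit 0) (XT.lf (nat_lit 0) (nat_lit 2427165245) (nat_lit 608) (nat_lit 3282781877) (nat_lit 76) (nat_lit 857493808) (nat_lit 589) (nat_lit 5) (nat_lit 597) (nat_lit 5) (nat_lit 590) (nat_lit 5) (nat_lit 270) (nat_lit 258) (nat_lit 252)) (XT.nd (nat_lit 78) (nat_lit 760) (nat_lit 0) (XT.lf (nat_lit 0) (nat_lit 1997522299) (nat_lit 608) (nat_lit 4551635978) (nat_lit 684) (nat_lit 46757139) (nat_lit 581)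 (nat_lit 5) (nat_lit 589) (nat_lit 5) (nat_lit 590) (nat_lit 5) (nat_lit 271) (nat_lit 258) (nat_lit 251)) (XT.lf (nat_lit 0) (nat_lit 739757792) (nat_lit 684) (nat_lit 3257091332) (nat_lit 760) (nat_lit 2630421636) (nat_lit 571) (nat_lit 5) (nat_lit 580) (nat_lit 5) (nat_lit 581) (nat_lit 5) (nat_lit 272) (nat_lit 258) (nat_lit 250)))) (XT.nd (nat_lit 78) (nat_lit 1672) (nat_lit 0) (XT.lf (nat_lit 0) (nat_lit 1370474144) (nat_lit 760) (nat_lit 467796910) (nat_lit 76) (nat_lit 4823519949) (nat_lit 570) (nat_lit 5) (nat_lit 580) (nat_lit 5) (nat_lit 571) (nat_lit 5) (nat_lit 273) (nat_lit 258) (nat_lit 249)) (XT.nd (nat_lit 78) (nat_lit 912) (nat_lit 0) (XT.lf (nat_lit 0) (nat_lit 5066686907) (nat_lit 760) (nat_lit 283462710) (nat_lit 836) (nat_lit 1349151349) (nat_lit 560) (nat_lit 5) (nat_lit 570) (nat_lit 5) (nat_lit 571) (nat_lit 5) (nat_lit 274) (nat_lit 258) (nat_lit 248)) (XT.lf (nat_lit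 0) (nat_lit 2577557931) (nat_lit 912) (nat_lit 2775921187) (nat_lit 76) (nat_lit 1386250706) (nat_lit 548) (nat_lit 5) (nat_lit 560) (nat_lit 5) (nat_lit 549) (nat_lit 5) (nat_lit 275) (nat_lit 258) (nat_lit 247))))) (XT.nd (nat_lit 234) (nat_lit 3800) (nat_lit 0) (XT.nd (nat_lit 78) (nat_lit 2204) (nat_lit 0) (XT.lf (nat_lit 0) (nat_lit 2897723056) (nat_lit 912) (nat_lit 3605288332) (nat_lit 988) (nat_lit 280373459) (nat_lit 536) (nat_lit 5) (nat_lit 548) (nat_lit 5) (nat_lit 549) (nat_lit 5) (nat_lit 276) (nat_lit 258) (nat_lit 246)) (XT.nd (nat_lit 78) (nat_lit 1140) (nat_lit 0) (XT.lf (nat_lit 0) (nat_lit 1852722199) (nat_lit 988) (nat_lit 1716890017) (nat_lit 1064) (nat_lit 3260413222) (nat_lit 522) (nat_lit 5) (nat_lit 535) (nat_lit 5) (nat_lit 536) (nat_lit 5) (nat_lit 277) (nat_lit 258) (nat_lit 245)) (XT.lf (nat_lit 0) (nat_lit 550306266) (nat_lit 1140) (nat_lit 6037422939) (nat_lit 76)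 (nat_lit 292262331) (nat_lit 507) (nat_lit 5) (nat_lit 522) (nat_lit 5) (nat_lit 508) (nat_lit 5) (nat_lit 278) (nat_lit 258) (nat_lit 244)))) (XT.nd (nat_lit 156) (nat_lit 2584) (nat_lit 0) (XT.nd (nat_lit 78) (nat_lit 1216) (nat_lit 0) (XT.lf (nat_lit 0) (nat_lit 4351712894) (nat_lit 1140) (nat_lit 159528919) (nat_lit 76) (nat_lit 2421526328) (nat_lit 507) (nat_lit 5) (nat_lit 522) (nat_lit 5) (nat_lit 508) (nat_lit 5) (nat_lit 279) (nat_lit 258) (nat_lit 243)) (XT.lf (nat_lit 0) (nat_lit 1179302883) (nat_lit 1216) (nat_lit 1122439119) (nat_lit 76) (nat_lit 4687046964) (nat_lit 491) (nat_lit 5) (nat_lit 507) (nat_lit 5) (nat_lit 492) (nat_lit 5) (nat_lit 280) (nat_lit 258) (nat_lit 242))) (XT.nd (nat_lit 78) (nat_lit 1368) (nat_lit 0) (XT.lf (nat_lit 0) (nat_lit 4931930874) (nat_lit 1292) (nat_lit 2069192662) (nat_lit 76) (nat_lit 46879114) (nat_lit 475) (nat_lit 5) (nat_lit 492) (nat_lit 5)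 (nat_lit 476) (nat_lit 5) (nat_lit 281) (nat_lit 258) (nat_lit 241)) (XT.lf (nat_lit 0) (nat_lit 1598743754) (nat_lit 1368) (nat_lit 3011560835) (nat_lit 76) (nat_lit 2499951193) (nat_lit 457) (nat_lit 5) (nat_lit 475) (nat_lit 5) (nat_lit 458) (nat_lit 5) (nat_lit 282) (nat_lit 258) (nat_lit 240)))))) (XT.nd (nat_lit 546) (nat_lit 5700) (nat_lit 0) (XT.nd (nat_lit 234) (nat_lit 4560) (nat_lit 0) (XT.nd (nat_lit 78) (nat_lit 3040) (nat_lit 0) (XT.lf (nat_lit 0) (nat_lit 3235330411) (nat_lit 1368) (nat_lit 2081670732) (nat_lit 1444) (nat_lit 1858813728) (nat_lit 439) (nat_lit 5) (nat_lit 457) (nat_lit 5) (nat_lit 458) (nat_lit 5) (nat_lit 283) (nat_lit 258) (nat_lit 239)) (XT.nd (nat_lit 78) (nat_lit 1520) (nat_lit 0) (XT.lf (nat_lit 0) (nat_lit 1805653924) (nat_lit 1520) (nat_lit 4860542065) (nat_lit 76) (nat_lit 578481148) (nat_lit 419) (nat_lit 5) (nat_lit 439) (nat_lit 5) (nat_lit 420) (nat_lit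 5) (nat_lit 284) (nat_lit 258) (nat_lit 238)) (XT.lf (nat_lit 0) (nat_lit 1531382507) (nat_lit 1520) (nat_lit 3964341375) (nat_lit 1596) (nat_lit 1820940151) (nat_lit 399) (nat_lit 5) (nat_lit 419) (nat_lit 5) (nat_lit 420) (nat_lit 5) (nat_lit 285) (nat_lit 258) (nat_lit 237)))) (XT.nd (nat_lit 156) (nat_lit 2888) (nat_lit 0) (XT.nd (nat_lit 78) (nat_lit 0) (nat_lit 0) (XT.lf (nat_lit 0) (nat_lit 688408718) (nat_lit 1596) (nat_lit 1121681334) (nat_lit 1672) (nat_lit 5582002083) (nat_lit 377) (nat_lit 5) (nat_lit 398) (nat_lit 5) (nat_lit 399) (nat_lit 5) (nat_lit 286) (nat_lit 258) (nat_lit 236)) (XT.lf (nat_lit 0) (nat_lit 5470984268) (nat_lit 1672) (nat_lit 157802578) (nat_lit 76) (nat_lit 1841955668) (nat_lit 377) (nat_lit 5) (nat_lit 399) (nat_lit 5) (nat_lit 378) (nat_lit 5) (nat_lit 287) (nat_lit 258) (nat_lit 235))) (XT.nd (nat_lit 78) (nat_lit 1140) (nat_lit 0) (XT.lf (nat_lit 0) (nat_lit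 1614882658) (nat_lit 1748) (nat_lit 997692141) (nat_lit 76) (nat_lit 4940124425) (nat_lit 354) (nat_lit 5) (nat_lit 377) (nat_lit 5) (nat_lit 355) (nat_lit 5) (nat_lit 288) (nat_lit 258) (nat_lit 234)) (XT.lf (nat_lit 0) (nat_lit 5252276717) (nat_lit 1216) (nat_lit 1841913627) (nat_lit 76) (nat_lit 543935256) (nat_lit 339) (nat_lit 5) (nat_lit 355) (nat_lit 5) (nat_lit 340) (nat_lit 5) (nat_lit 289) (nat_lit 258) (nat_lit 233))))) (XT.nd (nat_lit 234) (nat_lit 3116) (nat_lit 0) (XT.nd (nat_lit 78) (nat_lit 1672) (nat_lit 0) (XT.lf (nat_lit 0) (nat_lit 1213918849) (nat_lit 912) (nat_lit 2702552931) (nat_lit 76) (nat_lit 3810419012) (nat_lit 327) (nat_lit 5) (nat_lit 339) (nat_lit 5) (nat_lit 328) (nat_lit 5) (nat_lit 290) (nat_lit 258) (nat_lit 232)) (XT.nd (nat_lit 78) (nat_lit 836) (nat_lit 0) (XT.lf (nat_lit 0) (nat_lit 4245952317) (nat_lit 836) (nat_lit 586500877) (nat_lit 912) (nat_lit 2986783603)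 (nat_lit 316) (nat_lit 5) (nat_lit 327) (nat_lit 5) (nat_lit 328) (nat_lit 5) (nat_lit 291) (nat_lit 258) (nat_lit 231)) (XT.lf (nat_lit 0) (nat_lit 600798930) (nat_lit 836) (nat_lit 4464287360) (nat_lit 76) (nat_lit 2849994054) (nat_lit 305) (nat_lit 5) (nat_lit 316) (nat_lit 5) (nat_lit 306) (nat_lit 5) (nat_lit 292) (nat_lit 258) (nat_lit 230)))) (XT.nd (nat_lit 156) (nat_lit 1520) (nat_lit 0) (XT.nd (nat_lit 78) (nat_lit 760) (nat_lit 0) (XT.lf (nat_lit 0) (nat_lit 2634112380) (nat_lit 836) (nat_lit 1573455539) (nat_lit 912) (nat_lit 3806883334) (nat_lit 294) (nat_lit 5) (nat_lit 305) (nat_lit 5) (nat_lit 306) (nat_lit 5) (nat_lit 293) (nat_lit 258) (nat_lit 229)) (XT.lf (nat_lit 0) (nat_lit 1802813760) (nat_lit 760) (nat_lit 6083594966) (nat_lit 836) (nat_lit 231204238) (nat_lit 284) (nat_lit 5) (nat_lit 294) (nat_lit 5) (nat_lit 295) (nat_lit 5) (nat_lit 294) (nat_lit 258) (nat_lit 228)))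 (XT.nd (nat_lit 78) (nat_lit 684) (nat_lit 0) (XT.lf (nat_lit 0) (nat_lit 933473798) (nat_lit 760) (nat_lit 2436224684) (nat_lit 836) (nat_lit 4854541209) (nat_lit 273) (nat_lit 5) (nat_lit 283) (nat_lit 5) (nat_lit 284) (nat_lit 5) (nat_lit 295) (nat_lit 258) (nat_lit 227)) (XT.lf (nat_lit 0) (nat_lit 44839111) (nat_lit 684) (nat_lit 6994494093) (nat_lit 760) (nat_lit 1295504973) (nat_lit 264) (nat_lit 5) (nat_lit 273) (nat_lit 5) (nat_lit 274) (nat_lit 5) (nat_lit 296) (nat_lit 258) (nat_lit 226))))))) (XT.nd (nat_lit 1014) (nat_lit 4864) (nat_lit 0) (XT.nd (nat_lit 468) (nat_lit 3496) (nat_lit 0) (XT.nd (nat_lit 234) (nat_lit 1976) (nat_lit 0) (XT.nd (nat_lit 78) (nat_lit 1444) (nat_lit 0) (XT.lf (nat_lit 0) (nat_lit 2318421964) (nat_lit 760) (nat_lit 876879094) (nat_lit 76) (nat_lit 5253638206) (nat_lit 263) (nat_lit 5) (nat_lit 273) (nat_lit 5) (nat_lit 264) (nat_lit 5) (nat_lit 297) (nat_lit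 258) (nat_lit 225)) (XT.nd (nat_lit 78) (nat_lit 760) (nat_lit 0) (XT.lf (nat_lit 0) (nat_lit 5987704513) (nat_lit 760) (nat_lit 1828274222) (nat_lit 76) (nat_lit 751096948) (nat_lit 254) (nat_lit 5) (nat_lit 264) (nat_lit 5) (nat_lit 255) (nat_lit 5) (nat_lit 298) (nat_lit 258) (nat_lit 224)) (XT.lf (nat_lit 0) (nat_lit 1046919639) (nat_lit 760) (nat_lit 2828891681) (nat_lit 76) (nat_lit 4813220562) (nat_lit 244) (nat_lit 5) (nat_lit 254) (nat_lit 5) (nat_lit 245) (nat_lit 5) (nat_lit 299) (nat_lit 258) (nat_lit 223)))) (XT.nd (nat_lit 78) (nat_lit 1292) (nat_lit 0) (XT.lf (nat_lit 0) (nat_lit 4711918176) (nat_lit 760) (nat_lit 3873591280) (nat_lit 76) (nat_lit 229565763) (nat_lit 235) (nat_lit 5) (nat_lit 245) (nat_lit 5) (nat_lit 236) (nat_lit 5) (nat_lit 300) (nat_lit 258) (nat_lit 222)) (XT.nd (nat_lit 78) (nat_lit 684) (nat_lit 0) (XT.lf (nat_lit 0) (nat_lit 3970860768) (nat_lit 608) (nat_lit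 4507371165) (nat_lit 684) (nat_lit 466907316) (nat_lit 227) (nat_lit 5) (nat_lit 235) (nat_lit 5) (nat_lit 236) (nat_lit 5) (nat_lit 301) (nat_lit 258) (nat_lit 221)) (XT.lf (nat_lit 0) (nat_lit 2948373153) (nat_lit 608) (nat_lit 254129820) (nat_lit 684) (nat_lit 5876898589) (nat_lit 218) (nat_lit 5) (nat_lit 226) (nat_lit 5) (nat_lit 227) (nat_lit 5) (nat_lit 302) (nat_lit 258) (nat_lit 220))))) (XT.nd (nat_lit 234) (nat_lit 2280) (nat_lit 0) (XT.nd (nat_lit 78) (nat_lit 684) (nat_lit 0) (XT.lf (nat_lit 0) (nat_lit 1860135518) (nat_lit 532) (nat_lit 5111443920) (nat_lit 608) (nat_lit 2246193673) (nat_lit 211) (nat_lit 5) (nat_lit 218) (nat_lit 5) (nat_lit 219) (nat_lit 5) (nat_lit 303) (nat_lit 258) (nat_lit 219)) (XT.nd (nat_lit 78) (nat_lit 0) (nat_lit 0) (XT.lf (nat_lit 0) (nat_lit 719821610) (nat_lit 608) (nat_lit 726390991) (nat_lit 684) (nat_lit 7914500606) (nat_lit 202) (nat_lit 5) (nat_lit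 210) (nat_lit 5) (nat_lit 211) (nat_lit 5) (nat_lit 304) (nat_lit 258) (nat_lit 218)) (XT.lf (nat_lit 0) (nat_lit 5219514130) (nat_lit 684) (nat_lit 499937620) (nat_lit 76) (nat_lit 3788236968) (nat_lit 202) (nat_lit 5) (nat_lit 211) (nat_lit 5) (nat_lit 203) (nat_lit 5) (nat_lit 305) (nat_lit 258) (nat_lit 217)))) (XT.nd (nat_lit 156) (nat_lit 1140) (nat_lit 0) (XT.nd (nat_lit 78) (nat_lit 608) (nat_lit 0) (XT.lf (nat_lit 0) (nat_lit 7893277670) (nat_lit 532) (nat_lit 1196677724) (nat_lit 608) (nat_lit 569494584) (nat_lit 195) (nat_lit 5) (nat_lit 202) (nat_lit 5) (nat_lit 203) (nat_lit 5) (nat_lit 306) (nat_lit 258) (nat_lit 216)) (XT.lf (nat_lit 0) (nat_lit 3216571507) (nat_lit 608) (nat_lit 3132647047) (nat_lit 76) (nat_lit 3466202920) (nat_lit 187) (nat_lit 5) (nat_lit 195) (nat_lit 5) (nat_lit 188) (nat_lit 5) (nat_lit 307) (nat_lit 258) (nat_lit 215))) (XT.nd (nat_lit 78) (nat_lit 608) (nat_lit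 0) (XT.lf (nat_lit 0) (nat_lit 5402479027) (nat_lit 532) (nat_lit 1691384129) (nat_lit 608) (nat_lit 2882477160) (nat_lit 180) (nat_lit 5) (nat_lit 187) (nat_lit 5) (nat_lit 188) (nat_lit 5) (nat_lit 308) (nat_lit 258) (nat_lit 214)) (XT.lf (nat_lit 0) (nat_lit 932221851) (nat_lit 608) (nat_lit 6110601810) (nat_lit 76) (nat_lit 3099204261) (nat_lit 172) (nat_lit 5) (nat_lit 180) (nat_lit 5) (nat_lit 173) (nat_lit 5) (nat_lit 309) (nat_lit 258) (nat_lit 213)))))) (XT.nd (nat_lit 546) (nat_lit 2052) (nat_lit 0) (XT.nd (nat_lit 234) (nat_lit 1824) (nat_lit 0) (XT.nd (nat_lit 78) (nat_lit 532) (nat_lit 0) (XT.lf (nat_lit 0) (nat_lit 2558851551) (nat_lit 456) (nat_lit 2255161140) (nat_lit 532) (nat_lit 5498503379) (nat_lit 166) (nat_lit 5) (nat_lit 172) (nat_lit 5) (nat_lit 173) (nat_lit 5) (nat_lit 310) (nat_lit 258) (nat_lit 212)) (XT.nd (nat_lit 78) (nat_lit 76) (nat_lit 0) (XT.lf (nat_lit 0) (nat_lit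 990980790) (nat_lit 456) (nat_lit 7820487884) (nat_lit 532) (nat_lit 1676711809) (nat_lit 160) (nat_lit 5) (nat_lit 166) (nat_lit 5) (nat_lit 167) (nat_lit 5) (nat_lit 311) (nat_lit 258) (nat_lit 211)) (XT.lf (nat_lit 0) (nat_lit 2232675159) (nat_lit 532) (nat_lit 682640412) (nat_lit 76) (nat_lit 7753497896) (nat_lit 159) (nat_lit 5) (nat_lit 166) (nat_lit 5) (nat_lit 160) (nat_lit 5) (nat_lit 312) (nat_lit 258) (nat_lit 210)))) (XT.nd (nat_lit 156) (nat_lit 912) (nat_lit 0) (XT.nd (nat_lit 78) (nat_lit 456) (nat_lit 0) (XT.lf (nat_lit 0) (nat_lit 6241970510) (nat_lit 532) (nat_lit 2459586386) (nat_lit 76) (nat_lit 2153021118) (nat_lit 153) (nat_lit 5) (nat_lit 160) (nat_lit 5) (nat_lit 154) (nat_lit 5) (nat_lit 313) (nat_lit 258) (nat_lit 209)) (XT.lf (nat_lit 0) (nat_lit 6690961533) (nat_lit 456) (nat_lit 3685844726) (nat_lit 532) (nat_lit 669045142) (nat_lit 147) (nat_lit 5) (nat_lit 153) (nat_lit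 5) (nat_lit 154) (nat_lit 5) (nat_lit 314) (nat_lit 258) (nat_lit 208))) (XT.nd (nat_lit 78) (nat_lit 456) (nat_lit 0) (XT.lf (nat_lit 0) (nat_lit 3345096295) (nat_lit 456) (nat_lit 6389040874) (nat_lit 76) (nat_lit 1508389014) (nat_lit 141) (nat_lit 5) (nat_lit 147) (nat_lit 5) (nat_lit 142) (nat_lit 5) (nat_lit 315) (nat_lit 258) (nat_lit 207)) (XT.lf (nat_lit 0) (nat_lit 2876708970) (nat_lit 456) (nat_lit 4606532381) (nat_lit 532) (nat_lit 3961556041) (nat_lit 135) (nat_lit 5) (nat_lit 141) (nat_lit 5) (nat_lit 142) (nat_lit 5) (nat_lit 316) (nat_lit 258) (nat_lit 206))))) (XT.nd (nat_lit 234) (nat_lit 1216) (nat_lit 0) (XT.nd (nat_lit 78) (nat_lit 380) (nat_lit 0) (XT.lf (nat_lit 0) (nat_lit 84752936) (nat_lit 456) (nat_lit 10877325317) (nat_lit 76) (nat_lit 691211257) (nat_lit 129) (nat_lit 5) (nat_lit 135) (nat_lit 5) (nat_lit 130) (nat_lit 5) (nat_lit 317) (nat_lit 258) (nat_lit 205)) (XT.nd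 (nat_lit 78) (nat_lit 380) (nat_lit 0) (XT.lf (nat_lit 0) (nat_lit 4229598956) (nat_lit 456) (nat_lit 1490977270) (nat_lit 76) (nat_lit 6146352180) (nat_lit 129) (nat_lit 5) (nat_lit 135) (nat_lit 5) (nat_lit 130) (nat_lit 5) (nat_lit 318) (nat_lit 258) (nat_lit 204)) (XT.lf (nat_lit 0) (nat_lit 8202953449) (nat_lit 380) (nat_lit 292214844) (nat_lit 456) (nat_lit 3591914724) (nat_lit 124) (nat_lit 5) (nat_lit 129) (nat_lit 5) (nat_lit 130) (nat_lit 5) (nat_lit 319) (nat_lit 258) (nat_lit 203)))) (XT.nd (nat_lit 156) (nat_lit 380) (nat_lit 0) (XT.nd (nat_lit 78) (nat_lit 380) (nat_lit 0) (XT.lf (nat_lit 0) (nat_lit 594155269) (nat_lit 456) (nat_lit 6461711046) (nat_lit 76) (nat_lit 5257397122) (nat_lit 118) (nat_lit 5) (nat_lit 124) (nat_lit 5) (nat_lit 119) (nat_lit 5) (nat_lit 320) (nat_lit 258) (nat_lit 202)) (XT.lf (nat_lit 0) (nat_lit 3323504932) (nat_lit 380) (nat_lit 1528617493) (nat_lit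 456) (nat_lit 7693761210) (nat_lit 113) (nat_lit 5) (nat_lit 118) (nat_lit 5) (nat_lit 119) (nat_lit 5) (nat_lit 321) (nat_lit 258) (nat_lit 201))) (XT.nd (nat_lit 78) (nat_lit 76) (nat_lit 0) (XT.lf (nat_lit 0) (nat_lit 606402567) (nat_lit 304) (nat_lit 8652215864) (nat_lit 380) (nat_lit 3526478810) (nat_lit 109) (nat_lit 5) (nat_lit 113) (nat_lit 5) (nat_lit 114) (nat_lit 5) (nat_lit 322) (nat_lit 258) (nat_lit 200)) (XT.lf (nat_lit 0) (nat_lit 775331739) (nat_lit 380) (nat_lit 2269340816) (nat_lit 76) (nat_lit 9986353311) (nat_lit 108) (nat_lit 5) (nat_lit 113) (nat_lit 5) (nat_lit 109) (nat_lit 5) (nat_lit 323) (nat_lit 258) (nat_lit 199))))))))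
noncomputable def xc48 : XT := (XT.nd (nat_lit 2028) (nat_lit 1368) (nat_lit 0) (XT.nd (nat_lit 1014) (nat_lit 1900) (nat_lit 0) (XT.nd (nat_lit 468) (nat_lit 1444) (nat_lit 0) (XT.nd (nat_lit 234) (nat_lit 684) (nat_lit 0) (XT.nd (nat_lit 78) (nat_lit 684) (nat_lit 0) (XT.lf (nat_lit 0) (nat_lit 5176161416) (nat_lit 456) (nat_lit 5361568273) (nat_lit 76) (nat_lit 2745807222) (nat_lit 103) (nat_lit 5) (nat_lit 109) (nat_lit 5) (nat_lit 104) (nat_lit 5) (nat_lit 324) (nat_lit 258) (nat_lit 198)) (XT.nd (nat_lit 78) (nat_lit 380) (nat_lit 0) (XT.lf (nat_lit 0) (nat_lit 4873130928) (nat_lit 304) (nat_lit 4852205893) (nat_lit 380) (nat_lit 3817987503) (nat_lit 99) (nat_lit 5) (nat_lit 103) (nat_lit 5) (nat_lit 104) (nat_lit 5) (nat_lit 325) (nat_lit 258) (nat_lit 197)) (XT.lf (nat_lit 0) (nat_lit 595459935) (nat_lit 380) (nat_lit 12198964328) (nat_lit 76) (nat_lit 1016364346) (nat_lit 94) (nat_lit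 5) (nat_lit 99) (nat_lit 5) (nat_lit 95) (nat_lit 5) (nat_lit 326) (nat_lit 258) (nat_lit 196)))) (XT.nd (nat_lit 78) (nat_lit 684) (nat_lit 0) (XT.lf (nat_lit 0) (nat_lit 5131620136) (nat_lit 380) (nat_lit 1898627981) (nat_lit 76) (nat_lit 7054705723) (nat_lit 94) (nat_lit 5) (nat_lit 99) (nat_lit 5) (nat_lit 95) (nat_lit 5) (nat_lit 327) (nat_lit 258) (nat_lit 195)) (XT.nd (nat_lit 78) (nat_lit 380) (nat_lit 0) (XT.lf (nat_lit 0) (nat_lit 8751577400) (nat_lit 304) (nat_lit 1060851732) (nat_lit 380) (nat_lit 4554768246) (nat_lit 90) (nat_lit 5) (nat_lit 94) (nat_lit 5) (nat_lit 95) (nat_lit 5) (nat_lit 328) (nat_lit 258) (nat_lit 194)) (XT.lf (nat_lit 0) (nat_lit 7533086) (nat_lit 380) (nat_lit 9608151426) (nat_lit 76) (nat_lit 5041621088) (nat_lit 85) (nat_lit 5) (nat_lit 90) (nat_lit 5) (nat_lit 86) (nat_lit 5) (nat_lit 329) (nat_lit 258) (nat_lit 193))))) (XT.nd (nat_lit 234) (nat_lit 912)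 (nat_lit 0) (XT.nd (nat_lit 78) (nat_lit 304) (nat_lit 0) (XT.lf (nat_lit 0) (nat_lit 1058479990) (nat_lit 228) (nat_lit 3592060348) (nat_lit 304) (nat_lit 10304882984) (nat_lit 82) (nat_lit 5) (nat_lit 85) (nat_lit 5) (nat_lit 86) (nat_lit 5) (nat_lit 330) (nat_lit 258) (nat_lit 192)) (XT.nd (nat_lit 78) (nat_lit 304) (nat_lit 0) (XT.lf (nat_lit 0) (nat_lit 9469163709) (nat_lit 304) (nat_lit 3174515810) (nat_lit 76) (nat_lit 2618100639) (nat_lit 82) (nat_lit 5) (nat_lit 86) (nat_lit 5) (nat_lit 83) (nat_lit 5) (nat_lit 331) (nat_lit 258) (nat_lit 191)) (XT.lf (nat_lit 0) (nat_lit 7878433748) (nat_lit 304) (nat_lit 6584256864) (nat_lit 380) (nat_lit 1114051648) (nat_lit 78) (nat_lit 5) (nat_lit 82) (nat_lit 5) (nat_lit 83) (nat_lit 5) (nat_lit 332) (nat_lit 258) (nat_lit 190)))) (XT.nd (nat_lit 156) (nat_lit 608) (nat_lit 0) (XT.nd (nat_lit 78) (nat_lit 0) (nat_lit 0) (XT.lf (nat_lit 0) (nat_lit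 3355592291) (nat_lit 228) (nat_lit 299843493) (nat_lit 304) (nat_lit 12245273658) (nat_lit 74) (nat_lit 5) (nat_lit 77) (nat_lit 5) (nat_lit 78) (nat_lit 5) (nat_lit 333) (nat_lit 258) (nat_lit 189)) (XT.lf (nat_lit 0) (nat_lit 8601943727) (nat_lit 304) (nat_lit 1504253781) (nat_lit 76) (nat_lit 6127089252) (nat_lit 74) (nat_lit 5) (nat_lit 78) (nat_lit 5) (nat_lit 75) (nat_lit 5) (nat_lit 334) (nat_lit 258) (nat_lit 188))) (XT.nd (nat_lit 78) (nat_lit 304) (nat_lit 0) (XT.lf (nat_lit 0) (nat_lit 9928558000) (nat_lit 304) (nat_lit 3792420655) (nat_lit 380) (nat_lit 2854399359) (nat_lit 70) (nat_lit 5) (nat_lit 74) (nat_lit 5) (nat_lit 75) (nat_lit 5) (nat_lit 335) (nat_lit 258) (nat_lit 187)) (XT.lf (nat_lit 0) (nat_lit 2056023586) (nat_lit 304) (nat_lit 12165636255) (nat_lit 76) (nat_lit 2705476929) (nat_lit 66) (nat_lit 5) (nat_lit 70) (nat_lit 5) (nat_lit 67) (nat_lit 5) (nat_lit 336) (nat_lit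 258) (nat_lit 186)))))) (XT.nd (nat_lit 468) (nat_lit 912) (nat_lit 0) (XT.nd (nat_lit 234) (nat_lit 532) (nat_lit 0) (XT.nd (nat_lit 78) (nat_lit 456) (nat_lit 0) (XT.lf (nat_lit 0) (nat_lit 7104702566) (nat_lit 304) (nat_lit 796799808) (nat_lit 76) (nat_lit 9386991884) (nat_lit 66) (nat_lit 5) (nat_lit 70) (nat_lit 5) (nat_lit 67) (nat_lit 5) (nat_lit 337) (nat_lit 258) (nat_lit 185)) (XT.nd (nat_lit 78) (nat_lit 228) (nat_lit 0) (XT.lf (nat_lit 0) (nat_lit 10992653714) (nat_lit 228) (nat_lit 1343561307) (nat_lit 304) (nat_lit 5323867259) (nat_lit 63) (nat_lit 5) (nat_lit 66) (nat_lit 5) (nat_lit 67) (nat_lit 5) (nat_lit 338) (nat_lit 258) (nat_lit 184)) (XT.lf (nat_lit 0) (nat_lit 5071113802) (nat_lit 228) (nat_lit 12687647617) (nat_lit 304) (nat_lit 283391520) (nat_lit 60) (nat_lit 5) (nat_lit 63) (nat_lit 5) (nat_lit 64) (nat_lit 5) (nat_lit 339) (nat_lit 258) (nat_lit 183)))) (XT.nd (nat_lit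 78) (nat_lit 456) (nat_lit 0) (XT.lf (nat_lit 0) (nat_lit 4859451317) (nat_lit 304) (nat_lit 1286562670) (nat_lit 76) (nat_lit 12288739813) (nat_lit 59) (nat_lit 5) (nat_lit 63) (nat_lit 5) (nat_lit 60) (nat_lit 5) (nat_lit 340) (nat_lit 258) (nat_lit 182)) (XT.nd (nat_lit 78) (nat_lit 228) (nat_lit 0) (XT.lf (nat_lit 0) (nat_lit 10189405445) (nat_lit 304) (nat_lit 8015928430) (nat_lit 76) (nat_lit 633043318) (nat_lit 56) (nat_lit 5) (nat_lit 60) (nat_lit 5) (nat_lit 57) (nat_lit 5) (nat_lit 341) (nat_lit 258) (nat_lit 181)) (XT.lf (nat_lit 0) (nat_lit 4008368337) (nat_lit 228) (nat_lit 11709539097) (nat_lit 304) (nat_lit 3535443914) (nat_lit 53) (nat_lit 5) (nat_lit 56) (nat_lit 5) (nat_lit 57) (nat_lit 5) (nat_lit 342) (nat_lit 258) (nat_lit 180))))) (XT.nd (nat_lit 234) (nat_lit 456) (nat_lit 0) (XT.nd (nat_lit 78) (nat_lit 380) (nat_lit 0) (XT.lf (nat_lit 0) (nat_lit 1726642382) (nat_lit 304)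 (nat_lit 3249128978) (nat_lit 76) (nat_lit 14704435619) (nat_lit 52) (nat_lit 5) (nat_lit 56) (nat_lit 5) (nat_lit 53) (nat_lit 5) (nat_lit 343) (nat_lit 258) (nat_lit 179)) (XT.nd (nat_lit 78) (nat_lit 152) (nat_lit 0) (XT.lf (nat_lit 0) (nat_lit 7135578023) (nat_lit 304) (nat_lit 10988362074) (nat_lit 76) (nat_lit 1994734308) (nat_lit 49) (nat_lit 5) (nat_lit 53) (nat_lit 5) (nat_lit 50) (nat_lit 5) (nat_lit 344) (nat_lit 258) (nat_lit 178)) (XT.lf (nat_lit 0) (nat_lit 1280341326) (nat_lit 152) (nat_lit 11454959782) (nat_lit 228) (nat_lit 7834437857) (nat_lit 47) (nat_lit 5) (nat_lit 49) (nat_lit 5) (nat_lit 50) (nat_lit 5) (nat_lit 345) (nat_lit 258) (nat_lit 177)))) (XT.nd (nat_lit 156) (nat_lit 152) (nat_lit 0) (XT.nd (nat_lit 78) (nat_lit 304) (nat_lit 0) (XT.lf (nat_lit 0) (nat_lit 14009684447) (nat_lit 152) (nat_lit 4533211158) (nat_lit 228) (nat_lit 2490655365) (nat_lit 47) (nat_lit 5)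 (nat_lit 49) (nat_lit 5) (nat_lit 50) (nat_lit 5) (nat_lit 346) (nat_lit 258) (nat_lit 176)) (XT.lf (nat_lit 0) (nat_lit 2993593333) (nat_lit 304) (nat_lit 15920932579) (nat_lit 76) (nat_lit 2595979102) (nat_lit 43) (nat_lit 5) (nat_lit 47) (nat_lit 5) (nat_lit 44) (nat_lit 5) (nat_lit 347) (nat_lit 258) (nat_lit 175))) (XT.nd (nat_lit 78) (nat_lit 152) (nat_lit 0) (XT.lf (nat_lit 0) (nat_lit 8653619308) (nat_lit 304) (nat_lit 3426764766) (nat_lit 76) (nat_lit 9920164690) (nat_lit 43) (nat_lit 5) (nat_lit 47) (nat_lit 5) (nat_lit 44) (nat_lit 5) (nat_lit 348) (nat_lit 258) (nat_lit 174)) (XT.lf (nat_lit 0) (nat_lit 9512401983) (nat_lit 152) (nat_lit 5000444161) (nat_lit 228) (nat_lit 7991871437) (nat_lit 41) (nat_lit 5) (nat_lit 43) (nat_lit 5) (nat_lit 44) (nat_lit 5) (nat_lit 349) (nat_lit 258) (nat_lit 173))))))) (XT.nd (nat_lit 33774) (nat_lit 0) (nat_lit 39900) (XT.nd (nat_lit 468) (nat_lit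 684) (nat_lit 0) (XT.nd (nat_lit 234) (nat_lit 228) (nat_lit 0) (XT.nd (nat_lit 78) (nat_lit 456) (nat_lit 0) (XT.lf (nat_lit 0) (nat_lit 20554195680) (nat_lit 228) (nat_lit 206133272) (nat_lit 76) (nat_lit 2263567009) (nat_lit 41) (nat_lit 5) (nat_lit 44) (nat_lit 5) (nat_lit 42) (nat_lit 5) (nat_lit 350) (nat_lit 258) (nat_lit 172)) (XT.nd (nat_lit 78) (nat_lit 152) (nat_lit 0) (XT.lf (nat_lit 0) (nat_lit 3263677219) (nat_lit 304) (nat_lit 10529681317) (nat_lit 76) (nat_lit 9763129182) (nat_lit 37) (nat_lit 5) (nat_lit 41) (nat_lit 5) (nat_lit 38) (nat_lit 5) (nat_lit 351) (nat_lit 258) (nat_lit 171)) (XT.lf (nat_lit 0) (nat_lit 2518849603) (nat_lit 152) (nat_lit 6603978622) (nat_lit 228) (nat_lit 14982166544) (nat_lit 35) (nat_lit 5) (nat_lit 37) (nat_lit 5) (nat_lit 38) (nat_lit 5) (nat_lit 352) (nat_lit 258) (nat_lit 170)))) (XT.nd (nat_lit 78) (nat_lit 228) (nat_lit 0) (XT.lf (nat_lit 0)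 (nat_lit 15204574798) (nat_lit 228) (nat_lit 8623048963) (nat_lit 76) (nat_lit 841407090) (nat_lit 35) (nat_lit 5) (nat_lit 38) (nat_lit 5) (nat_lit 36) (nat_lit 5) (nat_lit 353) (nat_lit 258) (nat_lit 169)) (XT.nd (nat_lit 78) (nat_lit 76) (nat_lit 0) (XT.lf (nat_lit 0) (nat_lit 4696061541) (nat_lit 152) (nat_lit 16818040561) (nat_lit 228) (nat_lit 3734989290) (nat_lit 33) (nat_lit 5) (nat_lit 35) (nat_lit 5) (nat_lit 36) (nat_lit 5) (nat_lit 354) (nat_lit 258) (nat_lit 168)) (XT.lf (nat_lit 0) (nat_lit 2167776005) (nat_lit 228) (nat_lit 7376941684) (nat_lit 76) (nat_lit 16300967681) (nat_lit 32) (nat_lit 5) (nat_lit 35) (nat_lit 5) (nat_lit 33) (nat_lit 5) (nat_lit 355) (nat_lit 258) (nat_lit 167))))) (XT.nd (nat_lit 234) (nat_lit 380) (nat_lit 0) (XT.nd (nat_lit 78) (nat_lit 152) (nat_lit 0) (XT.lf (nat_lit 0) (nat_lit 6202366485) (nat_lit 152) (nat_lit 2006924769) (nat_lit 228) (nat_lit 18250153120)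 (nat_lit 30) (nat_lit 5) (nat_lit 32) (nat_lit 5) (nat_lit 33) (nat_lit 5) (nat_lit 356) (nat_lit 258) (nat_lit 166)) (XT.nd (nat_lit 78) (nat_lit 152) (nat_lit 0) (XT.lf (nat_lit 0) (nat_lit 14491982112) (nat_lit 228) (nat_lit 6886371383) (nat_lit 76) (nat_lit 5712072970) (nat_lit 30) (nat_lit 5) (nat_lit 33) (nat_lit 5) (nat_lit 31) (nat_lit 5) (nat_lit 357) (nat_lit 258) (nat_lit 165)) (XT.lf (nat_lit 0) (nat_lit 6916064511) (nat_lit 152) (nat_lit 14078455165) (nat_lit 228) (nat_lit 6745199686) (nat_lit 28) (nat_lit 5) (nat_lit 30) (nat_lit 5) (nat_lit 31) (nat_lit 5) (nat_lit 358) (nat_lit 258) (nat_lit 164)))) (XT.nd (nat_lit 156) (nat_lit 152) (nat_lit 0) (XT.nd (nat_lit 78) (nat_lit 228) (nat_lit 0) (XT.lf (nat_lit 0) (nat_lit 21180916445) (nat_lit 152) (nat_lit 6531409332) (nat_lit 228) (nat_lit 695769829) (nat_lit 28) (nat_lit 5) (nat_lit 30) (nat_lit 5) (nat_lit 31) (nat_lit 5) (nat_lit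 359) (nat_lit 258) (nat_lit 163)) (XT.lf (nat_lit 0) (nat_lit 5489194446) (nat_lit 228) (nat_lit 22318608826) (nat_lit 76) (nat_lit 1287476194) (nat_lit 25) (nat_lit 5) (nat_lit 28) (nat_lit 5) (nat_lit 26) (nat_lit 5) (nat_lit 360) (nat_lit 258) (nat_lit 162))) (XT.nd (nat_lit 78) (nat_lit 152) (nat_lit 0) (XT.lf (nat_lit 0) (nat_lit 11917750845) (nat_lit 228) (nat_lit 8595790619) (nat_lit 76) (nat_lit 9288103247) (nat_lit 25) (nat_lit 5) (nat_lit 28) (nat_lit 5) (nat_lit 26) (nat_lit 5) (nat_lit 361) (nat_lit 258) (nat_lit 161)) (XT.lf (nat_lit 0) (nat_lit 5568443977) (nat_lit 152) (nat_lit 12982083400) (nat_lit 228) (nat_lit 11978453814) (nat_lit 23) (nat_lit 5) (nat_lit 25) (nat_lit 5) (nat_lit 26) (nat_lit 5) (nat_lit 362) (nat_lit 258) (nat_lit 160)))))) (XT.nd (nat_lit 546) (nat_lit 4180) (nat_lit 0) (XT.nd (nat_lit 234) (nat_lit 1064) (nat_lit 0) (XT.nd (nat_lit 78) (nat_lit 304) (nat_lit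 0) (XT.lf (nat_lit 0) (nat_lit 1299038872) (nat_lit 76) (nat_lit 962135886) (nat_lit 76) (nat_lit 962135886) (nat_lit 621) (nat_lit 4) (nat_lit 622) (nat_lit 5) (nat_lit 622) (nat_lit 4) (nat_lit 262) (nat_lit 259) (nat_lit 259)) (XT.nd (nat_lit 78) (nat_lit 76) (nat_lit 0) (XT.lf (nat_lit 0) (nat_lit 794138483) (nat_lit 152) (nat_lit 1673312871) (nat_lit 228) (nat_lit 3985158640) (nat_lit 618) (nat_lit 5) (nat_lit 620) (nat_lit 5) (nat_lit 621) (nat_lit 4) (nat_lit 263) (nat_lit 259) (nat_lit 258)) (XT.lf (nat_lit 0) (nat_lit 356275579) (nat_lit 228) (nat_lit 940406463) (nat_lit 76) (nat_lit 5164919150) (nat_lit 617) (nat_lit 5) (nat_lit 620) (nat_lit 5) (nat_lit 618) (nat_lit 5) (nat_lit 264) (nat_lit 259) (nat_lit 257)))) (XT.nd (nat_lit 156) (nat_lit 456) (nat_lit 0) (XT.nd (nat_lit 78) (nat_lit 380) (nat_lit 0) (XT.lf (nat_lit 0) (nat_lit 3851129901) (nat_lit 228) (nat_lit 783274434) (nat_lit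 304) (nat_lit 1838987116) (nat_lit 614) (nat_lit 5) (nat_lit 617) (nat_lit 5) (nat_lit 618) (nat_lit 5) (nat_lit 265) (nat_lit 259) (nat_lit 256)) (XT.lf (nat_lit 0) (nat_lit 2233696284) (nat_lit 304) (nat_lit 147220948) (nat_lit 380) (nat_lit 4107359712) (nat_lit 609) (nat_lit 5) (nat_lit 613) (nat_lit 5) (nat_lit 614) (nat_lit 5) (nat_lit 266) (nat_lit 259) (nat_lit 255))) (XT.nd (nat_lit 78) (nat_lit 0) (nat_lit 0) (XT.lf (nat_lit 0) (nat_lit 63714747) (nat_lit 456) (nat_lit 5840842468) (nat_lit 76) (nat_lit 601680524) (nat_lit 603) (nat_lit 5) (nat_lit 609) (nat_lit 5) (nat_lit 604) (nat_lit 5) (nat_lit 267) (nat_lit 259) (nat_lit 254)) (XT.lf (nat_lit 0) (nat_lit 4179886334) (nat_lit 456) (nat_lit 857511035) (nat_lit 76) (nat_lit 1489517416) (nat_lit 603) (nat_lit 5) (nat_lit 609) (nat_lit 5) (nat_lit 604) (nat_lit 5) (nat_lit 268) (nat_lit 259) (nat_lit 253))))) (XT.nd (nat_lit 234) (nat_lit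 2432) (nat_lit 0) (XT.nd (nat_lit 78) (nat_lit 1216) (nat_lit 0) (XT.lf (nat_lit 0) (nat_lit 1723210632) (nat_lit 532) (nat_lit 2324450499) (nat_lit 76) (nat_lit 2503003979) (nat_lit 596) (nat_lit 5) (nat_lit 603) (nat_lit 5) (nat_lit 597) (nat_lit 5) (nat_lit 269) (nat_lit 259) (nat_lit 252)) (XT.nd (nat_lit 78) (nat_lit 684) (nat_lit 0) (XT.lf (nat_lit 0) (nat_lit 2826728837) (nat_lit 532) (nat_lit 2933858317) (nat_lit 608) (nat_lit 816910053) (nat_lit 589) (nat_lit 5) (nat_lit 596) (nat_lit 5) (nat_lit 597) (nat_lit 5) (nat_lit 270) (nat_lit 259) (nat_lit 251)) (XT.lf (nat_lit 0) (nat_lit 1462603370) (nat_lit 608) (nat_lit 1688304369) (nat_lit 684) (nat_lit 3456395188) (nat_lit 580) (nat_lit 5) (nat_lit 588) (nat_lit 5) (nat_lit 589) (nat_lit 5) (nat_lit 271) (nat_lit 259) (nat_lit 250)))) (XT.nd (nat_lit 156) (nat_lit 1672) (nat_lit 0) (XT.nd (nat_lit 78) (nat_lit 0) (nat_lit 0) (XT.lf (nat_lit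 0) (nat_lit 143730732) (nat_lit 684) (nat_lit 321411706) (nat_lit 760) (nat_lit 6175191381) (nat_lit 570) (nat_lit 5) (nat_lit 579) (nat_lit 5) (nat_lit 580) (nat_lit 5) (nat_lit 272) (nat_lit 259) (nat_lit 249)) (XT.lf (nat_lit 0) (nat_lit 4361172127) (nat_lit 760) (nat_lit 1139505961) (nat_lit 76) (nat_lit 1175336167) (nat_lit 570) (nat_lit 5) (nat_lit 580) (nat_lit 5) (nat_lit 571) (nat_lit 5) (nat_lit 273) (nat_lit 259) (nat_lit 248))) (XT.nd (nat_lit 78) (nat_lit 836) (nat_lit 0) (XT.lf (nat_lit 0) (nat_lit 1534404576) (nat_lit 836) (nat_lit 2385934368) (nat_lit 76) (nat_lit 2794495346) (nat_lit 559) (nat_lit 5) (nat_lit 570) (nat_lit 5) (nat_lit 560) (nat_lit 5) (nat_lit 274) (nat_lit 259) (nat_lit 247)) (XT.lf (nat_lit 0) (nat_lit 3153843099) (nat_lit 836) (nat_lit 2209964507) (nat_lit 912) (nat_lit 1392959832) (nat_lit 548) (nat_lit 5) (nat_lit 559) (nat_lit 5) (nat_lit 560) (nat_lit 5)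 (nat_lit 275) (nat_lit 259) (nat_lit 246))))))))
noncomputable def xc49 : XT := (XT.nd (nat_lit 2028) (nat_lit 10412) (nat_lit 0) (XT.nd (nat_lit 1014) (nat_lit 9652) (nat_lit 0) (XT.nd (nat_lit 468) (nat_lit 9120) (nat_lit 0) (XT.nd (nat_lit 234) (nat_lit 3572) (nat_lit 0) (XT.nd (nat_lit 78) (nat_lit 1064) (nat_lit 0) (XT.lf (nat_lit 0) (nat_lit 2008135788) (nat_lit 912) (nat_lit 366343333) (nat_lit 988) (nat_lit 4427337557) (nat_lit 535) (nat_lit 5) (nat_lit 547) (nat_lit 5) (nat_lit 548) (nat_lit 5) (nat_lit 276) (nat_lit 259) (nat_lit 245)) (XT.nd (nat_lit 78) (nat_lit 76) (nat_lit 0) (XT.lf (nat_lit 0) (nat_lit 885266183) (nat_lit 988) (nat_lit 5264462466) (nat_lit 1064) (nat_lit 700194017) (nat_lit 522) (nat_lit 5) (nat_lit 535) (nat_lit 5) (nat_lit 536) (nat_lit 5) (nat_lit 277) (nat_lit 259) (nat_lit 244)) (XT.lf (nat_lit 0) (nat_lit 3008177453) (nat_lit 1064) (nat_lit 217953688) (nat_lit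 76) (nat_lit 3674877318) (nat_lit 521) (nat_lit 5) (nat_lit 535) (nat_lit 5) (nat_lit 522) (nat_lit 5) (nat_lit 278) (nat_lit 259) (nat_lit 243)))) (XT.nd (nat_lit 78) (nat_lit 2508) (nat_lit 0) (XT.lf (nat_lit 0) (nat_lit 5677446972) (nat_lit 1064) (nat_lit 1056814978) (nat_lit 1140) (nat_lit 221104061) (nat_lit 507) (nat_lit 5) (nat_lit 521) (nat_lit 5) (nat_lit 522) (nat_lit 5) (nat_lit 279) (nat_lit 259) (nat_lit 242)) (XT.nd (nat_lit 78) (nat_lit 1292) (nat_lit 0) (XT.lf (nat_lit 0) (nat_lit 3435217680) (nat_lit 1216) (nat_lit 2334942560) (nat_lit 76) (nat_lit 1242452771) (nat_lit 491) (nat_lit 5) (nat_lit 507) (nat_lit 5) (nat_lit 492) (nat_lit 5) (nat_lit 280) (nat_lit 259) (nat_lit 241)) (XT.lf (nat_lit 0) (nat_lit 48297754) (nat_lit 1292) (nat_lit 3370332751) (nat_lit 76) (nat_lit 3654572620) (nat_lit 474) (nat_lit 5) (nat_lit 491) (nat_lit 5) (nat_lit 475) (nat_lit 5) (nat_lit 281) (nat_lit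 259) (nat_lit 240))))) (XT.nd (nat_lit 234) (nat_lit 4940) (nat_lit 0) (XT.nd (nat_lit 78) (nat_lit 2888) (nat_lit 0) (XT.lf (nat_lit 0) (nat_lit 2735434898) (nat_lit 1292) (nat_lit 918654922) (nat_lit 1368) (nat_lit 3482782609) (nat_lit 457) (nat_lit 5) (nat_lit 474) (nat_lit 5) (nat_lit 475) (nat_lit 5) (nat_lit 282) (nat_lit 259) (nat_lit 239)) (XT.nd (nat_lit 78) (nat_lit 1444) (nat_lit 0) (XT.lf (nat_lit 0) (nat_lit 97000914) (nat_lit 1444) (nat_lit 5419343587) (nat_lit 76) (nat_lit 1687541059) (nat_lit 438) (nat_lit 5) (nat_lit 457) (nat_lit 5) (nat_lit 439) (nat_lit 5) (nat_lit 283) (nat_lit 259) (nat_lit 238)) (XT.lf (nat_lit 0) (nat_lit 829430551) (nat_lit 1444) (nat_lit 2839833872) (nat_lit 1520) (nat_lit 3604659102) (nat_lit 419) (nat_lit 5) (nat_lit 438) (nat_lit 5) (nat_lit 439) (nat_lit 5) (nat_lit 284) (nat_lit 259) (nat_lit 237)))) (XT.nd (nat_lit 156) (nat_lit 3344) (nat_lit 0)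 (XT.nd (nat_lit 78) (nat_lit 1596) (nat_lit 0) (XT.lf (nat_lit 0) (nat_lit 7245552264) (nat_lit 1444) (nat_lit 33023844) (nat_lit 1520) (nat_lit 69008275) (nat_lit 419) (nat_lit 5) (nat_lit 438) (nat_lit 5) (nat_lit 439) (nat_lit 5) (nat_lit 285) (nat_lit 259) (nat_lit 236)) (XT.lf (nat_lit 0) (nat_lit 3481924699) (nat_lit 1596) (nat_lit 1045054657) (nat_lit 76) (nat_lit 2897004010) (nat_lit 398) (nat_lit 5) (nat_lit 419) (nat_lit 5) (nat_lit 399) (nat_lit 5) (nat_lit 286) (nat_lit 259) (nat_lit 235))) (XT.nd (nat_lit 78) (nat_lit 1748) (nat_lit 0) (XT.lf (nat_lit 0) (nat_lit 5531146097) (nat_lit 1596) (nat_lit 1542122443) (nat_lit 1672) (nat_lit 430810549) (nat_lit 377) (nat_lit 5) (nat_lit 398) (nat_lit 5) (nat_lit 399) (nat_lit 5) (nat_lit 287) (nat_lit 259) (nat_lit 234)) (XT.lf (nat_lit 0) (nat_lit 3091474524) (nat_lit 1748) (nat_lit 2918443562) (nat_lit 76) (nat_lit 1577401274) (nat_lit 354)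 (nat_lit 5) (nat_lit 377) (nat_lit 5) (nat_lit 355) (nat_lit 5) (nat_lit 288) (nat_lit 259) (nat_lit 233)))))) (XT.nd (nat_lit 468) (nat_lit 5016) (nat_lit 0) (XT.nd (nat_lit 234) (nat_lit 1748) (nat_lit 0) (XT.nd (nat_lit 78) (nat_lit 1748) (nat_lit 0) (XT.lf (nat_lit 0) (nat_lit 3806532438) (nat_lit 1140) (nat_lit 2857518918) (nat_lit 1216) (nat_lit 1010040938) (nat_lit 339) (nat_lit 5) (nat_lit 354) (nat_lit 5) (nat_lit 355) (nat_lit 5) (nat_lit 289) (nat_lit 259) (nat_lit 232)) (XT.nd (nat_lit 78) (nat_lit 836) (nat_lit 0) (XT.lf (nat_lit 0) (nat_lit 2491868518) (nat_lit 912) (nat_lit 4829631935) (nat_lit 76) (nat_lit 442822462) (nat_lit 327) (nat_lit 5) (nat_lit 339) (nat_lit 5) (nat_lit 328) (nat_lit 5) (nat_lit 290) (nat_lit 259) (nat_lit 231)) (XT.lf (nat_lit 0) (nat_lit 2043395824) (nat_lit 836) (nat_lit 4006253645) (nat_lit 912) (nat_lit 1808280920) (nat_lit 316) (nat_lit 5) (nat_lit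 327) (nat_lit 5) (nat_lit 328) (nat_lit 5) (nat_lit 291) (nat_lit 259) (nat_lit 230)))) (XT.nd (nat_lit 78) (nat_lit 912) (nat_lit 0) (XT.lf (nat_lit 0) (nat_lit 1144024983) (nat_lit 760) (nat_lit 540226521) (nat_lit 836) (nat_lit 6271005444) (nat_lit 305) (nat_lit 5) (nat_lit 315) (nat_lit 5) (nat_lit 316) (nat_lit 5) (nat_lit 292) (nat_lit 259) (nat_lit 229)) (XT.nd (nat_lit 78) (nat_lit 76) (nat_lit 0) (XT.lf (nat_lit 0) (nat_lit 212249183) (nat_lit 836) (nat_lit 5014825553) (nat_lit 912) (nat_lit 2828874918) (nat_lit 294) (nat_lit 5) (nat_lit 305) (nat_lit 5) (nat_lit 306) (nat_lit 5) (nat_lit 293) (nat_lit 259) (nat_lit 228)) (XT.lf (nat_lit 0) (nat_lit 667794160) (nat_lit 912) (nat_lit 722102458) (nat_lit 76) (nat_lit 6770542898) (nat_lit 293) (nat_lit 5) (nat_lit 305) (nat_lit 5) (nat_lit 294) (nat_lit 5) (nat_lit 294) (nat_lit 259) (nat_lit 227))))) (XT.nd (nat_lit 234) (nat_lit 2736) (nat_lit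 0) (XT.nd (nat_lit 78) (nat_lit 1520) (nat_lit 0) (XT.lf (nat_lit 0) (nat_lit 4202725267) (nat_lit 836) (nat_lit 1695308647) (nat_lit 76) (nat_lit 2370300721) (nat_lit 283) (nat_lit 5) (nat_lit 294) (nat_lit 5) (nat_lit 284) (nat_lit 5) (nat_lit 295) (nat_lit 259) (nat_lit 226)) (XT.nd (nat_lit 78) (nat_lit 760) (nat_lit 0) (XT.lf (nat_lit 0) (nat_lit 5690872215) (nat_lit 760) (nat_lit 2119111333) (nat_lit 836) (nat_lit 570235576) (nat_lit 273) (nat_lit 5) (nat_lit 283) (nat_lit 5) (nat_lit 284) (nat_lit 5) (nat_lit 296) (nat_lit 259) (nat_lit 225)) (XT.lf (nat_lit 0) (nat_lit 2961088917) (nat_lit 760) (nat_lit 3729962093) (nat_lit 76) (nat_lit 1804673450) (nat_lit 263) (nat_lit 5) (nat_lit 273) (nat_lit 5) (nat_lit 264) (nat_lit 5) (nat_lit 297) (nat_lit 259) (nat_lit 224)))) (XT.nd (nat_lit 156) (nat_lit 1292) (nat_lit 0) (XT.nd (nat_lit 78) (nat_lit 760) (nat_lit 0) (XT.lf (nat_lit 0) (nat_lit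 3807009516) (nat_lit 684) (nat_lit 2759040540) (nat_lit 760) (nat_lit 2049132805) (nat_lit 254) (nat_lit 5) (nat_lit 263) (nat_lit 5) (nat_lit 264) (nat_lit 5) (nat_lit 298) (nat_lit 259) (nat_lit 223)) (XT.lf (nat_lit 0) (nat_lit 1492500748) (nat_lit 760) (nat_lit 5928747094) (nat_lit 76) (nat_lit 1317410266) (nat_lit 244) (nat_lit 5) (nat_lit 254) (nat_lit 5) (nat_lit 245) (nat_lit 5) (nat_lit 299) (nat_lit 259) (nat_lit 222))) (XT.nd (nat_lit 78) (nat_lit 608) (nat_lit 0) (XT.lf (nat_lit 0) (nat_lit 1756270863) (nat_lit 684) (nat_lit 3340139125) (nat_lit 760) (nat_lit 3769546101) (nat_lit 235) (nat_lit 5) (nat_lit 244) (nat_lit 5) (nat_lit 245) (nat_lit 5) (nat_lit 300) (nat_lit 259) (nat_lit 221)) (XT.lf (nat_lit 0) (nat_lit 668012503) (nat_lit 608) (nat_lit 8113495585) (nat_lit 684) (nat_lit 216168241) (nat_lit 227) (nat_lit 5) (nat_lit 235) (nat_lit 5) (nat_lit 236) (nat_lit 5) (nat_lit 301)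 (nat_lit 259) (nat_lit 220))))))) (XT.nd (nat_lit 1014) (nat_lit 4332) (nat_lit 0) (XT.nd (nat_lit 468) (nat_lit 3040) (nat_lit 0) (XT.nd (nat_lit 234) (nat_lit 1748) (nat_lit 0) (XT.nd (nat_lit 78) (nat_lit 1216) (nat_lit 0) (XT.lf (nat_lit 0) (nat_lit 3393269500) (nat_lit 684) (nat_lit 492229062) (nat_lit 76) (nat_lit 5247571565) (nat_lit 226) (nat_lit 5) (nat_lit 235) (nat_lit 5) (nat_lit 227) (nat_lit 5) (nat_lit 302) (nat_lit 259) (nat_lit 219)) (XT.nd (nat_lit 78) (nat_lit 608) (nat_lit 0) (XT.lf (nat_lit 0) (nat_lit 7086648511) (nat_lit 684) (nat_lit 1686446246) (nat_lit 76) (nat_lit 499890345) (nat_lit 218) (nat_lit 5) (nat_lit 227) (nat_lit 5) (nat_lit 219) (nat_lit 5) (nat_lit 303) (nat_lit 259) (nat_lit 218)) (XT.lf (nat_lit 0) (nat_lit 1453177271) (nat_lit 608) (nat_lit 2959050648) (nat_lit 76) (nat_lit 5004759713) (nat_lit 210) (nat_lit 5) (nat_lit 218) (nat_lit 5) (nat_lit 211) (nat_lit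 5) (nat_lit 304) (nat_lit 259) (nat_lit 217)))) (XT.nd (nat_lit 78) (nat_lit 1140) (nat_lit 0) (XT.lf (nat_lit 0) (nat_lit 5147402079) (nat_lit 684) (nat_lit 4295384048) (nat_lit 76) (nat_lit 122785789) (nat_lit 202) (nat_lit 5) (nat_lit 211) (nat_lit 5) (nat_lit 203) (nat_lit 5) (nat_lit 305) (nat_lit 259) (nat_lit 216)) (XT.nd (nat_lit 78) (nat_lit 608) (nat_lit 0) (XT.lf (nat_lit 0) (nat_lit 4003470092) (nat_lit 532) (nat_lit 4954604002) (nat_lit 608) (nat_lit 760480915) (nat_lit 195) (nat_lit 5) (nat_lit 202) (nat_lit 5) (nat_lit 203) (nat_lit 5) (nat_lit 306) (nat_lit 259) (nat_lit 215)) (XT.lf (nat_lit 0) (nat_lit 2662206473) (nat_lit 532) (nat_lit 282789618) (nat_lit 608) (nat_lit 6931242266) (nat_lit 187) (nat_lit 5) (nat_lit 194) (nat_lit 5) (nat_lit 195) (nat_lit 5) (nat_lit 307) (nat_lit 259) (nat_lit 214))))) (XT.nd (nat_lit 234) (nat_lit 1900) (nat_lit 0) (XT.nd (nat_lit 78) (nat_lit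 608) (nat_lit 0) (XT.lf (nat_lit 0) (nat_lit 1225091026) (nat_lit 532) (nat_lit 5534860348) (nat_lit 608) (nat_lit 3278476992) (nat_lit 180) (nat_lit 5) (nat_lit 187) (nat_lit 5) (nat_lit 188) (nat_lit 5) (nat_lit 308) (nat_lit 259) (nat_lit 213)) (XT.nd (nat_lit 78) (nat_lit 532) (nat_lit 0) (XT.lf (nat_lit 0) (nat_lit 461795808) (nat_lit 608) (nat_lit 280641510) (nat_lit 76) (nat_lit 9463345737) (nat_lit 179) (nat_lit 5) (nat_lit 187) (nat_lit 5) (nat_lit 180) (nat_lit 5) (nat_lit 309) (nat_lit 259) (nat_lit 212)) (XT.lf (nat_lit 0) (nat_lit 4287994549) (nat_lit 608) (nat_lit 1892187704) (nat_lit 76) (nat_lit 4197223377) (nat_lit 172) (nat_lit 5) (nat_lit 180) (nat_lit 5) (nat_lit 173) (nat_lit 5) (nat_lit 310) (nat_lit 259) (nat_lit 211)))) (XT.nd (nat_lit 156) (nat_lit 912) (nat_lit 0) (XT.nd (nat_lit 78) (nat_lit 532) (nat_lit 0) (XT.lf (nat_lit 0) (nat_lit 6965936383) (nat_lit 456) (nat_lit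 1251491647) (nat_lit 532) (nat_lit 2337024392) (nat_lit 166) (nat_lit 5) (nat_lit 172) (nat_lit 5) (nat_lit 173) (nat_lit 5) (nat_lit 311) (nat_lit 259) (nat_lit 210)) (XT.lf (nat_lit 0) (nat_lit 1517857587) (nat_lit 532) (nat_lit 5406363622) (nat_lit 76) (nat_lit 3812234113) (nat_lit 159) (nat_lit 5) (nat_lit 166) (nat_lit 5) (nat_lit 160) (nat_lit 5) (nat_lit 312) (nat_lit 259) (nat_lit 209))) (XT.nd (nat_lit 78) (nat_lit 456) (nat_lit 0) (XT.lf (nat_lit 0) (nat_lit 3581265970) (nat_lit 456) (nat_lit 1870010974) (nat_lit 532) (nat_lit 5472480710) (nat_lit 153) (nat_lit 5) (nat_lit 159) (nat_lit 5) (nat_lit 160) (nat_lit 5) (nat_lit 313) (nat_lit 259) (nat_lit 208)) (XT.lf (nat_lit 0) (nat_lit 1713917098) (nat_lit 456) (nat_lit 7797928382) (nat_lit 532) (nat_lit 1604690580) (nat_lit 147) (nat_lit 5) (nat_lit 153) (nat_lit 5) (nat_lit 154) (nat_lit 5) (nat_lit 314) (nat_lit 259) (nat_lit 207))))))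 (XT.nd (nat_lit 546) (nat_lit 2128) (nat_lit 0) (XT.nd (nat_lit 234) (nat_lit 1292) (nat_lit 0) (XT.nd (nat_lit 78) (nat_lit 836) (nat_lit 0) (XT.lf (nat_lit 0) (nat_lit 2350803170) (nat_lit 532) (nat_lit 282584010) (nat_lit 76) (nat_lit 8681382260) (nat_lit 146) (nat_lit 5) (nat_lit 153) (nat_lit 5) (nat_lit 147) (nat_lit 5) (nat_lit 315) (nat_lit 259) (nat_lit 206)) (XT.nd (nat_lit 78) (nat_lit 456) (nat_lit 0) (XT.lf (nat_lit 0) (nat_lit 6422407518) (nat_lit 456) (nat_lit 2396625106) (nat_lit 76) (nat_lit 2699357021) (nat_lit 141) (nat_lit 5) (nat_lit 147) (nat_lit 5) (nat_lit 142) (nat_lit 5) (nat_lit 316) (nat_lit 259) (nat_lit 205)) (XT.lf (nat_lit 0) (nat_lit 7079215392) (nat_lit 456) (nat_lit 3545499143) (nat_lit 532) (nat_lit 1103268660) (nat_lit 135) (nat_lit 5) (nat_lit 141) (nat_lit 5) (nat_lit 142) (nat_lit 5) (nat_lit 317) (nat_lit 259) (nat_lit 204)))) (XT.nd (nat_lit 156) (nat_lit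 456) (nat_lit 0) (XT.nd (nat_lit 78) (nat_lit 380) (nat_lit 0) (XT.lf (nat_lit 0) (nat_lit 2974220417) (nat_lit 456) (nat_lit 7062601485) (nat_lit 76) (nat_lit 1906596786) (nat_lit 129) (nat_lit 5) (nat_lit 135) (nat_lit 5) (nat_lit 130) (nat_lit 5) (nat_lit 318) (nat_lit 259) (nat_lit 203)) (XT.lf (nat_lit 0) (nat_lit 2517744758) (nat_lit 380) (nat_lit 4657928737) (nat_lit 456) (nat_lit 4989198440) (nat_lit 124) (nat_lit 5) (nat_lit 129) (nat_lit 5) (nat_lit 130) (nat_lit 5) (nat_lit 319) (nat_lit 259) (nat_lit 202))) (XT.nd (nat_lit 78) (nat_lit 76) (nat_lit 0) (XT.lf (nat_lit 0) (nat_lit 5298254) (nat_lit 380) (nat_lit 11497533938) (nat_lit 456) (nat_lit 890175496) (nat_lit 119) (nat_lit 5) (nat_lit 124) (nat_lit 5) (nat_lit 125) (nat_lit 5) (nat_lit 320) (nat_lit 259) (nat_lit 201)) (XT.lf (nat_lit 0) (nat_lit 3331492723) (nat_lit 456) (nat_lit 2678899348) (nat_lit 76) (nat_lit 6616325956)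 (nat_lit 118) (nat_lit 5) (nat_lit 124) (nat_lit 5) (nat_lit 119) (nat_lit 5) (nat_lit 321) (nat_lit 259) (nat_lit 200))))) (XT.nd (nat_lit 234) (nat_lit 988) (nat_lit 0) (XT.nd (nat_lit 78) (nat_lit 760) (nat_lit 0) (XT.lf (nat_lit 0) (nat_lit 7335356477) (nat_lit 380) (nat_lit 328033556) (nat_lit 456) (nat_lit 5204048210) (nat_lit 113) (nat_lit 5) (nat_lit 118) (nat_lit 5) (nat_lit 119) (nat_lit 5) (nat_lit 322) (nat_lit 259) (nat_lit 199)) (XT.nd (nat_lit 78) (nat_lit 456) (nat_lit 0) (XT.lf (nat_lit 0) (nat_lit 4519242159) (nat_lit 304) (nat_lit 7638340553) (nat_lit 380) (nat_lit 957179426) (nat_lit 109) (nat_lit 5) (nat_lit 113) (nat_lit 5) (nat_lit 114) (nat_lit 5) (nat_lit 323) (nat_lit 259) (nat_lit 198)) (XT.lf (nat_lit 0) (nat_lit 1498904400) (nat_lit 380) (nat_lit 1872535107) (nat_lit 456) (nat_lit 9997666778) (nat_lit 103) (nat_lit 5) (nat_lit 108) (nat_lit 5) (nat_lit 109) (nat_lit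 5) (nat_lit 324) (nat_lit 259) (nat_lit 197)))) (XT.nd (nat_lit 156) (nat_lit 684) (nat_lit 0) (XT.nd (nat_lit 78) (nat_lit 304) (nat_lit 0) (XT.lf (nat_lit 0) (nat_lit 7852349910) (nat_lit 456) (nat_lit 1724122821) (nat_lit 76) (nat_lit 4053799399) (nat_lit 103) (nat_lit 5) (nat_lit 109) (nat_lit 5) (nat_lit 104) (nat_lit 5) (nat_lit 325) (nat_lit 259) (nat_lit 196)) (XT.lf (nat_lit 0) (nat_lit 8755994574) (nat_lit 304) (nat_lit 3732842565) (nat_lit 380) (nat_lit 1410038698) (nat_lit 99) (nat_lit 5) (nat_lit 103) (nat_lit 5) (nat_lit 104) (nat_lit 5) (nat_lit 326) (nat_lit 259) (nat_lit 195))) (XT.nd (nat_lit 78) (nat_lit 304) (nat_lit 0) (XT.lf (nat_lit 0) (nat_lit 3062547558) (nat_lit 380) (nat_lit 8813242147) (nat_lit 76) (nat_lit 2299087931) (nat_lit 94) (nat_lit 5) (nat_lit 99) (nat_lit 5) (nat_lit 95) (nat_lit 5) (nat_lit 327) (nat_lit 259) (nat_lit 194)) (XT.lf (nat_lit 0) (nat_lit 1709248838)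 (nat_lit 304) (nat_lit 5965304687) (nat_lit 380) (nat_lit 6783955491) (nat_lit 90) (nat_lit 5) (nat_lit 94) (nat_lit 5) (nat_lit 95) (nat_lit 5) (nat_lit 328) (nat_lit 259) (nat_lit 193))))))))
noncomputable def xc50 : XT := (XT.nd (nat_lit 2028) (nat_lit 760) (nat_lit 0) (XT.nd (nat_lit 1014) (nat_lit 1596) (nat_lit 0) (XT.nd (nat_lit 468) (nat_lit 1368) (nat_lit 0) (XT.nd (nat_lit 234) (nat_lit 608) (nat_lit 0) (XT.nd (nat_lit 78) (nat_lit 608) (nat_lit 0) (XT.lf (nat_lit 0) (nat_lit 12439726419) (nat_lit 380) (nat_lit 2153978407) (nat_lit 76) (nat_lit 156671594) (nat_lit 90) (nat_lit 5) (nat_lit 95) (nat_lit 5) (nat_lit 91) (nat_lit 5) (nat_lit 329) (nat_lit 259) (nat_lit 192)) (XT.nd (nat_lit 78) (nat_lit 228) (nat_lit 0) (XT.lf (nat_lit 0) (nat_lit 2319091146) (nat_lit 380) (nat_lit 6300321286) (nat_lit 76) (nat_lit 6430264057) (nat_lit 85) (nat_lit 5) (nat_lit 90) (nat_lit 5) (nat_lit 86)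 (nat_lit 5) (nat_lit 330) (nat_lit 259) (nat_lit 191)) (XT.lf (nat_lit 0) (nat_lit 4627967033) (nat_lit 228) (nat_lit 2429070539) (nat_lit 304) (nat_lit 8300619862) (nat_lit 82) (nat_lit 5) (nat_lit 85) (nat_lit 5) (nat_lit 86) (nat_lit 5) (nat_lit 331) (nat_lit 259) (nat_lit 190)))) (XT.nd (nat_lit 78) (nat_lit 304) (nat_lit 0) (XT.lf (nat_lit 0) (nat_lit 204691207) (nat_lit 304) (nat_lit 11758839109) (nat_lit 380) (nat_lit 3710840164) (nat_lit 78) (nat_lit 5) (nat_lit 82) (nat_lit 5) (nat_lit 83) (nat_lit 5) (nat_lit 332) (nat_lit 259) (nat_lit 189)) (XT.nd (nat_lit 78) (nat_lit 228) (nat_lit 0) (XT.lf (nat_lit 0) (nat_lit 1049738017) (nat_lit 380) (nat_lit 4476368715) (nat_lit 76) (nat_lit 10473437231) (nat_lit 77) (nat_lit 5) (nat_lit 82) (nat_lit 5) (nat_lit 78) (nat_lit 5) (nat_lit 333) (nat_lit 259) (nat_lit 188)) (XT.lf (nat_lit 0) (nat_lit 5911813484) (nat_lit 304) (nat_lit 9494244380)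 (nat_lit 76) (nat_lit 927761550) (nat_lit 74) (nat_lit 5) (nat_lit 78) (nat_lit 5) (nat_lit 75) (nat_lit 5) (nat_lit 334) (nat_lit 259) (nat_lit 187))))) (XT.nd (nat_lit 234) (nat_lit 760) (nat_lit 0) (XT.nd (nat_lit 78) (nat_lit 304) (nat_lit 0) (XT.lf (nat_lit 0) (nat_lit 1799679099) (nat_lit 304) (nat_lit 9158143390) (nat_lit 380) (nat_lit 5719557903) (nat_lit 70) (nat_lit 5) (nat_lit 74) (nat_lit 5) (nat_lit 75) (nat_lit 5) (nat_lit 335) (nat_lit 259) (nat_lit 186)) (XT.nd (nat_lit 78) (nat_lit 304) (nat_lit 0) (XT.lf (nat_lit 0) (nat_lit 13497920523) (nat_lit 304) (nat_lit 2681302781) (nat_lit 380) (nat_lit 851562810) (nat_lit 70) (nat_lit 5) (nat_lit 74) (nat_lit 5) (nat_lit 75) (nat_lit 5) (nat_lit 336) (nat_lit 259) (nat_lit 185)) (XT.lf (nat_lit 0) (nat_lit 4147775621) (nat_lit 304) (nat_lit 9250970250) (nat_lit 76) (nat_lit 3994726997) (nat_lit 66) (nat_lit 5) (nat_lit 70) (nat_lit 5)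 (nat_lit 67) (nat_lit 5) (nat_lit 337) (nat_lit 259) (nat_lit 184)))) (XT.nd (nat_lit 156) (nat_lit 532) (nat_lit 0) (XT.nd (nat_lit 78) (nat_lit 0) (nat_lit 0) (XT.lf (nat_lit 0) (nat_lit 2394816385) (nat_lit 228) (nat_lit 6909519030) (nat_lit 304) (nat_lit 8462232787) (nat_lit 63) (nat_lit 5) (nat_lit 66) (nat_lit 5) (nat_lit 67) (nat_lit 5) (nat_lit 338) (nat_lit 259) (nat_lit 183)) (XT.lf (nat_lit 0) (nat_lit 14454886636) (nat_lit 228) (nat_lit 185289729) (nat_lit 304) (nat_lit 3510204626) (nat_lit 63) (nat_lit 5) (nat_lit 66) (nat_lit 5) (nat_lit 67) (nat_lit 5) (nat_lit 339) (nat_lit 259) (nat_lit 182))) (XT.nd (nat_lit 78) (nat_lit 228) (nat_lit 0) (XT.lf (nat_lit 0) (nat_lit 1630658984) (nat_lit 304) (nat_lit 10219149730) (nat_lit 76) (nat_lit 6694485771) (nat_lit 59) (nat_lit 5) (nat_lit 63) (nat_lit 5) (nat_lit 60) (nat_lit 5) (nat_lit 340) (nat_lit 259) (nat_lit 181)) (XT.lf (nat_lit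 0) (nat_lit 1745426614) (nat_lit 228) (nat_lit 5133979562) (nat_lit 304) (nat_lit 12070143253) (nat_lit 56) (nat_lit 5) (nat_lit 59) (nat_lit 5) (nat_lit 60) (nat_lit 5) (nat_lit 341) (nat_lit 259) (nat_lit 180)))))) (XT.nd (nat_lit 468) (nat_lit 912) (nat_lit 0) (XT.nd (nat_lit 234) (nat_lit 380) (nat_lit 0) (XT.nd (nat_lit 78) (nat_lit 304) (nat_lit 0) (XT.lf (nat_lit 0) (nat_lit 12330733365) (nat_lit 304) (nat_lit 5228452370) (nat_lit 76) (nat_lit 1806888540) (nat_lit 56) (nat_lit 5) (nat_lit 60) (nat_lit 5) (nat_lit 57) (nat_lit 5) (nat_lit 342) (nat_lit 259) (nat_lit 179)) (XT.nd (nat_lit 78) (nat_lit 76) (nat_lit 0) (XT.lf (nat_lit 0) (nat_lit 7107448345) (nat_lit 228) (nat_lit 10883517192) (nat_lit 304) (nat_lit 1803236206) (nat_lit 53) (nat_lit 5) (nat_lit 56) (nat_lit 5) (nat_lit 57) (nat_lit 5) (nat_lit 343) (nat_lit 259) (nat_lit 178)) (XT.lf (nat_lit 0) (nat_lit 3539763760) (nat_lit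 304) (nat_lit 430443791) (nat_lit 76) (nat_lit 16264494133) (nat_lit 52) (nat_lit 5) (nat_lit 56) (nat_lit 5) (nat_lit 53) (nat_lit 5) (nat_lit 344) (nat_lit 259) (nat_lit 177)))) (XT.nd (nat_lit 78) (nat_lit 152) (nat_lit 0) (XT.lf (nat_lit 0) (nat_lit 9085696223) (nat_lit 304) (nat_lit 8421329963) (nat_lit 76) (nat_lit 3179822325) (nat_lit 49) (nat_lit 5) (nat_lit 53) (nat_lit 5) (nat_lit 50) (nat_lit 5) (nat_lit 345) (nat_lit 259) (nat_lit 176)) (XT.nd (nat_lit 78) (nat_lit 0) (nat_lit 0) (XT.lf (nat_lit 0) (nat_lit 4168439299) (nat_lit 152) (nat_lit 10652909176) (nat_lit 228) (nat_lit 6330757154) (nat_lit 47) (nat_lit 5) (nat_lit 49) (nat_lit 5) (nat_lit 50) (nat_lit 5) (nat_lit 346) (nat_lit 259) (nat_lit 175)) (XT.lf (nat_lit 0) (nat_lit 17196662101) (nat_lit 152) (nat_lit 3556877979) (nat_lit 228) (nat_lit 877303338) (nat_lit 47) (nat_lit 5) (nat_lit 49) (nat_lit 5) (nat_lit 50) (nat_lit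 5) (nat_lit 347) (nat_lit 259) (nat_lit 174))))) (XT.nd (nat_lit 234) (nat_lit 456) (nat_lit 0) (XT.nd (nat_lit 78) (nat_lit 152) (nat_lit 0) (XT.lf (nat_lit 0) (nat_lit 4725828326) (nat_lit 304) (nat_lit 13628273622) (nat_lit 76) (nat_lit 3768272938) (nat_lit 43) (nat_lit 5) (nat_lit 47) (nat_lit 5) (nat_lit 44) (nat_lit 5) (nat_lit 348) (nat_lit 259) (nat_lit 173)) (XT.nd (nat_lit 78) (nat_lit 152) (nat_lit 0) (XT.lf (nat_lit 0) (nat_lit 10507817395) (nat_lit 304) (nat_lit 839968743) (nat_lit 76) (nat_lit 11280307944) (nat_lit 43) (nat_lit 5) (nat_lit 47) (nat_lit 5) (nat_lit 44) (nat_lit 5) (nat_lit 349) (nat_lit 259) (nat_lit 172)) (XT.lf (nat_lit 0) (nat_lit 12443737460) (nat_lit 152) (nat_lit 4069818571) (nat_lit 228) (nat_lit 6634434108) (nat_lit 41) (nat_lit 5) (nat_lit 43) (nat_lit 5) (nat_lit 44) (nat_lit 5) (nat_lit 350) (nat_lit 259) (nat_lit 171)))) (XT.nd (nat_lit 156) (nat_lit 152)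 (nat_lit 0) (XT.nd (nat_lit 78) (nat_lit 76) (nat_lit 0) (XT.lf (nat_lit 0) (nat_lit 2412346488) (nat_lit 228) (nat_lit 20300682010) (nat_lit 304) (nat_lit 970194105) (nat_lit 38) (nat_lit 5) (nat_lit 41) (nat_lit 5) (nat_lit 42) (nat_lit 5) (nat_lit 351) (nat_lit 259) (nat_lit 170)) (XT.lf (nat_lit 0) (nat_lit 4870680011) (nat_lit 304) (nat_lit 8274040272) (nat_lit 76) (nat_lit 11087760422) (nat_lit 37) (nat_lit 5) (nat_lit 41) (nat_lit 5) (nat_lit 38) (nat_lit 5) (nat_lit 352) (nat_lit 259) (nat_lit 169))) (XT.nd (nat_lit 78) (nat_lit 0) (nat_lit 0) (XT.lf (nat_lit 0) (nat_lit 5124226532) (nat_lit 152) (nat_lit 5753850079) (nat_lit 228) (nat_lit 13919932074) (nat_lit 35) (nat_lit 5) (nat_lit 37) (nat_lit 5) (nat_lit 38) (nat_lit 5) (nat_lit 353) (nat_lit 259) (nat_lit 168)) (XT.lf (nat_lit 0) (nat_lit 17105730935) (nat_lit 228) (nat_lit 6402962328) (nat_lit 76) (nat_lit 1871018179) (nat_lit 35)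 (nat_lit 5) (nat_lit 38) (nat_lit 5) (nat_lit 36) (nat_lit 5) (nat_lit 354) (nat_lit 259) (nat_lit 167))))))) (XT.nd (nat_lit 33618) (nat_lit 0) (nat_lit 37696) (XT.nd (nat_lit 468) (nat_lit 152) (nat_lit 0) (XT.nd (nat_lit 234) (nat_lit 228) (nat_lit 0) (XT.nd (nat_lit 78) (nat_lit 228) (nat_lit 0) (XT.lf (nat_lit 0) (nat_lit 7275506261) (nat_lit 152) (nat_lit 16302782636) (nat_lit 228) (nat_lit 2399424276) (nat_lit 33) (nat_lit 5) (nat_lit 35) (nat_lit 5) (nat_lit 36) (nat_lit 5) (nat_lit 355) (nat_lit 259) (nat_lit 166)) (XT.nd (nat_lit 78) (nat_lit 152) (nat_lit 0) (XT.lf (nat_lit 0) (nat_lit 3619827699) (nat_lit 228) (nat_lit 5211827643) (nat_lit 76) (nat_lit 17761207446) (nat_lit 32) (nat_lit 5) (nat_lit 35) (nat_lit 5) (nat_lit 33) (nat_lit 5) (nat_lit 356) (nat_lit 259) (nat_lit 165)) (XT.lf (nat_lit 0) (nat_lit 8736142904) (nat_lit 152) (nat_lit 1081289767) (nat_lit 228) (nat_lit 17408118193)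 (nat_lit 30) (nat_lit 5) (nat_lit 32) (nat_lit 5) (nat_lit 33) (nat_lit 5) (nat_lit 357) (nat_lit 259) (nat_lit 164)))) (XT.nd (nat_lit 78) (nat_lit 228) (nat_lit 0) (XT.lf (nat_lit 0) (nat_lit 16255152667) (nat_lit 228) (nat_lit 4792980465) (nat_lit 76) (nat_lit 6828011121) (nat_lit 30) (nat_lit 5) (nat_lit 33) (nat_lit 5) (nat_lit 31) (nat_lit 5) (nat_lit 358) (nat_lit 259) (nat_lit 163)) (XT.nd (nat_lit 78) (nat_lit 76) (nat_lit 0) (XT.lf (nat_lit 0) (nat_lit 9386214029) (nat_lit 152) (nat_lit 13542551482) (nat_lit 228) (nat_lit 5616642872) (nat_lit 28) (nat_lit 5) (nat_lit 30) (nat_lit 5) (nat_lit 31) (nat_lit 5) (nat_lit 359) (nat_lit 259) (nat_lit 162)) (XT.lf (nat_lit 0) (nat_lit 567957571) (nat_lit 228) (nat_lit 5225235816) (nat_lit 76) (nat_lit 23441339716) (nat_lit 27) (nat_lit 5) (nat_lit 30) (nat_lit 5) (nat_lit 28) (nat_lit 5) (nat_lit 360) (nat_lit 259) (nat_lit 161))))) (XT.nd (nat_lit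 32838) (nat_lit 0) (nat_lit 44992) (XT.nd (nat_lit 78) (nat_lit 0) (nat_lit 0) (XT.lf (nat_lit 0) (nat_lit 6912084392) (nat_lit 228) (nat_lit 20790567670) (nat_lit 76) (nat_lit 2239938595) (nat_lit 25) (nat_lit 5) (nat_lit 28) (nat_lit 5) (nat_lit 26) (nat_lit 5) (nat_lit 361) (nat_lit 259) (nat_lit 160)) (XT.nd (nat_lit 32682) (nat_lit 0) (nat_lit 45448) (XT.lf (nat_lit 0) (nat_lit 13496850471) (nat_lit 228) (nat_lit 6720072667) (nat_lit 76) (nat_lit 10453967815) (nat_lit 25) (nat_lit 5) (nat_lit 28) (nat_lit 5) (nat_lit 26) (nat_lit 5) (nat_lit 362) (nat_lit 259) (nat_lit 159)) (XT.lf (nat_lit 0) (nat_lit 0) (nat_lit 0) (nat_lit 0) (nat_lit 0) (nat_lit 1073741823) (nat_lit 1) (nat_lit 0) (nat_lit 1) (nat_lit 0) (nat_lit 623) (nat_lit 0) (nat_lit 260) (nat_lit 260) (nat_lit 260)))) (XT.nd (nat_lit 156) (nat_lit 228) (nat_lit 0) (XT.nd (nat_lit 78) (nat_lit 152) (nat_lit 0) (XT.lf (nat_lit 0) (nat_lit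 4388128016) (nat_lit 76) (nat_lit 1983304940) (nat_lit 0) (nat_lit 72311365) (nat_lit 622) (nat_lit 5) (nat_lit 623) (nat_lit 0) (nat_lit 622) (nat_lit 4) (nat_lit 261) (nat_lit 260) (nat_lit 259)) (XT.lf (nat_lit 0) (nat_lit 2275105662) (nat_lit 152) (nat_lit 3910216467) (nat_lit 76) (nat_lit 262832969) (nat_lit 620) (nat_lit 5) (nat_lit 622) (nat_lit 5) (nat_lit 621) (nat_lit 4) (nat_lit 262) (nat_lit 260) (nat_lit 258))) (XT.nd (nat_lit 78) (nat_lit 0) (nat_lit 0) (XT.lf (nat_lit 0) (nat_lit 101168435) (nat_lit 228) (nat_lit 5782776299) (nat_lit 76) (nat_lit 571742178) (nat_lit 617) (nat_lit 5) (nat_lit 620) (nat_lit 5) (nat_lit 618) (nat_lit 5) (nat_lit 263) (nat_lit 260) (nat_lit 257)) (XT.lf (nat_lit 0) (nat_lit 4309194451) (nat_lit 228) (nat_lit 1135870458) (nat_lit 76) (nat_lit 1020850601) (nat_lit 617) (nat_lit 5) (nat_lit 620) (nat_lit 5) (nat_lit 618) (nat_lit 5) (nat_lit 264) (nat_lit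 260) (nat_lit 256)))))) (XT.nd (nat_lit 546) (nat_lit 4484) (nat_lit 0) (XT.nd (nat_lit 234) (nat_lit 1748) (nat_lit 0) (XT.nd (nat_lit 78) (nat_lit 760) (nat_lit 0) (XT.lf (nat_lit 0) (nat_lit 2000936800) (nat_lit 304) (nat_lit 2884087030) (nat_lit 76) (nat_lit 1594153933) (nat_lit 613) (nat_lit 5) (nat_lit 617) (nat_lit 5) (nat_lit 614) (nat_lit 5) (nat_lit 265) (nat_lit 260) (nat_lit 255)) (XT.nd (nat_lit 78) (nat_lit 456) (nat_lit 0) (XT.lf (nat_lit 0) (nat_lit 1911299369) (nat_lit 304) (nat_lit 4205933645) (nat_lit 380) (nat_lit 378303256) (nat_lit 609) (nat_lit 5) (nat_lit 613) (nat_lit 5) (nat_lit 614) (nat_lit 5) (nat_lit 266) (nat_lit 260) (nat_lit 254)) (XT.lf (nat_lit 0) (nat_lit 265457373) (nat_lit 380) (nat_lit 3395783230) (nat_lit 456) (nat_lit 2853540844) (nat_lit 603) (nat_lit 5) (nat_lit 608) (nat_lit 5) (nat_lit 609) (nat_lit 5) (nat_lit 267) (nat_lit 260) (nat_lit 253)))) (XT.nd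 (nat_lit 156) (nat_lit 1216) (nat_lit 0) (XT.nd (nat_lit 78) (nat_lit 456) (nat_lit 0) (XT.lf (nat_lit 0) (nat_lit 1145069986) (nat_lit 456) (nat_lit 1313362546) (nat_lit 76) (nat_lit 4078587143) (nat_lit 602) (nat_lit 5) (nat_lit 608) (nat_lit 5) (nat_lit 603) (nat_lit 5) (nat_lit 268) (nat_lit 260) (nat_lit 252)) (XT.lf (nat_lit 0) (nat_lit 3711212180) (nat_lit 456) (nat_lit 1390720251) (nat_lit 532) (nat_lit 1460292031) (nat_lit 596) (nat_lit 5) (nat_lit 602) (nat_lit 5) (nat_lit 603) (nat_lit 5) (nat_lit 269) (nat_lit 260) (nat_lit 251))) (XT.nd (nat_lit 78) (nat_lit 608) (nat_lit 0) (XT.lf (nat_lit 0) (nat_lit 2239250508) (nat_lit 532) (nat_lit 194908814) (nat_lit 608) (nat_lit 4156321161) (nat_lit 588) (nat_lit 5) (nat_lit 595) (nat_lit 5) (nat_lit 596) (nat_lit 5) (nat_lit 270) (nat_lit 260) (nat_lit 250)) (XT.lf (nat_lit 0) (nat_lit 804321811) (nat_lit 608) (nat_lit 5512086481) (nat_lit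 684) (nat_lit 305368117) (nat_lit 580) (nat_lit 5) (nat_lit 588) (nat_lit 5) (nat_lit 589) (nat_lit 5) (nat_lit 271) (nat_lit 260) (nat_lit 249))))) (XT.nd (nat_lit 234) (nat_lit 2888) (nat_lit 0) (XT.nd (nat_lit 78) (nat_lit 1520) (nat_lit 0) (XT.lf (nat_lit 0) (nat_lit 3505782506) (nat_lit 684) (nat_lit 596783265) (nat_lit 76) (nat_lit 2553307982) (nat_lit 579) (nat_lit 5) (nat_lit 588) (nat_lit 5) (nat_lit 580) (nat_lit 5) (nat_lit 272) (nat_lit 260) (nat_lit 248)) (XT.nd (nat_lit 78) (nat_lit 760) (nat_lit 0) (XT.lf (nat_lit 0) (nat_lit 622243233) (nat_lit 760) (nat_lit 1946029443) (nat_lit 76) (nat_lit 4124853139) (nat_lit 569) (nat_lit 5) (nat_lit 579) (nat_lit 5) (nat_lit 570) (nat_lit 5) (nat_lit 273) (nat_lit 260) (nat_lit 247)) (XT.lf (nat_lit 0) (nat_lit 3462376797) (nat_lit 760) (nat_lit 897391300) (nat_lit 836) (nat_lit 2373591653) (nat_lit 559) (nat_lit 5) (nat_lit 569) (nat_lit 5)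 (nat_lit 570) (nat_lit 5) (nat_lit 274) (nat_lit 260) (nat_lit 246)))) (XT.nd (nat_lit 156) (nat_lit 1064) (nat_lit 0) (XT.nd (nat_lit 78) (nat_lit 912) (nat_lit 0) (XT.lf (nat_lit 0) (nat_lit 1319571656) (nat_lit 912) (nat_lit 4568315841) (nat_lit 76) (nat_lit 888820115) (nat_lit 547) (nat_lit 5) (nat_lit 559) (nat_lit 5) (nat_lit 548) (nat_lit 5) (nat_lit 275) (nat_lit 260) (nat_lit 245)) (XT.lf (nat_lit 0) (nat_lit 974882602) (nat_lit 912) (nat_lit 4024941208) (nat_lit 988) (nat_lit 1823211142) (nat_lit 535) (nat_lit 5) (nat_lit 547) (nat_lit 5) (nat_lit 548) (nat_lit 5) (nat_lit 276) (nat_lit 260) (nat_lit 244))) (XT.nd (nat_lit 78) (nat_lit 988) (nat_lit 0) (XT.lf (nat_lit 0) (nat_lit 1801548837) (nat_lit 988) (nat_lit 228099130) (nat_lit 76) (nat_lit 4842870747) (nat_lit 534) (nat_lit 5) (nat_lit 547) (nat_lit 5) (nat_lit 535) (nat_lit 5) (nat_lit 277) (nat_lit 260) (nat_lit 243)) (XT.lf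 (nat_lit 0) (nat_lit 5426471779) (nat_lit 1064) (nat_lit 1394384719) (nat_lit 76) (nat_lit 104216899) (nat_lit 521) (nat_lit 5) (nat_lit 535) (nat_lit 5) (nat_lit 522) (nat_lit 5) (nat_lit 278) (nat_lit 260) (nat_lit 242))))))))
noncomputable def xc51 : XT := (XT.nd (nat_lit 2106) (nat_lit 9120) (nat_lit 0) (XT.nd (nat_lit 1014) (nat_lit 9500) (nat_lit 0) (XT.nd (nat_lit 468) (nat_lit 8436) (nat_lit 0) (XT.nd (nat_lit 234) (nat_lit 2736) (nat_lit 0) (XT.nd (nat_lit 78) (nat_lit 2432) (nat_lit 0) (XT.lf (nat_lit 0) (nat_lit 2078241237) (nat_lit 1140) (nat_lit 2554414512) (nat_lit 76) (nat_lit 2347891593) (nat_lit 506) (nat_lit 5) (nat_lit 521) (nat_lit 5) (nat_lit 507) (nat_lit 5) (nat_lit 279) (nat_lit 260) (nat_lit 241)) (XT.nd (nat_lit 78) (nat_lit 1292) (nat_lit 0) (XT.lf (nat_lit 0) (nat_lit 3345690228) (nat_lit 1140) (nat_lit 2312211011) (nat_lit 1216) (nat_lit 1381408481) (nat_lit 491) (nat_lit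 5) (nat_lit 506) (nat_lit 5) (nat_lit 507) (nat_lit 5) (nat_lit 280) (nat_lit 260) (nat_lit 240)) (XT.lf (nat_lit 0) (nat_lit 2135299469) (nat_lit 1292) (nat_lit 4819874596) (nat_lit 76) (nat_lit 146109836) (nat_lit 474) (nat_lit 5) (nat_lit 491) (nat_lit 5) (nat_lit 475) (nat_lit 5) (nat_lit 281) (nat_lit 260) (nat_lit 239)))) (XT.nd (nat_lit 78) (nat_lit 1444) (nat_lit 0) (XT.lf (nat_lit 0) (nat_lit 1220640693) (nat_lit 1292) (nat_lit 4456077828) (nat_lit 1368) (nat_lit 1489585773) (nat_lit 457) (nat_lit 5) (nat_lit 474) (nat_lit 5) (nat_lit 475) (nat_lit 5) (nat_lit 282) (nat_lit 260) (nat_lit 238)) (XT.nd (nat_lit 78) (nat_lit 0) (nat_lit 0) (XT.lf (nat_lit 0) (nat_lit 171978640) (nat_lit 1368) (nat_lit 1816779459) (nat_lit 1444) (nat_lit 5245867033) (nat_lit 438) (nat_lit 5) (nat_lit 456) (nat_lit 5) (nat_lit 457) (nat_lit 5) (nat_lit 283) (nat_lit 260) (nat_lit 237)) (XT.lf (nat_lit 0) (nat_lit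 5491510276) (nat_lit 1444) (nat_lit 858796997) (nat_lit 76) (nat_lit 955804851) (nat_lit 438) (nat_lit 5) (nat_lit 457) (nat_lit 5) (nat_lit 439) (nat_lit 5) (nat_lit 284) (nat_lit 260) (nat_lit 236))))) (XT.nd (nat_lit 234) (nat_lit 3724) (nat_lit 0) (XT.nd (nat_lit 78) (nat_lit 3192) (nat_lit 0) (XT.lf (nat_lit 0) (nat_lit 1641295965) (nat_lit 1520) (nat_lit 1890949806) (nat_lit 76) (nat_lit 3848503317) (nat_lit 418) (nat_lit 5) (nat_lit 438) (nat_lit 5) (nat_lit 419) (nat_lit 5) (nat_lit 285) (nat_lit 260) (nat_lit 235)) (XT.nd (nat_lit 78) (nat_lit 1672) (nat_lit 0) (XT.lf (nat_lit 0) (nat_lit 4540128544) (nat_lit 1520) (nat_lit 570077243) (nat_lit 1596) (nat_lit 2348610021) (nat_lit 398) (nat_lit 5) (nat_lit 418) (nat_lit 5) (nat_lit 419) (nat_lit 5) (nat_lit 286) (nat_lit 260) (nat_lit 234)) (XT.lf (nat_lit 0) (nat_lit 1081818929) (nat_lit 1672) (nat_lit 3956458407) (nat_lit 76) (nat_lit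 2501846361) (nat_lit 376) (nat_lit 5) (nat_lit 398) (nat_lit 5) (nat_lit 377) (nat_lit 5) (nat_lit 287) (nat_lit 260) (nat_lit 233)))) (XT.nd (nat_lit 156) (nat_lit 836) (nat_lit 0) (XT.nd (nat_lit 78) (nat_lit 1216) (nat_lit 0) (XT.lf (nat_lit 0) (nat_lit 2621341414) (nat_lit 1672) (nat_lit 1905351261) (nat_lit 1748) (nat_lit 3098100788) (nat_lit 354) (nat_lit 5) (nat_lit 376) (nat_lit 5) (nat_lit 377) (nat_lit 5) (nat_lit 288) (nat_lit 260) (nat_lit 232)) (XT.lf (nat_lit 0) (nat_lit 308892316) (nat_lit 1216) (nat_lit 6054442677) (nat_lit 76) (nat_lit 1349703374) (nat_lit 338) (nat_lit 5) (nat_lit 354) (nat_lit 5) (nat_lit 339) (nat_lit 5) (nat_lit 289) (nat_lit 260) (nat_lit 231))) (XT.nd (nat_lit 78) (nat_lit 0) (nat_lit 0) (XT.lf (nat_lit 0) (nat_lit 669462722) (nat_lit 836) (nat_lit 3064289897) (nat_lit 912) (nat_lit 4070707659) (nat_lit 327) (nat_lit 5) (nat_lit 338) (nat_lit 5) (nat_lit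 339) (nat_lit 5) (nat_lit 290) (nat_lit 260) (nat_lit 230)) (XT.lf (nat_lit 0) (nat_lit 7213271150) (nat_lit 912) (nat_lit 314107456) (nat_lit 76) (nat_lit 372299447) (nat_lit 327) (nat_lit 5) (nat_lit 339) (nat_lit 5) (nat_lit 328) (nat_lit 5) (nat_lit 291) (nat_lit 260) (nat_lit 229)))))) (XT.nd (nat_lit 546) (nat_lit 3952) (nat_lit 0) (XT.nd (nat_lit 234) (nat_lit 2964) (nat_lit 0) (XT.nd (nat_lit 78) (nat_lit 1672) (nat_lit 0) (XT.lf (nat_lit 0) (nat_lit 2737493668) (nat_lit 912) (nat_lit 1326848739) (nat_lit 76) (nat_lit 3933637773) (nat_lit 315) (nat_lit 5) (nat_lit 327) (nat_lit 5) (nat_lit 316) (nat_lit 5) (nat_lit 292) (nat_lit 260) (nat_lit 228)) (XT.nd (nat_lit 78) (nat_lit 912) (nat_lit 0) (XT.lf (nat_lit 0) (nat_lit 5752933622) (nat_lit 760) (nat_lit 453872521) (nat_lit 836) (nat_lit 1893378591) (nat_lit 305) (nat_lit 5) (nat_lit 315) (nat_lit 5) (nat_lit 316) (nat_lit 5) (nat_lit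 293) (nat_lit 260) (nat_lit 227)) (XT.lf (nat_lit 0) (nat_lit 1529772293) (nat_lit 912) (nat_lit 3405541831) (nat_lit 76) (nat_lit 3270503601) (nat_lit 293) (nat_lit 5) (nat_lit 305) (nat_lit 5) (nat_lit 294) (nat_lit 5) (nat_lit 294) (nat_lit 260) (nat_lit 226)))) (XT.nd (nat_lit 156) (nat_lit 1368) (nat_lit 0) (XT.nd (nat_lit 78) (nat_lit 836) (nat_lit 0) (XT.lf (nat_lit 0) (nat_lit 3825387357) (nat_lit 760) (nat_lit 1164267114) (nat_lit 836) (nat_lit 3325597825) (nat_lit 283) (nat_lit 5) (nat_lit 293) (nat_lit 5) (nat_lit 294) (nat_lit 5) (nat_lit 295) (nat_lit 260) (nat_lit 225)) (XT.lf (nat_lit 0) (nat_lit 100286327) (nat_lit 836) (nat_lit 5606898296) (nat_lit 76) (nat_lit 2721311995) (nat_lit 272) (nat_lit 5) (nat_lit 283) (nat_lit 5) (nat_lit 273) (nat_lit 5) (nat_lit 296) (nat_lit 260) (nat_lit 224))) (XT.nd (nat_lit 78) (nat_lit 684) (nat_lit 0) (XT.lf (nat_lit 0) (nat_lit 1773379326)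 (nat_lit 684) (nat_lit 1779375836) (nat_lit 760) (nat_lit 4992635837) (nat_lit 263) (nat_lit 5) (nat_lit 272) (nat_lit 5) (nat_lit 273) (nat_lit 5) (nat_lit 297) (nat_lit 260) (nat_lit 223)) (XT.lf (nat_lit 0) (nat_lit 691740834) (nat_lit 684) (nat_lit 6395058207) (nat_lit 760) (nat_lit 1579503223) (nat_lit 254) (nat_lit 5) (nat_lit 263) (nat_lit 5) (nat_lit 264) (nat_lit 5) (nat_lit 298) (nat_lit 260) (nat_lit 222))))) (XT.nd (nat_lit 234) (nat_lit 2432) (nat_lit 0) (XT.nd (nat_lit 78) (nat_lit 1444) (nat_lit 0) (XT.lf (nat_lit 0) (nat_lit 1890437566) (nat_lit 760) (nat_lit 431401714) (nat_lit 76) (nat_lit 6469220773) (nat_lit 253) (nat_lit 5) (nat_lit 263) (nat_lit 5) (nat_lit 254) (nat_lit 5) (nat_lit 299) (nat_lit 260) (nat_lit 221)) (XT.nd (nat_lit 78) (nat_lit 760) (nat_lit 0) (XT.lf (nat_lit 0) (nat_lit 5427256241) (nat_lit 760) (nat_lit 1594963403) (nat_lit 76) (nat_lit 1897512098) (nat_lit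 244) (nat_lit 5) (nat_lit 254) (nat_lit 5) (nat_lit 245) (nat_lit 5) (nat_lit 300) (nat_lit 260) (nat_lit 220)) (XT.lf (nat_lit 0) (nat_lit 2137267) (nat_lit 760) (nat_lit 2805239112) (nat_lit 76) (nat_lit 6245257385) (nat_lit 234) (nat_lit 5) (nat_lit 244) (nat_lit 5) (nat_lit 235) (nat_lit 5) (nat_lit 301) (nat_lit 260) (nat_lit 219)))) (XT.nd (nat_lit 156) (nat_lit 1216) (nat_lit 0) (XT.nd (nat_lit 78) (nat_lit 608) (nat_lit 0) (XT.lf (nat_lit 0) (nat_lit 3535486999) (nat_lit 684) (nat_lit 4084753412) (nat_lit 76) (nat_lit 1569253617) (nat_lit 226) (nat_lit 5) (nat_lit 235) (nat_lit 5) (nat_lit 227) (nat_lit 5) (nat_lit 302) (nat_lit 260) (nat_lit 218)) (XT.lf (nat_lit 0) (nat_lit 3906721730) (nat_lit 608) (nat_lit 3259555689) (nat_lit 684) (nat_lit 2164411975) (nat_lit 218) (nat_lit 5) (nat_lit 226) (nat_lit 5) (nat_lit 227) (nat_lit 5) (nat_lit 303) (nat_lit 260) (nat_lit 217))) (XT.nd (nat_lit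 78) (nat_lit 608) (nat_lit 0) (XT.lf (nat_lit 0) (nat_lit 1393690319) (nat_lit 608) (nat_lit 6826641399) (nat_lit 76) (nat_lit 1256007080) (nat_lit 210) (nat_lit 5) (nat_lit 218) (nat_lit 5) (nat_lit 211) (nat_lit 5) (nat_lit 304) (nat_lit 260) (nat_lit 216)) (XT.lf (nat_lit 0) (nat_lit 1309339480) (nat_lit 608) (nat_lit 3717862520) (nat_lit 684) (nat_lit 4598961794) (nat_lit 202) (nat_lit 5) (nat_lit 210) (nat_lit 5) (nat_lit 211) (nat_lit 5) (nat_lit 305) (nat_lit 260) (nat_lit 215))))))) (XT.nd (nat_lit 1014) (nat_lit 3952) (nat_lit 0) (XT.nd (nat_lit 468) (nat_lit 2432) (nat_lit 0) (XT.nd (nat_lit 234) (nat_lit 1596) (nat_lit 0) (XT.nd (nat_lit 78) (nat_lit 1140) (nat_lit 0) (XT.lf (nat_lit 0) (nat_lit 8754233227) (nat_lit 684) (nat_lit 88420704) (nat_lit 76) (nat_lit 938191448) (nat_lit 202) (nat_lit 5) (nat_lit 211) (nat_lit 5) (nat_lit 203) (nat_lit 5) (nat_lit 306) (nat_lit 260) (nat_lit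 214)) (XT.nd (nat_lit 78) (nat_lit 532) (nat_lit 0) (XT.lf (nat_lit 0) (nat_lit 2631441415) (nat_lit 608) (nat_lit 1568208906) (nat_lit 76) (nat_lit 5739955681) (nat_lit 194) (nat_lit 5) (nat_lit 202) (nat_lit 5) (nat_lit 195) (nat_lit 5) (nat_lit 307) (nat_lit 260) (nat_lit 213)) (XT.lf (nat_lit 0) (nat_lit 6370220485) (nat_lit 608) (nat_lit 3122105201) (nat_lit 76) (nat_lit 611017578) (nat_lit 187) (nat_lit 5) (nat_lit 195) (nat_lit 5) (nat_lit 188) (nat_lit 5) (nat_lit 308) (nat_lit 260) (nat_lit 212)))) (XT.nd (nat_lit 78) (nat_lit 1064) (nat_lit 0) (XT.lf (nat_lit 0) (nat_lit 5498433117) (nat_lit 532) (nat_lit 4733343594) (nat_lit 608) (nat_lit 40050422) (nat_lit 180) (nat_lit 5) (nat_lit 187) (nat_lit 5) (nat_lit 188) (nat_lit 5) (nat_lit 309) (nat_lit 260) (nat_lit 211)) (XT.nd (nat_lit 78) (nat_lit 456) (nat_lit 0) (XT.lf (nat_lit 0) (nat_lit 3699650019) (nat_lit 608) (nat_lit 6526392833)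 (nat_lit 76) (nat_lit 219174457) (nat_lit 172) (nat_lit 5) (nat_lit 180) (nat_lit 5) (nat_lit 173) (nat_lit 5) (nat_lit 310) (nat_lit 260) (nat_lit 210)) (XT.lf (nat_lit 0) (nat_lit 2229339580) (nat_lit 456) (nat_lit 5338545519) (nat_lit 532) (nat_lit 3055624258) (nat_lit 166) (nat_lit 5) (nat_lit 172) (nat_lit 5) (nat_lit 173) (nat_lit 5) (nat_lit 311) (nat_lit 260) (nat_lit 209))))) (XT.nd (nat_lit 234) (nat_lit 1444) (nat_lit 0) (XT.nd (nat_lit 78) (nat_lit 456) (nat_lit 0) (XT.lf (nat_lit 0) (nat_lit 450314608) (nat_lit 456) (nat_lit 271404756) (nat_lit 532) (nat_lit 10085645728) (nat_lit 159) (nat_lit 5) (nat_lit 165) (nat_lit 5) (nat_lit 166) (nat_lit 5) (nat_lit 312) (nat_lit 260) (nat_lit 208)) (XT.nd (nat_lit 78) (nat_lit 456) (nat_lit 0) (XT.lf (nat_lit 0) (nat_lit 4600645331) (nat_lit 532) (nat_lit 1454557786) (nat_lit 76) (nat_lit 4940573849) (nat_lit 159) (nat_lit 5) (nat_lit 166)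 (nat_lit 5) (nat_lit 160) (nat_lit 5) (nat_lit 313) (nat_lit 260) (nat_lit 207)) (XT.lf (nat_lit 0) (nat_lit 7735955985) (nat_lit 456) (nat_lit 853925077) (nat_lit 532) (nat_lit 2600120066) (nat_lit 153) (nat_lit 5) (nat_lit 159) (nat_lit 5) (nat_lit 160) (nat_lit 5) (nat_lit 314) (nat_lit 260) (nat_lit 206)))) (XT.nd (nat_lit 156) (nat_lit 532) (nat_lit 0) (XT.nd (nat_lit 78) (nat_lit 380) (nat_lit 0) (XT.lf (nat_lit 0) (nat_lit 1311449552) (nat_lit 532) (nat_lit 5597773679) (nat_lit 76) (nat_lit 4480298306) (nat_lit 146) (nat_lit 5) (nat_lit 153) (nat_lit 5) (nat_lit 147) (nat_lit 5) (nat_lit 315) (nat_lit 260) (nat_lit 205)) (XT.lf (nat_lit 0) (nat_lit 3715131608) (nat_lit 380) (nat_lit 1587213522) (nat_lit 456) (nat_lit 6292428437) (nat_lit 141) (nat_lit 5) (nat_lit 146) (nat_lit 5) (nat_lit 147) (nat_lit 5) (nat_lit 316) (nat_lit 260) (nat_lit 204))) (XT.nd (nat_lit 78) (nat_lit 76) (nat_lit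 0) (XT.lf (nat_lit 0) (nat_lit 1494986440) (nat_lit 456) (nat_lit 7935868493) (nat_lit 532) (nat_lit 2375005266) (nat_lit 135) (nat_lit 5) (nat_lit 141) (nat_lit 5) (nat_lit 142) (nat_lit 5) (nat_lit 317) (nat_lit 260) (nat_lit 203)) (XT.lf (nat_lit 0) (nat_lit 1647967052) (nat_lit 532) (nat_lit 862449792) (nat_lit 76) (nat_lit 9512484215) (nat_lit 134) (nat_lit 5) (nat_lit 141) (nat_lit 5) (nat_lit 135) (nat_lit 5) (nat_lit 318) (nat_lit 260) (nat_lit 202)))))) (XT.nd (nat_lit 546) (nat_lit 1596) (nat_lit 0) (XT.nd (nat_lit 234) (nat_lit 1140) (nat_lit 0) (XT.nd (nat_lit 78) (nat_lit 836) (nat_lit 0) (XT.lf (nat_lit 0) (nat_lit 5784650623) (nat_lit 456) (nat_lit 3371148780) (nat_lit 76) (nat_lit 3089866130) (nat_lit 129) (nat_lit 5) (nat_lit 135) (nat_lit 5) (nat_lit 130) (nat_lit 5) (nat_lit 319) (nat_lit 260) (nat_lit 201)) (XT.nd (nat_lit 78) (nat_lit 456) (nat_lit 0) (XT.lf (nat_lit 0) (nat_lit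 6433280946) (nat_lit 380) (nat_lit 3624539843) (nat_lit 456) (nat_lit 2417075643) (nat_lit 124) (nat_lit 5) (nat_lit 129) (nat_lit 5) (nat_lit 130) (nat_lit 5) (nat_lit 320) (nat_lit 260) (nat_lit 200)) (XT.lf (nat_lit 0) (nat_lit 1735447979) (nat_lit 456) (nat_lit 8892549827) (nat_lit 76) (nat_lit 2082605276) (nat_lit 118) (nat_lit 5) (nat_lit 124) (nat_lit 5) (nat_lit 119) (nat_lit 5) (nat_lit 321) (nat_lit 260) (nat_lit 199)))) (XT.nd (nat_lit 156) (nat_lit 760) (nat_lit 0) (XT.nd (nat_lit 78) (nat_lit 0) (nat_lit 0) (XT.lf (nat_lit 0) (nat_lit 1002264859) (nat_lit 380) (nat_lit 4999081650) (nat_lit 456) (nat_lit 6951310972) (nat_lit 113) (nat_lit 5) (nat_lit 118) (nat_lit 5) (nat_lit 119) (nat_lit 5) (nat_lit 322) (nat_lit 260) (nat_lit 198)) (XT.lf (nat_lit 0) (nat_lit 10411407827) (nat_lit 456) (nat_lit 1964230598) (nat_lit 76) (nat_lit 826039374) (nat_lit 113) (nat_lit 5) (nat_lit 119) (nat_lit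 5) (nat_lit 114) (nat_lit 5) (nat_lit 323) (nat_lit 260) (nat_lit 197))) (XT.nd (nat_lit 78) (nat_lit 380) (nat_lit 0) (XT.lf (nat_lit 0) (nat_lit 1515497451) (nat_lit 380) (nat_lit 5141482514) (nat_lit 76) (nat_lit 6800231002) (nat_lit 108) (nat_lit 5) (nat_lit 113) (nat_lit 5) (nat_lit 109) (nat_lit 5) (nat_lit 324) (nat_lit 260) (nat_lit 196)) (XT.lf (nat_lit 0) (nat_lit 5189256147) (nat_lit 380) (nat_lit 722977396) (nat_lit 456) (nat_lit 7807839501) (nat_lit 103) (nat_lit 5) (nat_lit 108) (nat_lit 5) (nat_lit 109) (nat_lit 5) (nat_lit 325) (nat_lit 260) (nat_lit 195))))) (XT.nd (nat_lit 234) (nat_lit 912) (nat_lit 0) (XT.nd (nat_lit 78) (nat_lit 380) (nat_lit 0) (XT.lf (nat_lit 0) (nat_lit 1828388105) (nat_lit 304) (nat_lit 8647596879) (nat_lit 380) (nat_lit 3514158859) (nat_lit 99) (nat_lit 5) (nat_lit 103) (nat_lit 5) (nat_lit 104) (nat_lit 5) (nat_lit 326) (nat_lit 260) (nat_lit 194)) (XT.nd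 (nat_lit 78) (nat_lit 304) (nat_lit 0) (XT.lf (nat_lit 0) (nat_lit 913211316) (nat_lit 380) (nat_lit 1733171019) (nat_lit 76) (nat_lit 11621504555) (nat_lit 98) (nat_lit 5) (nat_lit 103) (nat_lit 5) (nat_lit 99) (nat_lit 5) (nat_lit 327) (nat_lit 260) (nat_lit 193)) (XT.lf (nat_lit 0) (nat_lit 5463052342) (nat_lit 380) (nat_lit 5541310718) (nat_lit 76) (nat_lit 3548409946) (nat_lit 94) (nat_lit 5) (nat_lit 99) (nat_lit 5) (nat_lit 95) (nat_lit 5) (nat_lit 328) (nat_lit 260) (nat_lit 192)))) (XT.nd (nat_lit 156) (nat_lit 304) (nat_lit 0) (XT.nd (nat_lit 78) (nat_lit 304) (nat_lit 0) (XT.lf (nat_lit 0) (nat_lit 5239482265) (nat_lit 304) (nat_lit 4929282310) (nat_lit 380) (nat_lit 4677076153) (nat_lit 90) (nat_lit 5) (nat_lit 94) (nat_lit 5) (nat_lit 95) (nat_lit 5) (nat_lit 329) (nat_lit 260) (nat_lit 191)) (XT.lf (nat_lit 0) (nat_lit 1212342184) (nat_lit 304) (nat_lit 13814139503) (nat_lit 380)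 (nat_lit 121024009) (nat_lit 86) (nat_lit 5) (nat_lit 90) (nat_lit 5) (nat_lit 91) (nat_lit 5) (nat_lit 330) (nat_lit 260) (nat_lit 190))) (XT.nd (nat_lit 78) (nat_lit 228) (nat_lit 0) (XT.lf (nat_lit 0) (nat_lit 4567316032) (nat_lit 380) (nat_lit 3099685640) (nat_lit 76) (nat_lit 7789534818) (nat_lit 85) (nat_lit 5) (nat_lit 90) (nat_lit 5) (nat_lit 86) (nat_lit 5) (nat_lit 331) (nat_lit 260) (nat_lit 189)) (XT.lf (nat_lit 0) (nat_lit 8101458361) (nat_lit 228) (nat_lit 1304137377) (nat_lit 304) (nat_lit 6369028022) (nat_lit 82) (nat_lit 5) (nat_lit 85) (nat_lit 5) (nat_lit 86) (nat_lit 5) (nat_lit 332) (nat_lit 260) (nat_lit 188))))))))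
noncomputable def xc52 : XT := (XT.nd (nat_lit 2028) (nat_lit 228) (nat_lit 0) (XT.nd (nat_lit 1014) (nat_lit 1444) (nat_lit 0) (XT.nd (nat_lit 468) (nat_lit 1292) (nat_lit 0) (XT.nd (nat_lit 234) (nat_lit 608) (nat_lit 0) (XT.nd (nat_lit 78) (nat_lit 304) (nat_lit 0) (XT.lf (nat_lit 0) (nat_lit 3526786102) (nat_lit 304) (nat_lit 10899338706) (nat_lit 380) (nat_lit 1675406455) (nat_lit 78) (nat_lit 5) (nat_lit 82) (nat_lit 5) (nat_lit 83) (nat_lit 5) (nat_lit 333) (nat_lit 260) (nat_lit 187)) (XT.nd (nat_lit 78) (nat_lit 228) (nat_lit 0) (XT.lf (nat_lit 0) (nat_lit 3138127036) (nat_lit 380) (nat_lit 1363003168) (nat_lit 76) (nat_lit 11936313578) (nat_lit 77) (nat_lit 5) (nat_lit 82) (nat_lit 5) (nat_lit 78) (nat_lit 5) (nat_lit 334) (nat_lit 260) (nat_lit 186)) (XT.lf (nat_lit 0) (nat_lit 8114542393) (nat_lit 304) (nat_lit 6550472314) (nat_lit 76) (nat_lit 2117390865) (nat_lit 74) (nat_lit 5) (nat_lit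 78) (nat_lit 5) (nat_lit 75) (nat_lit 5) (nat_lit 335) (nat_lit 260) (nat_lit 185)))) (XT.nd (nat_lit 78) (nat_lit 304) (nat_lit 0) (XT.lf (nat_lit 0) (nat_lit 5029888680) (nat_lit 304) (nat_lit 8243673620) (nat_lit 380) (nat_lit 3863505290) (nat_lit 70) (nat_lit 5) (nat_lit 74) (nat_lit 5) (nat_lit 75) (nat_lit 5) (nat_lit 336) (nat_lit 260) (nat_lit 184)) (XT.nd (nat_lit 78) (nat_lit 228) (nat_lit 0) (XT.lf (nat_lit 0) (nat_lit 1077157344) (nat_lit 380) (nat_lit 522779458) (nat_lit 76) (nat_lit 15902180470) (nat_lit 69) (nat_lit 5) (nat_lit 74) (nat_lit 5) (nat_lit 70) (nat_lit 5) (nat_lit 337) (nat_lit 260) (nat_lit 183)) (XT.lf (nat_lit 0) (nat_lit 6185745817) (nat_lit 304) (nat_lit 6437128736) (nat_lit 76) (nat_lit 5253305502) (nat_lit 66) (nat_lit 5) (nat_lit 70) (nat_lit 5) (nat_lit 67) (nat_lit 5) (nat_lit 338) (nat_lit 260) (nat_lit 182))))) (XT.nd (nat_lit 234) (nat_lit 760) (nat_lit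 0) (XT.nd (nat_lit 78) (nat_lit 304) (nat_lit 0) (XT.lf (nat_lit 0) (nat_lit 5507877682) (nat_lit 228) (nat_lit 5953136235) (nat_lit 304) (nat_lit 6800198168) (nat_lit 63) (nat_lit 5) (nat_lit 66) (nat_lit 5) (nat_lit 67) (nat_lit 5) (nat_lit 339) (nat_lit 260) (nat_lit 181)) (XT.nd (nat_lit 78) (nat_lit 304) (nat_lit 0) (XT.lf (nat_lit 0) (nat_lit 16908340353) (nat_lit 304) (nat_lit 822581564) (nat_lit 76) (nat_lit 926612499) (nat_lit 63) (nat_lit 5) (nat_lit 67) (nat_lit 5) (nat_lit 64) (nat_lit 5) (nat_lit 340) (nat_lit 260) (nat_lit 180)) (XT.lf (nat_lit 0) (nat_lit 3488160165) (nat_lit 304) (nat_lit 7566797444) (nat_lit 76) (nat_lit 8008752764) (nat_lit 59) (nat_lit 5) (nat_lit 63) (nat_lit 5) (nat_lit 60) (nat_lit 5) (nat_lit 341) (nat_lit 260) (nat_lit 179)))) (XT.nd (nat_lit 156) (nat_lit 532) (nat_lit 0) (XT.nd (nat_lit 78) (nat_lit 0) (nat_lit 0) (XT.lf (nat_lit 0) (nat_lit 4708711118)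 (nat_lit 228) (nat_lit 4151881160) (nat_lit 304) (nat_lit 10621227828) (nat_lit 56) (nat_lit 5) (nat_lit 59) (nat_lit 5) (nat_lit 60) (nat_lit 5) (nat_lit 342) (nat_lit 260) (nat_lit 178)) (XT.lf (nat_lit 0) (nat_lit 14430927548) (nat_lit 304) (nat_lit 2531168969) (nat_lit 76) (nat_lit 2949655778) (nat_lit 56) (nat_lit 5) (nat_lit 60) (nat_lit 5) (nat_lit 57) (nat_lit 5) (nat_lit 343) (nat_lit 260) (nat_lit 177))) (XT.nd (nat_lit 78) (nat_lit 304) (nat_lit 0) (XT.lf (nat_lit 0) (nat_lit 10128503785) (nat_lit 228) (nat_lit 10100296930) (nat_lit 304) (nat_lit 124586545) (nat_lit 53) (nat_lit 5) (nat_lit 56) (nat_lit 5) (nat_lit 57) (nat_lit 5) (nat_lit 344) (nat_lit 260) (nat_lit 176)) (XT.lf (nat_lit 0) (nat_lit 2336040077) (nat_lit 228) (nat_lit 2985298730) (nat_lit 304) (nat_lit 15486250548) (nat_lit 49) (nat_lit 5) (nat_lit 52) (nat_lit 5) (nat_lit 53) (nat_lit 5) (nat_lit 345) (nat_lit 260)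 (nat_lit 175)))))) (XT.nd (nat_lit 468) (nat_lit 836) (nat_lit 0) (XT.nd (nat_lit 234) (nat_lit 380) (nat_lit 0) (XT.nd (nat_lit 78) (nat_lit 228) (nat_lit 0) (XT.lf (nat_lit 0) (nat_lit 10994661549) (nat_lit 304) (nat_lit 5943568340) (nat_lit 76) (nat_lit 4335869259) (nat_lit 49) (nat_lit 5) (nat_lit 53) (nat_lit 5) (nat_lit 50) (nat_lit 5) (nat_lit 346) (nat_lit 260) (nat_lit 174)) (XT.nd (nat_lit 78) (nat_lit 76) (nat_lit 0) (XT.lf (nat_lit 0) (nat_lit 6979596479) (nat_lit 152) (nat_lit 9892564884) (nat_lit 228) (nat_lit 4881775317) (nat_lit 47) (nat_lit 5) (nat_lit 49) (nat_lit 5) (nat_lit 50) (nat_lit 5) (nat_lit 347) (nat_lit 260) (nat_lit 173)) (XT.lf (nat_lit 0) (nat_lit 678529726) (nat_lit 228) (nat_lit 1932024051) (nat_lit 76) (nat_lit 19637346908) (nat_lit 46) (nat_lit 5) (nat_lit 49) (nat_lit 5) (nat_lit 47) (nat_lit 5) (nat_lit 348) (nat_lit 260) (nat_lit 172)))) (XT.nd (nat_lit 78)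 (nat_lit 152) (nat_lit 0) (XT.lf (nat_lit 0) (nat_lit 6415748328) (nat_lit 304) (nat_lit 11425860699) (nat_lit 76) (nat_lit 4912911722) (nat_lit 43) (nat_lit 5) (nat_lit 47) (nat_lit 5) (nat_lit 44) (nat_lit 5) (nat_lit 349) (nat_lit 260) (nat_lit 171)) (XT.nd (nat_lit 78) (nat_lit 0) (nat_lit 0) (XT.lf (nat_lit 0) (nat_lit 1692231091) (nat_lit 152) (nat_lit 10644861459) (nat_lit 228) (nat_lit 10939017445) (nat_lit 41) (nat_lit 5) (nat_lit 43) (nat_lit 5) (nat_lit 44) (nat_lit 5) (nat_lit 350) (nat_lit 260) (nat_lit 170)) (XT.lf (nat_lit 0) (nat_lit 15311123877) (nat_lit 152) (nat_lit 3173307308) (nat_lit 228) (nat_lit 5327959098) (nat_lit 41) (nat_lit 5) (nat_lit 43) (nat_lit 5) (nat_lit 44) (nat_lit 5) (nat_lit 351) (nat_lit 260) (nat_lit 169))))) (XT.nd (nat_lit 234) (nat_lit 380) (nat_lit 0) (XT.nd (nat_lit 78) (nat_lit 152) (nat_lit 0) (XT.lf (nat_lit 0) (nat_lit 478944394) (nat_lit 304) (nat_lit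 19405881772) (nat_lit 76) (nat_lit 4479215455) (nat_lit 37) (nat_lit 5) (nat_lit 41) (nat_lit 5) (nat_lit 38) (nat_lit 5) (nat_lit 352) (nat_lit 260) (nat_lit 168)) (XT.nd (nat_lit 78) (nat_lit 152) (nat_lit 0) (XT.lf (nat_lit 0) (nat_lit 6439264805) (nat_lit 304) (nat_lit 6098346423) (nat_lit 76) (nat_lit 12392904653) (nat_lit 37) (nat_lit 5) (nat_lit 41) (nat_lit 5) (nat_lit 38) (nat_lit 5) (nat_lit 353) (nat_lit 260) (nat_lit 167)) (XT.lf (nat_lit 0) (nat_lit 7662543243) (nat_lit 152) (nat_lit 4938391397) (nat_lit 228) (nat_lit 12912608305) (nat_lit 35) (nat_lit 5) (nat_lit 37) (nat_lit 5) (nat_lit 38) (nat_lit 5) (nat_lit 354) (nat_lit 260) (nat_lit 166)))) (XT.nd (nat_lit 156) (nat_lit 228) (nat_lit 0) (XT.nd (nat_lit 78) (nat_lit 152) (nat_lit 0) (XT.lf (nat_lit 0) (nat_lit 18980971760) (nat_lit 228) (nat_lit 4258565098) (nat_lit 76) (nat_lit 2873862718) (nat_lit 35) (nat_lit 5) (nat_lit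 38) (nat_lit 5) (nat_lit 36) (nat_lit 5) (nat_lit 355) (nat_lit 260) (nat_lit 165)) (XT.lf (nat_lit 0) (nat_lit 9792350838) (nat_lit 152) (nat_lit 15830607616) (nat_lit 228) (nat_lit 1106891317) (nat_lit 33) (nat_lit 5) (nat_lit 35) (nat_lit 5) (nat_lit 36) (nat_lit 5) (nat_lit 356) (nat_lit 260) (nat_lit 164))) (XT.nd (nat_lit 78) (nat_lit 152) (nat_lit 0) (XT.lf (nat_lit 0) (nat_lit 5035820412) (nat_lit 228) (nat_lit 3118750584) (nat_lit 76) (nat_lit 19209502934) (nat_lit 32) (nat_lit 5) (nat_lit 35) (nat_lit 5) (nat_lit 33) (nat_lit 5) (nat_lit 357) (nat_lit 260) (nat_lit 163)) (XT.lf (nat_lit 0) (nat_lit 11211164720) (nat_lit 152) (nat_lit 184477122) (nat_lit 228) (nat_lit 16620587470) (nat_lit 30) (nat_lit 5) (nat_lit 32) (nat_lit 5) (nat_lit 33) (nat_lit 5) (nat_lit 358) (nat_lit 260) (nat_lit 162))))))) (XT.nd (nat_lit 33774) (nat_lit 0) (nat_lit 31236) (XT.nd (nat_lit 33228) (nat_lit 0)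 (nat_lit 42636) (XT.nd (nat_lit 32994) (nat_lit 0) (nat_lit 44764) (XT.nd (nat_lit 78) (nat_lit 228) (nat_lit 0) (XT.lf (nat_lit 0) (nat_lit 17994962108) (nat_lit 228) (nat_lit 2768816199) (nat_lit 76) (nat_lit 7923204891) (nat_lit 30) (nat_lit 5) (nat_lit 33) (nat_lit 5) (nat_lit 31) (nat_lit 5) (nat_lit 359) (nat_lit 260) (nat_lit 161)) (XT.nd (nat_lit 78) (nat_lit 76) (nat_lit 0) (XT.lf (nat_lit 0) (nat_lit 11800581658) (nat_lit 152) (nat_lit 13045578580) (nat_lit 228) (nat_lit 4530629194) (nat_lit 28) (nat_lit 5) (nat_lit 30) (nat_lit 5) (nat_lit 31) (nat_lit 5) (nat_lit 360) (nat_lit 260) (nat_lit 160)) (XT.lf (nat_lit 0) (nat_lit 1786996106) (nat_lit 228) (nat_lit 3294985822) (nat_lit 76) (nat_lit 25005175415) (nat_lit 27) (nat_lit 5) (nat_lit 30) (nat_lit 5) (nat_lit 28) (nat_lit 5) (nat_lit 361) (nat_lit 260) (nat_lit 159)))) (XT.nd (nat_lit 78) (nat_lit 228) (nat_lit 0) (XT.lf (nat_lit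 0) (nat_lit 1107315079) (nat_lit 228) (nat_lit 1057991996) (nat_lit 228) (nat_lit 1057991996) (nat_lit 619) (nat_lit 3) (nat_lit 622) (nat_lit 3) (nat_lit 622) (nat_lit 5) (nat_lit 261) (nat_lit 261) (nat_lit 258)) (XT.nd (nat_lit 78) (nat_lit 228) (nat_lit 0) (XT.lf (nat_lit 76) (nat_lit 2348505944) (nat_lit 0) (nat_lit 4084816050) (nat_lit 228) (nat_lit 19260131) (nat_lit 620) (nat_lit 5) (nat_lit 619) (nat_lit 3) (nat_lit 622) (nat_lit 5) (nat_lit 262) (nat_lit 261) (nat_lit 257)) (XT.lf (nat_lit 76) (nat_lit 407942357) (nat_lit 0) (nat_lit 3707662991) (nat_lit 304) (nat_lit 2345798743) (nat_lit 617) (nat_lit 5) (nat_lit 616) (nat_lit 5) (nat_lit 620) (nat_lit 5) (nat_lit 263) (nat_lit 261) (nat_lit 256))))) (XT.nd (nat_lit 234) (nat_lit 1444) (nat_lit 0) (XT.nd (nat_lit 78) (nat_lit 380) (nat_lit 0) (XT.lf (nat_lit 0) (nat_lit 1745066323) (nat_lit 304) (nat_lit 1458807627) (nat_lit 380) (nat_lit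 3269296794) (nat_lit 612) (nat_lit 5) (nat_lit 616) (nat_lit 5) (nat_lit 617) (nat_lit 5) (nat_lit 264) (nat_lit 261) (nat_lit 255)) (XT.nd (nat_lit 78) (nat_lit 380) (nat_lit 0) (XT.lf (nat_lit 76) (nat_lit 3215019447) (nat_lit 0) (nat_lit 2575806187) (nat_lit 380) (nat_lit 697121584) (nat_lit 613) (nat_lit 5) (nat_lit 612) (nat_lit 5) (nat_lit 617) (nat_lit 5) (nat_lit 265) (nat_lit 261) (nat_lit 254)) (XT.lf (nat_lit 76) (nat_lit 1456619042) (nat_lit 0) (nat_lit 1818031401) (nat_lit 456) (nat_lit 3231000302) (nat_lit 608) (nat_lit 5) (nat_lit 607) (nat_lit 5) (nat_lit 613) (nat_lit 5) (nat_lit 266) (nat_lit 261) (nat_lit 253)))) (XT.nd (nat_lit 156) (nat_lit 988) (nat_lit 0) (XT.nd (nat_lit 78) (nat_lit 0) (nat_lit 76) (XT.lf (nat_lit 0) (nat_lit 692227366) (nat_lit 456) (nat_lit 247662356) (nat_lit 532) (nat_lit 5586603198) (nat_lit 601) (nat_lit 5) (nat_lit 607) (nat_lit 5) (nat_lit 608) (nat_lit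 5) (nat_lit 267) (nat_lit 261) (nat_lit 252)) (XT.lf (nat_lit 0) (nat_lit 4573131591) (nat_lit 456) (nat_lit 1897801476) (nat_lit 76) (nat_lit 79140510) (nat_lit 602) (nat_lit 5) (nat_lit 608) (nat_lit 5) (nat_lit 603) (nat_lit 5) (nat_lit 268) (nat_lit 261) (nat_lit 251))) (XT.nd (nat_lit 78) (nat_lit 532) (nat_lit 0) (XT.lf (nat_lit 0) (nat_lit 1853930888) (nat_lit 532) (nat_lit 3513222351) (nat_lit 76) (nat_lit 1209476427) (nat_lit 595) (nat_lit 5) (nat_lit 602) (nat_lit 5) (nat_lit 596) (nat_lit 5) (nat_lit 269) (nat_lit 261) (nat_lit 250)) (XT.lf (nat_lit 0) (nat_lit 1515142443) (nat_lit 532) (nat_lit 4140184593) (nat_lit 608) (nat_lit 950946279) (nat_lit 588) (nat_lit 5) (nat_lit 595) (nat_lit 5) (nat_lit 596) (nat_lit 5) (nat_lit 270) (nat_lit 261) (nat_lit 249)))))) (XT.nd (nat_lit 546) (nat_lit 7296) (nat_lit 0) (XT.nd (nat_lit 234) (nat_lit 2660) (nat_lit 0) (XT.nd (nat_lit 78) (nat_lit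 1368) (nat_lit 0) (XT.lf (nat_lit 0) (nat_lit 2781399350) (nat_lit 608) (nat_lit 829538) (nat_lit 76) (nat_lit 3856669652) (nat_lit 587) (nat_lit 5) (nat_lit 595) (nat_lit 5) (nat_lit 588) (nat_lit 5) (nat_lit 271) (nat_lit 261) (nat_lit 248)) (XT.nd (nat_lit 78) (nat_lit 760) (nat_lit 0) (XT.lf (nat_lit 0) (nat_lit 5219085972) (nat_lit 608) (nat_lit 1293645457) (nat_lit 684) (nat_lit 161832733) (nat_lit 579) (nat_lit 5) (nat_lit 587) (nat_lit 5) (nat_lit 588) (nat_lit 5) (nat_lit 272) (nat_lit 261) (nat_lit 247)) (XT.lf (nat_lit 0) (nat_lit 3492210955) (nat_lit 760) (nat_lit 2890232961) (nat_lit 76) (nat_lit 330653503) (nat_lit 569) (nat_lit 5) (nat_lit 579) (nat_lit 5) (nat_lit 570) (nat_lit 5) (nat_lit 273) (nat_lit 261) (nat_lit 246)))) (XT.nd (nat_lit 156) (nat_lit 988) (nat_lit 0) (XT.nd (nat_lit 78) (nat_lit 836) (nat_lit 0) (XT.lf (nat_lit 0) (nat_lit 399996983) (nat_lit 836) (nat_lit 4295423879)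 (nat_lit 76) (nat_lit 2059334859) (nat_lit 558) (nat_lit 5) (nat_lit 569) (nat_lit 5) (nat_lit 559) (nat_lit 5) (nat_lit 274) (nat_lit 261) (nat_lit 245)) (XT.lf (nat_lit 0) (nat_lit 1116866314) (nat_lit 836) (nat_lit 2870145767) (nat_lit 912) (nat_lit 2812364269) (nat_lit 547) (nat_lit 5) (nat_lit 558) (nat_lit 5) (nat_lit 559) (nat_lit 5) (nat_lit 275) (nat_lit 261) (nat_lit 244))) (XT.nd (nat_lit 78) (nat_lit 912) (nat_lit 0) (XT.lf (nat_lit 0) (nat_lit 730819767) (nat_lit 912) (nat_lit 188217255) (nat_lit 76) (nat_lit 5928236045) (nat_lit 546) (nat_lit 5) (nat_lit 558) (nat_lit 5) (nat_lit 547) (nat_lit 5) (nat_lit 276) (nat_lit 261) (nat_lit 243)) (XT.lf (nat_lit 0) (nat_lit 4265070387) (nat_lit 988) (nat_lit 1467924088) (nat_lit 76) (nat_lit 1164932061) (nat_lit 534) (nat_lit 5) (nat_lit 547) (nat_lit 5) (nat_lit 535) (nat_lit 5) (nat_lit 277) (nat_lit 261) (nat_lit 242))))) (XT.nd (nat_lit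 234) (nat_lit 3952) (nat_lit 0) (XT.nd (nat_lit 78) (nat_lit 2280) (nat_lit 0) (XT.lf (nat_lit 0) (nat_lit 859898043) (nat_lit 1064) (nat_lit 2725843068) (nat_lit 76) (nat_lit 3366034870) (nat_lit 520) (nat_lit 5) (nat_lit 534) (nat_lit 5) (nat_lit 521) (nat_lit 5) (nat_lit 278) (nat_lit 261) (nat_lit 241)) (XT.nd (nat_lit 78) (nat_lit 1216) (nat_lit 0) (XT.lf (nat_lit 0) (nat_lit 3038664624) (nat_lit 1064) (nat_lit 1297864169) (nat_lit 1140) (nat_lit 2672206541) (nat_lit 506) (nat_lit 5) (nat_lit 520) (nat_lit 5) (nat_lit 521) (nat_lit 5) (nat_lit 279) (nat_lit 261) (nat_lit 240)) (XT.lf (nat_lit 0) (nat_lit 763809928) (nat_lit 1216) (nat_lit 5198375576) (nat_lit 76) (nat_lit 1106742548) (nat_lit 490) (nat_lit 5) (nat_lit 506) (nat_lit 5) (nat_lit 491) (nat_lit 5) (nat_lit 280) (nat_lit 261) (nat_lit 239)))) (XT.nd (nat_lit 156) (nat_lit 2660) (nat_lit 0) (XT.nd (nat_lit 78) (nat_lit 76) (nat_lit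 0) (XT.lf (nat_lit 0) (nat_lit 704386054) (nat_lit 1216) (nat_lit 3492488663) (nat_lit 1292) (nat_lit 2935222277) (nat_lit 474) (nat_lit 5) (nat_lit 490) (nat_lit 5) (nat_lit 491) (nat_lit 5) (nat_lit 281) (nat_lit 261) (nat_lit 238)) (XT.lf (nat_lit 0) (nat_lit 455745270) (nat_lit 1292) (nat_lit 433383669) (nat_lit 76) (nat_lit 6309545406) (nat_lit 473) (nat_lit 5) (nat_lit 490) (nat_lit 5) (nat_lit 474) (nat_lit 5) (nat_lit 282) (nat_lit 261) (nat_lit 237))) (XT.nd (nat_lit 78) (nat_lit 1368) (nat_lit 0) (XT.lf (nat_lit 0) (nat_lit 3852703243) (nat_lit 1368) (nat_lit 1570467273) (nat_lit 76) (nat_lit 1844927033) (nat_lit 456) (nat_lit 5) (nat_lit 474) (nat_lit 5) (nat_lit 457) (nat_lit 5) (nat_lit 283) (nat_lit 261) (nat_lit 236)) (XT.lf (nat_lit 0) (nat_lit 4647028127) (nat_lit 1368) (nat_lit 2640952381) (nat_lit 1444) (nat_lit 53010616) (nat_lit 438) (nat_lit 5) (nat_lit 456) (nat_lit 5) (nat_lit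 457) (nat_lit 5) (nat_lit 284) (nat_lit 261) (nat_lit 235))))))))
noncomputable def xc53 : XT := (XT.nd (nat_lit 2028) (nat_lit 8284) (nat_lit 0) (XT.nd (nat_lit 1014) (nat_lit 7068) (nat_lit 0) (XT.nd (nat_lit 468) (nat_lit 5016) (nat_lit 0) (XT.nd (nat_lit 234) (nat_lit 2888) (nat_lit 0) (XT.nd (nat_lit 78) (nat_lit 3192) (nat_lit 0) (XT.lf (nat_lit 0) (nat_lit 3300489450) (nat_lit 1520) (nat_lit 3824339009) (nat_lit 76) (nat_lit 292211102) (nat_lit 418) (nat_lit 5) (nat_lit 438) (nat_lit 5) (nat_lit 419) (nat_lit 5) (nat_lit 285) (nat_lit 261) (nat_lit 234)) (XT.nd (nat_lit 78) (nat_lit 1672) (nat_lit 0) (XT.lf (nat_lit 0) (nat_lit 2537263942) (nat_lit 1520) (nat_lit 4170593608) (nat_lit 1596) (nat_lit 788532319) (nat_lit 398) (nat_lit 5) (nat_lit 418) (nat_lit 5) (nat_lit 419) (nat_lit 5) (nat_lit 286) (nat_lit 261) (nat_lit 233)) (XT.lf (nat_lit 0) (nat_lit 1478869859) (nat_lit 1596) (nat_lit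 1064567318) (nat_lit 1672) (nat_lit 5035668188) (nat_lit 376) (nat_lit 5) (nat_lit 397) (nat_lit 5) (nat_lit 398) (nat_lit 5) (nat_lit 287) (nat_lit 261) (nat_lit 232)))) (XT.nd (nat_lit 78) (nat_lit 1216) (nat_lit 0) (XT.lf (nat_lit 0) (nat_lit 412000831) (nat_lit 1672) (nat_lit 5508431524) (nat_lit 1748) (nat_lit 1744749098) (nat_lit 354) (nat_lit 5) (nat_lit 376) (nat_lit 5) (nat_lit 377) (nat_lit 5) (nat_lit 288) (nat_lit 261) (nat_lit 231)) (XT.nd (nat_lit 78) (nat_lit 1140) (nat_lit 0) (XT.lf (nat_lit 0) (nat_lit 1578897001) (nat_lit 1748) (nat_lit 656184083) (nat_lit 76) (nat_lit 5519527890) (nat_lit 353) (nat_lit 5) (nat_lit 376) (nat_lit 5) (nat_lit 354) (nat_lit 5) (nat_lit 289) (nat_lit 261) (nat_lit 230)) (XT.lf (nat_lit 0) (nat_lit 4935735703) (nat_lit 1216) (nat_lit 1733634540) (nat_lit 76) (nat_lit 1178066126) (nat_lit 338) (nat_lit 5) (nat_lit 354) (nat_lit 5) (nat_lit 339) (nat_lit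 5) (nat_lit 290) (nat_lit 261) (nat_lit 229))))) (XT.nd (nat_lit 234) (nat_lit 2508) (nat_lit 0) (XT.nd (nat_lit 78) (nat_lit 1596) (nat_lit 0) (XT.lf (nat_lit 0) (nat_lit 408330553) (nat_lit 912) (nat_lit 2827595936) (nat_lit 76) (nat_lit 4707870593) (nat_lit 326) (nat_lit 5) (nat_lit 338) (nat_lit 5) (nat_lit 327) (nat_lit 5) (nat_lit 291) (nat_lit 261) (nat_lit 228)) (XT.nd (nat_lit 78) (nat_lit 760) (nat_lit 0) (XT.lf (nat_lit 0) (nat_lit 3742456556) (nat_lit 912) (nat_lit 3945345448) (nat_lit 76) (nat_lit 355865150) (nat_lit 315) (nat_lit 5) (nat_lit 327) (nat_lit 5) (nat_lit 316) (nat_lit 5) (nat_lit 292) (nat_lit 261) (nat_lit 227)) (XT.lf (nat_lit 0) (nat_lit 3056531148) (nat_lit 760) (nat_lit 4095870061) (nat_lit 836) (nat_lit 994698274) (nat_lit 305) (nat_lit 5) (nat_lit 315) (nat_lit 5) (nat_lit 316) (nat_lit 5) (nat_lit 293) (nat_lit 261) (nat_lit 226)))) (XT.nd (nat_lit 156) (nat_lit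 836) (nat_lit 0) (XT.nd (nat_lit 78) (nat_lit 760) (nat_lit 0) (XT.lf (nat_lit 0) (nat_lit 1993533803) (nat_lit 836) (nat_lit 342027112) (nat_lit 912) (nat_lit 5918715443) (nat_lit 293) (nat_lit 5) (nat_lit 304) (nat_lit 5) (nat_lit 305) (nat_lit 5) (nat_lit 294) (nat_lit 261) (nat_lit 225)) (XT.lf (nat_lit 0) (nat_lit 891343447) (nat_lit 760) (nat_lit 4842526231) (nat_lit 836) (nat_lit 2631110071) (nat_lit 283) (nat_lit 5) (nat_lit 293) (nat_lit 5) (nat_lit 294) (nat_lit 5) (nat_lit 295) (nat_lit 261) (nat_lit 224))) (XT.nd (nat_lit 78) (nat_lit 760) (nat_lit 0) (XT.lf (nat_lit 0) (nat_lit 709626294) (nat_lit 836) (nat_lit 228121542) (nat_lit 76) (nat_lit 7541942396) (nat_lit 282) (nat_lit 5) (nat_lit 293) (nat_lit 5) (nat_lit 283) (nat_lit 5) (nat_lit 296) (nat_lit 261) (nat_lit 223)) (XT.lf (nat_lit 0) (nat_lit 4104150011) (nat_lit 836) (nat_lit 1390313947) (nat_lit 76) (nat_lit 3103314075)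 (nat_lit 272) (nat_lit 5) (nat_lit 283) (nat_lit 5) (nat_lit 273) (nat_lit 5) (nat_lit 297) (nat_lit 261) (nat_lit 222)))))) (XT.nd (nat_lit 468) (nat_lit 2964) (nat_lit 0) (XT.nd (nat_lit 234) (nat_lit 1976) (nat_lit 0) (XT.nd (nat_lit 78) (nat_lit 1444) (nat_lit 0) (XT.lf (nat_lit 0) (nat_lit 6140233974) (nat_lit 684) (nat_lit 1431436276) (nat_lit 760) (nat_lit 1148383034) (nat_lit 263) (nat_lit 5) (nat_lit 272) (nat_lit 5) (nat_lit 273) (nat_lit 5) (nat_lit 298) (nat_lit 261) (nat_lit 221)) (XT.nd (nat_lit 78) (nat_lit 684) (nat_lit 0) (XT.lf (nat_lit 0) (nat_lit 2252082951) (nat_lit 760) (nat_lit 3827203035) (nat_lit 76) (nat_lit 2766777415) (nat_lit 253) (nat_lit 5) (nat_lit 263) (nat_lit 5) (nat_lit 254) (nat_lit 5) (nat_lit 299) (nat_lit 261) (nat_lit 220)) (XT.lf (nat_lit 0) (nat_lit 3854787612) (nat_lit 684) (nat_lit 1862666976) (nat_lit 760) (nat_lit 3258740413) (nat_lit 244) (nat_lit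 5) (nat_lit 253) (nat_lit 5) (nat_lit 254) (nat_lit 5) (nat_lit 300) (nat_lit 261) (nat_lit 219)))) (XT.nd (nat_lit 78) (nat_lit 1216) (nat_lit 0) (XT.lf (nat_lit 0) (nat_lit 161232101) (nat_lit 760) (nat_lit 6467079251) (nat_lit 76) (nat_lit 2482216292) (nat_lit 234) (nat_lit 5) (nat_lit 244) (nat_lit 5) (nat_lit 235) (nat_lit 5) (nat_lit 301) (nat_lit 261) (nat_lit 218)) (XT.nd (nat_lit 78) (nat_lit 608) (nat_lit 0) (XT.lf (nat_lit 0) (nat_lit 1363119832) (nat_lit 608) (nat_lit 2261701581) (nat_lit 684) (nat_lit 5623990323) (nat_lit 226) (nat_lit 5) (nat_lit 234) (nat_lit 5) (nat_lit 235) (nat_lit 5) (nat_lit 302) (nat_lit 261) (nat_lit 217)) (XT.lf (nat_lit 0) (nat_lit 28495482) (nat_lit 608) (nat_lit 7152896291) (nat_lit 684) (nat_lit 2210127516) (nat_lit 218) (nat_lit 5) (nat_lit 226) (nat_lit 5) (nat_lit 227) (nat_lit 5) (nat_lit 303) (nat_lit 261) (nat_lit 216))))) (XT.nd (nat_lit 234) (nat_lit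 1748) (nat_lit 0) (XT.nd (nat_lit 78) (nat_lit 1140) (nat_lit 0) (XT.lf (nat_lit 0) (nat_lit 1289186066) (nat_lit 684) (nat_lit 1356413425) (nat_lit 76) (nat_lit 6892789351) (nat_lit 217) (nat_lit 5) (nat_lit 226) (nat_lit 5) (nat_lit 218) (nat_lit 5) (nat_lit 304) (nat_lit 261) (nat_lit 215)) (XT.nd (nat_lit 78) (nat_lit 608) (nat_lit 0) (XT.lf (nat_lit 0) (nat_lit 4854848903) (nat_lit 608) (nat_lit 2817858675) (nat_lit 76) (nat_lit 2016888914) (nat_lit 210) (nat_lit 5) (nat_lit 218) (nat_lit 5) (nat_lit 211) (nat_lit 5) (nat_lit 305) (nat_lit 261) (nat_lit 214)) (XT.lf (nat_lit 0) (nat_lit 5493841269) (nat_lit 608) (nat_lit 3030845536) (nat_lit 684) (nat_lit 1320760068) (nat_lit 202) (nat_lit 5) (nat_lit 210) (nat_lit 5) (nat_lit 211) (nat_lit 5) (nat_lit 306) (nat_lit 261) (nat_lit 213)))) (XT.nd (nat_lit 156) (nat_lit 608) (nat_lit 0) (XT.nd (nat_lit 78) (nat_lit 532) (nat_lit 0) (XT.lf (nat_lit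 0) (nat_lit 2261159038) (nat_lit 608) (nat_lit 5972082536) (nat_lit 76) (nat_lit 1772627691) (nat_lit 194) (nat_lit 5) (nat_lit 202) (nat_lit 5) (nat_lit 195) (nat_lit 5) (nat_lit 307) (nat_lit 261) (nat_lit 212)) (XT.lf (nat_lit 0) (nat_lit 2482954318) (nat_lit 532) (nat_lit 3452584881) (nat_lit 608) (nat_lit 4235378344) (nat_lit 187) (nat_lit 5) (nat_lit 194) (nat_lit 5) (nat_lit 195) (nat_lit 5) (nat_lit 308) (nat_lit 261) (nat_lit 211))) (XT.nd (nat_lit 78) (nat_lit 76) (nat_lit 0) (XT.lf (nat_lit 0) (nat_lit 854689327) (nat_lit 532) (nat_lit 8859293824) (nat_lit 608) (nat_lit 627102873) (nat_lit 180) (nat_lit 5) (nat_lit 187) (nat_lit 5) (nat_lit 188) (nat_lit 5) (nat_lit 309) (nat_lit 261) (nat_lit 210)) (XT.lf (nat_lit 0) (nat_lit 3063274763) (nat_lit 608) (nat_lit 879492438) (nat_lit 76) (nat_lit 6572946961) (nat_lit 179) (nat_lit 5) (nat_lit 187) (nat_lit 5) (nat_lit 180) (nat_lit 5) (nat_lit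 310) (nat_lit 261) (nat_lit 209))))))) (XT.nd (nat_lit 1014) (nat_lit 3268) (nat_lit 0) (XT.nd (nat_lit 468) (nat_lit 2508) (nat_lit 0) (XT.nd (nat_lit 234) (nat_lit 988) (nat_lit 0) (XT.nd (nat_lit 78) (nat_lit 988) (nat_lit 0) (XT.lf (nat_lit 0) (nat_lit 6856053463) (nat_lit 608) (nat_lit 2693976145) (nat_lit 76) (nat_lit 1145506398) (nat_lit 172) (nat_lit 5) (nat_lit 180) (nat_lit 5) (nat_lit 173) (nat_lit 5) (nat_lit 311) (nat_lit 261) (nat_lit 208)) (XT.nd (nat_lit 78) (nat_lit 532) (nat_lit 0) (XT.lf (nat_lit 0) (nat_lit 6259075343) (nat_lit 456) (nat_lit 4518288363) (nat_lit 532) (nat_lit 103134574) (nat_lit 166) (nat_lit 5) (nat_lit 172) (nat_lit 5) (nat_lit 173) (nat_lit 5) (nat_lit 312) (nat_lit 261) (nat_lit 207)) (XT.lf (nat_lit 0) (nat_lit 3690344307) (nat_lit 532) (nat_lit 6671775398) (nat_lit 76) (nat_lit 708558934) (nat_lit 159) (nat_lit 5) (nat_lit 166) (nat_lit 5) (nat_lit 160)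 (nat_lit 5) (nat_lit 313) (nat_lit 261) (nat_lit 206)))) (XT.nd (nat_lit 78) (nat_lit 532) (nat_lit 0) (XT.lf (nat_lit 0) (nat_lit 2411266172) (nat_lit 456) (nat_lit 5205955383) (nat_lit 532) (nat_lit 3648946962) (nat_lit 153) (nat_lit 5) (nat_lit 159) (nat_lit 5) (nat_lit 160) (nat_lit 5) (nat_lit 314) (nat_lit 261) (nat_lit 205)) (XT.nd (nat_lit 78) (nat_lit 0) (nat_lit 0) (XT.lf (nat_lit 0) (nat_lit 184625890) (nat_lit 532) (nat_lit 11150393035) (nat_lit 76) (nat_lit 132658890) (nat_lit 146) (nat_lit 5) (nat_lit 153) (nat_lit 5) (nat_lit 147) (nat_lit 5) (nat_lit 315) (nat_lit 261) (nat_lit 204)) (XT.lf (nat_lit 0) (nat_lit 4124479220) (nat_lit 532) (nat_lit 1923504442) (nat_lit 76) (nat_lit 5625984167) (nat_lit 146) (nat_lit 5) (nat_lit 153) (nat_lit 5) (nat_lit 147) (nat_lit 5) (nat_lit 316) (nat_lit 261) (nat_lit 203))))) (XT.nd (nat_lit 234) (nat_lit 1216) (nat_lit 0) (XT.nd (nat_lit 78)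 (nat_lit 912) (nat_lit 0) (XT.lf (nat_lit 0) (nat_lit 7606452833) (nat_lit 380) (nat_lit 572403262) (nat_lit 456) (nat_lit 3707697663) (nat_lit 141) (nat_lit 5) (nat_lit 146) (nat_lit 5) (nat_lit 147) (nat_lit 5) (nat_lit 317) (nat_lit 261) (nat_lit 202)) (XT.nd (nat_lit 78) (nat_lit 380) (nat_lit 0) (XT.lf (nat_lit 0) (nat_lit 274594761) (nat_lit 532) (nat_lit 6800042503) (nat_lit 76) (nat_lit 5030309412) (nat_lit 134) (nat_lit 5) (nat_lit 141) (nat_lit 5) (nat_lit 135) (nat_lit 5) (nat_lit 318) (nat_lit 261) (nat_lit 201)) (XT.lf (nat_lit 0) (nat_lit 2842426284) (nat_lit 380) (nat_lit 1483888197) (nat_lit 456) (nat_lit 8003111322) (nat_lit 129) (nat_lit 5) (nat_lit 134) (nat_lit 5) (nat_lit 135) (nat_lit 5) (nat_lit 319) (nat_lit 261) (nat_lit 200)))) (XT.nd (nat_lit 156) (nat_lit 760) (nat_lit 0) (XT.nd (nat_lit 78) (nat_lit 76) (nat_lit 0) (XT.lf (nat_lit 0) (nat_lit 209731012) (nat_lit 380)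 (nat_lit 8314816217) (nat_lit 456) (nat_lit 4035623147) (nat_lit 124) (nat_lit 5) (nat_lit 129) (nat_lit 5) (nat_lit 130) (nat_lit 5) (nat_lit 320) (nat_lit 261) (nat_lit 199)) (XT.lf (nat_lit 0) (nat_lit 74972115) (nat_lit 456) (nat_lit 2552016339) (nat_lit 76) (nat_lit 10170376073) (nat_lit 123) (nat_lit 5) (nat_lit 129) (nat_lit 5) (nat_lit 124) (nat_lit 5) (nat_lit 321) (nat_lit 261) (nat_lit 198))) (XT.nd (nat_lit 78) (nat_lit 380) (nat_lit 0) (XT.lf (nat_lit 0) (nat_lit 4276250871) (nat_lit 456) (nat_lit 5520116318) (nat_lit 76) (nat_lit 3244357928) (nat_lit 118) (nat_lit 5) (nat_lit 124) (nat_lit 5) (nat_lit 119) (nat_lit 5) (nat_lit 322) (nat_lit 261) (nat_lit 197)) (XT.lf (nat_lit 0) (nat_lit 4612500949) (nat_lit 380) (nat_lit 4008382677) (nat_lit 456) (nat_lit 4670183773) (nat_lit 113) (nat_lit 5) (nat_lit 118) (nat_lit 5) (nat_lit 119) (nat_lit 5) (nat_lit 323) (nat_lit 261) (nat_lit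 196)))))) (XT.nd (nat_lit 546) (nat_lit 1520) (nat_lit 0) (XT.nd (nat_lit 234) (nat_lit 988) (nat_lit 0) (XT.nd (nat_lit 78) (nat_lit 456) (nat_lit 0) (XT.lf (nat_lit 0) (nat_lit 1514109973) (nat_lit 304) (nat_lit 11595104400) (nat_lit 380) (nat_lit 439464791) (nat_lit 109) (nat_lit 5) (nat_lit 113) (nat_lit 5) (nat_lit 114) (nat_lit 5) (nat_lit 324) (nat_lit 261) (nat_lit 195)) (XT.nd (nat_lit 78) (nat_lit 380) (nat_lit 0) (XT.lf (nat_lit 0) (nat_lit 3906576545) (nat_lit 380) (nat_lit 1802935979) (nat_lit 76) (nat_lit 8103227329) (nat_lit 108) (nat_lit 5) (nat_lit 113) (nat_lit 5) (nat_lit 109) (nat_lit 5) (nat_lit 325) (nat_lit 261) (nat_lit 194)) (XT.lf (nat_lit 0) (nat_lit 8391749630) (nat_lit 456) (nat_lit 5305930833) (nat_lit 76) (nat_lit 386713773) (nat_lit 103) (nat_lit 5) (nat_lit 109) (nat_lit 5) (nat_lit 104) (nat_lit 5) (nat_lit 326) (nat_lit 261) (nat_lit 193)))) (XT.nd (nat_lit 156)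 (nat_lit 304) (nat_lit 0) (XT.nd (nat_lit 78) (nat_lit 380) (nat_lit 0) (XT.lf (nat_lit 0) (nat_lit 5302821874) (nat_lit 304) (nat_lit 7749435099) (nat_lit 380) (nat_lit 1311149378) (nat_lit 99) (nat_lit 5) (nat_lit 103) (nat_lit 5) (nat_lit 104) (nat_lit 5) (nat_lit 327) (nat_lit 261) (nat_lit 192)) (XT.lf (nat_lit 0) (nat_lit 1586157018) (nat_lit 304) (nat_lit 1576553600) (nat_lit 380) (nat_lit 11487626750) (nat_lit 94) (nat_lit 5) (nat_lit 98) (nat_lit 5) (nat_lit 99) (nat_lit 5) (nat_lit 328) (nat_lit 261) (nat_lit 191))) (XT.nd (nat_lit 78) (nat_lit 304) (nat_lit 0) (XT.lf (nat_lit 0) (nat_lit 7803047558) (nat_lit 380) (nat_lit 2374221080) (nat_lit 76) (nat_lit 4767454738) (nat_lit 94) (nat_lit 5) (nat_lit 99) (nat_lit 5) (nat_lit 95) (nat_lit 5) (nat_lit 329) (nat_lit 261) (nat_lit 190)) (XT.lf (nat_lit 0) (nat_lit 8675916391) (nat_lit 304) (nat_lit 3931924172) (nat_lit 380) (nat_lit 2639616731)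 (nat_lit 90) (nat_lit 5) (nat_lit 94) (nat_lit 5) (nat_lit 95) (nat_lit 5) (nat_lit 330) (nat_lit 261) (nat_lit 189))))) (XT.nd (nat_lit 234) (nat_lit 912) (nat_lit 0) (XT.nd (nat_lit 78) (nat_lit 228) (nat_lit 0) (XT.lf (nat_lit 0) (nat_lit 1992176402) (nat_lit 380) (nat_lit 11061491326) (nat_lit 76) (nat_lit 2504948944) (nat_lit 85) (nat_lit 5) (nat_lit 90) (nat_lit 5) (nat_lit 86) (nat_lit 5) (nat_lit 331) (nat_lit 261) (nat_lit 188)) (XT.nd (nat_lit 78) (nat_lit 0) (nat_lit 0) (XT.lf (nat_lit 0) (nat_lit 2421324) (nat_lit 228) (nat_lit 6755518515) (nat_lit 304) (nat_lit 9120224100) (nat_lit 82) (nat_lit 5) (nat_lit 85) (nat_lit 5) (nat_lit 86) (nat_lit 5) (nat_lit 332) (nat_lit 261) (nat_lit 187)) (XT.lf (nat_lit 0) (nat_lit 11487731744) (nat_lit 228) (nat_lit 214215143) (nat_lit 304) (nat_lit 4504664387) (nat_lit 82) (nat_lit 5) (nat_lit 85) (nat_lit 5) (nat_lit 86) (nat_lit 5) (nat_lit 333)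 (nat_lit 261) (nat_lit 186)))) (XT.nd (nat_lit 156) (nat_lit 304) (nat_lit 0) (XT.nd (nat_lit 78) (nat_lit 228) (nat_lit 0) (XT.lf (nat_lit 0) (nat_lit 293951066) (nat_lit 380) (nat_lit 9787718662) (nat_lit 76) (nat_lit 6462270876) (nat_lit 77) (nat_lit 5) (nat_lit 82) (nat_lit 5) (nat_lit 78) (nat_lit 5) (nat_lit 334) (nat_lit 261) (nat_lit 185)) (XT.lf (nat_lit 0) (nat_lit 1679359674) (nat_lit 228) (nat_lit 3502637272) (nat_lit 304) (nat_lit 11708681516) (nat_lit 74) (nat_lit 5) (nat_lit 77) (nat_lit 5) (nat_lit 78) (nat_lit 5) (nat_lit 335) (nat_lit 261) (nat_lit 184))) (XT.nd (nat_lit 78) (nat_lit 304) (nat_lit 0) (XT.lf (nat_lit 0) (nat_lit 10267088388) (nat_lit 304) (nat_lit 3703721899) (nat_lit 76) (nat_lit 3276017188) (nat_lit 74) (nat_lit 5) (nat_lit 78) (nat_lit 5) (nat_lit 75) (nat_lit 5) (nat_lit 336) (nat_lit 261) (nat_lit 183)) (XT.lf (nat_lit 0) (nat_lit 8174676572) (nat_lit 304)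 (nat_lit 7370035510) (nat_lit 380) (nat_lit 2068165892) (nat_lit 70) (nat_lit 5) (nat_lit 74) (nat_lit 5) (nat_lit 75) (nat_lit 5) (nat_lit 337) (nat_lit 261) (nat_lit 182))))))))
noncomputable def xc54 : XT := (XT.nd (nat_lit 34866) (nat_lit 0) (nat_lit 23560) (XT.nd (nat_lit 1014) (nat_lit 1140) (nat_lit 0) (XT.nd (nat_lit 468) (nat_lit 988) (nat_lit 0) (XT.nd (nat_lit 234) (nat_lit 532) (nat_lit 0) (XT.nd (nat_lit 78) (nat_lit 228) (nat_lit 0) (XT.lf (nat_lit 0) (nat_lit 2425172672) (nat_lit 228) (nat_lit 531286231) (nat_lit 304) (nat_lit 15032979956) (nat_lit 66) (nat_lit 5) (nat_lit 69) (nat_lit 5) (nat_lit 70) (nat_lit 5) (nat_lit 338) (nat_lit 261) (nat_lit 181)) (XT.nd (nat_lit 78) (nat_lit 228) (nat_lit 0) (XT.lf (nat_lit 0) (nat_lit 8175010272) (nat_lit 304) (nat_lit 3716329296) (nat_lit 76) (nat_lit 6484273217) (nat_lit 66) (nat_lit 5) (nat_lit 70) (nat_lit 5) (nat_lit 67) (nat_lit 5)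 (nat_lit 339) (nat_lit 261) (nat_lit 180)) (XT.lf (nat_lit 0) (nat_lit 8539752533) (nat_lit 228) (nat_lit 5034861280) (nat_lit 304) (nat_lit 5198283100) (nat_lit 63) (nat_lit 5) (nat_lit 66) (nat_lit 5) (nat_lit 67) (nat_lit 5) (nat_lit 340) (nat_lit 261) (nat_lit 179)))) (XT.nd (nat_lit 78) (nat_lit 304) (nat_lit 0) (XT.lf (nat_lit 0) (nat_lit 1990171035) (nat_lit 228) (nat_lit 17163478009) (nat_lit 304) (nat_lit 28116113) (nat_lit 60) (nat_lit 5) (nat_lit 63) (nat_lit 5) (nat_lit 64) (nat_lit 5) (nat_lit 341) (nat_lit 261) (nat_lit 178)) (XT.nd (nat_lit 78) (nat_lit 228) (nat_lit 0) (XT.lf (nat_lit 0) (nat_lit 5297566409) (nat_lit 304) (nat_lit 5004729092) (nat_lit 76) (nat_lit 9298532190) (nat_lit 59) (nat_lit 5) (nat_lit 63) (nat_lit 5) (nat_lit 60) (nat_lit 5) (nat_lit 342) (nat_lit 261) (nat_lit 177)) (XT.lf (nat_lit 0) (nat_lit 7593795343) (nat_lit 228) (nat_lit 3205537615) (nat_lit 304)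 (nat_lit 9232804882) (nat_lit 56) (nat_lit 5) (nat_lit 59) (nat_lit 5) (nat_lit 60) (nat_lit 5) (nat_lit 343) (nat_lit 261) (nat_lit 176))))) (XT.nd (nat_lit 234) (nat_lit 456) (nat_lit 0) (XT.nd (nat_lit 78) (nat_lit 304) (nat_lit 0) (XT.lf (nat_lit 0) (nat_lit 84299396) (nat_lit 228) (nat_lit 16411050786) (nat_lit 304) (nat_lit 3980466135) (nat_lit 53) (nat_lit 5) (nat_lit 56) (nat_lit 5) (nat_lit 57) (nat_lit 5) (nat_lit 344) (nat_lit 261) (nat_lit 175)) (XT.nd (nat_lit 78) (nat_lit 228) (nat_lit 0) (XT.lf (nat_lit 0) (nat_lit 1485218088) (nat_lit 304) (nat_lit 7862098176) (nat_lit 76) (nat_lit 11583825163) (nat_lit 52) (nat_lit 5) (nat_lit 56) (nat_lit 5) (nat_lit 53) (nat_lit 5) (nat_lit 345) (nat_lit 261) (nat_lit 174)) (XT.lf (nat_lit 0) (nat_lit 5031523452) (nat_lit 228) (nat_lit 2031413250) (nat_lit 304) (nat_lit 14336632509) (nat_lit 49) (nat_lit 5) (nat_lit 52) (nat_lit 5) (nat_lit 53)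 (nat_lit 5) (nat_lit 346) (nat_lit 261) (nat_lit 173)))) (XT.nd (nat_lit 156) (nat_lit 304) (nat_lit 0) (XT.nd (nat_lit 78) (nat_lit 152) (nat_lit 0) (XT.lf (nat_lit 0) (nat_lit 12866960099) (nat_lit 304) (nat_lit 3548210086) (nat_lit 76) (nat_lit 5465711822) (nat_lit 49) (nat_lit 5) (nat_lit 53) (nat_lit 5) (nat_lit 50) (nat_lit 5) (nat_lit 347) (nat_lit 261) (nat_lit 172)) (XT.lf (nat_lit 0) (nat_lit 9720895016) (nat_lit 152) (nat_lit 9171402753) (nat_lit 228) (nat_lit 3483403851) (nat_lit 47) (nat_lit 5) (nat_lit 49) (nat_lit 5) (nat_lit 50) (nat_lit 5) (nat_lit 348) (nat_lit 261) (nat_lit 171))) (XT.nd (nat_lit 78) (nat_lit 0) (nat_lit 0) (XT.lf (nat_lit 0) (nat_lit 494888079) (nat_lit 228) (nat_lit 1687369972) (nat_lit 304) (nat_lit 20702866108) (nat_lit 43) (nat_lit 5) (nat_lit 46) (nat_lit 5) (nat_lit 47) (nat_lit 5) (nat_lit 349) (nat_lit 261) (nat_lit 170)) (XT.lf (nat_lit 0) (nat_lit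 8067496066) (nat_lit 304) (nat_lit 9307272460) (nat_lit 76) (nat_lit 6032672149) (nat_lit 43) (nat_lit 5) (nat_lit 47) (nat_lit 5) (nat_lit 44) (nat_lit 5) (nat_lit 350) (nat_lit 261) (nat_lit 169)))))) (XT.nd (nat_lit 468) (nat_lit 532) (nat_lit 0) (XT.nd (nat_lit 234) (nat_lit 152) (nat_lit 0) (XT.nd (nat_lit 78) (nat_lit 304) (nat_lit 0) (XT.lf (nat_lit 0) (nat_lit 4164429376) (nat_lit 152) (nat_lit 9975269613) (nat_lit 228) (nat_lit 9805529684) (nat_lit 41) (nat_lit 5) (nat_lit 43) (nat_lit 5) (nat_lit 44) (nat_lit 5) (nat_lit 351) (nat_lit 261) (nat_lit 168)) (XT.nd (nat_lit 78) (nat_lit 304) (nat_lit 0) (XT.lf (nat_lit 0) (nat_lit 18121361819) (nat_lit 152) (nat_lit 2308372847) (nat_lit 228) (nat_lit 4068712157) (nat_lit 41) (nat_lit 5) (nat_lit 43) (nat_lit 5) (nat_lit 44) (nat_lit 5) (nat_lit 352) (nat_lit 261) (nat_lit 167)) (XT.lf (nat_lit 0) (nat_lit 1874346118) (nat_lit 304) (nat_lit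 17634742636) (nat_lit 76) (nat_lit 5557777762) (nat_lit 37) (nat_lit 5) (nat_lit 41) (nat_lit 5) (nat_lit 38) (nat_lit 5) (nat_lit 353) (nat_lit 261) (nat_lit 166)))) (XT.nd (nat_lit 78) (nat_lit 152) (nat_lit 0) (XT.lf (nat_lit 0) (nat_lit 7973251867) (nat_lit 304) (nat_lit 3996524399) (nat_lit 76) (nat_lit 13681377078) (nat_lit 37) (nat_lit 5) (nat_lit 41) (nat_lit 5) (nat_lit 38) (nat_lit 5) (nat_lit 354) (nat_lit 261) (nat_lit 165)) (XT.nd (nat_lit 78) (nat_lit 0) (nat_lit 0) (XT.lf (nat_lit 0) (nat_lit 10140124239) (nat_lit 152) (nat_lit 4155188455) (nat_lit 228) (nat_lit 11956861159) (nat_lit 35) (nat_lit 5) (nat_lit 37) (nat_lit 5) (nat_lit 38) (nat_lit 5) (nat_lit 355) (nat_lit 261) (nat_lit 164)) (XT.lf (nat_lit 0) (nat_lit 20834281483) (nat_lit 228) (nat_lit 2183959812) (nat_lit 76) (nat_lit 3852447337) (nat_lit 35) (nat_lit 5) (nat_lit 38) (nat_lit 5) (nat_lit 36) (nat_lit 5) (nat_lit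 356) (nat_lit 261) (nat_lit 163))))) (XT.nd (nat_lit 234) (nat_lit 152) (nat_lit 0) (XT.nd (nat_lit 78) (nat_lit 152) (nat_lit 0) (XT.lf (nat_lit 0) (nat_lit 144172866) (nat_lit 228) (nat_lit 15254307173) (nat_lit 76) (nat_lit 12107612550) (nat_lit 32) (nat_lit 5) (nat_lit 35) (nat_lit 5) (nat_lit 33) (nat_lit 5) (nat_lit 357) (nat_lit 261) (nat_lit 162)) (XT.nd (nat_lit 78) (nat_lit 152) (nat_lit 0) (XT.lf (nat_lit 0) (nat_lit 6419242920) (nat_lit 228) (nat_lit 1092007805) (nat_lit 76) (nat_lit 20648696179) (nat_lit 32) (nat_lit 5) (nat_lit 35) (nat_lit 5) (nat_lit 33) (nat_lit 5) (nat_lit 358) (nat_lit 261) (nat_lit 161)) (XT.lf (nat_lit 0) (nat_lit 12951961748) (nat_lit 228) (nat_lit 15203173452) (nat_lit 76) (nat_lit 676901410) (nat_lit 30) (nat_lit 5) (nat_lit 33) (nat_lit 5) (nat_lit 31) (nat_lit 5) (nat_lit 359) (nat_lit 261) (nat_lit 160)))) (XT.nd (nat_lit 32994) (nat_lit 0) (nat_lit 44308)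 (XT.nd (nat_lit 78) (nat_lit 152) (nat_lit 0) (XT.lf (nat_lit 0) (nat_lit 19715087021) (nat_lit 228) (nat_lit 808376415) (nat_lit 76) (nat_lit 9000144545) (nat_lit 30) (nat_lit 5) (nat_lit 33) (nat_lit 5) (nat_lit 31) (nat_lit 5) (nat_lit 360) (nat_lit 261) (nat_lit 159)) (XT.lf (nat_lit 0) (nat_lit 14164949949) (nat_lit 152) (nat_lit 12585546704) (nat_lit 228) (nat_lit 3484049281) (nat_lit 28) (nat_lit 5) (nat_lit 30) (nat_lit 5) (nat_lit 31) (nat_lit 5) (nat_lit 361) (nat_lit 261) (nat_lit 158))) (XT.nd (nat_lit 78) (nat_lit 380) (nat_lit 0) (XT.lf (nat_lit 0) (nat_lit 1013396275) (nat_lit 0) (nat_lit 1013396275) (nat_lit 228) (nat_lit 1203132904) (nat_lit 616) (nat_lit 5) (nat_lit 616) (nat_lit 3) (nat_lit 619) (nat_lit 3) (nat_lit 262) (nat_lit 262) (nat_lit 256)) (XT.lf (nat_lit 76) (nat_lit 24513472) (nat_lit 0) (nat_lit 1587763404) (nat_lit 380) (nat_lit 4857989873) (nat_lit 612) (nat_lit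 5) (nat_lit 611) (nat_lit 3) (nat_lit 616) (nat_lit 5) (nat_lit 263) (nat_lit 262) (nat_lit 255))))))) (XT.nd (nat_lit 1014) (nat_lit 15808) (nat_lit 0) (XT.nd (nat_lit 468) (nat_lit 3648) (nat_lit 0) (XT.nd (nat_lit 234) (nat_lit 532) (nat_lit 0) (XT.nd (nat_lit 78) (nat_lit 760) (nat_lit 0) (XT.lf (nat_lit 76) (nat_lit 4578935513) (nat_lit 0) (nat_lit 1012356557) (nat_lit 380) (nat_lit 892180431) (nat_lit 612) (nat_lit 5) (nat_lit 611) (nat_lit 3) (nat_lit 616) (nat_lit 5) (nat_lit 264) (nat_lit 262) (nat_lit 254)) (XT.nd (nat_lit 78) (nat_lit 380) (nat_lit 0) (XT.lf (nat_lit 76) (nat_lit 2706513855) (nat_lit 0) (nat_lit 307615671) (nat_lit 456) (nat_lit 3485498147) (nat_lit 607) (nat_lit 5) (nat_lit 606) (nat_lit 5) (nat_lit 612) (nat_lit 5) (nat_lit 265) (nat_lit 262) (nat_lit 253)) (XT.lf (nat_lit 0) (nat_lit 373380398) (nat_lit 456) (nat_lit 5636142847) (nat_lit 532) (nat_lit 509370532) (nat_lit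 601) (nat_lit 5) (nat_lit 607) (nat_lit 5) (nat_lit 608) (nat_lit 5) (nat_lit 266) (nat_lit 262) (nat_lit 252)))) (XT.nd (nat_lit 78) (nat_lit 532) (nat_lit 0) (XT.lf (nat_lit 0) (nat_lit 4181768082) (nat_lit 456) (nat_lit 897308003) (nat_lit 532) (nat_lit 1461796938) (nat_lit 601) (nat_lit 5) (nat_lit 607) (nat_lit 5) (nat_lit 608) (nat_lit 5) (nat_lit 267) (nat_lit 262) (nat_lit 251)) (XT.nd (nat_lit 78) (nat_lit 0) (nat_lit 0) (XT.lf (nat_lit 0) (nat_lit 1402552656) (nat_lit 532) (nat_lit 2621651912) (nat_lit 608) (nat_lit 2541677058) (nat_lit 594) (nat_lit 5) (nat_lit 601) (nat_lit 5) (nat_lit 602) (nat_lit 5) (nat_lit 268) (nat_lit 262) (nat_lit 250)) (XT.lf (nat_lit 76) (nat_lit 2283265775) (nat_lit 0) (nat_lit 2842564277) (nat_lit 608) (nat_lit 1468083487) (nat_lit 595) (nat_lit 5) (nat_lit 594) (nat_lit 5) (nat_lit 602) (nat_lit 5) (nat_lit 269) (nat_lit 262) (nat_lit 249))))) (XT.nd (nat_lit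 234) (nat_lit 2432) (nat_lit 0) (XT.nd (nat_lit 78) (nat_lit 608) (nat_lit 0) (XT.lf (nat_lit 76) (nat_lit 658805179) (nat_lit 0) (nat_lit 1532864221) (nat_lit 684) (nat_lit 4433318790) (nat_lit 587) (nat_lit 5) (nat_lit 586) (nat_lit 5) (nat_lit 595) (nat_lit 5) (nat_lit 270) (nat_lit 262) (nat_lit 248)) (XT.nd (nat_lit 78) (nat_lit 608) (nat_lit 0) (XT.lf (nat_lit 76) (nat_lit 5744427141) (nat_lit 0) (nat_lit 91737781) (nat_lit 684) (nat_lit 822924235) (nat_lit 587) (nat_lit 5) (nat_lit 586) (nat_lit 5) (nat_lit 595) (nat_lit 5) (nat_lit 271) (nat_lit 262) (nat_lit 247)) (XT.lf (nat_lit 0) (nat_lit 2763537505) (nat_lit 684) (nat_lit 2462013781) (nat_lit 76) (nat_lit 1470348267) (nat_lit 578) (nat_lit 5) (nat_lit 587) (nat_lit 5) (nat_lit 579) (nat_lit 5) (nat_lit 272) (nat_lit 262) (nat_lit 246)))) (XT.nd (nat_lit 156) (nat_lit 912) (nat_lit 0) (XT.nd (nat_lit 78) (nat_lit 836) (nat_lit 0) (XT.lf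 (nat_lit 0) (nat_lit 2762560277) (nat_lit 684) (nat_lit 3580833530) (nat_lit 760) (nat_lit 392543990) (nat_lit 569) (nat_lit 5) (nat_lit 578) (nat_lit 5) (nat_lit 579) (nat_lit 5) (nat_lit 273) (nat_lit 262) (nat_lit 245)) (XT.lf (nat_lit 0) (nat_lit 1312997988) (nat_lit 760) (nat_lit 1797450201) (nat_lit 836) (nat_lit 3668477205) (nat_lit 558) (nat_lit 5) (nat_lit 568) (nat_lit 5) (nat_lit 569) (nat_lit 5) (nat_lit 274) (nat_lit 262) (nat_lit 244))) (XT.nd (nat_lit 78) (nat_lit 912) (nat_lit 0) (XT.lf (nat_lit 0) (nat_lit 6618303751) (nat_lit 836) (nat_lit 98599610) (nat_lit 76) (nat_lit 108304130) (nat_lit 558) (nat_lit 5) (nat_lit 569) (nat_lit 5) (nat_lit 559) (nat_lit 5) (nat_lit 275) (nat_lit 262) (nat_lit 243)) (XT.lf (nat_lit 0) (nat_lit 3242240622) (nat_lit 912) (nat_lit 1489914742) (nat_lit 76) (nat_lit 2141882393) (nat_lit 546) (nat_lit 5) (nat_lit 558) (nat_lit 5) (nat_lit 547) (nat_lit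 5) (nat_lit 276) (nat_lit 262) (nat_lit 242)))))) (XT.nd (nat_lit 546) (nat_lit 8968) (nat_lit 0) (XT.nd (nat_lit 234) (nat_lit 3800) (nat_lit 0) (XT.nd (nat_lit 78) (nat_lit 2128) (nat_lit 0) (XT.lf (nat_lit 0) (nat_lit 4077342441) (nat_lit 912) (nat_lit 2625160766) (nat_lit 988) (nat_lit 223740116) (nat_lit 534) (nat_lit 5) (nat_lit 546) (nat_lit 5) (nat_lit 547) (nat_lit 5) (nat_lit 277) (nat_lit 262) (nat_lit 241)) (XT.nd (nat_lit 78) (nat_lit 1064) (nat_lit 0) (XT.lf (nat_lit 0) (nat_lit 2783885951) (nat_lit 988) (nat_lit 373074014) (nat_lit 1064) (nat_lit 3824497987) (nat_lit 520) (nat_lit 5) (nat_lit 533) (nat_lit 5) (nat_lit 534) (nat_lit 5) (nat_lit 278) (nat_lit 262) (nat_lit 240)) (XT.lf (nat_lit 0) (nat_lit 1507586484) (nat_lit 1064) (nat_lit 5058601853) (nat_lit 1140) (nat_lit 473643860) (nat_lit 506) (nat_lit 5) (nat_lit 520) (nat_lit 5) (nat_lit 521) (nat_lit 5) (nat_lit 279) (nat_lit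 262) (nat_lit 239)))) (XT.nd (nat_lit 156) (nat_lit 2584) (nat_lit 0) (XT.nd (nat_lit 78) (nat_lit 0) (nat_lit 0) (XT.lf (nat_lit 0) (nat_lit 238226537) (nat_lit 1140) (nat_lit 2623261703) (nat_lit 1216) (nat_lit 4239755807) (nat_lit 490) (nat_lit 5) (nat_lit 505) (nat_lit 5) (nat_lit 506) (nat_lit 5) (nat_lit 280) (nat_lit 262) (nat_lit 238)) (XT.lf (nat_lit 0) (nat_lit 6170857136) (nat_lit 1140) (nat_lit 49676192) (nat_lit 1216) (nat_lit 945421831) (nat_lit 490) (nat_lit 5) (nat_lit 505) (nat_lit 5) (nat_lit 506) (nat_lit 5) (nat_lit 281) (nat_lit 262) (nat_lit 237))) (XT.nd (nat_lit 78) (nat_lit 1292) (nat_lit 0) (XT.lf (nat_lit 0) (nat_lit 2360665306) (nat_lit 1292) (nat_lit 2235009465) (nat_lit 76) (nat_lit 2637833832) (nat_lit 473) (nat_lit 5) (nat_lit 490) (nat_lit 5) (nat_lit 474) (nat_lit 5) (nat_lit 282) (nat_lit 262) (nat_lit 236)) (XT.lf (nat_lit 0) (nat_lit 3842754668) (nat_lit 1292)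 (nat_lit 1840247046) (nat_lit 1368) (nat_lit 1621479611) (nat_lit 456) (nat_lit 5) (nat_lit 473) (nat_lit 5) (nat_lit 474) (nat_lit 5) (nat_lit 283) (nat_lit 262) (nat_lit 235))))) (XT.nd (nat_lit 234) (nat_lit 4484) (nat_lit 0) (XT.nd (nat_lit 78) (nat_lit 3040) (nat_lit 0) (XT.lf (nat_lit 0) (nat_lit 1643843640) (nat_lit 1444) (nat_lit 4689097737) (nat_lit 76) (nat_lit 1045746360) (nat_lit 437) (nat_lit 5) (nat_lit 456) (nat_lit 5) (nat_lit 438) (nat_lit 5) (nat_lit 284) (nat_lit 262) (nat_lit 234)) (XT.nd (nat_lit 78) (nat_lit 1596) (nat_lit 0) (XT.lf (nat_lit 0) (nat_lit 1530522337) (nat_lit 1444) (nat_lit 3402495936) (nat_lit 1520) (nat_lit 2523036375) (nat_lit 418) (nat_lit 5) (nat_lit 437) (nat_lit 5) (nat_lit 438) (nat_lit 5) (nat_lit 285) (nat_lit 262) (nat_lit 233)) (XT.lf (nat_lit 0) (nat_lit 381059390) (nat_lit 1520) (nat_lit 331747521) (nat_lit 1596) (nat_lit 6824176069) (nat_lit 397)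 (nat_lit 5) (nat_lit 417) (nat_lit 5) (nat_lit 418) (nat_lit 5) (nat_lit 286) (nat_lit 262) (nat_lit 232)))) (XT.nd (nat_lit 156) (nat_lit 2888) (nat_lit 0) (XT.nd (nat_lit 78) (nat_lit 1596) (nat_lit 0) (XT.lf (nat_lit 0) (nat_lit 3976305628) (nat_lit 1596) (nat_lit 782222652) (nat_lit 76) (nat_lit 2862279134) (nat_lit 397) (nat_lit 5) (nat_lit 418) (nat_lit 5) (nat_lit 398) (nat_lit 5) (nat_lit 287) (nat_lit 262) (nat_lit 231)) (XT.lf (nat_lit 0) (nat_lit 5773546324) (nat_lit 1596) (nat_lit 1512471280) (nat_lit 1672) (nat_lit 422258893) (nat_lit 376) (nat_lit 5) (nat_lit 397) (nat_lit 5) (nat_lit 398) (nat_lit 5) (nat_lit 288) (nat_lit 262) (nat_lit 230))) (XT.nd (nat_lit 78) (nat_lit 1140) (nat_lit 0) (XT.lf (nat_lit 0) (nat_lit 2816855957) (nat_lit 1748) (nat_lit 3112842932) (nat_lit 76) (nat_lit 1869222181) (nat_lit 353) (nat_lit 5) (nat_lit 376) (nat_lit 5) (nat_lit 354) (nat_lit 5) (nat_lit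 289) (nat_lit 262) (nat_lit 229)) (XT.lf (nat_lit 0) (nat_lit 3590900651) (nat_lit 1140) (nat_lit 2515355778) (nat_lit 1216) (nat_lit 1786884540) (nat_lit 338) (nat_lit 5) (nat_lit 353) (nat_lit 5) (nat_lit 354) (nat_lit 5) (nat_lit 290) (nat_lit 262) (nat_lit 228))))))))
noncomputable def xc55 : XT := (XT.nd (nat_lit 2106) (nat_lit 6460) (nat_lit 0) (XT.nd (nat_lit 1014) (nat_lit 6460) (nat_lit 0) (XT.nd (nat_lit 468) (nat_lit 4256) (nat_lit 0) (XT.nd (nat_lit 234) (nat_lit 1748) (nat_lit 0) (XT.nd (nat_lit 78) (nat_lit 1596) (nat_lit 0) (XT.lf (nat_lit 0) (nat_lit 1442212988) (nat_lit 912) (nat_lit 5509589572) (nat_lit 76) (nat_lit 1039118323) (nat_lit 326) (nat_lit 5) (nat_lit 338) (nat_lit 5) (nat_lit 327) (nat_lit 5) (nat_lit 291) (nat_lit 262) (nat_lit 227)) (XT.nd (nat_lit 78) (nat_lit 760) (nat_lit 0) (XT.lf (nat_lit 0) (nat_lit 1341410826) (nat_lit 836) (nat_lit 3373079970) (nat_lit 912)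 (nat_lit 3377577544) (nat_lit 315) (nat_lit 5) (nat_lit 326) (nat_lit 5) (nat_lit 327) (nat_lit 5) (nat_lit 292) (nat_lit 262) (nat_lit 226)) (XT.lf (nat_lit 0) (nat_lit 194277507) (nat_lit 760) (nat_lit 7849032282) (nat_lit 836) (nat_lit 153852634) (nat_lit 305) (nat_lit 5) (nat_lit 315) (nat_lit 5) (nat_lit 316) (nat_lit 5) (nat_lit 293) (nat_lit 262) (nat_lit 225)))) (XT.nd (nat_lit 78) (nat_lit 1672) (nat_lit 0) (XT.lf (nat_lit 0) (nat_lit 3112412900) (nat_lit 836) (nat_lit 991589676) (nat_lit 76) (nat_lit 4201324205) (nat_lit 304) (nat_lit 5) (nat_lit 315) (nat_lit 5) (nat_lit 305) (nat_lit 5) (nat_lit 294) (nat_lit 262) (nat_lit 224)) (XT.nd (nat_lit 78) (nat_lit 836) (nat_lit 0) (XT.lf (nat_lit 0) (nat_lit 6229512747) (nat_lit 836) (nat_lit 206642206) (nat_lit 912) (nat_lit 1981402818) (nat_lit 293) (nat_lit 5) (nat_lit 304) (nat_lit 5) (nat_lit 305) (nat_lit 5) (nat_lit 295) (nat_lit 262)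 (nat_lit 223)) (XT.lf (nat_lit 0) (nat_lit 1296438910) (nat_lit 836) (nat_lit 3433454266) (nat_lit 76) (nat_lit 3803412701) (nat_lit 282) (nat_lit 5) (nat_lit 293) (nat_lit 5) (nat_lit 283) (nat_lit 5) (nat_lit 296) (nat_lit 262) (nat_lit 222))))) (XT.nd (nat_lit 234) (nat_lit 2052) (nat_lit 0) (XT.nd (nat_lit 78) (nat_lit 1444) (nat_lit 0) (XT.lf (nat_lit 0) (nat_lit 3939808758) (nat_lit 760) (nat_lit 671967320) (nat_lit 836) (nat_lit 4041234845) (nat_lit 272) (nat_lit 5) (nat_lit 282) (nat_lit 5) (nat_lit 283) (nat_lit 5) (nat_lit 297) (nat_lit 262) (nat_lit 221)) (XT.nd (nat_lit 78) (nat_lit 760) (nat_lit 0) (XT.lf (nat_lit 0) (nat_lit 2736958678) (nat_lit 684) (nat_lit 5279275629) (nat_lit 760) (nat_lit 760345641) (nat_lit 263) (nat_lit 5) (nat_lit 272) (nat_lit 5) (nat_lit 273) (nat_lit 5) (nat_lit 298) (nat_lit 262) (nat_lit 220)) (XT.lf (nat_lit 0) (nat_lit 1488587124) (nat_lit 684) (nat_lit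 1069138962) (nat_lit 760) (nat_lit 6346390664) (nat_lit 253) (nat_lit 5) (nat_lit 262) (nat_lit 5) (nat_lit 263) (nat_lit 5) (nat_lit 299) (nat_lit 262) (nat_lit 219)))) (XT.nd (nat_lit 156) (nat_lit 1292) (nat_lit 0) (XT.nd (nat_lit 78) (nat_lit 76) (nat_lit 0) (XT.lf (nat_lit 0) (nat_lit 185240575) (nat_lit 684) (nat_lit 5771797916) (nat_lit 760) (nat_lit 3078561110) (nat_lit 244) (nat_lit 5) (nat_lit 253) (nat_lit 5) (nat_lit 254) (nat_lit 5) (nat_lit 300) (nat_lit 262) (nat_lit 218)) (XT.lf (nat_lit 0) (nat_lit 270669041) (nat_lit 760) (nat_lit 1144780376) (nat_lit 76) (nat_lit 7755855636) (nat_lit 243) (nat_lit 5) (nat_lit 253) (nat_lit 5) (nat_lit 244) (nat_lit 5) (nat_lit 301) (nat_lit 262) (nat_lit 217))) (XT.nd (nat_lit 78) (nat_lit 608) (nat_lit 0) (XT.lf (nat_lit 0) (nat_lit 3674583385) (nat_lit 760) (nat_lit 2549792059) (nat_lit 76) (nat_lit 3086434986) (nat_lit 234) (nat_lit 5) (nat_lit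 244) (nat_lit 5) (nat_lit 235) (nat_lit 5) (nat_lit 302) (nat_lit 262) (nat_lit 216)) (XT.lf (nat_lit 0) (nat_lit 5448612045) (nat_lit 608) (nat_lit 1717538811) (nat_lit 684) (nat_lit 2288694160) (nat_lit 226) (nat_lit 5) (nat_lit 234) (nat_lit 5) (nat_lit 235) (nat_lit 5) (nat_lit 303) (nat_lit 262) (nat_lit 215)))))) (XT.nd (nat_lit 546) (nat_lit 2888) (nat_lit 0) (XT.nd (nat_lit 234) (nat_lit 1748) (nat_lit 0) (XT.nd (nat_lit 78) (nat_lit 1140) (nat_lit 0) (XT.lf (nat_lit 0) (nat_lit 1141086744) (nat_lit 684) (nat_lit 5536125791) (nat_lit 76) (nat_lit 2925949176) (nat_lit 217) (nat_lit 5) (nat_lit 226) (nat_lit 5) (nat_lit 218) (nat_lit 5) (nat_lit 304) (nat_lit 262) (nat_lit 214)) (XT.nd (nat_lit 78) (nat_lit 608) (nat_lit 0) (XT.lf (nat_lit 0) (nat_lit 2610931796) (nat_lit 532) (nat_lit 2022874257) (nat_lit 608) (nat_lit 5122047106) (nat_lit 210) (nat_lit 5) (nat_lit 217) (nat_lit 5) (nat_lit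 218) (nat_lit 5) (nat_lit 305) (nat_lit 262) (nat_lit 213)) (XT.lf (nat_lit 0) (nat_lit 1083521264) (nat_lit 608) (nat_lit 7147071362) (nat_lit 684) (nat_lit 1682596145) (nat_lit 202) (nat_lit 5) (nat_lit 210) (nat_lit 5) (nat_lit 211) (nat_lit 5) (nat_lit 306) (nat_lit 262) (nat_lit 212)))) (XT.nd (nat_lit 156) (nat_lit 1140) (nat_lit 0) (XT.nd (nat_lit 78) (nat_lit 532) (nat_lit 0) (XT.lf (nat_lit 0) (nat_lit 1835295432) (nat_lit 684) (nat_lit 521447013) (nat_lit 76) (nat_lit 7718314202) (nat_lit 201) (nat_lit 5) (nat_lit 210) (nat_lit 5) (nat_lit 202) (nat_lit 5) (nat_lit 307) (nat_lit 262) (nat_lit 211)) (XT.lf (nat_lit 0) (nat_lit 5444560368) (nat_lit 608) (nat_lit 2204016760) (nat_lit 76) (nat_lit 2592852468) (nat_lit 194) (nat_lit 5) (nat_lit 202) (nat_lit 5) (nat_lit 195) (nat_lit 5) (nat_lit 308) (nat_lit 262) (nat_lit 210))) (XT.nd (nat_lit 78) (nat_lit 608) (nat_lit 0) (XT.lf (nat_lit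 0) (nat_lit 6440632111) (nat_lit 532) (nat_lit 2723007405) (nat_lit 608) (nat_lit 1249167573) (nat_lit 187) (nat_lit 5) (nat_lit 194) (nat_lit 5) (nat_lit 195) (nat_lit 5) (nat_lit 309) (nat_lit 262) (nat_lit 209)) (XT.lf (nat_lit 0) (nat_lit 2376133666) (nat_lit 608) (nat_lit 5847537055) (nat_lit 76) (nat_lit 2365330650) (nat_lit 179) (nat_lit 5) (nat_lit 187) (nat_lit 5) (nat_lit 180) (nat_lit 5) (nat_lit 310) (nat_lit 262) (nat_lit 208))))) (XT.nd (nat_lit 234) (nat_lit 1824) (nat_lit 0) (XT.nd (nat_lit 78) (nat_lit 532) (nat_lit 0) (XT.lf (nat_lit 0) (nat_lit 2937756684) (nat_lit 532) (nat_lit 3162294383) (nat_lit 608) (nat_lit 4670169442) (nat_lit 172) (nat_lit 5) (nat_lit 179) (nat_lit 5) (nat_lit 180) (nat_lit 5) (nat_lit 311) (nat_lit 262) (nat_lit 207)) (XT.nd (nat_lit 78) (nat_lit 76) (nat_lit 0) (XT.lf (nat_lit 0) (nat_lit 1035761596) (nat_lit 456) (nat_lit 8903293047) (nat_lit 532)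 (nat_lit 1017793755) (nat_lit 166) (nat_lit 5) (nat_lit 172) (nat_lit 5) (nat_lit 173) (nat_lit 5) (nat_lit 312) (nat_lit 262) (nat_lit 206)) (XT.lf (nat_lit 0) (nat_lit 2726943016) (nat_lit 532) (nat_lit 984461000) (nat_lit 76) (nat_lit 7436976818) (nat_lit 165) (nat_lit 5) (nat_lit 172) (nat_lit 5) (nat_lit 166) (nat_lit 5) (nat_lit 313) (nat_lit 262) (nat_lit 205)))) (XT.nd (nat_lit 156) (nat_lit 912) (nat_lit 0) (XT.nd (nat_lit 78) (nat_lit 456) (nat_lit 0) (XT.lf (nat_lit 0) (nat_lit 6580570486) (nat_lit 532) (nat_lit 3107038852) (nat_lit 76) (nat_lit 1657744372) (nat_lit 159) (nat_lit 5) (nat_lit 166) (nat_lit 5) (nat_lit 160) (nat_lit 5) (nat_lit 314) (nat_lit 262) (nat_lit 204)) (XT.lf (nat_lit 0) (nat_lit 6187413101) (nat_lit 456) (nat_lit 4380931762) (nat_lit 532) (nat_lit 979555633) (nat_lit 153) (nat_lit 5) (nat_lit 159) (nat_lit 5) (nat_lit 160) (nat_lit 5) (nat_lit 315) (nat_lit 262)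 (nat_lit 203))) (XT.nd (nat_lit 78) (nat_lit 380) (nat_lit 0) (XT.lf (nat_lit 0) (nat_lit 2883063873) (nat_lit 532) (nat_lit 7754611189) (nat_lit 76) (nat_lit 1118460901) (nat_lit 146) (nat_lit 5) (nat_lit 153) (nat_lit 5) (nat_lit 147) (nat_lit 5) (nat_lit 316) (nat_lit 262) (nat_lit 202)) (XT.lf (nat_lit 0) (nat_lit 1662235247) (nat_lit 380) (nat_lit 5211235931) (nat_lit 456) (nat_lit 5096546258) (nat_lit 141) (nat_lit 5) (nat_lit 146) (nat_lit 5) (nat_lit 147) (nat_lit 5) (nat_lit 317) (nat_lit 262) (nat_lit 201))))))) (XT.nd (nat_lit 1014) (nat_lit 2584) (nat_lit 0) (XT.nd (nat_lit 468) (nat_lit 2128) (nat_lit 0) (XT.nd (nat_lit 234) (nat_lit 836) (nat_lit 0) (XT.nd (nat_lit 78) (nat_lit 912) (nat_lit 0) (XT.lf (nat_lit 0) (nat_lit 10988344274) (nat_lit 456) (nat_lit 795445843) (nat_lit 76) (nat_lit 406462002) (nat_lit 141) (nat_lit 5) (nat_lit 147) (nat_lit 5) (nat_lit 142) (nat_lit 5) (nat_lit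 318) (nat_lit 262) (nat_lit 200)) (XT.nd (nat_lit 78) (nat_lit 380) (nat_lit 0) (XT.lf (nat_lit 0) (nat_lit 2817253478) (nat_lit 532) (nat_lit 3418149954) (nat_lit 76) (nat_lit 6180465245) (nat_lit 134) (nat_lit 5) (nat_lit 141) (nat_lit 5) (nat_lit 135) (nat_lit 5) (nat_lit 319) (nat_lit 262) (nat_lit 199)) (XT.lf (nat_lit 0) (nat_lit 6455416029) (nat_lit 380) (nat_lit 484194955) (nat_lit 456) (nat_lit 5708534266) (nat_lit 129) (nat_lit 5) (nat_lit 134) (nat_lit 5) (nat_lit 135) (nat_lit 5) (nat_lit 320) (nat_lit 262) (nat_lit 198)))) (XT.nd (nat_lit 78) (nat_lit 456) (nat_lit 0) (XT.lf (nat_lit 0) (nat_lit 3730170434) (nat_lit 380) (nat_lit 7490683537) (nat_lit 456) (nat_lit 1665860417) (nat_lit 124) (nat_lit 5) (nat_lit 129) (nat_lit 5) (nat_lit 130) (nat_lit 5) (nat_lit 321) (nat_lit 262) (nat_lit 197)) (XT.nd (nat_lit 78) (nat_lit 0) (nat_lit 0) (XT.lf (nat_lit 0) (nat_lit 827161308) (nat_lit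 380) (nat_lit 1641997171) (nat_lit 456) (nat_lit 10662908368) (nat_lit 118) (nat_lit 5) (nat_lit 123) (nat_lit 5) (nat_lit 124) (nat_lit 5) (nat_lit 322) (nat_lit 262) (nat_lit 196)) (XT.lf (nat_lit 0) (nat_lit 6750414024) (nat_lit 456) (nat_lit 2255415345) (nat_lit 76) (nat_lit 4377860306) (nat_lit 118) (nat_lit 5) (nat_lit 124) (nat_lit 5) (nat_lit 119) (nat_lit 5) (nat_lit 323) (nat_lit 262) (nat_lit 195))))) (XT.nd (nat_lit 234) (nat_lit 988) (nat_lit 0) (XT.nd (nat_lit 78) (nat_lit 760) (nat_lit 0) (XT.lf (nat_lit 0) (nat_lit 8125527825) (nat_lit 380) (nat_lit 3053441940) (nat_lit 456) (nat_lit 2463539801) (nat_lit 113) (nat_lit 5) (nat_lit 118) (nat_lit 5) (nat_lit 119) (nat_lit 5) (nat_lit 324) (nat_lit 262) (nat_lit 194)) (XT.nd (nat_lit 78) (nat_lit 380) (nat_lit 0) (XT.lf (nat_lit 0) (nat_lit 1830583144) (nat_lit 380) (nat_lit 9001608139) (nat_lit 76) (nat_lit 3076223110) (nat_lit 108)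 (nat_lit 5) (nat_lit 113) (nat_lit 5) (nat_lit 109) (nat_lit 5) (nat_lit 325) (nat_lit 262) (nat_lit 193)) (XT.lf (nat_lit 0) (nat_lit 1454340393) (nat_lit 380) (nat_lit 4789842311) (nat_lit 456) (nat_lit 7937329208) (nat_lit 103) (nat_lit 5) (nat_lit 108) (nat_lit 5) (nat_lit 109) (nat_lit 5) (nat_lit 326) (nat_lit 262) (nat_lit 192)))) (XT.nd (nat_lit 156) (nat_lit 608) (nat_lit 0) (XT.nd (nat_lit 78) (nat_lit 380) (nat_lit 0) (XT.lf (nat_lit 0) (nat_lit 10818055754) (nat_lit 456) (nat_lit 2188668281) (nat_lit 76) (nat_lit 1455544005) (nat_lit 103) (nat_lit 5) (nat_lit 109) (nat_lit 5) (nat_lit 104) (nat_lit 5) (nat_lit 327) (nat_lit 262) (nat_lit 191)) (XT.lf (nat_lit 0) (nat_lit 814611065) (nat_lit 380) (nat_lit 6070701314) (nat_lit 76) (nat_lit 7865113118) (nat_lit 98) (nat_lit 5) (nat_lit 103) (nat_lit 5) (nat_lit 99) (nat_lit 5) (nat_lit 328) (nat_lit 262) (nat_lit 190))) (XT.nd (nat_lit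 78) (nat_lit 304) (nat_lit 0) (XT.lf (nat_lit 0) (nat_lit 4833899225) (nat_lit 304) (nat_lit 529308205) (nat_lit 380) (nat_lit 9683449354) (nat_lit 94) (nat_lit 5) (nat_lit 98) (nat_lit 5) (nat_lit 99) (nat_lit 5) (nat_lit 329) (nat_lit 262) (nat_lit 189)) (XT.lf (nat_lit 0) (nat_lit 705791105) (nat_lit 304) (nat_lit 9387116738) (nat_lit 380) (nat_lit 5257994872) (nat_lit 90) (nat_lit 5) (nat_lit 94) (nat_lit 5) (nat_lit 95) (nat_lit 5) (nat_lit 330) (nat_lit 262) (nat_lit 188)))))) (XT.nd (nat_lit 546) (nat_lit 1368) (nat_lit 0) (XT.nd (nat_lit 234) (nat_lit 608) (nat_lit 0) (XT.nd (nat_lit 78) (nat_lit 608) (nat_lit 0) (XT.lf (nat_lit 0) (nat_lit 12027201194) (nat_lit 304) (nat_lit 2970386556) (nat_lit 380) (nat_lit 666046532) (nat_lit 90) (nat_lit 5) (nat_lit 94) (nat_lit 5) (nat_lit 95) (nat_lit 5) (nat_lit 331) (nat_lit 262) (nat_lit 187)) (XT.nd (nat_lit 78) (nat_lit 228) (nat_lit 0) (XT.lf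 (nat_lit 0) (nat_lit 4045717040) (nat_lit 380) (nat_lit 8291330455) (nat_lit 76) (nat_lit 3647484637) (nat_lit 85) (nat_lit 5) (nat_lit 90) (nat_lit 5) (nat_lit 86) (nat_lit 5) (nat_lit 332) (nat_lit 262) (nat_lit 186)) (XT.lf (nat_lit 0) (nat_lit 3054173219) (nat_lit 228) (nat_lit 5862022560) (nat_lit 304) (nat_lit 7398263370) (nat_lit 82) (nat_lit 5) (nat_lit 85) (nat_lit 5) (nat_lit 86) (nat_lit 5) (nat_lit 333) (nat_lit 262) (nat_lit 185)))) (XT.nd (nat_lit 156) (nat_lit 228) (nat_lit 0) (XT.nd (nat_lit 78) (nat_lit 380) (nat_lit 0) (XT.lf (nat_lit 0) (nat_lit 13957043375) (nat_lit 304) (nat_lit 1864244476) (nat_lit 76) (nat_lit 832529005) (nat_lit 82) (nat_lit 5) (nat_lit 86) (nat_lit 5) (nat_lit 83) (nat_lit 5) (nat_lit 334) (nat_lit 262) (nat_lit 184)) (XT.lf (nat_lit 0) (nat_lit 2185121620) (nat_lit 380) (nat_lit 7109284365) (nat_lit 76) (nat_lit 7707337729) (nat_lit 77) (nat_lit 5) (nat_lit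 82) (nat_lit 5) (nat_lit 78) (nat_lit 5) (nat_lit 335) (nat_lit 262) (nat_lit 183))) (XT.nd (nat_lit 78) (nat_lit 0) (nat_lit 0) (XT.lf (nat_lit 0) (nat_lit 4653588084) (nat_lit 228) (nat_lit 2530378564) (nat_lit 304) (nat_lit 10175659186) (nat_lit 74) (nat_lit 5) (nat_lit 77) (nat_lit 5) (nat_lit 78) (nat_lit 5) (nat_lit 336) (nat_lit 262) (nat_lit 182)) (XT.lf (nat_lit 0) (nat_lit 12374620054) (nat_lit 304) (nat_lit 946264809) (nat_lit 76) (nat_lit 4406538818) (nat_lit 74) (nat_lit 5) (nat_lit 78) (nat_lit 5) (nat_lit 75) (nat_lit 5) (nat_lit 337) (nat_lit 262) (nat_lit 181))))) (XT.nd (nat_lit 234) (nat_lit 760) (nat_lit 0) (XT.nd (nat_lit 78) (nat_lit 304) (nat_lit 0) (XT.lf (nat_lit 0) (nat_lit 11241946496) (nat_lit 304) (nat_lit 6534535276) (nat_lit 380) (nat_lit 328679568) (nat_lit 70) (nat_lit 5) (nat_lit 74) (nat_lit 5) (nat_lit 75) (nat_lit 5) (nat_lit 338) (nat_lit 262) (nat_lit 180))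 (XT.nd (nat_lit 78) (nat_lit 0) (nat_lit 0) (XT.lf (nat_lit 0) (nat_lit 4792757084) (nat_lit 304) (nat_lit 13198599187) (nat_lit 76) (nat_lit 502057521) (nat_lit 66) (nat_lit 5) (nat_lit 70) (nat_lit 5) (nat_lit 67) (nat_lit 5) (nat_lit 339) (nat_lit 262) (nat_lit 179)) (XT.lf (nat_lit 0) (nat_lit 10120413356) (nat_lit 304) (nat_lit 1081176417) (nat_lit 76) (nat_lit 7690554218) (nat_lit 66) (nat_lit 5) (nat_lit 70) (nat_lit 5) (nat_lit 67) (nat_lit 5) (nat_lit 340) (nat_lit 262) (nat_lit 178)))) (XT.nd (nat_lit 156) (nat_lit 228) (nat_lit 0) (XT.nd (nat_lit 78) (nat_lit 304) (nat_lit 0) (XT.lf (nat_lit 0) (nat_lit 11498026851) (nat_lit 228) (nat_lit 4152002846) (nat_lit 304) (nat_lit 3651977834) (nat_lit 63) (nat_lit 5) (nat_lit 66) (nat_lit 5) (nat_lit 67) (nat_lit 5) (nat_lit 341) (nat_lit 262) (nat_lit 177)) (XT.lf (nat_lit 0) (nat_lit 1626528406) (nat_lit 304) (nat_lit 14999316761) (nat_lit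 76) (nat_lit 3097596130) (nat_lit 59) (nat_lit 5) (nat_lit 63) (nat_lit 5) (nat_lit 60) (nat_lit 5) (nat_lit 342) (nat_lit 262) (nat_lit 176))) (XT.nd (nat_lit 78) (nat_lit 228) (nat_lit 0) (XT.lf (nat_lit 0) (nat_lit 7063394559) (nat_lit 304) (nat_lit 2525902848) (nat_lit 76) (nat_lit 10566758439) (nat_lit 59) (nat_lit 5) (nat_lit 63) (nat_lit 5) (nat_lit 60) (nat_lit 5) (nat_lit 343) (nat_lit 262) (nat_lit 175)) (XT.lf (nat_lit 0) (nat_lit 10407925436) (nat_lit 228) (nat_lit 2292277803) (nat_lit 304) (nat_lit 7900721462) (nat_lit 56) (nat_lit 5) (nat_lit 59) (nat_lit 5) (nat_lit 60) (nat_lit 5) (nat_lit 344) (nat_lit 262) (nat_lit 174))))))))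
noncomputable def xc56 : XT := (XT.nd (nat_lit 34944) (nat_lit 0) (nat_lit 18544) (XT.nd (nat_lit 1014) (nat_lit 532) (nat_lit 0) (XT.nd (nat_lit 468) (nat_lit 608) (nat_lit 0) (XT.nd (nat_lit 234) (nat_lit 456) (nat_lit 0) (XT.nd (nat_lit 78) (nat_lit 304) (nat_lit 0) (XT.lf (nat_lit 0) (nat_lit 2656392404) (nat_lit 228) (nat_lit 15887826019) (nat_lit 304) (nat_lit 2514171384) (nat_lit 53) (nat_lit 5) (nat_lit 56) (nat_lit 5) (nat_lit 57) (nat_lit 5) (nat_lit 345) (nat_lit 262) (nat_lit 173)) (XT.nd (nat_lit 78) (nat_lit 228) (nat_lit 0) (XT.lf (nat_lit 0) (nat_lit 3049106552) (nat_lit 304) (nat_lit 5582456703) (nat_lit 76) (nat_lit 12896534835) (nat_lit 52) (nat_lit 5) (nat_lit 56) (nat_lit 5) (nat_lit 53) (nat_lit 5) (nat_lit 346) (nat_lit 262) (nat_lit 172)) (XT.lf (nat_lit 0) (nat_lit 7657162504) (nat_lit 228) (nat_lit 1108809186) (nat_lit 304) (nat_lit 13245187931) (nat_lit 49) (nat_lit 5)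 (nat_lit 52) (nat_lit 5) (nat_lit 53) (nat_lit 5) (nat_lit 347) (nat_lit 262) (nat_lit 171)))) (XT.nd (nat_lit 78) (nat_lit 456) (nat_lit 0) (XT.lf (nat_lit 0) (nat_lit 14706884166) (nat_lit 304) (nat_lit 1228730001) (nat_lit 76) (nat_lit 6572058976) (nat_lit 49) (nat_lit 5) (nat_lit 53) (nat_lit 5) (nat_lit 50) (nat_lit 5) (nat_lit 348) (nat_lit 262) (nat_lit 170)) (XT.nd (nat_lit 78) (nat_lit 304) (nat_lit 0) (XT.lf (nat_lit 0) (nat_lit 12399090480) (nat_lit 152) (nat_lit 8487039626) (nat_lit 228) (nat_lit 2131760499) (nat_lit 47) (nat_lit 5) (nat_lit 49) (nat_lit 5) (nat_lit 50) (nat_lit 5) (nat_lit 349) (nat_lit 262) (nat_lit 169)) (XT.lf (nat_lit 0) (nat_lit 2876893458) (nat_lit 228) (nat_lit 781393594) (nat_lit 304) (nat_lit 19884664858) (nat_lit 43) (nat_lit 5) (nat_lit 46) (nat_lit 5) (nat_lit 47) (nat_lit 5) (nat_lit 350) (nat_lit 262) (nat_lit 168))))) (XT.nd (nat_lit 234) (nat_lit 456)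 (nat_lit 0) (XT.nd (nat_lit 78) (nat_lit 152) (nat_lit 0) (XT.lf (nat_lit 0) (nat_lit 9685027865) (nat_lit 304) (nat_lit 7266418940) (nat_lit 76) (nat_lit 7130207196) (nat_lit 43) (nat_lit 5) (nat_lit 47) (nat_lit 5) (nat_lit 44) (nat_lit 5) (nat_lit 351) (nat_lit 262) (nat_lit 167)) (XT.nd (nat_lit 78) (nat_lit 0) (nat_lit 0) (XT.lf (nat_lit 0) (nat_lit 6571793545) (nat_lit 152) (nat_lit 9342359081) (nat_lit 228) (nat_lit 8721942454) (nat_lit 41) (nat_lit 5) (nat_lit 43) (nat_lit 5) (nat_lit 44) (nat_lit 5) (nat_lit 352) (nat_lit 262) (nat_lit 166)) (XT.lf (nat_lit 0) (nat_lit 20880955380) (nat_lit 152) (nat_lit 1472605954) (nat_lit 228) (nat_lit 2853149134) (nat_lit 41) (nat_lit 5) (nat_lit 43) (nat_lit 5) (nat_lit 44) (nat_lit 5) (nat_lit 353) (nat_lit 262) (nat_lit 165)))) (XT.nd (nat_lit 156) (nat_lit 152) (nat_lit 0) (XT.nd (nat_lit 78) (nat_lit 0) (nat_lit 0) (XT.lf (nat_lit 0) (nat_lit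 3232332927) (nat_lit 304) (nat_lit 15945559268) (nat_lit 76) (nat_lit 6614496809) (nat_lit 37) (nat_lit 5) (nat_lit 41) (nat_lit 5) (nat_lit 38) (nat_lit 5) (nat_lit 354) (nat_lit 262) (nat_lit 164)) (XT.lf (nat_lit 0) (nat_lit 9476290613) (nat_lit 304) (nat_lit 1962802997) (nat_lit 76) (nat_lit 14955882190) (nat_lit 37) (nat_lit 5) (nat_lit 41) (nat_lit 5) (nat_lit 38) (nat_lit 5) (nat_lit 355) (nat_lit 262) (nat_lit 163))) (XT.nd (nat_lit 78) (nat_lit 0) (nat_lit 0) (XT.lf (nat_lit 0) (nat_lit 12563005221) (nat_lit 152) (nat_lit 3401952994) (nat_lit 228) (nat_lit 11049542490) (nat_lit 35) (nat_lit 5) (nat_lit 37) (nat_lit 5) (nat_lit 38) (nat_lit 5) (nat_lit 356) (nat_lit 262) (nat_lit 162)) (XT.lf (nat_lit 0) (nat_lit 22669490501) (nat_lit 228) (nat_lit 173540968) (nat_lit 76) (nat_lit 4809163878) (nat_lit 35) (nat_lit 5) (nat_lit 38) (nat_lit 5) (nat_lit 36) (nat_lit 5) (nat_lit 357) (nat_lit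 262) (nat_lit 161)))))) (XT.nd (nat_lit 33384) (nat_lit 0) (nat_lit 41724) (XT.nd (nat_lit 234) (nat_lit 152) (nat_lit 0) (XT.nd (nat_lit 78) (nat_lit 152) (nat_lit 0) (XT.lf (nat_lit 0) (nat_lit 1344952319) (nat_lit 228) (nat_lit 13653387557) (nat_lit 76) (nat_lit 13308615837) (nat_lit 32) (nat_lit 5) (nat_lit 35) (nat_lit 5) (nat_lit 33) (nat_lit 5) (nat_lit 358) (nat_lit 262) (nat_lit 160)) (XT.nd (nat_lit 78) (nat_lit 0) (nat_lit 0) (XT.lf (nat_lit 0) (nat_lit 885435707) (nat_lit 152) (nat_lit 6893739420) (nat_lit 228) (nat_lit 21201843893) (nat_lit 30) (nat_lit 5) (nat_lit 32) (nat_lit 5) (nat_lit 33) (nat_lit 5) (nat_lit 359) (nat_lit 262) (nat_lit 159)) (XT.lf (nat_lit 0) (nat_lit 14486419677) (nat_lit 228) (nat_lit 13675283927) (nat_lit 76) (nat_lit 1512007974) (nat_lit 30) (nat_lit 5) (nat_lit 33) (nat_lit 5) (nat_lit 31) (nat_lit 5) (nat_lit 360) (nat_lit 262) (nat_lit 158)))) (XT.nd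 (nat_lit 32994) (nat_lit 0) (nat_lit 43928) (XT.lf (nat_lit 0) (nat_lit 1108104041) (nat_lit 152) (nat_lit 20318153512) (nat_lit 228) (nat_lit 8960306884) (nat_lit 28) (nat_lit 5) (nat_lit 30) (nat_lit 5) (nat_lit 31) (nat_lit 5) (nat_lit 361) (nat_lit 262) (nat_lit 157)) (XT.nd (nat_lit 78) (nat_lit 380) (nat_lit 0) (XT.lf (nat_lit 0) (nat_lit 2760805111) (nat_lit 380) (nat_lit 240108735) (nat_lit 380) (nat_lit 240108735) (nat_lit 611) (nat_lit 3) (nat_lit 616) (nat_lit 3) (nat_lit 616) (nat_lit 5) (nat_lit 263) (nat_lit 263) (nat_lit 254)) (XT.lf (nat_lit 0) (nat_lit 2886830105) (nat_lit 380) (nat_lit 2486968479) (nat_lit 456) (nat_lit 1122760784) (nat_lit 606) (nat_lit 5) (nat_lit 611) (nat_lit 3) (nat_lit 612) (nat_lit 5) (nat_lit 264) (nat_lit 263) (nat_lit 253))))) (XT.nd (nat_lit 234) (nat_lit 1216) (nat_lit 0) (XT.nd (nat_lit 78) (nat_lit 532) (nat_lit 0) (XT.lf (nat_lit 0) (nat_lit 186826122)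 (nat_lit 456) (nat_lit 4444361688) (nat_lit 532) (nat_lit 1883056286) (nat_lit 600) (nat_lit 5) (nat_lit 606) (nat_lit 5) (nat_lit 607) (nat_lit 5) (nat_lit 265) (nat_lit 263) (nat_lit 252)) (XT.nd (nat_lit 78) (nat_lit 532) (nat_lit 0) (XT.lf (nat_lit 76) (nat_lit 163553333) (nat_lit 0) (nat_lit 3755975451) (nat_lit 532) (nat_lit 2615245403) (nat_lit 601) (nat_lit 5) (nat_lit 600) (nat_lit 5) (nat_lit 607) (nat_lit 5) (nat_lit 266) (nat_lit 263) (nat_lit 251)) (XT.lf (nat_lit 0) (nat_lit 1078363854) (nat_lit 532) (nat_lit 1673353502) (nat_lit 608) (nat_lit 3806534945) (nat_lit 593) (nat_lit 5) (nat_lit 600) (nat_lit 5) (nat_lit 601) (nat_lit 5) (nat_lit 267) (nat_lit 263) (nat_lit 250)))) (XT.nd (nat_lit 156) (nat_lit 608) (nat_lit 0) (XT.nd (nat_lit 78) (nat_lit 608) (nat_lit 0) (XT.lf (nat_lit 76) (nat_lit 3110569748) (nat_lit 0) (nat_lit 1616887512) (nat_lit 608) (nat_lit 1857228972) (nat_lit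 594) (nat_lit 5) (nat_lit 593) (nat_lit 5) (nat_lit 601) (nat_lit 5) (nat_lit 268) (nat_lit 263) (nat_lit 249)) (XT.lf (nat_lit 76) (nat_lit 1376094387) (nat_lit 0) (nat_lit 356080014) (nat_lit 684) (nat_lit 4882034206) (nat_lit 586) (nat_lit 5) (nat_lit 585) (nat_lit 5) (nat_lit 594) (nat_lit 5) (nat_lit 269) (nat_lit 263) (nat_lit 248))) (XT.nd (nat_lit 78) (nat_lit 684) (nat_lit 0) (XT.lf (nat_lit 0) (nat_lit 5300156878) (nat_lit 608) (nat_lit 324371800) (nat_lit 684) (nat_lit 1022105927) (nat_lit 586) (nat_lit 5) (nat_lit 594) (nat_lit 5) (nat_lit 595) (nat_lit 5) (nat_lit 270) (nat_lit 263) (nat_lit 247)) (XT.lf (nat_lit 0) (nat_lit 2167302338) (nat_lit 684) (nat_lit 1978675395) (nat_lit 760) (nat_lit 2535889564) (nat_lit 577) (nat_lit 5) (nat_lit 586) (nat_lit 5) (nat_lit 587) (nat_lit 5) (nat_lit 271) (nat_lit 263) (nat_lit 246))))))) (XT.nd (nat_lit 1014) (nat_lit 12540) (nat_lit 0) (XT.nd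 (nat_lit 468) (nat_lit 7296) (nat_lit 0) (XT.nd (nat_lit 234) (nat_lit 1900) (nat_lit 0) (XT.nd (nat_lit 78) (nat_lit 1444) (nat_lit 0) (XT.lf (nat_lit 76) (nat_lit 3120684613) (nat_lit 0) (nat_lit 2542433606) (nat_lit 760) (nat_lit 1057134379) (nat_lit 578) (nat_lit 5) (nat_lit 577) (nat_lit 5) (nat_lit 587) (nat_lit 5) (nat_lit 272) (nat_lit 263) (nat_lit 245)) (XT.nd (nat_lit 78) (nat_lit 684) (nat_lit 0) (XT.lf (nat_lit 76) (nat_lit 1565087341) (nat_lit 0) (nat_lit 804310910) (nat_lit 836) (nat_lit 4392265323) (nat_lit 568) (nat_lit 5) (nat_lit 567) (nat_lit 5) (nat_lit 578) (nat_lit 5) (nat_lit 273) (nat_lit 263) (nat_lit 244)) (XT.lf (nat_lit 0) (nat_lit 35682000) (nat_lit 760) (nat_lit 5757941867) (nat_lit 836) (nat_lit 1012526973) (nat_lit 558) (nat_lit 5) (nat_lit 568) (nat_lit 5) (nat_lit 569) (nat_lit 5) (nat_lit 274) (nat_lit 263) (nat_lit 243)))) (XT.nd (nat_lit 78) (nat_lit 1824)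 (nat_lit 0) (XT.lf (nat_lit 0) (nat_lit 2357138283) (nat_lit 836) (nat_lit 1458573097) (nat_lit 76) (nat_lit 3037673816) (nat_lit 557) (nat_lit 5) (nat_lit 568) (nat_lit 5) (nat_lit 558) (nat_lit 5) (nat_lit 275) (nat_lit 263) (nat_lit 242)) (XT.nd (nat_lit 78) (nat_lit 988) (nat_lit 0) (XT.lf (nat_lit 0) (nat_lit 3978765886) (nat_lit 836) (nat_lit 1744860509) (nat_lit 912) (nat_lit 1180233390) (nat_lit 546) (nat_lit 5) (nat_lit 557) (nat_lit 5) (nat_lit 558) (nat_lit 5) (nat_lit 276) (nat_lit 263) (nat_lit 241)) (XT.lf (nat_lit 0) (nat_lit 2121253476) (nat_lit 988) (nat_lit 4377329592) (nat_lit 76) (nat_lit 458808881) (nat_lit 533) (nat_lit 5) (nat_lit 546) (nat_lit 5) (nat_lit 534) (nat_lit 5) (nat_lit 277) (nat_lit 263) (nat_lit 240))))) (XT.nd (nat_lit 234) (nat_lit 5168) (nat_lit 0) (XT.nd (nat_lit 78) (nat_lit 1140) (nat_lit 0) (XT.lf (nat_lit 0) (nat_lit 1193247211) (nat_lit 988) (nat_lit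 4240572087) (nat_lit 1064) (nat_lit 1580129069) (nat_lit 520) (nat_lit 5) (nat_lit 533) (nat_lit 5) (nat_lit 534) (nat_lit 5) (nat_lit 278) (nat_lit 263) (nat_lit 239)) (XT.nd (nat_lit 78) (nat_lit 1064) (nat_lit 0) (XT.lf (nat_lit 0) (nat_lit 1670645163) (nat_lit 1064) (nat_lit 173720076) (nat_lit 76) (nat_lit 5229328198) (nat_lit 519) (nat_lit 5) (nat_lit 533) (nat_lit 5) (nat_lit 520) (nat_lit 5) (nat_lit 279) (nat_lit 263) (nat_lit 238)) (XT.lf (nat_lit 0) (nat_lit 4932347427) (nat_lit 1140) (nat_lit 1514070127) (nat_lit 76) (nat_lit 690032361) (nat_lit 505) (nat_lit 5) (nat_lit 520) (nat_lit 5) (nat_lit 506) (nat_lit 5) (nat_lit 280) (nat_lit 263) (nat_lit 237)))) (XT.nd (nat_lit 156) (nat_lit 2736) (nat_lit 0) (XT.nd (nat_lit 78) (nat_lit 1216) (nat_lit 0) (XT.lf (nat_lit 0) (nat_lit 1014232576) (nat_lit 1216) (nat_lit 2850600830) (nat_lit 76) (nat_lit 3337478854) (nat_lit 489) (nat_lit 5)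 (nat_lit 505) (nat_lit 5) (nat_lit 490) (nat_lit 5) (nat_lit 281) (nat_lit 263) (nat_lit 236)) (XT.lf (nat_lit 0) (nat_lit 3089811507) (nat_lit 1216) (nat_lit 1138078941) (nat_lit 1292) (nat_lit 3043510175) (nat_lit 473) (nat_lit 5) (nat_lit 489) (nat_lit 5) (nat_lit 490) (nat_lit 5) (nat_lit 282) (nat_lit 263) (nat_lit 235))) (XT.nd (nat_lit 78) (nat_lit 1368) (nat_lit 0) (XT.lf (nat_lit 0) (nat_lit 135310425) (nat_lit 1368) (nat_lit 5507385063) (nat_lit 76) (nat_lit 1701101544) (nat_lit 455) (nat_lit 5) (nat_lit 473) (nat_lit 5) (nat_lit 456) (nat_lit 5) (nat_lit 283) (nat_lit 263) (nat_lit 234)) (XT.lf (nat_lit 0) (nat_lit 572577908) (nat_lit 1368) (nat_lit 2738025437) (nat_lit 1444) (nat_lit 4108617585) (nat_lit 437) (nat_lit 5) (nat_lit 455) (nat_lit 5) (nat_lit 456) (nat_lit 5) (nat_lit 284) (nat_lit 263) (nat_lit 233)))))) (XT.nd (nat_lit 546) (nat_lit 4940) (nat_lit 0) (XT.nd (nat_lit 234)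 (nat_lit 4560) (nat_lit 0) (XT.nd (nat_lit 78) (nat_lit 3040) (nat_lit 0) (XT.lf (nat_lit 0) (nat_lit 6525164718) (nat_lit 1444) (nat_lit 669696257) (nat_lit 76) (nat_lit 303270348) (nat_lit 437) (nat_lit 5) (nat_lit 456) (nat_lit 5) (nat_lit 438) (nat_lit 5) (nat_lit 285) (nat_lit 263) (nat_lit 232)) (XT.nd (nat_lit 78) (nat_lit 1520) (nat_lit 0) (XT.lf (nat_lit 0) (nat_lit 2189494817) (nat_lit 1520) (nat_lit 1925640682) (nat_lit 76) (nat_lit 3464832674) (nat_lit 417) (nat_lit 5) (nat_lit 437) (nat_lit 5) (nat_lit 418) (nat_lit 5) (nat_lit 286) (nat_lit 263) (nat_lit 231)) (XT.lf (nat_lit 0) (nat_lit 4485772316) (nat_lit 1520) (nat_lit 890664521) (nat_lit 1596) (nat_lit 2288934234) (nat_lit 397) (nat_lit 5) (nat_lit 417) (nat_lit 5) (nat_lit 418) (nat_lit 5) (nat_lit 287) (nat_lit 263) (nat_lit 230)))) (XT.nd (nat_lit 156) (nat_lit 1216) (nat_lit 0) (XT.nd (nat_lit 78) (nat_lit 1672) (nat_lit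 0) (XT.lf (nat_lit 0) (nat_lit 855100818) (nat_lit 1672) (nat_lit 4449703133) (nat_lit 76) (nat_lit 2449279407) (nat_lit 375) (nat_lit 5) (nat_lit 397) (nat_lit 5) (nat_lit 376) (nat_lit 5) (nat_lit 288) (nat_lit 263) (nat_lit 229)) (XT.lf (nat_lit 0) (nat_lit 2107422564) (nat_lit 1672) (nat_lit 1909116444) (nat_lit 1748) (nat_lit 3829620605) (nat_lit 353) (nat_lit 5) (nat_lit 375) (nat_lit 5) (nat_lit 376) (nat_lit 5) (nat_lit 289) (nat_lit 263) (nat_lit 228))) (XT.nd (nat_lit 78) (nat_lit 76) (nat_lit 0) (XT.lf (nat_lit 0) (nat_lit 902378430) (nat_lit 1140) (nat_lit 6331713898) (nat_lit 1216) (nat_lit 707766591) (nat_lit 338) (nat_lit 5) (nat_lit 353) (nat_lit 5) (nat_lit 354) (nat_lit 5) (nat_lit 290) (nat_lit 263) (nat_lit 227)) (XT.lf (nat_lit 0) (nat_lit 2442846674) (nat_lit 1216) (nat_lit 328284332) (nat_lit 76) (nat_lit 5269694749) (nat_lit 337) (nat_lit 5) (nat_lit 353) (nat_lit 5) (nat_lit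 338) (nat_lit 5) (nat_lit 291) (nat_lit 263) (nat_lit 226))))) (XT.nd (nat_lit 234) (nat_lit 2432) (nat_lit 0) (XT.nd (nat_lit 78) (nat_lit 1672) (nat_lit 0) (XT.lf (nat_lit 0) (nat_lit 5645868696) (nat_lit 912) (nat_lit 1562021146) (nat_lit 76) (nat_lit 935507727) (nat_lit 326) (nat_lit 5) (nat_lit 338) (nat_lit 5) (nat_lit 327) (nat_lit 5) (nat_lit 292) (nat_lit 263) (nat_lit 225)) (XT.nd (nat_lit 78) (nat_lit 760) (nat_lit 0) (XT.lf (nat_lit 0) (nat_lit 663002320) (nat_lit 912) (nat_lit 2826174134) (nat_lit 76) (nat_lit 4760331644) (nat_lit 314) (nat_lit 5) (nat_lit 326) (nat_lit 5) (nat_lit 315) (nat_lit 5) (nat_lit 293) (nat_lit 263) (nat_lit 224)) (XT.lf (nat_lit 0) (nat_lit 3847022850) (nat_lit 836) (nat_lit 4120540913) (nat_lit 76) (nat_lit 391729523) (nat_lit 304) (nat_lit 5) (nat_lit 315) (nat_lit 5) (nat_lit 305) (nat_lit 5) (nat_lit 294) (nat_lit 263) (nat_lit 223)))) (XT.nd (nat_lit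 156) (nat_lit 760) (nat_lit 0) (XT.nd (nat_lit 78) (nat_lit 836) (nat_lit 0) (XT.lf (nat_lit 0) (nat_lit 3019626422) (nat_lit 836) (nat_lit 4092572753) (nat_lit 912) (nat_lit 1360531623) (nat_lit 293) (nat_lit 5) (nat_lit 304) (nat_lit 5) (nat_lit 305) (nat_lit 5) (nat_lit 295) (nat_lit 263) (nat_lit 222)) (XT.lf (nat_lit 0) (nat_lit 1773590791) (nat_lit 760) (nat_lit 51639794) (nat_lit 836) (nat_lit 6764879945) (nat_lit 282) (nat_lit 5) (nat_lit 292) (nat_lit 5) (nat_lit 293) (nat_lit 5) (nat_lit 296) (nat_lit 263) (nat_lit 221))) (XT.nd (nat_lit 78) (nat_lit 0) (nat_lit 0) (XT.lf (nat_lit 0) (nat_lit 472754646) (nat_lit 760) (nat_lit 4608638270) (nat_lit 836) (nat_lit 3629638691) (nat_lit 272) (nat_lit 5) (nat_lit 282) (nat_lit 5) (nat_lit 283) (nat_lit 5) (nat_lit 297) (nat_lit 263) (nat_lit 220)) (XT.lf (nat_lit 0) (nat_lit 7996071181) (nat_lit 760) (nat_lit 413598965) (nat_lit 836) (nat_lit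 426485696) (nat_lit 272) (nat_lit 5) (nat_lit 282) (nat_lit 5) (nat_lit 283) (nat_lit 5) (nat_lit 298) (nat_lit 263) (nat_lit 219))))))))
noncomputable def xc57 : XT := (XT.nd (nat_lit 2028) (nat_lit 5320) (nat_lit 0) (XT.nd (nat_lit 1014) (nat_lit 5016) (nat_lit 0) (XT.nd (nat_lit 468) (nat_lit 3496) (nat_lit 0) (XT.nd (nat_lit 234) (nat_lit 1368) (nat_lit 0) (XT.nd (nat_lit 78) (nat_lit 1444) (nat_lit 0) (XT.lf (nat_lit 0) (nat_lit 2834282822) (nat_lit 760) (nat_lit 2217086131) (nat_lit 76) (nat_lit 3913368896) (nat_lit 262) (nat_lit 5) (nat_lit 272) (nat_lit 5) (nat_lit 263) (nat_lit 5) (nat_lit 299) (nat_lit 263) (nat_lit 218)) (XT.nd (nat_lit 78) (nat_lit 760) (nat_lit 0) (XT.lf (nat_lit 0) (nat_lit 5467010580) (nat_lit 684) (nat_lit 695092373) (nat_lit 760) (nat_lit 2935576784) (nat_lit 253) (nat_lit 5) (nat_lit 262) (nat_lit 5) (nat_lit 263) (nat_lit 5) (nat_lit 300) (nat_lit 263) (nat_lit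 217)) (XT.lf (nat_lit 0) (nat_lit 349456138) (nat_lit 760) (nat_lit 5106469868) (nat_lit 76) (nat_lit 3778714841) (nat_lit 243) (nat_lit 5) (nat_lit 253) (nat_lit 5) (nat_lit 244) (nat_lit 5) (nat_lit 301) (nat_lit 263) (nat_lit 216)))) (XT.nd (nat_lit 78) (nat_lit 684) (nat_lit 0) (XT.lf (nat_lit 0) (nat_lit 2729304764) (nat_lit 684) (nat_lit 944667837) (nat_lit 760) (nat_lit 5701788558) (nat_lit 234) (nat_lit 5) (nat_lit 243) (nat_lit 5) (nat_lit 244) (nat_lit 5) (nat_lit 302) (nat_lit 263) (nat_lit 215)) (XT.nd (nat_lit 78) (nat_lit 76) (nat_lit 0) (XT.lf (nat_lit 0) (nat_lit 1265606997) (nat_lit 608) (nat_lit 5834542295) (nat_lit 684) (nat_lit 2420980459) (nat_lit 226) (nat_lit 5) (nat_lit 234) (nat_lit 5) (nat_lit 235) (nat_lit 5) (nat_lit 303) (nat_lit 263) (nat_lit 214)) (XT.lf (nat_lit 0) (nat_lit 933115428) (nat_lit 684) (nat_lit 252806129) (nat_lit 76) (nat_lit 8485115394) (nat_lit 225)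 (nat_lit 5) (nat_lit 234) (nat_lit 5) (nat_lit 226) (nat_lit 5) (nat_lit 304) (nat_lit 263) (nat_lit 213))))) (XT.nd (nat_lit 234) (nat_lit 1672) (nat_lit 0) (XT.nd (nat_lit 78) (nat_lit 1216) (nat_lit 0) (XT.lf (nat_lit 0) (nat_lit 4368515953) (nat_lit 684) (nat_lit 1844156376) (nat_lit 76) (nat_lit 3612226651) (nat_lit 217) (nat_lit 5) (nat_lit 226) (nat_lit 5) (nat_lit 218) (nat_lit 5) (nat_lit 305) (nat_lit 263) (nat_lit 212)) (XT.nd (nat_lit 78) (nat_lit 684) (nat_lit 0) (XT.lf (nat_lit 0) (nat_lit 6484720610) (nat_lit 532) (nat_lit 1412933155) (nat_lit 608) (nat_lit 2085957300) (nat_lit 210) (nat_lit 5) (nat_lit 217) (nat_lit 5) (nat_lit 218) (nat_lit 5) (nat_lit 306) (nat_lit 263) (nat_lit 211)) (XT.lf (nat_lit 0) (nat_lit 1374933836) (nat_lit 684) (nat_lit 5246534148) (nat_lit 76) (nat_lit 3525331514) (nat_lit 201) (nat_lit 5) (nat_lit 210) (nat_lit 5) (nat_lit 202) (nat_lit 5) (nat_lit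 307) (nat_lit 263) (nat_lit 210)))) (XT.nd (nat_lit 156) (nat_lit 608) (nat_lit 0) (XT.nd (nat_lit 78) (nat_lit 532) (nat_lit 0) (XT.lf (nat_lit 0) (nat_lit 3230295991) (nat_lit 532) (nat_lit 1676447342) (nat_lit 608) (nat_lit 5407999936) (nat_lit 194) (nat_lit 5) (nat_lit 201) (nat_lit 5) (nat_lit 202) (nat_lit 5) (nat_lit 308) (nat_lit 263) (nat_lit 209)) (XT.lf (nat_lit 0) (nat_lit 1469780373) (nat_lit 532) (nat_lit 7084379888) (nat_lit 608) (nat_lit 1933414828) (nat_lit 187) (nat_lit 5) (nat_lit 194) (nat_lit 5) (nat_lit 195) (nat_lit 5) (nat_lit 309) (nat_lit 263) (nat_lit 208))) (XT.nd (nat_lit 78) (nat_lit 532) (nat_lit 0) (XT.lf (nat_lit 0) (nat_lit 1626302263) (nat_lit 608) (nat_lit 382153504) (nat_lit 76) (nat_lit 8656913686) (nat_lit 186) (nat_lit 5) (nat_lit 194) (nat_lit 5) (nat_lit 187) (nat_lit 5) (nat_lit 310) (nat_lit 263) (nat_lit 207)) (XT.lf (nat_lit 0) (nat_lit 5288004274)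 (nat_lit 608) (nat_lit 2328686770) (nat_lit 76) (nat_lit 3231161338) (nat_lit 179) (nat_lit 5) (nat_lit 187) (nat_lit 5) (nat_lit 180) (nat_lit 5) (nat_lit 311) (nat_lit 263) (nat_lit 206)))))) (XT.nd (nat_lit 468) (nat_lit 2508) (nat_lit 0) (XT.nd (nat_lit 234) (nat_lit 988) (nat_lit 0) (XT.nd (nat_lit 78) (nat_lit 988) (nat_lit 0) (XT.lf (nat_lit 0) (nat_lit 6660230536) (nat_lit 532) (nat_lit 2404269683) (nat_lit 608) (nat_lit 1971249121) (nat_lit 172) (nat_lit 5) (nat_lit 179) (nat_lit 5) (nat_lit 180) (nat_lit 5) (nat_lit 312) (nat_lit 263) (nat_lit 205)) (XT.nd (nat_lit 78) (nat_lit 456) (nat_lit 0) (XT.lf (nat_lit 0) (nat_lit 1714720874) (nat_lit 532) (nat_lit 6546947027) (nat_lit 76) (nat_lit 2967181118) (nat_lit 165) (nat_lit 5) (nat_lit 172) (nat_lit 5) (nat_lit 166) (nat_lit 5) (nat_lit 313) (nat_lit 263) (nat_lit 204)) (XT.lf (nat_lit 0) (nat_lit 2578035935) (nat_lit 456) (nat_lit 2916676446)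 (nat_lit 532) (nat_lit 5932599714) (nat_lit 159) (nat_lit 5) (nat_lit 165) (nat_lit 5) (nat_lit 166) (nat_lit 5) (nat_lit 314) (nat_lit 263) (nat_lit 203)))) (XT.nd (nat_lit 78) (nat_lit 532) (nat_lit 0) (XT.lf (nat_lit 0) (nat_lit 353151356) (nat_lit 456) (nat_lit 9047089406) (nat_lit 532) (nat_lit 2231280008) (nat_lit 153) (nat_lit 5) (nat_lit 159) (nat_lit 5) (nat_lit 160) (nat_lit 5) (nat_lit 315) (nat_lit 263) (nat_lit 202)) (XT.nd (nat_lit 78) (nat_lit 456) (nat_lit 0) (XT.lf (nat_lit 0) (nat_lit 1589278839) (nat_lit 532) (nat_lit 1987538721) (nat_lit 76) (nat_lit 8264286915) (nat_lit 152) (nat_lit 5) (nat_lit 159) (nat_lit 5) (nat_lit 153) (nat_lit 5) (nat_lit 316) (nat_lit 263) (nat_lit 201)) (XT.lf (nat_lit 0) (nat_lit 5507871564) (nat_lit 532) (nat_lit 4471090001) (nat_lit 76) (nat_lit 2077476359) (nat_lit 146) (nat_lit 5) (nat_lit 153) (nat_lit 5) (nat_lit 147) (nat_lit 5) (nat_lit 317)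 (nat_lit 263) (nat_lit 200))))) (XT.nd (nat_lit 234) (nat_lit 1596) (nat_lit 0) (XT.nd (nat_lit 78) (nat_lit 532) (nat_lit 0) (XT.lf (nat_lit 0) (nat_lit 5171216316) (nat_lit 380) (nat_lit 4395302107) (nat_lit 456) (nat_lit 2711293934) (nat_lit 141) (nat_lit 5) (nat_lit 146) (nat_lit 5) (nat_lit 147) (nat_lit 5) (nat_lit 318) (nat_lit 263) (nat_lit 199)) (XT.nd (nat_lit 78) (nat_lit 0) (nat_lit 0) (XT.lf (nat_lit 0) (nat_lit 1233447955) (nat_lit 532) (nat_lit 9896741193) (nat_lit 76) (nat_lit 1375334566) (nat_lit 134) (nat_lit 5) (nat_lit 141) (nat_lit 5) (nat_lit 135) (nat_lit 5) (nat_lit 319) (nat_lit 263) (nat_lit 198)) (XT.lf (nat_lit 0) (nat_lit 5290705831) (nat_lit 532) (nat_lit 140645604) (nat_lit 76) (nat_lit 7307764914) (nat_lit 134) (nat_lit 5) (nat_lit 141) (nat_lit 5) (nat_lit 135) (nat_lit 5) (nat_lit 320) (nat_lit 263) (nat_lit 197)))) (XT.nd (nat_lit 156) (nat_lit 760) (nat_lit 0)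 (XT.nd (nat_lit 78) (nat_lit 456) (nat_lit 0) (XT.lf (nat_lit 0) (nat_lit 9491895412) (nat_lit 456) (nat_lit 3008225679) (nat_lit 76) (nat_lit 479179124) (nat_lit 129) (nat_lit 5) (nat_lit 135) (nat_lit 5) (nat_lit 130) (nat_lit 5) (nat_lit 321) (nat_lit 263) (nat_lit 196)) (XT.lf (nat_lit 0) (nat_lit 623722339) (nat_lit 456) (nat_lit 6075546753) (nat_lit 76) (nat_lit 6526588751) (nat_lit 123) (nat_lit 5) (nat_lit 129) (nat_lit 5) (nat_lit 124) (nat_lit 5) (nat_lit 322) (nat_lit 263) (nat_lit 195))) (XT.nd (nat_lit 78) (nat_lit 380) (nat_lit 0) (XT.lf (nat_lit 0) (nat_lit 4142267918) (nat_lit 380) (nat_lit 671896099) (nat_lit 456) (nat_lit 8665145557) (nat_lit 118) (nat_lit 5) (nat_lit 123) (nat_lit 5) (nat_lit 124) (nat_lit 5) (nat_lit 323) (nat_lit 263) (nat_lit 194)) (XT.lf (nat_lit 0) (nat_lit 922410729) (nat_lit 380) (nat_lit 8247717387) (nat_lit 456) (nat_lit 4569465438) (nat_lit 113) (nat_lit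 5) (nat_lit 118) (nat_lit 5) (nat_lit 119) (nat_lit 5) (nat_lit 324) (nat_lit 263) (nat_lit 193))))))) (XT.nd (nat_lit 1014) (nat_lit 2356) (nat_lit 0) (XT.nd (nat_lit 468) (nat_lit 1520) (nat_lit 0) (XT.nd (nat_lit 234) (nat_lit 684) (nat_lit 0) (XT.nd (nat_lit 78) (nat_lit 760) (nat_lit 0) (XT.lf (nat_lit 0) (nat_lit 11550226686) (nat_lit 380) (nat_lit 2131573413) (nat_lit 456) (nat_lit 325409531) (nat_lit 113) (nat_lit 5) (nat_lit 118) (nat_lit 5) (nat_lit 119) (nat_lit 5) (nat_lit 325) (nat_lit 263) (nat_lit 192)) (XT.nd (nat_lit 78) (nat_lit 380) (nat_lit 0) (XT.lf (nat_lit 0) (nat_lit 4032069882) (nat_lit 380) (nat_lit 6075257823) (nat_lit 76) (nat_lit 4174240784) (nat_lit 108) (nat_lit 5) (nat_lit 113) (nat_lit 5) (nat_lit 109) (nat_lit 5) (nat_lit 326) (nat_lit 263) (nat_lit 191)) (XT.lf (nat_lit 0) (nat_lit 4642511396) (nat_lit 380) (nat_lit 3893461043) (nat_lit 456) (nat_lit 6027762583)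 (nat_lit 103) (nat_lit 5) (nat_lit 108) (nat_lit 5) (nat_lit 109) (nat_lit 5) (nat_lit 327) (nat_lit 263) (nat_lit 190)))) (XT.nd (nat_lit 78) (nat_lit 380) (nat_lit 0) (XT.lf (nat_lit 0) (nat_lit 845114893) (nat_lit 304) (nat_lit 12352694939) (nat_lit 380) (nat_lit 1656122037) (nat_lit 99) (nat_lit 5) (nat_lit 103) (nat_lit 5) (nat_lit 104) (nat_lit 5) (nat_lit 328) (nat_lit 263) (nat_lit 189)) (XT.nd (nat_lit 78) (nat_lit 304) (nat_lit 0) (XT.lf (nat_lit 0) (nat_lit 2863163910) (nat_lit 380) (nat_lit 3186621524) (nat_lit 76) (nat_lit 9101623552) (nat_lit 98) (nat_lit 5) (nat_lit 103) (nat_lit 5) (nat_lit 99) (nat_lit 5) (nat_lit 329) (nat_lit 263) (nat_lit 188)) (XT.lf (nat_lit 0) (nat_lit 7512007036) (nat_lit 380) (nat_lit 7465132372) (nat_lit 76) (nat_lit 480142521) (nat_lit 94) (nat_lit 5) (nat_lit 99) (nat_lit 5) (nat_lit 95) (nat_lit 5) (nat_lit 330) (nat_lit 263) (nat_lit 187))))) (XT.nd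 (nat_lit 234) (nat_lit 836) (nat_lit 0) (XT.nd (nat_lit 78) (nat_lit 380) (nat_lit 0) (XT.lf (nat_lit 0) (nat_lit 3727942811) (nat_lit 304) (nat_lit 8620676510) (nat_lit 380) (nat_lit 3422765106) (nat_lit 90) (nat_lit 5) (nat_lit 94) (nat_lit 5) (nat_lit 95) (nat_lit 5) (nat_lit 331) (nat_lit 263) (nat_lit 186)) (XT.nd (nat_lit 78) (nat_lit 304) (nat_lit 0) (XT.lf (nat_lit 0) (nat_lit 1232514556) (nat_lit 380) (nat_lit 801184883) (nat_lit 76) (nat_lit 14060802700) (nat_lit 89) (nat_lit 5) (nat_lit 94) (nat_lit 5) (nat_lit 90) (nat_lit 5) (nat_lit 332) (nat_lit 263) (nat_lit 185)) (XT.lf (nat_lit 0) (nat_lit 6046413035) (nat_lit 380) (nat_lit 5616132570) (nat_lit 76) (nat_lit 4763024007) (nat_lit 85) (nat_lit 5) (nat_lit 90) (nat_lit 5) (nat_lit 86) (nat_lit 5) (nat_lit 333) (nat_lit 263) (nat_lit 184)))) (XT.nd (nat_lit 156) (nat_lit 304) (nat_lit 0) (XT.nd (nat_lit 78) (nat_lit 304) (nat_lit 0)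 (XT.lf (nat_lit 0) (nat_lit 6022298796) (nat_lit 228) (nat_lit 5004645882) (nat_lit 304) (nat_lit 5739197554) (nat_lit 82) (nat_lit 5) (nat_lit 85) (nat_lit 5) (nat_lit 86) (nat_lit 5) (nat_lit 334) (nat_lit 263) (nat_lit 183)) (XT.lf (nat_lit 0) (nat_lit 914681301) (nat_lit 304) (nat_lit 15263100916) (nat_lit 380) (nat_lit 938748953) (nat_lit 78) (nat_lit 5) (nat_lit 82) (nat_lit 5) (nat_lit 83) (nat_lit 5) (nat_lit 335) (nat_lit 263) (nat_lit 182))) (XT.nd (nat_lit 78) (nat_lit 228) (nat_lit 0) (XT.lf (nat_lit 0) (nat_lit 4024972584) (nat_lit 380) (nat_lit 4521105776) (nat_lit 76) (nat_lit 8929413479) (nat_lit 77) (nat_lit 5) (nat_lit 82) (nat_lit 5) (nat_lit 78) (nat_lit 5) (nat_lit 336) (nat_lit 263) (nat_lit 181)) (XT.lf (nat_lit 0) (nat_lit 7549202532) (nat_lit 228) (nat_lit 1590795693) (nat_lit 304) (nat_lit 8704811727) (nat_lit 74) (nat_lit 5) (nat_lit 77) (nat_lit 5) (nat_lit 78) (nat_lit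 5) (nat_lit 337) (nat_lit 263) (nat_lit 180)))))) (XT.nd (nat_lit 546) (nat_lit 1216) (nat_lit 0) (XT.nd (nat_lit 234) (nat_lit 532) (nat_lit 0) (XT.nd (nat_lit 78) (nat_lit 304) (nat_lit 0) (XT.lf (nat_lit 0) (nat_lit 1752229213) (nat_lit 304) (nat_lit 12701225338) (nat_lit 380) (nat_lit 3770868654) (nat_lit 70) (nat_lit 5) (nat_lit 74) (nat_lit 5) (nat_lit 75) (nat_lit 5) (nat_lit 338) (nat_lit 263) (nat_lit 179)) (XT.nd (nat_lit 78) (nat_lit 228) (nat_lit 0) (XT.lf (nat_lit 0) (nat_lit 1341744993) (nat_lit 380) (nat_lit 4383874463) (nat_lit 76) (nat_lit 12888489665) (nat_lit 69) (nat_lit 5) (nat_lit 74) (nat_lit 5) (nat_lit 70) (nat_lit 5) (nat_lit 339) (nat_lit 263) (nat_lit 178)) (XT.lf (nat_lit 0) (nat_lit 6587173560) (nat_lit 304) (nat_lit 10927913708) (nat_lit 76) (nat_lit 1499403523) (nat_lit 66) (nat_lit 5) (nat_lit 70) (nat_lit 5) (nat_lit 67) (nat_lit 5) (nat_lit 340) (nat_lit 263)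 (nat_lit 177)))) (XT.nd (nat_lit 156) (nat_lit 304) (nat_lit 0) (XT.nd (nat_lit 78) (nat_lit 0) (nat_lit 0) (XT.lf (nat_lit 0) (nat_lit 1494969308) (nat_lit 228) (nat_lit 10541319833) (nat_lit 304) (nat_lit 7389681923) (nat_lit 63) (nat_lit 5) (nat_lit 66) (nat_lit 5) (nat_lit 67) (nat_lit 5) (nat_lit 341) (nat_lit 263) (nat_lit 176)) (XT.lf (nat_lit 0) (nat_lit 14389938853) (nat_lit 228) (nat_lit 3302008995) (nat_lit 304) (nat_lit 2156999740) (nat_lit 63) (nat_lit 5) (nat_lit 66) (nat_lit 5) (nat_lit 67) (nat_lit 5) (nat_lit 342) (nat_lit 263) (nat_lit 175))) (XT.nd (nat_lit 78) (nat_lit 0) (nat_lit 0) (XT.lf (nat_lit 0) (nat_lit 3235422470) (nat_lit 304) (nat_lit 12896900034) (nat_lit 76) (nat_lit 4150980600) (nat_lit 59) (nat_lit 5) (nat_lit 63) (nat_lit 5) (nat_lit 60) (nat_lit 5) (nat_lit 343) (nat_lit 263) (nat_lit 174)) (XT.lf (nat_lit 0) (nat_lit 8789954854) (nat_lit 304) (nat_lit 123625341)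 (nat_lit 76) (nat_lit 11816243315) (nat_lit 59) (nat_lit 5) (nat_lit 63) (nat_lit 5) (nat_lit 60) (nat_lit 5) (nat_lit 344) (nat_lit 263) (nat_lit 173))))) (XT.nd (nat_lit 234) (nat_lit 684) (nat_lit 0) (XT.nd (nat_lit 78) (nat_lit 304) (nat_lit 0) (XT.lf (nat_lit 0) (nat_lit 13158014300) (nat_lit 228) (nat_lit 1409565375) (nat_lit 304) (nat_lit 6621042600) (nat_lit 56) (nat_lit 5) (nat_lit 59) (nat_lit 5) (nat_lit 60) (nat_lit 5) (nat_lit 345) (nat_lit 263) (nat_lit 172)) (XT.nd (nat_lit 78) (nat_lit 76) (nat_lit 0) (XT.lf (nat_lit 0) (nat_lit 5158144716) (nat_lit 228) (nat_lit 15407201596) (nat_lit 304) (nat_lit 1094913960) (nat_lit 53) (nat_lit 5) (nat_lit 56) (nat_lit 5) (nat_lit 57) (nat_lit 5) (nat_lit 346) (nat_lit 263) (nat_lit 171)) (XT.lf (nat_lit 0) (nat_lit 4572695802) (nat_lit 304) (nat_lit 3378826230) (nat_lit 76) (nat_lit 14193219661) (nat_lit 52) (nat_lit 5) (nat_lit 56) (nat_lit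 5) (nat_lit 53) (nat_lit 5) (nat_lit 347) (nat_lit 263) (nat_lit 170)))) (XT.nd (nat_lit 156) (nat_lit 304) (nat_lit 0) (XT.nd (nat_lit 78) (nat_lit 152) (nat_lit 0) (XT.lf (nat_lit 0) (nat_lit 10219513205) (nat_lit 228) (nat_lit 214986590) (nat_lit 304) (nat_lit 12208342840) (nat_lit 49) (nat_lit 5) (nat_lit 52) (nat_lit 5) (nat_lit 53) (nat_lit 5) (nat_lit 348) (nat_lit 263) (nat_lit 169)) (XT.lf (nat_lit 0) (nat_lit 1034645954) (nat_lit 152) (nat_lit 15490616924) (nat_lit 228) (nat_lit 6629571972) (nat_lit 47) (nat_lit 5) (nat_lit 49) (nat_lit 5) (nat_lit 50) (nat_lit 5) (nat_lit 349) (nat_lit 263) (nat_lit 168))) (XT.nd (nat_lit 78) (nat_lit 304) (nat_lit 0) (XT.lf (nat_lit 0) (nat_lit 15020633007) (nat_lit 152) (nat_lit 7837225129) (nat_lit 228) (nat_lit 823156554) (nat_lit 47) (nat_lit 5) (nat_lit 49) (nat_lit 5) (nat_lit 50) (nat_lit 5) (nat_lit 350) (nat_lit 263) (nat_lit 167)) (XT.lf (nat_lit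 0) (nat_lit 5098253748) (nat_lit 304) (nat_lit 19028317891) (nat_lit 76) (nat_lit 95579268) (nat_lit 43) (nat_lit 5) (nat_lit 47) (nat_lit 5) (nat_lit 44) (nat_lit 5) (nat_lit 351) (nat_lit 263) (nat_lit 166))))))))
noncomputable def xc58 : XT := (XT.nd (nat_lit 35022) (nat_lit 0) (nat_lit 13680) (XT.nd (nat_lit 34008) (nat_lit 0) (nat_lit 37164) (XT.nd (nat_lit 468) (nat_lit 380) (nat_lit 0) (XT.nd (nat_lit 234) (nat_lit 456) (nat_lit 0) (XT.nd (nat_lit 78) (nat_lit 152) (nat_lit 0) (XT.lf (nat_lit 0) (nat_lit 11272125894) (nat_lit 304) (nat_lit 5297521420) (nat_lit 76) (nat_lit 8208054295) (nat_lit 43) (nat_lit 5) (nat_lit 47) (nat_lit 5) (nat_lit 44) (nat_lit 5) (nat_lit 352) (nat_lit 263) (nat_lit 165)) (XT.nd (nat_lit 78) (nat_lit 0) (nat_lit 0) (XT.lf (nat_lit 0) (nat_lit 8920357745) (nat_lit 152) (nat_lit 8743971525) (nat_lit 228) (nat_lit 7684936274) (nat_lit 41) (nat_lit 5) (nat_lit 43)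 (nat_lit 5) (nat_lit 44) (nat_lit 5) (nat_lit 353) (nat_lit 263) (nat_lit 164)) (XT.lf (nat_lit 0) (nat_lit 23596131997) (nat_lit 152) (nat_lit 663717795) (nat_lit 228) (nat_lit 1677904332) (nat_lit 41) (nat_lit 5) (nat_lit 43) (nat_lit 5) (nat_lit 44) (nat_lit 5) (nat_lit 354) (nat_lit 263) (nat_lit 163)))) (XT.nd (nat_lit 78) (nat_lit 152) (nat_lit 0) (XT.lf (nat_lit 0) (nat_lit 4556333196) (nat_lit 304) (nat_lit 14333035625) (nat_lit 76) (nat_lit 7651828606) (nat_lit 37) (nat_lit 5) (nat_lit 41) (nat_lit 5) (nat_lit 38) (nat_lit 5) (nat_lit 355) (nat_lit 263) (nat_lit 162)) (XT.nd (nat_lit 78) (nat_lit 0) (nat_lit 0) (XT.lf (nat_lit 0) (nat_lit 8413962) (nat_lit 152) (nat_lit 10943511533) (nat_lit 228) (nat_lit 16210662325) (nat_lit 35) (nat_lit 5) (nat_lit 37) (nat_lit 5) (nat_lit 38) (nat_lit 5) (nat_lit 356) (nat_lit 263) (nat_lit 161)) (XT.lf (nat_lit 0) (nat_lit 14936951890) (nat_lit 152)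 (nat_lit 2676515010) (nat_lit 228) (nat_lit 10187679247) (nat_lit 35) (nat_lit 5) (nat_lit 37) (nat_lit 5) (nat_lit 38) (nat_lit 5) (nat_lit 357) (nat_lit 263) (nat_lit 160))))) (XT.nd (nat_lit 234) (nat_lit 0) (nat_lit 0) (XT.nd (nat_lit 78) (nat_lit 228) (nat_lit 0) (XT.lf (nat_lit 0) (nat_lit 1801652118) (nat_lit 152) (nat_lit 22700331876) (nat_lit 228) (nat_lit 3956342262) (nat_lit 33) (nat_lit 5) (nat_lit 35) (nat_lit 5) (nat_lit 36) (nat_lit 5) (nat_lit 358) (nat_lit 263) (nat_lit 159)) (XT.nd (nat_lit 78) (nat_lit 152) (nat_lit 0) (XT.lf (nat_lit 0) (nat_lit 2513073787) (nat_lit 228) (nat_lit 12122609477) (nat_lit 76) (nat_lit 14497557515) (nat_lit 32) (nat_lit 5) (nat_lit 35) (nat_lit 5) (nat_lit 33) (nat_lit 5) (nat_lit 359) (nat_lit 263) (nat_lit 158)) (XT.lf (nat_lit 0) (nat_lit 2820898130) (nat_lit 152) (nat_lit 6298971235) (nat_lit 228) (nat_lit 20708076420) (nat_lit 30) (nat_lit 5)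 (nat_lit 32) (nat_lit 5) (nat_lit 33) (nat_lit 5) (nat_lit 360) (nat_lit 263) (nat_lit 157)))) (XT.nd (nat_lit 33150) (nat_lit 0) (nat_lit 42712) (XT.nd (nat_lit 33072) (nat_lit 0) (nat_lit 43244) (XT.lf (nat_lit 0) (nat_lit 16001132050) (nat_lit 228) (nat_lit 12215446556) (nat_lit 76) (nat_lit 2325394910) (nat_lit 30) (nat_lit 5) (nat_lit 33) (nat_lit 5) (nat_lit 31) (nat_lit 5) (nat_lit 361) (nat_lit 263) (nat_lit 156)) (XT.lf (nat_lit 0) (nat_lit 62329712) (nat_lit 532) (nat_lit 1597008807) (nat_lit 532) (nat_lit 1597008807) (nat_lit 599) (nat_lit 3) (nat_lit 606) (nat_lit 3) (nat_lit 606) (nat_lit 5) (nat_lit 264) (nat_lit 264) (nat_lit 252))) (XT.nd (nat_lit 78) (nat_lit 532) (nat_lit 0) (XT.lf (nat_lit 76) (nat_lit 1297318947) (nat_lit 0) (nat_lit 2494097327) (nat_lit 532) (nat_lit 2740250829) (nat_lit 600) (nat_lit 5) (nat_lit 599) (nat_lit 3) (nat_lit 606) (nat_lit 5) (nat_lit 265) (nat_lit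 264) (nat_lit 251)) (XT.lf (nat_lit 0) (nat_lit 881078364) (nat_lit 532) (nat_lit 666383903) (nat_lit 608) (nat_lit 5006272811) (nat_lit 592) (nat_lit 5) (nat_lit 599) (nat_lit 3) (nat_lit 600) (nat_lit 5) (nat_lit 266) (nat_lit 264) (nat_lit 250)))))) (XT.nd (nat_lit 468) (nat_lit 3648) (nat_lit 0) (XT.nd (nat_lit 234) (nat_lit 1368) (nat_lit 0) (XT.nd (nat_lit 78) (nat_lit 532) (nat_lit 0) (XT.lf (nat_lit 76) (nat_lit 3998976530) (nat_lit 0) (nat_lit 460883843) (nat_lit 608) (nat_lit 2118722963) (nat_lit 593) (nat_lit 5) (nat_lit 592) (nat_lit 5) (nat_lit 600) (nat_lit 5) (nat_lit 267) (nat_lit 264) (nat_lit 249)) (XT.nd (nat_lit 78) (nat_lit 0) (nat_lit 0) (XT.lf (nat_lit 0) (nat_lit 1407382912) (nat_lit 608) (nat_lit 4458482955) (nat_lit 684) (nat_lit 740587103) (nat_lit 585) (nat_lit 5) (nat_lit 593) (nat_lit 5) (nat_lit 594) (nat_lit 5) (nat_lit 268) (nat_lit 264) (nat_lit 248)) (XT.lf (nat_lit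 76) (nat_lit 328171929) (nat_lit 0) (nat_lit 4571593280) (nat_lit 684) (nat_lit 1737513891) (nat_lit 586) (nat_lit 5) (nat_lit 585) (nat_lit 5) (nat_lit 594) (nat_lit 5) (nat_lit 269) (nat_lit 264) (nat_lit 247)))) (XT.nd (nat_lit 78) (nat_lit 684) (nat_lit 0) (XT.lf (nat_lit 0) (nat_lit 1702996859) (nat_lit 684) (nat_lit 1438358354) (nat_lit 760) (nat_lit 3529632932) (nat_lit 576) (nat_lit 5) (nat_lit 585) (nat_lit 5) (nat_lit 586) (nat_lit 5) (nat_lit 270) (nat_lit 264) (nat_lit 246)) (XT.nd (nat_lit 78) (nat_lit 684) (nat_lit 0) (XT.lf (nat_lit 76) (nat_lit 3538230442) (nat_lit 0) (nat_lit 1580487589) (nat_lit 760) (nat_lit 1589020655) (nat_lit 577) (nat_lit 5) (nat_lit 576) (nat_lit 5) (nat_lit 586) (nat_lit 5) (nat_lit 271) (nat_lit 264) (nat_lit 245)) (XT.lf (nat_lit 0) (nat_lit 1763965037) (nat_lit 760) (nat_lit 4873323708) (nat_lit 836) (nat_lit 110272055) (nat_lit 567) (nat_lit 5) (nat_lit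 577) (nat_lit 5) (nat_lit 578) (nat_lit 5) (nat_lit 272) (nat_lit 264) (nat_lit 244))))) (XT.nd (nat_lit 234) (nat_lit 2812) (nat_lit 0) (XT.nd (nat_lit 78) (nat_lit 836) (nat_lit 0) (XT.lf (nat_lit 76) (nat_lit 228834304) (nat_lit 0) (nat_lit 4879130326) (nat_lit 836) (nat_lit 1682321520) (nat_lit 568) (nat_lit 5) (nat_lit 567) (nat_lit 5) (nat_lit 578) (nat_lit 5) (nat_lit 273) (nat_lit 264) (nat_lit 243)) (XT.nd (nat_lit 78) (nat_lit 0) (nat_lit 0) (XT.lf (nat_lit 0) (nat_lit 1609030366) (nat_lit 836) (nat_lit 1372088731) (nat_lit 912) (nat_lit 3854830900) (nat_lit 556) (nat_lit 5) (nat_lit 567) (nat_lit 5) (nat_lit 568) (nat_lit 5) (nat_lit 274) (nat_lit 264) (nat_lit 242)) (XT.lf (nat_lit 76) (nat_lit 3937770010) (nat_lit 0) (nat_lit 948008401) (nat_lit 912) (nat_lit 1998939553) (nat_lit 557) (nat_lit 5) (nat_lit 556) (nat_lit 5) (nat_lit 568) (nat_lit 5) (nat_lit 275) (nat_lit 264) (nat_lit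 241)))) (XT.nd (nat_lit 156) (nat_lit 1064) (nat_lit 0) (XT.nd (nat_lit 78) (nat_lit 912) (nat_lit 0) (XT.lf (nat_lit 0) (nat_lit 1227418780) (nat_lit 912) (nat_lit 4506368643) (nat_lit 76) (nat_lit 1202750585) (nat_lit 545) (nat_lit 5) (nat_lit 557) (nat_lit 5) (nat_lit 546) (nat_lit 5) (nat_lit 276) (nat_lit 264) (nat_lit 240)) (XT.lf (nat_lit 0) (nat_lit 934464219) (nat_lit 912) (nat_lit 3510511862) (nat_lit 988) (nat_lit 2546376693) (nat_lit 533) (nat_lit 5) (nat_lit 545) (nat_lit 5) (nat_lit 546) (nat_lit 5) (nat_lit 277) (nat_lit 264) (nat_lit 239))) (XT.nd (nat_lit 78) (nat_lit 988) (nat_lit 0) (XT.lf (nat_lit 0) (nat_lit 623455339) (nat_lit 988) (nat_lit 529517371) (nat_lit 76) (nat_lit 5896445369) (nat_lit 532) (nat_lit 5) (nat_lit 545) (nat_lit 5) (nat_lit 533) (nat_lit 5) (nat_lit 278) (nat_lit 264) (nat_lit 238)) (XT.lf (nat_lit 0) (nat_lit 3790137049) (nat_lit 1064) (nat_lit 1980674613)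 (nat_lit 76) (nat_lit 1339475453) (nat_lit 519) (nat_lit 5) (nat_lit 533) (nat_lit 5) (nat_lit 520) (nat_lit 5) (nat_lit 279) (nat_lit 264) (nat_lit 237))))))) (XT.nd (nat_lit 1014) (nat_lit 8816) (nat_lit 0) (XT.nd (nat_lit 468) (nat_lit 8360) (nat_lit 0) (XT.nd (nat_lit 234) (nat_lit 2812) (nat_lit 0) (XT.nd (nat_lit 78) (nat_lit 2432) (nat_lit 0) (XT.lf (nat_lit 0) (nat_lit 3757809518) (nat_lit 1064) (nat_lit 3226503292) (nat_lit 1140) (nat_lit 190141287) (nat_lit 505) (nat_lit 5) (nat_lit 519) (nat_lit 5) (nat_lit 520) (nat_lit 5) (nat_lit 280) (nat_lit 264) (nat_lit 236)) (XT.nd (nat_lit 78) (nat_lit 1216) (nat_lit 0) (XT.lf (nat_lit 0) (nat_lit 2390025218) (nat_lit 1140) (nat_lit 531489121) (nat_lit 1216) (nat_lit 4320202991) (nat_lit 489) (nat_lit 5) (nat_lit 504) (nat_lit 5) (nat_lit 505) (nat_lit 5) (nat_lit 281) (nat_lit 264) (nat_lit 235)) (XT.lf (nat_lit 0) (nat_lit 1026781139) (nat_lit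 1216) (nat_lit 5042838619) (nat_lit 1292) (nat_lit 1242552405) (nat_lit 473) (nat_lit 5) (nat_lit 489) (nat_lit 5) (nat_lit 490) (nat_lit 5) (nat_lit 282) (nat_lit 264) (nat_lit 234)))) (XT.nd (nat_lit 78) (nat_lit 2736) (nat_lit 0) (XT.lf (nat_lit 0) (nat_lit 1841558336) (nat_lit 1292) (nat_lit 330302532) (nat_lit 76) (nat_lit 5213948398) (nat_lit 472) (nat_lit 5) (nat_lit 489) (nat_lit 5) (nat_lit 473) (nat_lit 5) (nat_lit 283) (nat_lit 264) (nat_lit 233)) (XT.nd (nat_lit 78) (nat_lit 1444) (nat_lit 0) (XT.lf (nat_lit 0) (nat_lit 4950152081) (nat_lit 1368) (nat_lit 1672797536) (nat_lit 76) (nat_lit 839668748) (nat_lit 455) (nat_lit 5) (nat_lit 473) (nat_lit 5) (nat_lit 456) (nat_lit 5) (nat_lit 284) (nat_lit 264) (nat_lit 232)) (XT.lf (nat_lit 0) (nat_lit 555993036) (nat_lit 1444) (nat_lit 3021735789) (nat_lit 76) (nat_lit 3964948131) (nat_lit 436) (nat_lit 5) (nat_lit 455) (nat_lit 5) (nat_lit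 437) (nat_lit 5) (nat_lit 285) (nat_lit 264) (nat_lit 231))))) (XT.nd (nat_lit 234) (nat_lit 3724) (nat_lit 0) (XT.nd (nat_lit 78) (nat_lit 3192) (nat_lit 0) (XT.lf (nat_lit 0) (nat_lit 3247624442) (nat_lit 1444) (nat_lit 376911862) (nat_lit 1520) (nat_lit 4001521640) (nat_lit 417) (nat_lit 5) (nat_lit 436) (nat_lit 5) (nat_lit 437) (nat_lit 5) (nat_lit 286) (nat_lit 264) (nat_lit 230)) (XT.nd (nat_lit 78) (nat_lit 1672) (nat_lit 0) (XT.lf (nat_lit 0) (nat_lit 1964290987) (nat_lit 1520) (nat_lit 4784874604) (nat_lit 1596) (nat_lit 963587458) (nat_lit 397) (nat_lit 5) (nat_lit 417) (nat_lit 5) (nat_lit 418) (nat_lit 5) (nat_lit 287) (nat_lit 264) (nat_lit 229)) (XT.lf (nat_lit 0) (nat_lit 670527945) (nat_lit 1596) (nat_lit 1416420330) (nat_lit 1672) (nat_lit 5715911042) (nat_lit 375) (nat_lit 5) (nat_lit 396) (nat_lit 5) (nat_lit 397) (nat_lit 5) (nat_lit 288) (nat_lit 264) (nat_lit 228)))) (XT.nd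 (nat_lit 156) (nat_lit 1976) (nat_lit 0) (XT.nd (nat_lit 78) (nat_lit 1748) (nat_lit 0) (XT.lf (nat_lit 0) (nat_lit 5183742913) (nat_lit 1672) (nat_lit 631998514) (nat_lit 76) (nat_lit 2080529482) (nat_lit 375) (nat_lit 5) (nat_lit 397) (nat_lit 5) (nat_lit 376) (nat_lit 5) (nat_lit 289) (nat_lit 264) (nat_lit 227)) (XT.lf (nat_lit 0) (nat_lit 342146378) (nat_lit 1748) (nat_lit 1937752191) (nat_lit 76) (nat_lit 5713295138) (nat_lit 352) (nat_lit 5) (nat_lit 375) (nat_lit 5) (nat_lit 353) (nat_lit 5) (nat_lit 290) (nat_lit 264) (nat_lit 226))) (XT.nd (nat_lit 78) (nat_lit 836) (nat_lit 0) (XT.lf (nat_lit 0) (nat_lit 3415706400) (nat_lit 1216) (nat_lit 3274015729) (nat_lit 76) (nat_lit 1403741166) (nat_lit 337) (nat_lit 5) (nat_lit 353) (nat_lit 5) (nat_lit 338) (nat_lit 5) (nat_lit 291) (nat_lit 264) (nat_lit 225)) (XT.lf (nat_lit 0) (nat_lit 3564849937) (nat_lit 836) (nat_lit 2989131419) (nat_lit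 912) (nat_lit 1643386794) (nat_lit 326) (nat_lit 5) (nat_lit 337) (nat_lit 5) (nat_lit 338) (nat_lit 5) (nat_lit 292) (nat_lit 264) (nat_lit 224)))))) (XT.nd (nat_lit 546) (nat_lit 3952) (nat_lit 0) (XT.nd (nat_lit 234) (nat_lit 3192) (nat_lit 0) (XT.nd (nat_lit 78) (nat_lit 760) (nat_lit 0) (XT.lf (nat_lit 0) (nat_lit 1427600200) (nat_lit 912) (nat_lit 6016532328) (nat_lit 76) (nat_lit 860838342) (nat_lit 314) (nat_lit 5) (nat_lit 326) (nat_lit 5) (nat_lit 315) (nat_lit 5) (nat_lit 293) (nat_lit 264) (nat_lit 223)) (XT.nd (nat_lit 78) (nat_lit 0) (nat_lit 0) (XT.lf (nat_lit 0) (nat_lit 970575405) (nat_lit 760) (nat_lit 3579756061) (nat_lit 836) (nat_lit 3865685585) (nat_lit 304) (nat_lit 5) (nat_lit 314) (nat_lit 5) (nat_lit 315) (nat_lit 5) (nat_lit 294) (nat_lit 264) (nat_lit 222)) (XT.lf (nat_lit 0) (nat_lit 7736033993) (nat_lit 836) (nat_lit 359340785) (nat_lit 76) (nat_lit 435703444) (nat_lit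 304) (nat_lit 5) (nat_lit 315) (nat_lit 5) (nat_lit 305) (nat_lit 5) (nat_lit 295) (nat_lit 264) (nat_lit 221)))) (XT.nd (nat_lit 156) (nat_lit 1520) (nat_lit 0) (XT.nd (nat_lit 78) (nat_lit 760) (nat_lit 0) (XT.lf (nat_lit 0) (nat_lit 2333336316) (nat_lit 912) (nat_lit 1733069238) (nat_lit 76) (nat_lit 4583010808) (nat_lit 292) (nat_lit 5) (nat_lit 304) (nat_lit 5) (nat_lit 293) (nat_lit 5) (nat_lit 296) (nat_lit 264) (nat_lit 220)) (XT.lf (nat_lit 0) (nat_lit 5513614399) (nat_lit 836) (nat_lit 3134250305) (nat_lit 76) (nat_lit 124022011) (nat_lit 282) (nat_lit 5) (nat_lit 293) (nat_lit 5) (nat_lit 283) (nat_lit 5) (nat_lit 297) (nat_lit 264) (nat_lit 219))) (XT.nd (nat_lit 78) (nat_lit 760) (nat_lit 0) (XT.lf (nat_lit 0) (nat_lit 4310304432) (nat_lit 760) (nat_lit 4476482491) (nat_lit 836) (nat_lit 111356790) (nat_lit 272) (nat_lit 5) (nat_lit 282) (nat_lit 5) (nat_lit 283) (nat_lit 5) (nat_lit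 298) (nat_lit 264) (nat_lit 218)) (XT.lf (nat_lit 0) (nat_lit 2937287945) (nat_lit 684) (nat_lit 123603713) (nat_lit 760) (nat_lit 5967510075) (nat_lit 262) (nat_lit 5) (nat_lit 271) (nat_lit 5) (nat_lit 272) (nat_lit 5) (nat_lit 299) (nat_lit 264) (nat_lit 217))))) (XT.nd (nat_lit 234) (nat_lit 2508) (nat_lit 0) (XT.nd (nat_lit 78) (nat_lit 760) (nat_lit 0) (XT.lf (nat_lit 0) (nat_lit 1505243598) (nat_lit 684) (nat_lit 4823942174) (nat_lit 760) (nat_lit 2833376711) (nat_lit 253) (nat_lit 5) (nat_lit 262) (nat_lit 5) (nat_lit 263) (nat_lit 5) (nat_lit 300) (nat_lit 264) (nat_lit 216)) (XT.nd (nat_lit 78) (nat_lit 0) (nat_lit 0) (XT.lf (nat_lit 0) (nat_lit 35761492) (nat_lit 684) (nat_lit 330444670) (nat_lit 760) (nat_lit 8935013329) (nat_lit 243) (nat_lit 5) (nat_lit 252) (nat_lit 5) (nat_lit 253) (nat_lit 5) (nat_lit 301) (nat_lit 264) (nat_lit 215)) (XT.lf (nat_lit 0) (nat_lit 3639030145) (nat_lit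 760) (nat_lit 1499825877) (nat_lit 76) (nat_lit 4304543821) (nat_lit 243) (nat_lit 5) (nat_lit 253) (nat_lit 5) (nat_lit 244) (nat_lit 5) (nat_lit 302) (nat_lit 264) (nat_lit 214)))) (XT.nd (nat_lit 156) (nat_lit 1140) (nat_lit 0) (XT.nd (nat_lit 78) (nat_lit 684) (nat_lit 0) (XT.lf (nat_lit 0) (nat_lit 6510023088) (nat_lit 684) (nat_lit 481766846) (nat_lit 760) (nat_lit 2598472268) (nat_lit 234) (nat_lit 5) (nat_lit 243) (nat_lit 5) (nat_lit 244) (nat_lit 5) (nat_lit 303) (nat_lit 264) (nat_lit 213)) (XT.lf (nat_lit 0) (nat_lit 703709102) (nat_lit 684) (nat_lit 4741067861) (nat_lit 76) (nat_lit 4296524537) (nat_lit 225) (nat_lit 5) (nat_lit 234) (nat_lit 5) (nat_lit 226) (nat_lit 5) (nat_lit 304) (nat_lit 264) (nat_lit 212))) (XT.nd (nat_lit 78) (nat_lit 532) (nat_lit 0) (XT.lf (nat_lit 0) (nat_lit 3421306372) (nat_lit 608) (nat_lit 634457496) (nat_lit 684) (nat_lit 5841090074) (nat_lit 217) (nat_lit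 5) (nat_lit 225) (nat_lit 5) (nat_lit 226) (nat_lit 5) (nat_lit 305) (nat_lit 264) (nat_lit 211)) (XT.lf (nat_lit 0) (nat_lit 1760189284) (nat_lit 532) (nat_lit 5760704522) (nat_lit 608) (nat_lit 2535975191) (nat_lit 210) (nat_lit 5) (nat_lit 217) (nat_lit 5) (nat_lit 218) (nat_lit 5) (nat_lit 306) (nat_lit 264) (nat_lit 210))))))))
noncomputable def xc59 : XT := (XT.nd (nat_lit 2106) (nat_lit 4028) (nat_lit 0) (XT.nd (nat_lit 1014) (nat_lit 4256) (nat_lit 0) (XT.nd (nat_lit 468) (nat_lit 2356) (nat_lit 0) (XT.nd (nat_lit 234) (nat_lit 1672) (nat_lit 0) (XT.nd (nat_lit 78) (nat_lit 532) (nat_lit 0) (XT.lf (nat_lit 0) (nat_lit 29738462) (nat_lit 608) (nat_lit 817310778) (nat_lit 684) (nat_lit 9374763717) (nat_lit 201) (nat_lit 5) (nat_lit 209) (nat_lit 5) (nat_lit 210) (nat_lit 5) (nat_lit 307) (nat_lit 264) (nat_lit 209)) (XT.nd (nat_lit 78) (nat_lit 532) (nat_lit 0) (XT.lf (nat_lit 0) (nat_lit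 4324352545) (nat_lit 684) (nat_lit 1787405412) (nat_lit 76) (nat_lit 4279109979) (nat_lit 201) (nat_lit 5) (nat_lit 210) (nat_lit 5) (nat_lit 202) (nat_lit 5) (nat_lit 308) (nat_lit 264) (nat_lit 208)) (XT.lf (nat_lit 0) (nat_lit 6885055814) (nat_lit 532) (nat_lit 1015456440) (nat_lit 608) (nat_lit 2664633114) (nat_lit 194) (nat_lit 5) (nat_lit 201) (nat_lit 5) (nat_lit 202) (nat_lit 5) (nat_lit 309) (nat_lit 264) (nat_lit 207)))) (XT.nd (nat_lit 78) (nat_lit 1064) (nat_lit 0) (XT.lf (nat_lit 0) (nat_lit 846419274) (nat_lit 608) (nat_lit 5682357222) (nat_lit 76) (nat_lit 4215442765) (nat_lit 186) (nat_lit 5) (nat_lit 194) (nat_lit 5) (nat_lit 187) (nat_lit 5) (nat_lit 310) (nat_lit 264) (nat_lit 206)) (XT.nd (nat_lit 78) (nat_lit 532) (nat_lit 0) (XT.lf (nat_lit 0) (nat_lit 3135899813) (nat_lit 532) (nat_lit 1289375891) (nat_lit 608) (nat_lit 6503102313) (nat_lit 179) (nat_lit 5) (nat_lit 186)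 (nat_lit 5) (nat_lit 187) (nat_lit 5) (nat_lit 311) (nat_lit 264) (nat_lit 205)) (XT.lf (nat_lit 0) (nat_lit 1098063749) (nat_lit 532) (nat_lit 7033235318) (nat_lit 608) (nat_lit 2986403722) (nat_lit 172) (nat_lit 5) (nat_lit 179) (nat_lit 5) (nat_lit 180) (nat_lit 5) (nat_lit 312) (nat_lit 264) (nat_lit 204))))) (XT.nd (nat_lit 234) (nat_lit 1368) (nat_lit 0) (XT.nd (nat_lit 78) (nat_lit 912) (nat_lit 0) (XT.lf (nat_lit 0) (nat_lit 637199097) (nat_lit 608) (nat_lit 1030988781) (nat_lit 76) (nat_lit 9644277515) (nat_lit 171) (nat_lit 5) (nat_lit 179) (nat_lit 5) (nat_lit 172) (nat_lit 5) (nat_lit 313) (nat_lit 264) (nat_lit 203)) (XT.nd (nat_lit 78) (nat_lit 456) (nat_lit 0) (XT.lf (nat_lit 0) (nat_lit 4357640903) (nat_lit 532) (nat_lit 3288773534) (nat_lit 76) (nat_lit 3865721995) (nat_lit 165) (nat_lit 5) (nat_lit 172) (nat_lit 5) (nat_lit 166) (nat_lit 5) (nat_lit 314) (nat_lit 264) (nat_lit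 202)) (XT.lf (nat_lit 0) (nat_lit 6053912429) (nat_lit 456) (nat_lit 2143705318) (nat_lit 532) (nat_lit 3520054868) (nat_lit 159) (nat_lit 5) (nat_lit 165) (nat_lit 5) (nat_lit 166) (nat_lit 5) (nat_lit 315) (nat_lit 264) (nat_lit 201)))) (XT.nd (nat_lit 156) (nat_lit 380) (nat_lit 0) (XT.nd (nat_lit 78) (nat_lit 456) (nat_lit 0) (XT.lf (nat_lit 0) (nat_lit 241620888) (nat_lit 532) (nat_lit 8177320712) (nat_lit 76) (nat_lit 3510013468) (nat_lit 152) (nat_lit 5) (nat_lit 159) (nat_lit 5) (nat_lit 153) (nat_lit 5) (nat_lit 316) (nat_lit 264) (nat_lit 200)) (XT.lf (nat_lit 0) (nat_lit 1294549508) (nat_lit 456) (nat_lit 2787412526) (nat_lit 532) (nat_lit 8063906739) (nat_lit 146) (nat_lit 5) (nat_lit 152) (nat_lit 5) (nat_lit 153) (nat_lit 5) (nat_lit 317) (nat_lit 264) (nat_lit 199))) (XT.nd (nat_lit 78) (nat_lit 380) (nat_lit 0) (XT.lf (nat_lit 0) (nat_lit 8065713776) (nat_lit 532) (nat_lit 1290905119)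 (nat_lit 76) (nat_lit 3012136997) (nat_lit 146) (nat_lit 5) (nat_lit 153) (nat_lit 5) (nat_lit 147) (nat_lit 5) (nat_lit 318) (nat_lit 264) (nat_lit 198)) (XT.lf (nat_lit 0) (nat_lit 8586899522) (nat_lit 380) (nat_lit 3610702595) (nat_lit 456) (nat_lit 400184160) (nat_lit 141) (nat_lit 5) (nat_lit 146) (nat_lit 5) (nat_lit 147) (nat_lit 5) (nat_lit 319) (nat_lit 264) (nat_lit 197)))))) (XT.nd (nat_lit 546) (nat_lit 1748) (nat_lit 0) (XT.nd (nat_lit 234) (nat_lit 1216) (nat_lit 0) (XT.nd (nat_lit 78) (nat_lit 760) (nat_lit 0) (XT.lf (nat_lit 0) (nat_lit 3589805518) (nat_lit 532) (nat_lit 6912042605) (nat_lit 76) (nat_lit 2331046750) (nat_lit 134) (nat_lit 5) (nat_lit 141) (nat_lit 5) (nat_lit 135) (nat_lit 5) (nat_lit 320) (nat_lit 264) (nat_lit 196)) (XT.nd (nat_lit 78) (nat_lit 380) (nat_lit 0) (XT.lf (nat_lit 0) (nat_lit 3081570597) (nat_lit 380) (nat_lit 4639664130) (nat_lit 456) (nat_lit 5353252483)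 (nat_lit 129) (nat_lit 5) (nat_lit 134) (nat_lit 5) (nat_lit 135) (nat_lit 5) (nat_lit 321) (nat_lit 264) (nat_lit 195)) (XT.lf (nat_lit 0) (nat_lit 76293247) (nat_lit 380) (nat_lit 11913441916) (nat_lit 456) (nat_lit 1333355726) (nat_lit 124) (nat_lit 5) (nat_lit 129) (nat_lit 5) (nat_lit 130) (nat_lit 5) (nat_lit 322) (nat_lit 264) (nat_lit 194)))) (XT.nd (nat_lit 156) (nat_lit 760) (nat_lit 0) (XT.nd (nat_lit 78) (nat_lit 380) (nat_lit 0) (XT.lf (nat_lit 0) (nat_lit 2826480639) (nat_lit 456) (nat_lit 3105251017) (nat_lit 76) (nat_lit 7645958212) (nat_lit 123) (nat_lit 5) (nat_lit 129) (nat_lit 5) (nat_lit 124) (nat_lit 5) (nat_lit 323) (nat_lit 264) (nat_lit 193)) (XT.lf (nat_lit 0) (nat_lit 7100904185) (nat_lit 456) (nat_lit 6473445122) (nat_lit 76) (nat_lit 265267251) (nat_lit 118) (nat_lit 5) (nat_lit 124) (nat_lit 5) (nat_lit 119) (nat_lit 5) (nat_lit 324) (nat_lit 264) (nat_lit 192))) (XT.nd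 (nat_lit 78) (nat_lit 380) (nat_lit 0) (XT.lf (nat_lit 0) (nat_lit 4038367542) (nat_lit 380) (nat_lit 7511195719) (nat_lit 456) (nat_lit 2558941183) (nat_lit 113) (nat_lit 5) (nat_lit 118) (nat_lit 5) (nat_lit 119) (nat_lit 5) (nat_lit 325) (nat_lit 264) (nat_lit 191)) (XT.lf (nat_lit 0) (nat_lit 504919140) (nat_lit 304) (nat_lit 1225293781) (nat_lit 380) (nat_lit 12654903780) (nat_lit 108) (nat_lit 5) (nat_lit 112) (nat_lit 5) (nat_lit 113) (nat_lit 5) (nat_lit 326) (nat_lit 264) (nat_lit 190))))) (XT.nd (nat_lit 234) (nat_lit 988) (nat_lit 0) (XT.nd (nat_lit 78) (nat_lit 760) (nat_lit 0) (XT.lf (nat_lit 0) (nat_lit 6176379367) (nat_lit 380) (nat_lit 3244603351) (nat_lit 76) (nat_lit 5247465916) (nat_lit 108) (nat_lit 5) (nat_lit 113) (nat_lit 5) (nat_lit 109) (nat_lit 5) (nat_lit 327) (nat_lit 264) (nat_lit 189)) (XT.nd (nat_lit 78) (nat_lit 380) (nat_lit 0) (XT.lf (nat_lit 0) (nat_lit 7745818024)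 (nat_lit 380) (nat_lit 3029892986) (nat_lit 456) (nat_lit 4184194951) (nat_lit 103) (nat_lit 5) (nat_lit 108) (nat_lit 5) (nat_lit 109) (nat_lit 5) (nat_lit 328) (nat_lit 264) (nat_lit 188)) (XT.lf (nat_lit 0) (nat_lit 281725971) (nat_lit 380) (nat_lit 11441112254) (nat_lit 76) (nat_lit 3536613420) (nat_lit 98) (nat_lit 5) (nat_lit 103) (nat_lit 5) (nat_lit 99) (nat_lit 5) (nat_lit 329) (nat_lit 264) (nat_lit 187)))) (XT.nd (nat_lit 156) (nat_lit 684) (nat_lit 0) (XT.nd (nat_lit 78) (nat_lit 304) (nat_lit 0) (XT.lf (nat_lit 0) (nat_lit 4856980887) (nat_lit 380) (nat_lit 392031810) (nat_lit 76) (nat_lit 10317793233) (nat_lit 98) (nat_lit 5) (nat_lit 103) (nat_lit 5) (nat_lit 99) (nat_lit 5) (nat_lit 330) (nat_lit 264) (nat_lit 186)) (XT.lf (nat_lit 0) (nat_lit 9614493367) (nat_lit 380) (nat_lit 4813727502) (nat_lit 76) (nat_lit 1454278855) (nat_lit 94) (nat_lit 5) (nat_lit 99) (nat_lit 5) (nat_lit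 95) (nat_lit 5) (nat_lit 331) (nat_lit 264) (nat_lit 185))) (XT.nd (nat_lit 78) (nat_lit 380) (nat_lit 0) (XT.lf (nat_lit 0) (nat_lit 6668490656) (nat_lit 304) (nat_lit 7891405648) (nat_lit 380) (nat_lit 1646883055) (nat_lit 90) (nat_lit 5) (nat_lit 94) (nat_lit 5) (nat_lit 95) (nat_lit 5) (nat_lit 332) (nat_lit 264) (nat_lit 184)) (XT.lf (nat_lit 0) (nat_lit 1971765131) (nat_lit 304) (nat_lit 1110456272) (nat_lit 380) (nat_lit 13457975741) (nat_lit 85) (nat_lit 5) (nat_lit 89) (nat_lit 5) (nat_lit 90) (nat_lit 5) (nat_lit 333) (nat_lit 264) (nat_lit 183))))))) (XT.nd (nat_lit 1014) (nat_lit 1824) (nat_lit 0) (XT.nd (nat_lit 468) (nat_lit 1064) (nat_lit 0) (XT.nd (nat_lit 234) (nat_lit 532) (nat_lit 0) (XT.nd (nat_lit 78) (nat_lit 608) (nat_lit 0) (XT.lf (nat_lit 0) (nat_lit 7999248997) (nat_lit 380) (nat_lit 3028524740) (nat_lit 76) (nat_lit 5854274451) (nat_lit 85) (nat_lit 5) (nat_lit 90) (nat_lit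 5) (nat_lit 86) (nat_lit 5) (nat_lit 334) (nat_lit 264) (nat_lit 182)) (XT.nd (nat_lit 78) (nat_lit 380) (nat_lit 0) (XT.lf (nat_lit 0) (nat_lit 8914345252) (nat_lit 228) (nat_lit 4180859955) (nat_lit 304) (nat_lit 4138337646) (nat_lit 82) (nat_lit 5) (nat_lit 85) (nat_lit 5) (nat_lit 86) (nat_lit 5) (nat_lit 335) (nat_lit 264) (nat_lit 181)) (XT.lf (nat_lit 0) (nat_lit 768388548) (nat_lit 380) (nat_lit 13961766255) (nat_lit 76) (nat_lit 2864751078) (nat_lit 77) (nat_lit 5) (nat_lit 82) (nat_lit 5) (nat_lit 78) (nat_lit 5) (nat_lit 336) (nat_lit 264) (nat_lit 180)))) (XT.nd (nat_lit 78) (nat_lit 532) (nat_lit 0) (XT.lf (nat_lit 0) (nat_lit 5818167153) (nat_lit 380) (nat_lit 2016096930) (nat_lit 76) (nat_lit 10131272337) (nat_lit 77) (nat_lit 5) (nat_lit 82) (nat_lit 5) (nat_lit 78) (nat_lit 5) (nat_lit 337) (nat_lit 264) (nat_lit 179)) (XT.nd (nat_lit 78) (nat_lit 304) (nat_lit 0) (XT.lf (nat_lit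 0) (nat_lit 10373479349) (nat_lit 228) (nat_lit 681318858) (nat_lit 304) (nat_lit 7291795239) (nat_lit 74) (nat_lit 5) (nat_lit 77) (nat_lit 5) (nat_lit 78) (nat_lit 5) (nat_lit 338) (nat_lit 264) (nat_lit 178)) (XT.lf (nat_lit 0) (nat_lit 4387352966) (nat_lit 304) (nat_lit 12115322231) (nat_lit 380) (nat_lit 2235338370) (nat_lit 70) (nat_lit 5) (nat_lit 74) (nat_lit 5) (nat_lit 75) (nat_lit 5) (nat_lit 339) (nat_lit 264) (nat_lit 177))))) (XT.nd (nat_lit 234) (nat_lit 532) (nat_lit 0) (XT.nd (nat_lit 78) (nat_lit 456) (nat_lit 0) (XT.lf (nat_lit 0) (nat_lit 2961641924) (nat_lit 380) (nat_lit 1986369299) (nat_lit 76) (nat_lit 14192236299) (nat_lit 69) (nat_lit 5) (nat_lit 74) (nat_lit 5) (nat_lit 70) (nat_lit 5) (nat_lit 340) (nat_lit 264) (nat_lit 176)) (XT.nd (nat_lit 78) (nat_lit 228) (nat_lit 0) (XT.lf (nat_lit 0) (nat_lit 8340669400) (nat_lit 304) (nat_lit 8742183909) (nat_lit 76) (nat_lit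 2470282769) (nat_lit 66) (nat_lit 5) (nat_lit 70) (nat_lit 5) (nat_lit 67) (nat_lit 5) (nat_lit 341) (nat_lit 264) (nat_lit 175)) (XT.lf (nat_lit 0) (nat_lit 4012605956) (nat_lit 228) (nat_lit 9911390557) (nat_lit 304) (nat_lit 6053569051) (nat_lit 63) (nat_lit 5) (nat_lit 66) (nat_lit 5) (nat_lit 67) (nat_lit 5) (nat_lit 342) (nat_lit 264) (nat_lit 174)))) (XT.nd (nat_lit 156) (nat_lit 228) (nat_lit 0) (XT.nd (nat_lit 78) (nat_lit 304) (nat_lit 0) (XT.lf (nat_lit 0) (nat_lit 17222401649) (nat_lit 228) (nat_lit 2482458710) (nat_lit 304) (nat_lit 709279315) (nat_lit 63) (nat_lit 5) (nat_lit 66) (nat_lit 5) (nat_lit 67) (nat_lit 5) (nat_lit 343) (nat_lit 264) (nat_lit 173)) (XT.lf (nat_lit 0) (nat_lit 4803027337) (nat_lit 304) (nat_lit 10877928790) (nat_lit 76) (nat_lit 5180832467) (nat_lit 59) (nat_lit 5) (nat_lit 63) (nat_lit 5) (nat_lit 60) (nat_lit 5) (nat_lit 344) (nat_lit 264) (nat_lit 172)))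 (XT.nd (nat_lit 78) (nat_lit 0) (nat_lit 0) (XT.lf (nat_lit 0) (nat_lit 2237819424) (nat_lit 228) (nat_lit 8258074350) (nat_lit 304) (nat_lit 10826394432) (nat_lit 56) (nat_lit 5) (nat_lit 59) (nat_lit 5) (nat_lit 60) (nat_lit 5) (nat_lit 345) (nat_lit 264) (nat_lit 171)) (XT.lf (nat_lit 0) (nat_lit 15850663203) (nat_lit 228) (nat_lit 554990463) (nat_lit 304) (nat_lit 5390038186) (nat_lit 56) (nat_lit 5) (nat_lit 59) (nat_lit 5) (nat_lit 60) (nat_lit 5) (nat_lit 346) (nat_lit 264) (nat_lit 170)))))) (XT.nd (nat_lit 546) (nat_lit 836) (nat_lit 0) (XT.nd (nat_lit 234) (nat_lit 456) (nat_lit 0) (XT.nd (nat_lit 78) (nat_lit 228) (nat_lit 0) (XT.lf (nat_lit 0) (nat_lit 277433349) (nat_lit 304) (nat_lit 14687813960) (nat_lit 76) (nat_lit 7316618340) (nat_lit 52) (nat_lit 5) (nat_lit 56) (nat_lit 5) (nat_lit 53) (nat_lit 5) (nat_lit 347) (nat_lit 264) (nat_lit 169)) (XT.nd (nat_lit 78) (nat_lit 228) (nat_lit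 0) (XT.lf (nat_lit 0) (nat_lit 6059783409) (nat_lit 304) (nat_lit 1245197922) (nat_lit 76) (nat_lit 15476579434) (nat_lit 52) (nat_lit 5) (nat_lit 56) (nat_lit 5) (nat_lit 53) (nat_lit 5) (nat_lit 348) (nat_lit 264) (nat_lit 168)) (XT.lf (nat_lit 0) (nat_lit 12076635505) (nat_lit 304) (nat_lit 10574525303) (nat_lit 76) (nat_lit 643875340) (nat_lit 49) (nat_lit 5) (nat_lit 53) (nat_lit 5) (nat_lit 50) (nat_lit 5) (nat_lit 349) (nat_lit 264) (nat_lit 167)))) (XT.nd (nat_lit 156) (nat_lit 228) (nat_lit 0) (XT.nd (nat_lit 78) (nat_lit 76) (nat_lit 0) (XT.lf (nat_lit 0) (nat_lit 3249733694) (nat_lit 152) (nat_lit 15077252242) (nat_lit 228) (nat_lit 5495879752) (nat_lit 47) (nat_lit 5) (nat_lit 49) (nat_lit 5) (nat_lit 50) (nat_lit 5) (nat_lit 350) (nat_lit 264) (nat_lit 166)) (XT.lf (nat_lit 0) (nat_lit 440066878) (nat_lit 228) (nat_lit 6776813973) (nat_lit 76) (nat_lit 17148667340) (nat_lit 46) (nat_lit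 5) (nat_lit 49) (nat_lit 5) (nat_lit 47) (nat_lit 5) (nat_lit 351) (nat_lit 264) (nat_lit 165))) (XT.nd (nat_lit 78) (nat_lit 0) (nat_lit 0) (XT.lf (nat_lit 0) (nat_lit 6509985042) (nat_lit 304) (nat_lit 17475973168) (nat_lit 76) (nat_lit 937224202) (nat_lit 43) (nat_lit 5) (nat_lit 47) (nat_lit 5) (nat_lit 44) (nat_lit 5) (nat_lit 352) (nat_lit 264) (nat_lit 164)) (XT.lf (nat_lit 0) (nat_lit 12832409751) (nat_lit 304) (nat_lit 3395093412) (nat_lit 76) (nat_lit 9268643066) (nat_lit 43) (nat_lit 5) (nat_lit 47) (nat_lit 5) (nat_lit 44) (nat_lit 5) (nat_lit 353) (nat_lit 264) (nat_lit 163))))) (XT.nd (nat_lit 234) (nat_lit 380) (nat_lit 0) (XT.nd (nat_lit 78) (nat_lit 304) (nat_lit 0) (XT.lf (nat_lit 0) (nat_lit 11215879114) (nat_lit 152) (nat_lit 8178070924) (nat_lit 228) (nat_lit 6691368560) (nat_lit 41) (nat_lit 5) (nat_lit 43) (nat_lit 5) (nat_lit 44) (nat_lit 5) (nat_lit 354) (nat_lit 264) (nat_lit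 162)) (XT.nd (nat_lit 78) (nat_lit 304) (nat_lit 0) (XT.lf (nat_lit 0) (nat_lit 26153175878) (nat_lit 228) (nat_lit 420094161) (nat_lit 76) (nat_lit 118887558) (nat_lit 41) (nat_lit 5) (nat_lit 44) (nat_lit 5) (nat_lit 42) (nat_lit 5) (nat_lit 355) (nat_lit 264) (nat_lit 161)) (XT.lf (nat_lit 0) (nat_lit 5849616915) (nat_lit 304) (nat_lit 12792161936) (nat_lit 76) (nat_lit 8672124244) (nat_lit 37) (nat_lit 5) (nat_lit 41) (nat_lit 5) (nat_lit 38) (nat_lit 5) (nat_lit 356) (nat_lit 264) (nat_lit 160)))) (XT.nd (nat_lit 156) (nat_lit 228) (nat_lit 0) (XT.nd (nat_lit 78) (nat_lit 0) (nat_lit 0) (XT.lf (nat_lit 0) (nat_lit 1947556199) (nat_lit 152) (nat_lit 10468422147) (nat_lit 228) (nat_lit 15538390430) (nat_lit 35) (nat_lit 5) (nat_lit 37) (nat_lit 5) (nat_lit 38) (nat_lit 5) (nat_lit 357) (nat_lit 264) (nat_lit 159)) (XT.lf (nat_lit 0) (nat_lit 17267477745) (nat_lit 152) (nat_lit 1976815576) (nat_lit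 228) (nat_lit 9368463251) (nat_lit 35) (nat_lit 5) (nat_lit 37) (nat_lit 5) (nat_lit 38) (nat_lit 5) (nat_lit 358) (nat_lit 264) (nat_lit 158))) (XT.nd (nat_lit 78) (nat_lit 76) (nat_lit 0) (XT.lf (nat_lit 0) (nat_lit 3724657071) (nat_lit 152) (nat_lit 22599750707) (nat_lit 228) (nat_lit 2965556408) (nat_lit 33) (nat_lit 5) (nat_lit 35) (nat_lit 5) (nat_lit 36) (nat_lit 5) (nat_lit 359) (nat_lit 264) (nat_lit 157)) (XT.lf (nat_lit 0) (nat_lit 3651500120) (nat_lit 228) (nat_lit 10657293787) (nat_lit 76) (nat_lit 15676836398) (nat_lit 32) (nat_lit 5) (nat_lit 35) (nat_lit 5) (nat_lit 33) (nat_lit 5) (nat_lit 360) (nat_lit 264) (nat_lit 156))))))))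
noncomputable def xc60 : XT := (XT.nd (nat_lit 35100) (nat_lit 0) (nat_lit 9804) (XT.nd (nat_lit 34086) (nat_lit 0) (nat_lit 26220) (XT.nd (nat_lit 33540) (nat_lit 0) (nat_lit 39064) (XT.nd (nat_lit 33306) (nat_lit 0) (nat_lit 41420) (XT.nd (nat_lit 33150) (nat_lit 0) (nat_lit 42712) (XT.lf (nat_lit 0) (nat_lit 4704845794) (nat_lit 152) (nat_lit 5732373997) (nat_lit 228) (nat_lit 20264352373) (nat_lit 30) (nat_lit 5) (nat_lit 32) (nat_lit 5) (nat_lit 33) (nat_lit 5) (nat_lit 361) (nat_lit 264) (nat_lit 155)) (XT.nd (nat_lit 78) (nat_lit 0) (nat_lit 0) (XT.lf (nat_lit 0) (nat_lit 203289728) (nat_lit 0) (nat_lit 203289728) (nat_lit 532) (nat_lit 2869557200) (nat_lit 592) (nat_lit 5) (nat_lit 592) (nat_lit 3) (nat_lit 599) (nat_lit 3) (nat_lit 265) (nat_lit 265) (nat_lit 250)) (XT.lf (nat_lit 0) (nat_lit 4326877903) (nat_lit 532) (nat_lit 1629218671) (nat_lit 608) (nat_lit 619421494) (nat_lit 592)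 (nat_lit 5) (nat_lit 599) (nat_lit 3) (nat_lit 600) (nat_lit 5) (nat_lit 266) (nat_lit 265) (nat_lit 249)))) (XT.nd (nat_lit 78) (nat_lit 684) (nat_lit 0) (XT.lf (nat_lit 0) (nat_lit 1214004609) (nat_lit 608) (nat_lit 3622322847) (nat_lit 684) (nat_lit 1765447179) (nat_lit 584) (nat_lit 5) (nat_lit 592) (nat_lit 5) (nat_lit 593) (nat_lit 5) (nat_lit 267) (nat_lit 265) (nat_lit 248)) (XT.nd (nat_lit 78) (nat_lit 684) (nat_lit 0) (XT.lf (nat_lit 76) (nat_lit 1046280561) (nat_lit 0) (nat_lit 3588166182) (nat_lit 684) (nat_lit 1996571590) (nat_lit 585) (nat_lit 5) (nat_lit 584) (nat_lit 5) (nat_lit 593) (nat_lit 5) (nat_lit 268) (nat_lit 265) (nat_lit 247)) (XT.lf (nat_lit 0) (nat_lit 1370222659) (nat_lit 684) (nat_lit 839163594) (nat_lit 760) (nat_lit 4453866190) (nat_lit 575) (nat_lit 5) (nat_lit 584) (nat_lit 5) (nat_lit 585) (nat_lit 5) (nat_lit 269) (nat_lit 265) (nat_lit 246))))) (XT.nd (nat_lit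 234) (nat_lit 1672) (nat_lit 0) (XT.nd (nat_lit 78) (nat_lit 684) (nat_lit 0) (XT.lf (nat_lit 76) (nat_lit 4017079273) (nat_lit 0) (nat_lit 692650463) (nat_lit 760) (nat_lit 1988655149) (nat_lit 576) (nat_lit 5) (nat_lit 575) (nat_lit 5) (nat_lit 585) (nat_lit 5) (nat_lit 270) (nat_lit 265) (nat_lit 245)) (XT.nd (nat_lit 78) (nat_lit 0) (nat_lit 0) (XT.lf (nat_lit 0) (nat_lit 1297648494) (nat_lit 760) (nat_lit 4498289213) (nat_lit 836) (nat_lit 940586463) (nat_lit 566) (nat_lit 5) (nat_lit 576) (nat_lit 5) (nat_lit 577) (nat_lit 5) (nat_lit 271) (nat_lit 265) (nat_lit 244)) (XT.lf (nat_lit 76) (nat_lit 481408288) (nat_lit 0) (nat_lit 4078705205) (nat_lit 836) (nat_lit 2217498334) (nat_lit 567) (nat_lit 5) (nat_lit 566) (nat_lit 5) (nat_lit 577) (nat_lit 5) (nat_lit 272) (nat_lit 265) (nat_lit 243)))) (XT.nd (nat_lit 156) (nat_lit 836) (nat_lit 0) (XT.nd (nat_lit 78) (nat_lit 0) (nat_lit 0) (XT.lf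 (nat_lit 0) (nat_lit 997294880) (nat_lit 836) (nat_lit 1228620333) (nat_lit 912) (nat_lit 4595801081) (nat_lit 555) (nat_lit 5) (nat_lit 566) (nat_lit 5) (nat_lit 567) (nat_lit 5) (nat_lit 273) (nat_lit 265) (nat_lit 242)) (XT.lf (nat_lit 76) (nat_lit 3956182272) (nat_lit 0) (nat_lit 232084654) (nat_lit 912) (nat_lit 2680533413) (nat_lit 556) (nat_lit 5) (nat_lit 555) (nat_lit 5) (nat_lit 567) (nat_lit 5) (nat_lit 274) (nat_lit 265) (nat_lit 241))) (XT.nd (nat_lit 78) (nat_lit 0) (nat_lit 0) (XT.lf (nat_lit 0) (nat_lit 472314040) (nat_lit 912) (nat_lit 4580427079) (nat_lit 988) (nat_lit 1866184007) (nat_lit 544) (nat_lit 5) (nat_lit 556) (nat_lit 5) (nat_lit 557) (nat_lit 5) (nat_lit 275) (nat_lit 265) (nat_lit 240)) (XT.lf (nat_lit 76) (nat_lit 733066311) (nat_lit 0) (nat_lit 2865800089) (nat_lit 988) (nat_lit 3373157839) (nat_lit 545) (nat_lit 5) (nat_lit 544) (nat_lit 5) (nat_lit 557) (nat_lit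 5) (nat_lit 276) (nat_lit 265) (nat_lit 239)))))) (XT.nd (nat_lit 468) (nat_lit 8588) (nat_lit 0) (XT.nd (nat_lit 234) (nat_lit 2356) (nat_lit 0) (XT.nd (nat_lit 78) (nat_lit 1900) (nat_lit 0) (XT.lf (nat_lit 76) (nat_lit 6196062958) (nat_lit 0) (nat_lit 546098749) (nat_lit 988) (nat_lit 286227437) (nat_lit 545) (nat_lit 5) (nat_lit 544) (nat_lit 5) (nat_lit 557) (nat_lit 5) (nat_lit 277) (nat_lit 265) (nat_lit 238)) (XT.nd (nat_lit 78) (nat_lit 988) (nat_lit 0) (XT.lf (nat_lit 0) (nat_lit 2792676644) (nat_lit 988) (nat_lit 2392769294) (nat_lit 76) (nat_lit 1902002512) (nat_lit 532) (nat_lit 5) (nat_lit 545) (nat_lit 5) (nat_lit 533) (nat_lit 5) (nat_lit 278) (nat_lit 265) (nat_lit 237)) (XT.lf (nat_lit 0) (nat_lit 3214028473) (nat_lit 988) (nat_lit 2673315184) (nat_lit 1064) (nat_lit 1262474096) (nat_lit 519) (nat_lit 5) (nat_lit 532) (nat_lit 5) (nat_lit 533) (nat_lit 5) (nat_lit 279) (nat_lit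 265) (nat_lit 236)))) (XT.nd (nat_lit 78) (nat_lit 1216) (nat_lit 0) (XT.lf (nat_lit 0) (nat_lit 1745235242) (nat_lit 1064) (nat_lit 17619420) (nat_lit 1140) (nat_lit 5452548393) (nat_lit 504) (nat_lit 5) (nat_lit 518) (nat_lit 5) (nat_lit 519) (nat_lit 5) (nat_lit 280) (nat_lit 265) (nat_lit 235)) (XT.nd (nat_lit 78) (nat_lit 76) (nat_lit 0) (XT.lf (nat_lit 0) (nat_lit 270849969) (nat_lit 1140) (nat_lit 4538752660) (nat_lit 1216) (nat_lit 2474342670) (nat_lit 489) (nat_lit 5) (nat_lit 504) (nat_lit 5) (nat_lit 505) (nat_lit 5) (nat_lit 281) (nat_lit 265) (nat_lit 234)) (XT.lf (nat_lit 0) (nat_lit 525972128) (nat_lit 1216) (nat_lit 1173806392) (nat_lit 76) (nat_lit 5655984491) (nat_lit 488) (nat_lit 5) (nat_lit 504) (nat_lit 5) (nat_lit 489) (nat_lit 5) (nat_lit 282) (nat_lit 265) (nat_lit 233))))) (XT.nd (nat_lit 234) (nat_lit 4636) (nat_lit 0) (XT.nd (nat_lit 78) (nat_lit 2736) (nat_lit 0) (XT.lf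 (nat_lit 0) (nat_lit 3528470916) (nat_lit 1292) (nat_lit 2624496697) (nat_lit 76) (nat_lit 1277628681) (nat_lit 472) (nat_lit 5) (nat_lit 489) (nat_lit 5) (nat_lit 473) (nat_lit 5) (nat_lit 283) (nat_lit 265) (nat_lit 232)) (XT.nd (nat_lit 78) (nat_lit 1444) (nat_lit 0) (XT.lf (nat_lit 0) (nat_lit 3434095678) (nat_lit 1292) (nat_lit 3136961861) (nat_lit 1368) (nat_lit 937717722) (nat_lit 455) (nat_lit 5) (nat_lit 472) (nat_lit 5) (nat_lit 473) (nat_lit 5) (nat_lit 284) (nat_lit 265) (nat_lit 231)) (XT.lf (nat_lit 0) (nat_lit 2029220635) (nat_lit 1444) (nat_lit 5529482475) (nat_lit 76) (nat_lit 31590944) (nat_lit 436) (nat_lit 5) (nat_lit 455) (nat_lit 5) (nat_lit 437) (nat_lit 5) (nat_lit 285) (nat_lit 265) (nat_lit 230)))) (XT.nd (nat_lit 156) (nat_lit 3116) (nat_lit 0) (XT.nd (nat_lit 78) (nat_lit 76) (nat_lit 0) (XT.lf (nat_lit 0) (nat_lit 669443548) (nat_lit 1444) (nat_lit 4368285840) (nat_lit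 1520) (nat_lit 2637192296) (nat_lit 417) (nat_lit 5) (nat_lit 436) (nat_lit 5) (nat_lit 437) (nat_lit 5) (nat_lit 286) (nat_lit 265) (nat_lit 229)) (XT.lf (nat_lit 0) (nat_lit 320750591) (nat_lit 1520) (nat_lit 708364171) (nat_lit 76) (nat_lit 6733988438) (nat_lit 416) (nat_lit 5) (nat_lit 436) (nat_lit 5) (nat_lit 417) (nat_lit 5) (nat_lit 287) (nat_lit 265) (nat_lit 228))) (XT.nd (nat_lit 78) (nat_lit 1596) (nat_lit 0) (XT.lf (nat_lit 0) (nat_lit 3301372783) (nat_lit 1596) (nat_lit 2107274462) (nat_lit 76) (nat_lit 2445625083) (nat_lit 396) (nat_lit 5) (nat_lit 417) (nat_lit 5) (nat_lit 397) (nat_lit 5) (nat_lit 288) (nat_lit 265) (nat_lit 227)) (XT.lf (nat_lit 0) (nat_lit 4436074054) (nat_lit 1596) (nat_lit 1893966619) (nat_lit 1672) (nat_lit 1619047009) (nat_lit 375) (nat_lit 5) (nat_lit 396) (nat_lit 5) (nat_lit 397) (nat_lit 5) (nat_lit 289) (nat_lit 265) (nat_lit 226))))))) (XT.nd (nat_lit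 1014) (nat_lit 6384) (nat_lit 0) (XT.nd (nat_lit 468) (nat_lit 4636) (nat_lit 0) (XT.nd (nat_lit 234) (nat_lit 1672) (nat_lit 0) (XT.nd (nat_lit 78) (nat_lit 1976) (nat_lit 0) (XT.lf (nat_lit 0) (nat_lit 1350003124) (nat_lit 1748) (nat_lit 4942126010) (nat_lit 76) (nat_lit 1755204257) (nat_lit 352) (nat_lit 5) (nat_lit 375) (nat_lit 5) (nat_lit 353) (nat_lit 5) (nat_lit 290) (nat_lit 265) (nat_lit 225)) (XT.nd (nat_lit 78) (nat_lit 836) (nat_lit 0) (XT.lf (nat_lit 0) (nat_lit 1747972060) (nat_lit 1140) (nat_lit 2607608473) (nat_lit 1216) (nat_lit 3793420198) (nat_lit 337) (nat_lit 5) (nat_lit 352) (nat_lit 5) (nat_lit 353) (nat_lit 5) (nat_lit 291) (nat_lit 265) (nat_lit 224)) (XT.lf (nat_lit 0) (nat_lit 376614969) (nat_lit 836) (nat_lit 7041778644) (nat_lit 912) (nat_lit 836058199) (nat_lit 326) (nat_lit 5) (nat_lit 337) (nat_lit 5) (nat_lit 338) (nat_lit 5) (nat_lit 292) (nat_lit 265) (nat_lit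 223)))) (XT.nd (nat_lit 78) (nat_lit 1596) (nat_lit 0) (XT.lf (nat_lit 0) (nat_lit 2166539704) (nat_lit 912) (nat_lit 1022712833) (nat_lit 76) (nat_lit 5173888386) (nat_lit 325) (nat_lit 5) (nat_lit 337) (nat_lit 5) (nat_lit 326) (nat_lit 5) (nat_lit 293) (nat_lit 265) (nat_lit 222)) (XT.nd (nat_lit 78) (nat_lit 760) (nat_lit 0) (XT.lf (nat_lit 0) (nat_lit 5219105349) (nat_lit 912) (nat_lit 2440906460) (nat_lit 76) (nat_lit 815612791) (nat_lit 314) (nat_lit 5) (nat_lit 326) (nat_lit 5) (nat_lit 315) (nat_lit 5) (nat_lit 294) (nat_lit 265) (nat_lit 221)) (XT.lf (nat_lit 0) (nat_lit 4694875890) (nat_lit 760) (nat_lit 3655449471) (nat_lit 836) (nat_lit 241483247) (nat_lit 304) (nat_lit 5) (nat_lit 314) (nat_lit 5) (nat_lit 315) (nat_lit 5) (nat_lit 295) (nat_lit 265) (nat_lit 220))))) (XT.nd (nat_lit 234) (nat_lit 2128) (nat_lit 0) (XT.nd (nat_lit 78) (nat_lit 1596) (nat_lit 0) (XT.lf (nat_lit 0)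 (nat_lit 2797456344) (nat_lit 912) (nat_lit 5395086644) (nat_lit 76) (nat_lit 519207086) (nat_lit 292) (nat_lit 5) (nat_lit 304) (nat_lit 5) (nat_lit 293) (nat_lit 5) (nat_lit 296) (nat_lit 265) (nat_lit 219)) (XT.nd (nat_lit 78) (nat_lit 836) (nat_lit 0) (XT.lf (nat_lit 0) (nat_lit 1891866789) (nat_lit 760) (nat_lit 4026726727) (nat_lit 836) (nat_lit 2916840398) (nat_lit 282) (nat_lit 5) (nat_lit 292) (nat_lit 5) (nat_lit 293) (nat_lit 5) (nat_lit 297) (nat_lit 265) (nat_lit 218)) (XT.lf (nat_lit 0) (nat_lit 141954867) (nat_lit 836) (nat_lit 8523517865) (nat_lit 76) (nat_lit 297919550) (nat_lit 271) (nat_lit 5) (nat_lit 282) (nat_lit 5) (nat_lit 272) (nat_lit 5) (nat_lit 298) (nat_lit 265) (nat_lit 217)))) (XT.nd (nat_lit 156) (nat_lit 1444) (nat_lit 0) (XT.nd (nat_lit 78) (nat_lit 684) (nat_lit 0) (XT.lf (nat_lit 0) (nat_lit 3260923158) (nat_lit 836) (nat_lit 1073079293) (nat_lit 76) (nat_lit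 4760698127) (nat_lit 271) (nat_lit 5) (nat_lit 282) (nat_lit 5) (nat_lit 272) (nat_lit 5) (nat_lit 299) (nat_lit 265) (nat_lit 216)) (XT.lf (nat_lit 0) (nat_lit 6452961160) (nat_lit 760) (nat_lit 2613699470) (nat_lit 76) (nat_lit 163753336) (nat_lit 262) (nat_lit 5) (nat_lit 272) (nat_lit 5) (nat_lit 263) (nat_lit 5) (nat_lit 300) (nat_lit 265) (nat_lit 215))) (XT.nd (nat_lit 78) (nat_lit 684) (nat_lit 0) (XT.lf (nat_lit 0) (nat_lit 372287746) (nat_lit 760) (nat_lit 4222216421) (nat_lit 76) (nat_lit 4775567913) (nat_lit 252) (nat_lit 5) (nat_lit 262) (nat_lit 5) (nat_lit 253) (nat_lit 5) (nat_lit 301) (nat_lit 265) (nat_lit 214)) (XT.lf (nat_lit 0) (nat_lit 3558565356) (nat_lit 760) (nat_lit 5890883669) (nat_lit 76) (nat_lit 64559762) (nat_lit 243) (nat_lit 5) (nat_lit 253) (nat_lit 5) (nat_lit 244) (nat_lit 5) (nat_lit 302) (nat_lit 265) (nat_lit 213)))))) (XT.nd (nat_lit 546) (nat_lit 2660) (nat_lit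 0) (XT.nd (nat_lit 234) (nat_lit 2356) (nat_lit 0) (XT.nd (nat_lit 78) (nat_lit 684) (nat_lit 0) (XT.lf (nat_lit 0) (nat_lit 2025755494) (nat_lit 684) (nat_lit 4826455227) (nat_lit 760) (nat_lit 2809867401) (nat_lit 234) (nat_lit 5) (nat_lit 243) (nat_lit 5) (nat_lit 244) (nat_lit 5) (nat_lit 303) (nat_lit 265) (nat_lit 212)) (XT.nd (nat_lit 78) (nat_lit 0) (nat_lit 0) (XT.lf (nat_lit 0) (nat_lit 379113481) (nat_lit 608) (nat_lit 27952276) (nat_lit 684) (nat_lit 9407863026) (nat_lit 225) (nat_lit 5) (nat_lit 233) (nat_lit 5) (nat_lit 234) (nat_lit 5) (nat_lit 304) (nat_lit 265) (nat_lit 211)) (XT.lf (nat_lit 0) (nat_lit 3707773373) (nat_lit 684) (nat_lit 1352401220) (nat_lit 76) (nat_lit 4911356389) (nat_lit 225) (nat_lit 5) (nat_lit 234) (nat_lit 5) (nat_lit 226) (nat_lit 5) (nat_lit 305) (nat_lit 265) (nat_lit 210)))) (XT.nd (nat_lit 156) (nat_lit 1140) (nat_lit 0) (XT.nd (nat_lit 78) (nat_lit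 608) (nat_lit 0) (XT.lf (nat_lit 0) (nat_lit 6997559604) (nat_lit 608) (nat_lit 98501057) (nat_lit 684) (nat_lit 3037044378) (nat_lit 217) (nat_lit 5) (nat_lit 225) (nat_lit 5) (nat_lit 226) (nat_lit 5) (nat_lit 306) (nat_lit 265) (nat_lit 209)) (XT.lf (nat_lit 0) (nat_lit 302993157) (nat_lit 608) (nat_lit 5014780249) (nat_lit 76) (nat_lit 4981352911) (nat_lit 209) (nat_lit 5) (nat_lit 217) (nat_lit 5) (nat_lit 210) (nat_lit 5) (nat_lit 307) (nat_lit 265) (nat_lit 208))) (XT.nd (nat_lit 78) (nat_lit 532) (nat_lit 0) (XT.lf (nat_lit 0) (nat_lit 3487463391) (nat_lit 608) (nat_lit 204324912) (nat_lit 684) (nat_lit 6778183624) (nat_lit 201) (nat_lit 5) (nat_lit 209) (nat_lit 5) (nat_lit 210) (nat_lit 5) (nat_lit 308) (nat_lit 265) (nat_lit 207)) (XT.lf (nat_lit 0) (nat_lit 1588730353) (nat_lit 532) (nat_lit 5616897657) (nat_lit 608) (nat_lit 3439887622) (nat_lit 194) (nat_lit 5) (nat_lit 201) (nat_lit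 5) (nat_lit 202) (nat_lit 5) (nat_lit 309) (nat_lit 265) (nat_lit 206))))) (XT.nd (nat_lit 234) (nat_lit 1520) (nat_lit 0) (XT.nd (nat_lit 78) (nat_lit 1140) (nat_lit 0) (XT.lf (nat_lit 0) (nat_lit 10445223232) (nat_lit 532) (nat_lit 375466441) (nat_lit 608) (nat_lit 5759005) (nat_lit 194) (nat_lit 5) (nat_lit 201) (nat_lit 5) (nat_lit 202) (nat_lit 5) (nat_lit 310) (nat_lit 265) (nat_lit 205)) (XT.nd (nat_lit 78) (nat_lit 532) (nat_lit 0) (XT.lf (nat_lit 0) (nat_lit 3522126447) (nat_lit 608) (nat_lit 2466041498) (nat_lit 76) (nat_lit 5023479532) (nat_lit 186) (nat_lit 5) (nat_lit 194) (nat_lit 5) (nat_lit 187) (nat_lit 5) (nat_lit 311) (nat_lit 265) (nat_lit 204)) (XT.lf (nat_lit 0) (nat_lit 6561816662) (nat_lit 532) (nat_lit 590970793) (nat_lit 608) (nat_lit 4049709871) (nat_lit 179) (nat_lit 5) (nat_lit 186) (nat_lit 5) (nat_lit 187) (nat_lit 5) (nat_lit 312) (nat_lit 265) (nat_lit 203)))) (XT.nd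 (nat_lit 156) (nat_lit 456) (nat_lit 0) (XT.nd (nat_lit 78) (nat_lit 532) (nat_lit 0) (XT.lf (nat_lit 0) (nat_lit 4456942653) (nat_lit 532) (nat_lit 6463713976) (nat_lit 608) (nat_lit 477885414) (nat_lit 172) (nat_lit 5) (nat_lit 179) (nat_lit 5) (nat_lit 180) (nat_lit 5) (nat_lit 313) (nat_lit 265) (nat_lit 202)) (XT.lf (nat_lit 0) (nat_lit 2231188818) (nat_lit 456) (nat_lit 928967691) (nat_lit 532) (nat_lit 8439908455) (nat_lit 165) (nat_lit 5) (nat_lit 171) (nat_lit 5) (nat_lit 172) (nat_lit 5) (nat_lit 314) (nat_lit 265) (nat_lit 201))) (XT.nd (nat_lit 78) (nat_lit 456) (nat_lit 0) (XT.lf (nat_lit 0) (nat_lit 6931087072) (nat_lit 532) (nat_lit 131161971) (nat_lit 76) (nat_lit 4744749027) (nat_lit 165) (nat_lit 5) (nat_lit 172) (nat_lit 5) (nat_lit 166) (nat_lit 5) (nat_lit 315) (nat_lit 265) (nat_lit 200)) (XT.lf (nat_lit 0) (nat_lit 9438975382) (nat_lit 456) (nat_lit 1396939637) (nat_lit 532)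 (nat_lit 1183840286) (nat_lit 159) (nat_lit 5) (nat_lit 165) (nat_lit 5) (nat_lit 166) (nat_lit 5) (nat_lit 316) (nat_lit 265) (nat_lit 199))))))))
noncomputable def xc61 : XT := (XT.nd (nat_lit 2028) (nat_lit 2584) (nat_lit 0) (XT.nd (nat_lit 1014) (nat_lit 2812) (nat_lit 0) (XT.nd (nat_lit 468) (nat_lit 1976) (nat_lit 0) (XT.nd (nat_lit 234) (nat_lit 912) (nat_lit 0) (XT.nd (nat_lit 78) (nat_lit 836) (nat_lit 0) (XT.lf (nat_lit 0) (nat_lit 2614500346) (nat_lit 532) (nat_lit 5194741166) (nat_lit 76) (nat_lit 4428746543) (nat_lit 152) (nat_lit 5) (nat_lit 159) (nat_lit 5) (nat_lit 153) (nat_lit 5) (nat_lit 317) (nat_lit 265) (nat_lit 198)) (XT.nd (nat_lit 78) (nat_lit 380) (nat_lit 0) (XT.lf (nat_lit 0) (nat_lit 4508916332) (nat_lit 456) (nat_lit 2012851175) (nat_lit 532) (nat_lit 5940651709) (nat_lit 146) (nat_lit 5) (nat_lit 152) (nat_lit 5) (nat_lit 153) (nat_lit 5) (nat_lit 318) (nat_lit 265)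 (nat_lit 197)) (XT.lf (nat_lit 0) (nat_lit 1818276950) (nat_lit 380) (nat_lit 8756474389) (nat_lit 456) (nat_lit 2118290288) (nat_lit 141) (nat_lit 5) (nat_lit 146) (nat_lit 5) (nat_lit 147) (nat_lit 5) (nat_lit 319) (nat_lit 265) (nat_lit 196)))) (XT.nd (nat_lit 78) (nat_lit 836) (nat_lit 0) (XT.lf (nat_lit 0) (nat_lit 1818752310) (nat_lit 456) (nat_lit 1024216474) (nat_lit 76) (nat_lit 10086927410) (nat_lit 140) (nat_lit 5) (nat_lit 146) (nat_lit 5) (nat_lit 141) (nat_lit 5) (nat_lit 320) (nat_lit 265) (nat_lit 195)) (XT.nd (nat_lit 78) (nat_lit 380) (nat_lit 0) (XT.lf (nat_lit 0) (nat_lit 5883713393) (nat_lit 532) (nat_lit 4026180371) (nat_lit 76) (nat_lit 3262937005) (nat_lit 134) (nat_lit 5) (nat_lit 141) (nat_lit 5) (nat_lit 135) (nat_lit 5) (nat_lit 321) (nat_lit 265) (nat_lit 194)) (XT.lf (nat_lit 0) (nat_lit 6217057350) (nat_lit 380) (nat_lit 3878109433) (nat_lit 456) (nat_lit 3327421110)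 (nat_lit 129) (nat_lit 5) (nat_lit 134) (nat_lit 5) (nat_lit 135) (nat_lit 5) (nat_lit 322) (nat_lit 265) (nat_lit 193))))) (XT.nd (nat_lit 234) (nat_lit 1140) (nat_lit 0) (XT.nd (nat_lit 78) (nat_lit 380) (nat_lit 0) (XT.lf (nat_lit 0) (nat_lit 765089038) (nat_lit 456) (nat_lit 10574544891) (nat_lit 76) (nat_lit 2339693352) (nat_lit 123) (nat_lit 5) (nat_lit 129) (nat_lit 5) (nat_lit 124) (nat_lit 5) (nat_lit 323) (nat_lit 265) (nat_lit 192)) (XT.nd (nat_lit 78) (nat_lit 380) (nat_lit 0) (XT.lf (nat_lit 0) (nat_lit 4969948476) (nat_lit 456) (nat_lit 226816372) (nat_lit 76) (nat_lit 8745891958) (nat_lit 123) (nat_lit 5) (nat_lit 129) (nat_lit 5) (nat_lit 124) (nat_lit 5) (nat_lit 324) (nat_lit 265) (nat_lit 191)) (XT.lf (nat_lit 0) (nat_lit 9337504234) (nat_lit 456) (nat_lit 3708637713) (nat_lit 76) (nat_lit 1167036028) (nat_lit 118) (nat_lit 5) (nat_lit 124) (nat_lit 5) (nat_lit 119) (nat_lit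 5) (nat_lit 325) (nat_lit 265) (nat_lit 190)))) (XT.nd (nat_lit 156) (nat_lit 380) (nat_lit 0) (XT.nd (nat_lit 78) (nat_lit 380) (nat_lit 0) (XT.lf (nat_lit 0) (nat_lit 7070522896) (nat_lit 380) (nat_lit 6809061340) (nat_lit 456) (nat_lit 611382698) (nat_lit 113) (nat_lit 5) (nat_lit 118) (nat_lit 5) (nat_lit 119) (nat_lit 5) (nat_lit 326) (nat_lit 265) (nat_lit 189)) (XT.lf (nat_lit 0) (nat_lit 3411044249) (nat_lit 304) (nat_lit 329434826) (nat_lit 380) (nat_lit 11035956007) (nat_lit 108) (nat_lit 5) (nat_lit 112) (nat_lit 5) (nat_lit 113) (nat_lit 5) (nat_lit 327) (nat_lit 265) (nat_lit 188))) (XT.nd (nat_lit 78) (nat_lit 380) (nat_lit 0) (XT.lf (nat_lit 0) (nat_lit 8268869718) (nat_lit 380) (nat_lit 501982731) (nat_lit 76) (nat_lit 6298468843) (nat_lit 108) (nat_lit 5) (nat_lit 113) (nat_lit 5) (nat_lit 109) (nat_lit 5) (nat_lit 328) (nat_lit 265) (nat_lit 187)) (XT.lf (nat_lit 0) (nat_lit 10772076329)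 (nat_lit 380) (nat_lit 2196695243) (nat_lit 456) (nat_lit 2401529160) (nat_lit 103) (nat_lit 5) (nat_lit 108) (nat_lit 5) (nat_lit 109) (nat_lit 5) (nat_lit 329) (nat_lit 265) (nat_lit 186)))))) (XT.nd (nat_lit 468) (nat_lit 1444) (nat_lit 0) (XT.nd (nat_lit 234) (nat_lit 684) (nat_lit 0) (XT.nd (nat_lit 78) (nat_lit 304) (nat_lit 0) (XT.lf (nat_lit 0) (nat_lit 2142529264) (nat_lit 380) (nat_lit 8978337506) (nat_lit 76) (nat_lit 4558363253) (nat_lit 98) (nat_lit 5) (nat_lit 103) (nat_lit 5) (nat_lit 99) (nat_lit 5) (nat_lit 330) (nat_lit 265) (nat_lit 185)) (XT.nd (nat_lit 78) (nat_lit 0) (nat_lit 0) (XT.lf (nat_lit 0) (nat_lit 2351325008) (nat_lit 304) (nat_lit 4465031194) (nat_lit 380) (nat_lit 9180250354) (nat_lit 94) (nat_lit 5) (nat_lit 98) (nat_lit 5) (nat_lit 99) (nat_lit 5) (nat_lit 331) (nat_lit 265) (nat_lit 184)) (XT.lf (nat_lit 0) (nat_lit 11672299571) (nat_lit 380) (nat_lit 2247837845)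 (nat_lit 76) (nat_lit 2402546733) (nat_lit 94) (nat_lit 5) (nat_lit 99) (nat_lit 5) (nat_lit 95) (nat_lit 5) (nat_lit 332) (nat_lit 265) (nat_lit 183)))) (XT.nd (nat_lit 78) (nat_lit 304) (nat_lit 0) (XT.lf (nat_lit 0) (nat_lit 73461871) (nat_lit 380) (nat_lit 7123010814) (nat_lit 76) (nat_lit 9460920597) (nat_lit 89) (nat_lit 5) (nat_lit 94) (nat_lit 5) (nat_lit 90) (nat_lit 5) (nat_lit 333) (nat_lit 265) (nat_lit 182)) (XT.nd (nat_lit 78) (nat_lit 0) (nat_lit 0) (XT.lf (nat_lit 0) (nat_lit 4677682442) (nat_lit 304) (nat_lit 210796246) (nat_lit 380) (nat_lit 12112813955) (nat_lit 85) (nat_lit 5) (nat_lit 89) (nat_lit 5) (nat_lit 90) (nat_lit 5) (nat_lit 334) (nat_lit 265) (nat_lit 181)) (XT.lf (nat_lit 0) (nat_lit 9908981930) (nat_lit 380) (nat_lit 521499620) (nat_lit 76) (nat_lit 6923822681) (nat_lit 85) (nat_lit 5) (nat_lit 90) (nat_lit 5) (nat_lit 86) (nat_lit 5) (nat_lit 335) (nat_lit 265)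 (nat_lit 180))))) (XT.nd (nat_lit 234) (nat_lit 608) (nat_lit 0) (XT.nd (nat_lit 78) (nat_lit 608) (nat_lit 0) (XT.lf (nat_lit 0) (nat_lit 11737508942) (nat_lit 228) (nat_lit 3388267746) (nat_lit 304) (nat_lit 2591231451) (nat_lit 82) (nat_lit 5) (nat_lit 85) (nat_lit 5) (nat_lit 86) (nat_lit 5) (nat_lit 336) (nat_lit 265) (nat_lit 179)) (XT.nd (nat_lit 78) (nat_lit 228) (nat_lit 0) (XT.lf (nat_lit 0) (nat_lit 2415173594) (nat_lit 380) (nat_lit 11816889126) (nat_lit 76) (nat_lit 3857466866) (nat_lit 77) (nat_lit 5) (nat_lit 82) (nat_lit 5) (nat_lit 78) (nat_lit 5) (nat_lit 337) (nat_lit 265) (nat_lit 178)) (XT.lf (nat_lit 0) (nat_lit 417960150) (nat_lit 228) (nat_lit 7153905876) (nat_lit 304) (nat_lit 10900326415) (nat_lit 74) (nat_lit 5) (nat_lit 77) (nat_lit 5) (nat_lit 78) (nat_lit 5) (nat_lit 338) (nat_lit 265) (nat_lit 177)))) (XT.nd (nat_lit 156) (nat_lit 304) (nat_lit 0) (XT.nd (nat_lit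 78) (nat_lit 304) (nat_lit 0) (XT.lf (nat_lit 0) (nat_lit 12934166782) (nat_lit 304) (nat_lit 5733298639) (nat_lit 76) (nat_lit 197865516) (nat_lit 74) (nat_lit 5) (nat_lit 78) (nat_lit 5) (nat_lit 75) (nat_lit 5) (nat_lit 339) (nat_lit 265) (nat_lit 176)) (XT.lf (nat_lit 0) (nat_lit 6953281101) (nat_lit 304) (nat_lit 11567348335) (nat_lit 380) (nat_lit 748381796) (nat_lit 70) (nat_lit 5) (nat_lit 74) (nat_lit 5) (nat_lit 75) (nat_lit 5) (nat_lit 340) (nat_lit 265) (nat_lit 175))) (XT.nd (nat_lit 78) (nat_lit 0) (nat_lit 0) (XT.lf (nat_lit 0) (nat_lit 342375156) (nat_lit 228) (nat_lit 4199305473) (nat_lit 304) (nat_lit 15142298273) (nat_lit 66) (nat_lit 5) (nat_lit 69) (nat_lit 5) (nat_lit 70) (nat_lit 5) (nat_lit 341) (nat_lit 265) (nat_lit 174)) (XT.lf (nat_lit 0) (nat_lit 10057456201) (nat_lit 304) (nat_lit 6635171256) (nat_lit 76) (nat_lit 3417138109) (nat_lit 66) (nat_lit 5) (nat_lit 70) (nat_lit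 5) (nat_lit 67) (nat_lit 5) (nat_lit 342) (nat_lit 265) (nat_lit 173))))))) (XT.nd (nat_lit 1014) (nat_lit 684) (nat_lit 0) (XT.nd (nat_lit 468) (nat_lit 836) (nat_lit 0) (XT.nd (nat_lit 234) (nat_lit 532) (nat_lit 0) (XT.nd (nat_lit 78) (nat_lit 304) (nat_lit 0) (XT.lf (nat_lit 0) (nat_lit 6463823582) (nat_lit 228) (nat_lit 9316877366) (nat_lit 304) (nat_lit 4766797077) (nat_lit 63) (nat_lit 5) (nat_lit 66) (nat_lit 5) (nat_lit 67) (nat_lit 5) (nat_lit 343) (nat_lit 265) (nat_lit 172)) (XT.nd (nat_lit 78) (nat_lit 228) (nat_lit 0) (XT.lf (nat_lit 0) (nat_lit 685937283) (nat_lit 304) (nat_lit 1000513637) (nat_lit 76) (nat_lit 19311484333) (nat_lit 62) (nat_lit 5) (nat_lit 66) (nat_lit 5) (nat_lit 63) (nat_lit 5) (nat_lit 344) (nat_lit 265) (nat_lit 171)) (XT.lf (nat_lit 0) (nat_lit 6333245212) (nat_lit 304) (nat_lit 8936495662) (nat_lit 76) (nat_lit 6189610678) (nat_lit 59) (nat_lit 5) (nat_lit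 63) (nat_lit 5) (nat_lit 60) (nat_lit 5) (nat_lit 345) (nat_lit 265) (nat_lit 170)))) (XT.nd (nat_lit 78) (nat_lit 304) (nat_lit 0) (XT.lf (nat_lit 0) (nat_lit 4535933108) (nat_lit 228) (nat_lit 7635076897) (nat_lit 304) (nat_lit 9763190447) (nat_lit 56) (nat_lit 5) (nat_lit 59) (nat_lit 5) (nat_lit 60) (nat_lit 5) (nat_lit 346) (nat_lit 265) (nat_lit 169)) (XT.nd (nat_lit 78) (nat_lit 304) (nat_lit 0) (XT.lf (nat_lit 0) (nat_lit 18220221361) (nat_lit 304) (nat_lit 3932209710) (nat_lit 76) (nat_lit 270148030) (nat_lit 56) (nat_lit 5) (nat_lit 60) (nat_lit 5) (nat_lit 57) (nat_lit 5) (nat_lit 347) (nat_lit 265) (nat_lit 168)) (XT.lf (nat_lit 0) (nat_lit 1596345411) (nat_lit 304) (nat_lit 12958552170) (nat_lit 76) (nat_lit 8368702505) (nat_lit 52) (nat_lit 5) (nat_lit 56) (nat_lit 5) (nat_lit 53) (nat_lit 5) (nat_lit 348) (nat_lit 265) (nat_lit 167))))) (XT.nd (nat_lit 234) (nat_lit 456) (nat_lit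 0) (XT.nd (nat_lit 78) (nat_lit 152) (nat_lit 0) (XT.lf (nat_lit 0) (nat_lit 835093894) (nat_lit 228) (nat_lit 6684321565) (nat_lit 304) (nat_lit 15919540454) (nat_lit 49) (nat_lit 5) (nat_lit 52) (nat_lit 5) (nat_lit 53) (nat_lit 5) (nat_lit 349) (nat_lit 265) (nat_lit 166)) (XT.nd (nat_lit 78) (nat_lit 152) (nat_lit 0) (XT.lf (nat_lit 0) (nat_lit 13693094649) (nat_lit 304) (nat_lit 8799135650) (nat_lit 76) (nat_lit 1476093243) (nat_lit 49) (nat_lit 5) (nat_lit 53) (nat_lit 5) (nat_lit 50) (nat_lit 5) (nat_lit 350) (nat_lit 265) (nat_lit 165)) (XT.lf (nat_lit 0) (nat_lit 5405900756) (nat_lit 152) (nat_lit 14701892187) (nat_lit 228) (nat_lit 4404672274) (nat_lit 47) (nat_lit 5) (nat_lit 49) (nat_lit 5) (nat_lit 50) (nat_lit 5) (nat_lit 351) (nat_lit 265) (nat_lit 164)))) (XT.nd (nat_lit 156) (nat_lit 152) (nat_lit 0) (XT.nd (nat_lit 78) (nat_lit 228) (nat_lit 0) (XT.lf (nat_lit 0) (nat_lit 1656773841)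 (nat_lit 228) (nat_lit 4964966776) (nat_lit 76) (nat_lit 18450259893) (nat_lit 46) (nat_lit 5) (nat_lit 49) (nat_lit 5) (nat_lit 47) (nat_lit 5) (nat_lit 352) (nat_lit 265) (nat_lit 163)) (XT.lf (nat_lit 0) (nat_lit 7891808943) (nat_lit 304) (nat_lit 15998938139) (nat_lit 76) (nat_lit 1755969222) (nat_lit 43) (nat_lit 5) (nat_lit 47) (nat_lit 5) (nat_lit 44) (nat_lit 5) (nat_lit 353) (nat_lit 265) (nat_lit 162))) (XT.nd (nat_lit 78) (nat_lit 152) (nat_lit 0) (XT.lf (nat_lit 0) (nat_lit 14369347431) (nat_lit 304) (nat_lit 1553922697) (nat_lit 76) (nat_lit 10314302643) (nat_lit 43) (nat_lit 5) (nat_lit 47) (nat_lit 5) (nat_lit 44) (nat_lit 5) (nat_lit 354) (nat_lit 265) (nat_lit 161)) (XT.lf (nat_lit 0) (nat_lit 13463855757) (nat_lit 152) (nat_lit 7642736508) (nat_lit 228) (nat_lit 5738263069) (nat_lit 41) (nat_lit 5) (nat_lit 43) (nat_lit 5) (nat_lit 44) (nat_lit 5) (nat_lit 355) (nat_lit 265) (nat_lit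 160)))))) (XT.nd (nat_lit 33696) (nat_lit 0) (nat_lit 39672) (XT.nd (nat_lit 234) (nat_lit 228) (nat_lit 0) (XT.nd (nat_lit 78) (nat_lit 152) (nat_lit 0) (XT.lf (nat_lit 0) (nat_lit 572170720) (nat_lit 304) (nat_lit 26014342371) (nat_lit 76) (nat_lit 883693727) (nat_lit 37) (nat_lit 5) (nat_lit 41) (nat_lit 5) (nat_lit 38) (nat_lit 5) (nat_lit 356) (nat_lit 265) (nat_lit 159)) (XT.nd (nat_lit 78) (nat_lit 152) (nat_lit 0) (XT.lf (nat_lit 0) (nat_lit 7115305935) (nat_lit 304) (nat_lit 11318197737) (nat_lit 76) (nat_lit 9677636995) (nat_lit 37) (nat_lit 5) (nat_lit 41) (nat_lit 5) (nat_lit 38) (nat_lit 5) (nat_lit 357) (nat_lit 265) (nat_lit 158)) (XT.lf (nat_lit 0) (nat_lit 3833572496) (nat_lit 152) (nat_lit 10025198224) (nat_lit 228) (nat_lit 14912458286) (nat_lit 35) (nat_lit 5) (nat_lit 37) (nat_lit 5) (nat_lit 38) (nat_lit 5) (nat_lit 358) (nat_lit 265) (nat_lit 157)))) (XT.nd (nat_lit 156)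 (nat_lit 76) (nat_lit 0) (XT.nd (nat_lit 78) (nat_lit 152) (nat_lit 0) (XT.lf (nat_lit 0) (nat_lit 19559860923) (nat_lit 152) (nat_lit 1300900055) (nat_lit 228) (nat_lit 8589241559) (nat_lit 35) (nat_lit 5) (nat_lit 37) (nat_lit 5) (nat_lit 38) (nat_lit 5) (nat_lit 359) (nat_lit 265) (nat_lit 156)) (XT.lf (nat_lit 0) (nat_lit 5598066487) (nat_lit 152) (nat_lit 22541018630) (nat_lit 228) (nat_lit 2008735446) (nat_lit 33) (nat_lit 5) (nat_lit 35) (nat_lit 5) (nat_lit 36) (nat_lit 5) (nat_lit 360) (nat_lit 265) (nat_lit 155))) (XT.nd (nat_lit 33228) (nat_lit 0) (nat_lit 41876) (XT.lf (nat_lit 0) (nat_lit 4763056737) (nat_lit 228) (nat_lit 9253010362) (nat_lit 76) (nat_lit 16848764788) (nat_lit 32) (nat_lit 5) (nat_lit 35) (nat_lit 5) (nat_lit 33) (nat_lit 5) (nat_lit 361) (nat_lit 265) (nat_lit 154)) (XT.lf (nat_lit 0) (nat_lit 574781707) (nat_lit 684) (nat_lit 1362663060) (nat_lit 684) (nat_lit 1362663060)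 (nat_lit 583) (nat_lit 3) (nat_lit 592) (nat_lit 3) (nat_lit 592) (nat_lit 5) (nat_lit 266) (nat_lit 266) (nat_lit 248))))) (XT.nd (nat_lit 234) (nat_lit 1520) (nat_lit 0) (XT.nd (nat_lit 78) (nat_lit 684) (nat_lit 0) (XT.lf (nat_lit 76) (nat_lit 1827621224) (nat_lit 0) (nat_lit 2674222267) (nat_lit 684) (nat_lit 2126045864) (nat_lit 584) (nat_lit 5) (nat_lit 583) (nat_lit 3) (nat_lit 592) (nat_lit 5) (nat_lit 267) (nat_lit 266) (nat_lit 247)) (XT.nd (nat_lit 78) (nat_lit 0) (nat_lit 76) (XT.lf (nat_lit 0) (nat_lit 1168691386) (nat_lit 684) (nat_lit 179148743) (nat_lit 760) (nat_lit 5310813254) (nat_lit 574) (nat_lit 5) (nat_lit 583) (nat_lit 3) (nat_lit 584) (nat_lit 5) (nat_lit 268) (nat_lit 266) (nat_lit 246)) (XT.lf (nat_lit 0) (nat_lit 4436603351) (nat_lit 684) (nat_lit 2133827289) (nat_lit 760) (nat_lit 121736233) (nat_lit 575) (nat_lit 5) (nat_lit 584) (nat_lit 5) (nat_lit 585) (nat_lit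 5) (nat_lit 269) (nat_lit 266) (nat_lit 245)))) (XT.nd (nat_lit 156) (nat_lit 836) (nat_lit 0) (XT.nd (nat_lit 78) (nat_lit 0) (nat_lit 0) (XT.lf (nat_lit 0) (nat_lit 964840720) (nat_lit 760) (nat_lit 4064335562) (nat_lit 836) (nat_lit 1699471767) (nat_lit 565) (nat_lit 5) (nat_lit 575) (nat_lit 5) (nat_lit 576) (nat_lit 5) (nat_lit 270) (nat_lit 266) (nat_lit 244)) (XT.lf (nat_lit 76) (nat_lit 795304010) (nat_lit 0) (nat_lit 3354315530) (nat_lit 836) (nat_lit 2618496702) (nat_lit 566) (nat_lit 5) (nat_lit 565) (nat_lit 5) (nat_lit 576) (nat_lit 5) (nat_lit 271) (nat_lit 266) (nat_lit 243))) (XT.nd (nat_lit 78) (nat_lit 0) (nat_lit 76) (XT.lf (nat_lit 0) (nat_lit 521420680) (nat_lit 836) (nat_lit 1026291684) (nat_lit 912) (nat_lit 5262958815) (nat_lit 554) (nat_lit 5) (nat_lit 565) (nat_lit 5) (nat_lit 566) (nat_lit 5) (nat_lit 272) (nat_lit 266) (nat_lit 242)) (XT.lf (nat_lit 0) (nat_lit 3633144834)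 (nat_lit 836) (nat_lit 2822858906) (nat_lit 912) (nat_lit 400036016) (nat_lit 555) (nat_lit 5) (nat_lit 566) (nat_lit 5) (nat_lit 567) (nat_lit 5) (nat_lit 273) (nat_lit 266) (nat_lit 241))))))))
noncomputable def xc62 : XT := (XT.nd (nat_lit 2028) (nat_lit 11628) (nat_lit 0) (XT.nd (nat_lit 1014) (nat_lit 12540) (nat_lit 0) (XT.nd (nat_lit 468) (nat_lit 6232) (nat_lit 0) (XT.nd (nat_lit 234) (nat_lit 1900) (nat_lit 0) (XT.nd (nat_lit 78) (nat_lit 912) (nat_lit 0) (XT.lf (nat_lit 76) (nat_lit 2305930100) (nat_lit 0) (nat_lit 4451995781) (nat_lit 912) (nat_lit 146591970) (nat_lit 556) (nat_lit 5) (nat_lit 555) (nat_lit 5) (nat_lit 567) (nat_lit 5) (nat_lit 274) (nat_lit 266) (nat_lit 240)) (XT.nd (nat_lit 78) (nat_lit 0) (nat_lit 0) (XT.lf (nat_lit 76) (nat_lit 590911430) (nat_lit 0) (nat_lit 2303900010) (nat_lit 988) (nat_lit 4061133222) (nat_lit 544) (nat_lit 5) (nat_lit 543) (nat_lit 5) (nat_lit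 556) (nat_lit 5) (nat_lit 275) (nat_lit 266) (nat_lit 239)) (XT.lf (nat_lit 76) (nat_lit 5928942317) (nat_lit 0) (nat_lit 19817034) (nat_lit 988) (nat_lit 1061801412) (nat_lit 544) (nat_lit 5) (nat_lit 543) (nat_lit 5) (nat_lit 556) (nat_lit 5) (nat_lit 276) (nat_lit 266) (nat_lit 238)))) (XT.nd (nat_lit 78) (nat_lit 988) (nat_lit 0) (XT.lf (nat_lit 0) (nat_lit 1939176394) (nat_lit 988) (nat_lit 2748512271) (nat_lit 1064) (nat_lit 2380223661) (nat_lit 531) (nat_lit 5) (nat_lit 544) (nat_lit 5) (nat_lit 545) (nat_lit 5) (nat_lit 277) (nat_lit 266) (nat_lit 237)) (XT.nd (nat_lit 78) (nat_lit 988) (nat_lit 0) (XT.lf (nat_lit 76) (nat_lit 2729008226) (nat_lit 0) (nat_lit 2209376383) (nat_lit 1064) (nat_lit 2190128668) (nat_lit 532) (nat_lit 5) (nat_lit 531) (nat_lit 5) (nat_lit 545) (nat_lit 5) (nat_lit 278) (nat_lit 266) (nat_lit 236)) (XT.lf (nat_lit 0) (nat_lit 753644136) (nat_lit 1064) (nat_lit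 6037771857) (nat_lit 76) (nat_lit 400963909) (nat_lit 518) (nat_lit 5) (nat_lit 532) (nat_lit 5) (nat_lit 519) (nat_lit 5) (nat_lit 279) (nat_lit 266) (nat_lit 235))))) (XT.nd (nat_lit 234) (nat_lit 3952) (nat_lit 0) (XT.nd (nat_lit 78) (nat_lit 2280) (nat_lit 0) (XT.lf (nat_lit 0) (nat_lit 3702690575) (nat_lit 1064) (nat_lit 422992191) (nat_lit 76) (nat_lit 3133368421) (nat_lit 518) (nat_lit 5) (nat_lit 532) (nat_lit 5) (nat_lit 519) (nat_lit 5) (nat_lit 280) (nat_lit 266) (nat_lit 234)) (XT.nd (nat_lit 78) (nat_lit 1216) (nat_lit 0) (XT.lf (nat_lit 0) (nat_lit 5361250752) (nat_lit 1064) (nat_lit 1318388925) (nat_lit 1140) (nat_lit 649403539) (nat_lit 504) (nat_lit 5) (nat_lit 518) (nat_lit 5) (nat_lit 519) (nat_lit 5) (nat_lit 281) (nat_lit 266) (nat_lit 233)) (XT.lf (nat_lit 0) (nat_lit 2259047346) (nat_lit 1216) (nat_lit 3522916530) (nat_lit 76) (nat_lit 1620069885) (nat_lit 488) (nat_lit 5)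 (nat_lit 504) (nat_lit 5) (nat_lit 489) (nat_lit 5) (nat_lit 282) (nat_lit 266) (nat_lit 232)))) (XT.nd (nat_lit 156) (nat_lit 1368) (nat_lit 0) (XT.nd (nat_lit 78) (nat_lit 1368) (nat_lit 0) (XT.lf (nat_lit 0) (nat_lit 2399167879) (nat_lit 1216) (nat_lit 2793301474) (nat_lit 1292) (nat_lit 2285828954) (nat_lit 472) (nat_lit 5) (nat_lit 488) (nat_lit 5) (nat_lit 489) (nat_lit 5) (nat_lit 283) (nat_lit 266) (nat_lit 231)) (XT.lf (nat_lit 0) (nat_lit 590880144) (nat_lit 1368) (nat_lit 6632368155) (nat_lit 76) (nat_lit 334764167) (nat_lit 454) (nat_lit 5) (nat_lit 472) (nat_lit 5) (nat_lit 455) (nat_lit 5) (nat_lit 284) (nat_lit 266) (nat_lit 230))) (XT.nd (nat_lit 78) (nat_lit 1368) (nat_lit 0) (XT.lf (nat_lit 0) (nat_lit 3488817151) (nat_lit 1368) (nat_lit 564974453) (nat_lit 76) (nat_lit 3586797901) (nat_lit 454) (nat_lit 5) (nat_lit 472) (nat_lit 5) (nat_lit 455) (nat_lit 5) (nat_lit 285) (nat_lit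 266) (nat_lit 229)) (XT.lf (nat_lit 0) (nat_lit 5689706600) (nat_lit 1368) (nat_lit 735955458) (nat_lit 1444) (nat_lit 1301032968) (nat_lit 436) (nat_lit 5) (nat_lit 454) (nat_lit 5) (nat_lit 455) (nat_lit 5) (nat_lit 286) (nat_lit 266) (nat_lit 228)))))) (XT.nd (nat_lit 468) (nat_lit 5016) (nat_lit 0) (XT.nd (nat_lit 234) (nat_lit 2888) (nat_lit 0) (XT.nd (nat_lit 78) (nat_lit 3116) (nat_lit 0) (XT.lf (nat_lit 0) (nat_lit 1579766108) (nat_lit 1520) (nat_lit 3533285643) (nat_lit 76) (nat_lit 2702886149) (nat_lit 416) (nat_lit 5) (nat_lit 436) (nat_lit 5) (nat_lit 417) (nat_lit 5) (nat_lit 287) (nat_lit 266) (nat_lit 227)) (XT.nd (nat_lit 78) (nat_lit 1596) (nat_lit 0) (XT.lf (nat_lit 0) (nat_lit 2865953726) (nat_lit 1520) (nat_lit 1619385604) (nat_lit 1596) (nat_lit 3423309905) (nat_lit 396) (nat_lit 5) (nat_lit 416) (nat_lit 5) (nat_lit 417) (nat_lit 5) (nat_lit 288) (nat_lit 266) (nat_lit 226))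 (XT.lf (nat_lit 0) (nat_lit 1437002665) (nat_lit 1596) (nat_lit 6007854024) (nat_lit 1672) (nat_lit 560030937) (nat_lit 375) (nat_lit 5) (nat_lit 396) (nat_lit 5) (nat_lit 397) (nat_lit 5) (nat_lit 289) (nat_lit 266) (nat_lit 225)))) (XT.nd (nat_lit 78) (nat_lit 2812) (nat_lit 0) (XT.lf (nat_lit 0) (nat_lit 2324807225) (nat_lit 1672) (nat_lit 20457530) (nat_lit 76) (nat_lit 5759175620) (nat_lit 374) (nat_lit 5) (nat_lit 396) (nat_lit 5) (nat_lit 375) (nat_lit 5) (nat_lit 290) (nat_lit 266) (nat_lit 224)) (XT.nd (nat_lit 78) (nat_lit 1140) (nat_lit 0) (XT.lf (nat_lit 0) (nat_lit 5266057363) (nat_lit 1748) (nat_lit 1477834597) (nat_lit 76) (nat_lit 1463539290) (nat_lit 352) (nat_lit 5) (nat_lit 375) (nat_lit 5) (nat_lit 353) (nat_lit 5) (nat_lit 291) (nat_lit 266) (nat_lit 223)) (XT.lf (nat_lit 0) (nat_lit 5354356999) (nat_lit 1140) (nat_lit 2917639450) (nat_lit 1216) (nat_lit 42059275) (nat_lit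 337) (nat_lit 5) (nat_lit 352) (nat_lit 5) (nat_lit 353) (nat_lit 5) (nat_lit 292) (nat_lit 266) (nat_lit 222))))) (XT.nd (nat_lit 234) (nat_lit 2432) (nat_lit 0) (XT.nd (nat_lit 78) (nat_lit 1672) (nat_lit 0) (XT.lf (nat_lit 0) (nat_lit 2875424146) (nat_lit 912) (nat_lit 4479657683) (nat_lit 76) (nat_lit 1069088106) (nat_lit 325) (nat_lit 5) (nat_lit 337) (nat_lit 5) (nat_lit 326) (nat_lit 5) (nat_lit 293) (nat_lit 266) (nat_lit 221)) (XT.nd (nat_lit 78) (nat_lit 836) (nat_lit 0) (XT.lf (nat_lit 0) (nat_lit 2502654934) (nat_lit 836) (nat_lit 3361896931) (nat_lit 912) (nat_lit 2673403692) (nat_lit 314) (nat_lit 5) (nat_lit 325) (nat_lit 5) (nat_lit 326) (nat_lit 5) (nat_lit 294) (nat_lit 266) (nat_lit 220)) (XT.lf (nat_lit 0) (nat_lit 256737928) (nat_lit 836) (nat_lit 7617446557) (nat_lit 76) (nat_lit 781550584) (nat_lit 303) (nat_lit 5) (nat_lit 314) (nat_lit 5) (nat_lit 304) (nat_lit 5) (nat_lit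 295) (nat_lit 266) (nat_lit 219)))) (XT.nd (nat_lit 156) (nat_lit 1596) (nat_lit 0) (XT.nd (nat_lit 78) (nat_lit 836) (nat_lit 0) (XT.lf (nat_lit 0) (nat_lit 3233768849) (nat_lit 836) (nat_lit 479764212) (nat_lit 76) (nat_lit 5063317616) (nat_lit 303) (nat_lit 5) (nat_lit 314) (nat_lit 5) (nat_lit 304) (nat_lit 5) (nat_lit 296) (nat_lit 266) (nat_lit 218)) (XT.lf (nat_lit 0) (nat_lit 6282325526) (nat_lit 912) (nat_lit 2011195620) (nat_lit 76) (nat_lit 608494755) (nat_lit 292) (nat_lit 5) (nat_lit 304) (nat_lit 5) (nat_lit 293) (nat_lit 5) (nat_lit 297) (nat_lit 266) (nat_lit 217))) (XT.nd (nat_lit 78) (nat_lit 760) (nat_lit 0) (XT.lf (nat_lit 0) (nat_lit 384549725) (nat_lit 836) (nat_lit 3596716780) (nat_lit 76) (nat_lit 5049710682) (nat_lit 281) (nat_lit 5) (nat_lit 292) (nat_lit 5) (nat_lit 282) (nat_lit 5) (nat_lit 298) (nat_lit 266) (nat_lit 216)) (XT.lf (nat_lit 0) (nat_lit 3422054653) (nat_lit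 836) (nat_lit 5233931678) (nat_lit 76) (nat_lit 507955934) (nat_lit 271) (nat_lit 5) (nat_lit 282) (nat_lit 5) (nat_lit 272) (nat_lit 5) (nat_lit 299) (nat_lit 266) (nat_lit 215))))))) (XT.nd (nat_lit 1014) (nat_lit 4636) (nat_lit 0) (XT.nd (nat_lit 468) (nat_lit 3496) (nat_lit 0) (XT.nd (nat_lit 234) (nat_lit 2052) (nat_lit 0) (XT.nd (nat_lit 78) (nat_lit 760) (nat_lit 0) (XT.lf (nat_lit 0) (nat_lit 2367813425) (nat_lit 684) (nat_lit 4186739133) (nat_lit 760) (nat_lit 2746320611) (nat_lit 262) (nat_lit 5) (nat_lit 271) (nat_lit 5) (nat_lit 272) (nat_lit 5) (nat_lit 300) (nat_lit 266) (nat_lit 214)) (XT.nd (nat_lit 78) (nat_lit 0) (nat_lit 0) (XT.lf (nat_lit 0) (nat_lit 316575540) (nat_lit 760) (nat_lit 8677192965) (nat_lit 76) (nat_lit 448512885) (nat_lit 252) (nat_lit 5) (nat_lit 262) (nat_lit 5) (nat_lit 253) (nat_lit 5) (nat_lit 301) (nat_lit 266) (nat_lit 213)) (XT.lf (nat_lit 0) (nat_lit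 3449146554) (nat_lit 760) (nat_lit 912297011) (nat_lit 76) (nat_lit 5225873352) (nat_lit 252) (nat_lit 5) (nat_lit 262) (nat_lit 5) (nat_lit 253) (nat_lit 5) (nat_lit 302) (nat_lit 266) (nat_lit 212)))) (XT.nd (nat_lit 78) (nat_lit 1368) (nat_lit 0) (XT.lf (nat_lit 0) (nat_lit 6666154475) (nat_lit 760) (nat_lit 2626825713) (nat_lit 76) (nat_lit 443962779) (nat_lit 243) (nat_lit 5) (nat_lit 253) (nat_lit 5) (nat_lit 244) (nat_lit 5) (nat_lit 303) (nat_lit 266) (nat_lit 211)) (XT.nd (nat_lit 78) (nat_lit 608) (nat_lit 0) (XT.lf (nat_lit 0) (nat_lit 101006598) (nat_lit 760) (nat_lit 4420009350) (nat_lit 76) (nat_lit 5369805578) (nat_lit 233) (nat_lit 5) (nat_lit 243) (nat_lit 5) (nat_lit 234) (nat_lit 5) (nat_lit 304) (nat_lit 266) (nat_lit 210)) (XT.lf (nat_lit 0) (nat_lit 3315161672) (nat_lit 684) (nat_lit 6290645864) (nat_lit 76) (nat_lit 443369389) (nat_lit 225) (nat_lit 5) (nat_lit 234) (nat_lit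 5) (nat_lit 226) (nat_lit 5) (nat_lit 305) (nat_lit 266) (nat_lit 209))))) (XT.nd (nat_lit 234) (nat_lit 2280) (nat_lit 0) (XT.nd (nat_lit 78) (nat_lit 608) (nat_lit 0) (XT.lf (nat_lit 0) (nat_lit 1960955678) (nat_lit 608) (nat_lit 4682502013) (nat_lit 684) (nat_lit 3568514622) (nat_lit 217) (nat_lit 5) (nat_lit 225) (nat_lit 5) (nat_lit 226) (nat_lit 5) (nat_lit 306) (nat_lit 266) (nat_lit 208)) (XT.nd (nat_lit 78) (nat_lit 76) (nat_lit 0) (XT.lf (nat_lit 0) (nat_lit 100353648) (nat_lit 532) (nat_lit 9963061118) (nat_lit 608) (nat_lit 316442934) (nat_lit 210) (nat_lit 5) (nat_lit 217) (nat_lit 5) (nat_lit 218) (nat_lit 5) (nat_lit 307) (nat_lit 266) (nat_lit 207)) (XT.lf (nat_lit 0) (nat_lit 3027503859) (nat_lit 608) (nat_lit 1853091820) (nat_lit 76) (nat_lit 5671148566) (nat_lit 209) (nat_lit 5) (nat_lit 217) (nat_lit 5) (nat_lit 210) (nat_lit 5) (nat_lit 308) (nat_lit 266) (nat_lit 206)))) (XT.nd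 (nat_lit 156) (nat_lit 1140) (nat_lit 0) (XT.nd (nat_lit 78) (nat_lit 532) (nat_lit 0) (XT.lf (nat_lit 0) (nat_lit 6462563696) (nat_lit 684) (nat_lit 3880984911) (nat_lit 76) (nat_lit 385334234) (nat_lit 201) (nat_lit 5) (nat_lit 210) (nat_lit 5) (nat_lit 202) (nat_lit 5) (nat_lit 309) (nat_lit 266) (nat_lit 205)) (XT.lf (nat_lit 0) (nat_lit 4892329879) (nat_lit 532) (nat_lit 5134478672) (nat_lit 608) (nat_lit 884042404) (nat_lit 194) (nat_lit 5) (nat_lit 201) (nat_lit 5) (nat_lit 202) (nat_lit 5) (nat_lit 310) (nat_lit 266) (nat_lit 204))) (XT.nd (nat_lit 78) (nat_lit 532) (nat_lit 0) (XT.lf (nat_lit 0) (nat_lit 2562155663) (nat_lit 608) (nat_lit 8258465585) (nat_lit 76) (nat_lit 277424507) (nat_lit 186) (nat_lit 5) (nat_lit 194) (nat_lit 5) (nat_lit 187) (nat_lit 5) (nat_lit 311) (nat_lit 266) (nat_lit 203)) (XT.lf (nat_lit 0) (nat_lit 661017666) (nat_lit 532) (nat_lit 5469240033) (nat_lit 608)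 (nat_lit 5159906395) (nat_lit 179) (nat_lit 5) (nat_lit 186) (nat_lit 5) (nat_lit 187) (nat_lit 5) (nat_lit 312) (nat_lit 266) (nat_lit 202)))))) (XT.nd (nat_lit 546) (nat_lit 2128) (nat_lit 0) (XT.nd (nat_lit 234) (nat_lit 1444) (nat_lit 0) (XT.nd (nat_lit 78) (nat_lit 1064) (nat_lit 0) (XT.lf (nat_lit 0) (nat_lit 9813733948) (nat_lit 608) (nat_lit 1589233729) (nat_lit 76) (nat_lit 84945799) (nat_lit 179) (nat_lit 5) (nat_lit 187) (nat_lit 5) (nat_lit 180) (nat_lit 5) (nat_lit 313) (nat_lit 266) (nat_lit 201)) (XT.nd (nat_lit 78) (nat_lit 456) (nat_lit 0) (XT.lf (nat_lit 0) (nat_lit 1931083196) (nat_lit 608) (nat_lit 3977870162) (nat_lit 76) (nat_lit 5781623753) (nat_lit 171) (nat_lit 5) (nat_lit 179) (nat_lit 5) (nat_lit 172) (nat_lit 5) (nat_lit 314) (nat_lit 266) (nat_lit 200)) (XT.lf (nat_lit 0) (nat_lit 5415496149) (nat_lit 456) (nat_lit 206161017) (nat_lit 532) (nat_lit 6277475714) (nat_lit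 165) (nat_lit 5) (nat_lit 171) (nat_lit 5) (nat_lit 172) (nat_lit 5) (nat_lit 315) (nat_lit 266) (nat_lit 199)))) (XT.nd (nat_lit 156) (nat_lit 456) (nat_lit 0) (XT.nd (nat_lit 78) (nat_lit 532) (nat_lit 0) (XT.lf (nat_lit 0) (nat_lit 2973249143) (nat_lit 456) (nat_lit 6487569841) (nat_lit 532) (nat_lit 2652399531) (nat_lit 159) (nat_lit 5) (nat_lit 165) (nat_lit 5) (nat_lit 166) (nat_lit 5) (nat_lit 316) (nat_lit 266) (nat_lit 198)) (XT.lf (nat_lit 0) (nat_lit 406261624) (nat_lit 456) (nat_lit 664472153) (nat_lit 532) (nat_lit 11262811892) (nat_lit 152) (nat_lit 5) (nat_lit 158) (nat_lit 5) (nat_lit 159) (nat_lit 5) (nat_lit 317) (nat_lit 266) (nat_lit 197))) (XT.nd (nat_lit 78) (nat_lit 456) (nat_lit 0) (XT.lf (nat_lit 0) (nat_lit 4922769301) (nat_lit 532) (nat_lit 2307978850) (nat_lit 76) (nat_lit 5328347247) (nat_lit 152) (nat_lit 5) (nat_lit 159) (nat_lit 5) (nat_lit 153) (nat_lit 5) (nat_lit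 318) (nat_lit 266) (nat_lit 196)) (XT.lf (nat_lit 0) (nat_lit 7637425728) (nat_lit 456) (nat_lit 1264316241) (nat_lit 532) (nat_lit 3889469590) (nat_lit 146) (nat_lit 5) (nat_lit 152) (nat_lit 5) (nat_lit 153) (nat_lit 5) (nat_lit 319) (nat_lit 266) (nat_lit 195))))) (XT.nd (nat_lit 234) (nat_lit 1216) (nat_lit 0) (XT.nd (nat_lit 78) (nat_lit 456) (nat_lit 0) (XT.lf (nat_lit 0) (nat_lit 7490828) (nat_lit 456) (nat_lit 8172938104) (nat_lit 76) (nat_lit 4849146296) (nat_lit 140) (nat_lit 5) (nat_lit 146) (nat_lit 5) (nat_lit 141) (nat_lit 5) (nat_lit 320) (nat_lit 266) (nat_lit 194)) (XT.nd (nat_lit 78) (nat_lit 0) (nat_lit 0) (XT.lf (nat_lit 0) (nat_lit 1896043957) (nat_lit 456) (nat_lit 2087362476) (nat_lit 532) (nat_lit 9290896781) (nat_lit 134) (nat_lit 5) (nat_lit 140) (nat_lit 5) (nat_lit 141) (nat_lit 5) (nat_lit 321) (nat_lit 266) (nat_lit 193)) (XT.lf (nat_lit 0) (nat_lit 8120940894) (nat_lit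 532) (nat_lit 1231305954) (nat_lit 76) (nat_lit 4173304004) (nat_lit 134) (nat_lit 5) (nat_lit 141) (nat_lit 5) (nat_lit 135) (nat_lit 5) (nat_lit 322) (nat_lit 266) (nat_lit 192)))) (XT.nd (nat_lit 156) (nat_lit 380) (nat_lit 0) (XT.nd (nat_lit 78) (nat_lit 456) (nat_lit 0) (XT.lf (nat_lit 0) (nat_lit 9271925782) (nat_lit 380) (nat_lit 3145414520) (nat_lit 456) (nat_lit 1366324760) (nat_lit 129) (nat_lit 5) (nat_lit 134) (nat_lit 5) (nat_lit 135) (nat_lit 5) (nat_lit 323) (nat_lit 266) (nat_lit 191)) (XT.lf (nat_lit 0) (nat_lit 2786753765) (nat_lit 456) (nat_lit 8006740290) (nat_lit 76) (nat_lit 3255083181) (nat_lit 123) (nat_lit 5) (nat_lit 129) (nat_lit 5) (nat_lit 124) (nat_lit 5) (nat_lit 324) (nat_lit 266) (nat_lit 190))) (XT.nd (nat_lit 78) (nat_lit 0) (nat_lit 0) (XT.lf (nat_lit 0) (nat_lit 2601509023) (nat_lit 380) (nat_lit 4474925770) (nat_lit 456) (nat_lit 7244231996) (nat_lit 118) (nat_lit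 5) (nat_lit 123) (nat_lit 5) (nat_lit 124) (nat_lit 5) (nat_lit 325) (nat_lit 266) (nat_lit 189)) (XT.lf (nat_lit 0) (nat_lit 11525040920) (nat_lit 456) (nat_lit 1030745405) (nat_lit 76) (nat_lit 2044549474) (nat_lit 118) (nat_lit 5) (nat_lit 124) (nat_lit 5) (nat_lit 119) (nat_lit 5) (nat_lit 326) (nat_lit 266) (nat_lit 188))))))))
noncomputable def xc63 : XT := (XT.nd (nat_lit 2106) (nat_lit 988) (nat_lit 0) (XT.nd (nat_lit 1014) (nat_lit 2128) (nat_lit 0) (XT.nd (nat_lit 468) (nat_lit 1520) (nat_lit 0) (XT.nd (nat_lit 234) (nat_lit 684) (nat_lit 0) (XT.nd (nat_lit 78) (nat_lit 684) (nat_lit 0) (XT.lf (nat_lit 0) (nat_lit 1261631487) (nat_lit 456) (nat_lit 4869005817) (nat_lit 76) (nat_lit 8756441655) (nat_lit 112) (nat_lit 5) (nat_lit 118) (nat_lit 5) (nat_lit 113) (nat_lit 5) (nat_lit 327) (nat_lit 266) (nat_lit 187)) (XT.nd (nat_lit 78) (nat_lit 380) (nat_lit 0) (XT.lf (nat_lit 0) (nat_lit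 5702139858) (nat_lit 380) (nat_lit 8946908005) (nat_lit 76) (nat_lit 532684722) (nat_lit 108) (nat_lit 5) (nat_lit 113) (nat_lit 5) (nat_lit 109) (nat_lit 5) (nat_lit 328) (nat_lit 266) (nat_lit 186)) (XT.lf (nat_lit 0) (nat_lit 2188595077) (nat_lit 380) (nat_lit 8140268491) (nat_lit 456) (nat_lit 5155321505) (nat_lit 103) (nat_lit 5) (nat_lit 108) (nat_lit 5) (nat_lit 109) (nat_lit 5) (nat_lit 329) (nat_lit 266) (nat_lit 185)))) (XT.nd (nat_lit 78) (nat_lit 684) (nat_lit 0) (XT.lf (nat_lit 0) (nat_lit 13728742026) (nat_lit 380) (nat_lit 1391548375) (nat_lit 456) (nat_lit 674921402) (nat_lit 103) (nat_lit 5) (nat_lit 108) (nat_lit 5) (nat_lit 109) (nat_lit 5) (nat_lit 330) (nat_lit 266) (nat_lit 184)) (XT.nd (nat_lit 78) (nat_lit 304) (nat_lit 0) (XT.lf (nat_lit 0) (nat_lit 3952824101) (nat_lit 380) (nat_lit 6602755861) (nat_lit 76) (nat_lit 5558203444) (nat_lit 98) (nat_lit 5) (nat_lit 103) (nat_lit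 5) (nat_lit 99) (nat_lit 5) (nat_lit 331) (nat_lit 266) (nat_lit 183)) (XT.lf (nat_lit 0) (nat_lit 5023885654) (nat_lit 304) (nat_lit 3709019319) (nat_lit 380) (nat_lit 7708481785) (nat_lit 94) (nat_lit 5) (nat_lit 98) (nat_lit 5) (nat_lit 99) (nat_lit 5) (nat_lit 332) (nat_lit 266) (nat_lit 182))))) (XT.nd (nat_lit 234) (nat_lit 836) (nat_lit 0) (XT.nd (nat_lit 78) (nat_lit 380) (nat_lit 0) (XT.lf (nat_lit 0) (nat_lit 242628220) (nat_lit 304) (nat_lit 13449217886) (nat_lit 380) (nat_lit 3086279721) (nat_lit 90) (nat_lit 5) (nat_lit 94) (nat_lit 5) (nat_lit 95) (nat_lit 5) (nat_lit 333) (nat_lit 266) (nat_lit 181)) (XT.nd (nat_lit 78) (nat_lit 304) (nat_lit 0) (XT.lf (nat_lit 0) (nat_lit 1722856109) (nat_lit 380) (nat_lit 4800728744) (nat_lit 76) (nat_lit 10599776126) (nat_lit 89) (nat_lit 5) (nat_lit 94) (nat_lit 5) (nat_lit 90) (nat_lit 5) (nat_lit 334) (nat_lit 266) (nat_lit 180)) (XT.lf (nat_lit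 0) (nat_lit 6654845170) (nat_lit 380) (nat_lit 10169694390) (nat_lit 76) (nat_lit 653610926) (nat_lit 85) (nat_lit 5) (nat_lit 90) (nat_lit 5) (nat_lit 86) (nat_lit 5) (nat_lit 335) (nat_lit 266) (nat_lit 179)))) (XT.nd (nat_lit 156) (nat_lit 608) (nat_lit 0) (XT.nd (nat_lit 78) (nat_lit 0) (nat_lit 0) (XT.lf (nat_lit 0) (nat_lit 1937011519) (nat_lit 228) (nat_lit 9855720901) (nat_lit 304) (nat_lit 6049707537) (nat_lit 82) (nat_lit 5) (nat_lit 85) (nat_lit 5) (nat_lit 86) (nat_lit 5) (nat_lit 336) (nat_lit 266) (nat_lit 178)) (XT.lf (nat_lit 0) (nat_lit 14498657994) (nat_lit 228) (nat_lit 2624595760) (nat_lit 304) (nat_lit 1093649019) (nat_lit 82) (nat_lit 5) (nat_lit 85) (nat_lit 5) (nat_lit 86) (nat_lit 5) (nat_lit 337) (nat_lit 266) (nat_lit 177))) (XT.nd (nat_lit 78) (nat_lit 228) (nat_lit 0) (XT.lf (nat_lit 0) (nat_lit 4018153253) (nat_lit 380) (nat_lit 9754834279) (nat_lit 76) (nat_lit 4827911633)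 (nat_lit 77) (nat_lit 5) (nat_lit 82) (nat_lit 5) (nat_lit 78) (nat_lit 5) (nat_lit 338) (nat_lit 266) (nat_lit 176)) (XT.lf (nat_lit 0) (nat_lit 2807854635) (nat_lit 228) (nat_lit 6492548811) (nat_lit 304) (nat_lit 9695241878) (nat_lit 74) (nat_lit 5) (nat_lit 77) (nat_lit 5) (nat_lit 78) (nat_lit 5) (nat_lit 339) (nat_lit 266) (nat_lit 175)))))) (XT.nd (nat_lit 546) (nat_lit 988) (nat_lit 0) (XT.nd (nat_lit 234) (nat_lit 532) (nat_lit 0) (XT.nd (nat_lit 78) (nat_lit 608) (nat_lit 0) (XT.lf (nat_lit 0) (nat_lit 14785365421) (nat_lit 304) (nat_lit 3572888700) (nat_lit 76) (nat_lit 1043107969) (nat_lit 74) (nat_lit 5) (nat_lit 78) (nat_lit 5) (nat_lit 75) (nat_lit 5) (nat_lit 340) (nat_lit 266) (nat_lit 174)) (XT.nd (nat_lit 78) (nat_lit 228) (nat_lit 0) (XT.lf (nat_lit 0) (nat_lit 684874929) (nat_lit 380) (nat_lit 10365784437) (nat_lit 76) (nat_lit 8766977068) (nat_lit 69) (nat_lit 5) (nat_lit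 74) (nat_lit 5) (nat_lit 70) (nat_lit 5) (nat_lit 341) (nat_lit 266) (nat_lit 173)) (XT.lf (nat_lit 0) (nat_lit 2629510651) (nat_lit 228) (nat_lit 3466697061) (nat_lit 304) (nat_lit 14149310209) (nat_lit 66) (nat_lit 5) (nat_lit 69) (nat_lit 5) (nat_lit 70) (nat_lit 5) (nat_lit 342) (nat_lit 266) (nat_lit 172)))) (XT.nd (nat_lit 156) (nat_lit 304) (nat_lit 0) (XT.nd (nat_lit 78) (nat_lit 228) (nat_lit 0) (XT.lf (nat_lit 0) (nat_lit 11741559678) (nat_lit 304) (nat_lit 4600954482) (nat_lit 76) (nat_lit 4342299869) (nat_lit 66) (nat_lit 5) (nat_lit 70) (nat_lit 5) (nat_lit 67) (nat_lit 5) (nat_lit 343) (nat_lit 266) (nat_lit 171)) (XT.lf (nat_lit 0) (nat_lit 8854778017) (nat_lit 228) (nat_lit 8755724901) (nat_lit 304) (nat_lit 3525712907) (nat_lit 63) (nat_lit 5) (nat_lit 66) (nat_lit 5) (nat_lit 67) (nat_lit 5) (nat_lit 344) (nat_lit 266) (nat_lit 170))) (XT.nd (nat_lit 78) (nat_lit 0) (nat_lit 0)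 (XT.lf (nat_lit 0) (nat_lit 1135588134) (nat_lit 228) (nat_lit 904451247) (nat_lit 304) (nat_lit 19560611840) (nat_lit 59) (nat_lit 5) (nat_lit 62) (nat_lit 5) (nat_lit 63) (nat_lit 5) (nat_lit 345) (nat_lit 266) (nat_lit 169)) (XT.lf (nat_lit 0) (nat_lit 7829800259) (nat_lit 304) (nat_lit 7066998872) (nat_lit 76) (nat_lit 7179666268) (nat_lit 59) (nat_lit 5) (nat_lit 63) (nat_lit 5) (nat_lit 60) (nat_lit 5) (nat_lit 346) (nat_lit 266) (nat_lit 168))))) (XT.nd (nat_lit 234) (nat_lit 456) (nat_lit 0) (XT.nd (nat_lit 78) (nat_lit 304) (nat_lit 0) (XT.lf (nat_lit 0) (nat_lit 6774922876) (nat_lit 228) (nat_lit 7043373541) (nat_lit 304) (nat_lit 8747766981) (nat_lit 56) (nat_lit 5) (nat_lit 59) (nat_lit 5) (nat_lit 60) (nat_lit 5) (nat_lit 347) (nat_lit 266) (nat_lit 167)) (XT.nd (nat_lit 78) (nat_lit 304) (nat_lit 0) (XT.lf (nat_lit 0) (nat_lit 20016813440) (nat_lit 304) (nat_lit 1988286727) (nat_lit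 76) (nat_lit 1064651797) (nat_lit 56) (nat_lit 5) (nat_lit 60) (nat_lit 5) (nat_lit 57) (nat_lit 5) (nat_lit 348) (nat_lit 266) (nat_lit 166)) (XT.lf (nat_lit 0) (nat_lit 2879591662) (nat_lit 304) (nat_lit 11301973446) (nat_lit 76) (nat_lit 9404555374) (nat_lit 52) (nat_lit 5) (nat_lit 56) (nat_lit 5) (nat_lit 53) (nat_lit 5) (nat_lit 349) (nat_lit 266) (nat_lit 165)))) (XT.nd (nat_lit 156) (nat_lit 228) (nat_lit 0) (XT.nd (nat_lit 78) (nat_lit 0) (nat_lit 0) (XT.lf (nat_lit 0) (nat_lit 2872298865) (nat_lit 228) (nat_lit 6085137933) (nat_lit 304) (nat_lit 15159972521) (nat_lit 49) (nat_lit 5) (nat_lit 52) (nat_lit 5) (nat_lit 53) (nat_lit 5) (nat_lit 350) (nat_lit 266) (nat_lit 164)) (XT.lf (nat_lit 0) (nat_lit 15286053648) (nat_lit 304) (nat_lit 7090609567) (nat_lit 76) (nat_lit 2286613803) (nat_lit 49) (nat_lit 5) (nat_lit 53) (nat_lit 5) (nat_lit 50) (nat_lit 5) (nat_lit 351) (nat_lit 266) (nat_lit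 163))) (XT.nd (nat_lit 78) (nat_lit 76) (nat_lit 0) (XT.lf (nat_lit 0) (nat_lit 7508576459) (nat_lit 152) (nat_lit 14362783411) (nat_lit 228) (nat_lit 3352832924) (nat_lit 47) (nat_lit 5) (nat_lit 49) (nat_lit 5) (nat_lit 50) (nat_lit 5) (nat_lit 352) (nat_lit 266) (nat_lit 162)) (XT.lf (nat_lit 0) (nat_lit 2840895905) (nat_lit 228) (nat_lit 3214442110) (nat_lit 76) (nat_lit 19745715596) (nat_lit 46) (nat_lit 5) (nat_lit 49) (nat_lit 5) (nat_lit 47) (nat_lit 5) (nat_lit 353) (nat_lit 266) (nat_lit 161))))))) (XT.nd (nat_lit 34242) (nat_lit 0) (nat_lit 31996) (XT.nd (nat_lit 468) (nat_lit 152) (nat_lit 0) (XT.nd (nat_lit 234) (nat_lit 456) (nat_lit 0) (XT.nd (nat_lit 78) (nat_lit 152) (nat_lit 0) (XT.lf (nat_lit 0) (nat_lit 9246976209) (nat_lit 304) (nat_lit 14592475683) (nat_lit 76) (nat_lit 2553891293) (nat_lit 43) (nat_lit 5) (nat_lit 47) (nat_lit 5) (nat_lit 44) (nat_lit 5) (nat_lit 354) (nat_lit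 266) (nat_lit 160)) (XT.nd (nat_lit 78) (nat_lit 0) (nat_lit 0) (XT.lf (nat_lit 0) (nat_lit 234014787) (nat_lit 152) (nat_lit 15653770308) (nat_lit 228) (nat_lit 11114773202) (nat_lit 41) (nat_lit 5) (nat_lit 43) (nat_lit 5) (nat_lit 44) (nat_lit 5) (nat_lit 355) (nat_lit 266) (nat_lit 159)) (XT.lf (nat_lit 0) (nat_lit 15669543765) (nat_lit 152) (nat_lit 7136156086) (nat_lit 228) (nat_lit 4822799926) (nat_lit 41) (nat_lit 5) (nat_lit 43) (nat_lit 5) (nat_lit 44) (nat_lit 5) (nat_lit 356) (nat_lit 266) (nat_lit 158)))) (XT.nd (nat_lit 78) (nat_lit 152) (nat_lit 0) (XT.lf (nat_lit 0) (nat_lit 1647782941) (nat_lit 304) (nat_lit 24991152197) (nat_lit 76) (nat_lit 1633844368) (nat_lit 37) (nat_lit 5) (nat_lit 41) (nat_lit 5) (nat_lit 38) (nat_lit 5) (nat_lit 357) (nat_lit 266) (nat_lit 157)) (XT.nd (nat_lit 78) (nat_lit 152) (nat_lit 0) (XT.lf (nat_lit 0) (nat_lit 8356383656) (nat_lit 304) (nat_lit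 9906655859) (nat_lit 76) (nat_lit 10670529046) (nat_lit 37) (nat_lit 5) (nat_lit 41) (nat_lit 5) (nat_lit 38) (nat_lit 5) (nat_lit 358) (nat_lit 266) (nat_lit 156)) (XT.lf (nat_lit 0) (nat_lit 5671258161) (nat_lit 152) (nat_lit 9612148357) (nat_lit 228) (nat_lit 14330438258) (nat_lit 35) (nat_lit 5) (nat_lit 37) (nat_lit 5) (nat_lit 38) (nat_lit 5) (nat_lit 359) (nat_lit 266) (nat_lit 155))))) (XT.nd (nat_lit 33462) (nat_lit 0) (nat_lit 39520) (XT.nd (nat_lit 78) (nat_lit 152) (nat_lit 0) (XT.lf (nat_lit 0) (nat_lit 21819160140) (nat_lit 152) (nat_lit 646911704) (nat_lit 228) (nat_lit 7847507372) (nat_lit 35) (nat_lit 5) (nat_lit 37) (nat_lit 5) (nat_lit 38) (nat_lit 5) (nat_lit 360) (nat_lit 266) (nat_lit 154)) (XT.nd (nat_lit 33306) (nat_lit 0) (nat_lit 41116) (XT.lf (nat_lit 0) (nat_lit 7426551138) (nat_lit 152) (nat_lit 22522815597) (nat_lit 228) (nat_lit 1083242344) (nat_lit 33) (nat_lit 5)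 (nat_lit 35) (nat_lit 5) (nat_lit 36) (nat_lit 5) (nat_lit 361) (nat_lit 266) (nat_lit 153)) (XT.lf (nat_lit 0) (nat_lit 275450363) (nat_lit 0) (nat_lit 275450363) (nat_lit 684) (nat_lit 2777657003) (nat_lit 574) (nat_lit 5) (nat_lit 574) (nat_lit 3) (nat_lit 583) (nat_lit 3) (nat_lit 267) (nat_lit 267) (nat_lit 246)))) (XT.nd (nat_lit 156) (nat_lit 836) (nat_lit 0) (XT.nd (nat_lit 78) (nat_lit 760) (nat_lit 0) (XT.lf (nat_lit 0) (nat_lit 4302344726) (nat_lit 684) (nat_lit 1528339016) (nat_lit 760) (nat_lit 858330583) (nat_lit 574) (nat_lit 5) (nat_lit 583) (nat_lit 3) (nat_lit 584) (nat_lit 5) (nat_lit 268) (nat_lit 267) (nat_lit 245)) (XT.lf (nat_lit 0) (nat_lit 765266231) (nat_lit 760) (nat_lit 3569505519) (nat_lit 836) (nat_lit 2389153500) (nat_lit 564) (nat_lit 5) (nat_lit 574) (nat_lit 5) (nat_lit 575) (nat_lit 5) (nat_lit 269) (nat_lit 267) (nat_lit 244))) (XT.nd (nat_lit 78) (nat_lit 836)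 (nat_lit 0) (XT.lf (nat_lit 76) (nat_lit 1172464183) (nat_lit 0) (nat_lit 2703680499) (nat_lit 836) (nat_lit 2885646000) (nat_lit 565) (nat_lit 5) (nat_lit 564) (nat_lit 5) (nat_lit 575) (nat_lit 5) (nat_lit 270) (nat_lit 267) (nat_lit 243)) (XT.lf (nat_lit 0) (nat_lit 181007332) (nat_lit 836) (nat_lit 763187685) (nat_lit 912) (nat_lit 5858609680) (nat_lit 553) (nat_lit 5) (nat_lit 564) (nat_lit 5) (nat_lit 565) (nat_lit 5) (nat_lit 271) (nat_lit 267) (nat_lit 242)))))) (XT.nd (nat_lit 546) (nat_lit 5776) (nat_lit 0) (XT.nd (nat_lit 234) (nat_lit 912) (nat_lit 0) (XT.nd (nat_lit 78) (nat_lit 912) (nat_lit 0) (XT.lf (nat_lit 0) (nat_lit 3218327277) (nat_lit 836) (nat_lit 2674137870) (nat_lit 912) (nat_lit 953991912) (nat_lit 554) (nat_lit 5) (nat_lit 565) (nat_lit 5) (nat_lit 566) (nat_lit 5) (nat_lit 272) (nat_lit 267) (nat_lit 241)) (XT.nd (nat_lit 78) (nat_lit 912) (nat_lit 0) (XT.lf (nat_lit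 76) (nat_lit 2333079173) (nat_lit 0) (nat_lit 3927876262) (nat_lit 912) (nat_lit 632322350) (nat_lit 555) (nat_lit 5) (nat_lit 554) (nat_lit 5) (nat_lit 566) (nat_lit 5) (nat_lit 273) (nat_lit 267) (nat_lit 240)) (XT.lf (nat_lit 76) (nat_lit 509890953) (nat_lit 0) (nat_lit 1822354781) (nat_lit 988) (nat_lit 4610853265) (nat_lit 543) (nat_lit 5) (nat_lit 542) (nat_lit 5) (nat_lit 555) (nat_lit 5) (nat_lit 274) (nat_lit 267) (nat_lit 239)))) (XT.nd (nat_lit 156) (nat_lit 0) (nat_lit 0) (XT.nd (nat_lit 78) (nat_lit 988) (nat_lit 0) (XT.lf (nat_lit 0) (nat_lit 5303139964) (nat_lit 912) (nat_lit 1274174558) (nat_lit 988) (nat_lit 418628884) (nat_lit 543) (nat_lit 5) (nat_lit 555) (nat_lit 5) (nat_lit 556) (nat_lit 5) (nat_lit 275) (nat_lit 267) (nat_lit 238)) (XT.lf (nat_lit 0) (nat_lit 1228959561) (nat_lit 988) (nat_lit 3046034934) (nat_lit 1064) (nat_lit 2776665799) (nat_lit 530) (nat_lit 5) (nat_lit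 543) (nat_lit 5) (nat_lit 544) (nat_lit 5) (nat_lit 276) (nat_lit 267) (nat_lit 237))) (XT.nd (nat_lit 78) (nat_lit 0) (nat_lit 76) (XT.lf (nat_lit 76) (nat_lit 2304609293) (nat_lit 0) (nat_lit 1832077143) (nat_lit 1064) (nat_lit 2973834020) (nat_lit 531) (nat_lit 5) (nat_lit 530) (nat_lit 5) (nat_lit 544) (nat_lit 5) (nat_lit 277) (nat_lit 267) (nat_lit 236)) (XT.lf (nat_lit 76) (nat_lit 622437128) (nat_lit 0) (nat_lit 6438775052) (nat_lit 1064) (nat_lit 111461105) (nat_lit 532) (nat_lit 5) (nat_lit 531) (nat_lit 5) (nat_lit 545) (nat_lit 5) (nat_lit 278) (nat_lit 267) (nat_lit 235))))) (XT.nd (nat_lit 234) (nat_lit 3724) (nat_lit 0) (XT.nd (nat_lit 78) (nat_lit 1064) (nat_lit 0) (XT.lf (nat_lit 0) (nat_lit 2746631416) (nat_lit 1064) (nat_lit 1055700201) (nat_lit 1140) (nat_lit 3435162159) (nat_lit 517) (nat_lit 5) (nat_lit 531) (nat_lit 5) (nat_lit 532) (nat_lit 5) (nat_lit 279) (nat_lit 267)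 (nat_lit 234)) (XT.nd (nat_lit 78) (nat_lit 1064) (nat_lit 0) (XT.lf (nat_lit 76) (nat_lit 4597008385) (nat_lit 0) (nat_lit 1026672656) (nat_lit 1140) (nat_lit 1681977764) (nat_lit 518) (nat_lit 5) (nat_lit 517) (nat_lit 5) (nat_lit 532) (nat_lit 5) (nat_lit 280) (nat_lit 267) (nat_lit 233)) (XT.lf (nat_lit 0) (nat_lit 1140922178) (nat_lit 1140) (nat_lit 4366168365) (nat_lit 76) (nat_lit 1869812268) (nat_lit 503) (nat_lit 5) (nat_lit 518) (nat_lit 5) (nat_lit 504) (nat_lit 5) (nat_lit 281) (nat_lit 267) (nat_lit 232)))) (XT.nd (nat_lit 156) (nat_lit 2584) (nat_lit 0) (XT.nd (nat_lit 78) (nat_lit 0) (nat_lit 0) (XT.lf (nat_lit 0) (nat_lit 1421776753) (nat_lit 1140) (nat_lit 2547552286) (nat_lit 1216) (nat_lit 3481960255) (nat_lit 488) (nat_lit 5) (nat_lit 503) (nat_lit 5) (nat_lit 504) (nat_lit 5) (nat_lit 282) (nat_lit 267) (nat_lit 231)) (XT.lf (nat_lit 0) (nat_lit 6826955729) (nat_lit 1216) (nat_lit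 156057478) (nat_lit 76) (nat_lit 546104815) (nat_lit 488) (nat_lit 5) (nat_lit 504) (nat_lit 5) (nat_lit 489) (nat_lit 5) (nat_lit 283) (nat_lit 267) (nat_lit 230))) (XT.nd (nat_lit 78) (nat_lit 1292) (nat_lit 0) (XT.lf (nat_lit 0) (nat_lit 2101566810) (nat_lit 1292) (nat_lit 1736467787) (nat_lit 76) (nat_lit 3771682092) (nat_lit 471) (nat_lit 5) (nat_lit 488) (nat_lit 5) (nat_lit 472) (nat_lit 5) (nat_lit 284) (nat_lit 267) (nat_lit 229)) (XT.lf (nat_lit 0) (nat_lit 4379022868) (nat_lit 1292) (nat_lit 545747540) (nat_lit 1368) (nat_lit 2769062602) (nat_lit 454) (nat_lit 5) (nat_lit 471) (nat_lit 5) (nat_lit 472) (nat_lit 5) (nat_lit 285) (nat_lit 267) (nat_lit 228))))))))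
noncomputable def xc64 : XT := (XT.nd (nat_lit 2028) (nat_lit 8512) (nat_lit 0) (XT.nd (nat_lit 1014) (nat_lit 6688) (nat_lit 0) (XT.nd (nat_lit 468) (nat_lit 5396) (nat_lit 0) (XT.nd (nat_lit 234) (nat_lit 4864) (nat_lit 0) (XT.nd (nat_lit 78) (nat_lit 1444) (nat_lit 0) (XT.lf (nat_lit 0) (nat_lit 17681095) (nat_lit 1444) (nat_lit 4908041257) (nat_lit 76) (nat_lit 2855506527) (nat_lit 435) (nat_lit 5) (nat_lit 454) (nat_lit 5) (nat_lit 436) (nat_lit 5) (nat_lit 286) (nat_lit 267) (nat_lit 227)) (XT.nd (nat_lit 78) (nat_lit 0) (nat_lit 0) (XT.lf (nat_lit 0) (nat_lit 1349377064) (nat_lit 1444) (nat_lit 1455123987) (nat_lit 1520) (nat_lit 5067381303) (nat_lit 416) (nat_lit 5) (nat_lit 435) (nat_lit 5) (nat_lit 436) (nat_lit 5) (nat_lit 287) (nat_lit 267) (nat_lit 226)) (XT.lf (nat_lit 0) (nat_lit 5643041178) (nat_lit 1520) (nat_lit 184933411) (nat_lit 76) (nat_lit 2137999789) (nat_lit 416) (nat_lit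 5) (nat_lit 436) (nat_lit 5) (nat_lit 417) (nat_lit 5) (nat_lit 288) (nat_lit 267) (nat_lit 225)))) (XT.nd (nat_lit 78) (nat_lit 3268) (nat_lit 0) (XT.lf (nat_lit 0) (nat_lit 471131894) (nat_lit 1596) (nat_lit 1716344389) (nat_lit 76) (nat_lit 5875946963) (nat_lit 395) (nat_lit 5) (nat_lit 416) (nat_lit 5) (nat_lit 396) (nat_lit 5) (nat_lit 289) (nat_lit 267) (nat_lit 224)) (XT.nd (nat_lit 78) (nat_lit 1672) (nat_lit 0) (XT.lf (nat_lit 0) (nat_lit 3285640698) (nat_lit 1672) (nat_lit 3278536313) (nat_lit 76) (nat_lit 1600022941) (nat_lit 374) (nat_lit 5) (nat_lit 396) (nat_lit 5) (nat_lit 375) (nat_lit 5) (nat_lit 290) (nat_lit 267) (nat_lit 223)) (XT.lf (nat_lit 0) (nat_lit 3404787043) (nat_lit 1672) (nat_lit 2754498991) (nat_lit 1748) (nat_lit 2109292802) (nat_lit 352) (nat_lit 5) (nat_lit 374) (nat_lit 5) (nat_lit 375) (nat_lit 5) (nat_lit 291) (nat_lit 267) (nat_lit 222))))) (XT.nd (nat_lit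 234) (nat_lit 3344) (nat_lit 0) (XT.nd (nat_lit 78) (nat_lit 836) (nat_lit 0) (XT.lf (nat_lit 0) (nat_lit 703408360) (nat_lit 1216) (nat_lit 6473345866) (nat_lit 76) (nat_lit 1199905724) (nat_lit 336) (nat_lit 5) (nat_lit 352) (nat_lit 5) (nat_lit 337) (nat_lit 5) (nat_lit 292) (nat_lit 267) (nat_lit 221)) (XT.nd (nat_lit 78) (nat_lit 0) (nat_lit 0) (XT.lf (nat_lit 0) (nat_lit 357618202) (nat_lit 836) (nat_lit 3197455764) (nat_lit 912) (nat_lit 4933033244) (nat_lit 325) (nat_lit 5) (nat_lit 336) (nat_lit 5) (nat_lit 337) (nat_lit 5) (nat_lit 293) (nat_lit 267) (nat_lit 220)) (XT.lf (nat_lit 0) (nat_lit 6473111215) (nat_lit 912) (nat_lit 1193439274) (nat_lit 76) (nat_lit 936796374) (nat_lit 325) (nat_lit 5) (nat_lit 337) (nat_lit 5) (nat_lit 326) (nat_lit 5) (nat_lit 294) (nat_lit 267) (nat_lit 219)))) (XT.nd (nat_lit 156) (nat_lit 1672) (nat_lit 0) (XT.nd (nat_lit 78) (nat_lit 760) (nat_lit 0)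 (XT.lf (nat_lit 0) (nat_lit 739409193) (nat_lit 912) (nat_lit 2784268378) (nat_lit 76) (nat_lit 5198476401) (nat_lit 313) (nat_lit 5) (nat_lit 325) (nat_lit 5) (nat_lit 314) (nat_lit 5) (nat_lit 295) (nat_lit 267) (nat_lit 218)) (XT.lf (nat_lit 0) (nat_lit 3642337625) (nat_lit 836) (nat_lit 4416395601) (nat_lit 76) (nat_lit 786048179) (nat_lit 303) (nat_lit 5) (nat_lit 314) (nat_lit 5) (nat_lit 304) (nat_lit 5) (nat_lit 296) (nat_lit 267) (nat_lit 217))) (XT.nd (nat_lit 78) (nat_lit 836) (nat_lit 0) (XT.lf (nat_lit 0) (nat_lit 2873209355) (nat_lit 836) (nat_lit 3755739532) (nat_lit 912) (nat_lit 2342265558) (nat_lit 292) (nat_lit 5) (nat_lit 303) (nat_lit 5) (nat_lit 304) (nat_lit 5) (nat_lit 297) (nat_lit 267) (nat_lit 216)) (XT.lf (nat_lit 0) (nat_lit 575323361) (nat_lit 836) (nat_lit 7818129693) (nat_lit 76) (nat_lit 708374421) (nat_lit 281) (nat_lit 5) (nat_lit 292) (nat_lit 5) (nat_lit 282)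 (nat_lit 5) (nat_lit 298) (nat_lit 267) (nat_lit 215)))))) (XT.nd (nat_lit 468) (nat_lit 3116) (nat_lit 0) (XT.nd (nat_lit 234) (nat_lit 2052) (nat_lit 0) (XT.nd (nat_lit 78) (nat_lit 1520) (nat_lit 0) (XT.lf (nat_lit 0) (nat_lit 3553304429) (nat_lit 836) (nat_lit 371927969) (nat_lit 76) (nat_lit 5310777347) (nat_lit 281) (nat_lit 5) (nat_lit 292) (nat_lit 5) (nat_lit 282) (nat_lit 5) (nat_lit 299) (nat_lit 267) (nat_lit 214)) (XT.nd (nat_lit 78) (nat_lit 760) (nat_lit 0) (XT.lf (nat_lit 0) (nat_lit 6612510750) (nat_lit 836) (nat_lit 2049172154) (nat_lit 76) (nat_lit 712749515) (nat_lit 271) (nat_lit 5) (nat_lit 282) (nat_lit 5) (nat_lit 272) (nat_lit 5) (nat_lit 300) (nat_lit 267) (nat_lit 213)) (XT.lf (nat_lit 0) (nat_lit 250147631) (nat_lit 760) (nat_lit 3792157672) (nat_lit 76) (nat_lit 5474582679) (nat_lit 261) (nat_lit 5) (nat_lit 271) (nat_lit 5) (nat_lit 262) (nat_lit 5) (nat_lit 301) (nat_lit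 267) (nat_lit 212)))) (XT.nd (nat_lit 78) (nat_lit 1368) (nat_lit 0) (XT.lf (nat_lit 0) (nat_lit 3302471035) (nat_lit 760) (nat_lit 5601017586) (nat_lit 76) (nat_lit 760063807) (nat_lit 252) (nat_lit 5) (nat_lit 262) (nat_lit 5) (nat_lit 253) (nat_lit 5) (nat_lit 302) (nat_lit 267) (nat_lit 211)) (XT.nd (nat_lit 78) (nat_lit 684) (nat_lit 0) (XT.lf (nat_lit 0) (nat_lit 2330206976) (nat_lit 684) (nat_lit 4127250242) (nat_lit 760) (nat_lit 3356984966) (nat_lit 243) (nat_lit 5) (nat_lit 252) (nat_lit 5) (nat_lit 253) (nat_lit 5) (nat_lit 303) (nat_lit 267) (nat_lit 210)) (XT.lf (nat_lit 0) (nat_lit 544783814) (nat_lit 684) (nat_lit 9153464511) (nat_lit 760) (nat_lit 271833065) (nat_lit 234) (nat_lit 5) (nat_lit 243) (nat_lit 5) (nat_lit 244) (nat_lit 5) (nat_lit 304) (nat_lit 267) (nat_lit 209))))) (XT.nd (nat_lit 234) (nat_lit 1824) (nat_lit 0) (XT.nd (nat_lit 78) (nat_lit 1216) (nat_lit 0) (XT.lf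 (nat_lit 0) (nat_lit 2891493246) (nat_lit 760) (nat_lit 1322699056) (nat_lit 76) (nat_lit 5915389165) (nat_lit 233) (nat_lit 5) (nat_lit 243) (nat_lit 5) (nat_lit 234) (nat_lit 5) (nat_lit 305) (nat_lit 267) (nat_lit 208)) (XT.nd (nat_lit 78) (nat_lit 608) (nat_lit 0) (XT.lf (nat_lit 0) (nat_lit 6144441078) (nat_lit 684) (nat_lit 3248092765) (nat_lit 76) (nat_lit 901370854) (nat_lit 225) (nat_lit 5) (nat_lit 234) (nat_lit 5) (nat_lit 226) (nat_lit 5) (nat_lit 306) (nat_lit 267) (nat_lit 207)) (XT.lf (nat_lit 0) (nat_lit 5198633266) (nat_lit 608) (nat_lit 4315082453) (nat_lit 684) (nat_lit 949108284) (nat_lit 217) (nat_lit 5) (nat_lit 225) (nat_lit 5) (nat_lit 226) (nat_lit 5) (nat_lit 307) (nat_lit 267) (nat_lit 206)))) (XT.nd (nat_lit 156) (nat_lit 608) (nat_lit 0) (XT.nd (nat_lit 78) (nat_lit 608) (nat_lit 0) (XT.lf (nat_lit 0) (nat_lit 2314669467) (nat_lit 608) (nat_lit 7370111003) (nat_lit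 76) (nat_lit 951800856) (nat_lit 209) (nat_lit 5) (nat_lit 217) (nat_lit 5) (nat_lit 210) (nat_lit 5) (nat_lit 308) (nat_lit 267) (nat_lit 205)) (XT.lf (nat_lit 0) (nat_lit 1229441693) (nat_lit 608) (nat_lit 4456414271) (nat_lit 684) (nat_lit 5129160156) (nat_lit 201) (nat_lit 5) (nat_lit 209) (nat_lit 5) (nat_lit 210) (nat_lit 5) (nat_lit 309) (nat_lit 267) (nat_lit 204))) (XT.nd (nat_lit 78) (nat_lit 608) (nat_lit 0) (XT.lf (nat_lit 0) (nat_lit 9165054193) (nat_lit 684) (nat_lit 877768432) (nat_lit 76) (nat_lit 955880728) (nat_lit 201) (nat_lit 5) (nat_lit 210) (nat_lit 5) (nat_lit 202) (nat_lit 5) (nat_lit 310) (nat_lit 267) (nat_lit 203)) (XT.lf (nat_lit 0) (nat_lit 1574908584) (nat_lit 608) (nat_lit 3089475878) (nat_lit 76) (nat_lit 6522656202) (nat_lit 193) (nat_lit 5) (nat_lit 201) (nat_lit 5) (nat_lit 194) (nat_lit 5) (nat_lit 311) (nat_lit 267) (nat_lit 202))))))) (XT.nd (nat_lit 1014)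 (nat_lit 3572) (nat_lit 0) (XT.nd (nat_lit 468) (nat_lit 2356) (nat_lit 0) (XT.nd (nat_lit 234) (nat_lit 912) (nat_lit 0) (XT.nd (nat_lit 78) (nat_lit 1140) (nat_lit 0) (XT.lf (nat_lit 0) (nat_lit 5064433628) (nat_lit 608) (nat_lit 5406830190) (nat_lit 76) (nat_lit 909483532) (nat_lit 186) (nat_lit 5) (nat_lit 194) (nat_lit 5) (nat_lit 187) (nat_lit 5) (nat_lit 312) (nat_lit 267) (nat_lit 201)) (XT.nd (nat_lit 78) (nat_lit 608) (nat_lit 0) (XT.lf (nat_lit 0) (nat_lit 3729953648) (nat_lit 532) (nat_lit 4958778786) (nat_lit 608) (nat_lit 2890964161) (nat_lit 179) (nat_lit 5) (nat_lit 186) (nat_lit 5) (nat_lit 187) (nat_lit 5) (nat_lit 313) (nat_lit 267) (nat_lit 200)) (XT.lf (nat_lit 0) (nat_lit 633826414) (nat_lit 608) (nat_lit 10403676612) (nat_lit 76) (nat_lit 746959350) (nat_lit 171) (nat_lit 5) (nat_lit 179) (nat_lit 5) (nat_lit 172) (nat_lit 5) (nat_lit 314) (nat_lit 267) (nat_lit 199)))) (XT.nd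 (nat_lit 78) (nat_lit 912) (nat_lit 0) (XT.lf (nat_lit 0) (nat_lit 4267128233) (nat_lit 608) (nat_lit 1110325901) (nat_lit 76) (nat_lit 6616724531) (nat_lit 171) (nat_lit 5) (nat_lit 179) (nat_lit 5) (nat_lit 172) (nat_lit 5) (nat_lit 315) (nat_lit 267) (nat_lit 198)) (XT.nd (nat_lit 78) (nat_lit 456) (nat_lit 0) (XT.lf (nat_lit 0) (nat_lit 8024360226) (nat_lit 532) (nat_lit 3696814446) (nat_lit 76) (nat_lit 488742865) (nat_lit 165) (nat_lit 5) (nat_lit 172) (nat_lit 5) (nat_lit 166) (nat_lit 5) (nat_lit 316) (nat_lit 267) (nat_lit 197)) (XT.lf (nat_lit 0) (nat_lit 5994053122) (nat_lit 456) (nat_lit 5939946731) (nat_lit 532) (nat_lit 497363762) (nat_lit 159) (nat_lit 5) (nat_lit 165) (nat_lit 5) (nat_lit 166) (nat_lit 5) (nat_lit 317) (nat_lit 267) (nat_lit 196))))) (XT.nd (nat_lit 234) (nat_lit 1368) (nat_lit 0) (XT.nd (nat_lit 78) (nat_lit 456) (nat_lit 0) (XT.lf (nat_lit 0) (nat_lit 3263299496)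 (nat_lit 532) (nat_lit 9326673947) (nat_lit 76) (nat_lit 68975917) (nat_lit 152) (nat_lit 5) (nat_lit 159) (nat_lit 5) (nat_lit 153) (nat_lit 5) (nat_lit 318) (nat_lit 267) (nat_lit 195)) (XT.nd (nat_lit 78) (nat_lit 0) (nat_lit 0) (XT.lf (nat_lit 0) (nat_lit 497249908) (nat_lit 456) (nat_lit 6678263302) (nat_lit 532) (nat_lit 5716900625) (nat_lit 146) (nat_lit 5) (nat_lit 152) (nat_lit 5) (nat_lit 153) (nat_lit 5) (nat_lit 319) (nat_lit 267) (nat_lit 194)) (XT.lf (nat_lit 0) (nat_lit 10687966076) (nat_lit 456) (nat_lit 539760603) (nat_lit 532) (nat_lit 1904728784) (nat_lit 146) (nat_lit 5) (nat_lit 152) (nat_lit 5) (nat_lit 153) (nat_lit 5) (nat_lit 320) (nat_lit 267) (nat_lit 193)))) (XT.nd (nat_lit 156) (nat_lit 456) (nat_lit 0) (XT.nd (nat_lit 78) (nat_lit 456) (nat_lit 0) (XT.lf (nat_lit 0) (nat_lit 2044396309) (nat_lit 456) (nat_lit 5577233073) (nat_lit 76) (nat_lit 5756848968) (nat_lit 140)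 (nat_lit 5) (nat_lit 146) (nat_lit 5) (nat_lit 141) (nat_lit 5) (nat_lit 321) (nat_lit 267) (nat_lit 192)) (XT.lf (nat_lit 0) (nat_lit 4747728333) (nat_lit 456) (nat_lit 1350685966) (nat_lit 532) (nat_lit 7532993802) (nat_lit 134) (nat_lit 5) (nat_lit 140) (nat_lit 5) (nat_lit 141) (nat_lit 5) (nat_lit 322) (nat_lit 267) (nat_lit 191))) (XT.nd (nat_lit 78) (nat_lit 76) (nat_lit 0) (XT.lf (nat_lit 0) (nat_lit 1499712898) (nat_lit 380) (nat_lit 8817015919) (nat_lit 456) (nat_lit 3574366634) (nat_lit 129) (nat_lit 5) (nat_lit 134) (nat_lit 5) (nat_lit 135) (nat_lit 5) (nat_lit 323) (nat_lit 267) (nat_lit 190)) (XT.lf (nat_lit 0) (nat_lit 528278751) (nat_lit 456) (nat_lit 1907653246) (nat_lit 76) (nat_lit 11721961078) (nat_lit 128) (nat_lit 5) (nat_lit 134) (nat_lit 5) (nat_lit 129) (nat_lit 5) (nat_lit 324) (nat_lit 267) (nat_lit 189)))))) (XT.nd (nat_lit 546) (nat_lit 1292) (nat_lit 0) (XT.nd (nat_lit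 234) (nat_lit 1140) (nat_lit 0) (XT.nd (nat_lit 78) (nat_lit 760) (nat_lit 0) (XT.lf (nat_lit 0) (nat_lit 4754334186) (nat_lit 456) (nat_lit 5527514705) (nat_lit 76) (nat_lit 4149416823) (nat_lit 123) (nat_lit 5) (nat_lit 129) (nat_lit 5) (nat_lit 124) (nat_lit 5) (nat_lit 325) (nat_lit 267) (nat_lit 188)) (XT.nd (nat_lit 78) (nat_lit 380) (nat_lit 0) (XT.lf (nat_lit 0) (nat_lit 5354862603) (nat_lit 380) (nat_lit 3780339778) (nat_lit 456) (nat_lit 5577097364) (nat_lit 118) (nat_lit 5) (nat_lit 123) (nat_lit 5) (nat_lit 124) (nat_lit 5) (nat_lit 326) (nat_lit 267) (nat_lit 187)) (XT.lf (nat_lit 0) (nat_lit 1588204557) (nat_lit 380) (nat_lit 12090817600) (nat_lit 456) (nat_lit 1322132362) (nat_lit 113) (nat_lit 5) (nat_lit 118) (nat_lit 5) (nat_lit 119) (nat_lit 5) (nat_lit 327) (nat_lit 267) (nat_lit 186)))) (XT.nd (nat_lit 156) (nat_lit 760) (nat_lit 0) (XT.nd (nat_lit 78) (nat_lit 304) (nat_lit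 0) (XT.lf (nat_lit 0) (nat_lit 3074479697) (nat_lit 456) (nat_lit 2404120241) (nat_lit 76) (nat_lit 9818614102) (nat_lit 112) (nat_lit 5) (nat_lit 118) (nat_lit 5) (nat_lit 113) (nat_lit 5) (nat_lit 328) (nat_lit 267) (nat_lit 185)) (XT.lf (nat_lit 0) (nat_lit 7618561284) (nat_lit 380) (nat_lit 6616350709) (nat_lit 76) (nat_lit 1366416586) (nat_lit 108) (nat_lit 5) (nat_lit 113) (nat_lit 5) (nat_lit 109) (nat_lit 5) (nat_lit 329) (nat_lit 267) (nat_lit 184))) (XT.nd (nat_lit 78) (nat_lit 380) (nat_lit 0) (XT.lf (nat_lit 0) (nat_lit 4811052353) (nat_lit 380) (nat_lit 7538799143) (nat_lit 456) (nat_lit 3563715487) (nat_lit 103) (nat_lit 5) (nat_lit 108) (nat_lit 5) (nat_lit 109) (nat_lit 5) (nat_lit 330) (nat_lit 267) (nat_lit 183)) (XT.lf (nat_lit 0) (nat_lit 386561343) (nat_lit 304) (nat_lit 603064725) (nat_lit 380) (nat_lit 15245141968) (nat_lit 98) (nat_lit 5) (nat_lit 102) (nat_lit 5) (nat_lit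 103) (nat_lit 5) (nat_lit 331) (nat_lit 267) (nat_lit 182))))) (XT.nd (nat_lit 234) (nat_lit 684) (nat_lit 0) (XT.nd (nat_lit 78) (nat_lit 608) (nat_lit 0) (XT.lf (nat_lit 0) (nat_lit 5717199152) (nat_lit 380) (nat_lit 4307736670) (nat_lit 76) (nat_lit 6538493984) (nat_lit 98) (nat_lit 5) (nat_lit 103) (nat_lit 5) (nat_lit 99) (nat_lit 5) (nat_lit 332) (nat_lit 267) (nat_lit 181)) (XT.nd (nat_lit 78) (nat_lit 304) (nat_lit 0) (XT.lf (nat_lit 0) (nat_lit 7627256474) (nat_lit 304) (nat_lit 2981414594) (nat_lit 380) (nat_lit 6292855214) (nat_lit 94) (nat_lit 5) (nat_lit 98) (nat_lit 5) (nat_lit 99) (nat_lit 5) (nat_lit 333) (nat_lit 267) (nat_lit 180)) (XT.lf (nat_lit 0) (nat_lit 2689976782) (nat_lit 304) (nat_lit 13000530831) (nat_lit 380) (nat_lit 1558401439) (nat_lit 90) (nat_lit 5) (nat_lit 94) (nat_lit 5) (nat_lit 95) (nat_lit 5) (nat_lit 334) (nat_lit 267) (nat_lit 179)))) (XT.nd (nat_lit 156)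 (nat_lit 304) (nat_lit 0) (XT.nd (nat_lit 78) (nat_lit 304) (nat_lit 0) (XT.lf (nat_lit 0) (nat_lit 3327176707) (nat_lit 380) (nat_lit 2554353402) (nat_lit 76) (nat_lit 11723715221) (nat_lit 89) (nat_lit 5) (nat_lit 94) (nat_lit 5) (nat_lit 90) (nat_lit 5) (nat_lit 335) (nat_lit 267) (nat_lit 178)) (XT.lf (nat_lit 0) (nat_lit 8382553310) (nat_lit 380) (nat_lit 8097356218) (nat_lit 76) (nat_lit 1491282683) (nat_lit 85) (nat_lit 5) (nat_lit 90) (nat_lit 5) (nat_lit 86) (nat_lit 5) (nat_lit 336) (nat_lit 267) (nat_lit 177))) (XT.nd (nat_lit 78) (nat_lit 76) (nat_lit 0) (XT.lf (nat_lit 0) (nat_lit 4333979907) (nat_lit 228) (nat_lit 9311276006) (nat_lit 304) (nat_lit 4701762477) (nat_lit 82) (nat_lit 5) (nat_lit 85) (nat_lit 5) (nat_lit 86) (nat_lit 5) (nat_lit 337) (nat_lit 267) (nat_lit 176)) (XT.lf (nat_lit 0) (nat_lit 353730219) (nat_lit 304) (nat_lit 1531582589) (nat_lit 76) (nat_lit 16848249762)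 (nat_lit 81) (nat_lit 5) (nat_lit 85) (nat_lit 5) (nat_lit 82) (nat_lit 5) (nat_lit 338) (nat_lit 267) (nat_lit 175))))))))
noncomputable def xc65 : XT := (XT.nd (nat_lit 35412) (nat_lit 0) (nat_lit 19456) (XT.nd (nat_lit 1014) (nat_lit 1064) (nat_lit 0) (XT.nd (nat_lit 468) (nat_lit 1292) (nat_lit 0) (XT.nd (nat_lit 234) (nat_lit 608) (nat_lit 0) (XT.nd (nat_lit 78) (nat_lit 228) (nat_lit 0) (XT.lf (nat_lit 0) (nat_lit 5581363937) (nat_lit 380) (nat_lit 7769638305) (nat_lit 76) (nat_lit 5778405274) (nat_lit 77) (nat_lit 5) (nat_lit 82) (nat_lit 5) (nat_lit 78) (nat_lit 5) (nat_lit 339) (nat_lit 267) (nat_lit 174)) (XT.nd (nat_lit 78) (nat_lit 0) (nat_lit 0) (XT.lf (nat_lit 0) (nat_lit 5132976012) (nat_lit 228) (nat_lit 5861635539) (nat_lit 304) (nat_lit 8541953287) (nat_lit 74) (nat_lit 5) (nat_lit 77) (nat_lit 5) (nat_lit 78) (nat_lit 5) (nat_lit 340) (nat_lit 267) (nat_lit 173)) (XT.lf (nat_lit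 0) (nat_lit 16608107867) (nat_lit 304) (nat_lit 1481556275) (nat_lit 76) (nat_lit 1865528069) (nat_lit 74) (nat_lit 5) (nat_lit 78) (nat_lit 5) (nat_lit 75) (nat_lit 5) (nat_lit 341) (nat_lit 267) (nat_lit 172)))) (XT.nd (nat_lit 78) (nat_lit 228) (nat_lit 0) (XT.lf (nat_lit 0) (nat_lit 2068036469) (nat_lit 380) (nat_lit 8495201897) (nat_lit 76) (nat_lit 9821077947) (nat_lit 69) (nat_lit 5) (nat_lit 74) (nat_lit 5) (nat_lit 70) (nat_lit 5) (nat_lit 342) (nat_lit 267) (nat_lit 171)) (XT.nd (nat_lit 78) (nat_lit 0) (nat_lit 0) (XT.lf (nat_lit 0) (nat_lit 4854558888) (nat_lit 228) (nat_lit 2761396836) (nat_lit 304) (nat_lit 13209610976) (nat_lit 66) (nat_lit 5) (nat_lit 69) (nat_lit 5) (nat_lit 70) (nat_lit 5) (nat_lit 343) (nat_lit 267) (nat_lit 170)) (XT.lf (nat_lit 0) (nat_lit 13396832003) (nat_lit 304) (nat_lit 2633910150) (nat_lit 76) (nat_lit 5247993143) (nat_lit 66) (nat_lit 5) (nat_lit 70)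 (nat_lit 5) (nat_lit 67) (nat_lit 5) (nat_lit 344) (nat_lit 267) (nat_lit 169))))) (XT.nd (nat_lit 234) (nat_lit 760) (nat_lit 0) (XT.nd (nat_lit 78) (nat_lit 304) (nat_lit 0) (XT.lf (nat_lit 0) (nat_lit 11191342017) (nat_lit 228) (nat_lit 8225995114) (nat_lit 304) (nat_lit 2326848531) (nat_lit 63) (nat_lit 5) (nat_lit 66) (nat_lit 5) (nat_lit 67) (nat_lit 5) (nat_lit 345) (nat_lit 267) (nat_lit 168)) (XT.nd (nat_lit 78) (nat_lit 0) (nat_lit 0) (XT.lf (nat_lit 0) (nat_lit 3224338000) (nat_lit 228) (nat_lit 140267417) (nat_lit 304) (nat_lit 18858278096) (nat_lit 59) (nat_lit 5) (nat_lit 62) (nat_lit 5) (nat_lit 63) (nat_lit 5) (nat_lit 346) (nat_lit 267) (nat_lit 167)) (XT.lf (nat_lit 0) (nat_lit 9296250202) (nat_lit 304) (nat_lit 5264123684) (nat_lit 76) (nat_lit 8153249554) (nat_lit 59) (nat_lit 5) (nat_lit 63) (nat_lit 5) (nat_lit 60) (nat_lit 5) (nat_lit 347) (nat_lit 267) (nat_lit 166)))) (XT.nd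 (nat_lit 156) (nat_lit 532) (nat_lit 0) (XT.nd (nat_lit 78) (nat_lit 0) (nat_lit 0) (XT.lf (nat_lit 0) (nat_lit 8960366598) (nat_lit 228) (nat_lit 6481033816) (nat_lit 304) (nat_lit 7776983684) (nat_lit 56) (nat_lit 5) (nat_lit 59) (nat_lit 5) (nat_lit 60) (nat_lit 5) (nat_lit 348) (nat_lit 267) (nat_lit 165)) (XT.lf (nat_lit 0) (nat_lit 21795549004) (nat_lit 304) (nat_lit 104406933) (nat_lit 76) (nat_lit 1837848138) (nat_lit 56) (nat_lit 5) (nat_lit 60) (nat_lit 5) (nat_lit 57) (nat_lit 5) (nat_lit 349) (nat_lit 267) (nat_lit 164))) (XT.nd (nat_lit 78) (nat_lit 228) (nat_lit 0) (XT.lf (nat_lit 0) (nat_lit 4130420818) (nat_lit 304) (nat_lit 9713107973) (nat_lit 76) (nat_lit 10426433571) (nat_lit 52) (nat_lit 5) (nat_lit 56) (nat_lit 5) (nat_lit 53) (nat_lit 5) (nat_lit 350) (nat_lit 267) (nat_lit 163)) (XT.lf (nat_lit 0) (nat_lit 4855114221) (nat_lit 228) (nat_lit 5513885606) (nat_lit 304) (nat_lit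 14448635259) (nat_lit 49) (nat_lit 5) (nat_lit 52) (nat_lit 5) (nat_lit 53) (nat_lit 5) (nat_lit 351) (nat_lit 267) (nat_lit 162)))))) (XT.nd (nat_lit 468) (nat_lit 456) (nat_lit 0) (XT.nd (nat_lit 234) (nat_lit 380) (nat_lit 0) (XT.nd (nat_lit 78) (nat_lit 228) (nat_lit 0) (XT.lf (nat_lit 0) (nat_lit 16858940243) (nat_lit 304) (nat_lit 5444057280) (nat_lit 76) (nat_lit 3077464798) (nat_lit 49) (nat_lit 5) (nat_lit 53) (nat_lit 5) (nat_lit 50) (nat_lit 5) (nat_lit 352) (nat_lit 267) (nat_lit 161)) (XT.nd (nat_lit 78) (nat_lit 76) (nat_lit 0) (XT.lf (nat_lit 0) (nat_lit 9562939872) (nat_lit 152) (nat_lit 14058286066) (nat_lit 228) (nat_lit 2337403661) (nat_lit 47) (nat_lit 5) (nat_lit 49) (nat_lit 5) (nat_lit 50) (nat_lit 5) (nat_lit 353) (nat_lit 267) (nat_lit 160)) (XT.lf (nat_lit 0) (nat_lit 3995421348) (nat_lit 228) (nat_lit 1520439263) (nat_lit 76) (nat_lit 21037444125) (nat_lit 46) (nat_lit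 5) (nat_lit 49) (nat_lit 5) (nat_lit 47) (nat_lit 5) (nat_lit 354) (nat_lit 267) (nat_lit 159)))) (XT.nd (nat_lit 78) (nat_lit 152) (nat_lit 0) (XT.lf (nat_lit 0) (nat_lit 10578597012) (nat_lit 304) (nat_lit 13252108187) (nat_lit 76) (nat_lit 3332971031) (nat_lit 43) (nat_lit 5) (nat_lit 47) (nat_lit 5) (nat_lit 44) (nat_lit 5) (nat_lit 355) (nat_lit 267) (nat_lit 158)) (XT.nd (nat_lit 78) (nat_lit 0) (nat_lit 0) (XT.lf (nat_lit 0) (nat_lit 1990328760) (nat_lit 152) (nat_lit 15408953789) (nat_lit 228) (nat_lit 10392283355) (nat_lit 41) (nat_lit 5) (nat_lit 43) (nat_lit 5) (nat_lit 44) (nat_lit 5) (nat_lit 356) (nat_lit 267) (nat_lit 157)) (XT.lf (nat_lit 0) (nat_lit 17837973310) (nat_lit 152) (nat_lit 6656619770) (nat_lit 228) (nat_lit 3942306211) (nat_lit 41) (nat_lit 5) (nat_lit 43) (nat_lit 5) (nat_lit 44) (nat_lit 5) (nat_lit 357) (nat_lit 267) (nat_lit 156))))) (XT.nd (nat_lit 33618) (nat_lit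 0) (nat_lit 39368) (XT.nd (nat_lit 78) (nat_lit 152) (nat_lit 0) (XT.lf (nat_lit 0) (nat_lit 2694904335) (nat_lit 304) (nat_lit 24040801511) (nat_lit 76) (nat_lit 2364959642) (nat_lit 37) (nat_lit 5) (nat_lit 41) (nat_lit 5) (nat_lit 38) (nat_lit 5) (nat_lit 358) (nat_lit 267) (nat_lit 155)) (XT.nd (nat_lit 78) (nat_lit 152) (nat_lit 0) (XT.lf (nat_lit 0) (nat_lit 9575704201) (nat_lit 304) (nat_lit 8553287328) (nat_lit 76) (nat_lit 11652877871) (nat_lit 37) (nat_lit 5) (nat_lit 41) (nat_lit 5) (nat_lit 38) (nat_lit 5) (nat_lit 359) (nat_lit 267) (nat_lit 154)) (XT.lf (nat_lit 0) (nat_lit 7465185604) (nat_lit 152) (nat_lit 9227682369) (nat_lit 228) (nat_lit 13790049043) (nat_lit 35) (nat_lit 5) (nat_lit 37) (nat_lit 5) (nat_lit 38) (nat_lit 5) (nat_lit 360) (nat_lit 267) (nat_lit 153)))) (XT.nd (nat_lit 156) (nat_lit 760) (nat_lit 0) (XT.nd (nat_lit 78) (nat_lit 0) (nat_lit 0) (XT.lf (nat_lit 0)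 (nat_lit 349379881) (nat_lit 836) (nat_lit 1505897925) (nat_lit 836) (nat_lit 1505897925) (nat_lit 563) (nat_lit 3) (nat_lit 574) (nat_lit 3) (nat_lit 574) (nat_lit 5) (nat_lit 268) (nat_lit 268) (nat_lit 244)) (XT.lf (nat_lit 76) (nat_lit 1614878093) (nat_lit 0) (nat_lit 2124585490) (nat_lit 836) (nat_lit 3019165770) (nat_lit 564) (nat_lit 5) (nat_lit 563) (nat_lit 3) (nat_lit 574) (nat_lit 5) (nat_lit 269) (nat_lit 268) (nat_lit 243))) (XT.nd (nat_lit 78) (nat_lit 760) (nat_lit 0) (XT.lf (nat_lit 76) (nat_lit 6360596798) (nat_lit 0) (nat_lit 412952756) (nat_lit 836) (nat_lit 24557078) (nat_lit 564) (nat_lit 5) (nat_lit 563) (nat_lit 3) (nat_lit 574) (nat_lit 5) (nat_lit 270) (nat_lit 268) (nat_lit 242)) (XT.lf (nat_lit 0) (nat_lit 2941969772) (nat_lit 836) (nat_lit 2463009297) (nat_lit 912) (nat_lit 1435094446) (nat_lit 553) (nat_lit 5) (nat_lit 564) (nat_lit 5) (nat_lit 565) (nat_lit 5) (nat_lit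 271) (nat_lit 268) (nat_lit 241))))))) (XT.nd (nat_lit 1014) (nat_lit 13680) (nat_lit 0) (XT.nd (nat_lit 468) (nat_lit 4408) (nat_lit 0) (XT.nd (nat_lit 234) (nat_lit 912) (nat_lit 0) (XT.nd (nat_lit 78) (nat_lit 912) (nat_lit 0) (XT.lf (nat_lit 76) (nat_lit 2425041347) (nat_lit 0) (nat_lit 3481222748) (nat_lit 912) (nat_lit 978992524) (nat_lit 554) (nat_lit 5) (nat_lit 553) (nat_lit 5) (nat_lit 565) (nat_lit 5) (nat_lit 272) (nat_lit 268) (nat_lit 240)) (XT.nd (nat_lit 78) (nat_lit 0) (nat_lit 76) (XT.lf (nat_lit 76) (nat_lit 491933927) (nat_lit 0) (nat_lit 1418783116) (nat_lit 988) (nat_lit 5022758197) (nat_lit 542) (nat_lit 5) (nat_lit 541) (nat_lit 5) (nat_lit 554) (nat_lit 5) (nat_lit 273) (nat_lit 268) (nat_lit 239)) (XT.lf (nat_lit 0) (nat_lit 4801627233) (nat_lit 912) (nat_lit 1404944236) (nat_lit 988) (nat_lit 778015074) (nat_lit 542) (nat_lit 5) (nat_lit 554) (nat_lit 5) (nat_lit 555)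 (nat_lit 5) (nat_lit 274) (nat_lit 268) (nat_lit 238)))) (XT.nd (nat_lit 78) (nat_lit 0) (nat_lit 0) (XT.lf (nat_lit 0) (nat_lit 661462368) (nat_lit 988) (nat_lit 3283437544) (nat_lit 1064) (nat_lit 3093777104) (nat_lit 529) (nat_lit 5) (nat_lit 542) (nat_lit 5) (nat_lit 543) (nat_lit 5) (nat_lit 275) (nat_lit 268) (nat_lit 237)) (XT.nd (nat_lit 78) (nat_lit 0) (nat_lit 76) (XT.lf (nat_lit 76) (nat_lit 1942723334) (nat_lit 0) (nat_lit 1538892054) (nat_lit 1064) (nat_lit 3614206845) (nat_lit 530) (nat_lit 5) (nat_lit 529) (nat_lit 5) (nat_lit 543) (nat_lit 5) (nat_lit 276) (nat_lit 268) (nat_lit 236)) (XT.lf (nat_lit 76) (nat_lit 147381213) (nat_lit 0) (nat_lit 6168952916) (nat_lit 1064) (nat_lit 839866657) (nat_lit 531) (nat_lit 5) (nat_lit 530) (nat_lit 5) (nat_lit 544) (nat_lit 5) (nat_lit 277) (nat_lit 268) (nat_lit 235))))) (XT.nd (nat_lit 234) (nat_lit 2356) (nat_lit 0) (XT.nd (nat_lit 78)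 (nat_lit 1064) (nat_lit 0) (XT.lf (nat_lit 0) (nat_lit 1938920436) (nat_lit 1064) (nat_lit 1628947528) (nat_lit 1140) (nat_lit 3651419650) (nat_lit 516) (nat_lit 5) (nat_lit 530) (nat_lit 5) (nat_lit 531) (nat_lit 5) (nat_lit 278) (nat_lit 268) (nat_lit 234)) (XT.nd (nat_lit 78) (nat_lit 1064) (nat_lit 0) (XT.lf (nat_lit 76) (nat_lit 3894632833) (nat_lit 0) (nat_lit 825464559) (nat_lit 1140) (nat_lit 2565559123) (nat_lit 517) (nat_lit 5) (nat_lit 516) (nat_lit 5) (nat_lit 531) (nat_lit 5) (nat_lit 279) (nat_lit 268) (nat_lit 233)) (XT.lf (nat_lit 0) (nat_lit 173250847) (nat_lit 1140) (nat_lit 5152347025) (nat_lit 1216) (nat_lit 2029580960) (nat_lit 502) (nat_lit 5) (nat_lit 517) (nat_lit 5) (nat_lit 518) (nat_lit 5) (nat_lit 280) (nat_lit 268) (nat_lit 232)))) (XT.nd (nat_lit 156) (nat_lit 2356) (nat_lit 0) (XT.nd (nat_lit 78) (nat_lit 0) (nat_lit 76) (XT.lf (nat_lit 76) (nat_lit 503826235) (nat_lit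 0) (nat_lit 2396889056) (nat_lit 1216) (nat_lit 4527006384) (nat_lit 503) (nat_lit 5) (nat_lit 502) (nat_lit 5) (nat_lit 518) (nat_lit 5) (nat_lit 281) (nat_lit 268) (nat_lit 231)) (XT.lf (nat_lit 0) (nat_lit 5660791602) (nat_lit 1140) (nat_lit 1171315275) (nat_lit 76) (nat_lit 671416170) (nat_lit 503) (nat_lit 5) (nat_lit 518) (nat_lit 5) (nat_lit 504) (nat_lit 5) (nat_lit 282) (nat_lit 268) (nat_lit 230))) (XT.nd (nat_lit 78) (nat_lit 1216) (nat_lit 0) (XT.lf (nat_lit 0) (nat_lit 870600178) (nat_lit 1216) (nat_lit 2851891339) (nat_lit 76) (nat_lit 3859868060) (nat_lit 487) (nat_lit 5) (nat_lit 503) (nat_lit 5) (nat_lit 488) (nat_lit 5) (nat_lit 283) (nat_lit 268) (nat_lit 229)) (XT.lf (nat_lit 0) (nat_lit 3126768488) (nat_lit 1216) (nat_lit 457602185) (nat_lit 1292) (nat_lit 4080155999) (nat_lit 471) (nat_lit 5) (nat_lit 487) (nat_lit 5) (nat_lit 488) (nat_lit 5) (nat_lit 284) (nat_lit 268) (nat_lit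 228)))))) (XT.nd (nat_lit 546) (nat_lit 6308) (nat_lit 0) (XT.nd (nat_lit 234) (nat_lit 4636) (nat_lit 0) (XT.nd (nat_lit 78) (nat_lit 1444) (nat_lit 0) (XT.lf (nat_lit 0) (nat_lit 1511256890) (nat_lit 1292) (nat_lit 4834242814) (nat_lit 1368) (nat_lit 1404428094) (nat_lit 454) (nat_lit 5) (nat_lit 471) (nat_lit 5) (nat_lit 472) (nat_lit 5) (nat_lit 285) (nat_lit 268) (nat_lit 227)) (XT.nd (nat_lit 78) (nat_lit 1368) (nat_lit 0) (XT.lf (nat_lit 0) (nat_lit 1287041485) (nat_lit 1368) (nat_lit 110194170) (nat_lit 76) (nat_lit 6441499572) (nat_lit 453) (nat_lit 5) (nat_lit 471) (nat_lit 5) (nat_lit 454) (nat_lit 5) (nat_lit 286) (nat_lit 268) (nat_lit 226)) (XT.lf (nat_lit 0) (nat_lit 4016491895) (nat_lit 1444) (nat_lit 1733848284) (nat_lit 76) (nat_lit 2180235942) (nat_lit 435) (nat_lit 5) (nat_lit 454) (nat_lit 5) (nat_lit 436) (nat_lit 5) (nat_lit 287) (nat_lit 268) (nat_lit 225)))) (XT.nd (nat_lit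 156) (nat_lit 1596) (nat_lit 0) (XT.nd (nat_lit 78) (nat_lit 1596) (nat_lit 0) (XT.lf (nat_lit 0) (nat_lit 4657406263) (nat_lit 1444) (nat_lit 2134270508) (nat_lit 1520) (nat_lit 1234297341) (nat_lit 416) (nat_lit 5) (nat_lit 435) (nat_lit 5) (nat_lit 436) (nat_lit 5) (nat_lit 288) (nat_lit 268) (nat_lit 224)) (XT.lf (nat_lit 0) (nat_lit 1473319179) (nat_lit 1596) (nat_lit 5028333368) (nat_lit 76) (nat_lit 1623109478) (nat_lit 395) (nat_lit 5) (nat_lit 416) (nat_lit 5) (nat_lit 396) (nat_lit 5) (nat_lit 289) (nat_lit 268) (nat_lit 223))) (XT.nd (nat_lit 78) (nat_lit 0) (nat_lit 0) (XT.lf (nat_lit 0) (nat_lit 1508370484) (nat_lit 1596) (nat_lit 2710787918) (nat_lit 1672) (nat_lit 4007789633) (nat_lit 374) (nat_lit 5) (nat_lit 395) (nat_lit 5) (nat_lit 396) (nat_lit 5) (nat_lit 290) (nat_lit 268) (nat_lit 222)) (XT.lf (nat_lit 0) (nat_lit 7017829779) (nat_lit 1672) (nat_lit 94170165) (nat_lit 76)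 (nat_lit 1220861319) (nat_lit 374) (nat_lit 5) (nat_lit 396) (nat_lit 5) (nat_lit 375) (nat_lit 5) (nat_lit 291) (nat_lit 268) (nat_lit 221))))) (XT.nd (nat_lit 234) (nat_lit 2584) (nat_lit 0) (XT.nd (nat_lit 78) (nat_lit 1976) (nat_lit 0) (XT.lf (nat_lit 0) (nat_lit 1431619777) (nat_lit 1748) (nat_lit 1715197387) (nat_lit 76) (nat_lit 5295167924) (nat_lit 351) (nat_lit 5) (nat_lit 374) (nat_lit 5) (nat_lit 352) (nat_lit 5) (nat_lit 292) (nat_lit 268) (nat_lit 220)) (XT.nd (nat_lit 78) (nat_lit 836) (nat_lit 0) (XT.lf (nat_lit 0) (nat_lit 4215292127) (nat_lit 1216) (nat_lit 3365472072) (nat_lit 76) (nat_lit 974060234) (nat_lit 336) (nat_lit 5) (nat_lit 352) (nat_lit 5) (nat_lit 337) (nat_lit 5) (nat_lit 293) (nat_lit 268) (nat_lit 219)) (XT.lf (nat_lit 0) (nat_lit 3616848687) (nat_lit 836) (nat_lit 3455077196) (nat_lit 912) (nat_lit 1599397555) (nat_lit 325) (nat_lit 5) (nat_lit 336) (nat_lit 5)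 (nat_lit 337) (nat_lit 5) (nat_lit 294) (nat_lit 268) (nat_lit 218)))) (XT.nd (nat_lit 156) (nat_lit 912) (nat_lit 0) (XT.nd (nat_lit 78) (nat_lit 760) (nat_lit 0) (XT.lf (nat_lit 0) (nat_lit 1182707705) (nat_lit 912) (nat_lit 6778118131) (nat_lit 76) (nat_lit 830877106) (nat_lit 313) (nat_lit 5) (nat_lit 325) (nat_lit 5) (nat_lit 314) (nat_lit 5) (nat_lit 295) (nat_lit 268) (nat_lit 217)) (XT.lf (nat_lit 0) (nat_lit 355083792) (nat_lit 760) (nat_lit 3667273820) (nat_lit 836) (nat_lit 4893267242) (nat_lit 303) (nat_lit 5) (nat_lit 313) (nat_lit 5) (nat_lit 314) (nat_lit 5) (nat_lit 296) (nat_lit 268) (nat_lit 216))) (XT.nd (nat_lit 78) (nat_lit 912) (nat_lit 0) (XT.lf (nat_lit 0) (nat_lit 6935600173) (nat_lit 836) (nat_lit 1316184714) (nat_lit 76) (nat_lit 791768448) (nat_lit 303) (nat_lit 5) (nat_lit 314) (nat_lit 5) (nat_lit 304) (nat_lit 5) (nat_lit 297) (nat_lit 268) (nat_lit 215)) (XT.lf (nat_lit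 0) (nat_lit 754389643) (nat_lit 912) (nat_lit 3040606838) (nat_lit 76) (nat_lit 5380209634) (nat_lit 291) (nat_lit 5) (nat_lit 303) (nat_lit 5) (nat_lit 292) (nat_lit 5) (nat_lit 298) (nat_lit 268) (nat_lit 214))))))))
noncomputable def xc66 : XT := (XT.nd (nat_lit 2028) (nat_lit 5852) (nat_lit 0) (XT.nd (nat_lit 1014) (nat_lit 4864) (nat_lit 0) (XT.nd (nat_lit 468) (nat_lit 3800) (nat_lit 0) (XT.nd (nat_lit 234) (nat_lit 1368) (nat_lit 0) (XT.nd (nat_lit 78) (nat_lit 1520) (nat_lit 0) (XT.lf (nat_lit 0) (nat_lit 3657843463) (nat_lit 836) (nat_lit 4817051919) (nat_lit 76) (nat_lit 836009484) (nat_lit 281) (nat_lit 5) (nat_lit 292) (nat_lit 5) (nat_lit 282) (nat_lit 5) (nat_lit 299) (nat_lit 268) (nat_lit 213)) (XT.nd (nat_lit 78) (nat_lit 760) (nat_lit 0) (XT.lf (nat_lit 0) (nat_lit 2794950729) (nat_lit 760) (nat_lit 3859080478) (nat_lit 836) (nat_lit 2796581884) (nat_lit 271) (nat_lit 5) (nat_lit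 281) (nat_lit 5) (nat_lit 282) (nat_lit 5) (nat_lit 300) (nat_lit 268) (nat_lit 212)) (XT.lf (nat_lit 0) (nat_lit 131716577) (nat_lit 760) (nat_lit 8542555334) (nat_lit 76) (nat_lit 920509722) (nat_lit 261) (nat_lit 5) (nat_lit 271) (nat_lit 5) (nat_lit 262) (nat_lit 5) (nat_lit 301) (nat_lit 268) (nat_lit 211)))) (XT.nd (nat_lit 78) (nat_lit 1368) (nat_lit 0) (XT.lf (nat_lit 0) (nat_lit 3124801478) (nat_lit 760) (nat_lit 766580332) (nat_lit 76) (nat_lit 5851272309) (nat_lit 261) (nat_lit 5) (nat_lit 271) (nat_lit 5) (nat_lit 262) (nat_lit 5) (nat_lit 302) (nat_lit 268) (nat_lit 210)) (XT.nd (nat_lit 78) (nat_lit 684) (nat_lit 0) (XT.lf (nat_lit 0) (nat_lit 6207085960) (nat_lit 760) (nat_lit 2624085187) (nat_lit 76) (nat_lit 1063849354) (nat_lit 252) (nat_lit 5) (nat_lit 262) (nat_lit 5) (nat_lit 253) (nat_lit 5) (nat_lit 303) (nat_lit 268) (nat_lit 209)) (XT.lf (nat_lit 0) (nat_lit 5494052824)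 (nat_lit 684) (nat_lit 3901042033) (nat_lit 760) (nat_lit 656642427) (nat_lit 243) (nat_lit 5) (nat_lit 252) (nat_lit 5) (nat_lit 253) (nat_lit 5) (nat_lit 304) (nat_lit 268) (nat_lit 208))))) (XT.nd (nat_lit 234) (nat_lit 2432) (nat_lit 0) (XT.nd (nat_lit 78) (nat_lit 608) (nat_lit 0) (XT.lf (nat_lit 0) (nat_lit 2429952434) (nat_lit 760) (nat_lit 6570403126) (nat_lit 76) (nat_lit 1212588216) (nat_lit 233) (nat_lit 5) (nat_lit 243) (nat_lit 5) (nat_lit 234) (nat_lit 5) (nat_lit 305) (nat_lit 268) (nat_lit 207)) (XT.nd (nat_lit 78) (nat_lit 0) (nat_lit 0) (XT.lf (nat_lit 0) (nat_lit 1704474961) (nat_lit 608) (nat_lit 3912274711) (nat_lit 684) (nat_lit 4761860614) (nat_lit 225) (nat_lit 5) (nat_lit 233) (nat_lit 5) (nat_lit 234) (nat_lit 5) (nat_lit 306) (nat_lit 268) (nat_lit 206)) (XT.lf (nat_lit 0) (nat_lit 8901895769) (nat_lit 684) (nat_lit 299751332) (nat_lit 76) (nat_lit 1347584742) (nat_lit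 225) (nat_lit 5) (nat_lit 234) (nat_lit 5) (nat_lit 226) (nat_lit 5) (nat_lit 307) (nat_lit 268) (nat_lit 205)))) (XT.nd (nat_lit 156) (nat_lit 1216) (nat_lit 0) (XT.nd (nat_lit 78) (nat_lit 532) (nat_lit 0) (XT.lf (nat_lit 0) (nat_lit 1571485962) (nat_lit 684) (nat_lit 2383764076) (nat_lit 76) (nat_lit 6768930789) (nat_lit 216) (nat_lit 5) (nat_lit 225) (nat_lit 5) (nat_lit 217) (nat_lit 5) (nat_lit 308) (nat_lit 268) (nat_lit 204)) (XT.lf (nat_lit 0) (nat_lit 4869104347) (nat_lit 608) (nat_lit 4560144508) (nat_lit 76) (nat_lit 1474856315) (nat_lit 209) (nat_lit 5) (nat_lit 217) (nat_lit 5) (nat_lit 210) (nat_lit 5) (nat_lit 309) (nat_lit 268) (nat_lit 203))) (XT.nd (nat_lit 78) (nat_lit 608) (nat_lit 0) (XT.lf (nat_lit 0) (nat_lit 4248219262) (nat_lit 608) (nat_lit 4040189123) (nat_lit 684) (nat_lit 2800599557) (nat_lit 201) (nat_lit 5) (nat_lit 209) (nat_lit 5) (nat_lit 210) (nat_lit 5) (nat_lit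 310) (nat_lit 268) (nat_lit 202)) (XT.lf (nat_lit 0) (nat_lit 531609524) (nat_lit 608) (nat_lit 9219307975) (nat_lit 76) (nat_lit 1528350729) (nat_lit 193) (nat_lit 5) (nat_lit 201) (nat_lit 5) (nat_lit 194) (nat_lit 5) (nat_lit 311) (nat_lit 268) (nat_lit 201)))))) (XT.nd (nat_lit 468) (nat_lit 2736) (nat_lit 0) (XT.nd (nat_lit 234) (nat_lit 1064) (nat_lit 0) (XT.nd (nat_lit 78) (nat_lit 1064) (nat_lit 0) (XT.lf (nat_lit 0) (nat_lit 3953695152) (nat_lit 608) (nat_lit 256635744) (nat_lit 76) (nat_lit 7264009122) (nat_lit 193) (nat_lit 5) (nat_lit 201) (nat_lit 5) (nat_lit 194) (nat_lit 5) (nat_lit 312) (nat_lit 268) (nat_lit 200)) (XT.nd (nat_lit 78) (nat_lit 532) (nat_lit 0) (XT.lf (nat_lit 0) (nat_lit 7502551287) (nat_lit 608) (nat_lit 2647563361) (nat_lit 76) (nat_lit 1524699312) (nat_lit 186) (nat_lit 5) (nat_lit 194) (nat_lit 5) (nat_lit 187) (nat_lit 5) (nat_lit 313) (nat_lit 268) (nat_lit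 199)) (XT.lf (nat_lit 0) (nat_lit 6715926584) (nat_lit 532) (nat_lit 4471724968) (nat_lit 608) (nat_lit 693086219) (nat_lit 179) (nat_lit 5) (nat_lit 186) (nat_lit 5) (nat_lit 187) (nat_lit 5) (nat_lit 314) (nat_lit 268) (nat_lit 198)))) (XT.nd (nat_lit 78) (nat_lit 456) (nat_lit 0) (XT.lf (nat_lit 0) (nat_lit 2864600954) (nat_lit 608) (nat_lit 7815903061) (nat_lit 76) (nat_lit 1411748776) (nat_lit 171) (nat_lit 5) (nat_lit 179) (nat_lit 5) (nat_lit 172) (nat_lit 5) (nat_lit 315) (nat_lit 268) (nat_lit 197)) (XT.nd (nat_lit 78) (nat_lit 0) (nat_lit 0) (XT.lf (nat_lit 0) (nat_lit 1694002684) (nat_lit 456) (nat_lit 4859477546) (nat_lit 532) (nat_lit 5755892701) (nat_lit 165) (nat_lit 5) (nat_lit 171) (nat_lit 5) (nat_lit 172) (nat_lit 5) (nat_lit 316) (nat_lit 268) (nat_lit 196)) (XT.lf (nat_lit 0) (nat_lit 10372200124) (nat_lit 532) (nat_lit 998827659) (nat_lit 76) (nat_lit 1161623418) (nat_lit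 165) (nat_lit 5) (nat_lit 172) (nat_lit 5) (nat_lit 166) (nat_lit 5) (nat_lit 317) (nat_lit 268) (nat_lit 195))))) (XT.nd (nat_lit 234) (nat_lit 1292) (nat_lit 0) (XT.nd (nat_lit 78) (nat_lit 912) (nat_lit 0) (XT.lf (nat_lit 0) (nat_lit 1573141234) (nat_lit 532) (nat_lit 3834805284) (nat_lit 76) (nat_lit 7353497173) (nat_lit 158) (nat_lit 5) (nat_lit 165) (nat_lit 5) (nat_lit 159) (nat_lit 5) (nat_lit 318) (nat_lit 268) (nat_lit 194)) (XT.nd (nat_lit 78) (nat_lit 456) (nat_lit 0) (XT.lf (nat_lit 0) (nat_lit 5401812417) (nat_lit 532) (nat_lit 6822059988) (nat_lit 76) (nat_lit 772719362) (nat_lit 152) (nat_lit 5) (nat_lit 159) (nat_lit 5) (nat_lit 153) (nat_lit 5) (nat_lit 319) (nat_lit 268) (nat_lit 193)) (XT.lf (nat_lit 0) (nat_lit 3251407770) (nat_lit 456) (nat_lit 6138334381) (nat_lit 532) (nat_lit 3848189300) (nat_lit 146) (nat_lit 5) (nat_lit 152) (nat_lit 5) (nat_lit 153) (nat_lit 5) (nat_lit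 320) (nat_lit 268) (nat_lit 192)))) (XT.nd (nat_lit 156) (nat_lit 836) (nat_lit 0) (XT.nd (nat_lit 78) (nat_lit 0) (nat_lit 0) (XT.lf (nat_lit 0) (nat_lit 20935646) (nat_lit 456) (nat_lit 13303439250) (nat_lit 76) (nat_lit 161953370) (nat_lit 140) (nat_lit 5) (nat_lit 146) (nat_lit 5) (nat_lit 141) (nat_lit 5) (nat_lit 321) (nat_lit 268) (nat_lit 191)) (XT.lf (nat_lit 0) (nat_lit 4025495148) (nat_lit 456) (nat_lit 3066735781) (nat_lit 76) (nat_lit 6648027699) (nat_lit 140) (nat_lit 5) (nat_lit 146) (nat_lit 5) (nat_lit 141) (nat_lit 5) (nat_lit 322) (nat_lit 268) (nat_lit 190))) (XT.nd (nat_lit 78) (nat_lit 380) (nat_lit 0) (XT.lf (nat_lit 0) (nat_lit 7524530111) (nat_lit 456) (nat_lit 637792101) (nat_lit 532) (nat_lit 5839264621) (nat_lit 134) (nat_lit 5) (nat_lit 140) (nat_lit 5) (nat_lit 141) (nat_lit 5) (nat_lit 323) (nat_lit 268) (nat_lit 189)) (XT.lf (nat_lit 0) (nat_lit 4169657005) (nat_lit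 380) (nat_lit 8304536174) (nat_lit 456) (nat_lit 1795564815) (nat_lit 129) (nat_lit 5) (nat_lit 134) (nat_lit 5) (nat_lit 135) (nat_lit 5) (nat_lit 324) (nat_lit 268) (nat_lit 188))))))) (XT.nd (nat_lit 1014) (nat_lit 2508) (nat_lit 0) (XT.nd (nat_lit 468) (nat_lit 1748) (nat_lit 0) (XT.nd (nat_lit 234) (nat_lit 760) (nat_lit 0) (XT.nd (nat_lit 78) (nat_lit 380) (nat_lit 0) (XT.lf (nat_lit 0) (nat_lit 616776842) (nat_lit 380) (nat_lit 1738439414) (nat_lit 456) (nat_lit 12190134271) (nat_lit 123) (nat_lit 5) (nat_lit 128) (nat_lit 5) (nat_lit 129) (nat_lit 5) (nat_lit 325) (nat_lit 268) (nat_lit 187)) (XT.nd (nat_lit 78) (nat_lit 380) (nat_lit 0) (XT.lf (nat_lit 0) (nat_lit 6672793986) (nat_lit 456) (nat_lit 3130018631) (nat_lit 76) (nat_lit 5024847717) (nat_lit 123) (nat_lit 5) (nat_lit 129) (nat_lit 5) (nat_lit 124) (nat_lit 5) (nat_lit 326) (nat_lit 268) (nat_lit 186)) (XT.lf (nat_lit 0) (nat_lit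 8037243149) (nat_lit 380) (nat_lit 3112494655) (nat_lit 456) (nat_lit 3968124498) (nat_lit 118) (nat_lit 5) (nat_lit 123) (nat_lit 5) (nat_lit 124) (nat_lit 5) (nat_lit 327) (nat_lit 268) (nat_lit 185)))) (XT.nd (nat_lit 78) (nat_lit 304) (nat_lit 0) (XT.lf (nat_lit 0) (nat_lit 379364128) (nat_lit 456) (nat_lit 11271588281) (nat_lit 76) (nat_lit 3764998736) (nat_lit 112) (nat_lit 5) (nat_lit 118) (nat_lit 5) (nat_lit 113) (nat_lit 5) (nat_lit 328) (nat_lit 268) (nat_lit 184)) (XT.nd (nat_lit 78) (nat_lit 304) (nat_lit 0) (XT.lf (nat_lit 0) (nat_lit 4839821135) (nat_lit 456) (nat_lit 15167638) (nat_lit 76) (nat_lit 10866758345) (nat_lit 112) (nat_lit 5) (nat_lit 118) (nat_lit 5) (nat_lit 113) (nat_lit 5) (nat_lit 329) (nat_lit 268) (nat_lit 183)) (XT.lf (nat_lit 0) (nat_lit 9492284708) (nat_lit 380) (nat_lit 4365067890) (nat_lit 76) (nat_lit 2178218136) (nat_lit 108) (nat_lit 5) (nat_lit 113) (nat_lit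 5) (nat_lit 109) (nat_lit 5) (nat_lit 330) (nat_lit 268) (nat_lit 182))))) (XT.nd (nat_lit 234) (nat_lit 988) (nat_lit 0) (XT.nd (nat_lit 78) (nat_lit 380) (nat_lit 0) (XT.lf (nat_lit 0) (nat_lit 7365412602) (nat_lit 380) (nat_lit 6967831056) (nat_lit 456) (nat_lit 2024604081) (nat_lit 103) (nat_lit 5) (nat_lit 108) (nat_lit 5) (nat_lit 109) (nat_lit 5) (nat_lit 331) (nat_lit 268) (nat_lit 181)) (XT.nd (nat_lit 78) (nat_lit 0) (nat_lit 0) (XT.lf (nat_lit 0) (nat_lit 2613136577) (nat_lit 380) (nat_lit 13899132684) (nat_lit 76) (nat_lit 176838881) (nat_lit 98) (nat_lit 5) (nat_lit 103) (nat_lit 5) (nat_lit 99) (nat_lit 5) (nat_lit 332) (nat_lit 268) (nat_lit 180)) (XT.lf (nat_lit 0) (nat_lit 7440030358) (nat_lit 380) (nat_lit 2086981149) (nat_lit 76) (nat_lit 7501492462) (nat_lit 98) (nat_lit 5) (nat_lit 103) (nat_lit 5) (nat_lit 99) (nat_lit 5) (nat_lit 333) (nat_lit 268) (nat_lit 179)))) (XT.nd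 (nat_lit 156) (nat_lit 380) (nat_lit 0) (XT.nd (nat_lit 78) (nat_lit 304) (nat_lit 0) (XT.lf (nat_lit 0) (nat_lit 10167936032) (nat_lit 304) (nat_lit 2280136601) (nat_lit 380) (nat_lit 4929297553) (nat_lit 94) (nat_lit 5) (nat_lit 98) (nat_lit 5) (nat_lit 99) (nat_lit 5) (nat_lit 334) (nat_lit 268) (nat_lit 178)) (XT.lf (nat_lit 0) (nat_lit 5070675818) (nat_lit 304) (nat_lit 12587300842) (nat_lit 380) (nat_lit 77708223) (nat_lit 90) (nat_lit 5) (nat_lit 94) (nat_lit 5) (nat_lit 95) (nat_lit 5) (nat_lit 335) (nat_lit 268) (nat_lit 177))) (XT.nd (nat_lit 78) (nat_lit 304) (nat_lit 0) (XT.lf (nat_lit 0) (nat_lit 4890499328) (nat_lit 380) (nat_lit 377805378) (nat_lit 76) (nat_lit 12835107902) (nat_lit 89) (nat_lit 5) (nat_lit 94) (nat_lit 5) (nat_lit 90) (nat_lit 5) (nat_lit 336) (nat_lit 268) (nat_lit 176)) (XT.lf (nat_lit 0) (nat_lit 10074375640) (nat_lit 380) (nat_lit 6099322051) (nat_lit 76) (nat_lit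 2307124405) (nat_lit 85) (nat_lit 5) (nat_lit 90) (nat_lit 5) (nat_lit 86) (nat_lit 5) (nat_lit 337) (nat_lit 268) (nat_lit 175)))))) (XT.nd (nat_lit 546) (nat_lit 1064) (nat_lit 0) (XT.nd (nat_lit 234) (nat_lit 836) (nat_lit 0) (XT.nd (nat_lit 78) (nat_lit 380) (nat_lit 0) (XT.lf (nat_lit 0) (nat_lit 6668597327) (nat_lit 228) (nat_lit 8798723889) (nat_lit 304) (nat_lit 3401174965) (nat_lit 82) (nat_lit 5) (nat_lit 85) (nat_lit 5) (nat_lit 86) (nat_lit 5) (nat_lit 338) (nat_lit 268) (nat_lit 174)) (XT.nd (nat_lit 78) (nat_lit 0) (nat_lit 0) (XT.lf (nat_lit 0) (nat_lit 589591560) (nat_lit 304) (nat_lit 1159872773) (nat_lit 380) (nat_lit 17517756745) (nat_lit 77) (nat_lit 5) (nat_lit 81) (nat_lit 5) (nat_lit 82) (nat_lit 5) (nat_lit 339) (nat_lit 268) (nat_lit 173)) (XT.lf (nat_lit 0) (nat_lit 7108656006) (nat_lit 380) (nat_lit 5855643843) (nat_lit 76) (nat_lit 6711165758) (nat_lit 77) (nat_lit 5)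 (nat_lit 82) (nat_lit 5) (nat_lit 78) (nat_lit 5) (nat_lit 340) (nat_lit 268) (nat_lit 172)))) (XT.nd (nat_lit 156) (nat_lit 304) (nat_lit 0) (XT.nd (nat_lit 78) (nat_lit 304) (nat_lit 0) (XT.lf (nat_lit 0) (nat_lit 7399215023) (nat_lit 228) (nat_lit 5259192837) (nat_lit 304) (nat_lit 7436965918) (nat_lit 74) (nat_lit 5) (nat_lit 77) (nat_lit 5) (nat_lit 78) (nat_lit 5) (nat_lit 341) (nat_lit 268) (nat_lit 171)) (XT.lf (nat_lit 0) (nat_lit 553572332) (nat_lit 304) (nat_lit 17856383753) (nat_lit 380) (nat_lit 2117228681) (nat_lit 70) (nat_lit 5) (nat_lit 74) (nat_lit 5) (nat_lit 75) (nat_lit 5) (nat_lit 342) (nat_lit 268) (nat_lit 170))) (XT.nd (nat_lit 78) (nat_lit 228) (nat_lit 0) (XT.lf (nat_lit 0) (nat_lit 3414473164) (nat_lit 380) (nat_lit 6693732123) (nat_lit 76) (nat_lit 10861389961) (nat_lit 69) (nat_lit 5) (nat_lit 74) (nat_lit 5) (nat_lit 70) (nat_lit 5) (nat_lit 343) (nat_lit 268) (nat_lit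 169)) (XT.lf (nat_lit 0) (nat_lit 7023160042) (nat_lit 228) (nat_lit 2081394801) (nat_lit 304) (nat_lit 12320030195) (nat_lit 66) (nat_lit 5) (nat_lit 69) (nat_lit 5) (nat_lit 70) (nat_lit 5) (nat_lit 344) (nat_lit 268) (nat_lit 168))))) (XT.nd (nat_lit 234) (nat_lit 532) (nat_lit 0) (XT.nd (nat_lit 78) (nat_lit 532) (nat_lit 0) (XT.lf (nat_lit 0) (nat_lit 15026963502) (nat_lit 304) (nat_lit 728694287) (nat_lit 76) (nat_lit 6136344690) (nat_lit 66) (nat_lit 5) (nat_lit 70) (nat_lit 5) (nat_lit 67) (nat_lit 5) (nat_lit 345) (nat_lit 268) (nat_lit 167)) (XT.nd (nat_lit 78) (nat_lit 304) (nat_lit 0) (XT.lf (nat_lit 0) (nat_lit 13479123619) (nat_lit 228) (nat_lit 7725860523) (nat_lit 304) (nat_lit 1166909653) (nat_lit 63) (nat_lit 5) (nat_lit 66) (nat_lit 5) (nat_lit 67) (nat_lit 5) (nat_lit 346) (nat_lit 268) (nat_lit 166)) (XT.lf (nat_lit 0) (nat_lit 4660290924) (nat_lit 304) (nat_lit 17611364671)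 (nat_lit 76) (nat_lit 593529379) (nat_lit 59) (nat_lit 5) (nat_lit 63) (nat_lit 5) (nat_lit 60) (nat_lit 5) (nat_lit 347) (nat_lit 268) (nat_lit 165)))) (XT.nd (nat_lit 156) (nat_lit 304) (nat_lit 0) (XT.nd (nat_lit 78) (nat_lit 228) (nat_lit 0) (XT.lf (nat_lit 0) (nat_lit 10735997295) (nat_lit 304) (nat_lit 3522824891) (nat_lit 76) (nat_lit 9112516942) (nat_lit 59) (nat_lit 5) (nat_lit 63) (nat_lit 5) (nat_lit 60) (nat_lit 5) (nat_lit 348) (nat_lit 268) (nat_lit 164)) (XT.lf (nat_lit 0) (nat_lit 11097587471) (nat_lit 228) (nat_lit 5946234055) (nat_lit 304) (nat_lit 6847868549) (nat_lit 56) (nat_lit 5) (nat_lit 59) (nat_lit 5) (nat_lit 60) (nat_lit 5) (nat_lit 349) (nat_lit 268) (nat_lit 163))) (XT.nd (nat_lit 78) (nat_lit 76) (nat_lit 0) (XT.lf (nat_lit 0) (nat_lit 1747339443) (nat_lit 228) (nat_lit 21824016789) (nat_lit 304) (nat_lit 855694640) (nat_lit 53) (nat_lit 5) (nat_lit 56) (nat_lit 5)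 (nat_lit 57) (nat_lit 5) (nat_lit 350) (nat_lit 268) (nat_lit 162)) (XT.lf (nat_lit 0) (nat_lit 5351931149) (nat_lit 304) (nat_lit 8187247299) (nat_lit 76) (nat_lit 11436503922) (nat_lit 52) (nat_lit 5) (nat_lit 56) (nat_lit 5) (nat_lit 53) (nat_lit 5) (nat_lit 351) (nat_lit 268) (nat_lit 161))))))))
noncomputable def xc67 : XT := (XT.nd (nat_lit 35490) (nat_lit 0) (nat_lit 11856) (XT.nd (nat_lit 34476) (nat_lit 0) (nat_lit 32984) (XT.nd (nat_lit 468) (nat_lit 304) (nat_lit 0) (XT.nd (nat_lit 234) (nat_lit 456) (nat_lit 0) (XT.nd (nat_lit 78) (nat_lit 152) (nat_lit 0) (XT.lf (nat_lit 0) (nat_lit 6788538775) (nat_lit 228) (nat_lit 4968767283) (nat_lit 304) (nat_lit 13782898880) (nat_lit 49) (nat_lit 5) (nat_lit 52) (nat_lit 5) (nat_lit 53) (nat_lit 5) (nat_lit 352) (nat_lit 268) (nat_lit 160)) (XT.nd (nat_lit 78) (nat_lit 152) (nat_lit 0) (XT.lf (nat_lit 0) (nat_lit 18415047772) (nat_lit 304) (nat_lit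 3854838160) (nat_lit 76) (nat_lit 3850581069) (nat_lit 49) (nat_lit 5) (nat_lit 53) (nat_lit 5) (nat_lit 50) (nat_lit 5) (nat_lit 353) (nat_lit 268) (nat_lit 159)) (XT.lf (nat_lit 0) (nat_lit 11573936012) (nat_lit 152) (nat_lit 13786867669) (nat_lit 228) (nat_lit 1355575304) (nat_lit 47) (nat_lit 5) (nat_lit 49) (nat_lit 5) (nat_lit 50) (nat_lit 5) (nat_lit 354) (nat_lit 268) (nat_lit 158)))) (XT.nd (nat_lit 78) (nat_lit 152) (nat_lit 0) (XT.lf (nat_lit 0) (nat_lit 123221381) (nat_lit 228) (nat_lit 5000779096) (nat_lit 304) (nat_lit 22205357206) (nat_lit 43) (nat_lit 5) (nat_lit 46) (nat_lit 5) (nat_lit 47) (nat_lit 5) (nat_lit 355) (nat_lit 268) (nat_lit 157)) (XT.nd (nat_lit 78) (nat_lit 152) (nat_lit 0) (XT.lf (nat_lit 0) (nat_lit 11889650385) (nat_lit 304) (nat_lit 11973602278) (nat_lit 76) (nat_lit 4095098910) (nat_lit 43) (nat_lit 5) (nat_lit 47) (nat_lit 5) (nat_lit 44) (nat_lit 5) (nat_lit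 356) (nat_lit 268) (nat_lit 156)) (XT.lf (nat_lit 0) (nat_lit 3698915547) (nat_lit 152) (nat_lit 15197803957) (nat_lit 228) (nat_lit 9708733688) (nat_lit 41) (nat_lit 5) (nat_lit 43) (nat_lit 5) (nat_lit 44) (nat_lit 5) (nat_lit 357) (nat_lit 268) (nat_lit 155))))) (XT.nd (nat_lit 33696) (nat_lit 0) (nat_lit 38228) (XT.nd (nat_lit 78) (nat_lit 304) (nat_lit 0) (XT.lf (nat_lit 0) (nat_lit 19973963892) (nat_lit 152) (nat_lit 6202514048) (nat_lit 228) (nat_lit 3094247080) (nat_lit 41) (nat_lit 5) (nat_lit 43) (nat_lit 5) (nat_lit 44) (nat_lit 5) (nat_lit 358) (nat_lit 268) (nat_lit 154)) (XT.nd (nat_lit 78) (nat_lit 0) (nat_lit 0) (XT.lf (nat_lit 0) (nat_lit 3716168004) (nat_lit 304) (nat_lit 23159532152) (nat_lit 76) (nat_lit 3078853046) (nat_lit 37) (nat_lit 5) (nat_lit 41) (nat_lit 5) (nat_lit 38) (nat_lit 5) (nat_lit 359) (nat_lit 268) (nat_lit 153)) (XT.lf (nat_lit 0) (nat_lit 10776001093) (nat_lit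 304) (nat_lit 7254067109) (nat_lit 76) (nat_lit 12626682281) (nat_lit 37) (nat_lit 5) (nat_lit 41) (nat_lit 5) (nat_lit 38) (nat_lit 5) (nat_lit 360) (nat_lit 268) (nat_lit 152)))) (XT.nd (nat_lit 156) (nat_lit 912) (nat_lit 0) (XT.nd (nat_lit 78) (nat_lit 836) (nat_lit 0) (XT.lf (nat_lit 0) (nat_lit 3350571277) (nat_lit 836) (nat_lit 23855295) (nat_lit 836) (nat_lit 23855295) (nat_lit 563) (nat_lit 3) (nat_lit 574) (nat_lit 3) (nat_lit 574) (nat_lit 5) (nat_lit 269) (nat_lit 269) (nat_lit 242)) (XT.lf (nat_lit 0) (nat_lit 2803847275) (nat_lit 836) (nat_lit 2187489587) (nat_lit 912) (nat_lit 1845546358) (nat_lit 552) (nat_lit 5) (nat_lit 563) (nat_lit 3) (nat_lit 564) (nat_lit 5) (nat_lit 270) (nat_lit 269) (nat_lit 241))) (XT.nd (nat_lit 78) (nat_lit 912) (nat_lit 0) (XT.lf (nat_lit 76) (nat_lit 2583788480) (nat_lit 0) (nat_lit 3109775819) (nat_lit 912) (nat_lit 1186882601) (nat_lit 553) (nat_lit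 5) (nat_lit 552) (nat_lit 5) (nat_lit 564) (nat_lit 5) (nat_lit 271) (nat_lit 269) (nat_lit 240)) (XT.lf (nat_lit 76) (nat_lit 539011282) (nat_lit 0) (nat_lit 1090874986) (nat_lit 988) (nat_lit 5297178123) (nat_lit 541) (nat_lit 5) (nat_lit 540) (nat_lit 5) (nat_lit 553) (nat_lit 5) (nat_lit 272) (nat_lit 269) (nat_lit 239)))))) (XT.nd (nat_lit 468) (nat_lit 3344) (nat_lit 0) (XT.nd (nat_lit 234) (nat_lit 988) (nat_lit 0) (XT.nd (nat_lit 78) (nat_lit 988) (nat_lit 0) (XT.lf (nat_lit 0) (nat_lit 4443690746) (nat_lit 912) (nat_lit 1471869086) (nat_lit 988) (nat_lit 1060922262) (nat_lit 541) (nat_lit 5) (nat_lit 553) (nat_lit 5) (nat_lit 554) (nat_lit 5) (nat_lit 273) (nat_lit 269) (nat_lit 238)) (XT.nd (nat_lit 78) (nat_lit 0) (nat_lit 0) (XT.lf (nat_lit 0) (nat_lit 236233913) (nat_lit 988) (nat_lit 3458784871) (nat_lit 1064) (nat_lit 3333931465) (nat_lit 528) (nat_lit 5) (nat_lit 541) (nat_lit 5)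 (nat_lit 542) (nat_lit 5) (nat_lit 274) (nat_lit 269) (nat_lit 237)) (XT.lf (nat_lit 76) (nat_lit 1645277626) (nat_lit 0) (nat_lit 1327375462) (nat_lit 1064) (nat_lit 4111751596) (nat_lit 529) (nat_lit 5) (nat_lit 528) (nat_lit 5) (nat_lit 542) (nat_lit 5) (nat_lit 275) (nat_lit 269) (nat_lit 236)))) (XT.nd (nat_lit 78) (nat_lit 1064) (nat_lit 0) (XT.lf (nat_lit 0) (nat_lit 5722643686) (nat_lit 988) (nat_lit 260127187) (nat_lit 1064) (nat_lit 1160240504) (nat_lit 529) (nat_lit 5) (nat_lit 542) (nat_lit 5) (nat_lit 543) (nat_lit 5) (nat_lit 276) (nat_lit 269) (nat_lit 235)) (XT.nd (nat_lit 78) (nat_lit 0) (nat_lit 0) (XT.lf (nat_lit 0) (nat_lit 1278926426) (nat_lit 1064) (nat_lit 2140826772) (nat_lit 1140) (nat_lit 3784662107) (nat_lit 515) (nat_lit 5) (nat_lit 529) (nat_lit 5) (nat_lit 530) (nat_lit 5) (nat_lit 277) (nat_lit 269) (nat_lit 234)) (XT.lf (nat_lit 76) (nat_lit 3256026346) (nat_lit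 0) (nat_lit 712158935) (nat_lit 1140) (nat_lit 3300831868) (nat_lit 516) (nat_lit 5) (nat_lit 515) (nat_lit 5) (nat_lit 530) (nat_lit 5) (nat_lit 278) (nat_lit 269) (nat_lit 233))))) (XT.nd (nat_lit 234) (nat_lit 2280) (nat_lit 0) (XT.nd (nat_lit 78) (nat_lit 1140) (nat_lit 0) (XT.lf (nat_lit 76) (nat_lit 1452988410) (nat_lit 0) (nat_lit 5230502993) (nat_lit 1140) (nat_lit 653264303) (nat_lit 517) (nat_lit 5) (nat_lit 516) (nat_lit 5) (nat_lit 531) (nat_lit 5) (nat_lit 279) (nat_lit 269) (nat_lit 232)) (XT.nd (nat_lit 78) (nat_lit 0) (nat_lit 76) (XT.lf (nat_lit 0) (nat_lit 1988114197) (nat_lit 1140) (nat_lit 348132191) (nat_lit 1216) (nat_lit 5071280071) (nat_lit 501) (nat_lit 5) (nat_lit 516) (nat_lit 5) (nat_lit 517) (nat_lit 5) (nat_lit 280) (nat_lit 269) (nat_lit 231)) (XT.lf (nat_lit 0) (nat_lit 4651419239) (nat_lit 1140) (nat_lit 2126451157) (nat_lit 1216) (nat_lit 703530372) (nat_lit 502)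 (nat_lit 5) (nat_lit 517) (nat_lit 5) (nat_lit 518) (nat_lit 5) (nat_lit 281) (nat_lit 269) (nat_lit 230)))) (XT.nd (nat_lit 156) (nat_lit 1140) (nat_lit 0) (XT.nd (nat_lit 78) (nat_lit 1216) (nat_lit 0) (XT.lf (nat_lit 76) (nat_lit 3647808014) (nat_lit 0) (nat_lit 3702933576) (nat_lit 1216) (nat_lit 207722499) (nat_lit 503) (nat_lit 5) (nat_lit 502) (nat_lit 5) (nat_lit 518) (nat_lit 5) (nat_lit 282) (nat_lit 269) (nat_lit 229)) (XT.lf (nat_lit 76) (nat_lit 1934883665) (nat_lit 0) (nat_lit 468584943) (nat_lit 1292) (nat_lit 5235278256) (nat_lit 487) (nat_lit 5) (nat_lit 486) (nat_lit 5) (nat_lit 503) (nat_lit 5) (nat_lit 283) (nat_lit 269) (nat_lit 228))) (XT.nd (nat_lit 78) (nat_lit 0) (nat_lit 0) (XT.lf (nat_lit 0) (nat_lit 209059603) (nat_lit 1216) (nat_lit 4845847596) (nat_lit 1292) (nat_lit 2667296712) (nat_lit 471) (nat_lit 5) (nat_lit 487) (nat_lit 5) (nat_lit 488) (nat_lit 5) (nat_lit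 284) (nat_lit 269) (nat_lit 227)) (XT.lf (nat_lit 0) (nat_lit 6313333505) (nat_lit 1216) (nat_lit 1434407445) (nat_lit 1292) (nat_lit 61272046) (nat_lit 471) (nat_lit 5) (nat_lit 487) (nat_lit 5) (nat_lit 488) (nat_lit 5) (nat_lit 285) (nat_lit 269) (nat_lit 226))))))) (XT.nd (nat_lit 1014) (nat_lit 7448) (nat_lit 0) (XT.nd (nat_lit 468) (nat_lit 6308) (nat_lit 0) (XT.nd (nat_lit 234) (nat_lit 3192) (nat_lit 0) (XT.nd (nat_lit 78) (nat_lit 2812) (nat_lit 0) (XT.lf (nat_lit 0) (nat_lit 2554711658) (nat_lit 1368) (nat_lit 3226592083) (nat_lit 76) (nat_lit 2117539702) (nat_lit 453) (nat_lit 5) (nat_lit 471) (nat_lit 5) (nat_lit 454) (nat_lit 5) (nat_lit 286) (nat_lit 269) (nat_lit 225)) (XT.nd (nat_lit 78) (nat_lit 1444) (nat_lit 0) (XT.lf (nat_lit 0) (nat_lit 3023087093) (nat_lit 1368) (nat_lit 2188504872) (nat_lit 1444) (nat_lit 2780582635) (nat_lit 435) (nat_lit 5) (nat_lit 453) (nat_lit 5) (nat_lit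 454) (nat_lit 5) (nat_lit 287) (nat_lit 269) (nat_lit 224)) (XT.lf (nat_lit 0) (nat_lit 1362779667) (nat_lit 1444) (nat_lit 6551817772) (nat_lit 1520) (nat_lit 174456468) (nat_lit 416) (nat_lit 5) (nat_lit 435) (nat_lit 5) (nat_lit 436) (nat_lit 5) (nat_lit 288) (nat_lit 269) (nat_lit 223)))) (XT.nd (nat_lit 78) (nat_lit 3116) (nat_lit 0) (XT.lf (nat_lit 0) (nat_lit 2452426332) (nat_lit 1520) (nat_lit 328428133) (nat_lit 76) (nat_lit 5408222318) (nat_lit 415) (nat_lit 5) (nat_lit 435) (nat_lit 5) (nat_lit 416) (nat_lit 5) (nat_lit 289) (nat_lit 269) (nat_lit 222)) (XT.nd (nat_lit 78) (nat_lit 1596) (nat_lit 0) (XT.lf (nat_lit 0) (nat_lit 5133149055) (nat_lit 1596) (nat_lit 2017607976) (nat_lit 76) (nat_lit 1141842959) (nat_lit 395) (nat_lit 5) (nat_lit 416) (nat_lit 5) (nat_lit 396) (nat_lit 5) (nat_lit 290) (nat_lit 269) (nat_lit 221)) (XT.lf (nat_lit 0) (nat_lit 4663904187) (nat_lit 1596) (nat_lit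 3212343665) (nat_lit 1672) (nat_lit 523410669) (nat_lit 374) (nat_lit 5) (nat_lit 395) (nat_lit 5) (nat_lit 396) (nat_lit 5) (nat_lit 291) (nat_lit 269) (nat_lit 220))))) (XT.nd (nat_lit 234) (nat_lit 3420) (nat_lit 0) (XT.nd (nat_lit 78) (nat_lit 1140) (nat_lit 0) (XT.lf (nat_lit 0) (nat_lit 2134190659) (nat_lit 1748) (nat_lit 5487489043) (nat_lit 76) (nat_lit 888605422) (nat_lit 351) (nat_lit 5) (nat_lit 374) (nat_lit 5) (nat_lit 352) (nat_lit 5) (nat_lit 292) (nat_lit 269) (nat_lit 219)) (XT.nd (nat_lit 78) (nat_lit 0) (nat_lit 0) (XT.lf (nat_lit 0) (nat_lit 1343054965) (nat_lit 1140) (nat_lit 3510671428) (nat_lit 1216) (nat_lit 3770712091) (nat_lit 336) (nat_lit 5) (nat_lit 351) (nat_lit 5) (nat_lit 352) (nat_lit 5) (nat_lit 293) (nat_lit 269) (nat_lit 218)) (XT.lf (nat_lit 0) (nat_lit 7632147268) (nat_lit 1216) (nat_lit 353914631) (nat_lit 76) (nat_lit 756470219) (nat_lit 336) (nat_lit 5)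 (nat_lit 352) (nat_lit 5) (nat_lit 337) (nat_lit 5) (nat_lit 294) (nat_lit 269) (nat_lit 217)))) (XT.nd (nat_lit 156) (nat_lit 1672) (nat_lit 0) (XT.nd (nat_lit 78) (nat_lit 836) (nat_lit 0) (XT.lf (nat_lit 0) (nat_lit 1612952302) (nat_lit 912) (nat_lit 2087369097) (nat_lit 76) (nat_lit 5163602725) (nat_lit 324) (nat_lit 5) (nat_lit 336) (nat_lit 5) (nat_lit 325) (nat_lit 5) (nat_lit 295) (nat_lit 269) (nat_lit 216)) (XT.lf (nat_lit 0) (nat_lit 4381743018) (nat_lit 912) (nat_lit 3856973098) (nat_lit 76) (nat_lit 750575169) (nat_lit 313) (nat_lit 5) (nat_lit 325) (nat_lit 5) (nat_lit 314) (nat_lit 5) (nat_lit 296) (nat_lit 269) (nat_lit 215))) (XT.nd (nat_lit 78) (nat_lit 912) (nat_lit 0) (XT.lf (nat_lit 0) (nat_lit 3439533767) (nat_lit 760) (nat_lit 3794863435) (nat_lit 836) (nat_lit 1884061581) (nat_lit 303) (nat_lit 5) (nat_lit 313) (nat_lit 5) (nat_lit 314) (nat_lit 5) (nat_lit 297) (nat_lit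 269) (nat_lit 214)) (XT.lf (nat_lit 0) (nat_lit 892269318) (nat_lit 912) (nat_lit 7543816757) (nat_lit 76) (nat_lit 815683862) (nat_lit 291) (nat_lit 5) (nat_lit 303) (nat_lit 5) (nat_lit 292) (nat_lit 5) (nat_lit 298) (nat_lit 269) (nat_lit 213)))))) (XT.nd (nat_lit 546) (nat_lit 3724) (nat_lit 0) (XT.nd (nat_lit 234) (nat_lit 2128) (nat_lit 0) (XT.nd (nat_lit 78) (nat_lit 1596) (nat_lit 0) (XT.lf (nat_lit 0) (nat_lit 3732325657) (nat_lit 912) (nat_lit 92259921) (nat_lit 76) (nat_lit 5564176240) (nat_lit 291) (nat_lit 5) (nat_lit 303) (nat_lit 5) (nat_lit 292) (nat_lit 5) (nat_lit 299) (nat_lit 269) (nat_lit 212)) (XT.nd (nat_lit 78) (nat_lit 836) (nat_lit 0) (XT.lf (nat_lit 0) (nat_lit 6656880681) (nat_lit 836) (nat_lit 1911679732) (nat_lit 76) (nat_lit 961366732) (nat_lit 281) (nat_lit 5) (nat_lit 292) (nat_lit 5) (nat_lit 282) (nat_lit 5) (nat_lit 300) (nat_lit 269) (nat_lit 211)) (XT.lf (nat_lit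 0) (nat_lit 3046297) (nat_lit 836) (nat_lit 3796011245) (nat_lit 76) (nat_lit 5876135515) (nat_lit 270) (nat_lit 5) (nat_lit 281) (nat_lit 5) (nat_lit 271) (nat_lit 5) (nat_lit 301) (nat_lit 269) (nat_lit 210)))) (XT.nd (nat_lit 156) (nat_lit 760) (nat_lit 0) (XT.nd (nat_lit 78) (nat_lit 684) (nat_lit 0) (XT.lf (nat_lit 0) (nat_lit 2919308286) (nat_lit 760) (nat_lit 5750927071) (nat_lit 76) (nat_lit 1154389236) (nat_lit 261) (nat_lit 5) (nat_lit 271) (nat_lit 5) (nat_lit 262) (nat_lit 5) (nat_lit 302) (nat_lit 269) (nat_lit 209)) (XT.lf (nat_lit 0) (nat_lit 2198385470) (nat_lit 684) (nat_lit 3736996741) (nat_lit 760) (nat_lit 4042954910) (nat_lit 252) (nat_lit 5) (nat_lit 261) (nat_lit 5) (nat_lit 262) (nat_lit 5) (nat_lit 303) (nat_lit 269) (nat_lit 208))) (XT.nd (nat_lit 78) (nat_lit 76) (nat_lit 0) (XT.lf (nat_lit 0) (nat_lit 265098256) (nat_lit 684) (nat_lit 8774412752) (nat_lit 760) (nat_lit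 1097241793) (nat_lit 243) (nat_lit 5) (nat_lit 252) (nat_lit 5) (nat_lit 253) (nat_lit 5) (nat_lit 304) (nat_lit 269) (nat_lit 207)) (XT.lf (nat_lit 0) (nat_lit 1938161393) (nat_lit 760) (nat_lit 1736973008) (nat_lit 76) (nat_lit 6624041779) (nat_lit 242) (nat_lit 5) (nat_lit 252) (nat_lit 5) (nat_lit 243) (nat_lit 5) (nat_lit 305) (nat_lit 269) (nat_lit 206))))) (XT.nd (nat_lit 234) (nat_lit 1748) (nat_lit 0) (XT.nd (nat_lit 78) (nat_lit 1292) (nat_lit 0) (XT.lf (nat_lit 0) (nat_lit 5053768529) (nat_lit 760) (nat_lit 3811689497) (nat_lit 76) (nat_lit 1600828147) (nat_lit 233) (nat_lit 5) (nat_lit 243) (nat_lit 5) (nat_lit 234) (nat_lit 5) (nat_lit 306) (nat_lit 269) (nat_lit 205)) (XT.nd (nat_lit 78) (nat_lit 684) (nat_lit 0) (XT.lf (nat_lit 0) (nat_lit 4663480172) (nat_lit 608) (nat_lit 3617270770) (nat_lit 684) (nat_lit 2357339167) (nat_lit 225) (nat_lit 5) (nat_lit 233) (nat_lit 5) (nat_lit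 234) (nat_lit 5) (nat_lit 307) (nat_lit 269) (nat_lit 204)) (XT.lf (nat_lit 0) (nat_lit 785827528) (nat_lit 684) (nat_lit 8223871979) (nat_lit 76) (nat_lit 1805149311) (nat_lit 216) (nat_lit 5) (nat_lit 225) (nat_lit 5) (nat_lit 217) (nat_lit 5) (nat_lit 308) (nat_lit 269) (nat_lit 203)))) (XT.nd (nat_lit 156) (nat_lit 1216) (nat_lit 0) (XT.nd (nat_lit 78) (nat_lit 0) (nat_lit 0) (XT.lf (nat_lit 0) (nat_lit 408030160) (nat_lit 532) (nat_lit 3603905006) (nat_lit 608) (nat_lit 6984285866) (nat_lit 209) (nat_lit 5) (nat_lit 216) (nat_lit 5) (nat_lit 217) (nat_lit 5) (nat_lit 309) (nat_lit 269) (nat_lit 202)) (XT.lf (nat_lit 0) (nat_lit 7357523405) (nat_lit 608) (nat_lit 1839874826) (nat_lit 76) (nat_lit 1985217032) (nat_lit 209) (nat_lit 5) (nat_lit 217) (nat_lit 5) (nat_lit 210) (nat_lit 5) (nat_lit 310) (nat_lit 269) (nat_lit 201))) (XT.nd (nat_lit 78) (nat_lit 608) (nat_lit 0) (XT.lf (nat_lit 0)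 (nat_lit 7186387226) (nat_lit 608) (nat_lit 3643044739) (nat_lit 684) (nat_lit 544684087) (nat_lit 201) (nat_lit 5) (nat_lit 209) (nat_lit 5) (nat_lit 210) (nat_lit 5) (nat_lit 311) (nat_lit 269) (nat_lit 200)) (XT.lf (nat_lit 0) (nat_lit 2811188209) (nat_lit 608) (nat_lit 6655572252) (nat_lit 76) (nat_lit 2103981090) (nat_lit 193) (nat_lit 5) (nat_lit 201) (nat_lit 5) (nat_lit 194) (nat_lit 5) (nat_lit 312) (nat_lit 269) (nat_lit 199))))))))
noncomputable def xc68 : XT := (XT.nd (nat_lit 2028) (nat_lit 3648) (nat_lit 0) (XT.nd (nat_lit 1014) (nat_lit 3344) (nat_lit 0) (XT.nd (nat_lit 468) (nat_lit 2280) (nat_lit 0) (XT.nd (nat_lit 234) (nat_lit 1444) (nat_lit 0) (XT.nd (nat_lit 78) (nat_lit 608) (nat_lit 0) (XT.lf (nat_lit 0) (nat_lit 2526386538) (nat_lit 532) (nat_lit 3760021861) (nat_lit 608) (nat_lit 5486295191) (nat_lit 186) (nat_lit 5) (nat_lit 193) (nat_lit 5) (nat_lit 194) (nat_lit 5) (nat_lit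 313) (nat_lit 269) (nat_lit 198)) (XT.nd (nat_lit 78) (nat_lit 76) (nat_lit 0) (XT.lf (nat_lit 0) (nat_lit 27132895) (nat_lit 532) (nat_lit 9855619393) (nat_lit 608) (nat_lit 2097665174) (nat_lit 179) (nat_lit 5) (nat_lit 186) (nat_lit 5) (nat_lit 187) (nat_lit 5) (nat_lit 314) (nat_lit 269) (nat_lit 197)) (XT.lf (nat_lit 0) (nat_lit 1420701899) (nat_lit 608) (nat_lit 2576322486) (nat_lit 76) (nat_lit 8196259527) (nat_lit 178) (nat_lit 5) (nat_lit 186) (nat_lit 5) (nat_lit 179) (nat_lit 5) (nat_lit 315) (nat_lit 269) (nat_lit 196)))) (XT.nd (nat_lit 78) (nat_lit 912) (nat_lit 0) (XT.lf (nat_lit 0) (nat_lit 5035334673) (nat_lit 608) (nat_lit 5316961499) (nat_lit 76) (nat_lit 2059606608) (nat_lit 171) (nat_lit 5) (nat_lit 179) (nat_lit 5) (nat_lit 172) (nat_lit 5) (nat_lit 316) (nat_lit 269) (nat_lit 195)) (XT.nd (nat_lit 78) (nat_lit 456) (nat_lit 0) (XT.lf (nat_lit 0) (nat_lit 4433894948) (nat_lit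 456) (nat_lit 4357722415) (nat_lit 532) (nat_lit 3844825828) (nat_lit 165) (nat_lit 5) (nat_lit 171) (nat_lit 5) (nat_lit 172) (nat_lit 5) (nat_lit 317) (nat_lit 269) (nat_lit 194)) (XT.lf (nat_lit 0) (nat_lit 1640370640) (nat_lit 456) (nat_lit 11039798271) (nat_lit 532) (nat_lit 187185699) (nat_lit 159) (nat_lit 5) (nat_lit 165) (nat_lit 5) (nat_lit 166) (nat_lit 5) (nat_lit 318) (nat_lit 269) (nat_lit 193))))) (XT.nd (nat_lit 234) (nat_lit 1292) (nat_lit 0) (XT.nd (nat_lit 78) (nat_lit 912) (nat_lit 0) (XT.lf (nat_lit 0) (nat_lit 3579716378) (nat_lit 532) (nat_lit 1317840365) (nat_lit 76) (nat_lit 8206267113) (nat_lit 158) (nat_lit 5) (nat_lit 165) (nat_lit 5) (nat_lit 159) (nat_lit 5) (nat_lit 319) (nat_lit 269) (nat_lit 192)) (XT.nd (nat_lit 78) (nat_lit 456) (nat_lit 0) (XT.lf (nat_lit 0) (nat_lit 7487341138) (nat_lit 532) (nat_lit 4402144375) (nat_lit 76) (nat_lit 1457296143) (nat_lit 152)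 (nat_lit 5) (nat_lit 159) (nat_lit 5) (nat_lit 153) (nat_lit 5) (nat_lit 320) (nat_lit 269) (nat_lit 191)) (XT.lf (nat_lit 0) (nat_lit 5930946765) (nat_lit 456) (nat_lit 5624702509) (nat_lit 532) (nat_lit 2040533515) (nat_lit 146) (nat_lit 5) (nat_lit 152) (nat_lit 5) (nat_lit 153) (nat_lit 5) (nat_lit 321) (nat_lit 269) (nat_lit 190)))) (XT.nd (nat_lit 156) (nat_lit 836) (nat_lit 0) (XT.nd (nat_lit 78) (nat_lit 0) (nat_lit 0) (XT.lf (nat_lit 0) (nat_lit 1885415123) (nat_lit 456) (nat_lit 11102722735) (nat_lit 76) (nat_lit 864358827) (nat_lit 140) (nat_lit 5) (nat_lit 146) (nat_lit 5) (nat_lit 141) (nat_lit 5) (nat_lit 322) (nat_lit 269) (nat_lit 189)) (XT.lf (nat_lit 0) (nat_lit 5955824476) (nat_lit 456) (nat_lit 634641065) (nat_lit 76) (nat_lit 7524698487) (nat_lit 140) (nat_lit 5) (nat_lit 146) (nat_lit 5) (nat_lit 141) (nat_lit 5) (nat_lit 323) (nat_lit 269) (nat_lit 188))) (XT.nd (nat_lit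 78) (nat_lit 380) (nat_lit 0) (XT.lf (nat_lit 0) (nat_lit 10180518490) (nat_lit 532) (nat_lit 4152029446) (nat_lit 76) (nat_lit 52541262) (nat_lit 134) (nat_lit 5) (nat_lit 141) (nat_lit 5) (nat_lit 135) (nat_lit 5) (nat_lit 324) (nat_lit 269) (nat_lit 187)) (XT.lf (nat_lit 0) (nat_lit 6769016412) (nat_lit 380) (nat_lit 7821284454) (nat_lit 456) (nat_lit 71664942) (nat_lit 129) (nat_lit 5) (nat_lit 134) (nat_lit 5) (nat_lit 135) (nat_lit 5) (nat_lit 325) (nat_lit 269) (nat_lit 186)))))) (XT.nd (nat_lit 468) (nat_lit 1748) (nat_lit 0) (XT.nd (nat_lit 234) (nat_lit 760) (nat_lit 0) (XT.nd (nat_lit 78) (nat_lit 380) (nat_lit 0) (XT.lf (nat_lit 0) (nat_lit 3093355316) (nat_lit 380) (nat_lit 1051827453) (nat_lit 456) (nat_lit 10801145226) (nat_lit 123) (nat_lit 5) (nat_lit 128) (nat_lit 5) (nat_lit 129) (nat_lit 5) (nat_lit 326) (nat_lit 269) (nat_lit 185)) (XT.nd (nat_lit 78) (nat_lit 380) (nat_lit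 0) (XT.lf (nat_lit 0) (nat_lit 8546867686) (nat_lit 456) (nat_lit 807742817) (nat_lit 76) (nat_lit 5883434029) (nat_lit 123) (nat_lit 5) (nat_lit 129) (nat_lit 5) (nat_lit 124) (nat_lit 5) (nat_lit 327) (nat_lit 269) (nat_lit 184)) (XT.lf (nat_lit 0) (nat_lit 10655337226) (nat_lit 380) (nat_lit 2469461429) (nat_lit 456) (nat_lit 2412848516) (nat_lit 118) (nat_lit 5) (nat_lit 123) (nat_lit 5) (nat_lit 124) (nat_lit 5) (nat_lit 328) (nat_lit 269) (nat_lit 183)))) (XT.nd (nat_lit 78) (nat_lit 304) (nat_lit 0) (XT.lf (nat_lit 0) (nat_lit 2015120825) (nat_lit 456) (nat_lit 9220341551) (nat_lit 76) (nat_lit 4609585417) (nat_lit 112) (nat_lit 5) (nat_lit 118) (nat_lit 5) (nat_lit 113) (nat_lit 5) (nat_lit 329) (nat_lit 269) (nat_lit 182)) (XT.nd (nat_lit 78) (nat_lit 0) (nat_lit 0) (XT.lf (nat_lit 0) (nat_lit 2334799008) (nat_lit 304) (nat_lit 4242439682) (nat_lit 380) (nat_lit 9583448062) (nat_lit 108)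 (nat_lit 5) (nat_lit 112) (nat_lit 5) (nat_lit 113) (nat_lit 5) (nat_lit 330) (nat_lit 269) (nat_lit 181)) (XT.lf (nat_lit 0) (nat_lit 11327780543) (nat_lit 380) (nat_lit 2186873599) (nat_lit 76) (nat_lit 2970126139) (nat_lit 108) (nat_lit 5) (nat_lit 113) (nat_lit 5) (nat_lit 109) (nat_lit 5) (nat_lit 331) (nat_lit 269) (nat_lit 180))))) (XT.nd (nat_lit 234) (nat_lit 684) (nat_lit 0) (XT.nd (nat_lit 78) (nat_lit 684) (nat_lit 0) (XT.lf (nat_lit 0) (nat_lit 9858058153) (nat_lit 380) (nat_lit 6425492568) (nat_lit 456) (nat_lit 533807780) (nat_lit 103) (nat_lit 5) (nat_lit 108) (nat_lit 5) (nat_lit 109) (nat_lit 5) (nat_lit 332) (nat_lit 269) (nat_lit 179)) (XT.nd (nat_lit 78) (nat_lit 304) (nat_lit 0) (XT.lf (nat_lit 0) (nat_lit 4197661967) (nat_lit 380) (nat_lit 12034565285) (nat_lit 76) (nat_lit 926652454) (nat_lit 98) (nat_lit 5) (nat_lit 103) (nat_lit 5) (nat_lit 99) (nat_lit 5) (nat_lit 333)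 (nat_lit 269) (nat_lit 178)) (XT.lf (nat_lit 0) (nat_lit 66368569) (nat_lit 304) (nat_lit 9059556998) (nat_lit 380) (nat_lit 8383423270) (nat_lit 94) (nat_lit 5) (nat_lit 98) (nat_lit 5) (nat_lit 99) (nat_lit 5) (nat_lit 334) (nat_lit 269) (nat_lit 177)))) (XT.nd (nat_lit 156) (nat_lit 304) (nat_lit 0) (XT.nd (nat_lit 78) (nat_lit 380) (nat_lit 0) (XT.lf (nat_lit 0) (nat_lit 12652125648) (nat_lit 304) (nat_lit 1603210855) (nat_lit 380) (nat_lit 3613944020) (nat_lit 94) (nat_lit 5) (nat_lit 98) (nat_lit 5) (nat_lit 99) (nat_lit 5) (nat_lit 335) (nat_lit 269) (nat_lit 176)) (XT.lf (nat_lit 0) (nat_lit 1341891154) (nat_lit 380) (nat_lit 10856887604) (nat_lit 76) (nat_lit 6039870481) (nat_lit 89) (nat_lit 5) (nat_lit 94) (nat_lit 5) (nat_lit 90) (nat_lit 5) (nat_lit 336) (nat_lit 269) (nat_lit 175))) (XT.nd (nat_lit 78) (nat_lit 0) (nat_lit 0) (XT.lf (nat_lit 0) (nat_lit 1757750632) (nat_lit 304) (nat_lit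 4670372171) (nat_lit 380) (nat_lit 12189895404) (nat_lit 85) (nat_lit 5) (nat_lit 89) (nat_lit 5) (nat_lit 90) (nat_lit 5) (nat_lit 337) (nat_lit 269) (nat_lit 174)) (XT.lf (nat_lit 0) (nat_lit 11734270902) (nat_lit 380) (nat_lit 4169986836) (nat_lit 76) (nat_lit 3103176897) (nat_lit 85) (nat_lit 5) (nat_lit 90) (nat_lit 5) (nat_lit 86) (nat_lit 5) (nat_lit 338) (nat_lit 269) (nat_lit 173))))))) (XT.nd (nat_lit 1014) (nat_lit 1140) (nat_lit 0) (XT.nd (nat_lit 468) (nat_lit 1292) (nat_lit 0) (XT.nd (nat_lit 234) (nat_lit 608) (nat_lit 0) (XT.nd (nat_lit 78) (nat_lit 380) (nat_lit 0) (XT.lf (nat_lit 0) (nat_lit 8946700324) (nat_lit 228) (nat_lit 8316252956) (nat_lit 304) (nat_lit 2144325883) (nat_lit 82) (nat_lit 5) (nat_lit 85) (nat_lit 5) (nat_lit 86) (nat_lit 5) (nat_lit 339) (nat_lit 269) (nat_lit 172)) (XT.nd (nat_lit 78) (nat_lit 0) (nat_lit 0) (XT.lf (nat_lit 0) (nat_lit 2669760380) (nat_lit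 304) (nat_lit 447581128) (nat_lit 380) (nat_lit 16700979490) (nat_lit 77) (nat_lit 5) (nat_lit 81) (nat_lit 5) (nat_lit 82) (nat_lit 5) (nat_lit 340) (nat_lit 269) (nat_lit 171)) (XT.lf (nat_lit 0) (nat_lit 8603705818) (nat_lit 380) (nat_lit 4007480930) (nat_lit 76) (nat_lit 7628315912) (nat_lit 77) (nat_lit 5) (nat_lit 82) (nat_lit 5) (nat_lit 78) (nat_lit 5) (nat_lit 341) (nat_lit 269) (nat_lit 170)))) (XT.nd (nat_lit 78) (nat_lit 380) (nat_lit 0) (XT.lf (nat_lit 0) (nat_lit 9612189429) (nat_lit 228) (nat_lit 4683353985) (nat_lit 304) (nat_lit 6376970016) (nat_lit 74) (nat_lit 5) (nat_lit 77) (nat_lit 5) (nat_lit 78) (nat_lit 5) (nat_lit 342) (nat_lit 269) (nat_lit 169)) (XT.nd (nat_lit 78) (nat_lit 76) (nat_lit 0) (XT.lf (nat_lit 0) (nat_lit 2549494304) (nat_lit 304) (nat_lit 17650996372) (nat_lit 380) (nat_lit 917187733) (nat_lit 70) (nat_lit 5) (nat_lit 74) (nat_lit 5) (nat_lit 75) (nat_lit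 5) (nat_lit 343) (nat_lit 269) (nat_lit 168)) (XT.lf (nat_lit 0) (nat_lit 4727573397) (nat_lit 380) (nat_lit 4956259771) (nat_lit 76) (nat_lit 11890106271) (nat_lit 69) (nat_lit 5) (nat_lit 74) (nat_lit 5) (nat_lit 70) (nat_lit 5) (nat_lit 344) (nat_lit 269) (nat_lit 167))))) (XT.nd (nat_lit 234) (nat_lit 836) (nat_lit 0) (XT.nd (nat_lit 78) (nat_lit 228) (nat_lit 0) (XT.lf (nat_lit 0) (nat_lit 9140692799) (nat_lit 228) (nat_lit 1424783067) (nat_lit 304) (nat_lit 11477576137) (nat_lit 66) (nat_lit 5) (nat_lit 69) (nat_lit 5) (nat_lit 70) (nat_lit 5) (nat_lit 345) (nat_lit 269) (nat_lit 166)) (XT.nd (nat_lit 78) (nat_lit 0) (nat_lit 0) (XT.lf (nat_lit 0) (nat_lit 1134656170) (nat_lit 228) (nat_lit 15508204489) (nat_lit 304) (nat_lit 5882100229) (nat_lit 63) (nat_lit 5) (nat_lit 66) (nat_lit 5) (nat_lit 67) (nat_lit 5) (nat_lit 346) (nat_lit 269) (nat_lit 165)) (XT.lf (nat_lit 0) (nat_lit 15723483510)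 (nat_lit 228) (nat_lit 7253597840) (nat_lit 304) (nat_lit 42764965) (nat_lit 63) (nat_lit 5) (nat_lit 66) (nat_lit 5) (nat_lit 67) (nat_lit 5) (nat_lit 347) (nat_lit 269) (nat_lit 164)))) (XT.nd (nat_lit 156) (nat_lit 532) (nat_lit 0) (XT.nd (nat_lit 78) (nat_lit 0) (nat_lit 0) (XT.lf (nat_lit 0) (nat_lit 5927147794) (nat_lit 304) (nat_lit 16295800268) (nat_lit 76) (nat_lit 1305189533) (nat_lit 59) (nat_lit 5) (nat_lit 63) (nat_lit 5) (nat_lit 60) (nat_lit 5) (nat_lit 348) (nat_lit 269) (nat_lit 163)) (XT.lf (nat_lit 0) (nat_lit 12152298710) (nat_lit 304) (nat_lit 1838310276) (nat_lit 76) (nat_lit 10059537375) (nat_lit 59) (nat_lit 5) (nat_lit 63) (nat_lit 5) (nat_lit 60) (nat_lit 5) (nat_lit 349) (nat_lit 269) (nat_lit 162))) (XT.nd (nat_lit 78) (nat_lit 304) (nat_lit 0) (XT.lf (nat_lit 0) (nat_lit 13191670600) (nat_lit 228) (nat_lit 5437251129) (nat_lit 304) (nat_lit 5957607890) (nat_lit 56)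 (nat_lit 5) (nat_lit 59) (nat_lit 5) (nat_lit 60) (nat_lit 5) (nat_lit 350) (nat_lit 269) (nat_lit 161)) (XT.lf (nat_lit 0) (nat_lit 195822627) (nat_lit 304) (nat_lit 21590056175) (nat_lit 76) (nat_lit 3352370993) (nat_lit 52) (nat_lit 5) (nat_lit 56) (nat_lit 5) (nat_lit 53) (nat_lit 5) (nat_lit 351) (nat_lit 269) (nat_lit 160)))))) (XT.nd (nat_lit 546) (nat_lit 304) (nat_lit 0) (XT.nd (nat_lit 234) (nat_lit 608) (nat_lit 0) (XT.nd (nat_lit 78) (nat_lit 228) (nat_lit 0) (XT.lf (nat_lit 0) (nat_lit 6547080191) (nat_lit 304) (nat_lit 6719928613) (nat_lit 76) (nat_lit 12436849812) (nat_lit 52) (nat_lit 5) (nat_lit 56) (nat_lit 5) (nat_lit 53) (nat_lit 5) (nat_lit 352) (nat_lit 269) (nat_lit 159)) (XT.nd (nat_lit 78) (nat_lit 0) (nat_lit 0) (XT.lf (nat_lit 0) (nat_lit 8677340689) (nat_lit 228) (nat_lit 4448083020) (nat_lit 304) (nat_lit 13160288726) (nat_lit 49) (nat_lit 5) (nat_lit 52) (nat_lit 5)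 (nat_lit 53) (nat_lit 5) (nat_lit 353) (nat_lit 269) (nat_lit 158)) (XT.lf (nat_lit 0) (nat_lit 19957544752) (nat_lit 304) (nat_lit 2318545481) (nat_lit 76) (nat_lit 4607810565) (nat_lit 49) (nat_lit 5) (nat_lit 53) (nat_lit 5) (nat_lit 50) (nat_lit 5) (nat_lit 354) (nat_lit 269) (nat_lit 157)))) (XT.nd (nat_lit 156) (nat_lit 152) (nat_lit 0) (XT.nd (nat_lit 78) (nat_lit 304) (nat_lit 0) (XT.lf (nat_lit 0) (nat_lit 13546291188) (nat_lit 152) (nat_lit 13547097341) (nat_lit 228) (nat_lit 404678356) (nat_lit 47) (nat_lit 5) (nat_lit 49) (nat_lit 5) (nat_lit 50) (nat_lit 5) (nat_lit 355) (nat_lit 269) (nat_lit 156)) (XT.lf (nat_lit 0) (nat_lit 1738837936) (nat_lit 228) (nat_lit 4499406135) (nat_lit 304) (nat_lit 21891433353) (nat_lit 43) (nat_lit 5) (nat_lit 46) (nat_lit 5) (nat_lit 47) (nat_lit 5) (nat_lit 356) (nat_lit 269) (nat_lit 155))) (XT.nd (nat_lit 78) (nat_lit 152) (nat_lit 0) (XT.lf (nat_lit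 0) (nat_lit 13182993175) (nat_lit 304) (nat_lit 10752954417) (nat_lit 76) (nat_lit 4842081153) (nat_lit 43) (nat_lit 5) (nat_lit 47) (nat_lit 5) (nat_lit 44) (nat_lit 5) (nat_lit 357) (nat_lit 269) (nat_lit 154)) (XT.lf (nat_lit 0) (nat_lit 5364107656) (nat_lit 152) (nat_lit 15018976605) (nat_lit 228) (nat_lit 9061812865) (nat_lit 41) (nat_lit 5) (nat_lit 43) (nat_lit 5) (nat_lit 44) (nat_lit 5) (nat_lit 358) (nat_lit 269) (nat_lit 153))))) (XT.nd (nat_lit 33774) (nat_lit 0) (nat_lit 37240) (XT.nd (nat_lit 78) (nat_lit 304) (nat_lit 0) (XT.lf (nat_lit 0) (nat_lit 22082138773) (nat_lit 152) (nat_lit 5772316196) (nat_lit 228) (nat_lit 2276217373) (nat_lit 41) (nat_lit 5) (nat_lit 43) (nat_lit 5) (nat_lit 44) (nat_lit 5) (nat_lit 359) (nat_lit 269) (nat_lit 152)) (XT.nd (nat_lit 33618) (nat_lit 0) (nat_lit 39140) (XT.lf (nat_lit 0) (nat_lit 4714085826) (nat_lit 304) (nat_lit 22343814390) (nat_lit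 76) (nat_lit 3777255602) (nat_lit 37) (nat_lit 5) (nat_lit 41) (nat_lit 5) (nat_lit 38) (nat_lit 5) (nat_lit 360) (nat_lit 269) (nat_lit 151)) (XT.lf (nat_lit 0) (nat_lit 1405670883) (nat_lit 0) (nat_lit 1405670883) (nat_lit 836) (nat_lit 628080311) (nat_lit 552) (nat_lit 5) (nat_lit 552) (nat_lit 3) (nat_lit 563) (nat_lit 3) (nat_lit 270) (nat_lit 270) (nat_lit 240)))) (XT.nd (nat_lit 156) (nat_lit 912) (nat_lit 0) (XT.nd (nat_lit 78) (nat_lit 0) (nat_lit 76) (XT.lf (nat_lit 76) (nat_lit 653140015) (nat_lit 0) (nat_lit 836387366) (nat_lit 988) (nat_lit 5434333081) (nat_lit 540) (nat_lit 5) (nat_lit 539) (nat_lit 3) (nat_lit 552) (nat_lit 5) (nat_lit 271) (nat_lit 270) (nat_lit 239)) (XT.lf (nat_lit 0) (nat_lit 4229043599) (nat_lit 912) (nat_lit 1472976082) (nat_lit 988) (nat_lit 1269602781) (nat_lit 540) (nat_lit 5) (nat_lit 552) (nat_lit 5) (nat_lit 553) (nat_lit 5) (nat_lit 272) (nat_lit 270)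 (nat_lit 238))) (XT.nd (nat_lit 78) (nat_lit 988) (nat_lit 0) (XT.lf (nat_lit 76) (nat_lit 3452053136) (nat_lit 0) (nat_lit 3522722125) (nat_lit 988) (nat_lit 47689370) (nat_lit 541) (nat_lit 5) (nat_lit 540) (nat_lit 5) (nat_lit 553) (nat_lit 5) (nat_lit 273) (nat_lit 270) (nat_lit 237)) (XT.lf (nat_lit 76) (nat_lit 1414239498) (nat_lit 0) (nat_lit 1195156949) (nat_lit 1064) (nat_lit 4466860552) (nat_lit 528) (nat_lit 5) (nat_lit 527) (nat_lit 5) (nat_lit 541) (nat_lit 5) (nat_lit 274) (nat_lit 270) (nat_lit 236))))))))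
noncomputable def xc69 : XT := (XT.nd (nat_lit 2028) (nat_lit 12008) (nat_lit 0) (XT.nd (nat_lit 1014) (nat_lit 13072) (nat_lit 0) (XT.nd (nat_lit 468) (nat_lit 3572) (nat_lit 0) (XT.nd (nat_lit 234) (nat_lit 1064) (nat_lit 0) (XT.nd (nat_lit 78) (nat_lit 1064) (nat_lit 0) (XT.lf (nat_lit 0) (nat_lit 5278502614) (nat_lit 988) (nat_lit 600522523) (nat_lit 1064) (nat_lit 1254090785) (nat_lit 528) (nat_lit 5) (nat_lit 541) (nat_lit 5) (nat_lit 542) (nat_lit 5) (nat_lit 275) (nat_lit 270) (nat_lit 235)) (XT.nd (nat_lit 78) (nat_lit 0) (nat_lit 0) (XT.lf (nat_lit 0) (nat_lit 766133060) (nat_lit 1064) (nat_lit 2589397302) (nat_lit 1140) (nat_lit 3837332282) (nat_lit 514) (nat_lit 5) (nat_lit 528) (nat_lit 5) (nat_lit 529) (nat_lit 5) (nat_lit 276) (nat_lit 270) (nat_lit 234)) (XT.lf (nat_lit 76) (nat_lit 2683124383) (nat_lit 0) (nat_lit 684234262) (nat_lit 1140) (nat_lit 3888366100) (nat_lit 515) (nat_lit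 5) (nat_lit 514) (nat_lit 5) (nat_lit 529) (nat_lit 5) (nat_lit 277) (nat_lit 270) (nat_lit 233)))) (XT.nd (nat_lit 78) (nat_lit 1140) (nat_lit 0) (XT.lf (nat_lit 76) (nat_lit 767303472) (nat_lit 0) (nat_lit 5223401730) (nat_lit 1140) (nat_lit 1330991875) (nat_lit 516) (nat_lit 5) (nat_lit 515) (nat_lit 5) (nat_lit 530) (nat_lit 5) (nat_lit 278) (nat_lit 270) (nat_lit 232)) (XT.nd (nat_lit 78) (nat_lit 0) (nat_lit 76) (XT.lf (nat_lit 0) (nat_lit 1231408242) (nat_lit 1140) (nat_lit 1130996605) (nat_lit 1216) (nat_lit 5028267558) (nat_lit 500) (nat_lit 5) (nat_lit 515) (nat_lit 5) (nat_lit 516) (nat_lit 5) (nat_lit 279) (nat_lit 270) (nat_lit 231)) (XT.lf (nat_lit 0) (nat_lit 3798081789) (nat_lit 1140) (nat_lit 3019537695) (nat_lit 1216) (nat_lit 645109868) (nat_lit 501) (nat_lit 5) (nat_lit 516) (nat_lit 5) (nat_lit 517) (nat_lit 5) (nat_lit 280) (nat_lit 270) (nat_lit 230))))) (XT.nd (nat_lit 234)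 (nat_lit 2432) (nat_lit 0) (XT.nd (nat_lit 78) (nat_lit 1216) (nat_lit 0) (XT.lf (nat_lit 76) (nat_lit 2623770946) (nat_lit 0) (nat_lit 3773176611) (nat_lit 1216) (nat_lit 1140991759) (nat_lit 502) (nat_lit 5) (nat_lit 501) (nat_lit 5) (nat_lit 517) (nat_lit 5) (nat_lit 281) (nat_lit 270) (nat_lit 229)) (XT.nd (nat_lit 78) (nat_lit 0) (nat_lit 76) (XT.lf (nat_lit 76) (nat_lit 805325978) (nat_lit 0) (nat_lit 575862705) (nat_lit 1292) (nat_lit 6235279252) (nat_lit 486) (nat_lit 5) (nat_lit 485) (nat_lit 5) (nat_lit 502) (nat_lit 5) (nat_lit 282) (nat_lit 270) (nat_lit 228)) (XT.lf (nat_lit 0) (nat_lit 3933130048) (nat_lit 1216) (nat_lit 1017791450) (nat_lit 1292) (nat_lit 2746976060) (nat_lit 486) (nat_lit 5) (nat_lit 502) (nat_lit 5) (nat_lit 503) (nat_lit 5) (nat_lit 283) (nat_lit 270) (nat_lit 227)))) (XT.nd (nat_lit 156) (nat_lit 1292) (nat_lit 0) (XT.nd (nat_lit 78) (nat_lit 1216) (nat_lit 0)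 (XT.lf (nat_lit 76) (nat_lit 4952911223) (nat_lit 0) (nat_lit 1565450647) (nat_lit 1292) (nat_lit 1264358923) (nat_lit 487) (nat_lit 5) (nat_lit 486) (nat_lit 5) (nat_lit 503) (nat_lit 5) (nat_lit 284) (nat_lit 270) (nat_lit 226)) (XT.lf (nat_lit 0) (nat_lit 1256652709) (nat_lit 1292) (nat_lit 4661163916) (nat_lit 76) (nat_lit 1952927399) (nat_lit 470) (nat_lit 5) (nat_lit 487) (nat_lit 5) (nat_lit 471) (nat_lit 5) (nat_lit 285) (nat_lit 270) (nat_lit 225))) (XT.nd (nat_lit 78) (nat_lit 0) (nat_lit 0) (XT.lf (nat_lit 0) (nat_lit 1449292193) (nat_lit 1292) (nat_lit 2350200877) (nat_lit 1368) (nat_lit 4162559100) (nat_lit 453) (nat_lit 5) (nat_lit 470) (nat_lit 5) (nat_lit 471) (nat_lit 5) (nat_lit 286) (nat_lit 270) (nat_lit 224)) (XT.lf (nat_lit 0) (nat_lit 6385053346) (nat_lit 1368) (nat_lit 316653187) (nat_lit 76) (nat_lit 1355140924) (nat_lit 453) (nat_lit 5) (nat_lit 471) (nat_lit 5) (nat_lit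 454) (nat_lit 5) (nat_lit 287) (nat_lit 270) (nat_lit 223)))))) (XT.nd (nat_lit 468) (nat_lit 5320) (nat_lit 0) (XT.nd (nat_lit 234) (nat_lit 3344) (nat_lit 0) (XT.nd (nat_lit 78) (nat_lit 2964) (nat_lit 0) (XT.lf (nat_lit 0) (nat_lit 865122678) (nat_lit 1444) (nat_lit 2088850256) (nat_lit 76) (nat_lit 5200807527) (nat_lit 434) (nat_lit 5) (nat_lit 453) (nat_lit 5) (nat_lit 435) (nat_lit 5) (nat_lit 288) (nat_lit 270) (nat_lit 222)) (XT.nd (nat_lit 78) (nat_lit 1520) (nat_lit 0) (XT.lf (nat_lit 0) (nat_lit 3421772254) (nat_lit 1520) (nat_lit 3885204094) (nat_lit 76) (nat_lit 949198105) (nat_lit 415) (nat_lit 5) (nat_lit 435) (nat_lit 5) (nat_lit 416) (nat_lit 5) (nat_lit 289) (nat_lit 270) (nat_lit 221)) (XT.lf (nat_lit 0) (nat_lit 2649567318) (nat_lit 1520) (nat_lit 3387911979) (nat_lit 1596) (nat_lit 2323552527) (nat_lit 395) (nat_lit 5) (nat_lit 415) (nat_lit 5) (nat_lit 416) (nat_lit 5) (nat_lit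 290) (nat_lit 270) (nat_lit 220)))) (XT.nd (nat_lit 78) (nat_lit 1672) (nat_lit 0) (XT.lf (nat_lit 0) (nat_lit 228408652) (nat_lit 1672) (nat_lit 7557276075) (nat_lit 76) (nat_lit 683996887) (nat_lit 373) (nat_lit 5) (nat_lit 395) (nat_lit 5) (nat_lit 374) (nat_lit 5) (nat_lit 291) (nat_lit 270) (nat_lit 219)) (XT.nd (nat_lit 78) (nat_lit 1672) (nat_lit 0) (XT.lf (nat_lit 0) (nat_lit 2821089357) (nat_lit 1672) (nat_lit 864802691) (nat_lit 76) (nat_lit 4895540605) (nat_lit 373) (nat_lit 5) (nat_lit 395) (nat_lit 5) (nat_lit 374) (nat_lit 5) (nat_lit 292) (nat_lit 270) (nat_lit 218)) (XT.lf (nat_lit 0) (nat_lit 5470486302) (nat_lit 1748) (nat_lit 2650080833) (nat_lit 76) (nat_lit 576452024) (nat_lit 351) (nat_lit 5) (nat_lit 374) (nat_lit 5) (nat_lit 352) (nat_lit 5) (nat_lit 293) (nat_lit 270) (nat_lit 217))))) (XT.nd (nat_lit 234) (nat_lit 2432) (nat_lit 0) (XT.nd (nat_lit 78) (nat_lit 1748) (nat_lit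 0) (XT.lf (nat_lit 0) (nat_lit 4336675079) (nat_lit 1140) (nat_lit 3858799165) (nat_lit 1216) (nat_lit 620736694) (nat_lit 336) (nat_lit 5) (nat_lit 351) (nat_lit 5) (nat_lit 352) (nat_lit 5) (nat_lit 294) (nat_lit 270) (nat_lit 216)) (XT.nd (nat_lit 78) (nat_lit 836) (nat_lit 0) (XT.lf (nat_lit 0) (nat_lit 2013283545) (nat_lit 912) (nat_lit 6349272576) (nat_lit 76) (nat_lit 576669207) (nat_lit 324) (nat_lit 5) (nat_lit 336) (nat_lit 5) (nat_lit 325) (nat_lit 5) (nat_lit 295) (nat_lit 270) (nat_lit 215)) (XT.lf (nat_lit 0) (nat_lit 790000403) (nat_lit 836) (nat_lit 3929279653) (nat_lit 912) (nat_lit 4346595568) (nat_lit 313) (nat_lit 5) (nat_lit 324) (nat_lit 5) (nat_lit 325) (nat_lit 5) (nat_lit 296) (nat_lit 270) (nat_lit 214)))) (XT.nd (nat_lit 156) (nat_lit 1596) (nat_lit 0) (XT.nd (nat_lit 78) (nat_lit 836) (nat_lit 0) (XT.lf (nat_lit 0) (nat_lit 7495148445) (nat_lit 912) (nat_lit 1027552140)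 (nat_lit 76) (nat_lit 673904707) (nat_lit 313) (nat_lit 5) (nat_lit 325) (nat_lit 5) (nat_lit 314) (nat_lit 5) (nat_lit 297) (nat_lit 270) (nat_lit 213)) (XT.lf (nat_lit 0) (nat_lit 1020688317) (nat_lit 836) (nat_lit 2897734394) (nat_lit 76) (nat_lit 5412531019) (nat_lit 302) (nat_lit 5) (nat_lit 313) (nat_lit 5) (nat_lit 303) (nat_lit 5) (nat_lit 298) (nat_lit 270) (nat_lit 212))) (XT.nd (nat_lit 78) (nat_lit 760) (nat_lit 0) (XT.lf (nat_lit 0) (nat_lit 3788264897) (nat_lit 912) (nat_lit 4819097161) (nat_lit 76) (nat_lit 862057599) (nat_lit 291) (nat_lit 5) (nat_lit 303) (nat_lit 5) (nat_lit 292) (nat_lit 5) (nat_lit 299) (nat_lit 270) (nat_lit 211)) (XT.lf (nat_lit 0) (nat_lit 2806866488) (nat_lit 760) (nat_lit 3841310743) (nat_lit 836) (nat_lit 2963724341) (nat_lit 281) (nat_lit 5) (nat_lit 291) (nat_lit 5) (nat_lit 292) (nat_lit 5) (nat_lit 300) (nat_lit 270) (nat_lit 210))))))) (XT.nd (nat_lit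 1014) (nat_lit 5320) (nat_lit 0) (XT.nd (nat_lit 468) (nat_lit 3040) (nat_lit 0) (XT.nd (nat_lit 234) (nat_lit 2128) (nat_lit 0) (XT.nd (nat_lit 78) (nat_lit 760) (nat_lit 0) (XT.lf (nat_lit 0) (nat_lit 917815126) (nat_lit 760) (nat_lit 8668175204) (nat_lit 836) (nat_lit 172872327) (nat_lit 271) (nat_lit 5) (nat_lit 281) (nat_lit 5) (nat_lit 282) (nat_lit 5) (nat_lit 301) (nat_lit 270) (nat_lit 209)) (XT.nd (nat_lit 78) (nat_lit 684) (nat_lit 0) (XT.lf (nat_lit 0) (nat_lit 2685527765) (nat_lit 836) (nat_lit 1043816545) (nat_lit 76) (nat_lit 6180196850) (nat_lit 270) (nat_lit 5) (nat_lit 281) (nat_lit 5) (nat_lit 271) (nat_lit 5) (nat_lit 302) (nat_lit 270) (nat_lit 208)) (XT.lf (nat_lit 0) (nat_lit 5630735411) (nat_lit 760) (nat_lit 3050512172) (nat_lit 76) (nat_lit 1383444726) (nat_lit 261) (nat_lit 5) (nat_lit 271) (nat_lit 5) (nat_lit 262) (nat_lit 5) (nat_lit 303) (nat_lit 270) (nat_lit 207))))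 (XT.nd (nat_lit 78) (nat_lit 1444) (nat_lit 0) (XT.lf (nat_lit 0) (nat_lit 5090669663) (nat_lit 684) (nat_lit 3588549563) (nat_lit 760) (nat_lit 1545022338) (nat_lit 252) (nat_lit 5) (nat_lit 261) (nat_lit 5) (nat_lit 262) (nat_lit 5) (nat_lit 304) (nat_lit 270) (nat_lit 206)) (XT.nd (nat_lit 78) (nat_lit 684) (nat_lit 0) (XT.lf (nat_lit 0) (nat_lit 1414403726) (nat_lit 760) (nat_lit 7293426899) (nat_lit 76) (nat_lit 1680549139) (nat_lit 242) (nat_lit 5) (nat_lit 252) (nat_lit 5) (nat_lit 243) (nat_lit 5) (nat_lit 305) (nat_lit 270) (nat_lit 205)) (XT.lf (nat_lit 0) (nat_lit 1007667071) (nat_lit 684) (nat_lit 3451240380) (nat_lit 760) (nat_lit 6098023481) (nat_lit 233) (nat_lit 5) (nat_lit 242) (nat_lit 5) (nat_lit 243) (nat_lit 5) (nat_lit 306) (nat_lit 270) (nat_lit 204))))) (XT.nd (nat_lit 234) (nat_lit 1748) (nat_lit 0) (XT.nd (nat_lit 78) (nat_lit 1292) (nat_lit 0) (XT.lf (nat_lit 0) (nat_lit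 7609866005) (nat_lit 760) (nat_lit 1139890947) (nat_lit 76) (nat_lit 1980516943) (nat_lit 233) (nat_lit 5) (nat_lit 243) (nat_lit 5) (nat_lit 234) (nat_lit 5) (nat_lit 307) (nat_lit 270) (nat_lit 203)) (XT.nd (nat_lit 78) (nat_lit 684) (nat_lit 0) (XT.lf (nat_lit 0) (nat_lit 7544331850) (nat_lit 608) (nat_lit 3337088561) (nat_lit 684) (nat_lit 26911953) (nat_lit 225) (nat_lit 5) (nat_lit 233) (nat_lit 5) (nat_lit 234) (nat_lit 5) (nat_lit 308) (nat_lit 270) (nat_lit 202)) (XT.lf (nat_lit 0) (nat_lit 3130427037) (nat_lit 684) (nat_lit 5695873798) (nat_lit 76) (nat_lit 2264806812) (nat_lit 216) (nat_lit 5) (nat_lit 225) (nat_lit 5) (nat_lit 217) (nat_lit 5) (nat_lit 309) (nat_lit 270) (nat_lit 201)))) (XT.nd (nat_lit 156) (nat_lit 608) (nat_lit 0) (XT.nd (nat_lit 78) (nat_lit 608) (nat_lit 0) (XT.lf (nat_lit 0) (nat_lit 3149968961) (nat_lit 532) (nat_lit 3253469291) (nat_lit 608) (nat_lit 4875531809)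 (nat_lit 209) (nat_lit 5) (nat_lit 216) (nat_lit 5) (nat_lit 217) (nat_lit 5) (nat_lit 310) (nat_lit 270) (nat_lit 200)) (XT.lf (nat_lit 0) (nat_lit 808600146) (nat_lit 608) (nat_lit 8982784619) (nat_lit 684) (nat_lit 1680781483) (nat_lit 201) (nat_lit 5) (nat_lit 209) (nat_lit 5) (nat_lit 210) (nat_lit 5) (nat_lit 311) (nat_lit 270) (nat_lit 199))) (XT.nd (nat_lit 78) (nat_lit 532) (nat_lit 0) (XT.lf (nat_lit 0) (nat_lit 1623018037) (nat_lit 684) (nat_lit 1629832094) (nat_lit 76) (nat_lit 8417443980) (nat_lit 200) (nat_lit 5) (nat_lit 209) (nat_lit 5) (nat_lit 201) (nat_lit 5) (nat_lit 312) (nat_lit 270) (nat_lit 198)) (XT.lf (nat_lit 0) (nat_lit 5029212608) (nat_lit 608) (nat_lit 4177970156) (nat_lit 76) (nat_lit 2666468831) (nat_lit 193) (nat_lit 5) (nat_lit 201) (nat_lit 5) (nat_lit 194) (nat_lit 5) (nat_lit 313) (nat_lit 270) (nat_lit 197)))))) (XT.nd (nat_lit 546) (nat_lit 2204) (nat_lit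 0) (XT.nd (nat_lit 234) (nat_lit 1976) (nat_lit 0) (XT.nd (nat_lit 78) (nat_lit 608) (nat_lit 0) (XT.lf (nat_lit 0) (nat_lit 5236011885) (nat_lit 532) (nat_lit 3327631842) (nat_lit 608) (nat_lit 3518974493) (nat_lit 186) (nat_lit 5) (nat_lit 193) (nat_lit 5) (nat_lit 194) (nat_lit 5) (nat_lit 314) (nat_lit 270) (nat_lit 196)) (XT.nd (nat_lit 78) (nat_lit 76) (nat_lit 0) (XT.lf (nat_lit 0) (nat_lit 2658132030) (nat_lit 532) (nat_lit 9569425184) (nat_lit 608) (nat_lit 69856210) (nat_lit 179) (nat_lit 5) (nat_lit 186) (nat_lit 5) (nat_lit 187) (nat_lit 5) (nat_lit 315) (nat_lit 270) (nat_lit 195)) (XT.lf (nat_lit 0) (nat_lit 3466544803) (nat_lit 608) (nat_lit 72032310) (nat_lit 76) (nat_lit 8979060606) (nat_lit 178) (nat_lit 5) (nat_lit 186) (nat_lit 5) (nat_lit 179) (nat_lit 5) (nat_lit 316) (nat_lit 270) (nat_lit 194)))) (XT.nd (nat_lit 156) (nat_lit 988) (nat_lit 0) (XT.nd (nat_lit 78) (nat_lit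 456) (nat_lit 0) (XT.lf (nat_lit 0) (nat_lit 7151514603) (nat_lit 608) (nat_lit 2899961103) (nat_lit 76) (nat_lit 2692141689) (nat_lit 171) (nat_lit 5) (nat_lit 179) (nat_lit 5) (nat_lit 172) (nat_lit 5) (nat_lit 317) (nat_lit 270) (nat_lit 193)) (XT.lf (nat_lit 0) (nat_lit 7101620236) (nat_lit 456) (nat_lit 3878086044) (nat_lit 532) (nat_lit 1996042360) (nat_lit 165) (nat_lit 5) (nat_lit 171) (nat_lit 5) (nat_lit 172) (nat_lit 5) (nat_lit 318) (nat_lit 270) (nat_lit 192))) (XT.nd (nat_lit 78) (nat_lit 456) (nat_lit 0) (XT.lf (nat_lit 0) (nat_lit 1712038912) (nat_lit 532) (nat_lit 9007193076) (nat_lit 76) (nat_lit 2494883687) (nat_lit 158) (nat_lit 5) (nat_lit 165) (nat_lit 5) (nat_lit 159) (nat_lit 5) (nat_lit 319) (nat_lit 270) (nat_lit 191)) (XT.lf (nat_lit 0) (nat_lit 1138476741) (nat_lit 456) (nat_lit 4402927302) (nat_lit 532) (nat_lit 7917246297) (nat_lit 152) (nat_lit 5) (nat_lit 158) (nat_lit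 5) (nat_lit 159) (nat_lit 5) (nat_lit 320) (nat_lit 270) (nat_lit 190))))) (XT.nd (nat_lit 234) (nat_lit 1292) (nat_lit 0) (XT.nd (nat_lit 78) (nat_lit 912) (nat_lit 0) (XT.lf (nat_lit 0) (nat_lit 9525020424) (nat_lit 532) (nat_lit 2060292774) (nat_lit 76) (nat_lit 2124443437) (nat_lit 152) (nat_lit 5) (nat_lit 159) (nat_lit 5) (nat_lit 153) (nat_lit 5) (nat_lit 321) (nat_lit 270) (nat_lit 189)) (XT.nd (nat_lit 78) (nat_lit 456) (nat_lit 0) (XT.lf (nat_lit 0) (nat_lit 8542654753) (nat_lit 456) (nat_lit 5135717217) (nat_lit 532) (nat_lit 289041947) (nat_lit 146) (nat_lit 5) (nat_lit 152) (nat_lit 5) (nat_lit 153) (nat_lit 5) (nat_lit 322) (nat_lit 270) (nat_lit 188)) (XT.lf (nat_lit 0) (nat_lit 3698836288) (nat_lit 456) (nat_lit 8985225010) (nat_lit 76) (nat_lit 1547794404) (nat_lit 140) (nat_lit 5) (nat_lit 146) (nat_lit 5) (nat_lit 141) (nat_lit 5) (nat_lit 323) (nat_lit 270) (nat_lit 187))))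 (XT.nd (nat_lit 156) (nat_lit 836) (nat_lit 0) (XT.nd (nat_lit 78) (nat_lit 0) (nat_lit 0) (XT.lf (nat_lit 0) (nat_lit 1748454302) (nat_lit 456) (nat_lit 6103085102) (nat_lit 532) (nat_lit 6651691451) (nat_lit 134) (nat_lit 5) (nat_lit 140) (nat_lit 5) (nat_lit 141) (nat_lit 5) (nat_lit 324) (nat_lit 270) (nat_lit 186)) (XT.lf (nat_lit 0) (nat_lit 12161484813) (nat_lit 532) (nat_lit 1905892072) (nat_lit 76) (nat_lit 714737187) (nat_lit 134) (nat_lit 5) (nat_lit 141) (nat_lit 5) (nat_lit 135) (nat_lit 5) (nat_lit 325) (nat_lit 270) (nat_lit 185))) (XT.nd (nat_lit 78) (nat_lit 380) (nat_lit 0) (XT.lf (nat_lit 0) (nat_lit 1580891622) (nat_lit 456) (nat_lit 5774077001) (nat_lit 76) (nat_lit 7712823161) (nat_lit 128) (nat_lit 5) (nat_lit 134) (nat_lit 5) (nat_lit 129) (nat_lit 5) (nat_lit 326) (nat_lit 270) (nat_lit 184)) (XT.lf (nat_lit 0) (nat_lit 5503127573) (nat_lit 380) (nat_lit 387025273) (nat_lit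 456) (nat_lit 9471213070) (nat_lit 123) (nat_lit 5) (nat_lit 128) (nat_lit 5) (nat_lit 129) (nat_lit 5) (nat_lit 327) (nat_lit 270) (nat_lit 183))))))))
noncomputable def xc70 : XT := (XT.nd (nat_lit 2028) (nat_lit 836) (nat_lit 0) (XT.nd (nat_lit 1014) (nat_lit 2280) (nat_lit 0) (XT.nd (nat_lit 468) (nat_lit 1520) (nat_lit 0) (XT.nd (nat_lit 234) (nat_lit 760) (nat_lit 0) (XT.nd (nat_lit 78) (nat_lit 456) (nat_lit 0) (XT.lf (nat_lit 0) (nat_lit 1464712834) (nat_lit 380) (nat_lit 8925872523) (nat_lit 456) (nat_lit 5271942020) (nat_lit 118) (nat_lit 5) (nat_lit 123) (nat_lit 5) (nat_lit 124) (nat_lit 5) (nat_lit 328) (nat_lit 270) (nat_lit 182)) (XT.nd (nat_lit 78) (nat_lit 456) (nat_lit 0) (XT.lf (nat_lit 0) (nat_lit 13215525934) (nat_lit 380) (nat_lit 1849410042) (nat_lit 456) (nat_lit 907027056) (nat_lit 118) (nat_lit 5) (nat_lit 123) (nat_lit 5) (nat_lit 124) (nat_lit 5) (nat_lit 329) (nat_lit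 270) (nat_lit 181)) (XT.lf (nat_lit 0) (nat_lit 3606704409) (nat_lit 456) (nat_lit 7244718431) (nat_lit 76) (nat_lit 5437510757) (nat_lit 112) (nat_lit 5) (nat_lit 118) (nat_lit 5) (nat_lit 113) (nat_lit 5) (nat_lit 330) (nat_lit 270) (nat_lit 180)))) (XT.nd (nat_lit 78) (nat_lit 456) (nat_lit 0) (XT.lf (nat_lit 0) (nat_lit 4620536533) (nat_lit 304) (nat_lit 3654939010) (nat_lit 380) (nat_lit 8339194941) (nat_lit 108) (nat_lit 5) (nat_lit 112) (nat_lit 5) (nat_lit 113) (nat_lit 5) (nat_lit 331) (nat_lit 270) (nat_lit 179)) (XT.nd (nat_lit 78) (nat_lit 456) (nat_lit 0) (XT.lf (nat_lit 0) (nat_lit 13129323162) (nat_lit 380) (nat_lit 75887924) (nat_lit 76) (nat_lit 3744083782) (nat_lit 108) (nat_lit 5) (nat_lit 113) (nat_lit 5) (nat_lit 109) (nat_lit 5) (nat_lit 332) (nat_lit 270) (nat_lit 178)) (XT.lf (nat_lit 0) (nat_lit 900678444) (nat_lit 456) (nat_lit 5003293363) (nat_lit 76) (nat_lit 11388356692)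 (nat_lit 102) (nat_lit 5) (nat_lit 108) (nat_lit 5) (nat_lit 103) (nat_lit 5) (nat_lit 333) (nat_lit 270) (nat_lit 177))))) (XT.nd (nat_lit 234) (nat_lit 912) (nat_lit 0) (XT.nd (nat_lit 78) (nat_lit 304) (nat_lit 0) (XT.lf (nat_lit 0) (nat_lit 5743265020) (nat_lit 380) (nat_lit 10245030672) (nat_lit 76) (nat_lit 1656222605) (nat_lit 98) (nat_lit 5) (nat_lit 103) (nat_lit 5) (nat_lit 99) (nat_lit 5) (nat_lit 334) (nat_lit 270) (nat_lit 176)) (XT.nd (nat_lit 78) (nat_lit 0) (nat_lit 0) (XT.lf (nat_lit 0) (nat_lit 2184040728) (nat_lit 304) (nat_lit 8607722501) (nat_lit 380) (nat_lit 7214311929) (nat_lit 94) (nat_lit 5) (nat_lit 98) (nat_lit 5) (nat_lit 99) (nat_lit 5) (nat_lit 335) (nat_lit 270) (nat_lit 175)) (XT.lf (nat_lit 0) (nat_lit 15085748740) (nat_lit 304) (nat_lit 948762320) (nat_lit 380) (nat_lit 2343125409) (nat_lit 94) (nat_lit 5) (nat_lit 98) (nat_lit 5) (nat_lit 99) (nat_lit 5) (nat_lit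 336) (nat_lit 270) (nat_lit 174)))) (XT.nd (nat_lit 156) (nat_lit 228) (nat_lit 0) (XT.nd (nat_lit 78) (nat_lit 304) (nat_lit 0) (XT.lf (nat_lit 0) (nat_lit 2721464405) (nat_lit 380) (nat_lit 9120616605) (nat_lit 76) (nat_lit 6916282531) (nat_lit 89) (nat_lit 5) (nat_lit 94) (nat_lit 5) (nat_lit 90) (nat_lit 5) (nat_lit 337) (nat_lit 270) (nat_lit 173)) (XT.lf (nat_lit 0) (nat_lit 3839007640) (nat_lit 304) (nat_lit 4095436671) (nat_lit 380) (nat_lit 11215205232) (nat_lit 85) (nat_lit 5) (nat_lit 89) (nat_lit 5) (nat_lit 90) (nat_lit 5) (nat_lit 338) (nat_lit 270) (nat_lit 172))) (XT.nd (nat_lit 78) (nat_lit 228) (nat_lit 0) (XT.lf (nat_lit 0) (nat_lit 13366027555) (nat_lit 380) (nat_lit 2304027079) (nat_lit 76) (nat_lit 3881387447) (nat_lit 85) (nat_lit 5) (nat_lit 90) (nat_lit 5) (nat_lit 86) (nat_lit 5) (nat_lit 339) (nat_lit 270) (nat_lit 171)) (XT.lf (nat_lit 0) (nat_lit 11173858123) (nat_lit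 228) (nat_lit 7862156183) (nat_lit 304) (nat_lit 927776848) (nat_lit 82) (nat_lit 5) (nat_lit 85) (nat_lit 5) (nat_lit 86) (nat_lit 5) (nat_lit 340) (nat_lit 270) (nat_lit 170)))))) (XT.nd (nat_lit 468) (nat_lit 1064) (nat_lit 0) (XT.nd (nat_lit 234) (nat_lit 608) (nat_lit 0) (XT.nd (nat_lit 78) (nat_lit 228) (nat_lit 0) (XT.lf (nat_lit 0) (nat_lit 4452325020) (nat_lit 380) (nat_lit 15695138606) (nat_lit 76) (nat_lit 240003842) (nat_lit 77) (nat_lit 5) (nat_lit 82) (nat_lit 5) (nat_lit 78) (nat_lit 5) (nat_lit 341) (nat_lit 270) (nat_lit 169)) (XT.nd (nat_lit 78) (nat_lit 228) (nat_lit 0) (XT.lf (nat_lit 0) (nat_lit 10070027127) (nat_lit 380) (nat_lit 2220049378) (nat_lit 76) (nat_lit 8531889850) (nat_lit 77) (nat_lit 5) (nat_lit 82) (nat_lit 5) (nat_lit 78) (nat_lit 5) (nat_lit 342) (nat_lit 270) (nat_lit 168)) (XT.lf (nat_lit 0) (nat_lit 11777261639) (nat_lit 228) (nat_lit 4132352449) (nat_lit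 304) (nat_lit 5358829705) (nat_lit 74) (nat_lit 5) (nat_lit 77) (nat_lit 5) (nat_lit 78) (nat_lit 5) (nat_lit 343) (nat_lit 270) (nat_lit 167)))) (XT.nd (nat_lit 78) (nat_lit 228) (nat_lit 0) (XT.lf (nat_lit 0) (nat_lit 243090509) (nat_lit 380) (nat_lit 17237266556) (nat_lit 76) (nat_lit 4246951394) (nat_lit 69) (nat_lit 5) (nat_lit 74) (nat_lit 5) (nat_lit 70) (nat_lit 5) (nat_lit 344) (nat_lit 270) (nat_lit 166)) (XT.nd (nat_lit 78) (nat_lit 228) (nat_lit 0) (XT.lf (nat_lit 0) (nat_lit 6010569454) (nat_lit 380) (nat_lit 3277928697) (nat_lit 76) (nat_lit 12909336193) (nat_lit 69) (nat_lit 5) (nat_lit 74) (nat_lit 5) (nat_lit 70) (nat_lit 5) (nat_lit 345) (nat_lit 270) (nat_lit 165)) (XT.lf (nat_lit 0) (nat_lit 11212291239) (nat_lit 228) (nat_lit 789749598) (nat_lit 304) (nat_lit 10679425371) (nat_lit 66) (nat_lit 5) (nat_lit 69) (nat_lit 5) (nat_lit 70) (nat_lit 5) (nat_lit 346) (nat_lit 270)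 (nat_lit 164))))) (XT.nd (nat_lit 234) (nat_lit 532) (nat_lit 0) (XT.nd (nat_lit 78) (nat_lit 304) (nat_lit 0) (XT.lf (nat_lit 0) (nat_lit 2955090207) (nat_lit 228) (nat_lit 15289918100) (nat_lit 304) (nat_lit 4933172966) (nat_lit 63) (nat_lit 5) (nat_lit 66) (nat_lit 5) (nat_lit 67) (nat_lit 5) (nat_lit 347) (nat_lit 270) (nat_lit 163)) (XT.nd (nat_lit 78) (nat_lit 228) (nat_lit 0) (XT.lf (nat_lit 0) (nat_lit 1034811893) (nat_lit 304) (nat_lit 5765825940) (nat_lit 76) (nat_lit 16887795439) (nat_lit 62) (nat_lit 5) (nat_lit 66) (nat_lit 5) (nat_lit 63) (nat_lit 5) (nat_lit 348) (nat_lit 270) (nat_lit 162)) (XT.lf (nat_lit 0) (nat_lit 7167313196) (nat_lit 304) (nat_lit 15046616643) (nat_lit 76) (nat_lit 1998369418) (nat_lit 59) (nat_lit 5) (nat_lit 63) (nat_lit 5) (nat_lit 60) (nat_lit 5) (nat_lit 349) (nat_lit 270) (nat_lit 161)))) (XT.nd (nat_lit 156) (nat_lit 304) (nat_lit 0) (XT.nd (nat_lit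 78) (nat_lit 228) (nat_lit 0) (XT.lf (nat_lit 0) (nat_lit 13548276379) (nat_lit 304) (nat_lit 206024989) (nat_lit 76) (nat_lit 10996298447) (nat_lit 59) (nat_lit 5) (nat_lit 63) (nat_lit 5) (nat_lit 60) (nat_lit 5) (nat_lit 350) (nat_lit 270) (nat_lit 160)) (XT.lf (nat_lit 0) (nat_lit 15247478691) (nat_lit 228) (nat_lit 4952456564) (nat_lit 304) (nat_lit 5103536885) (nat_lit 56) (nat_lit 5) (nat_lit 59) (nat_lit 5) (nat_lit 60) (nat_lit 5) (nat_lit 351) (nat_lit 270) (nat_lit 159))) (XT.nd (nat_lit 78) (nat_lit 0) (nat_lit 0) (XT.lf (nat_lit 0) (nat_lit 1206154692) (nat_lit 304) (nat_lit 20574713099) (nat_lit 76) (nat_lit 4091049669) (nat_lit 52) (nat_lit 5) (nat_lit 56) (nat_lit 5) (nat_lit 53) (nat_lit 5) (nat_lit 352) (nat_lit 270) (nat_lit 158)) (XT.lf (nat_lit 0) (nat_lit 7718693943) (nat_lit 304) (nat_lit 5306919907) (nat_lit 76) (nat_lit 13429477196) (nat_lit 52) (nat_lit 5) (nat_lit 56)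 (nat_lit 5) (nat_lit 53) (nat_lit 5) (nat_lit 353) (nat_lit 270) (nat_lit 157))))))) (XT.nd (nat_lit 34632) (nat_lit 0) (nat_lit 28424) (XT.nd (nat_lit 468) (nat_lit 0) (nat_lit 0) (XT.nd (nat_lit 234) (nat_lit 380) (nat_lit 0) (XT.nd (nat_lit 78) (nat_lit 228) (nat_lit 0) (XT.lf (nat_lit 0) (nat_lit 10526072402) (nat_lit 228) (nat_lit 3950224464) (nat_lit 304) (nat_lit 12578476479) (nat_lit 49) (nat_lit 5) (nat_lit 52) (nat_lit 5) (nat_lit 53) (nat_lit 5) (nat_lit 354) (nat_lit 270) (nat_lit 156)) (XT.nd (nat_lit 78) (nat_lit 228) (nat_lit 0) (XT.lf (nat_lit 0) (nat_lit 21489483977) (nat_lit 304) (nat_lit 830992010) (nat_lit 76) (nat_lit 5350920047) (nat_lit 49) (nat_lit 5) (nat_lit 53) (nat_lit 5) (nat_lit 50) (nat_lit 5) (nat_lit 355) (nat_lit 270) (nat_lit 155)) (XT.lf (nat_lit 0) (nat_lit 511034281) (nat_lit 228) (nat_lit 12823176788) (nat_lit 76) (nat_lit 14970063912) (nat_lit 46) (nat_lit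 5) (nat_lit 49) (nat_lit 5) (nat_lit 47) (nat_lit 5) (nat_lit 356) (nat_lit 270) (nat_lit 154)))) (XT.nd (nat_lit 78) (nat_lit 152) (nat_lit 0) (XT.lf (nat_lit 0) (nat_lit 3310392191) (nat_lit 228) (nat_lit 4020384799) (nat_lit 304) (nat_lit 21624352647) (nat_lit 43) (nat_lit 5) (nat_lit 46) (nat_lit 5) (nat_lit 47) (nat_lit 5) (nat_lit 357) (nat_lit 270) (nat_lit 153)) (XT.nd (nat_lit 78) (nat_lit 152) (nat_lit 0) (XT.lf (nat_lit 0) (nat_lit 14461368519) (nat_lit 304) (nat_lit 9586377314) (nat_lit 76) (nat_lit 5575645290) (nat_lit 43) (nat_lit 5) (nat_lit 47) (nat_lit 5) (nat_lit 44) (nat_lit 5) (nat_lit 358) (nat_lit 270) (nat_lit 152)) (XT.lf (nat_lit 0) (nat_lit 6990036677) (nat_lit 152) (nat_lit 14871222337) (nat_lit 228) (nat_lit 8449339951) (nat_lit 41) (nat_lit 5) (nat_lit 43) (nat_lit 5) (nat_lit 44) (nat_lit 5) (nat_lit 359) (nat_lit 270) (nat_lit 151))))) (XT.nd (nat_lit 33852) (nat_lit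 0) (nat_lit 35872) (XT.nd (nat_lit 33696) (nat_lit 0) (nat_lit 37848) (XT.lf (nat_lit 0) (nat_lit 24166938655) (nat_lit 152) (nat_lit 5364589015) (nat_lit 228) (nat_lit 1485933699) (nat_lit 41) (nat_lit 5) (nat_lit 43) (nat_lit 5) (nat_lit 44) (nat_lit 5) (nat_lit 360) (nat_lit 270) (nat_lit 150)) (XT.nd (nat_lit 78) (nat_lit 0) (nat_lit 0) (XT.lf (nat_lit 0) (nat_lit 2078756836) (nat_lit 988) (nat_lit 703122354) (nat_lit 988) (nat_lit 703122354) (nat_lit 539) (nat_lit 3) (nat_lit 552) (nat_lit 3) (nat_lit 552) (nat_lit 5) (nat_lit 271) (nat_lit 271) (nat_lit 238)) (XT.lf (nat_lit 76) (nat_lit 3402597298) (nat_lit 0) (nat_lit 3425446880) (nat_lit 988) (nat_lit 191163636) (nat_lit 540) (nat_lit 5) (nat_lit 539) (nat_lit 3) (nat_lit 552) (nat_lit 5) (nat_lit 272) (nat_lit 271) (nat_lit 237)))) (XT.nd (nat_lit 156) (nat_lit 988) (nat_lit 0) (XT.nd (nat_lit 78) (nat_lit 0) (nat_lit 76) (XT.lf (nat_lit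 76) (nat_lit 1251620727) (nat_lit 0) (nat_lit 1139936870) (nat_lit 1064) (nat_lit 4679813872) (nat_lit 527) (nat_lit 5) (nat_lit 526) (nat_lit 5) (nat_lit 540) (nat_lit 5) (nat_lit 273) (nat_lit 271) (nat_lit 236)) (XT.lf (nat_lit 0) (nat_lit 4982603349) (nat_lit 988) (nat_lit 873766085) (nat_lit 1064) (nat_lit 1270154730) (nat_lit 527) (nat_lit 5) (nat_lit 540) (nat_lit 5) (nat_lit 541) (nat_lit 5) (nat_lit 274) (nat_lit 271) (nat_lit 235))) (XT.nd (nat_lit 78) (nat_lit 0) (nat_lit 0) (XT.lf (nat_lit 0) (nat_lit 400138828) (nat_lit 1064) (nat_lit 2972680694) (nat_lit 1140) (nat_lit 3811799083) (nat_lit 513) (nat_lit 5) (nat_lit 527) (nat_lit 5) (nat_lit 528) (nat_lit 5) (nat_lit 275) (nat_lit 271) (nat_lit 234)) (XT.lf (nat_lit 76) (nat_lit 2177900289) (nat_lit 0) (nat_lit 739248448) (nat_lit 1140) (nat_lit 4328617829) (nat_lit 514) (nat_lit 5) (nat_lit 513) (nat_lit 5) (nat_lit 528) (nat_lit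 5) (nat_lit 276) (nat_lit 271) (nat_lit 233)))))) (XT.nd (nat_lit 546) (nat_lit 5244) (nat_lit 0) (XT.nd (nat_lit 234) (nat_lit 1140) (nat_lit 0) (XT.nd (nat_lit 78) (nat_lit 1140) (nat_lit 0) (XT.lf (nat_lit 76) (nat_lit 148905621) (nat_lit 0) (nat_lit 5302968263) (nat_lit 1140) (nat_lit 1858137034) (nat_lit 515) (nat_lit 5) (nat_lit 514) (nat_lit 5) (nat_lit 529) (nat_lit 5) (nat_lit 277) (nat_lit 271) (nat_lit 232)) (XT.nd (nat_lit 78) (nat_lit 0) (nat_lit 76) (XT.lf (nat_lit 0) (nat_lit 626743096) (nat_lit 1140) (nat_lit 1849418713) (nat_lit 1216) (nat_lit 4901046836) (nat_lit 499) (nat_lit 5) (nat_lit 514) (nat_lit 5) (nat_lit 515) (nat_lit 5) (nat_lit 278) (nat_lit 271) (nat_lit 231)) (XT.lf (nat_lit 0) (nat_lit 3100141099) (nat_lit 1140) (nat_lit 3848619824) (nat_lit 1216) (nat_lit 498729413) (nat_lit 500) (nat_lit 5) (nat_lit 515) (nat_lit 5) (nat_lit 516) (nat_lit 5) (nat_lit 279) (nat_lit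 271) (nat_lit 230)))) (XT.nd (nat_lit 156) (nat_lit 0) (nat_lit 76) (XT.nd (nat_lit 78) (nat_lit 1216) (nat_lit 0) (XT.lf (nat_lit 76) (nat_lit 1666153216) (nat_lit 0) (nat_lit 3936396449) (nat_lit 1216) (nat_lit 1918329790) (nat_lit 501) (nat_lit 5) (nat_lit 500) (nat_lit 5) (nat_lit 516) (nat_lit 5) (nat_lit 280) (nat_lit 271) (nat_lit 229)) (XT.lf (nat_lit 0) (nat_lit 518461668) (nat_lit 1216) (nat_lit 256515346) (nat_lit 1292) (nat_lit 6822656923) (nat_lit 484) (nat_lit 5) (nat_lit 500) (nat_lit 5) (nat_lit 501) (nat_lit 5) (nat_lit 281) (nat_lit 271) (nat_lit 228))) (XT.nd (nat_lit 78) (nat_lit 0) (nat_lit 0) (XT.lf (nat_lit 0) (nat_lit 2973600153) (nat_lit 1216) (nat_lit 2178929688) (nat_lit 1292) (nat_lit 2524569421) (nat_lit 485) (nat_lit 5) (nat_lit 501) (nat_lit 5) (nat_lit 502) (nat_lit 5) (nat_lit 282) (nat_lit 271) (nat_lit 227)) (XT.lf (nat_lit 76) (nat_lit 3657875173) (nat_lit 0)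 (nat_lit 1796130838) (nat_lit 1292) (nat_lit 2305995636) (nat_lit 486) (nat_lit 5) (nat_lit 485) (nat_lit 5) (nat_lit 502) (nat_lit 5) (nat_lit 283) (nat_lit 271) (nat_lit 226))))) (XT.nd (nat_lit 234) (nat_lit 4104) (nat_lit 0) (XT.nd (nat_lit 78) (nat_lit 0) (nat_lit 0) (XT.lf (nat_lit 0) (nat_lit 121386803) (nat_lit 1292) (nat_lit 6035552639) (nat_lit 1368) (nat_lit 1689309751) (nat_lit 469) (nat_lit 5) (nat_lit 486) (nat_lit 5) (nat_lit 487) (nat_lit 5) (nat_lit 284) (nat_lit 271) (nat_lit 225)) (XT.nd (nat_lit 78) (nat_lit 0) (nat_lit 76) (XT.lf (nat_lit 0) (nat_lit 2554773586) (nat_lit 1292) (nat_lit 61147242) (nat_lit 1368) (nat_lit 5319647125) (nat_lit 469) (nat_lit 5) (nat_lit 486) (nat_lit 5) (nat_lit 487) (nat_lit 5) (nat_lit 285) (nat_lit 271) (nat_lit 224)) (XT.lf (nat_lit 0) (nat_lit 5034513271) (nat_lit 1292) (nat_lit 1917091466) (nat_lit 76) (nat_lit 1076571106) (nat_lit 470) (nat_lit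 5) (nat_lit 487) (nat_lit 5) (nat_lit 471) (nat_lit 5) (nat_lit 286) (nat_lit 271) (nat_lit 223)))) (XT.nd (nat_lit 156) (nat_lit 1444) (nat_lit 0) (XT.nd (nat_lit 78) (nat_lit 1444) (nat_lit 0) (XT.lf (nat_lit 0) (nat_lit 4329890355) (nat_lit 1292) (nat_lit 3233232220) (nat_lit 1368) (nat_lit 561024205) (nat_lit 453) (nat_lit 5) (nat_lit 470) (nat_lit 5) (nat_lit 471) (nat_lit 5) (nat_lit 287) (nat_lit 271) (nat_lit 222)) (XT.lf (nat_lit 0) (nat_lit 1882515493) (nat_lit 1444) (nat_lit 5694864577) (nat_lit 76) (nat_lit 646166525) (nat_lit 434) (nat_lit 5) (nat_lit 453) (nat_lit 5) (nat_lit 435) (nat_lit 5) (nat_lit 288) (nat_lit 271) (nat_lit 221))) (XT.nd (nat_lit 78) (nat_lit 0) (nat_lit 0) (XT.lf (nat_lit 0) (nat_lit 695493292) (nat_lit 1444) (nat_lit 3679748887) (nat_lit 1520) (nat_lit 3951010718) (nat_lit 415) (nat_lit 5) (nat_lit 434) (nat_lit 5) (nat_lit 435) (nat_lit 5) (nat_lit 289) (nat_lit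 271) (nat_lit 220)) (XT.lf (nat_lit 0) (nat_lit 6916927778) (nat_lit 1520) (nat_lit 1134674057) (nat_lit 76) (nat_lit 381021727) (nat_lit 415) (nat_lit 5) (nat_lit 435) (nat_lit 5) (nat_lit 416) (nat_lit 5) (nat_lit 290) (nat_lit 271) (nat_lit 219))))))))
noncomputable def xc71 : XT := (XT.nd (nat_lit 2106) (nat_lit 7372) (nat_lit 0) (XT.nd (nat_lit 1014) (nat_lit 6840) (nat_lit 0) (XT.nd (nat_lit 468) (nat_lit 4788) (nat_lit 0) (XT.nd (nat_lit 234) (nat_lit 2052) (nat_lit 0) (XT.nd (nat_lit 78) (nat_lit 3268) (nat_lit 0) (XT.lf (nat_lit 0) (nat_lit 975311689) (nat_lit 1596) (nat_lit 2999126327) (nat_lit 76) (nat_lit 4567768886) (nat_lit 394) (nat_lit 5) (nat_lit 415) (nat_lit 5) (nat_lit 395) (nat_lit 5) (nat_lit 291) (nat_lit 271) (nat_lit 218)) (XT.nd (nat_lit 78) (nat_lit 1672) (nat_lit 0) (XT.lf (nat_lit 0) (nat_lit 3490728662) (nat_lit 1672) (nat_lit 4891252614) (nat_lit 76) (nat_lit 273552310)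 (nat_lit 373) (nat_lit 5) (nat_lit 395) (nat_lit 5) (nat_lit 374) (nat_lit 5) (nat_lit 292) (nat_lit 271) (nat_lit 217)) (XT.lf (nat_lit 0) (nat_lit 1943226117) (nat_lit 1672) (nat_lit 4135760935) (nat_lit 1748) (nat_lit 2693385299) (nat_lit 351) (nat_lit 5) (nat_lit 373) (nat_lit 5) (nat_lit 374) (nat_lit 5) (nat_lit 293) (nat_lit 271) (nat_lit 216)))) (XT.nd (nat_lit 78) (nat_lit 912) (nat_lit 0) (XT.lf (nat_lit 0) (nat_lit 101451204) (nat_lit 1140) (nat_lit 8618236618) (nat_lit 1216) (nat_lit 173590678) (nat_lit 336) (nat_lit 5) (nat_lit 351) (nat_lit 5) (nat_lit 352) (nat_lit 5) (nat_lit 294) (nat_lit 271) (nat_lit 215)) (XT.nd (nat_lit 78) (nat_lit 836) (nat_lit 0) (XT.lf (nat_lit 0) (nat_lit 2404468737) (nat_lit 1216) (nat_lit 1782828595) (nat_lit 76) (nat_lit 4829966672) (nat_lit 335) (nat_lit 5) (nat_lit 351) (nat_lit 5) (nat_lit 336) (nat_lit 5) (nat_lit 295) (nat_lit 271) (nat_lit 214))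 (XT.lf (nat_lit 0) (nat_lit 5037575235) (nat_lit 912) (nat_lit 3695450195) (nat_lit 76) (nat_lit 412373125) (nat_lit 324) (nat_lit 5) (nat_lit 336) (nat_lit 5) (nat_lit 325) (nat_lit 5) (nat_lit 296) (nat_lit 271) (nat_lit 213))))) (XT.nd (nat_lit 234) (nat_lit 3116) (nat_lit 0) (XT.nd (nat_lit 78) (nat_lit 836) (nat_lit 0) (XT.lf (nat_lit 0) (nat_lit 3611855576) (nat_lit 836) (nat_lit 4144736558) (nat_lit 912) (nat_lit 1520698804) (nat_lit 313) (nat_lit 5) (nat_lit 324) (nat_lit 5) (nat_lit 325) (nat_lit 5) (nat_lit 297) (nat_lit 271) (nat_lit 212)) (XT.nd (nat_lit 78) (nat_lit 0) (nat_lit 0) (XT.lf (nat_lit 0) (nat_lit 1113785982) (nat_lit 836) (nat_lit 7680304129) (nat_lit 76) (nat_lit 619256035) (nat_lit 302) (nat_lit 5) (nat_lit 313) (nat_lit 5) (nat_lit 303) (nat_lit 5) (nat_lit 298) (nat_lit 271) (nat_lit 211)) (XT.lf (nat_lit 0) (nat_lit 3818601498) (nat_lit 836) (nat_lit 214415868) (nat_lit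 76) (nat_lit 5520073662) (nat_lit 302) (nat_lit 5) (nat_lit 313) (nat_lit 5) (nat_lit 303) (nat_lit 5) (nat_lit 299) (nat_lit 271) (nat_lit 210)))) (XT.nd (nat_lit 156) (nat_lit 1520) (nat_lit 0) (XT.nd (nat_lit 78) (nat_lit 760) (nat_lit 0) (XT.lf (nat_lit 0) (nat_lit 6606434947) (nat_lit 912) (nat_lit 2182037406) (nat_lit 76) (nat_lit 908565213) (nat_lit 291) (nat_lit 5) (nat_lit 303) (nat_lit 5) (nat_lit 292) (nat_lit 5) (nat_lit 300) (nat_lit 271) (nat_lit 209)) (XT.lf (nat_lit 0) (nat_lit 5627576466) (nat_lit 760) (nat_lit 3863562895) (nat_lit 836) (nat_lit 353943836) (nat_lit 281) (nat_lit 5) (nat_lit 291) (nat_lit 5) (nat_lit 292) (nat_lit 5) (nat_lit 301) (nat_lit 271) (nat_lit 208))) (XT.nd (nat_lit 78) (nat_lit 684) (nat_lit 0) (XT.lf (nat_lit 0) (nat_lit 2428538983) (nat_lit 836) (nat_lit 6322525761) (nat_lit 76) (nat_lit 1246307605) (nat_lit 270) (nat_lit 5) (nat_lit 281) (nat_lit 5)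 (nat_lit 271) (nat_lit 5) (nat_lit 302) (nat_lit 271) (nat_lit 207)) (XT.lf (nat_lit 0) (nat_lit 1648033823) (nat_lit 684) (nat_lit 3657169818) (nat_lit 760) (nat_lit 4848711393) (nat_lit 261) (nat_lit 5) (nat_lit 270) (nat_lit 5) (nat_lit 271) (nat_lit 5) (nat_lit 303) (nat_lit 271) (nat_lit 206)))))) (XT.nd (nat_lit 546) (nat_lit 3420) (nat_lit 0) (XT.nd (nat_lit 234) (nat_lit 1976) (nat_lit 0) (XT.nd (nat_lit 78) (nat_lit 1444) (nat_lit 0) (XT.lf (nat_lit 0) (nat_lit 8272885747) (nat_lit 760) (nat_lit 434003491) (nat_lit 76) (nat_lit 1608211157) (nat_lit 261) (nat_lit 5) (nat_lit 271) (nat_lit 5) (nat_lit 262) (nat_lit 5) (nat_lit 304) (nat_lit 271) (nat_lit 205)) (XT.nd (nat_lit 78) (nat_lit 684) (nat_lit 0) (XT.lf (nat_lit 0) (nat_lit 865985704) (nat_lit 760) (nat_lit 2578809087) (nat_lit 76) (nat_lit 7035682402) (nat_lit 251) (nat_lit 5) (nat_lit 261) (nat_lit 5) (nat_lit 252) (nat_lit 5)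 (nat_lit 305) (nat_lit 271) (nat_lit 204)) (XT.lf (nat_lit 0) (nat_lit 3841358918) (nat_lit 760) (nat_lit 4809769963) (nat_lit 76) (nat_lit 1999300639) (nat_lit 242) (nat_lit 5) (nat_lit 252) (nat_lit 5) (nat_lit 243) (nat_lit 5) (nat_lit 306) (nat_lit 271) (nat_lit 203)))) (XT.nd (nat_lit 156) (nat_lit 684) (nat_lit 0) (XT.nd (nat_lit 78) (nat_lit 608) (nat_lit 0) (XT.lf (nat_lit 0) (nat_lit 3696512627) (nat_lit 684) (nat_lit 3228494494) (nat_lit 760) (nat_lit 3900129580) (nat_lit 233) (nat_lit 5) (nat_lit 242) (nat_lit 5) (nat_lit 243) (nat_lit 5) (nat_lit 307) (nat_lit 271) (nat_lit 202)) (XT.lf (nat_lit 0) (nat_lit 1471423173) (nat_lit 608) (nat_lit 8642749444) (nat_lit 684) (nat_lit 890687816) (nat_lit 225) (nat_lit 5) (nat_lit 233) (nat_lit 5) (nat_lit 234) (nat_lit 5) (nat_lit 308) (nat_lit 271) (nat_lit 201))) (XT.nd (nat_lit 78) (nat_lit 608) (nat_lit 0) (XT.lf (nat_lit 0) (nat_lit 2206272198)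 (nat_lit 684) (nat_lit 849736429) (nat_lit 76) (nat_lit 8133190046) (nat_lit 224) (nat_lit 5) (nat_lit 233) (nat_lit 5) (nat_lit 225) (nat_lit 5) (nat_lit 309) (nat_lit 271) (nat_lit 200)) (XT.lf (nat_lit 0) (nat_lit 5412128218) (nat_lit 684) (nat_lit 3251315626) (nat_lit 76) (nat_lit 2714976505) (nat_lit 216) (nat_lit 5) (nat_lit 225) (nat_lit 5) (nat_lit 217) (nat_lit 5) (nat_lit 310) (nat_lit 271) (nat_lit 199))))) (XT.nd (nat_lit 234) (nat_lit 1672) (nat_lit 0) (XT.nd (nat_lit 78) (nat_lit 1216) (nat_lit 0) (XT.lf (nat_lit 0) (nat_lit 5817470100) (nat_lit 532) (nat_lit 2918843315) (nat_lit 608) (nat_lit 2836594036) (nat_lit 209) (nat_lit 5) (nat_lit 216) (nat_lit 5) (nat_lit 217) (nat_lit 5) (nat_lit 311) (nat_lit 271) (nat_lit 198)) (XT.nd (nat_lit 78) (nat_lit 532) (nat_lit 0) (XT.lf (nat_lit 0) (nat_lit 404786261) (nat_lit 684) (nat_lit 8370401836) (nat_lit 76) (nat_lit 2997563793) (nat_lit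 200) (nat_lit 5) (nat_lit 209) (nat_lit 5) (nat_lit 201) (nat_lit 5) (nat_lit 312) (nat_lit 271) (nat_lit 197)) (XT.lf (nat_lit 0) (nat_lit 858583044) (nat_lit 532) (nat_lit 2870434127) (nat_lit 608) (nat_lit 8248745973) (nat_lit 193) (nat_lit 5) (nat_lit 200) (nat_lit 5) (nat_lit 201) (nat_lit 5) (nat_lit 313) (nat_lit 271) (nat_lit 196)))) (XT.nd (nat_lit 156) (nat_lit 1140) (nat_lit 0) (XT.nd (nat_lit 78) (nat_lit 532) (nat_lit 0) (XT.lf (nat_lit 0) (nat_lit 7191295277) (nat_lit 608) (nat_lit 1779726205) (nat_lit 76) (nat_lit 3217165420) (nat_lit 193) (nat_lit 5) (nat_lit 201) (nat_lit 5) (nat_lit 194) (nat_lit 5) (nat_lit 314) (nat_lit 271) (nat_lit 195)) (XT.lf (nat_lit 0) (nat_lit 7875733160) (nat_lit 532) (nat_lit 2913566296) (nat_lit 608) (nat_lit 1615014503) (nat_lit 186) (nat_lit 5) (nat_lit 193) (nat_lit 5) (nat_lit 194) (nat_lit 5) (nat_lit 315) (nat_lit 271) (nat_lit 194))) (XT.nd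 (nat_lit 78) (nat_lit 532) (nat_lit 0) (XT.lf (nat_lit 0) (nat_lit 1873867344) (nat_lit 608) (nat_lit 7421604473) (nat_lit 76) (nat_lit 3330635771) (nat_lit 178) (nat_lit 5) (nat_lit 186) (nat_lit 5) (nat_lit 179) (nat_lit 5) (nat_lit 316) (nat_lit 271) (nat_lit 193)) (XT.lf (nat_lit 0) (nat_lit 2390545764) (nat_lit 532) (nat_lit 3083745110) (nat_lit 608) (nat_lit 7379499944) (nat_lit 171) (nat_lit 5) (nat_lit 178) (nat_lit 5) (nat_lit 179) (nat_lit 5) (nat_lit 317) (nat_lit 271) (nat_lit 192))))))) (XT.nd (nat_lit 1014) (nat_lit 3268) (nat_lit 0) (XT.nd (nat_lit 468) (nat_lit 2128) (nat_lit 0) (XT.nd (nat_lit 234) (nat_lit 988) (nat_lit 0) (XT.nd (nat_lit 78) (nat_lit 988) (nat_lit 0) (XT.lf (nat_lit 0) (nat_lit 9218374009) (nat_lit 608) (nat_lit 558352866) (nat_lit 76) (nat_lit 3310889617) (nat_lit 171) (nat_lit 5) (nat_lit 179) (nat_lit 5) (nat_lit 172) (nat_lit 5) (nat_lit 318) (nat_lit 271)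 (nat_lit 191)) (XT.nd (nat_lit 78) (nat_lit 532) (nat_lit 0) (XT.lf (nat_lit 0) (nat_lit 9703874649) (nat_lit 456) (nat_lit 3419098204) (nat_lit 532) (nat_lit 204544383) (nat_lit 165) (nat_lit 5) (nat_lit 171) (nat_lit 5) (nat_lit 172) (nat_lit 5) (nat_lit 319) (nat_lit 271) (nat_lit 190)) (XT.lf (nat_lit 0) (nat_lit 3556511174) (nat_lit 532) (nat_lit 6868747713) (nat_lit 76) (nat_lit 3148250747) (nat_lit 158) (nat_lit 5) (nat_lit 165) (nat_lit 5) (nat_lit 159) (nat_lit 5) (nat_lit 320) (nat_lit 271) (nat_lit 189)))) (XT.nd (nat_lit 78) (nat_lit 532) (nat_lit 0) (XT.lf (nat_lit 0) (nat_lit 3542214532) (nat_lit 456) (nat_lit 3921701096) (nat_lit 532) (nat_lit 6362235540) (nat_lit 152) (nat_lit 5) (nat_lit 158) (nat_lit 5) (nat_lit 159) (nat_lit 5) (nat_lit 321) (nat_lit 271) (nat_lit 188)) (XT.nd (nat_lit 78) (nat_lit 76) (nat_lit 0) (XT.lf (nat_lit 0) (nat_lit 212589630) (nat_lit 456) (nat_lit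 11308543725) (nat_lit 532) (nat_lit 2564608451) (nat_lit 146) (nat_lit 5) (nat_lit 152) (nat_lit 5) (nat_lit 153) (nat_lit 5) (nat_lit 322) (nat_lit 271) (nat_lit 187)) (XT.lf (nat_lit 0) (nat_lit 1392432838) (nat_lit 532) (nat_lit 3268041755) (nat_lit 76) (nat_lit 9691228282) (nat_lit 145) (nat_lit 5) (nat_lit 152) (nat_lit 5) (nat_lit 146) (nat_lit 5) (nat_lit 323) (nat_lit 271) (nat_lit 186))))) (XT.nd (nat_lit 234) (nat_lit 912) (nat_lit 0) (XT.nd (nat_lit 78) (nat_lit 836) (nat_lit 0) (XT.lf (nat_lit 0) (nat_lit 5465809212) (nat_lit 456) (nat_lit 6944875636) (nat_lit 76) (nat_lit 2213989583) (nat_lit 140) (nat_lit 5) (nat_lit 146) (nat_lit 5) (nat_lit 141) (nat_lit 5) (nat_lit 324) (nat_lit 271) (nat_lit 185)) (XT.nd (nat_lit 78) (nat_lit 380) (nat_lit 0) (XT.lf (nat_lit 0) (nat_lit 4073338573) (nat_lit 456) (nat_lit 5636275737) (nat_lit 532) (nat_lit 5195275725) (nat_lit 134) (nat_lit 5)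 (nat_lit 140) (nat_lit 5) (nat_lit 141) (nat_lit 5) (nat_lit 325) (nat_lit 271) (nat_lit 184)) (XT.lf (nat_lit 0) (nat_lit 275150288) (nat_lit 380) (nat_lit 13832332826) (nat_lit 456) (nat_lit 1085512887) (nat_lit 129) (nat_lit 5) (nat_lit 134) (nat_lit 5) (nat_lit 135) (nat_lit 5) (nat_lit 326) (nat_lit 271) (nat_lit 183)))) (XT.nd (nat_lit 156) (nat_lit 456) (nat_lit 0) (XT.nd (nat_lit 78) (nat_lit 380) (nat_lit 0) (XT.lf (nat_lit 0) (nat_lit 3187125437) (nat_lit 456) (nat_lit 3727314749) (nat_lit 76) (nat_lit 8573296951) (nat_lit 128) (nat_lit 5) (nat_lit 134) (nat_lit 5) (nat_lit 129) (nat_lit 5) (nat_lit 327) (nat_lit 271) (nat_lit 182)) (XT.lf (nat_lit 0) (nat_lit 7596115586) (nat_lit 456) (nat_lit 7940253629) (nat_lit 76) (nat_lit 254366828) (nat_lit 123) (nat_lit 5) (nat_lit 129) (nat_lit 5) (nat_lit 124) (nat_lit 5) (nat_lit 328) (nat_lit 271) (nat_lit 181))) (XT.nd (nat_lit 78) (nat_lit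 76) (nat_lit 0) (XT.lf (nat_lit 0) (nat_lit 3683924696) (nat_lit 380) (nat_lit 8519731000) (nat_lit 456) (nat_lit 3897860557) (nat_lit 118) (nat_lit 5) (nat_lit 123) (nat_lit 5) (nat_lit 124) (nat_lit 5) (nat_lit 329) (nat_lit 271) (nat_lit 180)) (XT.lf (nat_lit 0) (nat_lit 546115920) (nat_lit 456) (nat_lit 700822669) (nat_lit 76) (nat_lit 15174124149) (nat_lit 117) (nat_lit 5) (nat_lit 123) (nat_lit 5) (nat_lit 118) (nat_lit 5) (nat_lit 330) (nat_lit 271) (nat_lit 179)))))) (XT.nd (nat_lit 546) (nat_lit 1520) (nat_lit 0) (XT.nd (nat_lit 234) (nat_lit 684) (nat_lit 0) (XT.nd (nat_lit 78) (nat_lit 684) (nat_lit 0) (XT.lf (nat_lit 0) (nat_lit 5158142377) (nat_lit 456) (nat_lit 5339114027) (nat_lit 76) (nat_lit 6250685828) (nat_lit 112) (nat_lit 5) (nat_lit 118) (nat_lit 5) (nat_lit 113) (nat_lit 5) (nat_lit 331) (nat_lit 271) (nat_lit 178)) (XT.nd (nat_lit 78) (nat_lit 380) (nat_lit 0) (XT.lf (nat_lit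 0) (nat_lit 6847656311) (nat_lit 304) (nat_lit 3090844262) (nat_lit 380) (nat_lit 7145543320) (nat_lit 108) (nat_lit 5) (nat_lit 112) (nat_lit 5) (nat_lit 113) (nat_lit 5) (nat_lit 332) (nat_lit 271) (nat_lit 177)) (XT.lf (nat_lit 0) (nat_lit 1999708580) (nat_lit 380) (nat_lit 12914278827) (nat_lit 456) (nat_lit 2515221596) (nat_lit 103) (nat_lit 5) (nat_lit 108) (nat_lit 5) (nat_lit 109) (nat_lit 5) (nat_lit 333) (nat_lit 271) (nat_lit 176)))) (XT.nd (nat_lit 156) (nat_lit 304) (nat_lit 0) (XT.nd (nat_lit 78) (nat_lit 304) (nat_lit 0) (XT.lf (nat_lit 0) (nat_lit 2288137523) (nat_lit 456) (nat_lit 3116238627) (nat_lit 76) (nat_lit 12378800483) (nat_lit 102) (nat_lit 5) (nat_lit 108) (nat_lit 5) (nat_lit 103) (nat_lit 5) (nat_lit 334) (nat_lit 271) (nat_lit 175)) (XT.lf (nat_lit 0) (nat_lit 7253741117) (nat_lit 380) (nat_lit 8525261628) (nat_lit 76) (nat_lit 2367395359) (nat_lit 98) (nat_lit 5)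 (nat_lit 103) (nat_lit 5) (nat_lit 99) (nat_lit 5) (nat_lit 335) (nat_lit 271) (nat_lit 174))) (XT.nd (nat_lit 78) (nat_lit 0) (nat_lit 0) (XT.lf (nat_lit 0) (nat_lit 4243794302) (nat_lit 304) (nat_lit 8183871787) (nat_lit 380) (nat_lit 6091676305) (nat_lit 94) (nat_lit 5) (nat_lit 98) (nat_lit 5) (nat_lit 99) (nat_lit 5) (nat_lit 336) (nat_lit 271) (nat_lit 173)) (XT.lf (nat_lit 0) (nat_lit 17474469117) (nat_lit 304) (nat_lit 315009277) (nat_lit 380) (nat_lit 1113356083) (nat_lit 94) (nat_lit 5) (nat_lit 98) (nat_lit 5) (nat_lit 99) (nat_lit 5) (nat_lit 337) (nat_lit 271) (nat_lit 172))))) (XT.nd (nat_lit 234) (nat_lit 836) (nat_lit 0) (XT.nd (nat_lit 78) (nat_lit 304) (nat_lit 0) (XT.lf (nat_lit 0) (nat_lit 4065542607) (nat_lit 380) (nat_lit 7450623427) (nat_lit 76) (nat_lit 7779078705) (nat_lit 89) (nat_lit 5) (nat_lit 94) (nat_lit 5) (nat_lit 90) (nat_lit 5) (nat_lit 338) (nat_lit 271) (nat_lit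 171)) (XT.nd (nat_lit 78) (nat_lit 0) (nat_lit 0) (XT.lf (nat_lit 0) (nat_lit 5866256755) (nat_lit 304) (nat_lit 3544299709) (nat_lit 380) (nat_lit 10288218053) (nat_lit 85) (nat_lit 5) (nat_lit 89) (nat_lit 5) (nat_lit 90) (nat_lit 5) (nat_lit 339) (nat_lit 271) (nat_lit 170)) (XT.lf (nat_lit 0) (nat_lit 14973275255) (nat_lit 380) (nat_lit 496383482) (nat_lit 76) (nat_lit 4643615895) (nat_lit 85) (nat_lit 5) (nat_lit 90) (nat_lit 5) (nat_lit 86) (nat_lit 5) (nat_lit 340) (nat_lit 271) (nat_lit 169)))) (XT.nd (nat_lit 156) (nat_lit 228) (nat_lit 0) (XT.nd (nat_lit 78) (nat_lit 304) (nat_lit 0) (XT.lf (nat_lit 0) (nat_lit 248439345) (nat_lit 304) (nat_lit 7184718624) (nat_lit 76) (nat_lit 13105283499) (nat_lit 81) (nat_lit 5) (nat_lit 85) (nat_lit 5) (nat_lit 82) (nat_lit 5) (nat_lit 341) (nat_lit 271) (nat_lit 168)) (XT.lf (nat_lit 0) (nat_lit 5758914319) (nat_lit 380) (nat_lit 14313899580) (nat_lit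 76) (nat_lit 902276250) (nat_lit 77) (nat_lit 5) (nat_lit 82) (nat_lit 5) (nat_lit 78) (nat_lit 5) (nat_lit 342) (nat_lit 271) (nat_lit 167))) (XT.nd (nat_lit 78) (nat_lit 228) (nat_lit 0) (XT.lf (nat_lit 0) (nat_lit 11510981871) (nat_lit 380) (nat_lit 488502138) (nat_lit 76) (nat_lit 9423839063) (nat_lit 77) (nat_lit 5) (nat_lit 82) (nat_lit 5) (nat_lit 78) (nat_lit 5) (nat_lit 343) (nat_lit 271) (nat_lit 166)) (XT.lf (nat_lit 0) (nat_lit 13899555383) (nat_lit 228) (nat_lit 3604515920) (nat_lit 304) (nat_lit 4379572529) (nat_lit 74) (nat_lit 5) (nat_lit 77) (nat_lit 5) (nat_lit 78) (nat_lit 5) (nat_lit 344) (nat_lit 271) (nat_lit 165))))))))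
noncomputable def xc72 : XT := (XT.nd (nat_lit 35724) (nat_lit 0) (nat_lit 14592) (XT.nd (nat_lit 1014) (nat_lit 380) (nat_lit 0) (XT.nd (nat_lit 468) (nat_lit 988) (nat_lit 0) (XT.nd (nat_lit 234) (nat_lit 532) (nat_lit 0) (XT.nd (nat_lit 78) (nat_lit 228) (nat_lit 0) (XT.lf (nat_lit 0) (nat_lit 1358314152) (nat_lit 380) (nat_lit 15980579827) (nat_lit 76) (nat_lit 5017589774) (nat_lit 69) (nat_lit 5) (nat_lit 74) (nat_lit 5) (nat_lit 70) (nat_lit 5) (nat_lit 345) (nat_lit 271) (nat_lit 164)) (XT.nd (nat_lit 78) (nat_lit 228) (nat_lit 0) (XT.lf (nat_lit 0) (nat_lit 7266547633) (nat_lit 380) (nat_lit 1654126049) (nat_lit 76) (nat_lit 13921111267) (nat_lit 69) (nat_lit 5) (nat_lit 74) (nat_lit 5) (nat_lit 70) (nat_lit 5) (nat_lit 346) (nat_lit 271) (nat_lit 163)) (XT.lf (nat_lit 0) (nat_lit 13242860802) (nat_lit 228) (nat_lit 174572296) (nat_lit 304) (nat_lit 9922912996) (nat_lit 66) (nat_lit 5)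 (nat_lit 69) (nat_lit 5) (nat_lit 70) (nat_lit 5) (nat_lit 347) (nat_lit 271) (nat_lit 162)))) (XT.nd (nat_lit 78) (nat_lit 304) (nat_lit 0) (XT.lf (nat_lit 0) (nat_lit 4727590922) (nat_lit 228) (nat_lit 15104320682) (nat_lit 304) (nat_lit 4020379890) (nat_lit 63) (nat_lit 5) (nat_lit 66) (nat_lit 5) (nat_lit 67) (nat_lit 5) (nat_lit 348) (nat_lit 271) (nat_lit 161)) (XT.nd (nat_lit 78) (nat_lit 228) (nat_lit 0) (XT.lf (nat_lit 0) (nat_lit 2082240556) (nat_lit 304) (nat_lit 4290066850) (nat_lit 76) (nat_lit 18006028414) (nat_lit 62) (nat_lit 5) (nat_lit 66) (nat_lit 5) (nat_lit 63) (nat_lit 5) (nat_lit 349) (nat_lit 271) (nat_lit 160)) (XT.lf (nat_lit 0) (nat_lit 8383700268) (nat_lit 304) (nat_lit 13859729127) (nat_lit 76) (nat_lit 2674801035) (nat_lit 59) (nat_lit 5) (nat_lit 63) (nat_lit 5) (nat_lit 60) (nat_lit 5) (nat_lit 350) (nat_lit 271) (nat_lit 159))))) (XT.nd (nat_lit 234) (nat_lit 456)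 (nat_lit 0) (XT.nd (nat_lit 78) (nat_lit 304) (nat_lit 0) (XT.lf (nat_lit 0) (nat_lit 1396680929) (nat_lit 228) (nat_lit 13539313547) (nat_lit 304) (nat_lit 10537099441) (nat_lit 56) (nat_lit 5) (nat_lit 59) (nat_lit 5) (nat_lit 60) (nat_lit 5) (nat_lit 351) (nat_lit 271) (nat_lit 158)) (XT.nd (nat_lit 78) (nat_lit 304) (nat_lit 0) (XT.lf (nat_lit 0) (nat_lit 17269666907) (nat_lit 228) (nat_lit 4490310966) (nat_lit 304) (nat_lit 4283130651) (nat_lit 56) (nat_lit 5) (nat_lit 59) (nat_lit 5) (nat_lit 60) (nat_lit 5) (nat_lit 352) (nat_lit 271) (nat_lit 157)) (XT.lf (nat_lit 0) (nat_lit 2189136756) (nat_lit 304) (nat_lit 19624375303) (nat_lit 76) (nat_lit 4815258721) (nat_lit 52) (nat_lit 5) (nat_lit 56) (nat_lit 5) (nat_lit 53) (nat_lit 5) (nat_lit 353) (nat_lit 271) (nat_lit 156)))) (XT.nd (nat_lit 156) (nat_lit 228) (nat_lit 0) (XT.nd (nat_lit 78) (nat_lit 228) (nat_lit 0) (XT.lf (nat_lit 0) (nat_lit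 8869475560) (nat_lit 304) (nat_lit 3944205961) (nat_lit 76) (nat_lit 14416320311) (nat_lit 52) (nat_lit 5) (nat_lit 56) (nat_lit 5) (nat_lit 53) (nat_lit 5) (nat_lit 354) (nat_lit 271) (nat_lit 155)) (XT.lf (nat_lit 0) (nat_lit 12339084747) (nat_lit 228) (nat_lit 3473669413) (nat_lit 304) (nat_lit 12035271901) (nat_lit 49) (nat_lit 5) (nat_lit 52) (nat_lit 5) (nat_lit 53) (nat_lit 5) (nat_lit 355) (nat_lit 271) (nat_lit 154))) (XT.nd (nat_lit 78) (nat_lit 76) (nat_lit 0) (XT.lf (nat_lit 0) (nat_lit 619934137) (nat_lit 152) (nat_lit 22397902028) (nat_lit 228) (nat_lit 5465691392) (nat_lit 47) (nat_lit 5) (nat_lit 49) (nat_lit 5) (nat_lit 50) (nat_lit 5) (nat_lit 356) (nat_lit 271) (nat_lit 153)) (XT.lf (nat_lit 0) (nat_lit 1395802897) (nat_lit 228) (nat_lit 11752083689) (nat_lit 76) (nat_lit 15987807119) (nat_lit 46) (nat_lit 5) (nat_lit 49) (nat_lit 5) (nat_lit 47) (nat_lit 5) (nat_lit 357) (nat_lit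 271) (nat_lit 152)))))) (XT.nd (nat_lit 34164) (nat_lit 0) (nat_lit 33668) (XT.nd (nat_lit 33930) (nat_lit 0) (nat_lit 35796) (XT.nd (nat_lit 78) (nat_lit 152) (nat_lit 0) (XT.lf (nat_lit 0) (nat_lit 4841873922) (nat_lit 228) (nat_lit 3562239137) (nat_lit 304) (nat_lit 21402290780) (nat_lit 43) (nat_lit 5) (nat_lit 46) (nat_lit 5) (nat_lit 47) (nat_lit 5) (nat_lit 358) (nat_lit 271) (nat_lit 151)) (XT.nd (nat_lit 78) (nat_lit 152) (nat_lit 0) (XT.lf (nat_lit 0) (nat_lit 15727413880) (nat_lit 304) (nat_lit 8470287103) (nat_lit 76) (nat_lit 6297445426) (nat_lit 43) (nat_lit 5) (nat_lit 47) (nat_lit 5) (nat_lit 44) (nat_lit 5) (nat_lit 359) (nat_lit 271) (nat_lit 150)) (XT.lf (nat_lit 0) (nat_lit 8580646243) (nat_lit 152) (nat_lit 14753381661) (nat_lit 228) (nat_lit 7869256854) (nat_lit 41) (nat_lit 5) (nat_lit 43) (nat_lit 5) (nat_lit 44) (nat_lit 5) (nat_lit 360) (nat_lit 271) (nat_lit 149)))) (XT.nd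 (nat_lit 78) (nat_lit 1064) (nat_lit 0) (XT.lf (nat_lit 0) (nat_lit 579740959) (nat_lit 0) (nat_lit 579740959) (nat_lit 988) (nat_lit 2375389818) (nat_lit 526) (nat_lit 5) (nat_lit 526) (nat_lit 3) (nat_lit 539) (nat_lit 3) (nat_lit 272) (nat_lit 272) (nat_lit 236)) (XT.nd (nat_lit 78) (nat_lit 1064) (nat_lit 0) (XT.lf (nat_lit 0) (nat_lit 4834712147) (nat_lit 988) (nat_lit 1077840322) (nat_lit 1064) (nat_lit 1210677380) (nat_lit 526) (nat_lit 5) (nat_lit 539) (nat_lit 3) (nat_lit 540) (nat_lit 5) (nat_lit 273) (nat_lit 272) (nat_lit 235)) (XT.lf (nat_lit 0) (nat_lit 180656979) (nat_lit 1064) (nat_lit 3288656211) (nat_lit 1140) (nat_lit 3710362134) (nat_lit 512) (nat_lit 5) (nat_lit 526) (nat_lit 5) (nat_lit 527) (nat_lit 5) (nat_lit 274) (nat_lit 272) (nat_lit 234))))) (XT.nd (nat_lit 234) (nat_lit 1064) (nat_lit 0) (XT.nd (nat_lit 78) (nat_lit 1064) (nat_lit 0) (XT.lf (nat_lit 76) (nat_lit 1742369923)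 (nat_lit 0) (nat_lit 874834129) (nat_lit 1140) (nat_lit 4621929021) (nat_lit 513) (nat_lit 5) (nat_lit 512) (nat_lit 5) (nat_lit 527) (nat_lit 5) (nat_lit 275) (nat_lit 272) (nat_lit 233)) (XT.nd (nat_lit 78) (nat_lit 1140) (nat_lit 0) (XT.lf (nat_lit 0) (nat_lit 5069192675) (nat_lit 1064) (nat_lit 394950514) (nat_lit 1140) (nat_lit 1837490512) (nat_lit 513) (nat_lit 5) (nat_lit 527) (nat_lit 5) (nat_lit 528) (nat_lit 5) (nat_lit 276) (nat_lit 272) (nat_lit 232)) (XT.lf (nat_lit 0) (nat_lit 173652313) (nat_lit 1140) (nat_lit 2501407035) (nat_lit 1216) (nat_lit 4692062830) (nat_lit 498) (nat_lit 5) (nat_lit 513) (nat_lit 5) (nat_lit 514) (nat_lit 5) (nat_lit 277) (nat_lit 272) (nat_lit 231)))) (XT.nd (nat_lit 156) (nat_lit 1140) (nat_lit 0) (XT.nd (nat_lit 78) (nat_lit 0) (nat_lit 0) (XT.lf (nat_lit 0) (nat_lit 2557077672) (nat_lit 1140) (nat_lit 4611709909) (nat_lit 1216) (nat_lit 266881017) (nat_lit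 499) (nat_lit 5) (nat_lit 514) (nat_lit 5) (nat_lit 515) (nat_lit 5) (nat_lit 278) (nat_lit 272) (nat_lit 230)) (XT.lf (nat_lit 76) (nat_lit 776941227) (nat_lit 0) (nat_lit 4190015494) (nat_lit 1216) (nat_lit 2540310818) (nat_lit 500) (nat_lit 5) (nat_lit 499) (nat_lit 5) (nat_lit 515) (nat_lit 5) (nat_lit 279) (nat_lit 272) (nat_lit 229))) (XT.nd (nat_lit 78) (nat_lit 1140) (nat_lit 0) (XT.lf (nat_lit 76) (nat_lit 6338592153) (nat_lit 0) (nat_lit 1058885842) (nat_lit 1216) (nat_lit 184661914) (nat_lit 500) (nat_lit 5) (nat_lit 499) (nat_lit 5) (nat_lit 515) (nat_lit 5) (nat_lit 280) (nat_lit 272) (nat_lit 228)) (XT.lf (nat_lit 0) (nat_lit 2174252479) (nat_lit 1216) (nat_lit 3275111208) (nat_lit 1292) (nat_lit 2210451690) (nat_lit 484) (nat_lit 5) (nat_lit 500) (nat_lit 5) (nat_lit 501) (nat_lit 5) (nat_lit 281) (nat_lit 272) (nat_lit 227))))))) (XT.nd (nat_lit 1014) (nat_lit 8892) (nat_lit 0)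 (XT.nd (nat_lit 468) (nat_lit 7752) (nat_lit 0) (XT.nd (nat_lit 234) (nat_lit 1216) (nat_lit 0) (XT.nd (nat_lit 78) (nat_lit 1216) (nat_lit 0) (XT.lf (nat_lit 76) (nat_lit 2430213430) (nat_lit 0) (nat_lit 2123675933) (nat_lit 1292) (nat_lit 3186943423) (nat_lit 485) (nat_lit 5) (nat_lit 484) (nat_lit 5) (nat_lit 501) (nat_lit 5) (nat_lit 282) (nat_lit 272) (nat_lit 226)) (XT.nd (nat_lit 78) (nat_lit 1292) (nat_lit 0) (XT.lf (nat_lit 76) (nat_lit 471886028) (nat_lit 0) (nat_lit 6490119797) (nat_lit 1292) (nat_lit 863215963) (nat_lit 486) (nat_lit 5) (nat_lit 485) (nat_lit 5) (nat_lit 502) (nat_lit 5) (nat_lit 283) (nat_lit 272) (nat_lit 225)) (XT.lf (nat_lit 0) (nat_lit 1485134955) (nat_lit 1292) (nat_lit 1488849346) (nat_lit 1368) (nat_lit 4938538728) (nat_lit 468) (nat_lit 5) (nat_lit 485) (nat_lit 5) (nat_lit 486) (nat_lit 5) (nat_lit 284) (nat_lit 272) (nat_lit 224)))) (XT.nd (nat_lit 78) (nat_lit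 1292) (nat_lit 0) (XT.lf (nat_lit 0) (nat_lit 3853167742) (nat_lit 1292) (nat_lit 3454384958) (nat_lit 1368) (nat_lit 695633899) (nat_lit 469) (nat_lit 5) (nat_lit 486) (nat_lit 5) (nat_lit 487) (nat_lit 5) (nat_lit 285) (nat_lit 272) (nat_lit 223)) (XT.nd (nat_lit 78) (nat_lit 1292) (nat_lit 0) (XT.lf (nat_lit 76) (nat_lit 2653601637) (nat_lit 0) (nat_lit 3614596851) (nat_lit 1368) (nat_lit 1828926811) (nat_lit 470) (nat_lit 5) (nat_lit 469) (nat_lit 5) (nat_lit 487) (nat_lit 5) (nat_lit 286) (nat_lit 272) (nat_lit 222)) (XT.lf (nat_lit 0) (nat_lit 514317315) (nat_lit 1368) (nat_lit 7444494389) (nat_lit 76) (nat_lit 235870534) (nat_lit 452) (nat_lit 5) (nat_lit 470) (nat_lit 5) (nat_lit 453) (nat_lit 5) (nat_lit 287) (nat_lit 272) (nat_lit 221))))) (XT.nd (nat_lit 234) (nat_lit 4940) (nat_lit 0) (XT.nd (nat_lit 78) (nat_lit 2812) (nat_lit 0) (XT.lf (nat_lit 0) (nat_lit 2896157059) (nat_lit 1368)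 (nat_lit 1180520430) (nat_lit 76) (nat_lit 4218452405) (nat_lit 452) (nat_lit 5) (nat_lit 470) (nat_lit 5) (nat_lit 453) (nat_lit 5) (nat_lit 288) (nat_lit 272) (nat_lit 220)) (XT.nd (nat_lit 78) (nat_lit 1444) (nat_lit 0) (XT.lf (nat_lit 0) (nat_lit 5288629941) (nat_lit 1368) (nat_lit 28849510) (nat_lit 1444) (nat_lit 3081817696) (nat_lit 434) (nat_lit 5) (nat_lit 452) (nat_lit 5) (nat_lit 453) (nat_lit 5) (nat_lit 289) (nat_lit 272) (nat_lit 219)) (XT.lf (nat_lit 0) (nat_lit 3426888366) (nat_lit 1444) (nat_lit 4377113700) (nat_lit 1520) (nat_lit 702800912) (nat_lit 415) (nat_lit 5) (nat_lit 434) (nat_lit 5) (nat_lit 435) (nat_lit 5) (nat_lit 290) (nat_lit 272) (nat_lit 218)))) (XT.nd (nat_lit 156) (nat_lit 3344) (nat_lit 0) (XT.nd (nat_lit 78) (nat_lit 0) (nat_lit 0) (XT.lf (nat_lit 0) (nat_lit 1541823397) (nat_lit 1520) (nat_lit 150706855) (nat_lit 1596) (nat_lit 6925481180) (nat_lit 394) (nat_lit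 5) (nat_lit 414) (nat_lit 5) (nat_lit 415) (nat_lit 5) (nat_lit 291) (nat_lit 272) (nat_lit 217)) (XT.lf (nat_lit 0) (nat_lit 4150185866) (nat_lit 1596) (nat_lit 385599797) (nat_lit 76) (nat_lit 4196737168) (nat_lit 394) (nat_lit 5) (nat_lit 415) (nat_lit 5) (nat_lit 395) (nat_lit 5) (nat_lit 292) (nat_lit 272) (nat_lit 216))) (XT.nd (nat_lit 78) (nat_lit 1748) (nat_lit 0) (XT.lf (nat_lit 0) (nat_lit 6538739391) (nat_lit 1596) (nat_lit 126120573) (nat_lit 1672) (nat_lit 2186001944) (nat_lit 373) (nat_lit 5) (nat_lit 394) (nat_lit 5) (nat_lit 395) (nat_lit 5) (nat_lit 293) (nat_lit 272) (nat_lit 215)) (XT.lf (nat_lit 0) (nat_lit 281498766) (nat_lit 1748) (nat_lit 4290627107) (nat_lit 76) (nat_lit 4400584412) (nat_lit 350) (nat_lit 5) (nat_lit 373) (nat_lit 5) (nat_lit 351) (nat_lit 5) (nat_lit 294) (nat_lit 272) (nat_lit 214)))))) (XT.nd (nat_lit 546) (nat_lit 3648) (nat_lit 0) (XT.nd (nat_lit 234)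 (nat_lit 3268) (nat_lit 0) (XT.nd (nat_lit 78) (nat_lit 836) (nat_lit 0) (XT.lf (nat_lit 0) (nat_lit 2770577863) (nat_lit 1216) (nat_lit 6309817161) (nat_lit 76) (nat_lit 18038753) (nat_lit 335) (nat_lit 5) (nat_lit 351) (nat_lit 5) (nat_lit 336) (nat_lit 5) (nat_lit 295) (nat_lit 272) (nat_lit 213)) (XT.nd (nat_lit 78) (nat_lit 0) (nat_lit 0) (XT.lf (nat_lit 0) (nat_lit 839359042) (nat_lit 836) (nat_lit 4503888858) (nat_lit 912) (nat_lit 3884554840) (nat_lit 324) (nat_lit 5) (nat_lit 335) (nat_lit 5) (nat_lit 336) (nat_lit 5) (nat_lit 296) (nat_lit 272) (nat_lit 212)) (XT.lf (nat_lit 0) (nat_lit 7982456081) (nat_lit 912) (nat_lit 1125287629) (nat_lit 76) (nat_lit 253572524) (nat_lit 324) (nat_lit 5) (nat_lit 336) (nat_lit 5) (nat_lit 325) (nat_lit 5) (nat_lit 297) (nat_lit 272) (nat_lit 211)))) (XT.nd (nat_lit 156) (nat_lit 1596) (nat_lit 0) (XT.nd (nat_lit 78) (nat_lit 760) (nat_lit 0) (XT.lf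 (nat_lit 0) (nat_lit 1204267377) (nat_lit 912) (nat_lit 3148707118) (nat_lit 76) (nat_lit 5145392206) (nat_lit 312) (nat_lit 5) (nat_lit 324) (nat_lit 5) (nat_lit 313) (nat_lit 5) (nat_lit 298) (nat_lit 272) (nat_lit 210)) (XT.lf (nat_lit 0) (nat_lit 3833891339) (nat_lit 836) (nat_lit 5221149604) (nat_lit 76) (nat_lit 584597515) (nat_lit 302) (nat_lit 5) (nat_lit 313) (nat_lit 5) (nat_lit 303) (nat_lit 5) (nat_lit 299) (nat_lit 272) (nat_lit 209))) (XT.nd (nat_lit 78) (nat_lit 760) (nat_lit 0) (XT.lf (nat_lit 0) (nat_lit 2422145371) (nat_lit 836) (nat_lit 4135178964) (nat_lit 912) (nat_lit 3227571043) (nat_lit 291) (nat_lit 5) (nat_lit 302) (nat_lit 5) (nat_lit 303) (nat_lit 5) (nat_lit 300) (nat_lit 272) (nat_lit 208)) (XT.lf (nat_lit 0) (nat_lit 379433382) (nat_lit 760) (nat_lit 8976929616) (nat_lit 836) (nat_lit 578313048) (nat_lit 281) (nat_lit 5) (nat_lit 291) (nat_lit 5) (nat_lit 292) (nat_lit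 5) (nat_lit 301) (nat_lit 272) (nat_lit 207))))) (XT.nd (nat_lit 234) (nat_lit 2128) (nat_lit 0) (XT.nd (nat_lit 78) (nat_lit 1444) (nat_lit 0) (XT.lf (nat_lit 0) (nat_lit 2150633324) (nat_lit 836) (nat_lit 1726755251) (nat_lit 76) (nat_lit 6210756015) (nat_lit 280) (nat_lit 5) (nat_lit 291) (nat_lit 5) (nat_lit 281) (nat_lit 5) (nat_lit 302) (nat_lit 272) (nat_lit 206)) (XT.nd (nat_lit 78) (nat_lit 684) (nat_lit 0) (XT.lf (nat_lit 0) (nat_lit 4956162060) (nat_lit 836) (nat_lit 3889336869) (nat_lit 76) (nat_lit 1400631136) (nat_lit 270) (nat_lit 5) (nat_lit 281) (nat_lit 5) (nat_lit 271) (nat_lit 5) (nat_lit 303) (nat_lit 272) (nat_lit 205)) (XT.lf (nat_lit 0) (nat_lit 4277786639) (nat_lit 684) (nat_lit 3586595048) (nat_lit 760) (nat_lit 2544142477) (nat_lit 261) (nat_lit 5) (nat_lit 270) (nat_lit 5) (nat_lit 271) (nat_lit 5) (nat_lit 304) (nat_lit 272) (nat_lit 204)))) (XT.nd (nat_lit 156) (nat_lit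 1368) (nat_lit 0) (XT.nd (nat_lit 78) (nat_lit 0) (nat_lit 0) (XT.lf (nat_lit 0) (nat_lit 286667935) (nat_lit 760) (nat_lit 8444057412) (nat_lit 76) (nat_lit 1844938799) (nat_lit 251) (nat_lit 5) (nat_lit 261) (nat_lit 5) (nat_lit 252) (nat_lit 5) (nat_lit 305) (nat_lit 272) (nat_lit 203)) (XT.lf (nat_lit 0) (nat_lit 3188588491) (nat_lit 760) (nat_lit 112637003) (nat_lit 76) (nat_lit 7445878042) (nat_lit 251) (nat_lit 5) (nat_lit 261) (nat_lit 5) (nat_lit 252) (nat_lit 5) (nat_lit 306) (nat_lit 272) (nat_lit 202))) (XT.nd (nat_lit 78) (nat_lit 684) (nat_lit 0) (XT.lf (nat_lit 0) (nat_lit 6204241386) (nat_lit 760) (nat_lit 2406735564) (nat_lit 76) (nat_lit 2312211156) (nat_lit 242) (nat_lit 5) (nat_lit 252) (nat_lit 5) (nat_lit 243) (nat_lit 5) (nat_lit 307) (nat_lit 272) (nat_lit 201)) (XT.lf (nat_lit 0) (nat_lit 6313408142) (nat_lit 684) (nat_lit 3017796216) (nat_lit 760) (nat_lit 1772968508)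 (nat_lit 233) (nat_lit 5) (nat_lit 242) (nat_lit 5) (nat_lit 243) (nat_lit 5) (nat_lit 308) (nat_lit 272) (nat_lit 200))))))))
noncomputable def xc73 : XT := (XT.nd (nat_lit 2028) (nat_lit 4560) (nat_lit 0) (XT.nd (nat_lit 1014) (nat_lit 4180) (nat_lit 0) (XT.nd (nat_lit 468) (nat_lit 2660) (nat_lit 0) (XT.nd (nat_lit 234) (nat_lit 1748) (nat_lit 0) (XT.nd (nat_lit 78) (nat_lit 608) (nat_lit 0) (XT.lf (nat_lit 0) (nat_lit 1263194367) (nat_lit 684) (nat_lit 7274644994) (nat_lit 76) (nat_lit 2752249838) (nat_lit 224) (nat_lit 5) (nat_lit 233) (nat_lit 5) (nat_lit 225) (nat_lit 5) (nat_lit 309) (nat_lit 272) (nat_lit 199)) (XT.nd (nat_lit 78) (nat_lit 0) (nat_lit 0) (XT.lf (nat_lit 0) (nat_lit 1610789465) (nat_lit 608) (nat_lit 2777537796) (nat_lit 684) (nat_lit 7092613763) (nat_lit 216) (nat_lit 5) (nat_lit 224) (nat_lit 5) (nat_lit 225) (nat_lit 5) (nat_lit 310) (nat_lit 272) (nat_lit 198)) (XT.lf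 (nat_lit 0) (nat_lit 7636692433) (nat_lit 684) (nat_lit 883557342) (nat_lit 76) (nat_lit 3156709982) (nat_lit 216) (nat_lit 5) (nat_lit 225) (nat_lit 5) (nat_lit 217) (nat_lit 5) (nat_lit 311) (nat_lit 272) (nat_lit 197)))) (XT.nd (nat_lit 78) (nat_lit 1216) (nat_lit 0) (XT.lf (nat_lit 0) (nat_lit 8417295428) (nat_lit 532) (nat_lit 2598990333) (nat_lit 608) (nat_lit 861927764) (nat_lit 209) (nat_lit 5) (nat_lit 216) (nat_lit 5) (nat_lit 217) (nat_lit 5) (nat_lit 312) (nat_lit 272) (nat_lit 196)) (XT.nd (nat_lit 78) (nat_lit 532) (nat_lit 0) (XT.lf (nat_lit 0) (nat_lit 2408904706) (nat_lit 684) (nat_lit 6169038521) (nat_lit 76) (nat_lit 3506701608) (nat_lit 200) (nat_lit 5) (nat_lit 209) (nat_lit 5) (nat_lit 201) (nat_lit 5) (nat_lit 313) (nat_lit 272) (nat_lit 195)) (XT.lf (nat_lit 0) (nat_lit 3297027406) (nat_lit 532) (nat_lit 2493481215) (nat_lit 608) (nat_lit 6506187120) (nat_lit 193) (nat_lit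 5) (nat_lit 200) (nat_lit 5) (nat_lit 201) (nat_lit 5) (nat_lit 314) (nat_lit 272) (nat_lit 194))))) (XT.nd (nat_lit 234) (nat_lit 1520) (nat_lit 0) (XT.nd (nat_lit 78) (nat_lit 608) (nat_lit 0) (XT.lf (nat_lit 0) (nat_lit 552851823) (nat_lit 532) (nat_lit 8753526614) (nat_lit 608) (nat_lit 3208100314) (nat_lit 186) (nat_lit 5) (nat_lit 193) (nat_lit 5) (nat_lit 194) (nat_lit 5) (nat_lit 315) (nat_lit 272) (nat_lit 193)) (XT.nd (nat_lit 78) (nat_lit 532) (nat_lit 0) (XT.lf (nat_lit 0) (nat_lit 227683296) (nat_lit 608) (nat_lit 2287367259) (nat_lit 76) (nat_lit 10222921157) (nat_lit 185) (nat_lit 5) (nat_lit 193) (nat_lit 5) (nat_lit 186) (nat_lit 5) (nat_lit 316) (nat_lit 272) (nat_lit 192)) (XT.lf (nat_lit 0) (nat_lit 3763315129) (nat_lit 608) (nat_lit 5281741339) (nat_lit 76) (nat_lit 3921906567) (nat_lit 178) (nat_lit 5) (nat_lit 186) (nat_lit 5) (nat_lit 179) (nat_lit 5) (nat_lit 317) (nat_lit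 272) (nat_lit 191)))) (XT.nd (nat_lit 156) (nat_lit 532) (nat_lit 0) (XT.nd (nat_lit 78) (nat_lit 456) (nat_lit 0) (XT.lf (nat_lit 0) (nat_lit 4786444466) (nat_lit 532) (nat_lit 2647001932) (nat_lit 608) (nat_lit 5768833253) (nat_lit 171) (nat_lit 5) (nat_lit 178) (nat_lit 5) (nat_lit 179) (nat_lit 5) (nat_lit 318) (nat_lit 272) (nat_lit 190)) (XT.lf (nat_lit 0) (nat_lit 1736871012) (nat_lit 456) (nat_lit 9515314705) (nat_lit 532) (nat_lit 2191723425) (nat_lit 165) (nat_lit 5) (nat_lit 171) (nat_lit 5) (nat_lit 172) (nat_lit 5) (nat_lit 319) (nat_lit 272) (nat_lit 189))) (XT.nd (nat_lit 78) (nat_lit 456) (nat_lit 0) (XT.lf (nat_lit 0) (nat_lit 1514297571) (nat_lit 532) (nat_lit 1454907744) (nat_lit 76) (nat_lit 10722587201) (nat_lit 164) (nat_lit 5) (nat_lit 171) (nat_lit 5) (nat_lit 165) (nat_lit 5) (nat_lit 320) (nat_lit 272) (nat_lit 188)) (XT.lf (nat_lit 0) (nat_lit 5353385691) (nat_lit 532)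 (nat_lit 4804415993) (nat_lit 76) (nat_lit 3788009373) (nat_lit 158) (nat_lit 5) (nat_lit 165) (nat_lit 5) (nat_lit 159) (nat_lit 5) (nat_lit 321) (nat_lit 272) (nat_lit 187)))))) (XT.nd (nat_lit 468) (nat_lit 1900) (nat_lit 0) (XT.nd (nat_lit 234) (nat_lit 1292) (nat_lit 0) (XT.nd (nat_lit 78) (nat_lit 532) (nat_lit 0) (XT.lf (nat_lit 0) (nat_lit 5882040672) (nat_lit 456) (nat_lit 3461244839) (nat_lit 532) (nat_lit 4863472910) (nat_lit 152) (nat_lit 5) (nat_lit 158) (nat_lit 5) (nat_lit 159) (nat_lit 5) (nat_lit 322) (nat_lit 272) (nat_lit 186)) (XT.nd (nat_lit 78) (nat_lit 76) (nat_lit 0) (XT.lf (nat_lit 0) (nat_lit 2446220407) (nat_lit 456) (nat_lit 11045887238) (nat_lit 532) (nat_lit 982662488) (nat_lit 146) (nat_lit 5) (nat_lit 152) (nat_lit 5) (nat_lit 153) (nat_lit 5) (nat_lit 323) (nat_lit 272) (nat_lit 185)) (XT.lf (nat_lit 0) (nat_lit 3023650145) (nat_lit 532) (nat_lit 1181591319) (nat_lit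 76) (nat_lit 10544236439) (nat_lit 145) (nat_lit 5) (nat_lit 152) (nat_lit 5) (nat_lit 146) (nat_lit 5) (nat_lit 324) (nat_lit 272) (nat_lit 184)))) (XT.nd (nat_lit 78) (nat_lit 912) (nat_lit 0) (XT.lf (nat_lit 0) (nat_lit 7190729698) (nat_lit 456) (nat_lit 4975913842) (nat_lit 76) (nat_lit 2864593781) (nat_lit 140) (nat_lit 5) (nat_lit 146) (nat_lit 5) (nat_lit 141) (nat_lit 5) (nat_lit 325) (nat_lit 272) (nat_lit 183)) (XT.nd (nat_lit 78) (nat_lit 456) (nat_lit 0) (XT.lf (nat_lit 0) (nat_lit 6337522557) (nat_lit 456) (nat_lit 5192769120) (nat_lit 532) (nat_lit 3790226778) (nat_lit 134) (nat_lit 5) (nat_lit 140) (nat_lit 5) (nat_lit 141) (nat_lit 5) (nat_lit 326) (nat_lit 272) (nat_lit 182)) (XT.lf (nat_lit 0) (nat_lit 409990442) (nat_lit 456) (nat_lit 13202796962) (nat_lit 76) (nat_lit 2004989878) (nat_lit 128) (nat_lit 5) (nat_lit 134) (nat_lit 5) (nat_lit 129) (nat_lit 5) (nat_lit 327) (nat_lit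 272) (nat_lit 181))))) (XT.nd (nat_lit 234) (nat_lit 1140) (nat_lit 0) (XT.nd (nat_lit 78) (nat_lit 760) (nat_lit 0) (XT.lf (nat_lit 0) (nat_lit 4752064364) (nat_lit 456) (nat_lit 1746585825) (nat_lit 76) (nat_lit 9423472668) (nat_lit 128) (nat_lit 5) (nat_lit 134) (nat_lit 5) (nat_lit 129) (nat_lit 5) (nat_lit 328) (nat_lit 272) (nat_lit 180)) (XT.nd (nat_lit 78) (nat_lit 380) (nat_lit 0) (XT.lf (nat_lit 0) (nat_lit 9267911169) (nat_lit 456) (nat_lit 6094246274) (nat_lit 76) (nat_lit 872587594) (nat_lit 123) (nat_lit 5) (nat_lit 129) (nat_lit 5) (nat_lit 124) (nat_lit 5) (nat_lit 329) (nat_lit 272) (nat_lit 179)) (XT.lf (nat_lit 0) (nat_lit 5844843489) (nat_lit 380) (nat_lit 8140090864) (nat_lit 456) (nat_lit 2570513478) (nat_lit 118) (nat_lit 5) (nat_lit 123) (nat_lit 5) (nat_lit 124) (nat_lit 5) (nat_lit 330) (nat_lit 272) (nat_lit 178)))) (XT.nd (nat_lit 156) (nat_lit 684) (nat_lit 0) (XT.nd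 (nat_lit 78) (nat_lit 0) (nat_lit 0) (XT.lf (nat_lit 0) (nat_lit 1305111873) (nat_lit 380) (nat_lit 649687260) (nat_lit 456) (nat_lit 14930278002) (nat_lit 112) (nat_lit 5) (nat_lit 117) (nat_lit 5) (nat_lit 118) (nat_lit 5) (nat_lit 331) (nat_lit 272) (nat_lit 177)) (XT.lf (nat_lit 0) (nat_lit 6673275786) (nat_lit 456) (nat_lit 3498207273) (nat_lit 76) (nat_lit 7050940636) (nat_lit 112) (nat_lit 5) (nat_lit 118) (nat_lit 5) (nat_lit 113) (nat_lit 5) (nat_lit 332) (nat_lit 272) (nat_lit 176))) (XT.nd (nat_lit 78) (nat_lit 380) (nat_lit 0) (XT.lf (nat_lit 0) (nat_lit 9021701026) (nat_lit 304) (nat_lit 2548502271) (nat_lit 380) (nat_lit 5998963753) (nat_lit 108) (nat_lit 5) (nat_lit 112) (nat_lit 5) (nat_lit 113) (nat_lit 5) (nat_lit 333) (nat_lit 272) (nat_lit 175)) (XT.lf (nat_lit 0) (nat_lit 4019273697) (nat_lit 380) (nat_lit 12653565879) (nat_lit 456) (nat_lit 1252311021) (nat_lit 103) (nat_lit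 5) (nat_lit 108) (nat_lit 5) (nat_lit 109) (nat_lit 5) (nat_lit 334) (nat_lit 272) (nat_lit 174))))))) (XT.nd (nat_lit 1014) (nat_lit 1976) (nat_lit 0) (XT.nd (nat_lit 468) (nat_lit 1216) (nat_lit 0) (XT.nd (nat_lit 234) (nat_lit 684) (nat_lit 0) (XT.nd (nat_lit 78) (nat_lit 608) (nat_lit 0) (XT.lf (nat_lit 0) (nat_lit 3639125626) (nat_lit 456) (nat_lit 1289513195) (nat_lit 76) (nat_lit 13361714211) (nat_lit 102) (nat_lit 5) (nat_lit 108) (nat_lit 5) (nat_lit 103) (nat_lit 5) (nat_lit 335) (nat_lit 272) (nat_lit 173)) (XT.nd (nat_lit 78) (nat_lit 304) (nat_lit 0) (XT.lf (nat_lit 0) (nat_lit 8732714596) (nat_lit 380) (nat_lit 6870264490) (nat_lit 76) (nat_lit 3061931289) (nat_lit 98) (nat_lit 5) (nat_lit 103) (nat_lit 5) (nat_lit 99) (nat_lit 5) (nat_lit 336) (nat_lit 272) (nat_lit 172)) (XT.lf (nat_lit 0) (nat_lit 6250863387) (nat_lit 304) (nat_lit 7786459870) (nat_lit 380) (nat_lit 5012229421)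 (nat_lit 94) (nat_lit 5) (nat_lit 98) (nat_lit 5) (nat_lit 99) (nat_lit 5) (nat_lit 337) (nat_lit 272) (nat_lit 171)))) (XT.nd (nat_lit 78) (nat_lit 304) (nat_lit 0) (XT.lf (nat_lit 0) (nat_lit 82097734) (nat_lit 380) (nat_lit 19064263266) (nat_lit 76) (nat_lit 298828195) (nat_lit 89) (nat_lit 5) (nat_lit 94) (nat_lit 5) (nat_lit 90) (nat_lit 5) (nat_lit 338) (nat_lit 272) (nat_lit 170)) (XT.nd (nat_lit 78) (nat_lit 304) (nat_lit 0) (XT.lf (nat_lit 0) (nat_lit 5377474263) (nat_lit 380) (nat_lit 5842101716) (nat_lit 76) (nat_lit 8630141421) (nat_lit 89) (nat_lit 5) (nat_lit 94) (nat_lit 5) (nat_lit 90) (nat_lit 5) (nat_lit 339) (nat_lit 272) (nat_lit 169)) (XT.lf (nat_lit 0) (nat_lit 7844562193) (nat_lit 304) (nat_lit 3015319000) (nat_lit 380) (nat_lit 9405948075) (nat_lit 85) (nat_lit 5) (nat_lit 89) (nat_lit 5) (nat_lit 90) (nat_lit 5) (nat_lit 340) (nat_lit 272) (nat_lit 168))))) (XT.nd (nat_lit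 234) (nat_lit 608) (nat_lit 0) (XT.nd (nat_lit 78) (nat_lit 380) (nat_lit 0) (XT.lf (nat_lit 0) (nat_lit 1274470375) (nat_lit 228) (nat_lit 15293300064) (nat_lit 304) (nat_lit 4125444722) (nat_lit 82) (nat_lit 5) (nat_lit 85) (nat_lit 5) (nat_lit 86) (nat_lit 5) (nat_lit 341) (nat_lit 272) (nat_lit 167)) (XT.nd (nat_lit 78) (nat_lit 304) (nat_lit 0) (XT.lf (nat_lit 0) (nat_lit 1379011104) (nat_lit 304) (nat_lit 5644479295) (nat_lit 76) (nat_lit 14108116745) (nat_lit 81) (nat_lit 5) (nat_lit 85) (nat_lit 5) (nat_lit 82) (nat_lit 5) (nat_lit 342) (nat_lit 272) (nat_lit 166)) (XT.lf (nat_lit 0) (nat_lit 7037365176) (nat_lit 380) (nat_lit 12997541109) (nat_lit 76) (nat_lit 1546813001) (nat_lit 77) (nat_lit 5) (nat_lit 82) (nat_lit 5) (nat_lit 78) (nat_lit 5) (nat_lit 343) (nat_lit 272) (nat_lit 165)))) (XT.nd (nat_lit 156) (nat_lit 380) (nat_lit 0) (XT.nd (nat_lit 78) (nat_lit 0) (nat_lit 0) (XT.lf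 (nat_lit 0) (nat_lit 1207608428) (nat_lit 228) (nat_lit 11730022549) (nat_lit 304) (nat_lit 9106270346) (nat_lit 74) (nat_lit 5) (nat_lit 77) (nat_lit 5) (nat_lit 78) (nat_lit 5) (nat_lit 344) (nat_lit 272) (nat_lit 164)) (XT.lf (nat_lit 0) (nat_lit 15983971487) (nat_lit 228) (nat_lit 3098260688) (nat_lit 304) (nat_lit 3436379568) (nat_lit 74) (nat_lit 5) (nat_lit 77) (nat_lit 5) (nat_lit 78) (nat_lit 5) (nat_lit 345) (nat_lit 272) (nat_lit 163))) (XT.nd (nat_lit 78) (nat_lit 0) (nat_lit 0) (XT.lf (nat_lit 0) (nat_lit 2443394736) (nat_lit 380) (nat_lit 14788016145) (nat_lit 76) (nat_lit 5774423281) (nat_lit 69) (nat_lit 5) (nat_lit 74) (nat_lit 5) (nat_lit 70) (nat_lit 5) (nat_lit 346) (nat_lit 272) (nat_lit 162)) (XT.lf (nat_lit 0) (nat_lit 8498457809) (nat_lit 380) (nat_lit 80467231) (nat_lit 76) (nat_lit 14927391027) (nat_lit 69) (nat_lit 5) (nat_lit 74) (nat_lit 5) (nat_lit 70) (nat_lit 5)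 (nat_lit 347) (nat_lit 272) (nat_lit 161)))))) (XT.nd (nat_lit 546) (nat_lit 684) (nat_lit 0) (XT.nd (nat_lit 234) (nat_lit 760) (nat_lit 0) (XT.nd (nat_lit 78) (nat_lit 304) (nat_lit 0) (XT.lf (nat_lit 0) (nat_lit 14817449221) (nat_lit 304) (nat_lit 8785879264) (nat_lit 76) (nat_lit 416846910) (nat_lit 66) (nat_lit 5) (nat_lit 70) (nat_lit 5) (nat_lit 67) (nat_lit 5) (nat_lit 348) (nat_lit 272) (nat_lit 160)) (XT.nd (nat_lit 78) (nat_lit 76) (nat_lit 0) (XT.lf (nat_lit 0) (nat_lit 6456606895) (nat_lit 228) (nat_lit 14950140509) (nat_lit 304) (nat_lit 3141096608) (nat_lit 63) (nat_lit 5) (nat_lit 66) (nat_lit 5) (nat_lit 67) (nat_lit 5) (nat_lit 349) (nat_lit 272) (nat_lit 159)) (XT.lf (nat_lit 0) (nat_lit 3102747463) (nat_lit 304) (nat_lit 2864679056) (nat_lit 76) (nat_lit 19122700087) (nat_lit 62) (nat_lit 5) (nat_lit 66) (nat_lit 5) (nat_lit 63) (nat_lit 5) (nat_lit 350) (nat_lit 272) (nat_lit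 158)))) (XT.nd (nat_lit 156) (nat_lit 304) (nat_lit 0) (XT.nd (nat_lit 78) (nat_lit 228) (nat_lit 0) (XT.lf (nat_lit 0) (nat_lit 9579096352) (nat_lit 304) (nat_lit 12731279305) (nat_lit 76) (nat_lit 3336137096) (nat_lit 59) (nat_lit 5) (nat_lit 63) (nat_lit 5) (nat_lit 60) (nat_lit 5) (nat_lit 351) (nat_lit 272) (nat_lit 157)) (XT.lf (nat_lit 0) (nat_lit 2957769565) (nat_lit 228) (nat_lit 13352561600) (nat_lit 304) (nat_lit 9908054813) (nat_lit 56) (nat_lit 5) (nat_lit 59) (nat_lit 5) (nat_lit 60) (nat_lit 5) (nat_lit 352) (nat_lit 272) (nat_lit 156))) (XT.nd (nat_lit 78) (nat_lit 304) (nat_lit 0) (XT.lf (nat_lit 0) (nat_lit 19262696923) (nat_lit 228) (nat_lit 4049358786) (nat_lit 304) (nat_lit 3493995821) (nat_lit 56) (nat_lit 5) (nat_lit 59) (nat_lit 5) (nat_lit 60) (nat_lit 5) (nat_lit 353) (nat_lit 272) (nat_lit 155)) (XT.lf (nat_lit 0) (nat_lit 3147258237) (nat_lit 304) (nat_lit 18735512831)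 (nat_lit 76) (nat_lit 5526666773) (nat_lit 52) (nat_lit 5) (nat_lit 56) (nat_lit 5) (nat_lit 53) (nat_lit 5) (nat_lit 354) (nat_lit 272) (nat_lit 154))))) (XT.nd (nat_lit 234) (nat_lit 304) (nat_lit 0) (XT.nd (nat_lit 78) (nat_lit 380) (nat_lit 0) (XT.lf (nat_lit 0) (nat_lit 10002013592) (nat_lit 304) (nat_lit 2627975120) (nat_lit 76) (nat_lit 15399247095) (nat_lit 52) (nat_lit 5) (nat_lit 56) (nat_lit 5) (nat_lit 53) (nat_lit 5) (nat_lit 355) (nat_lit 272) (nat_lit 153)) (XT.nd (nat_lit 78) (nat_lit 152) (nat_lit 0) (XT.lf (nat_lit 0) (nat_lit 14120540327) (nat_lit 228) (nat_lit 3016976691) (nat_lit 304) (nat_lit 11528615031) (nat_lit 49) (nat_lit 5) (nat_lit 52) (nat_lit 5) (nat_lit 53) (nat_lit 5) (nat_lit 356) (nat_lit 272) (nat_lit 152)) (XT.lf (nat_lit 0) (nat_lit 2040389695) (nat_lit 152) (nat_lit 22506230903) (nat_lit 228) (nat_lit 4774330139) (nat_lit 47) (nat_lit 5) (nat_lit 49) (nat_lit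 5) (nat_lit 50) (nat_lit 5) (nat_lit 357) (nat_lit 272) (nat_lit 151)))) (XT.nd (nat_lit 156) (nat_lit 0) (nat_lit 0) (XT.nd (nat_lit 78) (nat_lit 228) (nat_lit 0) (XT.lf (nat_lit 0) (nat_lit 2257205296) (nat_lit 228) (nat_lit 10732426006) (nat_lit 76) (nat_lit 17003440285) (nat_lit 46) (nat_lit 5) (nat_lit 49) (nat_lit 5) (nat_lit 47) (nat_lit 5) (nat_lit 358) (nat_lit 272) (nat_lit 150)) (XT.lf (nat_lit 0) (nat_lit 6337087690) (nat_lit 228) (nat_lit 3123572137) (nat_lit 304) (nat_lit 21223554106) (nat_lit 43) (nat_lit 5) (nat_lit 46) (nat_lit 5) (nat_lit 47) (nat_lit 5) (nat_lit 359) (nat_lit 272) (nat_lit 149))) (XT.nd (nat_lit 33852) (nat_lit 0) (nat_lit 35568) (XT.lf (nat_lit 0) (nat_lit 16983668671) (nat_lit 304) (nat_lit 7401291248) (nat_lit 76) (nat_lit 7009067232) (nat_lit 43) (nat_lit 5) (nat_lit 47) (nat_lit 5) (nat_lit 44) (nat_lit 5) (nat_lit 360) (nat_lit 272) (nat_lit 148)) (XT.lf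 (nat_lit 0) (nat_lit 53757738) (nat_lit 1140) (nat_lit 1767628153) (nat_lit 1140) (nat_lit 1767628153) (nat_lit 511) (nat_lit 3) (nat_lit 526) (nat_lit 3) (nat_lit 526) (nat_lit 5) (nat_lit 273) (nat_lit 273) (nat_lit 234))))))))
noncomputable def xc74 : XT := (XT.nd (nat_lit 2028) (nat_lit 13072) (nat_lit 0) (XT.nd (nat_lit 1014) (nat_lit 11780) (nat_lit 0) (XT.nd (nat_lit 468) (nat_lit 2280) (nat_lit 0) (XT.nd (nat_lit 234) (nat_lit 1064) (nat_lit 0) (XT.nd (nat_lit 78) (nat_lit 0) (nat_lit 76) (XT.lf (nat_lit 76) (nat_lit 1378596268) (nat_lit 0) (nat_lit 1088694013) (nat_lit 1140) (nat_lit 4768527631) (nat_lit 512) (nat_lit 5) (nat_lit 511) (nat_lit 3) (nat_lit 526) (nat_lit 5) (nat_lit 274) (nat_lit 273) (nat_lit 233)) (XT.nd (nat_lit 78) (nat_lit 0) (nat_lit 0) (XT.lf (nat_lit 0) (nat_lit 4840282900) (nat_lit 1064) (nat_lit 866445821) (nat_lit 1140) (nat_lit 1589870270) (nat_lit 512) (nat_lit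 5) (nat_lit 526) (nat_lit 5) (nat_lit 527) (nat_lit 5) (nat_lit 275) (nat_lit 273) (nat_lit 232)) (XT.lf (nat_lit 76) (nat_lit 4274612975) (nat_lit 0) (nat_lit 2955855628) (nat_lit 1140) (nat_lit 129917795) (nat_lit 513) (nat_lit 5) (nat_lit 512) (nat_lit 5) (nat_lit 527) (nat_lit 5) (nat_lit 276) (nat_lit 273) (nat_lit 231)))) (XT.nd (nat_lit 78) (nat_lit 0) (nat_lit 76) (XT.lf (nat_lit 76) (nat_lit 2120147217) (nat_lit 0) (nat_lit 48659358) (nat_lit 1216) (nat_lit 5258439438) (nat_lit 498) (nat_lit 5) (nat_lit 497) (nat_lit 5) (nat_lit 513) (nat_lit 5) (nat_lit 277) (nat_lit 273) (nat_lit 230)) (XT.nd (nat_lit 78) (nat_lit 0) (nat_lit 0) (XT.lf (nat_lit 0) (nat_lit 4489970335) (nat_lit 1140) (nat_lit 41292450) (nat_lit 1216) (nat_lit 2965821750) (nat_lit 498) (nat_lit 5) (nat_lit 513) (nat_lit 5) (nat_lit 514) (nat_lit 5) (nat_lit 278) (nat_lit 273) (nat_lit 229)) (XT.lf (nat_lit 76) (nat_lit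 5404548978) (nat_lit 0) (nat_lit 1429167618) (nat_lit 1216) (nat_lit 736335043) (nat_lit 499) (nat_lit 5) (nat_lit 498) (nat_lit 5) (nat_lit 514) (nat_lit 5) (nat_lit 279) (nat_lit 273) (nat_lit 228))))) (XT.nd (nat_lit 234) (nat_lit 1216) (nat_lit 0) (XT.nd (nat_lit 78) (nat_lit 0) (nat_lit 0) (XT.lf (nat_lit 0) (nat_lit 1534499727) (nat_lit 1216) (nat_lit 4304320704) (nat_lit 1292) (nat_lit 1807208151) (nat_lit 483) (nat_lit 5) (nat_lit 499) (nat_lit 5) (nat_lit 500) (nat_lit 5) (nat_lit 280) (nat_lit 273) (nat_lit 227)) (XT.nd (nat_lit 78) (nat_lit 0) (nat_lit 76) (XT.lf (nat_lit 76) (nat_lit 1271943281) (nat_lit 0) (nat_lit 2545407521) (nat_lit 1292) (nat_lit 3907844149) (nat_lit 484) (nat_lit 5) (nat_lit 483) (nat_lit 5) (nat_lit 500) (nat_lit 5) (nat_lit 281) (nat_lit 273) (nat_lit 226)) (XT.lf (nat_lit 0) (nat_lit 6126951207) (nat_lit 1216) (nat_lit 788363039) (nat_lit 1292) (nat_lit 892339672)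 (nat_lit 484) (nat_lit 5) (nat_lit 500) (nat_lit 5) (nat_lit 501) (nat_lit 5) (nat_lit 282) (nat_lit 273) (nat_lit 225)))) (XT.nd (nat_lit 156) (nat_lit 0) (nat_lit 76) (XT.nd (nat_lit 78) (nat_lit 0) (nat_lit 76) (XT.lf (nat_lit 0) (nat_lit 580389373) (nat_lit 1292) (nat_lit 2850794282) (nat_lit 1368) (nat_lit 4461898668) (nat_lit 467) (nat_lit 5) (nat_lit 484) (nat_lit 5) (nat_lit 485) (nat_lit 5) (nat_lit 283) (nat_lit 273) (nat_lit 224)) (XT.lf (nat_lit 0) (nat_lit 2840179114) (nat_lit 1292) (nat_lit 4926493506) (nat_lit 1368) (nat_lit 215181381) (nat_lit 468) (nat_lit 5) (nat_lit 485) (nat_lit 5) (nat_lit 486) (nat_lit 5) (nat_lit 284) (nat_lit 273) (nat_lit 223))) (XT.nd (nat_lit 78) (nat_lit 0) (nat_lit 0) (XT.lf (nat_lit 76) (nat_lit 1044917236) (nat_lit 0) (nat_lit 4100906245) (nat_lit 1368) (nat_lit 2927978490) (nat_lit 469) (nat_lit 5) (nat_lit 468) (nat_lit 5) (nat_lit 486) (nat_lit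 5) (nat_lit 285) (nat_lit 273) (nat_lit 222)) (XT.lf (nat_lit 76) (nat_lit 7213191928) (nat_lit 0) (nat_lit 271462245) (nat_lit 1368) (nat_lit 684646061) (nat_lit 469) (nat_lit 5) (nat_lit 468) (nat_lit 5) (nat_lit 486) (nat_lit 5) (nat_lit 286) (nat_lit 273) (nat_lit 221)))))) (XT.nd (nat_lit 468) (nat_lit 6232) (nat_lit 0) (XT.nd (nat_lit 234) (nat_lit 3040) (nat_lit 0) (XT.nd (nat_lit 78) (nat_lit 1292) (nat_lit 0) (XT.lf (nat_lit 0) (nat_lit 1595533238) (nat_lit 1368) (nat_lit 2983771516) (nat_lit 1444) (nat_lit 3688398829) (nat_lit 451) (nat_lit 5) (nat_lit 469) (nat_lit 5) (nat_lit 470) (nat_lit 5) (nat_lit 287) (nat_lit 273) (nat_lit 220)) (XT.nd (nat_lit 78) (nat_lit 1292) (nat_lit 0) (XT.lf (nat_lit 76) (nat_lit 3342793230) (nat_lit 0) (nat_lit 556032982) (nat_lit 1444) (nat_lit 4470928829) (nat_lit 452) (nat_lit 5) (nat_lit 451) (nat_lit 5) (nat_lit 470) (nat_lit 5) (nat_lit 288) (nat_lit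 273) (nat_lit 219)) (XT.lf (nat_lit 0) (nat_lit 1369478845) (nat_lit 1368) (nat_lit 4889900357) (nat_lit 1444) (nat_lit 2215790386) (nat_lit 434) (nat_lit 5) (nat_lit 452) (nat_lit 5) (nat_lit 453) (nat_lit 5) (nat_lit 289) (nat_lit 273) (nat_lit 218)))) (XT.nd (nat_lit 78) (nat_lit 2964) (nat_lit 0) (XT.lf (nat_lit 0) (nat_lit 80302540) (nat_lit 1444) (nat_lit 611750254) (nat_lit 76) (nat_lit 7892247463) (nat_lit 433) (nat_lit 5) (nat_lit 452) (nat_lit 5) (nat_lit 434) (nat_lit 5) (nat_lit 290) (nat_lit 273) (nat_lit 217)) (XT.nd (nat_lit 78) (nat_lit 1520) (nat_lit 0) (XT.lf (nat_lit 0) (nat_lit 2417463710) (nat_lit 1520) (nat_lit 2628018678) (nat_lit 76) (nat_lit 3650943601) (nat_lit 414) (nat_lit 5) (nat_lit 434) (nat_lit 5) (nat_lit 415) (nat_lit 5) (nat_lit 291) (nat_lit 273) (nat_lit 216)) (XT.lf (nat_lit 0) (nat_lit 4145496216) (nat_lit 1520) (nat_lit 655050098) (nat_lit 1596) (nat_lit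 4011911162) (nat_lit 394) (nat_lit 5) (nat_lit 414) (nat_lit 5) (nat_lit 415) (nat_lit 5) (nat_lit 292) (nat_lit 273) (nat_lit 215))))) (XT.nd (nat_lit 234) (nat_lit 2888) (nat_lit 0) (XT.nd (nat_lit 78) (nat_lit 1748) (nat_lit 0) (XT.lf (nat_lit 0) (nat_lit 2179728076) (nat_lit 1596) (nat_lit 5074159273) (nat_lit 1672) (nat_lit 1678163659) (nat_lit 373) (nat_lit 5) (nat_lit 394) (nat_lit 5) (nat_lit 395) (nat_lit 5) (nat_lit 293) (nat_lit 273) (nat_lit 214)) (XT.nd (nat_lit 78) (nat_lit 0) (nat_lit 0) (XT.lf (nat_lit 0) (nat_lit 184000245) (nat_lit 1672) (nat_lit 512017999) (nat_lit 1748) (nat_lit 8359574820) (nat_lit 350) (nat_lit 5) (nat_lit 372) (nat_lit 5) (nat_lit 373) (nat_lit 5) (nat_lit 294) (nat_lit 273) (nat_lit 213)) (XT.lf (nat_lit 0) (nat_lit 3135925128) (nat_lit 1748) (nat_lit 1850412323) (nat_lit 76) (nat_lit 4195988234) (nat_lit 350) (nat_lit 5) (nat_lit 373) (nat_lit 5) (nat_lit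 351) (nat_lit 5) (nat_lit 295) (nat_lit 273) (nat_lit 212)))) (XT.nd (nat_lit 156) (nat_lit 912) (nat_lit 0) (XT.nd (nat_lit 78) (nat_lit 836) (nat_lit 0) (XT.lf (nat_lit 0) (nat_lit 5399655497) (nat_lit 1140) (nat_lit 233414822) (nat_lit 1216) (nat_lit 3680159763) (nat_lit 335) (nat_lit 5) (nat_lit 350) (nat_lit 5) (nat_lit 351) (nat_lit 5) (nat_lit 296) (nat_lit 273) (nat_lit 211)) (XT.lf (nat_lit 0) (nat_lit 3409620533) (nat_lit 836) (nat_lit 4807400260) (nat_lit 912) (nat_lit 1230852147) (nat_lit 324) (nat_lit 5) (nat_lit 335) (nat_lit 5) (nat_lit 336) (nat_lit 5) (nat_lit 297) (nat_lit 273) (nat_lit 210))) (XT.nd (nat_lit 78) (nat_lit 0) (nat_lit 0) (XT.lf (nat_lit 0) (nat_lit 1260670951) (nat_lit 912) (nat_lit 8208921280) (nat_lit 76) (nat_lit 117128266) (nat_lit 312) (nat_lit 5) (nat_lit 324) (nat_lit 5) (nat_lit 313) (nat_lit 5) (nat_lit 298) (nat_lit 273) (nat_lit 209)) (XT.lf (nat_lit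 0) (nat_lit 3832576170) (nat_lit 912) (nat_lit 720289909) (nat_lit 76) (nat_lit 5176302922) (nat_lit 312) (nat_lit 5) (nat_lit 324) (nat_lit 5) (nat_lit 313) (nat_lit 5) (nat_lit 299) (nat_lit 273) (nat_lit 208))))))) (XT.nd (nat_lit 1014) (nat_lit 5244) (nat_lit 0) (XT.nd (nat_lit 468) (nat_lit 3952) (nat_lit 0) (XT.nd (nat_lit 234) (nat_lit 1444) (nat_lit 0) (XT.nd (nat_lit 78) (nat_lit 1672) (nat_lit 0) (XT.lf (nat_lit 0) (nat_lit 6481372758) (nat_lit 836) (nat_lit 2842612399) (nat_lit 76) (nat_lit 551955214) (nat_lit 302) (nat_lit 5) (nat_lit 313) (nat_lit 5) (nat_lit 303) (nat_lit 5) (nat_lit 300) (nat_lit 273) (nat_lit 207)) (XT.nd (nat_lit 78) (nat_lit 836) (nat_lit 0) (XT.lf (nat_lit 0) (nat_lit 4988851276) (nat_lit 836) (nat_lit 4240089333) (nat_lit 912) (nat_lit 797830936) (nat_lit 291) (nat_lit 5) (nat_lit 302) (nat_lit 5) (nat_lit 303) (nat_lit 5) (nat_lit 301) (nat_lit 273) (nat_lit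 206)) (XT.lf (nat_lit 0) (nat_lit 1849445098) (nat_lit 836) (nat_lit 7299285223) (nat_lit 76) (nat_lit 1033249332) (nat_lit 280) (nat_lit 5) (nat_lit 291) (nat_lit 5) (nat_lit 281) (nat_lit 5) (nat_lit 302) (nat_lit 273) (nat_lit 205)))) (XT.nd (nat_lit 78) (nat_lit 684) (nat_lit 0) (XT.lf (nat_lit 0) (nat_lit 695365119) (nat_lit 760) (nat_lit 3890608109) (nat_lit 836) (nat_lit 5755391400) (nat_lit 270) (nat_lit 5) (nat_lit 280) (nat_lit 5) (nat_lit 281) (nat_lit 5) (nat_lit 303) (nat_lit 273) (nat_lit 204)) (XT.nd (nat_lit 78) (nat_lit 684) (nat_lit 0) (XT.lf (nat_lit 0) (nat_lit 7418700167) (nat_lit 836) (nat_lit 1533715471) (nat_lit 76) (nat_lit 1552871865) (nat_lit 270) (nat_lit 5) (nat_lit 281) (nat_lit 5) (nat_lit 271) (nat_lit 5) (nat_lit 304) (nat_lit 273) (nat_lit 203)) (XT.lf (nat_lit 0) (nat_lit 6838311588) (nat_lit 684) (nat_lit 3524252411) (nat_lit 760) (nat_lit 311078254) (nat_lit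 261) (nat_lit 5) (nat_lit 270) (nat_lit 5) (nat_lit 271) (nat_lit 5) (nat_lit 305) (nat_lit 273) (nat_lit 202))))) (XT.nd (nat_lit 234) (nat_lit 2508) (nat_lit 0) (XT.nd (nat_lit 78) (nat_lit 684) (nat_lit 0) (XT.lf (nat_lit 0) (nat_lit 2524999250) (nat_lit 760) (nat_lit 6227926361) (nat_lit 76) (nat_lit 2093612368) (nat_lit 251) (nat_lit 5) (nat_lit 261) (nat_lit 5) (nat_lit 252) (nat_lit 5) (nat_lit 306) (nat_lit 273) (nat_lit 201)) (XT.nd (nat_lit 78) (nat_lit 0) (nat_lit 0) (XT.lf (nat_lit 0) (nat_lit 2311830930) (nat_lit 684) (nat_lit 3152212803) (nat_lit 760) (nat_lit 5560127961) (nat_lit 242) (nat_lit 5) (nat_lit 251) (nat_lit 5) (nat_lit 252) (nat_lit 5) (nat_lit 307) (nat_lit 273) (nat_lit 200)) (XT.lf (nat_lit 0) (nat_lit 8508986500) (nat_lit 760) (nat_lit 77837152) (nat_lit 76) (nat_lit 2619989686) (nat_lit 242) (nat_lit 5) (nat_lit 252) (nat_lit 5) (nat_lit 243) (nat_lit 5) (nat_lit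 308) (nat_lit 273) (nat_lit 199)))) (XT.nd (nat_lit 156) (nat_lit 1140) (nat_lit 0) (XT.nd (nat_lit 78) (nat_lit 608) (nat_lit 0) (XT.lf (nat_lit 0) (nat_lit 285390458) (nat_lit 760) (nat_lit 2531126218) (nat_lit 76) (nat_lit 8577650284) (nat_lit 232) (nat_lit 5) (nat_lit 242) (nat_lit 5) (nat_lit 233) (nat_lit 5) (nat_lit 309) (nat_lit 273) (nat_lit 198)) (XT.lf (nat_lit 0) (nat_lit 3345176202) (nat_lit 684) (nat_lit 5099785126) (nat_lit 76) (nat_lit 3141379631) (nat_lit 224) (nat_lit 5) (nat_lit 233) (nat_lit 5) (nat_lit 225) (nat_lit 5) (nat_lit 310) (nat_lit 273) (nat_lit 197))) (XT.nd (nat_lit 78) (nat_lit 532) (nat_lit 0) (XT.lf (nat_lit 0) (nat_lit 4013387175) (nat_lit 608) (nat_lit 2506424931) (nat_lit 684) (nat_lit 5264036959) (nat_lit 216) (nat_lit 5) (nat_lit 224) (nat_lit 5) (nat_lit 225) (nat_lit 5) (nat_lit 311) (nat_lit 273) (nat_lit 196)) (XT.lf (nat_lit 0) (nat_lit 1432503048)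 (nat_lit 532) (nat_lit 8386412548) (nat_lit 608) (nat_lit 2167811389) (nat_lit 209) (nat_lit 5) (nat_lit 216) (nat_lit 5) (nat_lit 217) (nat_lit 5) (nat_lit 312) (nat_lit 273) (nat_lit 195)))))) (XT.nd (nat_lit 546) (nat_lit 2356) (nat_lit 0) (XT.nd (nat_lit 234) (nat_lit 1672) (nat_lit 0) (XT.nd (nat_lit 78) (nat_lit 1140) (nat_lit 0) (XT.lf (nat_lit 0) (nat_lit 1039919625) (nat_lit 608) (nat_lit 1246031204) (nat_lit 76) (nat_lit 9908995270) (nat_lit 208) (nat_lit 5) (nat_lit 216) (nat_lit 5) (nat_lit 209) (nat_lit 5) (nat_lit 313) (nat_lit 273) (nat_lit 194)) (XT.nd (nat_lit 78) (nat_lit 532) (nat_lit 0) (XT.lf (nat_lit 0) (nat_lit 4358799198) (nat_lit 684) (nat_lit 4042416425) (nat_lit 76) (nat_lit 4007049137) (nat_lit 200) (nat_lit 5) (nat_lit 209) (nat_lit 5) (nat_lit 201) (nat_lit 5) (nat_lit 314) (nat_lit 273) (nat_lit 193)) (XT.lf (nat_lit 0) (nat_lit 5670127003) (nat_lit 532) (nat_lit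 2131801595) (nat_lit 608) (nat_lit 4825586861) (nat_lit 193) (nat_lit 5) (nat_lit 200) (nat_lit 5) (nat_lit 201) (nat_lit 5) (nat_lit 315) (nat_lit 273) (nat_lit 192)))) (XT.nd (nat_lit 156) (nat_lit 1064) (nat_lit 0) (XT.nd (nat_lit 78) (nat_lit 76) (nat_lit 0) (XT.lf (nat_lit 0) (nat_lit 2841405508) (nat_lit 532) (nat_lit 8545846147) (nat_lit 608) (nat_lit 1465339415) (nat_lit 186) (nat_lit 5) (nat_lit 193) (nat_lit 5) (nat_lit 194) (nat_lit 5) (nat_lit 316) (nat_lit 273) (nat_lit 191)) (XT.lf (nat_lit 0) (nat_lit 1996538108) (nat_lit 608) (nat_lit 125551246) (nat_lit 76) (nat_lit 10961554670) (nat_lit 185) (nat_lit 5) (nat_lit 193) (nat_lit 5) (nat_lit 186) (nat_lit 5) (nat_lit 317) (nat_lit 273) (nat_lit 190))) (XT.nd (nat_lit 78) (nat_lit 532) (nat_lit 0) (XT.lf (nat_lit 0) (nat_lit 5604211345) (nat_lit 608) (nat_lit 3213300123) (nat_lit 76) (nat_lit 4502709888) (nat_lit 178) (nat_lit 5) (nat_lit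 186) (nat_lit 5) (nat_lit 179) (nat_lit 5) (nat_lit 318) (nat_lit 273) (nat_lit 189)) (XT.lf (nat_lit 0) (nat_lit 7120802556) (nat_lit 532) (nat_lit 2227537891) (nat_lit 608) (nat_lit 4215013824) (nat_lit 171) (nat_lit 5) (nat_lit 178) (nat_lit 5) (nat_lit 179) (nat_lit 5) (nat_lit 319) (nat_lit 273) (nat_lit 188))))) (XT.nd (nat_lit 234) (nat_lit 1368) (nat_lit 0) (XT.nd (nat_lit 78) (nat_lit 532) (nat_lit 0) (XT.lf (nat_lit 0) (nat_lit 3975438908) (nat_lit 456) (nat_lit 9274265310) (nat_lit 532) (nat_lit 563200851) (nat_lit 165) (nat_lit 5) (nat_lit 171) (nat_lit 5) (nat_lit 172) (nat_lit 5) (nat_lit 320) (nat_lit 273) (nat_lit 187)) (XT.nd (nat_lit 78) (nat_lit 0) (nat_lit 0) (XT.lf (nat_lit 0) (nat_lit 655461676) (nat_lit 456) (nat_lit 2531873489) (nat_lit 532) (nat_lit 10881590718) (nat_lit 158) (nat_lit 5) (nat_lit 164) (nat_lit 5) (nat_lit 165) (nat_lit 5) (nat_lit 321) (nat_lit 273) (nat_lit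 186)) (XT.lf (nat_lit 0) (nat_lit 7107143245) (nat_lit 532) (nat_lit 2808484234) (nat_lit 76) (nat_lit 4415657669) (nat_lit 158) (nat_lit 5) (nat_lit 165) (nat_lit 5) (nat_lit 159) (nat_lit 5) (nat_lit 322) (nat_lit 273) (nat_lit 185)))) (XT.nd (nat_lit 156) (nat_lit 380) (nat_lit 0) (XT.nd (nat_lit 78) (nat_lit 532) (nat_lit 0) (XT.lf (nat_lit 0) (nat_lit 8163846132) (nat_lit 456) (nat_lit 3020160617) (nat_lit 532) (nat_lit 3416739056) (nat_lit 152) (nat_lit 5) (nat_lit 158) (nat_lit 5) (nat_lit 159) (nat_lit 5) (nat_lit 323) (nat_lit 273) (nat_lit 184)) (XT.lf (nat_lit 0) (nat_lit 544281893) (nat_lit 532) (nat_lit 10261969001) (nat_lit 76) (nat_lit 4071072358) (nat_lit 145) (nat_lit 5) (nat_lit 152) (nat_lit 5) (nat_lit 146) (nat_lit 5) (nat_lit 324) (nat_lit 273) (nat_lit 183))) (XT.nd (nat_lit 78) (nat_lit 0) (nat_lit 0) (XT.lf (nat_lit 0) (nat_lit 853244322) (nat_lit 380) (nat_lit 3764858871)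 (nat_lit 456) (nat_lit 10542853673) (nat_lit 140) (nat_lit 5) (nat_lit 145) (nat_lit 5) (nat_lit 146) (nat_lit 5) (nat_lit 325) (nat_lit 273) (nat_lit 182)) (XT.lf (nat_lit 0) (nat_lit 8877793102) (nat_lit 456) (nat_lit 3072869584) (nat_lit 76) (nat_lit 3501181524) (nat_lit 140) (nat_lit 5) (nat_lit 146) (nat_lit 5) (nat_lit 141) (nat_lit 5) (nat_lit 326) (nat_lit 273) (nat_lit 181))))))))
noncomputable def xc75 : XT := (XT.nd (nat_lit 2106) (nat_lit 760) (nat_lit 0) (XT.nd (nat_lit 1014) (nat_lit 2508) (nat_lit 0) (XT.nd (nat_lit 468) (nat_lit 1748) (nat_lit 0) (XT.nd (nat_lit 234) (nat_lit 836) (nat_lit 0) (XT.nd (nat_lit 78) (nat_lit 836) (nat_lit 0) (XT.lf (nat_lit 0) (nat_lit 8546673426) (nat_lit 456) (nat_lit 4771122757) (nat_lit 532) (nat_lit 2432628821) (nat_lit 134) (nat_lit 5) (nat_lit 140) (nat_lit 5) (nat_lit 141) (nat_lit 5) (nat_lit 327) (nat_lit 273) (nat_lit 180)) (XT.nd (nat_lit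 78) (nat_lit 380) (nat_lit 0) (XT.lf (nat_lit 0) (nat_lit 1848819441) (nat_lit 456) (nat_lit 11567280515) (nat_lit 76) (nat_lit 2640845213) (nat_lit 128) (nat_lit 5) (nat_lit 134) (nat_lit 5) (nat_lit 129) (nat_lit 5) (nat_lit 328) (nat_lit 273) (nat_lit 179)) (XT.lf (nat_lit 0) (nat_lit 175749110) (nat_lit 380) (nat_lit 6104998154) (nat_lit 456) (nat_lit 10090506331) (nat_lit 123) (nat_lit 5) (nat_lit 128) (nat_lit 5) (nat_lit 129) (nat_lit 5) (nat_lit 329) (nat_lit 273) (nat_lit 178)))) (XT.nd (nat_lit 78) (nat_lit 836) (nat_lit 0) (XT.lf (nat_lit 0) (nat_lit 10906974157) (nat_lit 456) (nat_lit 4312501163) (nat_lit 76) (nat_lit 1474304633) (nat_lit 123) (nat_lit 5) (nat_lit 129) (nat_lit 5) (nat_lit 124) (nat_lit 5) (nat_lit 330) (nat_lit 273) (nat_lit 177)) (XT.nd (nat_lit 78) (nat_lit 456) (nat_lit 0) (XT.lf (nat_lit 0) (nat_lit 7952888438) (nat_lit 380) (nat_lit 7785526443) (nat_lit 456) (nat_lit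 1286253733) (nat_lit 118) (nat_lit 5) (nat_lit 123) (nat_lit 5) (nat_lit 124) (nat_lit 5) (nat_lit 331) (nat_lit 273) (nat_lit 176)) (XT.lf (nat_lit 0) (nat_lit 3263910996) (nat_lit 380) (nat_lit 66384529) (nat_lit 456) (nat_lit 14034269670) (nat_lit 112) (nat_lit 5) (nat_lit 117) (nat_lit 5) (nat_lit 118) (nat_lit 5) (nat_lit 332) (nat_lit 273) (nat_lit 175))))) (XT.nd (nat_lit 234) (nat_lit 1064) (nat_lit 0) (XT.nd (nat_lit 78) (nat_lit 684) (nat_lit 0) (XT.lf (nat_lit 0) (nat_lit 8155771295) (nat_lit 456) (nat_lit 1716943504) (nat_lit 76) (nat_lit 7840029637) (nat_lit 112) (nat_lit 5) (nat_lit 118) (nat_lit 5) (nat_lit 113) (nat_lit 5) (nat_lit 333) (nat_lit 273) (nat_lit 174)) (XT.nd (nat_lit 78) (nat_lit 380) (nat_lit 0) (XT.lf (nat_lit 0) (nat_lit 11147960528) (nat_lit 304) (nat_lit 2026345482) (nat_lit 380) (nat_lit 4896110659) (nat_lit 108) (nat_lit 5) (nat_lit 112) (nat_lit 5) (nat_lit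 113) (nat_lit 5) (nat_lit 334) (nat_lit 273) (nat_lit 173)) (XT.lf (nat_lit 0) (nat_lit 5986938212) (nat_lit 380) (nat_lit 12422237506) (nat_lit 456) (nat_lit 28340882) (nat_lit 103) (nat_lit 5) (nat_lit 108) (nat_lit 5) (nat_lit 109) (nat_lit 5) (nat_lit 335) (nat_lit 273) (nat_lit 172)))) (XT.nd (nat_lit 156) (nat_lit 684) (nat_lit 0) (XT.nd (nat_lit 78) (nat_lit 0) (nat_lit 0) (XT.lf (nat_lit 0) (nat_lit 488188621) (nat_lit 304) (nat_lit 4472012604) (nat_lit 380) (nat_lit 13853990917) (nat_lit 98) (nat_lit 5) (nat_lit 102) (nat_lit 5) (nat_lit 103) (nat_lit 5) (nat_lit 336) (nat_lit 273) (nat_lit 171)) (XT.lf (nat_lit 0) (nat_lit 10183649984) (nat_lit 380) (nat_lit 5275302592) (nat_lit 76) (nat_lit 3741511038) (nat_lit 98) (nat_lit 5) (nat_lit 103) (nat_lit 5) (nat_lit 99) (nat_lit 5) (nat_lit 337) (nat_lit 273) (nat_lit 170))) (XT.nd (nat_lit 78) (nat_lit 380) (nat_lit 0) (XT.lf (nat_lit 0)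 (nat_lit 8210238904) (nat_lit 304) (nat_lit 7414032297) (nat_lit 380) (nat_lit 3972854411) (nat_lit 94) (nat_lit 5) (nat_lit 98) (nat_lit 5) (nat_lit 99) (nat_lit 5) (nat_lit 338) (nat_lit 273) (nat_lit 169)) (XT.lf (nat_lit 0) (nat_lit 1239866858) (nat_lit 380) (nat_lit 17857511149) (nat_lit 76) (nat_lit 907492414) (nat_lit 89) (nat_lit 5) (nat_lit 94) (nat_lit 5) (nat_lit 90) (nat_lit 5) (nat_lit 339) (nat_lit 273) (nat_lit 168)))))) (XT.nd (nat_lit 546) (nat_lit 1368) (nat_lit 0) (XT.nd (nat_lit 234) (nat_lit 608) (nat_lit 0) (XT.nd (nat_lit 78) (nat_lit 532) (nat_lit 0) (XT.lf (nat_lit 0) (nat_lit 6660454989) (nat_lit 380) (nat_lit 4290490967) (nat_lit 76) (nat_lit 9471278065) (nat_lit 89) (nat_lit 5) (nat_lit 94) (nat_lit 5) (nat_lit 90) (nat_lit 5) (nat_lit 340) (nat_lit 273) (nat_lit 167)) (XT.nd (nat_lit 78) (nat_lit 228) (nat_lit 0) (XT.lf (nat_lit 0) (nat_lit 9778756383) (nat_lit 304)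 (nat_lit 2506938245) (nat_lit 380) (nat_lit 8565573478) (nat_lit 85) (nat_lit 5) (nat_lit 89) (nat_lit 5) (nat_lit 90) (nat_lit 5) (nat_lit 341) (nat_lit 273) (nat_lit 166)) (XT.lf (nat_lit 0) (nat_lit 3002345299) (nat_lit 228) (nat_lit 15145181015) (nat_lit 304) (nat_lit 3144310750) (nat_lit 82) (nat_lit 5) (nat_lit 85) (nat_lit 5) (nat_lit 86) (nat_lit 5) (nat_lit 342) (nat_lit 273) (nat_lit 165)))) (XT.nd (nat_lit 156) (nat_lit 228) (nat_lit 0) (XT.nd (nat_lit 78) (nat_lit 304) (nat_lit 0) (XT.lf (nat_lit 0) (nat_lit 2479028415) (nat_lit 304) (nat_lit 4158821791) (nat_lit 76) (nat_lit 15106037165) (nat_lit 81) (nat_lit 5) (nat_lit 85) (nat_lit 5) (nat_lit 82) (nat_lit 5) (nat_lit 343) (nat_lit 273) (nat_lit 164)) (XT.lf (nat_lit 0) (nat_lit 8290698807) (nat_lit 380) (nat_lit 11741906537) (nat_lit 76) (nat_lit 2175240638) (nat_lit 77) (nat_lit 5) (nat_lit 82) (nat_lit 5) (nat_lit 78) (nat_lit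 5) (nat_lit 344) (nat_lit 273) (nat_lit 163))) (XT.nd (nat_lit 78) (nat_lit 0) (nat_lit 0) (XT.lf (nat_lit 0) (nat_lit 2862700217) (nat_lit 228) (nat_lit 11485427392) (nat_lit 304) (nat_lit 8336176770) (nat_lit 74) (nat_lit 5) (nat_lit 77) (nat_lit 5) (nat_lit 78) (nat_lit 5) (nat_lit 345) (nat_lit 273) (nat_lit 162)) (XT.lf (nat_lit 0) (nat_lit 18035202803) (nat_lit 228) (nat_lit 2612086340) (nat_lit 304) (nat_lit 2526576114) (nat_lit 74) (nat_lit 5) (nat_lit 77) (nat_lit 5) (nat_lit 78) (nat_lit 5) (nat_lit 346) (nat_lit 273) (nat_lit 161))))) (XT.nd (nat_lit 234) (nat_lit 760) (nat_lit 0) (XT.nd (nat_lit 78) (nat_lit 228) (nat_lit 0) (XT.lf (nat_lit 0) (nat_lit 3501078857) (nat_lit 380) (nat_lit 13655654106) (nat_lit 76) (nat_lit 6519157360) (nat_lit 69) (nat_lit 5) (nat_lit 74) (nat_lit 5) (nat_lit 70) (nat_lit 5) (nat_lit 347) (nat_lit 273) (nat_lit 160)) (XT.nd (nat_lit 78) (nat_lit 0) (nat_lit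 0) (XT.lf (nat_lit 0) (nat_lit 1466451058) (nat_lit 228) (nat_lit 8252192608) (nat_lit 304) (nat_lit 14473138580) (nat_lit 66) (nat_lit 5) (nat_lit 69) (nat_lit 5) (nat_lit 70) (nat_lit 5) (nat_lit 348) (nat_lit 273) (nat_lit 159)) (XT.lf (nat_lit 0) (nat_lit 16203306069) (nat_lit 304) (nat_lit 7528706141) (nat_lit 76) (nat_lit 989535314) (nat_lit 66) (nat_lit 5) (nat_lit 70) (nat_lit 5) (nat_lit 67) (nat_lit 5) (nat_lit 349) (nat_lit 273) (nat_lit 158)))) (XT.nd (nat_lit 156) (nat_lit 456) (nat_lit 0) (XT.nd (nat_lit 78) (nat_lit 76) (nat_lit 0) (XT.lf (nat_lit 0) (nat_lit 8146382248) (nat_lit 228) (nat_lit 14826196997) (nat_lit 304) (nat_lit 2292832872) (nat_lit 63) (nat_lit 5) (nat_lit 66) (nat_lit 5) (nat_lit 67) (nat_lit 5) (nat_lit 350) (nat_lit 273) (nat_lit 157)) (XT.lf (nat_lit 0) (nat_lit 4098874179) (nat_lit 304) (nat_lit 1485740740) (nat_lit 76) (nat_lit 20239778979) (nat_lit 62) (nat_lit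 5) (nat_lit 66) (nat_lit 5) (nat_lit 63) (nat_lit 5) (nat_lit 351) (nat_lit 273) (nat_lit 156))) (XT.nd (nat_lit 78) (nat_lit 228) (nat_lit 0) (XT.lf (nat_lit 0) (nat_lit 10756171453) (nat_lit 304) (nat_lit 11657621780) (nat_lit 76) (nat_lit 3983956179) (nat_lit 59) (nat_lit 5) (nat_lit 63) (nat_lit 5) (nat_lit 60) (nat_lit 5) (nat_lit 352) (nat_lit 273) (nat_lit 155)) (XT.lf (nat_lit 0) (nat_lit 4478483243) (nat_lit 228) (nat_lit 13194243779) (nat_lit 304) (nat_lit 9314394758) (nat_lit 56) (nat_lit 5) (nat_lit 59) (nat_lit 5) (nat_lit 60) (nat_lit 5) (nat_lit 353) (nat_lit 273) (nat_lit 154))))))) (XT.nd (nat_lit 34944) (nat_lit 0) (nat_lit 24776) (XT.nd (nat_lit 34398) (nat_lit 0) (nat_lit 33136) (XT.nd (nat_lit 234) (nat_lit 456) (nat_lit 0) (XT.nd (nat_lit 78) (nat_lit 304) (nat_lit 0) (XT.lf (nat_lit 0) (nat_lit 21230850249) (nat_lit 228) (nat_lit 3628223366) (nat_lit 304) (nat_lit 2733862591)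 (nat_lit 56) (nat_lit 5) (nat_lit 59) (nat_lit 5) (nat_lit 60) (nat_lit 5) (nat_lit 354) (nat_lit 273) (nat_lit 153)) (XT.nd (nat_lit 78) (nat_lit 0) (nat_lit 0) (XT.lf (nat_lit 0) (nat_lit 4082893231) (nat_lit 304) (nat_lit 17904804410) (nat_lit 76) (nat_lit 6226871800) (nat_lit 52) (nat_lit 5) (nat_lit 56) (nat_lit 5) (nat_lit 53) (nat_lit 5) (nat_lit 355) (nat_lit 273) (nat_lit 152)) (XT.lf (nat_lit 0) (nat_lit 11118789774) (nat_lit 304) (nat_lit 1354606794) (nat_lit 76) (nat_lit 16380064337) (nat_lit 52) (nat_lit 5) (nat_lit 56) (nat_lit 5) (nat_lit 53) (nat_lit 5) (nat_lit 356) (nat_lit 273) (nat_lit 151)))) (XT.nd (nat_lit 78) (nat_lit 228) (nat_lit 0) (XT.lf (nat_lit 0) (nat_lit 15874426154) (nat_lit 228) (nat_lit 2578781304) (nat_lit 304) (nat_lit 11056568847) (nat_lit 49) (nat_lit 5) (nat_lit 52) (nat_lit 5) (nat_lit 53) (nat_lit 5) (nat_lit 357) (nat_lit 273) (nat_lit 150)) (XT.nd (nat_lit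 78) (nat_lit 76) (nat_lit 0) (XT.lf (nat_lit 0) (nat_lit 3422986563) (nat_lit 152) (nat_lit 22650163059) (nat_lit 228) (nat_lit 4111327603) (nat_lit 47) (nat_lit 5) (nat_lit 49) (nat_lit 5) (nat_lit 50) (nat_lit 5) (nat_lit 358) (nat_lit 273) (nat_lit 149)) (XT.lf (nat_lit 0) (nat_lit 3097405490) (nat_lit 228) (nat_lit 9760949646) (nat_lit 76) (nat_lit 18018773915) (nat_lit 46) (nat_lit 5) (nat_lit 49) (nat_lit 5) (nat_lit 47) (nat_lit 5) (nat_lit 359) (nat_lit 273) (nat_lit 148))))) (XT.nd (nat_lit 234) (nat_lit 1064) (nat_lit 0) (XT.nd (nat_lit 78) (nat_lit 1140) (nat_lit 0) (XT.lf (nat_lit 0) (nat_lit 2381999726) (nat_lit 1140) (nat_lit 632730460) (nat_lit 1140) (nat_lit 632730460) (nat_lit 511) (nat_lit 3) (nat_lit 526) (nat_lit 3) (nat_lit 526) (nat_lit 5) (nat_lit 274) (nat_lit 274) (nat_lit 232)) (XT.nd (nat_lit 78) (nat_lit 1140) (nat_lit 0) (XT.lf (nat_lit 76) (nat_lit 3757261838) (nat_lit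 0) (nat_lit 3316949214) (nat_lit 1140) (nat_lit 282797659) (nat_lit 512) (nat_lit 5) (nat_lit 511) (nat_lit 3) (nat_lit 526) (nat_lit 5) (nat_lit 275) (nat_lit 274) (nat_lit 231)) (XT.lf (nat_lit 76) (nat_lit 1487484672) (nat_lit 0) (nat_lit 449531771) (nat_lit 1216) (nat_lit 5485158224) (nat_lit 497) (nat_lit 5) (nat_lit 496) (nat_lit 5) (nat_lit 512) (nat_lit 5) (nat_lit 276) (nat_lit 274) (nat_lit 230)))) (XT.nd (nat_lit 156) (nat_lit 1140) (nat_lit 0) (XT.nd (nat_lit 78) (nat_lit 0) (nat_lit 0) (XT.lf (nat_lit 0) (nat_lit 4175543640) (nat_lit 1140) (nat_lit 777791461) (nat_lit 1216) (nat_lit 2536899047) (nat_lit 497) (nat_lit 5) (nat_lit 512) (nat_lit 5) (nat_lit 513) (nat_lit 5) (nat_lit 277) (nat_lit 274) (nat_lit 229)) (XT.lf (nat_lit 76) (nat_lit 4544505921) (nat_lit 0) (nat_lit 1886832199) (nat_lit 1216) (nat_lit 1130087442) (nat_lit 498) (nat_lit 5) (nat_lit 497) (nat_lit 5) (nat_lit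 513) (nat_lit 5) (nat_lit 278) (nat_lit 274) (nat_lit 228))) (XT.nd (nat_lit 78) (nat_lit 0) (nat_lit 0) (XT.lf (nat_lit 0) (nat_lit 1053874969) (nat_lit 1216) (nat_lit 5264508154) (nat_lit 1292) (nat_lit 1317341862) (nat_lit 482) (nat_lit 5) (nat_lit 498) (nat_lit 5) (nat_lit 499) (nat_lit 5) (nat_lit 279) (nat_lit 274) (nat_lit 227)) (XT.lf (nat_lit 76) (nat_lit 185116524) (nat_lit 0) (nat_lit 3058735560) (nat_lit 1292) (nat_lit 4469220290) (nat_lit 483) (nat_lit 5) (nat_lit 482) (nat_lit 5) (nat_lit 499) (nat_lit 5) (nat_lit 280) (nat_lit 274) (nat_lit 226)))))) (XT.nd (nat_lit 546) (nat_lit 5928) (nat_lit 0) (XT.nd (nat_lit 234) (nat_lit 1216) (nat_lit 0) (XT.nd (nat_lit 78) (nat_lit 1292) (nat_lit 0) (XT.lf (nat_lit 0) (nat_lit 5460922821) (nat_lit 1216) (nat_lit 1972401014) (nat_lit 1292) (nat_lit 360271344) (nat_lit 483) (nat_lit 5) (nat_lit 499) (nat_lit 5) (nat_lit 500) (nat_lit 5) (nat_lit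 281) (nat_lit 274) (nat_lit 225)) (XT.nd (nat_lit 78) (nat_lit 1292) (nat_lit 0) (XT.lf (nat_lit 76) (nat_lit 3731223289) (nat_lit 0) (nat_lit 3983734655) (nat_lit 1292) (nat_lit 162247146) (nat_lit 484) (nat_lit 5) (nat_lit 483) (nat_lit 5) (nat_lit 500) (nat_lit 5) (nat_lit 282) (nat_lit 274) (nat_lit 224)) (XT.lf (nat_lit 76) (nat_lit 1630372156) (nat_lit 0) (nat_lit 366843179) (nat_lit 1368) (nat_lit 5966893009) (nat_lit 467) (nat_lit 5) (nat_lit 466) (nat_lit 5) (nat_lit 484) (nat_lit 5) (nat_lit 283) (nat_lit 274) (nat_lit 223)))) (XT.nd (nat_lit 156) (nat_lit 1292) (nat_lit 0) (XT.nd (nat_lit 78) (nat_lit 0) (nat_lit 0) (XT.lf (nat_lit 0) (nat_lit 4198413594) (nat_lit 1292) (nat_lit 487613093) (nat_lit 1368) (nat_lit 3368061795) (nat_lit 467) (nat_lit 5) (nat_lit 484) (nat_lit 5) (nat_lit 485) (nat_lit 5) (nat_lit 284) (nat_lit 274) (nat_lit 222)) (XT.lf (nat_lit 76) (nat_lit 5557486298)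 (nat_lit 0) (nat_lit 877821064) (nat_lit 1368) (nat_lit 1712139666) (nat_lit 468) (nat_lit 5) (nat_lit 467) (nat_lit 5) (nat_lit 485) (nat_lit 5) (nat_lit 285) (nat_lit 274) (nat_lit 221))) (XT.nd (nat_lit 78) (nat_lit 0) (nat_lit 0) (XT.lf (nat_lit 0) (nat_lit 467945420) (nat_lit 1368) (nat_lit 4721281938) (nat_lit 1444) (nat_lit 3054808420) (nat_lit 450) (nat_lit 5) (nat_lit 468) (nat_lit 5) (nat_lit 469) (nat_lit 5) (nat_lit 286) (nat_lit 274) (nat_lit 220)) (XT.lf (nat_lit 76) (nat_lit 1465107609) (nat_lit 0) (nat_lit 1192361498) (nat_lit 1444) (nat_lit 5686547508) (nat_lit 451) (nat_lit 5) (nat_lit 450) (nat_lit 5) (nat_lit 469) (nat_lit 5) (nat_lit 287) (nat_lit 274) (nat_lit 219))))) (XT.nd (nat_lit 234) (nat_lit 4636) (nat_lit 0) (XT.nd (nat_lit 78) (nat_lit 1368) (nat_lit 0) (XT.lf (nat_lit 0) (nat_lit 4899711374) (nat_lit 1368) (nat_lit 612329801) (nat_lit 1444) (nat_lit 2935279819) (nat_lit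 451) (nat_lit 5) (nat_lit 469) (nat_lit 5) (nat_lit 470) (nat_lit 5) (nat_lit 288) (nat_lit 274) (nat_lit 218)) (XT.nd (nat_lit 78) (nat_lit 1368) (nat_lit 0) (XT.lf (nat_lit 76) (nat_lit 5864105818) (nat_lit 0) (nat_lit 1328872201) (nat_lit 1444) (nat_lit 1361134229) (nat_lit 452) (nat_lit 5) (nat_lit 451) (nat_lit 5) (nat_lit 470) (nat_lit 5) (nat_lit 289) (nat_lit 274) (nat_lit 217)) (XT.lf (nat_lit 0) (nat_lit 867030940) (nat_lit 1444) (nat_lit 4807317778) (nat_lit 76) (nat_lit 2989947082) (nat_lit 433) (nat_lit 5) (nat_lit 452) (nat_lit 5) (nat_lit 434) (nat_lit 5) (nat_lit 290) (nat_lit 274) (nat_lit 216)))) (XT.nd (nat_lit 156) (nat_lit 3192) (nat_lit 0) (XT.nd (nat_lit 78) (nat_lit 0) (nat_lit 0) (XT.lf (nat_lit 0) (nat_lit 1817742811) (nat_lit 1444) (nat_lit 1305278306) (nat_lit 1520) (nat_lit 5655052461) (nat_lit 414) (nat_lit 5) (nat_lit 433) (nat_lit 5) (nat_lit 434) (nat_lit 5) (nat_lit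 291) (nat_lit 274) (nat_lit 215)) (XT.lf (nat_lit 0) (nat_lit 5442061116) (nat_lit 1520) (nat_lit 256493104) (nat_lit 76) (nat_lit 3196859491) (nat_lit 414) (nat_lit 5) (nat_lit 434) (nat_lit 5) (nat_lit 415) (nat_lit 5) (nat_lit 292) (nat_lit 274) (nat_lit 214))) (XT.nd (nat_lit 78) (nat_lit 1672) (nat_lit 0) (XT.lf (nat_lit 0) (nat_lit 6680472957) (nat_lit 1520) (nat_lit 1145831808) (nat_lit 1596) (nat_lit 1190111411) (nat_lit 394) (nat_lit 5) (nat_lit 414) (nat_lit 5) (nat_lit 415) (nat_lit 5) (nat_lit 293) (nat_lit 274) (nat_lit 213)) (XT.lf (nat_lit 0) (nat_lit 1126079280) (nat_lit 1672) (nat_lit 4469442347) (nat_lit 76) (nat_lit 3545430720) (nat_lit 372) (nat_lit 5) (nat_lit 394) (nat_lit 5) (nat_lit 373) (nat_lit 5) (nat_lit 294) (nat_lit 274) (nat_lit 212))))))))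
noncomputable def xc76 : XT := (XT.nd (nat_lit 2028) (nat_lit 7372) (nat_lit 0) (XT.nd (nat_lit 1014) (nat_lit 6080) (nat_lit 0) (XT.nd (nat_lit 468) (nat_lit 3876) (nat_lit 0) (XT.nd (nat_lit 234) (nat_lit 2508) (nat_lit 0) (XT.nd (nat_lit 78) (nat_lit 1140) (nat_lit 0) (XT.lf (nat_lit 0) (nat_lit 2623606498) (nat_lit 1672) (nat_lit 858531092) (nat_lit 1748) (nat_lit 5787249285) (nat_lit 350) (nat_lit 5) (nat_lit 372) (nat_lit 5) (nat_lit 373) (nat_lit 5) (nat_lit 295) (nat_lit 274) (nat_lit 211)) (XT.nd (nat_lit 78) (nat_lit 0) (nat_lit 0) (XT.lf (nat_lit 0) (nat_lit 522392883) (nat_lit 1140) (nat_lit 5393612144) (nat_lit 1216) (nat_lit 3485576012) (nat_lit 335) (nat_lit 5) (nat_lit 350) (nat_lit 5) (nat_lit 351) (nat_lit 5) (nat_lit 296) (nat_lit 274) (nat_lit 210)) (XT.lf (nat_lit 0) (nat_lit 7943826048) (nat_lit 1140) (nat_lit 478179219) (nat_lit 1216) (nat_lit 1115801139) (nat_lit 335) (nat_lit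 5) (nat_lit 350) (nat_lit 5) (nat_lit 351) (nat_lit 5) (nat_lit 297) (nat_lit 274) (nat_lit 209)))) (XT.nd (nat_lit 78) (nat_lit 1596) (nat_lit 0) (XT.lf (nat_lit 0) (nat_lit 1325819118) (nat_lit 912) (nat_lit 3775634395) (nat_lit 76) (nat_lit 4576175761) (nat_lit 323) (nat_lit 5) (nat_lit 335) (nat_lit 5) (nat_lit 324) (nat_lit 5) (nat_lit 298) (nat_lit 274) (nat_lit 208)) (XT.nd (nat_lit 78) (nat_lit 760) (nat_lit 0) (XT.lf (nat_lit 0) (nat_lit 3815171440) (nat_lit 912) (nat_lit 6005792392) (nat_lit 76) (nat_lit 786726) (nat_lit 312) (nat_lit 5) (nat_lit 324) (nat_lit 5) (nat_lit 313) (nat_lit 5) (nat_lit 299) (nat_lit 274) (nat_lit 207)) (XT.lf (nat_lit 0) (nat_lit 1657899928) (nat_lit 760) (nat_lit 4743796704) (nat_lit 836) (nat_lit 3568091813) (nat_lit 302) (nat_lit 5) (nat_lit 312) (nat_lit 5) (nat_lit 313) (nat_lit 5) (nat_lit 300) (nat_lit 274) (nat_lit 206))))) (XT.nd (nat_lit 234) (nat_lit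 2204) (nat_lit 0) (XT.nd (nat_lit 78) (nat_lit 1672) (nat_lit 0) (XT.lf (nat_lit 0) (nat_lit 9062904786) (nat_lit 836) (nat_lit 538248304) (nat_lit 76) (nat_lit 521214195) (nat_lit 302) (nat_lit 5) (nat_lit 313) (nat_lit 5) (nat_lit 303) (nat_lit 5) (nat_lit 301) (nat_lit 274) (nat_lit 205)) (XT.nd (nat_lit 78) (nat_lit 760) (nat_lit 0) (XT.lf (nat_lit 0) (nat_lit 1539309465) (nat_lit 912) (nat_lit 2799606971) (nat_lit 76) (nat_lit 5939751129) (nat_lit 290) (nat_lit 5) (nat_lit 302) (nat_lit 5) (nat_lit 291) (nat_lit 5) (nat_lit 302) (nat_lit 274) (nat_lit 204)) (XT.lf (nat_lit 0) (nat_lit 4202313047) (nat_lit 836) (nat_lit 5125250974) (nat_lit 76) (nat_lit 1111977931) (nat_lit 280) (nat_lit 5) (nat_lit 291) (nat_lit 5) (nat_lit 281) (nat_lit 5) (nat_lit 303) (nat_lit 274) (nat_lit 203)))) (XT.nd (nat_lit 156) (nat_lit 760) (nat_lit 0) (XT.nd (nat_lit 78) (nat_lit 684) (nat_lit 0) (XT.lf (nat_lit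 0) (nat_lit 3070415089) (nat_lit 760) (nat_lit 3898892775) (nat_lit 836) (nat_lit 3635489975) (nat_lit 270) (nat_lit 5) (nat_lit 280) (nat_lit 5) (nat_lit 281) (nat_lit 5) (nat_lit 304) (nat_lit 274) (nat_lit 202)) (XT.lf (nat_lit 0) (nat_lit 760630148) (nat_lit 684) (nat_lit 9066598142) (nat_lit 760) (nat_lit 947661001) (nat_lit 261) (nat_lit 5) (nat_lit 270) (nat_lit 5) (nat_lit 271) (nat_lit 5) (nat_lit 305) (nat_lit 274) (nat_lit 201))) (XT.nd (nat_lit 78) (nat_lit 684) (nat_lit 0) (XT.lf (nat_lit 0) (nat_lit 1832062403) (nat_lit 760) (nat_lit 1625438268) (nat_lit 76) (nat_lit 7491678044) (nat_lit 260) (nat_lit 5) (nat_lit 270) (nat_lit 5) (nat_lit 261) (nat_lit 5) (nat_lit 306) (nat_lit 274) (nat_lit 200)) (XT.lf (nat_lit 0) (nat_lit 4702484809) (nat_lit 760) (nat_lit 4087068069) (nat_lit 76) (nat_lit 2338648476) (nat_lit 251) (nat_lit 5) (nat_lit 261) (nat_lit 5) (nat_lit 252) (nat_lit 5)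 (nat_lit 307) (nat_lit 274) (nat_lit 199)))))) (XT.nd (nat_lit 468) (nat_lit 2888) (nat_lit 0) (XT.nd (nat_lit 234) (nat_lit 1748) (nat_lit 0) (XT.nd (nat_lit 78) (nat_lit 760) (nat_lit 0) (XT.lf (nat_lit 0) (nat_lit 4671117837) (nat_lit 684) (nat_lit 3012234947) (nat_lit 760) (nat_lit 3628787710) (nat_lit 242) (nat_lit 5) (nat_lit 251) (nat_lit 5) (nat_lit 252) (nat_lit 5) (nat_lit 308) (nat_lit 274) (nat_lit 198)) (XT.nd (nat_lit 78) (nat_lit 76) (nat_lit 0) (XT.lf (nat_lit 0) (nat_lit 2212107408) (nat_lit 684) (nat_lit 8563511694) (nat_lit 760) (nat_lit 725570797) (nat_lit 233) (nat_lit 5) (nat_lit 242) (nat_lit 5) (nat_lit 243) (nat_lit 5) (nat_lit 309) (nat_lit 274) (nat_lit 197)) (XT.lf (nat_lit 0) (nat_lit 2261713163) (nat_lit 760) (nat_lit 352837344) (nat_lit 76) (nat_lit 9080562751) (nat_lit 232) (nat_lit 5) (nat_lit 242) (nat_lit 5) (nat_lit 233) (nat_lit 5) (nat_lit 310) (nat_lit 274)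 (nat_lit 196)))) (XT.nd (nat_lit 78) (nat_lit 1140) (nat_lit 0) (XT.lf (nat_lit 0) (nat_lit 5372278593) (nat_lit 684) (nat_lit 2997053147) (nat_lit 76) (nat_lit 3524585389) (nat_lit 224) (nat_lit 5) (nat_lit 233) (nat_lit 5) (nat_lit 225) (nat_lit 5) (nat_lit 311) (nat_lit 274) (nat_lit 195)) (XT.nd (nat_lit 78) (nat_lit 532) (nat_lit 0) (XT.lf (nat_lit 0) (nat_lit 6352917856) (nat_lit 608) (nat_lit 2247524928) (nat_lit 684) (nat_lit 3497784990) (nat_lit 216) (nat_lit 5) (nat_lit 224) (nat_lit 5) (nat_lit 225) (nat_lit 5) (nat_lit 312) (nat_lit 274) (nat_lit 194)) (XT.lf (nat_lit 0) (nat_lit 3694972327) (nat_lit 532) (nat_lit 8265159483) (nat_lit 608) (nat_lit 347869800) (nat_lit 209) (nat_lit 5) (nat_lit 216) (nat_lit 5) (nat_lit 217) (nat_lit 5) (nat_lit 313) (nat_lit 274) (nat_lit 193))))) (XT.nd (nat_lit 234) (nat_lit 1672) (nat_lit 0) (XT.nd (nat_lit 78) (nat_lit 532) (nat_lit 0) (XT.lf (nat_lit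 0) (nat_lit 908682932) (nat_lit 608) (nat_lit 1974406027) (nat_lit 684) (nat_lit 9640139028) (nat_lit 200) (nat_lit 5) (nat_lit 208) (nat_lit 5) (nat_lit 209) (nat_lit 5) (nat_lit 314) (nat_lit 274) (nat_lit 192)) (XT.nd (nat_lit 78) (nat_lit 532) (nat_lit 0) (XT.lf (nat_lit 0) (nat_lit 6259407034) (nat_lit 684) (nat_lit 1984696317) (nat_lit 76) (nat_lit 4499724067) (nat_lit 200) (nat_lit 5) (nat_lit 209) (nat_lit 5) (nat_lit 201) (nat_lit 5) (nat_lit 315) (nat_lit 274) (nat_lit 191)) (XT.lf (nat_lit 0) (nat_lit 7983871848) (nat_lit 532) (nat_lit 1784327557) (nat_lit 608) (nat_lit 3202246377) (nat_lit 193) (nat_lit 5) (nat_lit 200) (nat_lit 5) (nat_lit 201) (nat_lit 5) (nat_lit 316) (nat_lit 274) (nat_lit 190)))) (XT.nd (nat_lit 156) (nat_lit 532) (nat_lit 0) (XT.nd (nat_lit 78) (nat_lit 532) (nat_lit 0) (XT.lf (nat_lit 0) (nat_lit 221198354) (nat_lit 608) (nat_lit 8136248909) (nat_lit 76) (nat_lit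 4845512826) (nat_lit 185) (nat_lit 5) (nat_lit 193) (nat_lit 5) (nat_lit 186) (nat_lit 5) (nat_lit 317) (nat_lit 274) (nat_lit 189)) (XT.lf (nat_lit 0) (nat_lit 1999304272) (nat_lit 532) (nat_lit 1730987698) (nat_lit 608) (nat_lit 9711228264) (nat_lit 178) (nat_lit 5) (nat_lit 185) (nat_lit 5) (nat_lit 186) (nat_lit 5) (nat_lit 318) (nat_lit 274) (nat_lit 188))) (XT.nd (nat_lit 78) (nat_lit 532) (nat_lit 0) (XT.lf (nat_lit 0) (nat_lit 7401140365) (nat_lit 608) (nat_lit 1210638464) (nat_lit 76) (nat_lit 5074350826) (nat_lit 178) (nat_lit 5) (nat_lit 186) (nat_lit 5) (nat_lit 179) (nat_lit 5) (nat_lit 319) (nat_lit 274) (nat_lit 187)) (XT.lf (nat_lit 0) (nat_lit 9399432529) (nat_lit 532) (nat_lit 1824127343) (nat_lit 608) (nat_lit 2713710042) (nat_lit 171) (nat_lit 5) (nat_lit 178) (nat_lit 5) (nat_lit 179) (nat_lit 5) (nat_lit 320) (nat_lit 274) (nat_lit 186))))))) (XT.nd (nat_lit 1014) (nat_lit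 2888) (nat_lit 0) (XT.nd (nat_lit 468) (nat_lit 2128) (nat_lit 0) (XT.nd (nat_lit 234) (nat_lit 1368) (nat_lit 0) (XT.nd (nat_lit 78) (nat_lit 456) (nat_lit 0) (XT.lf (nat_lit 0) (nat_lit 1003582047) (nat_lit 532) (nat_lit 8045891583) (nat_lit 76) (nat_lit 5145335380) (nat_lit 164) (nat_lit 5) (nat_lit 171) (nat_lit 5) (nat_lit 165) (nat_lit 5) (nat_lit 321) (nat_lit 274) (nat_lit 185)) (XT.nd (nat_lit 78) (nat_lit 0) (nat_lit 0) (XT.lf (nat_lit 0) (nat_lit 2724264616) (nat_lit 456) (nat_lit 2102160848) (nat_lit 532) (nat_lit 9632691877) (nat_lit 158) (nat_lit 5) (nat_lit 164) (nat_lit 5) (nat_lit 165) (nat_lit 5) (nat_lit 322) (nat_lit 274) (nat_lit 184)) (XT.lf (nat_lit 0) (nat_lit 8822059854) (nat_lit 532) (nat_lit 875522964) (nat_lit 76) (nat_lit 5032629252) (nat_lit 158) (nat_lit 5) (nat_lit 165) (nat_lit 5) (nat_lit 159) (nat_lit 5) (nat_lit 323) (nat_lit 274) (nat_lit 183)))) (XT.nd (nat_lit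 78) (nat_lit 912) (nat_lit 0) (XT.lf (nat_lit 0) (nat_lit 10393250383) (nat_lit 456) (nat_lit 2597124596) (nat_lit 532) (nat_lit 2018027127) (nat_lit 152) (nat_lit 5) (nat_lit 158) (nat_lit 5) (nat_lit 159) (nat_lit 5) (nat_lit 324) (nat_lit 274) (nat_lit 182)) (XT.nd (nat_lit 78) (nat_lit 380) (nat_lit 0) (XT.lf (nat_lit 0) (nat_lit 2015177064) (nat_lit 532) (nat_lit 8570708723) (nat_lit 76) (nat_lit 4707762427) (nat_lit 145) (nat_lit 5) (nat_lit 152) (nat_lit 5) (nat_lit 146) (nat_lit 5) (nat_lit 325) (nat_lit 274) (nat_lit 181)) (XT.lf (nat_lit 0) (nat_lit 2845527664) (nat_lit 380) (nat_lit 3336088348) (nat_lit 456) (nat_lit 9404793077) (nat_lit 140) (nat_lit 5) (nat_lit 145) (nat_lit 5) (nat_lit 146) (nat_lit 5) (nat_lit 326) (nat_lit 274) (nat_lit 180))))) (XT.nd (nat_lit 234) (nat_lit 1216) (nat_lit 0) (XT.nd (nat_lit 78) (nat_lit 912) (nat_lit 0) (XT.lf (nat_lit 0) (nat_lit 10531007385)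 (nat_lit 456) (nat_lit 1230545658) (nat_lit 76) (nat_lit 4125257341) (nat_lit 140) (nat_lit 5) (nat_lit 146) (nat_lit 5) (nat_lit 141) (nat_lit 5) (nat_lit 327) (nat_lit 274) (nat_lit 179)) (XT.nd (nat_lit 78) (nat_lit 456) (nat_lit 0) (XT.lf (nat_lit 0) (nat_lit 10706198516) (nat_lit 456) (nat_lit 4369973816) (nat_lit 532) (nat_lit 1118761839) (nat_lit 134) (nat_lit 5) (nat_lit 140) (nat_lit 5) (nat_lit 141) (nat_lit 5) (nat_lit 328) (nat_lit 274) (nat_lit 178)) (XT.lf (nat_lit 0) (nat_lit 3248924693) (nat_lit 456) (nat_lit 9999320747) (nat_lit 76) (nat_lit 3262728350) (nat_lit 128) (nat_lit 5) (nat_lit 134) (nat_lit 5) (nat_lit 129) (nat_lit 5) (nat_lit 329) (nat_lit 274) (nat_lit 177)))) (XT.nd (nat_lit 156) (nat_lit 836) (nat_lit 0) (XT.nd (nat_lit 78) (nat_lit 0) (nat_lit 0) (XT.lf (nat_lit 0) (nat_lit 2064931521) (nat_lit 380) (nat_lit 5721946130) (nat_lit 456) (nat_lit 9048395390) (nat_lit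 123) (nat_lit 5) (nat_lit 128) (nat_lit 5) (nat_lit 129) (nat_lit 5) (nat_lit 330) (nat_lit 274) (nat_lit 176)) (XT.lf (nat_lit 0) (nat_lit 12517080594) (nat_lit 456) (nat_lit 2590078197) (nat_lit 76) (nat_lit 2061034866) (nat_lit 123) (nat_lit 5) (nat_lit 129) (nat_lit 5) (nat_lit 124) (nat_lit 5) (nat_lit 331) (nat_lit 274) (nat_lit 175))) (XT.nd (nat_lit 78) (nat_lit 456) (nat_lit 0) (XT.lf (nat_lit 0) (nat_lit 10013229869) (nat_lit 380) (nat_lit 7454696773) (nat_lit 456) (nat_lit 41614699) (nat_lit 118) (nat_lit 5) (nat_lit 123) (nat_lit 5) (nat_lit 124) (nat_lit 5) (nat_lit 332) (nat_lit 274) (nat_lit 174)) (XT.lf (nat_lit 0) (nat_lit 4674709221) (nat_lit 456) (nat_lit 12691958051) (nat_lit 76) (nat_lit 493259321) (nat_lit 112) (nat_lit 5) (nat_lit 118) (nat_lit 5) (nat_lit 113) (nat_lit 5) (nat_lit 333) (nat_lit 274) (nat_lit 173)))))) (XT.nd (nat_lit 546) (nat_lit 1140) (nat_lit 0) (XT.nd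 (nat_lit 234) (nat_lit 988) (nat_lit 0) (XT.nd (nat_lit 78) (nat_lit 456) (nat_lit 0) (XT.lf (nat_lit 0) (nat_lit 9608017) (nat_lit 304) (nat_lit 9599586926) (nat_lit 380) (nat_lit 8610091320) (nat_lit 108) (nat_lit 5) (nat_lit 112) (nat_lit 5) (nat_lit 113) (nat_lit 5) (nat_lit 334) (nat_lit 274) (nat_lit 172)) (XT.nd (nat_lit 78) (nat_lit 456) (nat_lit 0) (XT.lf (nat_lit 0) (nat_lit 13231488297) (nat_lit 304) (nat_lit 1522886759) (nat_lit 380) (nat_lit 3833811203) (nat_lit 108) (nat_lit 5) (nat_lit 112) (nat_lit 5) (nat_lit 113) (nat_lit 5) (nat_lit 335) (nat_lit 274) (nat_lit 171)) (XT.lf (nat_lit 0) (nat_lit 1144718133) (nat_lit 456) (nat_lit 11066639676) (nat_lit 76) (nat_lit 6755202558) (nat_lit 102) (nat_lit 5) (nat_lit 108) (nat_lit 5) (nat_lit 103) (nat_lit 5) (nat_lit 336) (nat_lit 274) (nat_lit 170)))) (XT.nd (nat_lit 156) (nat_lit 684) (nat_lit 0) (XT.nd (nat_lit 78) (nat_lit 0) (nat_lit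 0) (XT.lf (nat_lit 0) (nat_lit 2231591254) (nat_lit 304) (nat_lit 4027986259) (nat_lit 380) (nat_lit 13095431907) (nat_lit 98) (nat_lit 5) (nat_lit 102) (nat_lit 5) (nat_lit 103) (nat_lit 5) (nat_lit 337) (nat_lit 274) (nat_lit 169)) (XT.lf (nat_lit 0) (nat_lit 11609862613) (nat_lit 380) (nat_lit 3735880612) (nat_lit 76) (nat_lit 4407740544) (nat_lit 98) (nat_lit 5) (nat_lit 103) (nat_lit 5) (nat_lit 99) (nat_lit 5) (nat_lit 338) (nat_lit 274) (nat_lit 168))) (XT.nd (nat_lit 78) (nat_lit 380) (nat_lit 0) (XT.lf (nat_lit 0) (nat_lit 10126684270) (nat_lit 304) (nat_lit 7065220003) (nat_lit 380) (nat_lit 2970594202) (nat_lit 94) (nat_lit 5) (nat_lit 98) (nat_lit 5) (nat_lit 99) (nat_lit 5) (nat_lit 339) (nat_lit 274) (nat_lit 167)) (XT.lf (nat_lit 0) (nat_lit 2366049755) (nat_lit 380) (nat_lit 16716659979) (nat_lit 76) (nat_lit 1499991363) (nat_lit 89) (nat_lit 5) (nat_lit 94) (nat_lit 5) (nat_lit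 90) (nat_lit 5) (nat_lit 340) (nat_lit 274) (nat_lit 166))))) (XT.nd (nat_lit 234) (nat_lit 608) (nat_lit 0) (XT.nd (nat_lit 78) (nat_lit 532) (nat_lit 0) (XT.lf (nat_lit 0) (nat_lit 7917537465) (nat_lit 380) (nat_lit 2791461516) (nat_lit 76) (nat_lit 10304226287) (nat_lit 89) (nat_lit 5) (nat_lit 94) (nat_lit 5) (nat_lit 90) (nat_lit 5) (nat_lit 341) (nat_lit 274) (nat_lit 165)) (XT.nd (nat_lit 78) (nat_lit 228) (nat_lit 0) (XT.lf (nat_lit 0) (nat_lit 11673455039) (nat_lit 304) (nat_lit 2017681952) (nat_lit 380) (nat_lit 7764426780) (nat_lit 85) (nat_lit 5) (nat_lit 89) (nat_lit 5) (nat_lit 90) (nat_lit 5) (nat_lit 342) (nat_lit 274) (nat_lit 164)) (XT.lf (nat_lit 0) (nat_lit 4685064176) (nat_lit 228) (nat_lit 15027457974) (nat_lit 304) (nat_lit 2197168384) (nat_lit 82) (nat_lit 5) (nat_lit 85) (nat_lit 5) (nat_lit 86) (nat_lit 5) (nat_lit 343) (nat_lit 274) (nat_lit 163)))) (XT.nd (nat_lit 156)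 (nat_lit 228) (nat_lit 0) (XT.nd (nat_lit 78) (nat_lit 304) (nat_lit 0) (XT.lf (nat_lit 0) (nat_lit 3551275579) (nat_lit 304) (nat_lit 2723597867) (nat_lit 76) (nat_lit 16100906391) (nat_lit 81) (nat_lit 5) (nat_lit 85) (nat_lit 5) (nat_lit 82) (nat_lit 5) (nat_lit 344) (nat_lit 274) (nat_lit 162)) (XT.lf (nat_lit 0) (nat_lit 9521805175) (nat_lit 380) (nat_lit 10543064850) (nat_lit 76) (nat_lit 2789110589) (nat_lit 77) (nat_lit 5) (nat_lit 82) (nat_lit 5) (nat_lit 78) (nat_lit 5) (nat_lit 345) (nat_lit 274) (nat_lit 161))) (XT.nd (nat_lit 78) (nat_lit 0) (nat_lit 0) (XT.lf (nat_lit 0) (nat_lit 4474515371) (nat_lit 228) (nat_lit 11267735681) (nat_lit 304) (nat_lit 7602869023) (nat_lit 74) (nat_lit 5) (nat_lit 77) (nat_lit 5) (nat_lit 78) (nat_lit 5) (nat_lit 346) (nat_lit 274) (nat_lit 160)) (XT.lf (nat_lit 0) (nat_lit 20057748350) (nat_lit 228) (nat_lit 2144570744) (nat_lit 304) (nat_lit 1647622863)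 (nat_lit 74) (nat_lit 5) (nat_lit 77) (nat_lit 5) (nat_lit 78) (nat_lit 5) (nat_lit 347) (nat_lit 274) (nat_lit 159))))))))
noncomputable def xc77 : XT := (XT.nd (nat_lit 36036) (nat_lit 0) (nat_lit 11628) (XT.nd (nat_lit 35022) (nat_lit 0) (nat_lit 30552) (XT.nd (nat_lit 468) (nat_lit 912) (nat_lit 0) (XT.nd (nat_lit 234) (nat_lit 532) (nat_lit 0) (XT.nd (nat_lit 78) (nat_lit 228) (nat_lit 0) (XT.lf (nat_lit 0) (nat_lit 4533985932) (nat_lit 380) (nat_lit 12579790197) (nat_lit 76) (nat_lit 7253426943) (nat_lit 69) (nat_lit 5) (nat_lit 74) (nat_lit 5) (nat_lit 70) (nat_lit 5) (nat_lit 348) (nat_lit 274) (nat_lit 158)) (XT.nd (nat_lit 78) (nat_lit 0) (nat_lit 0) (XT.lf (nat_lit 0) (nat_lit 2971877105) (nat_lit 228) (nat_lit 7948663693) (nat_lit 304) (nat_lit 13978393533) (nat_lit 66) (nat_lit 5) (nat_lit 69) (nat_lit 5) (nat_lit 70) (nat_lit 5) (nat_lit 349) (nat_lit 274) (nat_lit 157)) (XT.lf (nat_lit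 0) (nat_lit 17576702235) (nat_lit 304) (nat_lit 6321115068) (nat_lit 76) (nat_lit 1547247575) (nat_lit 66) (nat_lit 5) (nat_lit 70) (nat_lit 5) (nat_lit 67) (nat_lit 5) (nat_lit 350) (nat_lit 274) (nat_lit 156)))) (XT.nd (nat_lit 78) (nat_lit 304) (nat_lit 0) (XT.lf (nat_lit 0) (nat_lit 9800969913) (nat_lit 228) (nat_lit 14731396020) (nat_lit 304) (nat_lit 1473224387) (nat_lit 63) (nat_lit 5) (nat_lit 66) (nat_lit 5) (nat_lit 67) (nat_lit 5) (nat_lit 351) (nat_lit 274) (nat_lit 155)) (XT.nd (nat_lit 78) (nat_lit 228) (nat_lit 0) (XT.lf (nat_lit 0) (nat_lit 5073046260) (nat_lit 304) (nat_lit 149524304) (nat_lit 76) (nat_lit 21359176975) (nat_lit 62) (nat_lit 5) (nat_lit 66) (nat_lit 5) (nat_lit 63) (nat_lit 5) (nat_lit 352) (nat_lit 274) (nat_lit 154)) (XT.lf (nat_lit 0) (nat_lit 11917486261) (nat_lit 304) (nat_lit 10635311687) (nat_lit 76) (nat_lit 4619767607) (nat_lit 59) (nat_lit 5) (nat_lit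 63) (nat_lit 5) (nat_lit 60) (nat_lit 5) (nat_lit 353) (nat_lit 274) (nat_lit 153))))) (XT.nd (nat_lit 234) (nat_lit 380) (nat_lit 0) (XT.nd (nat_lit 78) (nat_lit 304) (nat_lit 0) (XT.lf (nat_lit 0) (nat_lit 5962616787) (nat_lit 228) (nat_lit 13063259264) (nat_lit 304) (nat_lit 8754066305) (nat_lit 56) (nat_lit 5) (nat_lit 59) (nat_lit 5) (nat_lit 60) (nat_lit 5) (nat_lit 354) (nat_lit 274) (nat_lit 152)) (XT.nd (nat_lit 78) (nat_lit 304) (nat_lit 0) (XT.lf (nat_lit 0) (nat_lit 23178240850) (nat_lit 228) (nat_lit 3225602273) (nat_lit 304) (nat_lit 2000577210) (nat_lit 56) (nat_lit 5) (nat_lit 59) (nat_lit 5) (nat_lit 60) (nat_lit 5) (nat_lit 355) (nat_lit 274) (nat_lit 151)) (XT.lf (nat_lit 0) (nat_lit 4998307964) (nat_lit 304) (nat_lit 17129125650) (nat_lit 76) (nat_lit 6917405943) (nat_lit 52) (nat_lit 5) (nat_lit 56) (nat_lit 5) (nat_lit 53) (nat_lit 5) (nat_lit 356) (nat_lit 274) (nat_lit 150))))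 (XT.nd (nat_lit 156) (nat_lit 152) (nat_lit 0) (XT.nd (nat_lit 78) (nat_lit 228) (nat_lit 0) (XT.lf (nat_lit 0) (nat_lit 12222186414) (nat_lit 304) (nat_lit 120659666) (nat_lit 76) (nat_lit 17360522567) (nat_lit 52) (nat_lit 5) (nat_lit 56) (nat_lit 5) (nat_lit 53) (nat_lit 5) (nat_lit 357) (nat_lit 274) (nat_lit 149)) (XT.lf (nat_lit 0) (nat_lit 17604565638) (nat_lit 228) (nat_lit 2157789866) (nat_lit 304) (nat_lit 10617312349) (nat_lit 49) (nat_lit 5) (nat_lit 52) (nat_lit 5) (nat_lit 53) (nat_lit 5) (nat_lit 358) (nat_lit 274) (nat_lit 148))) (XT.nd (nat_lit 34086) (nat_lit 0) (nat_lit 34124) (XT.lf (nat_lit 0) (nat_lit 4771208423) (nat_lit 152) (nat_lit 22828909378) (nat_lit 228) (nat_lit 3474716032) (nat_lit 47) (nat_lit 5) (nat_lit 49) (nat_lit 5) (nat_lit 50) (nat_lit 5) (nat_lit 359) (nat_lit 274) (nat_lit 147)) (XT.lf (nat_lit 0) (nat_lit 464943226) (nat_lit 0) (nat_lit 464943226) (nat_lit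 1140) (nat_lit 2780355928) (nat_lit 496) (nat_lit 5) (nat_lit 496) (nat_lit 3) (nat_lit 511) (nat_lit 3) (nat_lit 275) (nat_lit 275) (nat_lit 230)))))) (XT.nd (nat_lit 468) (nat_lit 2432) (nat_lit 0) (XT.nd (nat_lit 234) (nat_lit 0) (nat_lit 0) (XT.nd (nat_lit 78) (nat_lit 1140) (nat_lit 0) (XT.lf (nat_lit 0) (nat_lit 4018390674) (nat_lit 1140) (nat_lit 1440659780) (nat_lit 1216) (nat_lit 2027760162) (nat_lit 496) (nat_lit 5) (nat_lit 511) (nat_lit 3) (nat_lit 512) (nat_lit 5) (nat_lit 276) (nat_lit 275) (nat_lit 229)) (XT.nd (nat_lit 78) (nat_lit 1140) (nat_lit 0) (XT.lf (nat_lit 76) (nat_lit 3760547529) (nat_lit 0) (nat_lit 2429486794) (nat_lit 1216) (nat_lit 1366218952) (nat_lit 497) (nat_lit 5) (nat_lit 496) (nat_lit 5) (nat_lit 512) (nat_lit 5) (nat_lit 277) (nat_lit 275) (nat_lit 228)) (XT.lf (nat_lit 0) (nat_lit 732031651) (nat_lit 1216) (nat_lit 6153583720) (nat_lit 1292) (nat_lit 743278746)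 (nat_lit 481) (nat_lit 5) (nat_lit 497) (nat_lit 5) (nat_lit 498) (nat_lit 5) (nat_lit 278) (nat_lit 275) (nat_lit 227)))) (XT.nd (nat_lit 78) (nat_lit 0) (nat_lit 0) (XT.lf (nat_lit 0) (nat_lit 2838354898) (nat_lit 1216) (nat_lit 817313628) (nat_lit 1292) (nat_lit 4048676679) (nat_lit 481) (nat_lit 5) (nat_lit 497) (nat_lit 5) (nat_lit 498) (nat_lit 5) (nat_lit 279) (nat_lit 275) (nat_lit 226)) (XT.nd (nat_lit 78) (nat_lit 0) (nat_lit 76) (XT.lf (nat_lit 76) (nat_lit 4696983040) (nat_lit 0) (nat_lit 265111397) (nat_lit 1292) (nat_lit 2820963736) (nat_lit 482) (nat_lit 5) (nat_lit 481) (nat_lit 5) (nat_lit 498) (nat_lit 5) (nat_lit 280) (nat_lit 275) (nat_lit 225)) (XT.lf (nat_lit 76) (nat_lit 2490826840) (nat_lit 0) (nat_lit 4627296253) (nat_lit 1292) (nat_lit 746718366) (nat_lit 483) (nat_lit 5) (nat_lit 482) (nat_lit 5) (nat_lit 499) (nat_lit 5) (nat_lit 281) (nat_lit 275) (nat_lit 224)))))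 (XT.nd (nat_lit 234) (nat_lit 1216) (nat_lit 0) (XT.nd (nat_lit 78) (nat_lit 0) (nat_lit 76) (XT.lf (nat_lit 76) (nat_lit 276263055) (nat_lit 0) (nat_lit 1047076313) (nat_lit 1368) (nat_lit 6626598763) (nat_lit 466) (nat_lit 5) (nat_lit 465) (nat_lit 5) (nat_lit 483) (nat_lit 5) (nat_lit 282) (nat_lit 275) (nat_lit 223)) (XT.nd (nat_lit 78) (nat_lit 0) (nat_lit 0) (XT.lf (nat_lit 0) (nat_lit 3428413577) (nat_lit 1292) (nat_lit 1935609209) (nat_lit 1368) (nat_lit 2673879370) (nat_lit 466) (nat_lit 5) (nat_lit 483) (nat_lit 5) (nat_lit 484) (nat_lit 5) (nat_lit 283) (nat_lit 275) (nat_lit 222)) (XT.lf (nat_lit 76) (nat_lit 3975089374) (nat_lit 0) (nat_lit 1585624433) (nat_lit 1368) (nat_lit 2568582011) (nat_lit 467) (nat_lit 5) (nat_lit 466) (nat_lit 5) (nat_lit 484) (nat_lit 5) (nat_lit 284) (nat_lit 275) (nat_lit 221)))) (XT.nd (nat_lit 156) (nat_lit 0) (nat_lit 76) (XT.nd (nat_lit 78) (nat_lit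 1368) (nat_lit 0) (XT.lf (nat_lit 76) (nat_lit 1829897277) (nat_lit 0) (nat_lit 5900272282) (nat_lit 1368) (nat_lit 493868093) (nat_lit 468) (nat_lit 5) (nat_lit 467) (nat_lit 5) (nat_lit 485) (nat_lit 5) (nat_lit 285) (nat_lit 275) (nat_lit 220)) (XT.lf (nat_lit 0) (nat_lit 1594765985) (nat_lit 1368) (nat_lit 337808854) (nat_lit 1444) (nat_lit 6389435695) (nat_lit 449) (nat_lit 5) (nat_lit 467) (nat_lit 5) (nat_lit 468) (nat_lit 5) (nat_lit 286) (nat_lit 275) (nat_lit 219))) (XT.nd (nat_lit 78) (nat_lit 0) (nat_lit 0) (XT.lf (nat_lit 0) (nat_lit 3728482295) (nat_lit 1368) (nat_lit 2507478178) (nat_lit 1444) (nat_lit 2187178954) (nat_lit 450) (nat_lit 5) (nat_lit 468) (nat_lit 5) (nat_lit 469) (nat_lit 5) (nat_lit 287) (nat_lit 275) (nat_lit 218)) (XT.lf (nat_lit 76) (nat_lit 3826288804) (nat_lit 0) (nat_lit 2077889661) (nat_lit 1444) (nat_lit 2623627240) (nat_lit 451) (nat_lit 5) (nat_lit 450)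 (nat_lit 5) (nat_lit 469) (nat_lit 5) (nat_lit 288) (nat_lit 275) (nat_lit 217))))))) (XT.nd (nat_lit 1014) (nat_lit 7752) (nat_lit 0) (XT.nd (nat_lit 468) (nat_lit 6916) (nat_lit 0) (XT.nd (nat_lit 234) (nat_lit 2964) (nat_lit 0) (XT.nd (nat_lit 78) (nat_lit 1444) (nat_lit 0) (XT.lf (nat_lit 76) (nat_lit 1711432026) (nat_lit 0) (nat_lit 6415768942) (nat_lit 1444) (nat_lit 508830950) (nat_lit 452) (nat_lit 5) (nat_lit 451) (nat_lit 5) (nat_lit 470) (nat_lit 5) (nat_lit 289) (nat_lit 275) (nat_lit 216)) (XT.nd (nat_lit 78) (nat_lit 0) (nat_lit 76) (XT.lf (nat_lit 0) (nat_lit 1634024463) (nat_lit 1444) (nat_lit 436500393) (nat_lit 1520) (nat_lit 6677091200) (nat_lit 432) (nat_lit 5) (nat_lit 451) (nat_lit 5) (nat_lit 452) (nat_lit 5) (nat_lit 290) (nat_lit 275) (nat_lit 215)) (XT.lf (nat_lit 0) (nat_lit 3833340421) (nat_lit 1444) (nat_lit 2598133865) (nat_lit 76) (nat_lit 2431080828) (nat_lit 433)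 (nat_lit 5) (nat_lit 452) (nat_lit 5) (nat_lit 434) (nat_lit 5) (nat_lit 291) (nat_lit 275) (nat_lit 214)))) (XT.nd (nat_lit 78) (nat_lit 1596) (nat_lit 0) (XT.lf (nat_lit 0) (nat_lit 4187497367) (nat_lit 1444) (nat_lit 1898905132) (nat_lit 1520) (nat_lit 2894839289) (nat_lit 414) (nat_lit 5) (nat_lit 433) (nat_lit 5) (nat_lit 434) (nat_lit 5) (nat_lit 292) (nat_lit 275) (nat_lit 213)) (XT.nd (nat_lit 78) (nat_lit 76) (nat_lit 0) (XT.lf (nat_lit 0) (nat_lit 2072701042) (nat_lit 1520) (nat_lit 6328691655) (nat_lit 1596) (nat_lit 702262822) (nat_lit 394) (nat_lit 5) (nat_lit 414) (nat_lit 5) (nat_lit 415) (nat_lit 5) (nat_lit 293) (nat_lit 275) (nat_lit 212)) (XT.lf (nat_lit 0) (nat_lit 1527155388) (nat_lit 1596) (nat_lit 86888763) (nat_lit 76) (nat_lit 7615716613) (nat_lit 393) (nat_lit 5) (nat_lit 414) (nat_lit 5) (nat_lit 394) (nat_lit 5) (nat_lit 294) (nat_lit 275) (nat_lit 211))))) (XT.nd (nat_lit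 234) (nat_lit 2508) (nat_lit 0) (XT.nd (nat_lit 78) (nat_lit 2812) (nat_lit 0) (XT.lf (nat_lit 0) (nat_lit 3829216121) (nat_lit 1672) (nat_lit 2271328757) (nat_lit 76) (nat_lit 3258754577) (nat_lit 372) (nat_lit 5) (nat_lit 394) (nat_lit 5) (nat_lit 373) (nat_lit 5) (nat_lit 295) (nat_lit 275) (nat_lit 210)) (XT.nd (nat_lit 78) (nat_lit 1140) (nat_lit 0) (XT.lf (nat_lit 0) (nat_lit 4996674430) (nat_lit 1672) (nat_lit 1196430067) (nat_lit 1748) (nat_lit 3299812206) (nat_lit 350) (nat_lit 5) (nat_lit 372) (nat_lit 5) (nat_lit 373) (nat_lit 5) (nat_lit 296) (nat_lit 275) (nat_lit 209)) (XT.lf (nat_lit 0) (nat_lit 2850861646) (nat_lit 1140) (nat_lit 5786257355) (nat_lit 1216) (nat_lit 993285605) (nat_lit 335) (nat_lit 5) (nat_lit 350) (nat_lit 5) (nat_lit 351) (nat_lit 5) (nat_lit 297) (nat_lit 275) (nat_lit 208)))) (XT.nd (nat_lit 156) (nat_lit 1596) (nat_lit 0) (XT.nd (nat_lit 78) (nat_lit 0) (nat_lit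 0) (XT.lf (nat_lit 0) (nat_lit 654990578) (nat_lit 836) (nat_lit 703214619) (nat_lit 912) (nat_lit 8413798543) (nat_lit 323) (nat_lit 5) (nat_lit 334) (nat_lit 5) (nat_lit 335) (nat_lit 5) (nat_lit 298) (nat_lit 275) (nat_lit 207)) (XT.lf (nat_lit 0) (nat_lit 3794634786) (nat_lit 912) (nat_lit 1593178730) (nat_lit 76) (nat_lit 4529391051) (nat_lit 323) (nat_lit 5) (nat_lit 335) (nat_lit 5) (nat_lit 324) (nat_lit 5) (nat_lit 299) (nat_lit 275) (nat_lit 206))) (XT.nd (nat_lit 78) (nat_lit 760) (nat_lit 0) (XT.lf (nat_lit 0) (nat_lit 6188921641) (nat_lit 836) (nat_lit 113655482) (nat_lit 912) (nat_lit 3764257462) (nat_lit 312) (nat_lit 5) (nat_lit 323) (nat_lit 5) (nat_lit 324) (nat_lit 5) (nat_lit 300) (nat_lit 275) (nat_lit 205)) (XT.lf (nat_lit 0) (nat_lit 3978970678) (nat_lit 760) (nat_lit 4932642899) (nat_lit 836) (nat_lit 1308863161) (nat_lit 302) (nat_lit 5) (nat_lit 312) (nat_lit 5) (nat_lit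 313) (nat_lit 5) (nat_lit 301) (nat_lit 275) (nat_lit 204)))))) (XT.nd (nat_lit 546) (nat_lit 3876) (nat_lit 0) (XT.nd (nat_lit 234) (nat_lit 2204) (nat_lit 0) (XT.nd (nat_lit 78) (nat_lit 760) (nat_lit 0) (XT.lf (nat_lit 0) (nat_lit 1201236470) (nat_lit 912) (nat_lit 8666090184) (nat_lit 76) (nat_lit 511340535) (nat_lit 290) (nat_lit 5) (nat_lit 302) (nat_lit 5) (nat_lit 291) (nat_lit 5) (nat_lit 302) (nat_lit 275) (nat_lit 203)) (XT.nd (nat_lit 78) (nat_lit 760) (nat_lit 0) (XT.lf (nat_lit 0) (nat_lit 3800869768) (nat_lit 912) (nat_lit 636337704) (nat_lit 76) (nat_lit 6103619880) (nat_lit 290) (nat_lit 5) (nat_lit 302) (nat_lit 5) (nat_lit 291) (nat_lit 5) (nat_lit 303) (nat_lit 275) (nat_lit 202)) (XT.lf (nat_lit 0) (nat_lit 6493887761) (nat_lit 836) (nat_lit 3023364423) (nat_lit 76) (nat_lit 1190328426) (nat_lit 280) (nat_lit 5) (nat_lit 291) (nat_lit 5) (nat_lit 281) (nat_lit 5) (nat_lit 304)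 (nat_lit 275) (nat_lit 201)))) (XT.nd (nat_lit 156) (nat_lit 684) (nat_lit 0) (XT.nd (nat_lit 78) (nat_lit 760) (nat_lit 0) (XT.lf (nat_lit 0) (nat_lit 5381576477) (nat_lit 760) (nat_lit 3913650512) (nat_lit 836) (nat_lit 1583594012) (nat_lit 270) (nat_lit 5) (nat_lit 280) (nat_lit 5) (nat_lit 281) (nat_lit 5) (nat_lit 305) (nat_lit 275) (nat_lit 200)) (XT.lf (nat_lit 0) (nat_lit 1122410544) (nat_lit 760) (nat_lit 8053133955) (nat_lit 76) (nat_lit 1879306169) (nat_lit 260) (nat_lit 5) (nat_lit 270) (nat_lit 5) (nat_lit 261) (nat_lit 5) (nat_lit 306) (nat_lit 275) (nat_lit 199))) (XT.nd (nat_lit 78) (nat_lit 0) (nat_lit 0) (XT.lf (nat_lit 0) (nat_lit 522176668) (nat_lit 684) (nat_lit 3393189157) (nat_lit 760) (nat_lit 7320072825) (nat_lit 251) (nat_lit 5) (nat_lit 260) (nat_lit 5) (nat_lit 261) (nat_lit 5) (nat_lit 307) (nat_lit 275) (nat_lit 198)) (XT.lf (nat_lit 0) (nat_lit 6824646713) (nat_lit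 760) (nat_lit 2015603305) (nat_lit 76) (nat_lit 2580575049) (nat_lit 251) (nat_lit 5) (nat_lit 261) (nat_lit 5) (nat_lit 252) (nat_lit 5) (nat_lit 308) (nat_lit 275) (nat_lit 197))))) (XT.nd (nat_lit 234) (nat_lit 1824) (nat_lit 0) (XT.nd (nat_lit 78) (nat_lit 1368) (nat_lit 0) (XT.lf (nat_lit 0) (nat_lit 6969731888) (nat_lit 684) (nat_lit 2881521553) (nat_lit 760) (nat_lit 1759949305) (nat_lit 242) (nat_lit 5) (nat_lit 251) (nat_lit 5) (nat_lit 252) (nat_lit 5) (nat_lit 309) (nat_lit 275) (nat_lit 196)) (XT.nd (nat_lit 78) (nat_lit 608) (nat_lit 0) (XT.lf (nat_lit 0) (nat_lit 1172911114) (nat_lit 760) (nat_lit 7374337062) (nat_lit 76) (nat_lit 3259386395) (nat_lit 232) (nat_lit 5) (nat_lit 242) (nat_lit 5) (nat_lit 233) (nat_lit 5) (nat_lit 310) (nat_lit 275) (nat_lit 195)) (XT.lf (nat_lit 0) (nat_lit 1784806654) (nat_lit 608) (nat_lit 2411149514) (nat_lit 684) (nat_lit 7811246620) (nat_lit 224)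 (nat_lit 5) (nat_lit 232) (nat_lit 5) (nat_lit 233) (nat_lit 5) (nat_lit 311) (nat_lit 275) (nat_lit 194)))) (XT.nd (nat_lit 156) (nat_lit 1216) (nat_lit 0) (XT.nd (nat_lit 78) (nat_lit 608) (nat_lit 0) (XT.lf (nat_lit 0) (nat_lit 7349590890) (nat_lit 684) (nat_lit 960727082) (nat_lit 76) (nat_lit 3902699582) (nat_lit 224) (nat_lit 5) (nat_lit 233) (nat_lit 5) (nat_lit 225) (nat_lit 5) (nat_lit 312) (nat_lit 275) (nat_lit 193)) (XT.lf (nat_lit 0) (nat_lit 8635247371) (nat_lit 608) (nat_lit 2000036216) (nat_lit 684) (nat_lit 1789000869) (nat_lit 216) (nat_lit 5) (nat_lit 224) (nat_lit 5) (nat_lit 225) (nat_lit 5) (nat_lit 313) (nat_lit 275) (nat_lit 192))) (XT.nd (nat_lit 78) (nat_lit 608) (nat_lit 0) (XT.lf (nat_lit 0) (nat_lit 1399861286) (nat_lit 608) (nat_lit 6752416587) (nat_lit 76) (nat_lit 4488652547) (nat_lit 208) (nat_lit 5) (nat_lit 216) (nat_lit 5) (nat_lit 209) (nat_lit 5) (nat_lit 314)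 (nat_lit 275) (nat_lit 191)) (XT.lf (nat_lit 0) (nat_lit 3018280063) (nat_lit 608) (nat_lit 1667217529) (nat_lit 684) (nat_lit 8177858035) (nat_lit 200) (nat_lit 5) (nat_lit 208) (nat_lit 5) (nat_lit 209) (nat_lit 5) (nat_lit 315) (nat_lit 275) (nat_lit 190))))))))
noncomputable def xc78 : XT := (XT.nd (nat_lit 2028) (nat_lit 3040) (nat_lit 0) (XT.nd (nat_lit 1014) (nat_lit 3420) (nat_lit 0) (XT.nd (nat_lit 468) (nat_lit 2812) (nat_lit 0) (XT.nd (nat_lit 234) (nat_lit 1064) (nat_lit 0) (XT.nd (nat_lit 78) (nat_lit 608) (nat_lit 0) (XT.lf (nat_lit 0) (nat_lit 9800845) (nat_lit 532) (nat_lit 8105699616) (nat_lit 608) (nat_lit 4976061107) (nat_lit 193) (nat_lit 5) (nat_lit 200) (nat_lit 5) (nat_lit 201) (nat_lit 5) (nat_lit 316) (nat_lit 275) (nat_lit 189)) (XT.nd (nat_lit 78) (nat_lit 608) (nat_lit 0) (XT.lf (nat_lit 0) (nat_lit 10243975274) (nat_lit 532) (nat_lit 1450046953) (nat_lit 608) (nat_lit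 1631702316) (nat_lit 193) (nat_lit 5) (nat_lit 200) (nat_lit 5) (nat_lit 201) (nat_lit 5) (nat_lit 317) (nat_lit 275) (nat_lit 188)) (XT.lf (nat_lit 0) (nat_lit 1840336158) (nat_lit 608) (nat_lit 6339170531) (nat_lit 76) (nat_lit 5386169878) (nat_lit 185) (nat_lit 5) (nat_lit 193) (nat_lit 5) (nat_lit 186) (nat_lit 5) (nat_lit 318) (nat_lit 275) (nat_lit 187)))) (XT.nd (nat_lit 78) (nat_lit 532) (nat_lit 0) (XT.lf (nat_lit 0) (nat_lit 4067333755) (nat_lit 532) (nat_lit 1353440348) (nat_lit 608) (nat_lit 8391330669) (nat_lit 178) (nat_lit 5) (nat_lit 185) (nat_lit 5) (nat_lit 186) (nat_lit 5) (nat_lit 319) (nat_lit 275) (nat_lit 186)) (XT.nd (nat_lit 78) (nat_lit 0) (nat_lit 0) (XT.lf (nat_lit 0) (nat_lit 741331064) (nat_lit 532) (nat_lit 8421959466) (nat_lit 608) (nat_lit 4901562831) (nat_lit 171) (nat_lit 5) (nat_lit 178) (nat_lit 5) (nat_lit 179) (nat_lit 5) (nat_lit 320) (nat_lit 275) (nat_lit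 185)) (XT.lf (nat_lit 0) (nat_lit 11627881616) (nat_lit 532) (nat_lit 1435607989) (nat_lit 608) (nat_lit 1260806896) (nat_lit 171) (nat_lit 5) (nat_lit 178) (nat_lit 5) (nat_lit 179) (nat_lit 5) (nat_lit 321) (nat_lit 275) (nat_lit 184))))) (XT.nd (nat_lit 234) (nat_lit 1368) (nat_lit 0) (XT.nd (nat_lit 78) (nat_lit 912) (nat_lit 0) (XT.lf (nat_lit 0) (nat_lit 2519287444) (nat_lit 532) (nat_lit 6323904970) (nat_lit 76) (nat_lit 5746771322) (nat_lit 164) (nat_lit 5) (nat_lit 171) (nat_lit 5) (nat_lit 165) (nat_lit 5) (nat_lit 322) (nat_lit 275) (nat_lit 183)) (XT.nd (nat_lit 78) (nat_lit 456) (nat_lit 0) (XT.lf (nat_lit 0) (nat_lit 4737502677) (nat_lit 456) (nat_lit 1688584288) (nat_lit 532) (nat_lit 8436757407) (nat_lit 158) (nat_lit 5) (nat_lit 164) (nat_lit 5) (nat_lit 165) (nat_lit 5) (nat_lit 323) (nat_lit 275) (nat_lit 182)) (XT.lf (nat_lit 0) (nat_lit 1012915271) (nat_lit 456) (nat_lit 9495881352)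 (nat_lit 532) (nat_lit 4633958840) (nat_lit 152) (nat_lit 5) (nat_lit 158) (nat_lit 5) (nat_lit 159) (nat_lit 5) (nat_lit 324) (nat_lit 275) (nat_lit 181)))) (XT.nd (nat_lit 156) (nat_lit 836) (nat_lit 0) (XT.nd (nat_lit 78) (nat_lit 532) (nat_lit 0) (XT.lf (nat_lit 0) (nat_lit 12575618983) (nat_lit 456) (nat_lit 2190882579) (nat_lit 532) (nat_lit 663529669) (nat_lit 152) (nat_lit 5) (nat_lit 158) (nat_lit 5) (nat_lit 159) (nat_lit 5) (nat_lit 325) (nat_lit 275) (nat_lit 180)) (XT.lf (nat_lit 0) (nat_lit 3446701011) (nat_lit 532) (nat_lit 6943468264) (nat_lit 76) (nat_lit 5334015470) (nat_lit 145) (nat_lit 5) (nat_lit 152) (nat_lit 5) (nat_lit 146) (nat_lit 5) (nat_lit 326) (nat_lit 275) (nat_lit 179))) (XT.nd (nat_lit 78) (nat_lit 456) (nat_lit 0) (XT.lf (nat_lit 0) (nat_lit 4784683684) (nat_lit 380) (nat_lit 2925551441) (nat_lit 456) (nat_lit 8316076084) (nat_lit 140) (nat_lit 5) (nat_lit 145)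 (nat_lit 5) (nat_lit 146) (nat_lit 5) (nat_lit 327) (nat_lit 275) (nat_lit 178)) (XT.lf (nat_lit 0) (nat_lit 563388133) (nat_lit 456) (nat_lit 11594475240) (nat_lit 532) (nat_lit 4178530147) (nat_lit 134) (nat_lit 5) (nat_lit 140) (nat_lit 5) (nat_lit 141) (nat_lit 5) (nat_lit 328) (nat_lit 275) (nat_lit 177)))))) (XT.nd (nat_lit 468) (nat_lit 1748) (nat_lit 0) (XT.nd (nat_lit 234) (nat_lit 836) (nat_lit 0) (XT.nd (nat_lit 78) (nat_lit 760) (nat_lit 0) (XT.lf (nat_lit 0) (nat_lit 152878848) (nat_lit 532) (nat_lit 3834129708) (nat_lit 76) (nat_lit 12667357457) (nat_lit 133) (nat_lit 5) (nat_lit 140) (nat_lit 5) (nat_lit 134) (nat_lit 5) (nat_lit 329) (nat_lit 275) (nat_lit 176)) (XT.nd (nat_lit 78) (nat_lit 380) (nat_lit 0) (XT.lf (nat_lit 0) (nat_lit 4613845227) (nat_lit 456) (nat_lit 8494249766) (nat_lit 76) (nat_lit 3872117204) (nat_lit 128) (nat_lit 5) (nat_lit 134) (nat_lit 5) (nat_lit 129)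 (nat_lit 5) (nat_lit 330) (nat_lit 275) (nat_lit 175)) (XT.lf (nat_lit 0) (nat_lit 3902645268) (nat_lit 380) (nat_lit 5359904856) (nat_lit 456) (nat_lit 8052219641) (nat_lit 123) (nat_lit 5) (nat_lit 128) (nat_lit 5) (nat_lit 129) (nat_lit 5) (nat_lit 331) (nat_lit 275) (nat_lit 174)))) (XT.nd (nat_lit 78) (nat_lit 836) (nat_lit 0) (XT.lf (nat_lit 0) (nat_lit 14101846677) (nat_lit 456) (nat_lit 922283323) (nat_lit 76) (nat_lit 2634225224) (nat_lit 123) (nat_lit 5) (nat_lit 129) (nat_lit 5) (nat_lit 124) (nat_lit 5) (nat_lit 332) (nat_lit 275) (nat_lit 173)) (XT.nd (nat_lit 78) (nat_lit 380) (nat_lit 0) (XT.lf (nat_lit 0) (nat_lit 1151399552) (nat_lit 456) (nat_lit 5987214772) (nat_lit 76) (nat_lit 10871679317) (nat_lit 117) (nat_lit 5) (nat_lit 123) (nat_lit 5) (nat_lit 118) (nat_lit 5) (nat_lit 333) (nat_lit 275) (nat_lit 172)) (XT.lf (nat_lit 0) (nat_lit 5988434118) (nat_lit 456) (nat_lit 11346567456)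 (nat_lit 76) (nat_lit 1036607033) (nat_lit 112) (nat_lit 5) (nat_lit 118) (nat_lit 5) (nat_lit 113) (nat_lit 5) (nat_lit 334) (nat_lit 275) (nat_lit 171))))) (XT.nd (nat_lit 234) (nat_lit 988) (nat_lit 0) (XT.nd (nat_lit 78) (nat_lit 456) (nat_lit 0) (XT.lf (nat_lit 0) (nat_lit 1708040873) (nat_lit 304) (nat_lit 9339759886) (nat_lit 380) (nat_lit 7694430200) (nat_lit 108) (nat_lit 5) (nat_lit 112) (nat_lit 5) (nat_lit 113) (nat_lit 5) (nat_lit 335) (nat_lit 275) (nat_lit 170)) (XT.nd (nat_lit 78) (nat_lit 456) (nat_lit 0) (XT.lf (nat_lit 0) (nat_lit 15277117038) (nat_lit 304) (nat_lit 1036714480) (nat_lit 380) (nat_lit 2809054802) (nat_lit 108) (nat_lit 5) (nat_lit 112) (nat_lit 5) (nat_lit 113) (nat_lit 5) (nat_lit 336) (nat_lit 275) (nat_lit 169)) (XT.lf (nat_lit 0) (nat_lit 2285220856) (nat_lit 456) (nat_lit 9742246618) (nat_lit 76) (nat_lit 7485386790) (nat_lit 102) (nat_lit 5) (nat_lit 108)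 (nat_lit 5) (nat_lit 103) (nat_lit 5) (nat_lit 337) (nat_lit 275) (nat_lit 168)))) (XT.nd (nat_lit 156) (nat_lit 684) (nat_lit 0) (XT.nd (nat_lit 78) (nat_lit 0) (nat_lit 0) (XT.lf (nat_lit 0) (nat_lit 3928058244) (nat_lit 304) (nat_lit 3603829408) (nat_lit 380) (nat_lit 12381518789) (nat_lit 98) (nat_lit 5) (nat_lit 102) (nat_lit 5) (nat_lit 103) (nat_lit 5) (nat_lit 338) (nat_lit 275) (nat_lit 167)) (XT.lf (nat_lit 0) (nat_lit 13014528676) (nat_lit 380) (nat_lit 2247729811) (nat_lit 76) (nat_lit 5062155976) (nat_lit 98) (nat_lit 5) (nat_lit 103) (nat_lit 5) (nat_lit 99) (nat_lit 5) (nat_lit 339) (nat_lit 275) (nat_lit 166))) (XT.nd (nat_lit 78) (nat_lit 380) (nat_lit 0) (XT.lf (nat_lit 0) (nat_lit 12004750232) (nat_lit 304) (nat_lit 6738734466) (nat_lit 380) (nat_lit 2002641767) (nat_lit 94) (nat_lit 5) (nat_lit 98) (nat_lit 5) (nat_lit 99) (nat_lit 5) (nat_lit 340) (nat_lit 275) (nat_lit 165))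 (XT.lf (nat_lit 0) (nat_lit 3463505836) (nat_lit 380) (nat_lit 15637825623) (nat_lit 76) (nat_lit 2077816231) (nat_lit 89) (nat_lit 5) (nat_lit 94) (nat_lit 5) (nat_lit 90) (nat_lit 5) (nat_lit 341) (nat_lit 275) (nat_lit 164))))))) (XT.nd (nat_lit 1014) (nat_lit 760) (nat_lit 0) (XT.nd (nat_lit 468) (nat_lit 1140) (nat_lit 0) (XT.nd (nat_lit 234) (nat_lit 608) (nat_lit 0) (XT.nd (nat_lit 78) (nat_lit 532) (nat_lit 0) (XT.lf (nat_lit 0) (nat_lit 9151640859) (nat_lit 380) (nat_lit 1340900357) (nat_lit 76) (nat_lit 11130659024) (nat_lit 89) (nat_lit 5) (nat_lit 94) (nat_lit 5) (nat_lit 90) (nat_lit 5) (nat_lit 342) (nat_lit 275) (nat_lit 163)) (XT.nd (nat_lit 78) (nat_lit 228) (nat_lit 0) (XT.lf (nat_lit 0) (nat_lit 13533071419) (nat_lit 304) (nat_lit 1546150538) (nat_lit 380) (nat_lit 6999985747) (nat_lit 85) (nat_lit 5) (nat_lit 89) (nat_lit 5) (nat_lit 90) (nat_lit 5) (nat_lit 343) (nat_lit 275)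 (nat_lit 162)) (XT.lf (nat_lit 0) (nat_lit 6326840079) (nat_lit 228) (nat_lit 14939042886) (nat_lit 304) (nat_lit 1281396482) (nat_lit 82) (nat_lit 5) (nat_lit 85) (nat_lit 5) (nat_lit 86) (nat_lit 5) (nat_lit 344) (nat_lit 275) (nat_lit 161)))) (XT.nd (nat_lit 78) (nat_lit 532) (nat_lit 0) (XT.lf (nat_lit 0) (nat_lit 4598407974) (nat_lit 304) (nat_lit 1334866951) (nat_lit 76) (nat_lit 17094526580) (nat_lit 81) (nat_lit 5) (nat_lit 85) (nat_lit 5) (nat_lit 82) (nat_lit 5) (nat_lit 345) (nat_lit 275) (nat_lit 160)) (XT.nd (nat_lit 78) (nat_lit 228) (nat_lit 0) (XT.lf (nat_lit 0) (nat_lit 10733451794) (nat_lit 380) (nat_lit 9397297334) (nat_lit 76) (nat_lit 3389904024) (nat_lit 77) (nat_lit 5) (nat_lit 82) (nat_lit 5) (nat_lit 78) (nat_lit 5) (nat_lit 346) (nat_lit 275) (nat_lit 159)) (XT.lf (nat_lit 0) (nat_lit 6047090116) (nat_lit 228) (nat_lit 11075788929) (nat_lit 304) (nat_lit 6904012828) (nat_lit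 74) (nat_lit 5) (nat_lit 77) (nat_lit 5) (nat_lit 78) (nat_lit 5) (nat_lit 347) (nat_lit 275) (nat_lit 158))))) (XT.nd (nat_lit 234) (nat_lit 532) (nat_lit 0) (XT.nd (nat_lit 78) (nat_lit 608) (nat_lit 0) (XT.lf (nat_lit 0) (nat_lit 22055926707) (nat_lit 228) (nat_lit 1694365320) (nat_lit 304) (nat_lit 797107602) (nat_lit 74) (nat_lit 5) (nat_lit 77) (nat_lit 5) (nat_lit 78) (nat_lit 5) (nat_lit 348) (nat_lit 275) (nat_lit 157)) (XT.nd (nat_lit 78) (nat_lit 228) (nat_lit 0) (XT.lf (nat_lit 0) (nat_lit 5544616415) (nat_lit 380) (nat_lit 11556926073) (nat_lit 76) (nat_lit 7978801326) (nat_lit 69) (nat_lit 5) (nat_lit 74) (nat_lit 5) (nat_lit 70) (nat_lit 5) (nat_lit 349) (nat_lit 275) (nat_lit 156)) (XT.lf (nat_lit 0) (nat_lit 4438573728) (nat_lit 228) (nat_lit 7667664000) (nat_lit 304) (nat_lit 13522131045) (nat_lit 66) (nat_lit 5) (nat_lit 69) (nat_lit 5) (nat_lit 70) (nat_lit 5) (nat_lit 350)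 (nat_lit 275) (nat_lit 155)))) (XT.nd (nat_lit 156) (nat_lit 304) (nat_lit 0) (XT.nd (nat_lit 78) (nat_lit 228) (nat_lit 0) (XT.lf (nat_lit 0) (nat_lit 18940365810) (nat_lit 304) (nat_lit 5159582286) (nat_lit 76) (nat_lit 2091380339) (nat_lit 66) (nat_lit 5) (nat_lit 70) (nat_lit 5) (nat_lit 67) (nat_lit 5) (nat_lit 351) (nat_lit 275) (nat_lit 154)) (XT.lf (nat_lit 0) (nat_lit 11424244178) (nat_lit 228) (nat_lit 14664725510) (nat_lit 304) (nat_lit 680025067) (nat_lit 63) (nat_lit 5) (nat_lit 66) (nat_lit 5) (nat_lit 67) (nat_lit 5) (nat_lit 352) (nat_lit 275) (nat_lit 153))) (XT.nd (nat_lit 78) (nat_lit 0) (nat_lit 0) (XT.lf (nat_lit 0) (nat_lit 1162765586) (nat_lit 228) (nat_lit 4872364664) (nat_lit 304) (nat_lit 21327538130) (nat_lit 59) (nat_lit 5) (nat_lit 62) (nat_lit 5) (nat_lit 63) (nat_lit 5) (nat_lit 353) (nat_lit 275) (nat_lit 152)) (XT.lf (nat_lit 0) (nat_lit 13065499740) (nat_lit 304)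 (nat_lit 9661092930) (nat_lit 76) (nat_lit 5245016062) (nat_lit 59) (nat_lit 5) (nat_lit 63) (nat_lit 5) (nat_lit 60) (nat_lit 5) (nat_lit 354) (nat_lit 275) (nat_lit 151)))))) (XT.nd (nat_lit 34632) (nat_lit 0) (nat_lit 31540) (XT.nd (nat_lit 234) (nat_lit 228) (nat_lit 0) (XT.nd (nat_lit 78) (nat_lit 304) (nat_lit 0) (XT.lf (nat_lit 0) (nat_lit 7413791499) (nat_lit 228) (nat_lit 12958586367) (nat_lit 304) (nat_lit 8225133674) (nat_lit 56) (nat_lit 5) (nat_lit 59) (nat_lit 5) (nat_lit 60) (nat_lit 5) (nat_lit 355) (nat_lit 275) (nat_lit 150)) (XT.nd (nat_lit 78) (nat_lit 304) (nat_lit 0) (XT.lf (nat_lit 0) (nat_lit 25108827113) (nat_lit 228) (nat_lit 2840262890) (nat_lit 304) (nat_lit 1292094895) (nat_lit 56) (nat_lit 5) (nat_lit 59) (nat_lit 5) (nat_lit 60) (nat_lit 5) (nat_lit 356) (nat_lit 275) (nat_lit 149)) (XT.lf (nat_lit 0) (nat_lit 5895667832) (nat_lit 304) (nat_lit 16405537932) (nat_lit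 76) (nat_lit 7599740064) (nat_lit 52) (nat_lit 5) (nat_lit 56) (nat_lit 5) (nat_lit 53) (nat_lit 5) (nat_lit 357) (nat_lit 275) (nat_lit 148)))) (XT.nd (nat_lit 34242) (nat_lit 0) (nat_lit 32756) (XT.nd (nat_lit 78) (nat_lit 0) (nat_lit 0) (XT.lf (nat_lit 0) (nat_lit 1091454079) (nat_lit 228) (nat_lit 12230125758) (nat_lit 304) (nat_lit 17257953076) (nat_lit 49) (nat_lit 5) (nat_lit 52) (nat_lit 5) (nat_lit 53) (nat_lit 5) (nat_lit 358) (nat_lit 275) (nat_lit 147)) (XT.lf (nat_lit 0) (nat_lit 19314629932) (nat_lit 228) (nat_lit 1752776294) (nat_lit 304) (nat_lit 10209134044) (nat_lit 49) (nat_lit 5) (nat_lit 52) (nat_lit 5) (nat_lit 53) (nat_lit 5) (nat_lit 359) (nat_lit 275) (nat_lit 146))) (XT.nd (nat_lit 78) (nat_lit 1216) (nat_lit 0) (XT.lf (nat_lit 0) (nat_lit 1527405067) (nat_lit 0) (nat_lit 1527405067) (nat_lit 1140) (nat_lit 722454734) (nat_lit 496) (nat_lit 5) (nat_lit 496) (nat_lit 3)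 (nat_lit 511) (nat_lit 3) (nat_lit 276) (nat_lit 276) (nat_lit 228)) (XT.lf (nat_lit 0) (nat_lit 568743599) (nat_lit 1216) (nat_lit 6969412685) (nat_lit 1292) (nat_lit 87372625) (nat_lit 480) (nat_lit 5) (nat_lit 496) (nat_lit 5) (nat_lit 497) (nat_lit 5) (nat_lit 277) (nat_lit 276) (nat_lit 227))))) (XT.nd (nat_lit 234) (nat_lit 1216) (nat_lit 0) (XT.nd (nat_lit 78) (nat_lit 0) (nat_lit 0) (XT.lf (nat_lit 0) (nat_lit 2595900268) (nat_lit 1216) (nat_lit 1742636973) (nat_lit 1292) (nat_lit 3360560670) (nat_lit 480) (nat_lit 5) (nat_lit 496) (nat_lit 5) (nat_lit 497) (nat_lit 5) (nat_lit 278) (nat_lit 276) (nat_lit 226)) (XT.nd (nat_lit 78) (nat_lit 0) (nat_lit 76) (XT.lf (nat_lit 76) (nat_lit 3647502773) (nat_lit 0) (nat_lit 983828002) (nat_lit 1292) (nat_lit 3144676906) (nat_lit 481) (nat_lit 5) (nat_lit 480) (nat_lit 5) (nat_lit 497) (nat_lit 5) (nat_lit 279) (nat_lit 276) (nat_lit 225)) (XT.lf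 (nat_lit 76) (nat_lit 1327100265) (nat_lit 0) (nat_lit 5363226074) (nat_lit 1292) (nat_lit 1165728828) (nat_lit 482) (nat_lit 5) (nat_lit 481) (nat_lit 5) (nat_lit 498) (nat_lit 5) (nat_lit 280) (nat_lit 276) (nat_lit 224)))) (XT.nd (nat_lit 156) (nat_lit 0) (nat_lit 76) (XT.nd (nat_lit 78) (nat_lit 0) (nat_lit 76) (XT.lf (nat_lit 0) (nat_lit 823167242) (nat_lit 1292) (nat_lit 990236086) (nat_lit 1368) (nat_lit 6125823559) (nat_lit 464) (nat_lit 5) (nat_lit 481) (nat_lit 5) (nat_lit 482) (nat_lit 5) (nat_lit 281) (nat_lit 276) (nat_lit 223)) (XT.lf (nat_lit 0) (nat_lit 2828486138) (nat_lit 1292) (nat_lit 3310672715) (nat_lit 1368) (nat_lit 1886203284) (nat_lit 465) (nat_lit 5) (nat_lit 482) (nat_lit 5) (nat_lit 483) (nat_lit 5) (nat_lit 282) (nat_lit 276) (nat_lit 222))) (XT.nd (nat_lit 78) (nat_lit 0) (nat_lit 76) (XT.lf (nat_lit 76) (nat_lit 2468109788) (nat_lit 0) (nat_lit 2392134942) (nat_lit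 1368) (nat_lit 3254583306) (nat_lit 466) (nat_lit 5) (nat_lit 465) (nat_lit 5) (nat_lit 483) (nat_lit 5) (nat_lit 283) (nat_lit 276) (nat_lit 221)) (XT.lf (nat_lit 76) (nat_lit 208765505) (nat_lit 0) (nat_lit 6710920114) (nat_lit 1368) (nat_lit 1288027795) (nat_lit 467) (nat_lit 5) (nat_lit 466) (nat_lit 5) (nat_lit 484) (nat_lit 5) (nat_lit 284) (nat_lit 276) (nat_lit 220))))))))
noncomputable def xc79 : XT := (XT.nd (nat_lit 2106) (nat_lit 9880) (nat_lit 0) (XT.nd (nat_lit 1014) (nat_lit 8968) (nat_lit 0) (XT.nd (nat_lit 468) (nat_lit 6156) (nat_lit 0) (XT.nd (nat_lit 234) (nat_lit 1292) (nat_lit 0) (XT.nd (nat_lit 78) (nat_lit 0) (nat_lit 76) (XT.lf (nat_lit 0) (nat_lit 716799750) (nat_lit 1368) (nat_lit 2050027991) (nat_lit 1444) (nat_lit 5536749595) (nat_lit 448) (nat_lit 5) (nat_lit 466) (nat_lit 5) (nat_lit 467) (nat_lit 5) (nat_lit 285) (nat_lit 276) (nat_lit 219)) (XT.nd (nat_lit 78) (nat_lit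 0) (nat_lit 0) (XT.lf (nat_lit 0) (nat_lit 2735988485) (nat_lit 1368) (nat_lit 4331787249) (nat_lit 1444) (nat_lit 1335001625) (nat_lit 449) (nat_lit 5) (nat_lit 467) (nat_lit 5) (nat_lit 468) (nat_lit 5) (nat_lit 286) (nat_lit 276) (nat_lit 218)) (XT.lf (nat_lit 76) (nat_lit 1861789755) (nat_lit 0) (nat_lit 2936597608) (nat_lit 1444) (nat_lit 3706976215) (nat_lit 450) (nat_lit 5) (nat_lit 449) (nat_lit 5) (nat_lit 468) (nat_lit 5) (nat_lit 287) (nat_lit 276) (nat_lit 217)))) (XT.nd (nat_lit 78) (nat_lit 1444) (nat_lit 0) (XT.lf (nat_lit 0) (nat_lit 6900472981) (nat_lit 1368) (nat_lit 362472324) (nat_lit 1444) (nat_lit 1348586840) (nat_lit 450) (nat_lit 5) (nat_lit 468) (nat_lit 5) (nat_lit 469) (nat_lit 5) (nat_lit 288) (nat_lit 276) (nat_lit 216)) (XT.nd (nat_lit 78) (nat_lit 0) (nat_lit 76) (XT.lf (nat_lit 0) (nat_lit 341031420) (nat_lit 1444) (nat_lit 2597884201) (nat_lit 1520) (nat_lit 5781967149)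 (nat_lit 431) (nat_lit 5) (nat_lit 450) (nat_lit 5) (nat_lit 451) (nat_lit 5) (nat_lit 289) (nat_lit 276) (nat_lit 215)) (XT.lf (nat_lit 0) (nat_lit 2412491959) (nat_lit 1444) (nat_lit 4871552857) (nat_lit 1520) (nat_lit 1549678242) (nat_lit 432) (nat_lit 5) (nat_lit 451) (nat_lit 5) (nat_lit 452) (nat_lit 5) (nat_lit 290) (nat_lit 276) (nat_lit 214))))) (XT.nd (nat_lit 234) (nat_lit 4864) (nat_lit 0) (XT.nd (nat_lit 78) (nat_lit 1368) (nat_lit 0) (XT.lf (nat_lit 76) (nat_lit 1765188617) (nat_lit 0) (nat_lit 2773700099) (nat_lit 1520) (nat_lit 4411258768) (nat_lit 433) (nat_lit 5) (nat_lit 432) (nat_lit 5) (nat_lit 452) (nat_lit 5) (nat_lit 291) (nat_lit 276) (nat_lit 213)) (XT.nd (nat_lit 78) (nat_lit 1444) (nat_lit 0) (XT.lf (nat_lit 0) (nat_lit 6719854022) (nat_lit 1444) (nat_lit 457769419) (nat_lit 76) (nat_lit 1892678851) (nat_lit 433) (nat_lit 5) (nat_lit 452) (nat_lit 5) (nat_lit 434) (nat_lit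 5) (nat_lit 292) (nat_lit 276) (nat_lit 212)) (XT.lf (nat_lit 0) (nat_lit 6495441330) (nat_lit 1444) (nat_lit 2478512004) (nat_lit 1520) (nat_lit 220005943) (nat_lit 414) (nat_lit 5) (nat_lit 433) (nat_lit 5) (nat_lit 434) (nat_lit 5) (nat_lit 293) (nat_lit 276) (nat_lit 211)))) (XT.nd (nat_lit 156) (nat_lit 1672) (nat_lit 0) (XT.nd (nat_lit 78) (nat_lit 1596) (nat_lit 0) (XT.lf (nat_lit 0) (nat_lit 1943333925) (nat_lit 1596) (nat_lit 4993328566) (nat_lit 76) (nat_lit 2384558688) (nat_lit 393) (nat_lit 5) (nat_lit 414) (nat_lit 5) (nat_lit 394) (nat_lit 5) (nat_lit 294) (nat_lit 276) (nat_lit 210)) (XT.lf (nat_lit 0) (nat_lit 2116769496) (nat_lit 1596) (nat_lit 2049728511) (nat_lit 1672) (nat_lit 5285863299) (nat_lit 372) (nat_lit 5) (nat_lit 393) (nat_lit 5) (nat_lit 394) (nat_lit 5) (nat_lit 295) (nat_lit 276) (nat_lit 209))) (XT.nd (nat_lit 78) (nat_lit 1672) (nat_lit 0) (XT.lf (nat_lit 0) (nat_lit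 6460215201) (nat_lit 1672) (nat_lit 141149399) (nat_lit 76) (nat_lit 2986040199) (nat_lit 372) (nat_lit 5) (nat_lit 394) (nat_lit 5) (nat_lit 373) (nat_lit 5) (nat_lit 296) (nat_lit 276) (nat_lit 208)) (XT.lf (nat_lit 0) (nat_lit 7309228766) (nat_lit 1672) (nat_lit 1526547723) (nat_lit 1748) (nat_lit 890507433) (nat_lit 350) (nat_lit 5) (nat_lit 372) (nat_lit 5) (nat_lit 373) (nat_lit 5) (nat_lit 297) (nat_lit 276) (nat_lit 207)))))) (XT.nd (nat_lit 546) (nat_lit 3648) (nat_lit 0) (XT.nd (nat_lit 234) (nat_lit 2432) (nat_lit 0) (XT.nd (nat_lit 78) (nat_lit 1672) (nat_lit 0) (XT.lf (nat_lit 0) (nat_lit 1406018018) (nat_lit 1216) (nat_lit 4761977804) (nat_lit 76) (nat_lit 3700967325) (nat_lit 334) (nat_lit 5) (nat_lit 350) (nat_lit 5) (nat_lit 335) (nat_lit 5) (nat_lit 298) (nat_lit 276) (nat_lit 206)) (XT.nd (nat_lit 78) (nat_lit 836) (nat_lit 0) (XT.lf (nat_lit 0) (nat_lit 2853024669) (nat_lit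 836) (nat_lit 905394724) (nat_lit 912) (nat_lit 6257445619) (nat_lit 323) (nat_lit 5) (nat_lit 334) (nat_lit 5) (nat_lit 335) (nat_lit 5) (nat_lit 299) (nat_lit 276) (nat_lit 205)) (XT.lf (nat_lit 0) (nat_lit 529916565) (nat_lit 836) (nat_lit 5671602033) (nat_lit 912) (nat_lit 3965293173) (nat_lit 312) (nat_lit 5) (nat_lit 323) (nat_lit 5) (nat_lit 324) (nat_lit 5) (nat_lit 300) (nat_lit 276) (nat_lit 204)))) (XT.nd (nat_lit 156) (nat_lit 1596) (nat_lit 0) (XT.nd (nat_lit 78) (nat_lit 836) (nat_lit 0) (XT.lf (nat_lit 0) (nat_lit 8503422630) (nat_lit 836) (nat_lit 224970302) (nat_lit 912) (nat_lit 1593723534) (nat_lit 312) (nat_lit 5) (nat_lit 323) (nat_lit 5) (nat_lit 324) (nat_lit 5) (nat_lit 301) (nat_lit 276) (nat_lit 203)) (XT.lf (nat_lit 0) (nat_lit 870737053) (nat_lit 836) (nat_lit 4247903180) (nat_lit 76) (nat_lit 5362709545) (nat_lit 301) (nat_lit 5) (nat_lit 312) (nat_lit 5) (nat_lit 302)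 (nat_lit 5) (nat_lit 302) (nat_lit 276) (nat_lit 202))) (XT.nd (nat_lit 78) (nat_lit 760) (nat_lit 0) (XT.lf (nat_lit 0) (nat_lit 3388128923) (nat_lit 912) (nat_lit 6744269514) (nat_lit 76) (nat_lit 512774166) (nat_lit 290) (nat_lit 5) (nat_lit 302) (nat_lit 5) (nat_lit 291) (nat_lit 5) (nat_lit 303) (nat_lit 276) (nat_lit 201)) (XT.lf (nat_lit 0) (nat_lit 1482268081) (nat_lit 760) (nat_lit 4530460732) (nat_lit 836) (nat_lit 4800582724) (nat_lit 280) (nat_lit 5) (nat_lit 290) (nat_lit 5) (nat_lit 291) (nat_lit 5) (nat_lit 304) (nat_lit 276) (nat_lit 200))))) (XT.nd (nat_lit 234) (nat_lit 2128) (nat_lit 0) (XT.nd (nat_lit 78) (nat_lit 1520) (nat_lit 0) (XT.lf (nat_lit 0) (nat_lit 8729900851) (nat_lit 836) (nat_lit 987904472) (nat_lit 76) (nat_lit 1268446760) (nat_lit 280) (nat_lit 5) (nat_lit 291) (nat_lit 5) (nat_lit 281) (nat_lit 5) (nat_lit 305) (nat_lit 276) (nat_lit 199)) (XT.nd (nat_lit 78)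 (nat_lit 684) (nat_lit 0) (XT.lf (nat_lit 0) (nat_lit 400488565) (nat_lit 836) (nat_lit 3531542143) (nat_lit 76) (nat_lit 7231514166) (nat_lit 269) (nat_lit 5) (nat_lit 280) (nat_lit 5) (nat_lit 270) (nat_lit 5) (nat_lit 306) (nat_lit 276) (nat_lit 198)) (XT.lf (nat_lit 0) (nat_lit 3122054931) (nat_lit 760) (nat_lit 6168971038) (nat_lit 76) (nat_lit 2054550199) (nat_lit 260) (nat_lit 5) (nat_lit 270) (nat_lit 5) (nat_lit 261) (nat_lit 5) (nat_lit 307) (nat_lit 276) (nat_lit 197)))) (XT.nd (nat_lit 156) (nat_lit 1444) (nat_lit 0) (XT.nd (nat_lit 78) (nat_lit 0) (nat_lit 0) (XT.lf (nat_lit 0) (nat_lit 2629111023) (nat_lit 684) (nat_lit 3326004430) (nat_lit 760) (nat_lit 5577386623) (nat_lit 251) (nat_lit 5) (nat_lit 260) (nat_lit 5) (nat_lit 261) (nat_lit 5) (nat_lit 308) (nat_lit 276) (nat_lit 196)) (XT.lf (nat_lit 0) (nat_lit 8896750956) (nat_lit 760) (nat_lit 7943583) (nat_lit 76) (nat_lit 2819899283)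 (nat_lit 251) (nat_lit 5) (nat_lit 261) (nat_lit 5) (nat_lit 252) (nat_lit 5) (nat_lit 309) (nat_lit 276) (nat_lit 195))) (XT.nd (nat_lit 78) (nat_lit 684) (nat_lit 0) (XT.lf (nat_lit 0) (nat_lit 50751601) (nat_lit 760) (nat_lit 2708485509) (nat_lit 76) (nat_lit 9162306578) (nat_lit 241) (nat_lit 5) (nat_lit 251) (nat_lit 5) (nat_lit 242) (nat_lit 5) (nat_lit 310) (nat_lit 276) (nat_lit 194)) (XT.lf (nat_lit 0) (nat_lit 3008878507) (nat_lit 760) (nat_lit 5532634107) (nat_lit 76) (nat_lit 3581911184) (nat_lit 232) (nat_lit 5) (nat_lit 242) (nat_lit 5) (nat_lit 233) (nat_lit 5) (nat_lit 311) (nat_lit 276) (nat_lit 193))))))) (XT.nd (nat_lit 1014) (nat_lit 4256) (nat_lit 0) (XT.nd (nat_lit 468) (nat_lit 2660) (nat_lit 0) (XT.nd (nat_lit 234) (nat_lit 1748) (nat_lit 0) (XT.nd (nat_lit 78) (nat_lit 608) (nat_lit 0) (XT.lf (nat_lit 0) (nat_lit 3867815282) (nat_lit 608) (nat_lit 2215526355) (nat_lit 684)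 (nat_lit 6247493498) (nat_lit 224) (nat_lit 5) (nat_lit 232) (nat_lit 5) (nat_lit 233) (nat_lit 5) (nat_lit 312) (nat_lit 276) (nat_lit 192)) (XT.nd (nat_lit 78) (nat_lit 0) (nat_lit 0) (XT.lf (nat_lit 0) (nat_lit 1028117976) (nat_lit 608) (nat_lit 8260525712) (nat_lit 684) (nat_lit 3255078916) (nat_lit 216) (nat_lit 5) (nat_lit 224) (nat_lit 5) (nat_lit 225) (nat_lit 5) (nat_lit 313) (nat_lit 276) (nat_lit 191)) (XT.lf (nat_lit 0) (nat_lit 10865972224) (nat_lit 608) (nat_lit 1763200221) (nat_lit 684) (nat_lit 133068038) (nat_lit 216) (nat_lit 5) (nat_lit 224) (nat_lit 5) (nat_lit 225) (nat_lit 5) (nat_lit 314) (nat_lit 276) (nat_lit 190)))) (XT.nd (nat_lit 78) (nat_lit 1140) (nat_lit 0) (XT.lf (nat_lit 0) (nat_lit 3094668826) (nat_lit 608) (nat_lit 4959817800) (nat_lit 76) (nat_lit 4931401024) (nat_lit 208) (nat_lit 5) (nat_lit 216) (nat_lit 5) (nat_lit 209) (nat_lit 5) (nat_lit 315) (nat_lit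 276) (nat_lit 189)) (XT.nd (nat_lit 78) (nat_lit 532) (nat_lit 0) (XT.lf (nat_lit 0) (nat_lit 5071630466) (nat_lit 608) (nat_lit 1371847422) (nat_lit 684) (nat_lit 6772251025) (nat_lit 200) (nat_lit 5) (nat_lit 208) (nat_lit 5) (nat_lit 209) (nat_lit 5) (nat_lit 316) (nat_lit 276) (nat_lit 188)) (XT.lf (nat_lit 0) (nat_lit 1971830085) (nat_lit 532) (nat_lit 7972355623) (nat_lit 608) (nat_lit 3507273569) (nat_lit 193) (nat_lit 5) (nat_lit 200) (nat_lit 5) (nat_lit 201) (nat_lit 5) (nat_lit 317) (nat_lit 276) (nat_lit 187))))) (XT.nd (nat_lit 234) (nat_lit 1520) (nat_lit 0) (XT.nd (nat_lit 78) (nat_lit 1140) (nat_lit 0) (XT.lf (nat_lit 0) (nat_lit 12455891828) (nat_lit 532) (nat_lit 1127999836) (nat_lit 608) (nat_lit 109712248) (nat_lit 193) (nat_lit 5) (nat_lit 200) (nat_lit 5) (nat_lit 201) (nat_lit 5) (nat_lit 318) (nat_lit 276) (nat_lit 186)) (XT.nd (nat_lit 78) (nat_lit 532) (nat_lit 0) (XT.lf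 (nat_lit 0) (nat_lit 3415483893) (nat_lit 608) (nat_lit 4605351071) (nat_lit 76) (nat_lit 5920355283) (nat_lit 185) (nat_lit 5) (nat_lit 193) (nat_lit 5) (nat_lit 186) (nat_lit 5) (nat_lit 319) (nat_lit 276) (nat_lit 185)) (XT.lf (nat_lit 0) (nat_lit 6082133817) (nat_lit 532) (nat_lit 989220314) (nat_lit 608) (nat_lit 7124327595) (nat_lit 178) (nat_lit 5) (nat_lit 185) (nat_lit 5) (nat_lit 186) (nat_lit 5) (nat_lit 320) (nat_lit 276) (nat_lit 184)))) (XT.nd (nat_lit 156) (nat_lit 912) (nat_lit 0) (XT.nd (nat_lit 78) (nat_lit 76) (nat_lit 0) (XT.lf (nat_lit 0) (nat_lit 2653343919) (nat_lit 532) (nat_lit 8244285070) (nat_lit 608) (nat_lit 3558984040) (nat_lit 171) (nat_lit 5) (nat_lit 178) (nat_lit 5) (nat_lit 179) (nat_lit 5) (nat_lit 321) (nat_lit 276) (nat_lit 183)) (XT.lf (nat_lit 0) (nat_lit 145671519) (nat_lit 608) (nat_lit 914227973) (nat_lit 76) (nat_lit 13664800006) (nat_lit 170) (nat_lit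 5) (nat_lit 178) (nat_lit 5) (nat_lit 171) (nat_lit 5) (nat_lit 322) (nat_lit 276) (nat_lit 182))) (XT.nd (nat_lit 78) (nat_lit 456) (nat_lit 0) (XT.lf (nat_lit 0) (nat_lit 3995184604) (nat_lit 532) (nat_lit 4662963846) (nat_lit 76) (nat_lit 6340586357) (nat_lit 164) (nat_lit 5) (nat_lit 171) (nat_lit 5) (nat_lit 165) (nat_lit 5) (nat_lit 323) (nat_lit 276) (nat_lit 181)) (XT.lf (nat_lit 0) (nat_lit 6700261298) (nat_lit 456) (nat_lit 1289961597) (nat_lit 532) (nat_lit 7290185112) (nat_lit 158) (nat_lit 5) (nat_lit 164) (nat_lit 5) (nat_lit 165) (nat_lit 5) (nat_lit 324) (nat_lit 276) (nat_lit 180)))))) (XT.nd (nat_lit 546) (nat_lit 1976) (nat_lit 0) (XT.nd (nat_lit 234) (nat_lit 1292) (nat_lit 0) (XT.nd (nat_lit 78) (nat_lit 532) (nat_lit 0) (XT.lf (nat_lit 0) (nat_lit 2859391164) (nat_lit 456) (nat_lit 9310703662) (nat_lit 532) (nat_lit 3399154041) (nat_lit 152) (nat_lit 5) (nat_lit 158) (nat_lit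 5) (nat_lit 159) (nat_lit 5) (nat_lit 325) (nat_lit 276) (nat_lit 179)) (XT.nd (nat_lit 78) (nat_lit 456) (nat_lit 0) (XT.lf (nat_lit 0) (nat_lit 641843956) (nat_lit 532) (nat_lit 1154094756) (nat_lit 76) (nat_lit 14069929140) (nat_lit 151) (nat_lit 5) (nat_lit 158) (nat_lit 5) (nat_lit 152) (nat_lit 5) (nat_lit 326) (nat_lit 276) (nat_lit 178)) (XT.lf (nat_lit 0) (nat_lit 4842465727) (nat_lit 532) (nat_lit 5375580664) (nat_lit 76) (nat_lit 5951213963) (nat_lit 145) (nat_lit 5) (nat_lit 152) (nat_lit 5) (nat_lit 146) (nat_lit 5) (nat_lit 327) (nat_lit 276) (nat_lit 177)))) (XT.nd (nat_lit 156) (nat_lit 456) (nat_lit 0) (XT.nd (nat_lit 78) (nat_lit 456) (nat_lit 0) (XT.lf (nat_lit 0) (nat_lit 6675599244) (nat_lit 380) (nat_lit 2532010078) (nat_lit 456) (nat_lit 7273390599) (nat_lit 140) (nat_lit 5) (nat_lit 145) (nat_lit 5) (nat_lit 146) (nat_lit 5) (nat_lit 328) (nat_lit 276) (nat_lit 176)) (XT.lf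 (nat_lit 0) (nat_lit 2321918644) (nat_lit 456) (nat_lit 11444213792) (nat_lit 532) (nat_lit 3034725641) (nat_lit 134) (nat_lit 5) (nat_lit 140) (nat_lit 5) (nat_lit 141) (nat_lit 5) (nat_lit 329) (nat_lit 276) (nat_lit 175))) (XT.nd (nat_lit 78) (nat_lit 380) (nat_lit 0) (XT.lf (nat_lit 0) (nat_lit 1373499333) (nat_lit 532) (nat_lit 2241371189) (nat_lit 76) (nat_lit 13514085645) (nat_lit 133) (nat_lit 5) (nat_lit 140) (nat_lit 5) (nat_lit 134) (nat_lit 5) (nat_lit 330) (nat_lit 276) (nat_lit 174)) (XT.lf (nat_lit 0) (nat_lit 5946956402) (nat_lit 456) (nat_lit 7047643946) (nat_lit 76) (nat_lit 4470425129) (nat_lit 128) (nat_lit 5) (nat_lit 134) (nat_lit 5) (nat_lit 129) (nat_lit 5) (nat_lit 331) (nat_lit 276) (nat_lit 173))))) (XT.nd (nat_lit 234) (nat_lit 1140) (nat_lit 0) (XT.nd (nat_lit 78) (nat_lit 456) (nat_lit 0) (XT.lf (nat_lit 0) (nat_lit 5693554205) (nat_lit 380) (nat_lit 5017638887) (nat_lit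 456) (nat_lit 7098925631) (nat_lit 123) (nat_lit 5) (nat_lit 128) (nat_lit 5) (nat_lit 129) (nat_lit 5) (nat_lit 332) (nat_lit 276) (nat_lit 172)) (XT.nd (nat_lit 78) (nat_lit 76) (nat_lit 0) (XT.lf (nat_lit 0) (nat_lit 704587507) (nat_lit 380) (nat_lit 14964726777) (nat_lit 456) (nat_lit 2495244319) (nat_lit 118) (nat_lit 5) (nat_lit 123) (nat_lit 5) (nat_lit 124) (nat_lit 5) (nat_lit 333) (nat_lit 276) (nat_lit 171)) (XT.lf (nat_lit 0) (nat_lit 2311118780) (nat_lit 456) (nat_lit 4532645384) (nat_lit 76) (nat_lit 11683707449) (nat_lit 117) (nat_lit 5) (nat_lit 123) (nat_lit 5) (nat_lit 118) (nat_lit 5) (nat_lit 334) (nat_lit 276) (nat_lit 170)))) (XT.nd (nat_lit 156) (nat_lit 456) (nat_lit 0) (XT.nd (nat_lit 78) (nat_lit 304) (nat_lit 0) (XT.lf (nat_lit 0) (nat_lit 7274208001) (nat_lit 456) (nat_lit 10059903176) (nat_lit 76) (nat_lit 1565914248) (nat_lit 112) (nat_lit 5) (nat_lit 118) (nat_lit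 5) (nat_lit 113) (nat_lit 5) (nat_lit 335) (nat_lit 276) (nat_lit 169)) (XT.lf (nat_lit 0) (nat_lit 3359946266) (nat_lit 304) (nat_lit 9103584836) (nat_lit 380) (nat_lit 6818689575) (nat_lit 108) (nat_lit 5) (nat_lit 112) (nat_lit 5) (nat_lit 113) (nat_lit 5) (nat_lit 336) (nat_lit 276) (nat_lit 168))) (XT.nd (nat_lit 78) (nat_lit 456) (nat_lit 0) (XT.lf (nat_lit 0) (nat_lit 17289473429) (nat_lit 304) (nat_lit 566487908) (nat_lit 380) (nat_lit 1818983212) (nat_lit 108) (nat_lit 5) (nat_lit 112) (nat_lit 5) (nat_lit 113) (nat_lit 5) (nat_lit 337) (nat_lit 276) (nat_lit 167)) (XT.lf (nat_lit 0) (nat_lit 3396440484) (nat_lit 456) (nat_lit 8473205460) (nat_lit 76) (nat_lit 8207194274) (nat_lit 102) (nat_lit 5) (nat_lit 108) (nat_lit 5) (nat_lit 103) (nat_lit 5) (nat_lit 338) (nat_lit 276) (nat_lit 166))))))))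
noncomputable def xc80 : XT := (XT.nd (nat_lit 36192) (nat_lit 0) (nat_lit 16036) (XT.nd (nat_lit 1014) (nat_lit 1292) (nat_lit 0) (XT.nd (nat_lit 468) (nat_lit 1444) (nat_lit 0) (XT.nd (nat_lit 234) (nat_lit 684) (nat_lit 0) (XT.nd (nat_lit 78) (nat_lit 304) (nat_lit 0) (XT.lf (nat_lit 0) (nat_lit 5581878171) (nat_lit 304) (nat_lit 3198232876) (nat_lit 380) (nat_lit 11709721752) (nat_lit 98) (nat_lit 5) (nat_lit 102) (nat_lit 5) (nat_lit 103) (nat_lit 5) (nat_lit 339) (nat_lit 276) (nat_lit 165)) (XT.nd (nat_lit 78) (nat_lit 304) (nat_lit 0) (XT.lf (nat_lit 0) (nat_lit 14400694752) (nat_lit 380) (nat_lit 806794075) (nat_lit 76) (nat_lit 5706228419) (nat_lit 98) (nat_lit 5) (nat_lit 103) (nat_lit 5) (nat_lit 99) (nat_lit 5) (nat_lit 340) (nat_lit 276) (nat_lit 164)) (XT.lf (nat_lit 0) (nat_lit 13848788897) (nat_lit 304) (nat_lit 6433363145) (nat_lit 380) (nat_lit 1066330915) (nat_lit 94) (nat_lit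 5) (nat_lit 98) (nat_lit 5) (nat_lit 99) (nat_lit 5) (nat_lit 341) (nat_lit 276) (nat_lit 163)))) (XT.nd (nat_lit 78) (nat_lit 304) (nat_lit 0) (XT.lf (nat_lit 0) (nat_lit 4534961759) (nat_lit 380) (nat_lit 14617343882) (nat_lit 76) (nat_lit 2642389502) (nat_lit 89) (nat_lit 5) (nat_lit 94) (nat_lit 5) (nat_lit 90) (nat_lit 5) (nat_lit 342) (nat_lit 276) (nat_lit 162)) (XT.nd (nat_lit 78) (nat_lit 0) (nat_lit 0) (XT.lf (nat_lit 0) (nat_lit 65967427) (nat_lit 304) (nat_lit 10300020620) (nat_lit 380) (nat_lit 11886650142) (nat_lit 85) (nat_lit 5) (nat_lit 89) (nat_lit 5) (nat_lit 90) (nat_lit 5) (nat_lit 343) (nat_lit 276) (nat_lit 161)) (XT.lf (nat_lit 0) (nat_lit 15361829825) (nat_lit 304) (nat_lit 1091015709) (nat_lit 380) (nat_lit 6269864822) (nat_lit 85) (nat_lit 5) (nat_lit 89) (nat_lit 5) (nat_lit 90) (nat_lit 5) (nat_lit 344) (nat_lit 276) (nat_lit 160))))) (XT.nd (nat_lit 234) (nat_lit 836)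 (nat_lit 0) (XT.nd (nat_lit 78) (nat_lit 380) (nat_lit 0) (XT.lf (nat_lit 0) (nat_lit 7931692862) (nat_lit 228) (nat_lit 14878929860) (nat_lit 304) (nat_lit 394504271) (nat_lit 82) (nat_lit 5) (nat_lit 85) (nat_lit 5) (nat_lit 86) (nat_lit 5) (nat_lit 345) (nat_lit 276) (nat_lit 159)) (XT.nd (nat_lit 78) (nat_lit 0) (nat_lit 0) (XT.lf (nat_lit 0) (nat_lit 11264421) (nat_lit 304) (nat_lit 5611769106) (nat_lit 380) (nat_lit 18077453964) (nat_lit 77) (nat_lit 5) (nat_lit 81) (nat_lit 5) (nat_lit 82) (nat_lit 5) (nat_lit 346) (nat_lit 276) (nat_lit 158)) (XT.lf (nat_lit 0) (nat_lit 11928292056) (nat_lit 380) (nat_lit 8301084986) (nat_lit 76) (nat_lit 3979036451) (nat_lit 77) (nat_lit 5) (nat_lit 82) (nat_lit 5) (nat_lit 78) (nat_lit 5) (nat_lit 347) (nat_lit 276) (nat_lit 157)))) (XT.nd (nat_lit 156) (nat_lit 532) (nat_lit 0) (XT.nd (nat_lit 78) (nat_lit 76) (nat_lit 0) (XT.lf (nat_lit 0) (nat_lit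 7584275545) (nat_lit 228) (nat_lit 10908506727) (nat_lit 304) (nat_lit 6237401225) (nat_lit 74) (nat_lit 5) (nat_lit 77) (nat_lit 5) (nat_lit 78) (nat_lit 5) (nat_lit 348) (nat_lit 276) (nat_lit 156)) (XT.lf (nat_lit 0) (nat_lit 26905097) (nat_lit 304) (nat_lit 1233104935) (nat_lit 76) (nat_lit 24006803063) (nat_lit 73) (nat_lit 5) (nat_lit 77) (nat_lit 5) (nat_lit 74) (nat_lit 5) (nat_lit 349) (nat_lit 276) (nat_lit 155))) (XT.nd (nat_lit 78) (nat_lit 228) (nat_lit 0) (XT.lf (nat_lit 0) (nat_lit 6535359569) (nat_lit 380) (nat_lit 10583756553) (nat_lit 76) (nat_lit 8696788774) (nat_lit 69) (nat_lit 5) (nat_lit 74) (nat_lit 5) (nat_lit 70) (nat_lit 5) (nat_lit 350) (nat_lit 276) (nat_lit 154)) (XT.lf (nat_lit 0) (nat_lit 5870194801) (nat_lit 228) (nat_lit 7408053423) (nat_lit 304) (nat_lit 13102444525) (nat_lit 66) (nat_lit 5) (nat_lit 69) (nat_lit 5) (nat_lit 70) (nat_lit 5) (nat_lit 351) (nat_lit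 276) (nat_lit 153)))))) (XT.nd (nat_lit 468) (nat_lit 532) (nat_lit 0) (XT.nd (nat_lit 234) (nat_lit 228) (nat_lit 0) (XT.nd (nat_lit 78) (nat_lit 532) (nat_lit 0) (XT.lf (nat_lit 0) (nat_lit 20296928662) (nat_lit 304) (nat_lit 4040765989) (nat_lit 76) (nat_lit 2623266190) (nat_lit 66) (nat_lit 5) (nat_lit 70) (nat_lit 5) (nat_lit 67) (nat_lit 5) (nat_lit 352) (nat_lit 276) (nat_lit 152)) (XT.nd (nat_lit 78) (nat_lit 228) (nat_lit 0) (XT.lf (nat_lit 0) (nat_lit 87734330) (nat_lit 304) (nat_lit 14536928242) (nat_lit 76) (nat_lit 12931589486) (nat_lit 62) (nat_lit 5) (nat_lit 66) (nat_lit 5) (nat_lit 63) (nat_lit 5) (nat_lit 353) (nat_lit 276) (nat_lit 151)) (XT.lf (nat_lit 0) (nat_lit 2440765089) (nat_lit 228) (nat_lit 4539775583) (nat_lit 304) (nat_lit 21187406053) (nat_lit 59) (nat_lit 5) (nat_lit 62) (nat_lit 5) (nat_lit 63) (nat_lit 5) (nat_lit 354) (nat_lit 276) (nat_lit 150)))) (XT.nd (nat_lit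 78) (nat_lit 228) (nat_lit 0) (XT.lf (nat_lit 0) (nat_lit 14202576327) (nat_lit 304) (nat_lit 8731887063) (nat_lit 76) (nat_lit 5861085958) (nat_lit 59) (nat_lit 5) (nat_lit 63) (nat_lit 5) (nat_lit 60) (nat_lit 5) (nat_lit 355) (nat_lit 276) (nat_lit 149)) (XT.nd (nat_lit 78) (nat_lit 0) (nat_lit 0) (XT.lf (nat_lit 0) (nat_lit 8835466444) (nat_lit 228) (nat_lit 12879278472) (nat_lit 304) (nat_lit 7725771538) (nat_lit 56) (nat_lit 5) (nat_lit 59) (nat_lit 5) (nat_lit 60) (nat_lit 5) (nat_lit 356) (nat_lit 276) (nat_lit 148)) (XT.lf (nat_lit 0) (nat_lit 27026423189) (nat_lit 228) (nat_lit 2471038266) (nat_lit 304) (nat_lit 606473134) (nat_lit 56) (nat_lit 5) (nat_lit 59) (nat_lit 5) (nat_lit 60) (nat_lit 5) (nat_lit 357) (nat_lit 276) (nat_lit 147))))) (XT.nd (nat_lit 34398) (nat_lit 0) (nat_lit 31464) (XT.nd (nat_lit 78) (nat_lit 228) (nat_lit 0) (XT.lf (nat_lit 0) (nat_lit 6777044068) (nat_lit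 304) (nat_lit 15731277934) (nat_lit 76) (nat_lit 8275288060) (nat_lit 52) (nat_lit 5) (nat_lit 56) (nat_lit 5) (nat_lit 53) (nat_lit 5) (nat_lit 358) (nat_lit 276) (nat_lit 146)) (XT.nd (nat_lit 34242) (nat_lit 0) (nat_lit 32680) (XT.lf (nat_lit 0) (nat_lit 2271699959) (nat_lit 228) (nat_lit 12140964223) (nat_lit 304) (nat_lit 17070159946) (nat_lit 49) (nat_lit 5) (nat_lit 52) (nat_lit 5) (nat_lit 53) (nat_lit 5) (nat_lit 359) (nat_lit 276) (nat_lit 145)) (XT.lf (nat_lit 0) (nat_lit 1257551240) (nat_lit 1292) (nat_lit 1295561725) (nat_lit 1292) (nat_lit 1295561725) (nat_lit 479) (nat_lit 3) (nat_lit 496) (nat_lit 3) (nat_lit 496) (nat_lit 5) (nat_lit 277) (nat_lit 277) (nat_lit 226)))) (XT.nd (nat_lit 156) (nat_lit 1216) (nat_lit 0) (XT.nd (nat_lit 78) (nat_lit 0) (nat_lit 76) (XT.lf (nat_lit 76) (nat_lit 2677330591) (nat_lit 0) (nat_lit 1788680887) (nat_lit 1292) (nat_lit 3306472689) (nat_lit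 480) (nat_lit 5) (nat_lit 479) (nat_lit 3) (nat_lit 496) (nat_lit 5) (nat_lit 278) (nat_lit 277) (nat_lit 225)) (XT.lf (nat_lit 76) (nat_lit 242197066) (nat_lit 0) (nat_lit 6189067538) (nat_lit 1292) (nat_lit 1419572520) (nat_lit 481) (nat_lit 5) (nat_lit 480) (nat_lit 5) (nat_lit 497) (nat_lit 5) (nat_lit 279) (nat_lit 277) (nat_lit 224))) (XT.nd (nat_lit 78) (nat_lit 0) (nat_lit 76) (XT.lf (nat_lit 0) (nat_lit 491121941) (nat_lit 1292) (nat_lit 2177497396) (nat_lit 1368) (nat_lit 5263448712) (nat_lit 463) (nat_lit 5) (nat_lit 480) (nat_lit 5) (nat_lit 481) (nat_lit 5) (nat_lit 280) (nat_lit 277) (nat_lit 223)) (XT.lf (nat_lit 0) (nat_lit 2398204499) (nat_lit 1292) (nat_lit 4610662497) (nat_lit 1368) (nat_lit 1007588526) (nat_lit 464) (nat_lit 5) (nat_lit 481) (nat_lit 5) (nat_lit 482) (nat_lit 5) (nat_lit 281) (nat_lit 277) (nat_lit 222))))))) (XT.nd (nat_lit 1014) (nat_lit 11628) (nat_lit 0)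 (XT.nd (nat_lit 468) (nat_lit 2584) (nat_lit 0) (XT.nd (nat_lit 234) (nat_lit 0) (nat_lit 76) (XT.nd (nat_lit 78) (nat_lit 1292) (nat_lit 0) (XT.lf (nat_lit 76) (nat_lit 1038694356) (nat_lit 0) (nat_lit 3294705764) (nat_lit 1368) (nat_lit 3770628681) (nat_lit 465) (nat_lit 5) (nat_lit 464) (nat_lit 5) (nat_lit 482) (nat_lit 5) (nat_lit 282) (nat_lit 277) (nat_lit 221)) (XT.nd (nat_lit 78) (nat_lit 1368) (nat_lit 0) (XT.lf (nat_lit 0) (nat_lit 6294921371) (nat_lit 1292) (nat_lit 1317836513) (nat_lit 1368) (nat_lit 582176091) (nat_lit 465) (nat_lit 5) (nat_lit 482) (nat_lit 5) (nat_lit 483) (nat_lit 5) (nat_lit 283) (nat_lit 277) (nat_lit 220)) (XT.lf (nat_lit 0) (nat_lit 13434774) (nat_lit 1368) (nat_lit 3688611727) (nat_lit 1444) (nat_lit 4586841784) (nat_lit 447) (nat_lit 5) (nat_lit 465) (nat_lit 5) (nat_lit 466) (nat_lit 5) (nat_lit 284) (nat_lit 277) (nat_lit 219)))) (XT.nd (nat_lit 78) (nat_lit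 0) (nat_lit 0) (XT.lf (nat_lit 0) (nat_lit 1921547551) (nat_lit 1368) (nat_lit 6083091666) (nat_lit 1444) (nat_lit 381574084) (nat_lit 448) (nat_lit 5) (nat_lit 466) (nat_lit 5) (nat_lit 467) (nat_lit 5) (nat_lit 285) (nat_lit 277) (nat_lit 218)) (XT.nd (nat_lit 78) (nat_lit 0) (nat_lit 76) (XT.lf (nat_lit 0) (nat_lit 3875018969) (nat_lit 1368) (nat_lit 26857891) (nat_lit 1444) (nat_lit 4584881789) (nat_lit 448) (nat_lit 5) (nat_lit 466) (nat_lit 5) (nat_lit 467) (nat_lit 5) (nat_lit 286) (nat_lit 277) (nat_lit 217)) (XT.lf (nat_lit 0) (nat_lit 5870194766) (nat_lit 1368) (nat_lit 2340075655) (nat_lit 1444) (nat_lit 380448986) (nat_lit 449) (nat_lit 5) (nat_lit 467) (nat_lit 5) (nat_lit 468) (nat_lit 5) (nat_lit 287) (nat_lit 277) (nat_lit 216))))) (XT.nd (nat_lit 234) (nat_lit 1368) (nat_lit 0) (XT.nd (nat_lit 78) (nat_lit 1368) (nat_lit 0) (XT.lf (nat_lit 76) (nat_lit 4004887162) (nat_lit 0) (nat_lit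 3914233328) (nat_lit 1444) (nat_lit 778859880) (nat_lit 450) (nat_lit 5) (nat_lit 449) (nat_lit 5) (nat_lit 468) (nat_lit 5) (nat_lit 288) (nat_lit 277) (nat_lit 215)) (XT.nd (nat_lit 78) (nat_lit 0) (nat_lit 0) (XT.lf (nat_lit 0) (nat_lit 1178567005) (nat_lit 1444) (nat_lit 7074511527) (nat_lit 1520) (nat_lit 555807963) (nat_lit 431) (nat_lit 5) (nat_lit 450) (nat_lit 5) (nat_lit 451) (nat_lit 5) (nat_lit 289) (nat_lit 277) (nat_lit 214)) (XT.lf (nat_lit 0) (nat_lit 3186520969) (nat_lit 1444) (nat_lit 576534414) (nat_lit 1520) (nat_lit 5159968515) (nat_lit 431) (nat_lit 5) (nat_lit 450) (nat_lit 5) (nat_lit 451) (nat_lit 5) (nat_lit 290) (nat_lit 277) (nat_lit 213)))) (XT.nd (nat_lit 156) (nat_lit 1444) (nat_lit 0) (XT.nd (nat_lit 78) (nat_lit 0) (nat_lit 0) (XT.lf (nat_lit 0) (nat_lit 5246403363) (nat_lit 1444) (nat_lit 2889900164) (nat_lit 1520) (nat_lit 904501283) (nat_lit 432) (nat_lit 5)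 (nat_lit 451) (nat_lit 5) (nat_lit 452) (nat_lit 5) (nat_lit 291) (nat_lit 277) (nat_lit 212)) (XT.lf (nat_lit 76) (nat_lit 3911422538) (nat_lit 0) (nat_lit 3458327329) (nat_lit 1520) (nat_lit 1792387562) (nat_lit 433) (nat_lit 5) (nat_lit 432) (nat_lit 5) (nat_lit 452) (nat_lit 5) (nat_lit 292) (nat_lit 277) (nat_lit 211))) (XT.nd (nat_lit 78) (nat_lit 0) (nat_lit 0) (XT.lf (nat_lit 0) (nat_lit 253743419) (nat_lit 1520) (nat_lit 7648087205) (nat_lit 76) (nat_lit 1385541657) (nat_lit 413) (nat_lit 5) (nat_lit 433) (nat_lit 5) (nat_lit 414) (nat_lit 5) (nat_lit 293) (nat_lit 277) (nat_lit 210)) (XT.lf (nat_lit 0) (nat_lit 2345371997) (nat_lit 1520) (nat_lit 684394746) (nat_lit 76) (nat_lit 6386238893) (nat_lit 413) (nat_lit 5) (nat_lit 433) (nat_lit 5) (nat_lit 414) (nat_lit 5) (nat_lit 294) (nat_lit 277) (nat_lit 209)))))) (XT.nd (nat_lit 546) (nat_lit 3952) (nat_lit 0) (XT.nd (nat_lit 234) (nat_lit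 2888) (nat_lit 0) (XT.nd (nat_lit 78) (nat_lit 3268) (nat_lit 0) (XT.lf (nat_lit 0) (nat_lit 4506279075) (nat_lit 1596) (nat_lit 3028076859) (nat_lit 76) (nat_lit 2014057790) (nat_lit 393) (nat_lit 5) (nat_lit 414) (nat_lit 5) (nat_lit 394) (nat_lit 5) (nat_lit 295) (nat_lit 277) (nat_lit 208)) (XT.nd (nat_lit 78) (nat_lit 1672) (nat_lit 0) (XT.lf (nat_lit 0) (nat_lit 4261009946) (nat_lit 1596) (nat_lit 2475686831) (nat_lit 1672) (nat_lit 2948048586) (nat_lit 372) (nat_lit 5) (nat_lit 393) (nat_lit 5) (nat_lit 394) (nat_lit 5) (nat_lit 296) (nat_lit 277) (nat_lit 207)) (XT.lf (nat_lit 0) (nat_lit 1952348220) (nat_lit 1672) (nat_lit 7086036243) (nat_lit 1748) (nat_lit 786739006) (nat_lit 350) (nat_lit 5) (nat_lit 372) (nat_lit 5) (nat_lit 373) (nat_lit 5) (nat_lit 297) (nat_lit 277) (nat_lit 206)))) (XT.nd (nat_lit 156) (nat_lit 1672) (nat_lit 0) (XT.nd (nat_lit 78) (nat_lit 1140) (nat_lit 0) (XT.lf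 (nat_lit 0) (nat_lit 1428111008) (nat_lit 1748) (nat_lit 411984820) (nat_lit 76) (nat_lit 8129320154) (nat_lit 349) (nat_lit 5) (nat_lit 372) (nat_lit 5) (nat_lit 350) (nat_lit 5) (nat_lit 298) (nat_lit 277) (nat_lit 205)) (XT.lf (nat_lit 0) (nat_lit 3725212660) (nat_lit 1216) (nat_lit 2817638623) (nat_lit 76) (nat_lit 3574592438) (nat_lit 334) (nat_lit 5) (nat_lit 350) (nat_lit 5) (nat_lit 335) (nat_lit 5) (nat_lit 299) (nat_lit 277) (nat_lit 204))) (XT.nd (nat_lit 78) (nat_lit 836) (nat_lit 0) (XT.lf (nat_lit 0) (nat_lit 4991951608) (nat_lit 836) (nat_lit 1103245289) (nat_lit 912) (nat_lit 4174675180) (nat_lit 323) (nat_lit 5) (nat_lit 334) (nat_lit 5) (nat_lit 335) (nat_lit 5) (nat_lit 300) (nat_lit 277) (nat_lit 203)) (XT.lf (nat_lit 0) (nat_lit 2612642548) (nat_lit 836) (nat_lit 5946512381) (nat_lit 912) (nat_lit 1867298907) (nat_lit 312) (nat_lit 5) (nat_lit 323) (nat_lit 5) (nat_lit 324)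 (nat_lit 5) (nat_lit 301) (nat_lit 277) (nat_lit 202))))) (XT.nd (nat_lit 234) (nat_lit 2280) (nat_lit 0) (XT.nd (nat_lit 78) (nat_lit 836) (nat_lit 0) (XT.lf (nat_lit 0) (nat_lit 176412936) (nat_lit 760) (nat_lit 328878983) (nat_lit 836) (nat_lit 10082357742) (nat_lit 301) (nat_lit 5) (nat_lit 311) (nat_lit 5) (nat_lit 312) (nat_lit 5) (nat_lit 302) (nat_lit 277) (nat_lit 201)) (XT.nd (nat_lit 78) (nat_lit 836) (nat_lit 0) (XT.lf (nat_lit 0) (nat_lit 2971687286) (nat_lit 836) (nat_lit 2327932305) (nat_lit 76) (nat_lit 5452890140) (nat_lit 301) (nat_lit 5) (nat_lit 312) (nat_lit 5) (nat_lit 302) (nat_lit 5) (nat_lit 303) (nat_lit 277) (nat_lit 200)) (XT.lf (nat_lit 0) (nat_lit 5517160252) (nat_lit 912) (nat_lit 4890038663) (nat_lit 76) (nat_lit 515049101) (nat_lit 290) (nat_lit 5) (nat_lit 302) (nat_lit 5) (nat_lit 291) (nat_lit 5) (nat_lit 304) (nat_lit 277) (nat_lit 199)))) (XT.nd (nat_lit 156)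 (nat_lit 760) (nat_lit 0) (XT.nd (nat_lit 78) (nat_lit 760) (nat_lit 0) (XT.lf (nat_lit 0) (nat_lit 3549929834) (nat_lit 760) (nat_lit 4624654101) (nat_lit 836) (nat_lit 2921815915) (nat_lit 280) (nat_lit 5) (nat_lit 290) (nat_lit 5) (nat_lit 291) (nat_lit 5) (nat_lit 305) (nat_lit 277) (nat_lit 198)) (XT.lf (nat_lit 0) (nat_lit 999679926) (nat_lit 760) (nat_lit 9922631967) (nat_lit 836) (nat_lit 353284882) (nat_lit 270) (nat_lit 5) (nat_lit 280) (nat_lit 5) (nat_lit 281) (nat_lit 5) (nat_lit 306) (nat_lit 277) (nat_lit 197))) (XT.nd (nat_lit 78) (nat_lit 684) (nat_lit 0) (XT.lf (nat_lit 0) (nat_lit 2307307826) (nat_lit 836) (nat_lit 1639157253) (nat_lit 76) (nat_lit 7512536089) (nat_lit 269) (nat_lit 5) (nat_lit 280) (nat_lit 5) (nat_lit 270) (nat_lit 5) (nat_lit 307) (nat_lit 277) (nat_lit 196)) (XT.lf (nat_lit 0) (nat_lit 5068833810) (nat_lit 760) (nat_lit 4350310377) (nat_lit 76) (nat_lit 2228228222)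 (nat_lit 260) (nat_lit 5) (nat_lit 270) (nat_lit 5) (nat_lit 261) (nat_lit 5) (nat_lit 308) (nat_lit 277) (nat_lit 195))))))))
noncomputable def xc81 : XT := (XT.nd (nat_lit 2028) (nat_lit 5016) (nat_lit 0) (XT.nd (nat_lit 1014) (nat_lit 4560) (nat_lit 0) (XT.nd (nat_lit 468) (nat_lit 2888) (nat_lit 0) (XT.nd (nat_lit 234) (nat_lit 1900) (nat_lit 0) (XT.nd (nat_lit 78) (nat_lit 760) (nat_lit 0) (XT.lf (nat_lit 0) (nat_lit 4679206010) (nat_lit 684) (nat_lit 3266504328) (nat_lit 760) (nat_lit 3895063215) (nat_lit 251) (nat_lit 5) (nat_lit 260) (nat_lit 5) (nat_lit 261) (nat_lit 5) (nat_lit 309) (nat_lit 277) (nat_lit 194)) (XT.nd (nat_lit 78) (nat_lit 76) (nat_lit 0) (XT.lf (nat_lit 0) (nat_lit 1967024816) (nat_lit 684) (nat_lit 8969570359) (nat_lit 760) (nat_lit 1102855536) (nat_lit 242) (nat_lit 5) (nat_lit 251) (nat_lit 5) (nat_lit 252) (nat_lit 5) (nat_lit 310) (nat_lit 277) (nat_lit 193)) (XT.lf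 (nat_lit 0) (nat_lit 1786391288) (nat_lit 760) (nat_lit 847558987) (nat_lit 76) (nat_lit 9609203779) (nat_lit 241) (nat_lit 5) (nat_lit 251) (nat_lit 5) (nat_lit 242) (nat_lit 5) (nat_lit 311) (nat_lit 277) (nat_lit 192)))) (XT.nd (nat_lit 78) (nat_lit 1216) (nat_lit 0) (XT.lf (nat_lit 0) (nat_lit 4796552780) (nat_lit 760) (nat_lit 3754100861) (nat_lit 76) (nat_lit 3901210537) (nat_lit 232) (nat_lit 5) (nat_lit 242) (nat_lit 5) (nat_lit 233) (nat_lit 5) (nat_lit 312) (nat_lit 277) (nat_lit 191)) (XT.nd (nat_lit 78) (nat_lit 608) (nat_lit 0) (XT.lf (nat_lit 0) (nat_lit 5896814609) (nat_lit 608) (nat_lit 2029416366) (nat_lit 684) (nat_lit 4740045533) (nat_lit 224) (nat_lit 5) (nat_lit 232) (nat_lit 5) (nat_lit 233) (nat_lit 5) (nat_lit 313) (nat_lit 277) (nat_lit 190)) (XT.lf (nat_lit 0) (nat_lit 2973201741) (nat_lit 608) (nat_lit 8220150142) (nat_lit 684) (nat_lit 1692922685) (nat_lit 216) (nat_lit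 5) (nat_lit 224) (nat_lit 5) (nat_lit 225) (nat_lit 5) (nat_lit 314) (nat_lit 277) (nat_lit 189))))) (XT.nd (nat_lit 234) (nat_lit 1672) (nat_lit 0) (XT.nd (nat_lit 78) (nat_lit 1140) (nat_lit 0) (XT.lf (nat_lit 0) (nat_lit 1455067498) (nat_lit 684) (nat_lit 71467041) (nat_lit 76) (nat_lit 11585605280) (nat_lit 215) (nat_lit 5) (nat_lit 224) (nat_lit 5) (nat_lit 216) (nat_lit 5) (nat_lit 315) (nat_lit 277) (nat_lit 188)) (XT.nd (nat_lit 78) (nat_lit 608) (nat_lit 0) (XT.lf (nat_lit 0) (nat_lit 4745442440) (nat_lit 608) (nat_lit 3227972043) (nat_lit 76) (nat_lit 5369746392) (nat_lit 208) (nat_lit 5) (nat_lit 216) (nat_lit 5) (nat_lit 209) (nat_lit 5) (nat_lit 316) (nat_lit 277) (nat_lit 187)) (XT.lf (nat_lit 0) (nat_lit 7073908516) (nat_lit 608) (nat_lit 1087442817) (nat_lit 684) (nat_lit 5419246672) (nat_lit 200) (nat_lit 5) (nat_lit 208) (nat_lit 5) (nat_lit 209) (nat_lit 5) (nat_lit 317) (nat_lit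 277) (nat_lit 186)))) (XT.nd (nat_lit 156) (nat_lit 532) (nat_lit 0) (XT.nd (nat_lit 78) (nat_lit 608) (nat_lit 0) (XT.lf (nat_lit 0) (nat_lit 3880108575) (nat_lit 532) (nat_lit 7856624810) (nat_lit 608) (nat_lit 2087306206) (nat_lit 193) (nat_lit 5) (nat_lit 200) (nat_lit 5) (nat_lit 201) (nat_lit 5) (nat_lit 318) (nat_lit 277) (nat_lit 185)) (XT.lf (nat_lit 0) (nat_lit 548801011) (nat_lit 532) (nat_lit 804582836) (nat_lit 608) (nat_lit 12720717696) (nat_lit 185) (nat_lit 5) (nat_lit 192) (nat_lit 5) (nat_lit 193) (nat_lit 5) (nat_lit 319) (nat_lit 277) (nat_lit 184))) (XT.nd (nat_lit 78) (nat_lit 532) (nat_lit 0) (XT.lf (nat_lit 0) (nat_lit 4950635421) (nat_lit 608) (nat_lit 2929962186) (nat_lit 76) (nat_lit 6449177468) (nat_lit 185) (nat_lit 5) (nat_lit 193) (nat_lit 5) (nat_lit 186) (nat_lit 5) (nat_lit 320) (nat_lit 277) (nat_lit 183)) (XT.lf (nat_lit 0) (nat_lit 8048724564) (nat_lit 532)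 (nat_lit 637312190) (nat_lit 608) (nat_lit 5906496490) (nat_lit 178) (nat_lit 5) (nat_lit 185) (nat_lit 5) (nat_lit 186) (nat_lit 5) (nat_lit 321) (nat_lit 277) (nat_lit 182)))))) (XT.nd (nat_lit 468) (nat_lit 2052) (nat_lit 0) (XT.nd (nat_lit 234) (nat_lit 1444) (nat_lit 0) (XT.nd (nat_lit 78) (nat_lit 532) (nat_lit 0) (XT.lf (nat_lit 0) (nat_lit 4514236463) (nat_lit 532) (nat_lit 8085983327) (nat_lit 608) (nat_lit 2261638492) (nat_lit 171) (nat_lit 5) (nat_lit 178) (nat_lit 5) (nat_lit 179) (nat_lit 5) (nat_lit 322) (nat_lit 277) (nat_lit 181)) (XT.nd (nat_lit 78) (nat_lit 0) (nat_lit 0) (XT.lf (nat_lit 0) (nat_lit 817246943) (nat_lit 456) (nat_lit 683440488) (nat_lit 532) (nat_lit 13637845506) (nat_lit 164) (nat_lit 5) (nat_lit 170) (nat_lit 5) (nat_lit 171) (nat_lit 5) (nat_lit 323) (nat_lit 277) (nat_lit 180)) (XT.lf (nat_lit 0) (nat_lit 5434974666) (nat_lit 532) (nat_lit 3058429845) (nat_lit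 76) (nat_lit 6928025076) (nat_lit 164) (nat_lit 5) (nat_lit 171) (nat_lit 5) (nat_lit 165) (nat_lit 5) (nat_lit 324) (nat_lit 277) (nat_lit 179)))) (XT.nd (nat_lit 78) (nat_lit 988) (nat_lit 0) (XT.lf (nat_lit 0) (nat_lit 8617390864) (nat_lit 456) (nat_lit 905170748) (nat_lit 532) (nat_lit 6189562720) (nat_lit 158) (nat_lit 5) (nat_lit 164) (nat_lit 5) (nat_lit 165) (nat_lit 5) (nat_lit 325) (nat_lit 277) (nat_lit 178)) (XT.nd (nat_lit 78) (nat_lit 532) (nat_lit 0) (XT.lf (nat_lit 0) (nat_lit 4657010429) (nat_lit 456) (nat_lit 9146953672) (nat_lit 532) (nat_lit 2206168191) (nat_lit 152) (nat_lit 5) (nat_lit 158) (nat_lit 5) (nat_lit 159) (nat_lit 5) (nat_lit 326) (nat_lit 277) (nat_lit 177)) (XT.lf (nat_lit 0) (nat_lit 497047707) (nat_lit 456) (nat_lit 1408032937) (nat_lit 532) (nat_lit 14411104335) (nat_lit 145) (nat_lit 5) (nat_lit 151) (nat_lit 5) (nat_lit 152) (nat_lit 5) (nat_lit 327) (nat_lit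 277) (nat_lit 176))))) (XT.nd (nat_lit 234) (nat_lit 1216) (nat_lit 0) (XT.nd (nat_lit 78) (nat_lit 836) (nat_lit 0) (XT.lf (nat_lit 0) (nat_lit 6205916423) (nat_lit 532) (nat_lit 3862617102) (nat_lit 76) (nat_lit 6560684521) (nat_lit 145) (nat_lit 5) (nat_lit 152) (nat_lit 5) (nat_lit 146) (nat_lit 5) (nat_lit 328) (nat_lit 277) (nat_lit 175)) (XT.nd (nat_lit 78) (nat_lit 456) (nat_lit 0) (XT.lf (nat_lit 0) (nat_lit 8522935794) (nat_lit 380) (nat_lit 2154291518) (nat_lit 456) (nat_lit 6273600265) (nat_lit 140) (nat_lit 5) (nat_lit 145) (nat_lit 5) (nat_lit 146) (nat_lit 5) (nat_lit 329) (nat_lit 277) (nat_lit 174)) (XT.lf (nat_lit 0) (nat_lit 4033228449) (nat_lit 456) (nat_lit 11318037233) (nat_lit 532) (nat_lit 1929462000) (nat_lit 134) (nat_lit 5) (nat_lit 140) (nat_lit 5) (nat_lit 141) (nat_lit 5) (nat_lit 330) (nat_lit 277) (nat_lit 173)))) (XT.nd (nat_lit 156) (nat_lit 760) (nat_lit 0) (XT.nd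 (nat_lit 78) (nat_lit 380) (nat_lit 0) (XT.lf (nat_lit 0) (nat_lit 2560933100) (nat_lit 532) (nat_lit 698863610) (nat_lit 76) (nat_lit 14359424761) (nat_lit 133) (nat_lit 5) (nat_lit 140) (nat_lit 5) (nat_lit 134) (nat_lit 5) (nat_lit 331) (nat_lit 277) (nat_lit 172)) (XT.lf (nat_lit 0) (nat_lit 7251480486) (nat_lit 456) (nat_lit 5655309183) (nat_lit 76) (nat_lit 5059005230) (nat_lit 128) (nat_lit 5) (nat_lit 134) (nat_lit 5) (nat_lit 129) (nat_lit 5) (nat_lit 332) (nat_lit 277) (nat_lit 171))) (XT.nd (nat_lit 78) (nat_lit 380) (nat_lit 0) (XT.lf (nat_lit 0) (nat_lit 7442105746) (nat_lit 380) (nat_lit 4693982819) (nat_lit 456) (nat_lit 6185622686) (nat_lit 123) (nat_lit 5) (nat_lit 128) (nat_lit 5) (nat_lit 129) (nat_lit 5) (nat_lit 333) (nat_lit 277) (nat_lit 170)) (XT.lf (nat_lit 0) (nat_lit 2297186807) (nat_lit 380) (nat_lit 14926816095) (nat_lit 456) (nat_lit 1463179071) (nat_lit 118) (nat_lit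 5) (nat_lit 123) (nat_lit 5) (nat_lit 124) (nat_lit 5) (nat_lit 334) (nat_lit 277) (nat_lit 169))))))) (XT.nd (nat_lit 1014) (nat_lit 1900) (nat_lit 0) (XT.nd (nat_lit 468) (nat_lit 1596) (nat_lit 0) (XT.nd (nat_lit 234) (nat_lit 760) (nat_lit 0) (XT.nd (nat_lit 78) (nat_lit 684) (nat_lit 0) (XT.lf (nat_lit 0) (nat_lit 3441039808) (nat_lit 456) (nat_lit 3128247865) (nat_lit 76) (nat_lit 12492205054) (nat_lit 117) (nat_lit 5) (nat_lit 123) (nat_lit 5) (nat_lit 118) (nat_lit 5) (nat_lit 335) (nat_lit 277) (nat_lit 168)) (XT.nd (nat_lit 78) (nat_lit 304) (nat_lit 0) (XT.lf (nat_lit 0) (nat_lit 8535059238) (nat_lit 456) (nat_lit 8828038942) (nat_lit 76) (nat_lit 2082501444) (nat_lit 112) (nat_lit 5) (nat_lit 118) (nat_lit 5) (nat_lit 113) (nat_lit 5) (nat_lit 336) (nat_lit 277) (nat_lit 167)) (XT.lf (nat_lit 0) (nat_lit 4969524150) (nat_lit 304) (nat_lit 8889966162) (nat_lit 380) (nat_lit 5980198578)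 (nat_lit 108) (nat_lit 5) (nat_lit 112) (nat_lit 5) (nat_lit 113) (nat_lit 5) (nat_lit 337) (nat_lit 277) (nat_lit 166)))) (XT.nd (nat_lit 78) (nat_lit 760) (nat_lit 0) (XT.lf (nat_lit 0) (nat_lit 19272992094) (nat_lit 304) (nat_lit 110932818) (nat_lit 380) (nat_lit 860881170) (nat_lit 108) (nat_lit 5) (nat_lit 112) (nat_lit 5) (nat_lit 113) (nat_lit 5) (nat_lit 338) (nat_lit 277) (nat_lit 165)) (XT.nd (nat_lit 78) (nat_lit 304) (nat_lit 0) (XT.lf (nat_lit 0) (nat_lit 4481143580) (nat_lit 456) (nat_lit 7255718565) (nat_lit 76) (nat_lit 8922112035) (nat_lit 102) (nat_lit 5) (nat_lit 108) (nat_lit 5) (nat_lit 103) (nat_lit 5) (nat_lit 339) (nat_lit 277) (nat_lit 164)) (XT.lf (nat_lit 0) (nat_lit 7197141266) (nat_lit 304) (nat_lit 2809957585) (nat_lit 380) (nat_lit 11077657197) (nat_lit 98) (nat_lit 5) (nat_lit 102) (nat_lit 5) (nat_lit 103) (nat_lit 5) (nat_lit 340) (nat_lit 277) (nat_lit 163)))))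 (XT.nd (nat_lit 234) (nat_lit 912) (nat_lit 0) (XT.nd (nat_lit 78) (nat_lit 380) (nat_lit 0) (XT.lf (nat_lit 0) (nat_lit 598634458) (nat_lit 304) (nat_lit 15176539094) (nat_lit 380) (nat_lit 5746620570) (nat_lit 94) (nat_lit 5) (nat_lit 98) (nat_lit 5) (nat_lit 99) (nat_lit 5) (nat_lit 341) (nat_lit 277) (nat_lit 162)) (XT.nd (nat_lit 78) (nat_lit 380) (nat_lit 0) (XT.lf (nat_lit 0) (nat_lit 15662967012) (nat_lit 304) (nat_lit 6147965174) (nat_lit 380) (nat_lit 159127606) (nat_lit 94) (nat_lit 5) (nat_lit 98) (nat_lit 5) (nat_lit 99) (nat_lit 5) (nat_lit 342) (nat_lit 277) (nat_lit 161)) (XT.lf (nat_lit 0) (nat_lit 5583019988) (nat_lit 380) (nat_lit 13651757771) (nat_lit 76) (nat_lit 3195069410) (nat_lit 89) (nat_lit 5) (nat_lit 94) (nat_lit 5) (nat_lit 90) (nat_lit 5) (nat_lit 343) (nat_lit 277) (nat_lit 160)))) (XT.nd (nat_lit 156) (nat_lit 608) (nat_lit 0) (XT.nd (nat_lit 78) (nat_lit 0) (nat_lit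 0) (XT.lf (nat_lit 0) (nat_lit 1449272919) (nat_lit 304) (nat_lit 10122109253) (nat_lit 380) (nat_lit 11330511299) (nat_lit 85) (nat_lit 5) (nat_lit 89) (nat_lit 5) (nat_lit 90) (nat_lit 5) (nat_lit 344) (nat_lit 277) (nat_lit 159)) (XT.lf (nat_lit 0) (nat_lit 17163778380) (nat_lit 304) (nat_lit 651016098) (nat_lit 380) (nat_lit 5571807031) (nat_lit 85) (nat_lit 5) (nat_lit 89) (nat_lit 5) (nat_lit 90) (nat_lit 5) (nat_lit 345) (nat_lit 277) (nat_lit 158))) (XT.nd (nat_lit 78) (nat_lit 304) (nat_lit 0) (XT.lf (nat_lit 0) (nat_lit 459766686) (nat_lit 304) (nat_lit 14383339079) (nat_lit 76) (nat_lit 9040609745) (nat_lit 81) (nat_lit 5) (nat_lit 85) (nat_lit 5) (nat_lit 82) (nat_lit 5) (nat_lit 346) (nat_lit 277) (nat_lit 157)) (XT.lf (nat_lit 0) (nat_lit 1335430472) (nat_lit 304) (nat_lit 5300594931) (nat_lit 380) (nat_lit 17758199899) (nat_lit 77) (nat_lit 5) (nat_lit 81) (nat_lit 5) (nat_lit 82)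 (nat_lit 5) (nat_lit 347) (nat_lit 277) (nat_lit 156)))))) (XT.nd (nat_lit 546) (nat_lit 760) (nat_lit 0) (XT.nd (nat_lit 234) (nat_lit 836) (nat_lit 0) (XT.nd (nat_lit 78) (nat_lit 304) (nat_lit 0) (XT.lf (nat_lit 0) (nat_lit 13108873128) (nat_lit 380) (nat_lit 7251096640) (nat_lit 76) (nat_lit 4557862071) (nat_lit 77) (nat_lit 5) (nat_lit 82) (nat_lit 5) (nat_lit 78) (nat_lit 5) (nat_lit 348) (nat_lit 277) (nat_lit 155)) (XT.nd (nat_lit 78) (nat_lit 76) (nat_lit 0) (XT.lf (nat_lit 0) (nat_lit 9089749636) (nat_lit 228) (nat_lit 10764882610) (nat_lit 304) (nat_lit 5600947065) (nat_lit 74) (nat_lit 5) (nat_lit 77) (nat_lit 5) (nat_lit 78) (nat_lit 5) (nat_lit 349) (nat_lit 277) (nat_lit 154)) (XT.lf (nat_lit 0) (nat_lit 816814044) (nat_lit 304) (nat_lit 18536614) (nat_lit 76) (nat_lit 25173334174) (nat_lit 73) (nat_lit 5) (nat_lit 77) (nat_lit 5) (nat_lit 74) (nat_lit 5) (nat_lit 350) (nat_lit 277)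 (nat_lit 153)))) (XT.nd (nat_lit 156) (nat_lit 304) (nat_lit 0) (XT.nd (nat_lit 78) (nat_lit 228) (nat_lit 0) (XT.lf (nat_lit 0) (nat_lit 7508500817) (nat_lit 380) (nat_lit 9657158305) (nat_lit 76) (nat_lit 9408840904) (nat_lit 69) (nat_lit 5) (nat_lit 74) (nat_lit 5) (nat_lit 70) (nat_lit 5) (nat_lit 351) (nat_lit 277) (nat_lit 152)) (XT.lf (nat_lit 0) (nat_lit 7270227368) (nat_lit 228) (nat_lit 7168761896) (nat_lit 304) (nat_lit 12717545902) (nat_lit 66) (nat_lit 5) (nat_lit 69) (nat_lit 5) (nat_lit 70) (nat_lit 5) (nat_lit 352) (nat_lit 277) (nat_lit 151))) (XT.nd (nat_lit 78) (nat_lit 304) (nat_lit 0) (XT.lf (nat_lit 0) (nat_lit 21648933777) (nat_lit 304) (nat_lit 2961495270) (nat_lit 76) (nat_lit 3144177807) (nat_lit 66) (nat_lit 5) (nat_lit 70) (nat_lit 5) (nat_lit 67) (nat_lit 5) (nat_lit 353) (nat_lit 277) (nat_lit 150)) (XT.lf (nat_lit 0) (nat_lit 824624008) (nat_lit 304) (nat_lit 13781955663)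 (nat_lit 76) (nat_lit 13761369382) (nat_lit 62) (nat_lit 5) (nat_lit 66) (nat_lit 5) (nat_lit 63) (nat_lit 5) (nat_lit 354) (nat_lit 277) (nat_lit 149))))) (XT.nd (nat_lit 234) (nat_lit 304) (nat_lit 0) (XT.nd (nat_lit 78) (nat_lit 228) (nat_lit 0) (XT.lf (nat_lit 0) (nat_lit 3685744602) (nat_lit 228) (nat_lit 4224691614) (nat_lit 304) (nat_lit 21087842806) (nat_lit 59) (nat_lit 5) (nat_lit 62) (nat_lit 5) (nat_lit 63) (nat_lit 5) (nat_lit 355) (nat_lit 277) (nat_lit 148)) (XT.nd (nat_lit 78) (nat_lit 228) (nat_lit 0) (XT.lf (nat_lit 0) (nat_lit 15330992757) (nat_lit 304) (nat_lit 7844782826) (nat_lit 76) (nat_lit 6469305581) (nat_lit 59) (nat_lit 5) (nat_lit 63) (nat_lit 5) (nat_lit 60) (nat_lit 5) (nat_lit 356) (nat_lit 277) (nat_lit 147)) (XT.lf (nat_lit 0) (nat_lit 10230949139) (nat_lit 228) (nat_lit 12824460214) (nat_lit 304) (nat_lit 7254258656) (nat_lit 56) (nat_lit 5) (nat_lit 59) (nat_lit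 5) (nat_lit 60) (nat_lit 5) (nat_lit 357) (nat_lit 277) (nat_lit 146)))) (XT.nd (nat_lit 34398) (nat_lit 0) (nat_lit 31160) (XT.nd (nat_lit 78) (nat_lit 228) (nat_lit 0) (XT.lf (nat_lit 0) (nat_lit 57372194) (nat_lit 304) (nat_lit 2059065996) (nat_lit 76) (nat_lit 28876952578) (nat_lit 55) (nat_lit 5) (nat_lit 59) (nat_lit 5) (nat_lit 56) (nat_lit 5) (nat_lit 358) (nat_lit 277) (nat_lit 145)) (XT.lf (nat_lit 0) (nat_lit 7644420053) (nat_lit 304) (nat_lit 15103747769) (nat_lit 76) (nat_lit 8945410963) (nat_lit 52) (nat_lit 5) (nat_lit 56) (nat_lit 5) (nat_lit 53) (nat_lit 5) (nat_lit 359) (nat_lit 277) (nat_lit 144))) (XT.nd (nat_lit 78) (nat_lit 1292) (nat_lit 0) (XT.lf (nat_lit 0) (nat_lit 3172853647) (nat_lit 1292) (nat_lit 375843889) (nat_lit 1292) (nat_lit 375843889) (nat_lit 479) (nat_lit 3) (nat_lit 496) (nat_lit 3) (nat_lit 496) (nat_lit 5) (nat_lit 278) (nat_lit 278) (nat_lit 224)) (XT.lf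 (nat_lit 0) (nat_lit 325161387) (nat_lit 1292) (nat_lit 3286956317) (nat_lit 1368) (nat_lit 4316372697) (nat_lit 462) (nat_lit 5) (nat_lit 479) (nat_lit 3) (nat_lit 480) (nat_lit 5) (nat_lit 279) (nat_lit 278) (nat_lit 223))))))))
noncomputable def xc82 : XT := (XT.nd (nat_lit 2028) (nat_lit 12312) (nat_lit 0) (XT.nd (nat_lit 1014) (nat_lit 10564) (nat_lit 0) (XT.nd (nat_lit 468) (nat_lit 1292) (nat_lit 0) (XT.nd (nat_lit 234) (nat_lit 1292) (nat_lit 0) (XT.nd (nat_lit 78) (nat_lit 0) (nat_lit 0) (XT.lf (nat_lit 0) (nat_lit 2137268113) (nat_lit 1292) (nat_lit 5833393511) (nat_lit 1368) (nat_lit 40511393) (nat_lit 463) (nat_lit 5) (nat_lit 480) (nat_lit 5) (nat_lit 481) (nat_lit 5) (nat_lit 280) (nat_lit 278) (nat_lit 222)) (XT.nd (nat_lit 78) (nat_lit 0) (nat_lit 0) (XT.lf (nat_lit 0) (nat_lit 3981827756) (nat_lit 1292) (nat_lit 306887912) (nat_lit 1368) (nat_lit 3808130843) (nat_lit 463) (nat_lit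 5) (nat_lit 480) (nat_lit 5) (nat_lit 481) (nat_lit 5) (nat_lit 281) (nat_lit 278) (nat_lit 221)) (XT.lf (nat_lit 76) (nat_lit 5419457279) (nat_lit 0) (nat_lit 430961313) (nat_lit 1368) (nat_lit 2335367822) (nat_lit 464) (nat_lit 5) (nat_lit 463) (nat_lit 5) (nat_lit 481) (nat_lit 5) (nat_lit 282) (nat_lit 278) (nat_lit 220)))) (XT.nd (nat_lit 78) (nat_lit 1368) (nat_lit 0) (XT.lf (nat_lit 76) (nat_lit 3023094920) (nat_lit 0) (nat_lit 4732085895) (nat_lit 1368) (nat_lit 522679477) (nat_lit 465) (nat_lit 5) (nat_lit 464) (nat_lit 5) (nat_lit 482) (nat_lit 5) (nat_lit 283) (nat_lit 278) (nat_lit 219)) (XT.nd (nat_lit 78) (nat_lit 0) (nat_lit 76) (XT.lf (nat_lit 76) (nat_lit 609736362) (nat_lit 0) (nat_lit 679280687) (nat_lit 1444) (nat_lit 7084324346) (nat_lit 447) (nat_lit 5) (nat_lit 446) (nat_lit 5) (nat_lit 465) (nat_lit 5) (nat_lit 284) (nat_lit 278) (nat_lit 218)) (XT.lf (nat_lit 0) (nat_lit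 3144849790) (nat_lit 1368) (nat_lit 1814405126) (nat_lit 1444) (nat_lit 3512488076) (nat_lit 447) (nat_lit 5) (nat_lit 465) (nat_lit 5) (nat_lit 466) (nat_lit 5) (nat_lit 285) (nat_lit 278) (nat_lit 217))))) (XT.nd (nat_lit 234) (nat_lit 0) (nat_lit 76) (XT.nd (nat_lit 78) (nat_lit 1368) (nat_lit 0) (XT.lf (nat_lit 76) (nat_lit 4327515542) (nat_lit 0) (nat_lit 701588201) (nat_lit 1444) (nat_lit 3544599021) (nat_lit 448) (nat_lit 5) (nat_lit 447) (nat_lit 5) (nat_lit 466) (nat_lit 5) (nat_lit 286) (nat_lit 278) (nat_lit 216)) (XT.nd (nat_lit 78) (nat_lit 1444) (nat_lit 0) (XT.lf (nat_lit 76) (nat_lit 1963084883) (nat_lit 0) (nat_lit 4997585245) (nat_lit 1444) (nat_lit 1718294782) (nat_lit 449) (nat_lit 5) (nat_lit 448) (nat_lit 5) (nat_lit 467) (nat_lit 5) (nat_lit 287) (nat_lit 278) (nat_lit 215)) (XT.lf (nat_lit 0) (nat_lit 137080833) (nat_lit 1444) (nat_lit 414896599) (nat_lit 1520) (nat_lit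 8235914423) (nat_lit 429) (nat_lit 5) (nat_lit 448) (nat_lit 5) (nat_lit 449) (nat_lit 5) (nat_lit 288) (nat_lit 278) (nat_lit 214)))) (XT.nd (nat_lit 156) (nat_lit 0) (nat_lit 76) (XT.nd (nat_lit 78) (nat_lit 0) (nat_lit 0) (XT.lf (nat_lit 0) (nat_lit 2035578454) (nat_lit 1444) (nat_lit 2820896753) (nat_lit 1520) (nat_lit 4043222907) (nat_lit 430) (nat_lit 5) (nat_lit 449) (nat_lit 5) (nat_lit 450) (nat_lit 5) (nat_lit 289) (nat_lit 278) (nat_lit 213)) (XT.lf (nat_lit 76) (nat_lit 3765454688) (nat_lit 0) (nat_lit 202462104) (nat_lit 1520) (nat_lit 5047457236) (nat_lit 431) (nat_lit 5) (nat_lit 430) (nat_lit 5) (nat_lit 450) (nat_lit 5) (nat_lit 290) (nat_lit 278) (nat_lit 212))) (XT.nd (nat_lit 78) (nat_lit 0) (nat_lit 76) (XT.lf (nat_lit 76) (nat_lit 1403353477) (nat_lit 0) (nat_lit 4560377787) (nat_lit 1520) (nat_lit 3170730469) (nat_lit 432) (nat_lit 5) (nat_lit 431) (nat_lit 5) (nat_lit 451)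 (nat_lit 5) (nat_lit 291) (nat_lit 278) (nat_lit 211)) (XT.lf (nat_lit 0) (nat_lit 8006808608) (nat_lit 1444) (nat_lit 970942274) (nat_lit 1520) (nat_lit 279673548) (nat_lit 432) (nat_lit 5) (nat_lit 451) (nat_lit 5) (nat_lit 452) (nat_lit 5) (nat_lit 292) (nat_lit 278) (nat_lit 210)))))) (XT.nd (nat_lit 468) (nat_lit 4484) (nat_lit 0) (XT.nd (nat_lit 234) (nat_lit 3344) (nat_lit 0) (XT.nd (nat_lit 78) (nat_lit 1444) (nat_lit 0) (XT.lf (nat_lit 0) (nat_lit 737320528) (nat_lit 1520) (nat_lit 3386701287) (nat_lit 1596) (nat_lit 5259612405) (nat_lit 412) (nat_lit 5) (nat_lit 432) (nat_lit 5) (nat_lit 433) (nat_lit 5) (nat_lit 293) (nat_lit 278) (nat_lit 209)) (XT.nd (nat_lit 78) (nat_lit 1520) (nat_lit 0) (XT.lf (nat_lit 0) (nat_lit 2755536440) (nat_lit 1520) (nat_lit 5844901217) (nat_lit 76) (nat_lit 913320992) (nat_lit 413) (nat_lit 5) (nat_lit 433) (nat_lit 5) (nat_lit 414) (nat_lit 5) (nat_lit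 294) (nat_lit 278) (nat_lit 208)) (XT.lf (nat_lit 0) (nat_lit 1285356928) (nat_lit 1520) (nat_lit 3560256296) (nat_lit 1596) (nat_lit 4801992274) (nat_lit 393) (nat_lit 5) (nat_lit 413) (nat_lit 5) (nat_lit 414) (nat_lit 5) (nat_lit 295) (nat_lit 278) (nat_lit 207)))) (XT.nd (nat_lit 78) (nat_lit 3344) (nat_lit 0) (XT.lf (nat_lit 0) (nat_lit 7002335703) (nat_lit 1596) (nat_lit 1125280213) (nat_lit 76) (nat_lit 1657816636) (nat_lit 393) (nat_lit 5) (nat_lit 414) (nat_lit 5) (nat_lit 394) (nat_lit 5) (nat_lit 296) (nat_lit 278) (nat_lit 206)) (XT.nd (nat_lit 78) (nat_lit 1748) (nat_lit 0) (XT.lf (nat_lit 0) (nat_lit 6350134773) (nat_lit 1596) (nat_lit 2893502035) (nat_lit 1672) (nat_lit 683402464) (nat_lit 372) (nat_lit 5) (nat_lit 393) (nat_lit 5) (nat_lit 394) (nat_lit 5) (nat_lit 297) (nat_lit 278) (nat_lit 205)) (XT.lf (nat_lit 0) (nat_lit 1465630403) (nat_lit 1748) (nat_lit 6092409105) (nat_lit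 76) (nat_lit 2514587976) (nat_lit 349) (nat_lit 5) (nat_lit 372) (nat_lit 5) (nat_lit 350) (nat_lit 5) (nat_lit 298) (nat_lit 278) (nat_lit 204))))) (XT.nd (nat_lit 234) (nat_lit 2508) (nat_lit 0) (XT.nd (nat_lit 78) (nat_lit 836) (nat_lit 0) (XT.lf (nat_lit 0) (nat_lit 1548673690) (nat_lit 1140) (nat_lit 2131698587) (nat_lit 1216) (nat_lit 6541949440) (nat_lit 334) (nat_lit 5) (nat_lit 349) (nat_lit 5) (nat_lit 350) (nat_lit 5) (nat_lit 299) (nat_lit 278) (nat_lit 203)) (XT.nd (nat_lit 78) (nat_lit 836) (nat_lit 0) (XT.lf (nat_lit 0) (nat_lit 5983273216) (nat_lit 1216) (nat_lit 934782999) (nat_lit 76) (nat_lit 3458054261) (nat_lit 334) (nat_lit 5) (nat_lit 350) (nat_lit 5) (nat_lit 335) (nat_lit 5) (nat_lit 300) (nat_lit 278) (nat_lit 202)) (XT.lf (nat_lit 0) (nat_lit 7077176457) (nat_lit 836) (nat_lit 1297233140) (nat_lit 912) (nat_lit 2159757261) (nat_lit 323) (nat_lit 5) (nat_lit 334) (nat_lit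 5) (nat_lit 335) (nat_lit 5) (nat_lit 301) (nat_lit 278) (nat_lit 201)))) (XT.nd (nat_lit 156) (nat_lit 836) (nat_lit 0) (XT.nd (nat_lit 78) (nat_lit 760) (nat_lit 0) (XT.lf (nat_lit 0) (nat_lit 164190998) (nat_lit 912) (nat_lit 6058363448) (nat_lit 76) (nat_lit 4473913093) (nat_lit 311) (nat_lit 5) (nat_lit 323) (nat_lit 5) (nat_lit 312) (nat_lit 5) (nat_lit 302) (nat_lit 278) (nat_lit 200)) (XT.lf (nat_lit 0) (nat_lit 2126999492) (nat_lit 760) (nat_lit 408299008) (nat_lit 836) (nat_lit 8327951679) (nat_lit 301) (nat_lit 5) (nat_lit 311) (nat_lit 5) (nat_lit 312) (nat_lit 5) (nat_lit 303) (nat_lit 278) (nat_lit 199))) (XT.nd (nat_lit 78) (nat_lit 836) (nat_lit 0) (XT.lf (nat_lit 0) (nat_lit 5016562405) (nat_lit 836) (nat_lit 467891898) (nat_lit 76) (nat_lit 5549834663) (nat_lit 301) (nat_lit 5) (nat_lit 312) (nat_lit 5) (nat_lit 302) (nat_lit 5) (nat_lit 304) (nat_lit 278) (nat_lit 198)) (XT.lf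 (nat_lit 0) (nat_lit 7593682187) (nat_lit 912) (nat_lit 3098235783) (nat_lit 76) (nat_lit 518144753) (nat_lit 290) (nat_lit 5) (nat_lit 302) (nat_lit 5) (nat_lit 291) (nat_lit 5) (nat_lit 305) (nat_lit 278) (nat_lit 197))))))) (XT.nd (nat_lit 1014) (nat_lit 5472) (nat_lit 0) (XT.nd (nat_lit 468) (nat_lit 3116) (nat_lit 0) (XT.nd (nat_lit 234) (nat_lit 1444) (nat_lit 0) (XT.nd (nat_lit 78) (nat_lit 1520) (nat_lit 0) (XT.lf (nat_lit 0) (nat_lit 5563481844) (nat_lit 760) (nat_lit 4724068195) (nat_lit 836) (nat_lit 1102802196) (nat_lit 280) (nat_lit 5) (nat_lit 290) (nat_lit 5) (nat_lit 291) (nat_lit 5) (nat_lit 306) (nat_lit 278) (nat_lit 196)) (XT.nd (nat_lit 78) (nat_lit 684) (nat_lit 0) (XT.lf (nat_lit 0) (nat_lit 1480505087) (nat_lit 836) (nat_lit 8641704448) (nat_lit 76) (nat_lit 1453401372) (nat_lit 269) (nat_lit 5) (nat_lit 280) (nat_lit 5) (nat_lit 270) (nat_lit 5) (nat_lit 307) (nat_lit 278)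 (nat_lit 195)) (XT.lf (nat_lit 0) (nat_lit 197882058) (nat_lit 684) (nat_lit 3965964852) (nat_lit 760) (nat_lit 7601713139) (nat_lit 260) (nat_lit 5) (nat_lit 269) (nat_lit 5) (nat_lit 270) (nat_lit 5) (nat_lit 308) (nat_lit 278) (nat_lit 194)))) (XT.nd (nat_lit 78) (nat_lit 1444) (nat_lit 0) (XT.lf (nat_lit 0) (nat_lit 6967639546) (nat_lit 760) (nat_lit 2592112184) (nat_lit 76) (nat_lit 2400684944) (nat_lit 260) (nat_lit 5) (nat_lit 270) (nat_lit 5) (nat_lit 261) (nat_lit 5) (nat_lit 309) (nat_lit 278) (nat_lit 193)) (XT.nd (nat_lit 78) (nat_lit 760) (nat_lit 0) (XT.lf (nat_lit 0) (nat_lit 6677647660) (nat_lit 684) (nat_lit 3214362560) (nat_lit 760) (nat_lit 2268447295) (nat_lit 251) (nat_lit 5) (nat_lit 260) (nat_lit 5) (nat_lit 261) (nat_lit 5) (nat_lit 310) (nat_lit 278) (nat_lit 192)) (XT.lf (nat_lit 0) (nat_lit 562565744) (nat_lit 760) (nat_lit 8481610682) (nat_lit 76) (nat_lit 3321618958)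 (nat_lit 241) (nat_lit 5) (nat_lit 251) (nat_lit 5) (nat_lit 242) (nat_lit 5) (nat_lit 311) (nat_lit 278) (nat_lit 191))))) (XT.nd (nat_lit 234) (nat_lit 1824) (nat_lit 0) (XT.nd (nat_lit 78) (nat_lit 608) (nat_lit 0) (XT.lf (nat_lit 0) (nat_lit 970433601) (nat_lit 684) (nat_lit 2510421845) (nat_lit 760) (nat_lit 9095499881) (nat_lit 232) (nat_lit 5) (nat_lit 241) (nat_lit 5) (nat_lit 242) (nat_lit 5) (nat_lit 312) (nat_lit 278) (nat_lit 190)) (XT.nd (nat_lit 78) (nat_lit 608) (nat_lit 0) (XT.lf (nat_lit 0) (nat_lit 6540419122) (nat_lit 760) (nat_lit 2033834577) (nat_lit 76) (nat_lit 4217928272) (nat_lit 232) (nat_lit 5) (nat_lit 242) (nat_lit 5) (nat_lit 233) (nat_lit 5) (nat_lit 313) (nat_lit 278) (nat_lit 189)) (XT.lf (nat_lit 0) (nat_lit 7876871906) (nat_lit 608) (nat_lit 1852221960) (nat_lit 684) (nat_lit 3284666760) (nat_lit 224) (nat_lit 5) (nat_lit 232) (nat_lit 5) (nat_lit 233) (nat_lit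 5) (nat_lit 314) (nat_lit 278) (nat_lit 188)))) (XT.nd (nat_lit 156) (nat_lit 608) (nat_lit 0) (XT.nd (nat_lit 78) (nat_lit 608) (nat_lit 0) (XT.lf (nat_lit 0) (nat_lit 4866752799) (nat_lit 608) (nat_lit 8195106666) (nat_lit 684) (nat_lit 179181570) (nat_lit 216) (nat_lit 5) (nat_lit 224) (nat_lit 5) (nat_lit 225) (nat_lit 5) (nat_lit 315) (nat_lit 278) (nat_lit 187)) (XT.lf (nat_lit 0) (nat_lit 1721804525) (nat_lit 532) (nat_lit 1287132657) (nat_lit 608) (nat_lit 10465251087) (nat_lit 208) (nat_lit 5) (nat_lit 215) (nat_lit 5) (nat_lit 216) (nat_lit 5) (nat_lit 316) (nat_lit 278) (nat_lit 186))) (XT.nd (nat_lit 78) (nat_lit 608) (nat_lit 0) (XT.lf (nat_lit 0) (nat_lit 6356307503) (nat_lit 608) (nat_lit 1552127359) (nat_lit 76) (nat_lit 5804571781) (nat_lit 208) (nat_lit 5) (nat_lit 216) (nat_lit 5) (nat_lit 209) (nat_lit 5) (nat_lit 317) (nat_lit 278) (nat_lit 185)) (XT.lf (nat_lit 0) (nat_lit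 9030049927) (nat_lit 608) (nat_lit 813194551) (nat_lit 684) (nat_lit 4114982821) (nat_lit 200) (nat_lit 5) (nat_lit 208) (nat_lit 5) (nat_lit 209) (nat_lit 5) (nat_lit 318) (nat_lit 278) (nat_lit 184)))))) (XT.nd (nat_lit 546) (nat_lit 2736) (nat_lit 0) (XT.nd (nat_lit 234) (nat_lit 1596) (nat_lit 0) (XT.nd (nat_lit 78) (nat_lit 608) (nat_lit 0) (XT.lf (nat_lit 0) (nat_lit 5739488161) (nat_lit 532) (nat_lit 7757794871) (nat_lit 608) (nat_lit 712291713) (nat_lit 193) (nat_lit 5) (nat_lit 200) (nat_lit 5) (nat_lit 201) (nat_lit 5) (nat_lit 319) (nat_lit 278) (nat_lit 183)) (XT.nd (nat_lit 78) (nat_lit 0) (nat_lit 0) (XT.lf (nat_lit 0) (nat_lit 2299493538) (nat_lit 532) (nat_lit 483206784) (nat_lit 608) (nat_lit 11684881872) (nat_lit 185) (nat_lit 5) (nat_lit 192) (nat_lit 5) (nat_lit 193) (nat_lit 5) (nat_lit 320) (nat_lit 278) (nat_lit 182)) (XT.lf (nat_lit 0) (nat_lit 6449599400) (nat_lit 608)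 (nat_lit 1308416791) (nat_lit 76) (nat_lit 6973703340) (nat_lit 185) (nat_lit 5) (nat_lit 193) (nat_lit 5) (nat_lit 186) (nat_lit 5) (nat_lit 321) (nat_lit 278) (nat_lit 181)))) (XT.nd (nat_lit 156) (nat_lit 532) (nat_lit 0) (XT.nd (nat_lit 78) (nat_lit 532) (nat_lit 0) (XT.lf (nat_lit 0) (nat_lit 9971896860) (nat_lit 532) (nat_lit 296751346) (nat_lit 608) (nat_lit 4734307905) (nat_lit 178) (nat_lit 5) (nat_lit 185) (nat_lit 5) (nat_lit 186) (nat_lit 5) (nat_lit 322) (nat_lit 278) (nat_lit 180)) (XT.lf (nat_lit 0) (nat_lit 6328702323) (nat_lit 532) (nat_lit 7946217371) (nat_lit 608) (nat_lit 1005974527) (nat_lit 171) (nat_lit 5) (nat_lit 178) (nat_lit 5) (nat_lit 179) (nat_lit 5) (nat_lit 323) (nat_lit 278) (nat_lit 179))) (XT.nd (nat_lit 78) (nat_lit 0) (nat_lit 0) (XT.lf (nat_lit 0) (nat_lit 2511493687) (nat_lit 456) (nat_lit 313167015) (nat_lit 532) (nat_lit 12741605895) (nat_lit 164) (nat_lit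 5) (nat_lit 170) (nat_lit 5) (nat_lit 171) (nat_lit 5) (nat_lit 324) (nat_lit 278) (nat_lit 178)) (XT.lf (nat_lit 0) (nat_lit 6842188789) (nat_lit 532) (nat_lit 1505896836) (nat_lit 76) (nat_lit 7510284840) (nat_lit 164) (nat_lit 5) (nat_lit 171) (nat_lit 5) (nat_lit 165) (nat_lit 5) (nat_lit 325) (nat_lit 278) (nat_lit 177))))) (XT.nd (nat_lit 234) (nat_lit 1292) (nat_lit 0) (XT.nd (nat_lit 78) (nat_lit 988) (nat_lit 0) (XT.lf (nat_lit 0) (nat_lit 10493521910) (nat_lit 456) (nat_lit 533146214) (nat_lit 532) (nat_lit 5131656478) (nat_lit 158) (nat_lit 5) (nat_lit 164) (nat_lit 5) (nat_lit 165) (nat_lit 5) (nat_lit 326) (nat_lit 278) (nat_lit 176)) (XT.nd (nat_lit 78) (nat_lit 532) (nat_lit 0) (XT.lf (nat_lit 0) (nat_lit 6410291794) (nat_lit 456) (nat_lit 9003725275) (nat_lit 532) (nat_lit 1051728794) (nat_lit 152) (nat_lit 5) (nat_lit 158) (nat_lit 5) (nat_lit 159) (nat_lit 5) (nat_lit 327) (nat_lit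 278) (nat_lit 175)) (XT.lf (nat_lit 0) (nat_lit 2115845214) (nat_lit 456) (nat_lit 1026331180) (nat_lit 532) (nat_lit 13639160720) (nat_lit 145) (nat_lit 5) (nat_lit 151) (nat_lit 5) (nat_lit 152) (nat_lit 5) (nat_lit 328) (nat_lit 278) (nat_lit 174)))) (XT.nd (nat_lit 156) (nat_lit 912) (nat_lit 0) (XT.nd (nat_lit 78) (nat_lit 380) (nat_lit 0) (XT.lf (nat_lit 0) (nat_lit 7540342312) (nat_lit 532) (nat_lit 2400372341) (nat_lit 76) (nat_lit 7163701814) (nat_lit 145) (nat_lit 5) (nat_lit 152) (nat_lit 5) (nat_lit 146) (nat_lit 5) (nat_lit 329) (nat_lit 278) (nat_lit 173)) (XT.lf (nat_lit 0) (nat_lit 10331143967) (nat_lit 380) (nat_lit 1791284422) (nat_lit 456) (nat_lit 5313733947) (nat_lit 140) (nat_lit 5) (nat_lit 145) (nat_lit 5) (nat_lit 146) (nat_lit 5) (nat_lit 330) (nat_lit 278) (nat_lit 172))) (XT.nd (nat_lit 78) (nat_lit 456) (nat_lit 0) (XT.lf (nat_lit 0) (nat_lit 5701639992) (nat_lit 456)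 (nat_lit 11215026768) (nat_lit 532) (nat_lit 859713274) (nat_lit 134) (nat_lit 5) (nat_lit 140) (nat_lit 5) (nat_lit 141) (nat_lit 5) (nat_lit 331) (nat_lit 278) (nat_lit 171)) (XT.lf (nat_lit 0) (nat_lit 808111562) (nat_lit 380) (nat_lit 2915326892) (nat_lit 456) (nat_lit 14402006275) (nat_lit 128) (nat_lit 5) (nat_lit 133) (nat_lit 5) (nat_lit 134) (nat_lit 5) (nat_lit 332) (nat_lit 278) (nat_lit 170))))))))
noncomputable def xc83 : XT := (XT.nd (nat_lit 36504) (nat_lit 0) (nat_lit 17784) (XT.nd (nat_lit 1014) (nat_lit 2204) (nat_lit 0) (XT.nd (nat_lit 468) (nat_lit 1748) (nat_lit 0) (XT.nd (nat_lit 234) (nat_lit 760) (nat_lit 0) (XT.nd (nat_lit 78) (nat_lit 760) (nat_lit 0) (XT.lf (nat_lit 0) (nat_lit 8530496661) (nat_lit 456) (nat_lit 4313266997) (nat_lit 76) (nat_lit 5639154450) (nat_lit 128) (nat_lit 5) (nat_lit 134) (nat_lit 5) (nat_lit 129) (nat_lit 5) (nat_lit 333) (nat_lit 278) (nat_lit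 169)) (XT.nd (nat_lit 78) (nat_lit 380) (nat_lit 0) (XT.lf (nat_lit 0) (nat_lit 9152544820) (nat_lit 380) (nat_lit 4387837242) (nat_lit 456) (nat_lit 5309573200) (nat_lit 123) (nat_lit 5) (nat_lit 128) (nat_lit 5) (nat_lit 129) (nat_lit 5) (nat_lit 334) (nat_lit 278) (nat_lit 168)) (XT.lf (nat_lit 0) (nat_lit 3847355757) (nat_lit 380) (nat_lit 14915715418) (nat_lit 456) (nat_lit 463693750) (nat_lit 118) (nat_lit 5) (nat_lit 123) (nat_lit 5) (nat_lit 124) (nat_lit 5) (nat_lit 335) (nat_lit 278) (nat_lit 167)))) (XT.nd (nat_lit 78) (nat_lit 684) (nat_lit 0) (XT.lf (nat_lit 0) (nat_lit 4543976408) (nat_lit 456) (nat_lit 1770142356) (nat_lit 76) (nat_lit 13298667295) (nat_lit 117) (nat_lit 5) (nat_lit 123) (nat_lit 5) (nat_lit 118) (nat_lit 5) (nat_lit 336) (nat_lit 278) (nat_lit 166)) (XT.nd (nat_lit 78) (nat_lit 304) (nat_lit 0) (XT.lf (nat_lit 0) (nat_lit 9773885073) (nat_lit 456) (nat_lit 7647257216)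 (nat_lit 76) (nat_lit 2587628735) (nat_lit 112) (nat_lit 5) (nat_lit 118) (nat_lit 5) (nat_lit 113) (nat_lit 5) (nat_lit 337) (nat_lit 278) (nat_lit 165)) (XT.lf (nat_lit 0) (nat_lit 6540779254) (nat_lit 304) (nat_lit 8697879003) (nat_lit 380) (nat_lit 5176428285) (nat_lit 108) (nat_lit 5) (nat_lit 112) (nat_lit 5) (nat_lit 113) (nat_lit 5) (nat_lit 338) (nat_lit 278) (nat_lit 164))))) (XT.nd (nat_lit 234) (nat_lit 988) (nat_lit 0) (XT.nd (nat_lit 78) (nat_lit 304) (nat_lit 0) (XT.lf (nat_lit 0) (nat_lit 71735287) (nat_lit 456) (nat_lit 20431191658) (nat_lit 76) (nat_lit 329902144) (nat_lit 102) (nat_lit 5) (nat_lit 108) (nat_lit 5) (nat_lit 103) (nat_lit 5) (nat_lit 339) (nat_lit 278) (nat_lit 163)) (XT.nd (nat_lit 78) (nat_lit 304) (nat_lit 0) (XT.lf (nat_lit 0) (nat_lit 5541970460) (nat_lit 456) (nat_lit 6086187691) (nat_lit 76) (nat_lit 9631571920) (nat_lit 102) (nat_lit 5) (nat_lit 108) (nat_lit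 5) (nat_lit 103) (nat_lit 5) (nat_lit 340) (nat_lit 278) (nat_lit 162)) (XT.lf (nat_lit 0) (nat_lit 8777752223) (nat_lit 304) (nat_lit 2437830374) (nat_lit 380) (nat_lit 10483079374) (nat_lit 98) (nat_lit 5) (nat_lit 102) (nat_lit 5) (nat_lit 103) (nat_lit 5) (nat_lit 341) (nat_lit 278) (nat_lit 161)))) (XT.nd (nat_lit 156) (nat_lit 608) (nat_lit 0) (XT.nd (nat_lit 78) (nat_lit 76) (nat_lit 0) (XT.lf (nat_lit 0) (nat_lit 1974568684) (nat_lit 304) (nat_lit 15167370350) (nat_lit 380) (nat_lit 5007181093) (nat_lit 94) (nat_lit 5) (nat_lit 98) (nat_lit 5) (nat_lit 99) (nat_lit 5) (nat_lit 342) (nat_lit 278) (nat_lit 160)) (XT.lf (nat_lit 0) (nat_lit 711917261) (nat_lit 380) (nat_lit 5164772715) (nat_lit 76) (nat_lit 16734583938) (nat_lit 93) (nat_lit 5) (nat_lit 98) (nat_lit 5) (nat_lit 94) (nat_lit 5) (nat_lit 343) (nat_lit 278) (nat_lit 159))) (XT.nd (nat_lit 78) (nat_lit 304) (nat_lit 0) (XT.lf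 (nat_lit 0) (nat_lit 6610166896) (nat_lit 380) (nat_lit 12737805529) (nat_lit 76) (nat_lit 3737154147) (nat_lit 89) (nat_lit 5) (nat_lit 94) (nat_lit 5) (nat_lit 90) (nat_lit 5) (nat_lit 344) (nat_lit 278) (nat_lit 158)) (XT.lf (nat_lit 0) (nat_lit 2794783786) (nat_lit 304) (nat_lit 9966811286) (nat_lit 380) (nat_lit 10810083205) (nat_lit 85) (nat_lit 5) (nat_lit 89) (nat_lit 5) (nat_lit 90) (nat_lit 5) (nat_lit 345) (nat_lit 278) (nat_lit 157)))))) (XT.nd (nat_lit 546) (nat_lit 988) (nat_lit 0) (XT.nd (nat_lit 234) (nat_lit 608) (nat_lit 0) (XT.nd (nat_lit 78) (nat_lit 608) (nat_lit 0) (XT.lf (nat_lit 0) (nat_lit 18942801128) (nat_lit 304) (nat_lit 224953139) (nat_lit 380) (nat_lit 4903676357) (nat_lit 85) (nat_lit 5) (nat_lit 89) (nat_lit 5) (nat_lit 90) (nat_lit 5) (nat_lit 346) (nat_lit 278) (nat_lit 156)) (XT.nd (nat_lit 78) (nat_lit 304) (nat_lit 0) (XT.lf (nat_lit 0) (nat_lit 1284924444)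 (nat_lit 304) (nat_lit 13546425781) (nat_lit 76) (nat_lit 9752270042) (nat_lit 81) (nat_lit 5) (nat_lit 85) (nat_lit 5) (nat_lit 82) (nat_lit 5) (nat_lit 347) (nat_lit 278) (nat_lit 155)) (XT.lf (nat_lit 0) (nat_lit 2623328355) (nat_lit 304) (nat_lit 5007612357) (nat_lit 380) (nat_lit 17478826297) (nat_lit 77) (nat_lit 5) (nat_lit 81) (nat_lit 5) (nat_lit 82) (nat_lit 5) (nat_lit 348) (nat_lit 278) (nat_lit 154)))) (XT.nd (nat_lit 156) (nat_lit 380) (nat_lit 0) (XT.nd (nat_lit 78) (nat_lit 228) (nat_lit 0) (XT.lf (nat_lit 0) (nat_lit 14277643432) (nat_lit 380) (nat_lit 6244177758) (nat_lit 76) (nat_lit 5127677890) (nat_lit 77) (nat_lit 5) (nat_lit 82) (nat_lit 5) (nat_lit 78) (nat_lit 5) (nat_lit 349) (nat_lit 278) (nat_lit 153)) (XT.lf (nat_lit 0) (nat_lit 10567028631) (nat_lit 228) (nat_lit 10643980168) (nat_lit 304) (nat_lit 4992675923) (nat_lit 74) (nat_lit 5) (nat_lit 77) (nat_lit 5) (nat_lit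 78) (nat_lit 5) (nat_lit 350) (nat_lit 278) (nat_lit 152))) (XT.nd (nat_lit 78) (nat_lit 0) (nat_lit 0) (XT.lf (nat_lit 0) (nat_lit 1176048090) (nat_lit 304) (nat_lit 416710181) (nat_lit 380) (nat_lit 25180827816) (nat_lit 69) (nat_lit 5) (nat_lit 73) (nat_lit 5) (nat_lit 74) (nat_lit 5) (nat_lit 351) (nat_lit 278) (nat_lit 151)) (XT.lf (nat_lit 0) (nat_lit 8466228706) (nat_lit 380) (nat_lit 8774179166) (nat_lit 76) (nat_lit 10116356830) (nat_lit 69) (nat_lit 5) (nat_lit 74) (nat_lit 5) (nat_lit 70) (nat_lit 5) (nat_lit 352) (nat_lit 278) (nat_lit 150))))) (XT.nd (nat_lit 234) (nat_lit 456) (nat_lit 0) (XT.nd (nat_lit 78) (nat_lit 304) (nat_lit 0) (XT.lf (nat_lit 0) (nat_lit 8642002512) (nat_lit 228) (nat_lit 6948785513) (nat_lit 304) (nat_lit 12365759093) (nat_lit 66) (nat_lit 5) (nat_lit 69) (nat_lit 5) (nat_lit 70) (nat_lit 5) (nat_lit 353) (nat_lit 278) (nat_lit 149)) (XT.nd (nat_lit 78) (nat_lit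 304) (nat_lit 0) (XT.lf (nat_lit 0) (nat_lit 22998842224) (nat_lit 304) (nat_lit 1918759679) (nat_lit 76) (nat_lit 3655331900) (nat_lit 66) (nat_lit 5) (nat_lit 70) (nat_lit 5) (nat_lit 67) (nat_lit 5) (nat_lit 354) (nat_lit 278) (nat_lit 148)) (XT.lf (nat_lit 0) (nat_lit 1541470984) (nat_lit 304) (nat_lit 13072706796) (nat_lit 76) (nat_lit 14590679698) (nat_lit 62) (nat_lit 5) (nat_lit 66) (nat_lit 5) (nat_lit 63) (nat_lit 5) (nat_lit 355) (nat_lit 278) (nat_lit 147)))) (XT.nd (nat_lit 156) (nat_lit 228) (nat_lit 0) (XT.nd (nat_lit 78) (nat_lit 0) (nat_lit 0) (XT.lf (nat_lit 0) (nat_lit 4900809881) (nat_lit 228) (nat_lit 3926060285) (nat_lit 304) (nat_lit 21027495313) (nat_lit 59) (nat_lit 5) (nat_lit 62) (nat_lit 5) (nat_lit 63) (nat_lit 5) (nat_lit 356) (nat_lit 278) (nat_lit 146)) (XT.lf (nat_lit 0) (nat_lit 16452944541) (nat_lit 304) (nat_lit 6997026255) (nat_lit 76) (nat_lit 7070951006) (nat_lit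 59) (nat_lit 5) (nat_lit 63) (nat_lit 5) (nat_lit 60) (nat_lit 5) (nat_lit 357) (nat_lit 278) (nat_lit 145))) (XT.nd (nat_lit 34476) (nat_lit 0) (nat_lit 30856) (XT.lf (nat_lit 0) (nat_lit 11603405657) (nat_lit 228) (nat_lit 12793323898) (nat_lit 304) (nat_lit 6808971883) (nat_lit 56) (nat_lit 5) (nat_lit 59) (nat_lit 5) (nat_lit 60) (nat_lit 5) (nat_lit 358) (nat_lit 278) (nat_lit 144)) (XT.lf (nat_lit 0) (nat_lit 513041175) (nat_lit 0) (nat_lit 513041175) (nat_lit 1292) (nat_lit 2978605497) (nat_lit 462) (nat_lit 5) (nat_lit 462) (nat_lit 3) (nat_lit 479) (nat_lit 3) (nat_lit 279) (nat_lit 279) (nat_lit 222))))))) (XT.nd (nat_lit 1014) (nat_lit 10564) (nat_lit 0) (XT.nd (nat_lit 468) (nat_lit 1216) (nat_lit 0) (XT.nd (nat_lit 234) (nat_lit 1292) (nat_lit 0) (XT.nd (nat_lit 78) (nat_lit 0) (nat_lit 0) (XT.lf (nat_lit 0) (nat_lit 3809477757) (nat_lit 1292) (nat_lit 1557928076) (nat_lit 1368) (nat_lit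 2725783913) (nat_lit 462) (nat_lit 5) (nat_lit 479) (nat_lit 3) (nat_lit 480) (nat_lit 5) (nat_lit 280) (nat_lit 279) (nat_lit 221)) (XT.nd (nat_lit 78) (nat_lit 0) (nat_lit 76) (XT.lf (nat_lit 76) (nat_lit 4041378592) (nat_lit 0) (nat_lit 1544767468) (nat_lit 1368) (nat_lit 2594109536) (nat_lit 463) (nat_lit 5) (nat_lit 462) (nat_lit 5) (nat_lit 480) (nat_lit 5) (nat_lit 281) (nat_lit 279) (nat_lit 220)) (XT.lf (nat_lit 76) (nat_lit 1528759254) (nat_lit 0) (nat_lit 5858886189) (nat_lit 1368) (nat_lit 882925408) (nat_lit 464) (nat_lit 5) (nat_lit 463) (nat_lit 5) (nat_lit 481) (nat_lit 5) (nat_lit 282) (nat_lit 279) (nat_lit 219)))) (XT.nd (nat_lit 78) (nat_lit 0) (nat_lit 76) (XT.lf (nat_lit 0) (nat_lit 843234007) (nat_lit 1368) (nat_lit 992461572) (nat_lit 1444) (nat_lit 6528347022) (nat_lit 445) (nat_lit 5) (nat_lit 463) (nat_lit 5) (nat_lit 464) (nat_lit 5) (nat_lit 283) (nat_lit 279) (nat_lit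 218)) (XT.nd (nat_lit 78) (nat_lit 0) (nat_lit 0) (XT.lf (nat_lit 0) (nat_lit 2595279250) (nat_lit 1368) (nat_lit 3523054877) (nat_lit 1444) (nat_lit 2342208610) (nat_lit 446) (nat_lit 5) (nat_lit 464) (nat_lit 5) (nat_lit 465) (nat_lit 5) (nat_lit 284) (nat_lit 279) (nat_lit 217)) (XT.lf (nat_lit 76) (nat_lit 2483290713) (nat_lit 0) (nat_lit 1891955476) (nat_lit 1444) (nat_lit 4185245535) (nat_lit 447) (nat_lit 5) (nat_lit 446) (nat_lit 5) (nat_lit 465) (nat_lit 5) (nat_lit 285) (nat_lit 279) (nat_lit 216))))) (XT.nd (nat_lit 234) (nat_lit 0) (nat_lit 0) (XT.nd (nat_lit 78) (nat_lit 1368) (nat_lit 0) (XT.lf (nat_lit 76) (nat_lit 2116057) (nat_lit 0) (nat_lit 6188372041) (nat_lit 1444) (nat_lit 2473372839) (nat_lit 448) (nat_lit 5) (nat_lit 447) (nat_lit 5) (nat_lit 466) (nat_lit 5) (nat_lit 286) (nat_lit 279) (nat_lit 215)) (XT.nd (nat_lit 78) (nat_lit 1368) (nat_lit 0) (XT.lf (nat_lit 76) (nat_lit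 6297913048) (nat_lit 0) (nat_lit 1759333513) (nat_lit 1444) (nat_lit 713201031) (nat_lit 448) (nat_lit 5) (nat_lit 447) (nat_lit 5) (nat_lit 466) (nat_lit 5) (nat_lit 287) (nat_lit 279) (nat_lit 214)) (XT.lf (nat_lit 0) (nat_lit 1073820380) (nat_lit 1444) (nat_lit 4988784987) (nat_lit 1520) (nat_lit 2817769084) (nat_lit 429) (nat_lit 5) (nat_lit 448) (nat_lit 5) (nat_lit 449) (nat_lit 5) (nat_lit 288) (nat_lit 279) (nat_lit 213)))) (XT.nd (nat_lit 156) (nat_lit 0) (nat_lit 76) (XT.nd (nat_lit 78) (nat_lit 0) (nat_lit 76) (XT.lf (nat_lit 76) (nat_lit 1452955422) (nat_lit 0) (nat_lit 1435974481) (nat_lit 1520) (nat_lit 6104944767) (nat_lit 430) (nat_lit 5) (nat_lit 429) (nat_lit 5) (nat_lit 449) (nat_lit 5) (nat_lit 289) (nat_lit 279) (nat_lit 212)) (XT.lf (nat_lit 0) (nat_lit 4761631006) (nat_lit 1444) (nat_lit 1012997810) (nat_lit 1520) (nat_lit 3336139948) (nat_lit 430) (nat_lit 5) (nat_lit 449)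 (nat_lit 5) (nat_lit 450) (nat_lit 5) (nat_lit 290) (nat_lit 279) (nat_lit 211))) (XT.nd (nat_lit 78) (nat_lit 0) (nat_lit 76) (XT.lf (nat_lit 76) (nat_lit 5740240191) (nat_lit 0) (nat_lit 946166557) (nat_lit 1520) (nat_lit 2544895189) (nat_lit 431) (nat_lit 5) (nat_lit 430) (nat_lit 5) (nat_lit 450) (nat_lit 5) (nat_lit 291) (nat_lit 279) (nat_lit 210)) (XT.lf (nat_lit 76) (nat_lit 3335430156) (nat_lit 0) (nat_lit 5338574573) (nat_lit 1520) (nat_lit 681393469) (nat_lit 432) (nat_lit 5) (nat_lit 431) (nat_lit 5) (nat_lit 451) (nat_lit 5) (nat_lit 292) (nat_lit 279) (nat_lit 209)))))) (XT.nd (nat_lit 546) (nat_lit 4484) (nat_lit 0) (XT.nd (nat_lit 234) (nat_lit 4712) (nat_lit 0) (XT.nd (nat_lit 78) (nat_lit 0) (nat_lit 76) (XT.lf (nat_lit 76) (nat_lit 892088291) (nat_lit 0) (nat_lit 316830866) (nat_lit 1596) (nat_lit 8274440900) (nat_lit 412) (nat_lit 5) (nat_lit 411) (nat_lit 5) (nat_lit 432) (nat_lit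 5) (nat_lit 293) (nat_lit 279) (nat_lit 208)) (XT.nd (nat_lit 78) (nat_lit 0) (nat_lit 76) (XT.lf (nat_lit 0) (nat_lit 3171794755) (nat_lit 1520) (nat_lit 1594110073) (nat_lit 1596) (nat_lit 4848708620) (nat_lit 412) (nat_lit 5) (nat_lit 432) (nat_lit 5) (nat_lit 433) (nat_lit 5) (nat_lit 294) (nat_lit 279) (nat_lit 207)) (XT.lf (nat_lit 0) (nat_lit 5189207074) (nat_lit 1520) (nat_lit 4104300845) (nat_lit 76) (nat_lit 456427178) (nat_lit 413) (nat_lit 5) (nat_lit 433) (nat_lit 5) (nat_lit 414) (nat_lit 5) (nat_lit 295) (nat_lit 279) (nat_lit 206)))) (XT.nd (nat_lit 156) (nat_lit 1748) (nat_lit 0) (XT.nd (nat_lit 78) (nat_lit 1596) (nat_lit 0) (XT.lf (nat_lit 0) (nat_lit 3208781073) (nat_lit 1520) (nat_lit 4076967013) (nat_lit 1596) (nat_lit 2603238580) (nat_lit 393) (nat_lit 5) (nat_lit 413) (nat_lit 5) (nat_lit 414) (nat_lit 5) (nat_lit 296) (nat_lit 279) (nat_lit 205)) (XT.lf (nat_lit 0) (nat_lit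 729727811) (nat_lit 1596) (nat_lit 8712760599) (nat_lit 1672) (nat_lit 589816467) (nat_lit 372) (nat_lit 5) (nat_lit 393) (nat_lit 5) (nat_lit 394) (nat_lit 5) (nat_lit 297) (nat_lit 279) (nat_lit 204))) (XT.nd (nat_lit 78) (nat_lit 1672) (nat_lit 0) (XT.lf (nat_lit 0) (nat_lit 1494248411) (nat_lit 1672) (nat_lit 1799855225) (nat_lit 76) (nat_lit 6885071410) (nat_lit 371) (nat_lit 5) (nat_lit 393) (nat_lit 5) (nat_lit 372) (nat_lit 5) (nat_lit 298) (nat_lit 279) (nat_lit 203)) (XT.lf (nat_lit 0) (nat_lit 3644903123) (nat_lit 1748) (nat_lit 4379349415) (nat_lit 76) (nat_lit 2305917221) (nat_lit 349) (nat_lit 5) (nat_lit 372) (nat_lit 5) (nat_lit 350) (nat_lit 5) (nat_lit 299) (nat_lit 279) (nat_lit 202))))) (XT.nd (nat_lit 234) (nat_lit 2508) (nat_lit 0) (XT.nd (nat_lit 78) (nat_lit 836) (nat_lit 0) (XT.lf (nat_lit 0) (nat_lit 3460208242) (nat_lit 1140) (nat_lit 2415794996) (nat_lit 1216) (nat_lit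 4609409489) (nat_lit 334) (nat_lit 5) (nat_lit 349) (nat_lit 5) (nat_lit 350) (nat_lit 5) (nat_lit 300) (nat_lit 279) (nat_lit 201)) (XT.nd (nat_lit 78) (nat_lit 0) (nat_lit 0) (XT.lf (nat_lit 0) (nat_lit 903471549) (nat_lit 836) (nat_lit 7288263336) (nat_lit 912) (nat_lit 2453259981) (nat_lit 323) (nat_lit 5) (nat_lit 334) (nat_lit 5) (nat_lit 335) (nat_lit 5) (nat_lit 301) (nat_lit 279) (nat_lit 200)) (XT.lf (nat_lit 0) (nat_lit 9113854369) (nat_lit 836) (nat_lit 1487804855) (nat_lit 912) (nat_lit 207245639) (nat_lit 323) (nat_lit 5) (nat_lit 334) (nat_lit 5) (nat_lit 335) (nat_lit 5) (nat_lit 302) (nat_lit 279) (nat_lit 199)))) (XT.nd (nat_lit 156) (nat_lit 836) (nat_lit 0) (XT.nd (nat_lit 78) (nat_lit 760) (nat_lit 0) (XT.lf (nat_lit 0) (nat_lit 2113017392) (nat_lit 912) (nat_lit 4376249027) (nat_lit 76) (nat_lit 4487535566) (nat_lit 311) (nat_lit 5) (nat_lit 323) (nat_lit 5) (nat_lit 312)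 (nat_lit 5) (nat_lit 303) (nat_lit 279) (nat_lit 198)) (XT.lf (nat_lit 0) (nat_lit 4024435801) (nat_lit 760) (nat_lit 486108970) (nat_lit 836) (nat_lit 6638986577) (nat_lit 301) (nat_lit 5) (nat_lit 311) (nat_lit 5) (nat_lit 312) (nat_lit 5) (nat_lit 304) (nat_lit 279) (nat_lit 197))) (XT.nd (nat_lit 78) (nat_lit 0) (nat_lit 0) (XT.lf (nat_lit 0) (nat_lit 1354937051) (nat_lit 836) (nat_lit 5664377289) (nat_lit 912) (nat_lit 4307373154) (nat_lit 290) (nat_lit 5) (nat_lit 301) (nat_lit 5) (nat_lit 302) (nat_lit 5) (nat_lit 305) (nat_lit 279) (nat_lit 196)) (XT.lf (nat_lit 0) (nat_lit 9622800153) (nat_lit 912) (nat_lit 1363956879) (nat_lit 76) (nat_lit 522042550) (nat_lit 290) (nat_lit 5) (nat_lit 302) (nat_lit 5) (nat_lit 291) (nat_lit 5) (nat_lit 306) (nat_lit 279) (nat_lit 195))))))))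
noncomputable def xc84 : XT := (XT.nd (nat_lit 2028) (nat_lit 5624) (nat_lit 0) (XT.nd (nat_lit 1014) (nat_lit 5092) (nat_lit 0) (XT.nd (nat_lit 468) (nat_lit 3116) (nat_lit 0) (XT.nd (nat_lit 234) (nat_lit 1444) (nat_lit 0) (XT.nd (nat_lit 78) (nat_lit 1444) (nat_lit 0) (XT.lf (nat_lit 0) (nat_lit 652657900) (nat_lit 836) (nat_lit 4171684579) (nat_lit 76) (nat_lit 6870930128) (nat_lit 279) (nat_lit 5) (nat_lit 290) (nat_lit 5) (nat_lit 280) (nat_lit 5) (nat_lit 307) (nat_lit 279) (nat_lit 194)) (XT.nd (nat_lit 78) (nat_lit 684) (nat_lit 0) (XT.lf (nat_lit 0) (nat_lit 3258934869) (nat_lit 836) (nat_lit 7072199493) (nat_lit 76) (nat_lit 1555642486) (nat_lit 269) (nat_lit 5) (nat_lit 280) (nat_lit 5) (nat_lit 270) (nat_lit 5) (nat_lit 308) (nat_lit 279) (nat_lit 193)) (XT.lf (nat_lit 0) (nat_lit 2002905213) (nat_lit 684) (nat_lit 3981047317) (nat_lit 760) (nat_lit 6099289843) (nat_lit 260) (nat_lit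 5) (nat_lit 269) (nat_lit 5) (nat_lit 270) (nat_lit 5) (nat_lit 309) (nat_lit 279) (nat_lit 192)))) (XT.nd (nat_lit 78) (nat_lit 1444) (nat_lit 0) (XT.lf (nat_lit 0) (nat_lit 8823139391) (nat_lit 760) (nat_lit 889587582) (nat_lit 76) (nat_lit 2572252928) (nat_lit 260) (nat_lit 5) (nat_lit 270) (nat_lit 5) (nat_lit 261) (nat_lit 5) (nat_lit 310) (nat_lit 279) (nat_lit 191)) (XT.nd (nat_lit 78) (nat_lit 760) (nat_lit 0) (XT.lf (nat_lit 0) (nat_lit 8629382000) (nat_lit 684) (nat_lit 3169275011) (nat_lit 760) (nat_lit 693115082) (nat_lit 251) (nat_lit 5) (nat_lit 260) (nat_lit 5) (nat_lit 261) (nat_lit 5) (nat_lit 311) (nat_lit 279) (nat_lit 190)) (XT.lf (nat_lit 0) (nat_lit 2166405552) (nat_lit 760) (nat_lit 6958688180) (nat_lit 76) (nat_lit 3578697519) (nat_lit 241) (nat_lit 5) (nat_lit 251) (nat_lit 5) (nat_lit 242) (nat_lit 5) (nat_lit 312) (nat_lit 279) (nat_lit 189))))) (XT.nd (nat_lit 234) (nat_lit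 1824) (nat_lit 0) (XT.nd (nat_lit 78) (nat_lit 608) (nat_lit 0) (XT.lf (nat_lit 0) (nat_lit 2748081702) (nat_lit 684) (nat_lit 2389292675) (nat_lit 760) (nat_lit 7784027087) (nat_lit 232) (nat_lit 5) (nat_lit 241) (nat_lit 5) (nat_lit 242) (nat_lit 5) (nat_lit 313) (nat_lit 279) (nat_lit 188)) (XT.nd (nat_lit 78) (nat_lit 608) (nat_lit 0) (XT.lf (nat_lit 0) (nat_lit 8244756646) (nat_lit 760) (nat_lit 367175648) (nat_lit 76) (nat_lit 4532685009) (nat_lit 232) (nat_lit 5) (nat_lit 242) (nat_lit 5) (nat_lit 233) (nat_lit 5) (nat_lit 314) (nat_lit 279) (nat_lit 187)) (XT.lf (nat_lit 0) (nat_lit 9812822572) (nat_lit 608) (nat_lit 1683378311) (nat_lit 684) (nat_lit 1877334259) (nat_lit 224) (nat_lit 5) (nat_lit 232) (nat_lit 5) (nat_lit 233) (nat_lit 5) (nat_lit 315) (nat_lit 279) (nat_lit 186)))) (XT.nd (nat_lit 156) (nat_lit 608) (nat_lit 0) (XT.nd (nat_lit 78) (nat_lit 532) (nat_lit 0) (XT.lf (nat_lit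 0) (nat_lit 1273240725) (nat_lit 684) (nat_lit 6903120751) (nat_lit 76) (nat_lit 5431748189) (nat_lit 215) (nat_lit 5) (nat_lit 224) (nat_lit 5) (nat_lit 216) (nat_lit 5) (nat_lit 316) (nat_lit 279) (nat_lit 185)) (XT.lf (nat_lit 0) (nat_lit 3466732136) (nat_lit 532) (nat_lit 1056454632) (nat_lit 608) (nat_lit 9325699925) (nat_lit 208) (nat_lit 5) (nat_lit 215) (nat_lit 5) (nat_lit 216) (nat_lit 5) (nat_lit 317) (nat_lit 279) (nat_lit 184))) (XT.nd (nat_lit 78) (nat_lit 0) (nat_lit 0) (XT.lf (nat_lit 0) (nat_lit 73193303) (nat_lit 608) (nat_lit 7858482424) (nat_lit 684) (nat_lit 6164010455) (nat_lit 200) (nat_lit 5) (nat_lit 208) (nat_lit 5) (nat_lit 209) (nat_lit 5) (nat_lit 318) (nat_lit 279) (nat_lit 183)) (XT.lf (nat_lit 0) (nat_lit 10944767200) (nat_lit 608) (nat_lit 548334520) (nat_lit 684) (nat_lit 2855793743) (nat_lit 200) (nat_lit 5) (nat_lit 208) (nat_lit 5) (nat_lit 209) (nat_lit 5)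 (nat_lit 319) (nat_lit 279) (nat_lit 182)))))) (XT.nd (nat_lit 468) (nat_lit 2356) (nat_lit 0) (XT.nd (nat_lit 234) (nat_lit 1064) (nat_lit 0) (XT.nd (nat_lit 78) (nat_lit 1064) (nat_lit 0) (XT.lf (nat_lit 0) (nat_lit 613296768) (nat_lit 608) (nat_lit 7057791035) (nat_lit 76) (nat_lit 6937182851) (nat_lit 192) (nat_lit 5) (nat_lit 200) (nat_lit 5) (nat_lit 193) (nat_lit 5) (nat_lit 320) (nat_lit 279) (nat_lit 181)) (XT.nd (nat_lit 78) (nat_lit 532) (nat_lit 0) (XT.lf (nat_lit 0) (nat_lit 4003155031) (nat_lit 532) (nat_lit 172023341) (nat_lit 608) (nat_lit 10699338824) (nat_lit 185) (nat_lit 5) (nat_lit 192) (nat_lit 5) (nat_lit 193) (nat_lit 5) (nat_lit 321) (nat_lit 279) (nat_lit 180)) (XT.lf (nat_lit 0) (nat_lit 267149587) (nat_lit 532) (nat_lit 7650596160) (nat_lit 608) (nat_lit 7229546257) (nat_lit 178) (nat_lit 5) (nat_lit 185) (nat_lit 5) (nat_lit 186) (nat_lit 5) (nat_lit 322) (nat_lit 279)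 (nat_lit 179)))) (XT.nd (nat_lit 78) (nat_lit 1064) (nat_lit 0) (XT.lf (nat_lit 0) (nat_lit 11823064771) (nat_lit 608) (nat_lit 3571251308) (nat_lit 76) (nat_lit 32941432) (nat_lit 178) (nat_lit 5) (nat_lit 186) (nat_lit 5) (nat_lit 179) (nat_lit 5) (nat_lit 323) (nat_lit 279) (nat_lit 178)) (XT.nd (nat_lit 78) (nat_lit 456) (nat_lit 0) (XT.lf (nat_lit 0) (nat_lit 208611946) (nat_lit 608) (nat_lit 7614194787) (nat_lit 76) (nat_lit 7891206622) (nat_lit 170) (nat_lit 5) (nat_lit 178) (nat_lit 5) (nat_lit 171) (nat_lit 5) (nat_lit 324) (nat_lit 279) (nat_lit 177)) (XT.lf (nat_lit 0) (nat_lit 4115233307) (nat_lit 532) (nat_lit 11847927729) (nat_lit 76) (nat_lit 45182036) (nat_lit 164) (nat_lit 5) (nat_lit 171) (nat_lit 5) (nat_lit 165) (nat_lit 5) (nat_lit 325) (nat_lit 279) (nat_lit 176))))) (XT.nd (nat_lit 234) (nat_lit 1368) (nat_lit 0) (XT.nd (nat_lit 78) (nat_lit 988) (nat_lit 0) (XT.lf (nat_lit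 0) (nat_lit 8220199182) (nat_lit 532) (nat_lit 1176573) (nat_lit 76) (nat_lit 8088519213) (nat_lit 164) (nat_lit 5) (nat_lit 171) (nat_lit 5) (nat_lit 165) (nat_lit 5) (nat_lit 326) (nat_lit 279) (nat_lit 175)) (XT.nd (nat_lit 78) (nat_lit 532) (nat_lit 0) (XT.lf (nat_lit 0) (nat_lit 12333079494) (nat_lit 456) (nat_lit 172875489) (nat_lit 532) (nat_lit 4113400381) (nat_lit 158) (nat_lit 5) (nat_lit 164) (nat_lit 5) (nat_lit 165) (nat_lit 5) (nat_lit 327) (nat_lit 279) (nat_lit 174)) (XT.lf (nat_lit 0) (nat_lit 66392624) (nat_lit 532) (nat_lit 8813335945) (nat_lit 76) (nat_lit 8056707867) (nat_lit 151) (nat_lit 5) (nat_lit 158) (nat_lit 5) (nat_lit 152) (nat_lit 5) (nat_lit 328) (nat_lit 279) (nat_lit 173)))) (XT.nd (nat_lit 156) (nat_lit 912) (nat_lit 0) (XT.nd (nat_lit 78) (nat_lit 0) (nat_lit 0) (XT.lf (nat_lit 0) (nat_lit 3691137024) (nat_lit 456) (nat_lit 657514418) (nat_lit 532) (nat_lit 12913189208)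 (nat_lit 145) (nat_lit 5) (nat_lit 151) (nat_lit 5) (nat_lit 152) (nat_lit 5) (nat_lit 329) (nat_lit 279) (nat_lit 172)) (XT.lf (nat_lit 0) (nat_lit 8848886822) (nat_lit 532) (nat_lit 984850968) (nat_lit 76) (nat_lit 7761492269) (nat_lit 145) (nat_lit 5) (nat_lit 152) (nat_lit 5) (nat_lit 146) (nat_lit 5) (nat_lit 330) (nat_lit 279) (nat_lit 171))) (XT.nd (nat_lit 78) (nat_lit 532) (nat_lit 0) (XT.lf (nat_lit 0) (nat_lit 12104477380) (nat_lit 380) (nat_lit 1441935161) (nat_lit 456) (nat_lit 4390975803) (nat_lit 140) (nat_lit 5) (nat_lit 145) (nat_lit 5) (nat_lit 146) (nat_lit 5) (nat_lit 331) (nat_lit 279) (nat_lit 170)) (XT.lf (nat_lit 0) (nat_lit 175070594) (nat_lit 532) (nat_lit 10958084851) (nat_lit 76) (nat_lit 7155030539) (nat_lit 133) (nat_lit 5) (nat_lit 140) (nat_lit 5) (nat_lit 134) (nat_lit 5) (nat_lit 332) (nat_lit 279) (nat_lit 169))))))) (XT.nd (nat_lit 1014) (nat_lit 2280) (nat_lit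 0) (XT.nd (nat_lit 468) (nat_lit 1748) (nat_lit 0) (XT.nd (nat_lit 234) (nat_lit 836) (nat_lit 0) (XT.nd (nat_lit 78) (nat_lit 380) (nat_lit 0) (XT.lf (nat_lit 0) (nat_lit 2281602940) (nat_lit 380) (nat_lit 2581357577) (nat_lit 456) (nat_lit 13785088065) (nat_lit 128) (nat_lit 5) (nat_lit 133) (nat_lit 5) (nat_lit 134) (nat_lit 5) (nat_lit 333) (nat_lit 279) (nat_lit 168)) (XT.nd (nat_lit 78) (nat_lit 380) (nat_lit 0) (XT.lf (nat_lit 0) (nat_lit 9786950500) (nat_lit 456) (nat_lit 3017741392) (nat_lit 76) (nat_lit 6212117436) (nat_lit 128) (nat_lit 5) (nat_lit 134) (nat_lit 5) (nat_lit 129) (nat_lit 5) (nat_lit 334) (nat_lit 279) (nat_lit 167)) (XT.lf (nat_lit 0) (nat_lit 10828927086) (nat_lit 380) (nat_lit 4098164920) (nat_lit 456) (nat_lit 4468183455) (nat_lit 123) (nat_lit 5) (nat_lit 128) (nat_lit 5) (nat_lit 129) (nat_lit 5) (nat_lit 335) (nat_lit 279) (nat_lit 166)))) (XT.nd (nat_lit 78) (nat_lit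 380) (nat_lit 0) (XT.lf (nat_lit 0) (nat_lit 499247078) (nat_lit 456) (nat_lit 14428027465) (nat_lit 76) (nat_lit 4856402484) (nat_lit 117) (nat_lit 5) (nat_lit 123) (nat_lit 5) (nat_lit 118) (nat_lit 5) (nat_lit 336) (nat_lit 279) (nat_lit 165)) (XT.nd (nat_lit 78) (nat_lit 380) (nat_lit 0) (XT.lf (nat_lit 0) (nat_lit 5622613925) (nat_lit 456) (nat_lit 454641720) (nat_lit 76) (nat_lit 14104542282) (nat_lit 117) (nat_lit 5) (nat_lit 123) (nat_lit 5) (nat_lit 118) (nat_lit 5) (nat_lit 337) (nat_lit 279) (nat_lit 164)) (XT.lf (nat_lit 0) (nat_lit 10993460431) (nat_lit 456) (nat_lit 6514036706) (nat_lit 76) (nat_lit 3082499794) (nat_lit 112) (nat_lit 5) (nat_lit 118) (nat_lit 5) (nat_lit 113) (nat_lit 5) (nat_lit 338) (nat_lit 279) (nat_lit 163))))) (XT.nd (nat_lit 234) (nat_lit 988) (nat_lit 0) (XT.nd (nat_lit 78) (nat_lit 456) (nat_lit 0) (XT.lf (nat_lit 0) (nat_lit 8077533672) (nat_lit 304) (nat_lit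 8526365432) (nat_lit 380) (nat_lit 4404983222) (nat_lit 108) (nat_lit 5) (nat_lit 112) (nat_lit 5) (nat_lit 113) (nat_lit 5) (nat_lit 339) (nat_lit 279) (nat_lit 162)) (XT.nd (nat_lit 78) (nat_lit 0) (nat_lit 0) (XT.lf (nat_lit 0) (nat_lit 973297611) (nat_lit 456) (nat_lit 19697328931) (nat_lit 76) (nat_lit 768727873) (nat_lit 102) (nat_lit 5) (nat_lit 108) (nat_lit 5) (nat_lit 103) (nat_lit 5) (nat_lit 340) (nat_lit 279) (nat_lit 161)) (XT.lf (nat_lit 0) (nat_lit 6581443423) (nat_lit 456) (nat_lit 4961201986) (nat_lit 76) (nat_lit 10336954674) (nat_lit 102) (nat_lit 5) (nat_lit 108) (nat_lit 5) (nat_lit 103) (nat_lit 5) (nat_lit 341) (nat_lit 279) (nat_lit 160)))) (XT.nd (nat_lit 156) (nat_lit 380) (nat_lit 0) (XT.nd (nat_lit 78) (nat_lit 304) (nat_lit 0) (XT.lf (nat_lit 0) (nat_lit 10327442335) (nat_lit 304) (nat_lit 2080740064) (nat_lit 380) (nat_lit 9923872502) (nat_lit 98) (nat_lit 5) (nat_lit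 102) (nat_lit 5) (nat_lit 103) (nat_lit 5) (nat_lit 342) (nat_lit 279) (nat_lit 159)) (XT.lf (nat_lit 0) (nat_lit 3313827606) (nat_lit 304) (nat_lit 15184588730) (nat_lit 380) (nat_lit 4297901669) (nat_lit 94) (nat_lit 5) (nat_lit 98) (nat_lit 5) (nat_lit 99) (nat_lit 5) (nat_lit 343) (nat_lit 279) (nat_lit 158))) (XT.nd (nat_lit 78) (nat_lit 304) (nat_lit 0) (XT.lf (nat_lit 0) (nat_lit 1556791699) (nat_lit 380) (nat_lit 4065621550) (nat_lit 76) (nat_lit 17650317975) (nat_lit 93) (nat_lit 5) (nat_lit 98) (nat_lit 5) (nat_lit 94) (nat_lit 5) (nat_lit 344) (nat_lit 279) (nat_lit 157)) (XT.lf (nat_lit 0) (nat_lit 7618780421) (nat_lit 380) (nat_lit 11872409319) (nat_lit 76) (nat_lit 4269885847) (nat_lit 89) (nat_lit 5) (nat_lit 94) (nat_lit 5) (nat_lit 90) (nat_lit 5) (nat_lit 345) (nat_lit 279) (nat_lit 156)))))) (XT.nd (nat_lit 546) (nat_lit 760) (nat_lit 0) (XT.nd (nat_lit 234) (nat_lit 912) (nat_lit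 0) (XT.nd (nat_lit 78) (nat_lit 304) (nat_lit 0) (XT.lf (nat_lit 0) (nat_lit 4105917977) (nat_lit 304) (nat_lit 9833200632) (nat_lit 380) (nat_lit 10323429502) (nat_lit 85) (nat_lit 5) (nat_lit 89) (nat_lit 5) (nat_lit 90) (nat_lit 5) (nat_lit 346) (nat_lit 279) (nat_lit 155)) (XT.nd (nat_lit 78) (nat_lit 304) (nat_lit 0) (XT.lf (nat_lit 0) (nat_lit 20515539339) (nat_lit 380) (nat_lit 4076360361) (nat_lit 76) (nat_lit 185843064) (nat_lit 85) (nat_lit 5) (nat_lit 90) (nat_lit 5) (nat_lit 86) (nat_lit 5) (nat_lit 347) (nat_lit 279) (nat_lit 154)) (XT.lf (nat_lit 0) (nat_lit 2088261279) (nat_lit 304) (nat_lit 12757217206) (nat_lit 76) (nat_lit 10459996976) (nat_lit 81) (nat_lit 5) (nat_lit 85) (nat_lit 5) (nat_lit 82) (nat_lit 5) (nat_lit 348) (nat_lit 279) (nat_lit 153)))) (XT.nd (nat_lit 156) (nat_lit 608) (nat_lit 0) (XT.nd (nat_lit 78) (nat_lit 0) (nat_lit 0) (XT.lf (nat_lit 0) (nat_lit 3878232342)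 (nat_lit 304) (nat_lit 4731786979) (nat_lit 380) (nat_lit 17237690473) (nat_lit 77) (nat_lit 5) (nat_lit 81) (nat_lit 5) (nat_lit 82) (nat_lit 5) (nat_lit 349) (nat_lit 279) (nat_lit 152)) (XT.lf (nat_lit 0) (nat_lit 15436959736) (nat_lit 380) (nat_lit 5277339850) (nat_lit 76) (nat_lit 5689727622) (nat_lit 77) (nat_lit 5) (nat_lit 82) (nat_lit 5) (nat_lit 78) (nat_lit 5) (nat_lit 350) (nat_lit 279) (nat_lit 151))) (XT.nd (nat_lit 78) (nat_lit 380) (nat_lit 0) (XT.lf (nat_lit 0) (nat_lit 12019477803) (nat_lit 228) (nat_lit 10544929396) (nat_lit 304) (nat_lit 4410719416) (nat_lit 74) (nat_lit 5) (nat_lit 77) (nat_lit 5) (nat_lit 78) (nat_lit 5) (nat_lit 351) (nat_lit 279) (nat_lit 150)) (XT.lf (nat_lit 0) (nat_lit 2338103532) (nat_lit 304) (nat_lit 10859975) (nat_lit 380) (nat_lit 25213350191) (nat_lit 69) (nat_lit 5) (nat_lit 73) (nat_lit 5) (nat_lit 74) (nat_lit 5) (nat_lit 352) (nat_lit 279) (nat_lit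 149))))) (XT.nd (nat_lit 234) (nat_lit 532) (nat_lit 0) (XT.nd (nat_lit 78) (nat_lit 228) (nat_lit 0) (XT.lf (nat_lit 0) (nat_lit 9410641492) (nat_lit 380) (nat_lit 7932028080) (nat_lit 76) (nat_lit 10820687105) (nat_lit 69) (nat_lit 5) (nat_lit 74) (nat_lit 5) (nat_lit 70) (nat_lit 5) (nat_lit 353) (nat_lit 279) (nat_lit 148)) (XT.nd (nat_lit 78) (nat_lit 0) (nat_lit 0) (XT.lf (nat_lit 0) (nat_lit 9988705629) (nat_lit 228) (nat_lit 6747182870) (nat_lit 304) (nat_lit 12045513856) (nat_lit 66) (nat_lit 5) (nat_lit 69) (nat_lit 5) (nat_lit 70) (nat_lit 5) (nat_lit 354) (nat_lit 279) (nat_lit 147)) (XT.lf (nat_lit 0) (nat_lit 24349039777) (nat_lit 304) (nat_lit 909699367) (nat_lit 76) (nat_lit 4157892941) (nat_lit 66) (nat_lit 5) (nat_lit 70) (nat_lit 5) (nat_lit 67) (nat_lit 5) (nat_lit 355) (nat_lit 279) (nat_lit 146)))) (XT.nd (nat_lit 156) (nat_lit 0) (nat_lit 0) (XT.nd (nat_lit 78) (nat_lit 228)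 (nat_lit 0) (XT.lf (nat_lit 0) (nat_lit 2240093524) (nat_lit 304) (nat_lit 12406628468) (nat_lit 76) (nat_lit 15420962286) (nat_lit 62) (nat_lit 5) (nat_lit 66) (nat_lit 5) (nat_lit 63) (nat_lit 5) (nat_lit 356) (nat_lit 279) (nat_lit 145)) (XT.lf (nat_lit 0) (nat_lit 6088924706) (nat_lit 228) (nat_lit 3642888114) (nat_lit 304) (nat_lit 21005117441) (nat_lit 59) (nat_lit 5) (nat_lit 62) (nat_lit 5) (nat_lit 63) (nat_lit 5) (nat_lit 357) (nat_lit 279) (nat_lit 144))) (XT.nd (nat_lit 34554) (nat_lit 0) (nat_lit 30628) (XT.lf (nat_lit 0) (nat_lit 17570552108) (nat_lit 304) (nat_lit 6186011361) (nat_lit 76) (nat_lit 7667249824) (nat_lit 59) (nat_lit 5) (nat_lit 63) (nat_lit 5) (nat_lit 60) (nat_lit 5) (nat_lit 358) (nat_lit 279) (nat_lit 143)) (XT.lf (nat_lit 0) (nat_lit 1374519265) (nat_lit 0) (nat_lit 1374519265) (nat_lit 1292) (nat_lit 1340167770) (nat_lit 462) (nat_lit 5) (nat_lit 462) (nat_lit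 3) (nat_lit 479) (nat_lit 3) (nat_lit 280) (nat_lit 280) (nat_lit 220))))))))
noncomputable def xc85 : XT := (XT.nd (nat_lit 2028) (nat_lit 11932) (nat_lit 0) (XT.nd (nat_lit 1014) (nat_lit 9196) (nat_lit 0) (XT.nd (nat_lit 468) (nat_lit 2508) (nat_lit 0) (XT.nd (nat_lit 234) (nat_lit 0) (nat_lit 76) (XT.nd (nat_lit 78) (nat_lit 1368) (nat_lit 0) (XT.lf (nat_lit 76) (nat_lit 119626092) (nat_lit 0) (nat_lit 7080020172) (nat_lit 1368) (nat_lit 1067367693) (nat_lit 463) (nat_lit 5) (nat_lit 462) (nat_lit 5) (nat_lit 480) (nat_lit 5) (nat_lit 281) (nat_lit 280) (nat_lit 219)) (XT.nd (nat_lit 78) (nat_lit 0) (nat_lit 76) (XT.lf (nat_lit 0) (nat_lit 578269475) (nat_lit 1368) (nat_lit 2504906166) (nat_lit 1444) (nat_lit 5275243941) (nat_lit 444) (nat_lit 5) (nat_lit 462) (nat_lit 5) (nat_lit 463) (nat_lit 5) (nat_lit 282) (nat_lit 280) (nat_lit 218)) (XT.lf (nat_lit 0) (nat_lit 2225926794) (nat_lit 1368)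 (nat_lit 5150549976) (nat_lit 1444) (nat_lit 1076669336) (nat_lit 445) (nat_lit 5) (nat_lit 463) (nat_lit 5) (nat_lit 464) (nat_lit 5) (nat_lit 283) (nat_lit 280) (nat_lit 217)))) (XT.nd (nat_lit 78) (nat_lit 0) (nat_lit 76) (XT.lf (nat_lit 76) (nat_lit 722789193) (nat_lit 0) (nat_lit 3182874319) (nat_lit 1444) (nat_lit 4645458976) (nat_lit 446) (nat_lit 5) (nat_lit 445) (nat_lit 5) (nat_lit 464) (nat_lit 5) (nat_lit 284) (nat_lit 280) (nat_lit 216)) (XT.nd (nat_lit 78) (nat_lit 0) (nat_lit 0) (XT.lf (nat_lit 0) (nat_lit 5620237661) (nat_lit 1368) (nat_lit 1851144425) (nat_lit 1444) (nat_lit 1181026446) (nat_lit 446) (nat_lit 5) (nat_lit 464) (nat_lit 5) (nat_lit 465) (nat_lit 5) (nat_lit 285) (nat_lit 280) (nat_lit 215)) (XT.lf (nat_lit 76) (nat_lit 4306552052) (nat_lit 0) (nat_lit 3072567819) (nat_lit 1444) (nat_lit 1377813419) (nat_lit 447) (nat_lit 5) (nat_lit 446) (nat_lit 5) (nat_lit 465)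 (nat_lit 5) (nat_lit 286) (nat_lit 280) (nat_lit 214))))) (XT.nd (nat_lit 234) (nat_lit 1292) (nat_lit 0) (XT.nd (nat_lit 78) (nat_lit 0) (nat_lit 0) (XT.lf (nat_lit 0) (nat_lit 300601968) (nat_lit 1444) (nat_lit 7077906625) (nat_lit 1520) (nat_lit 1486523518) (nat_lit 428) (nat_lit 5) (nat_lit 447) (nat_lit 5) (nat_lit 448) (nat_lit 5) (nat_lit 287) (nat_lit 280) (nat_lit 213)) (XT.nd (nat_lit 78) (nat_lit 0) (nat_lit 76) (XT.lf (nat_lit 0) (nat_lit 2007817992) (nat_lit 1444) (nat_lit 768008990) (nat_lit 1520) (nat_lit 6200474607) (nat_lit 428) (nat_lit 5) (nat_lit 447) (nat_lit 5) (nat_lit 448) (nat_lit 5) (nat_lit 288) (nat_lit 280) (nat_lit 212)) (XT.lf (nat_lit 0) (nat_lit 3764581686) (nat_lit 1444) (nat_lit 3331416354) (nat_lit 1520) (nat_lit 1994996121) (nat_lit 429) (nat_lit 5) (nat_lit 448) (nat_lit 5) (nat_lit 449) (nat_lit 5) (nat_lit 289) (nat_lit 280) (nat_lit 211)))) (XT.nd (nat_lit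 156) (nat_lit 1368) (nat_lit 0) (XT.nd (nat_lit 78) (nat_lit 0) (nat_lit 76) (XT.lf (nat_lit 76) (nat_lit 3274259317) (nat_lit 0) (nat_lit 2293993886) (nat_lit 1520) (nat_lit 3641040338) (nat_lit 430) (nat_lit 5) (nat_lit 429) (nat_lit 5) (nat_lit 449) (nat_lit 5) (nat_lit 290) (nat_lit 280) (nat_lit 210)) (XT.lf (nat_lit 76) (nat_lit 750340222) (nat_lit 0) (nat_lit 6671015566) (nat_lit 1520) (nat_lit 1909928365) (nat_lit 431) (nat_lit 5) (nat_lit 430) (nat_lit 5) (nat_lit 450) (nat_lit 5) (nat_lit 291) (nat_lit 280) (nat_lit 209))) (XT.nd (nat_lit 78) (nat_lit 1444) (nat_lit 0) (XT.lf (nat_lit 76) (nat_lit 7667393068) (nat_lit 0) (nat_lit 1669839131) (nat_lit 1520) (nat_lit 119605922) (nat_lit 431) (nat_lit 5) (nat_lit 430) (nat_lit 5) (nat_lit 450) (nat_lit 5) (nat_lit 292) (nat_lit 280) (nat_lit 208)) (XT.lf (nat_lit 0) (nat_lit 1711519928) (nat_lit 1520) (nat_lit 4380293986) (nat_lit 1596)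 (nat_lit 3493971650) (nat_lit 411) (nat_lit 5) (nat_lit 431) (nat_lit 5) (nat_lit 432) (nat_lit 5) (nat_lit 293) (nat_lit 280) (nat_lit 207)))))) (XT.nd (nat_lit 468) (nat_lit 6156) (nat_lit 0) (XT.nd (nat_lit 234) (nat_lit 3040) (nat_lit 0) (XT.nd (nat_lit 78) (nat_lit 0) (nat_lit 76) (XT.lf (nat_lit 76) (nat_lit 2705109417) (nat_lit 0) (nat_lit 885801594) (nat_lit 1596) (nat_lit 6127819143) (nat_lit 412) (nat_lit 5) (nat_lit 411) (nat_lit 5) (nat_lit 432) (nat_lit 5) (nat_lit 294) (nat_lit 280) (nat_lit 206)) (XT.nd (nat_lit 78) (nat_lit 0) (nat_lit 76) (XT.lf (nat_lit 76) (nat_lit 145431858) (nat_lit 0) (nat_lit 5396336569) (nat_lit 1596) (nat_lit 4313635360) (nat_lit 413) (nat_lit 5) (nat_lit 412) (nat_lit 5) (nat_lit 433) (nat_lit 5) (nat_lit 295) (nat_lit 280) (nat_lit 205)) (XT.lf (nat_lit 0) (nat_lit 7560930550) (nat_lit 1520) (nat_lit 2421465682) (nat_lit 76) (nat_lit 13626975) (nat_lit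 413) (nat_lit 5) (nat_lit 433) (nat_lit 5) (nat_lit 414) (nat_lit 5) (nat_lit 296) (nat_lit 280) (nat_lit 204)))) (XT.nd (nat_lit 78) (nat_lit 1672) (nat_lit 0) (XT.lf (nat_lit 0) (nat_lit 5081709070) (nat_lit 1520) (nat_lit 4585648940) (nat_lit 1596) (nat_lit 473009351) (nat_lit 393) (nat_lit 5) (nat_lit 413) (nat_lit 5) (nat_lit 414) (nat_lit 5) (nat_lit 297) (nat_lit 280) (nat_lit 203)) (XT.nd (nat_lit 78) (nat_lit 0) (nat_lit 0) (XT.lf (nat_lit 0) (nat_lit 1525622785) (nat_lit 1672) (nat_lit 7752674874) (nat_lit 76) (nat_lit 1010621457) (nat_lit 371) (nat_lit 5) (nat_lit 393) (nat_lit 5) (nat_lit 372) (nat_lit 5) (nat_lit 298) (nat_lit 280) (nat_lit 202)) (XT.lf (nat_lit 0) (nat_lit 3602343953) (nat_lit 1672) (nat_lit 81972104) (nat_lit 76) (nat_lit 6757094634) (nat_lit 371) (nat_lit 5) (nat_lit 393) (nat_lit 5) (nat_lit 372) (nat_lit 5) (nat_lit 299) (nat_lit 280) (nat_lit 201))))) (XT.nd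 (nat_lit 234) (nat_lit 2508) (nat_lit 0) (XT.nd (nat_lit 78) (nat_lit 1976) (nat_lit 0) (XT.lf (nat_lit 0) (nat_lit 5766978851) (nat_lit 1748) (nat_lit 2723726445) (nat_lit 76) (nat_lit 2107295328) (nat_lit 349) (nat_lit 5) (nat_lit 372) (nat_lit 5) (nat_lit 350) (nat_lit 5) (nat_lit 300) (nat_lit 280) (nat_lit 200)) (XT.nd (nat_lit 78) (nat_lit 836) (nat_lit 0) (XT.lf (nat_lit 0) (nat_lit 5322025933) (nat_lit 1140) (nat_lit 2695777048) (nat_lit 1216) (nat_lit 2741095079) (nat_lit 334) (nat_lit 5) (nat_lit 349) (nat_lit 5) (nat_lit 350) (nat_lit 5) (nat_lit 301) (nat_lit 280) (nat_lit 199)) (XT.lf (nat_lit 0) (nat_lit 2701801538) (nat_lit 836) (nat_lit 7654148829) (nat_lit 912) (nat_lit 568309877) (nat_lit 323) (nat_lit 5) (nat_lit 334) (nat_lit 5) (nat_lit 335) (nat_lit 5) (nat_lit 302) (nat_lit 280) (nat_lit 198)))) (XT.nd (nat_lit 156) (nat_lit 1596) (nat_lit 0) (XT.nd (nat_lit 78) (nat_lit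 0) (nat_lit 0) (XT.lf (nat_lit 0) (nat_lit 1714299) (nat_lit 836) (nat_lit 1664197694) (nat_lit 912) (nat_lit 9428123635) (nat_lit 311) (nat_lit 5) (nat_lit 322) (nat_lit 5) (nat_lit 323) (nat_lit 5) (nat_lit 303) (nat_lit 280) (nat_lit 197)) (XT.lf (nat_lit 0) (nat_lit 4008720727) (nat_lit 912) (nat_lit 2750664667) (nat_lit 76) (nat_lit 4508489355) (nat_lit 311) (nat_lit 5) (nat_lit 323) (nat_lit 5) (nat_lit 312) (nat_lit 5) (nat_lit 304) (nat_lit 280) (nat_lit 196))) (XT.nd (nat_lit 78) (nat_lit 836) (nat_lit 0) (XT.lf (nat_lit 0) (nat_lit 5873537547) (nat_lit 760) (nat_lit 562489762) (nat_lit 836) (nat_lit 5010647782) (nat_lit 301) (nat_lit 5) (nat_lit 311) (nat_lit 5) (nat_lit 312) (nat_lit 5) (nat_lit 305) (nat_lit 280) (nat_lit 195)) (XT.lf (nat_lit 0) (nat_lit 3133044192) (nat_lit 836) (nat_lit 5845766203) (nat_lit 912) (nat_lit 2651205340) (nat_lit 290) (nat_lit 5) (nat_lit 301) (nat_lit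 5) (nat_lit 302) (nat_lit 5) (nat_lit 306) (nat_lit 280) (nat_lit 194))))))) (XT.nd (nat_lit 1014) (nat_lit 5092) (nat_lit 0) (XT.nd (nat_lit 468) (nat_lit 3800) (nat_lit 0) (XT.nd (nat_lit 234) (nat_lit 1444) (nat_lit 0) (XT.nd (nat_lit 78) (nat_lit 836) (nat_lit 0) (XT.lf (nat_lit 0) (nat_lit 321679024) (nat_lit 760) (nat_lit 11289798768) (nat_lit 836) (nat_lit 207135369) (nat_lit 280) (nat_lit 5) (nat_lit 290) (nat_lit 5) (nat_lit 291) (nat_lit 5) (nat_lit 307) (nat_lit 280) (nat_lit 193)) (XT.nd (nat_lit 78) (nat_lit 760) (nat_lit 0) (XT.lf (nat_lit 0) (nat_lit 2344069865) (nat_lit 836) (nat_lit 2578843792) (nat_lit 76) (nat_lit 7088399811) (nat_lit 279) (nat_lit 5) (nat_lit 290) (nat_lit 5) (nat_lit 280) (nat_lit 5) (nat_lit 308) (nat_lit 280) (nat_lit 192)) (XT.lf (nat_lit 0) (nat_lit 4991178011) (nat_lit 836) (nat_lit 5560587470) (nat_lit 76) (nat_lit 1657584711) (nat_lit 269) (nat_lit 5)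 (nat_lit 280) (nat_lit 5) (nat_lit 270) (nat_lit 5) (nat_lit 309) (nat_lit 280) (nat_lit 191)))) (XT.nd (nat_lit 78) (nat_lit 760) (nat_lit 0) (XT.lf (nat_lit 0) (nat_lit 3758804127) (nat_lit 684) (nat_lit 4002546340) (nat_lit 760) (nat_lit 4651130173) (nat_lit 260) (nat_lit 5) (nat_lit 269) (nat_lit 5) (nat_lit 270) (nat_lit 5) (nat_lit 310) (nat_lit 280) (nat_lit 190)) (XT.nd (nat_lit 78) (nat_lit 76) (nat_lit 0) (XT.lf (nat_lit 0) (nat_lit 771941091) (nat_lit 684) (nat_lit 9872860942) (nat_lit 760) (nat_lit 1976324385) (nat_lit 251) (nat_lit 5) (nat_lit 260) (nat_lit 5) (nat_lit 261) (nat_lit 5) (nat_lit 311) (nat_lit 280) (nat_lit 189)) (XT.lf (nat_lit 0) (nat_lit 824187026) (nat_lit 760) (nat_lit 2301240818) (nat_lit 76) (nat_lit 9709412808) (nat_lit 250) (nat_lit 5) (nat_lit 260) (nat_lit 5) (nat_lit 251) (nat_lit 5) (nat_lit 312) (nat_lit 280) (nat_lit 188))))) (XT.nd (nat_lit 234) (nat_lit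 1824) (nat_lit 0) (XT.nd (nat_lit 78) (nat_lit 1292) (nat_lit 0) (XT.lf (nat_lit 0) (nat_lit 3727262397) (nat_lit 760) (nat_lit 5492106359) (nat_lit 76) (nat_lit 3834451312) (nat_lit 241) (nat_lit 5) (nat_lit 251) (nat_lit 5) (nat_lit 242) (nat_lit 5) (nat_lit 313) (nat_lit 280) (nat_lit 187)) (XT.nd (nat_lit 78) (nat_lit 608) (nat_lit 0) (XT.lf (nat_lit 0) (nat_lit 4478686179) (nat_lit 684) (nat_lit 2275806194) (nat_lit 760) (nat_lit 6524157580) (nat_lit 232) (nat_lit 5) (nat_lit 241) (nat_lit 5) (nat_lit 242) (nat_lit 5) (nat_lit 314) (nat_lit 280) (nat_lit 186)) (XT.lf (nat_lit 0) (nat_lit 1266923423) (nat_lit 608) (nat_lit 8654954037) (nat_lit 684) (nat_lit 3587382198) (nat_lit 224) (nat_lit 5) (nat_lit 232) (nat_lit 5) (nat_lit 233) (nat_lit 5) (nat_lit 315) (nat_lit 280) (nat_lit 185)))) (XT.nd (nat_lit 156) (nat_lit 1140) (nat_lit 0) (XT.nd (nat_lit 78) (nat_lit 684) (nat_lit 0) (XT.lf (nat_lit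 0) (nat_lit 11709285209) (nat_lit 608) (nat_lit 1522351421) (nat_lit 684) (nat_lit 514225025) (nat_lit 224) (nat_lit 5) (nat_lit 232) (nat_lit 5) (nat_lit 233) (nat_lit 5) (nat_lit 316) (nat_lit 280) (nat_lit 184)) (XT.lf (nat_lit 0) (nat_lit 2683270584) (nat_lit 684) (nat_lit 5487820306) (nat_lit 76) (nat_lit 5816808331) (nat_lit 215) (nat_lit 5) (nat_lit 224) (nat_lit 5) (nat_lit 216) (nat_lit 5) (nat_lit 317) (nat_lit 280) (nat_lit 183))) (XT.nd (nat_lit 78) (nat_lit 608) (nat_lit 0) (XT.lf (nat_lit 0) (nat_lit 5166806752) (nat_lit 532) (nat_lit 834314728) (nat_lit 608) (nat_lit 8235399574) (nat_lit 208) (nat_lit 5) (nat_lit 215) (nat_lit 5) (nat_lit 216) (nat_lit 5) (nat_lit 318) (nat_lit 280) (nat_lit 182)) (XT.lf (nat_lit 0) (nat_lit 1671326747) (nat_lit 608) (nat_lit 7813405957) (nat_lit 684) (nat_lit 5006563232) (nat_lit 200) (nat_lit 5) (nat_lit 208) (nat_lit 5) (nat_lit 209) (nat_lit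 5) (nat_lit 319) (nat_lit 280) (nat_lit 181)))))) (XT.nd (nat_lit 546) (nat_lit 2356) (nat_lit 0) (XT.nd (nat_lit 234) (nat_lit 1596) (nat_lit 0) (XT.nd (nat_lit 78) (nat_lit 1140) (nat_lit 0) (XT.lf (nat_lit 0) (nat_lit 12822564240) (nat_lit 608) (nat_lit 292133158) (nat_lit 684) (nat_lit 1638198102) (nat_lit 200) (nat_lit 5) (nat_lit 208) (nat_lit 5) (nat_lit 209) (nat_lit 5) (nat_lit 320) (nat_lit 280) (nat_lit 180)) (XT.nd (nat_lit 78) (nat_lit 532) (nat_lit 0) (XT.lf (nat_lit 0) (nat_lit 1892262307) (nat_lit 608) (nat_lit 5703274661) (nat_lit 76) (nat_lit 7424884528) (nat_lit 192) (nat_lit 5) (nat_lit 200) (nat_lit 5) (nat_lit 193) (nat_lit 5) (nat_lit 321) (nat_lit 280) (nat_lit 179)) (XT.lf (nat_lit 0) (nat_lit 5535131730) (nat_lit 608) (nat_lit 9631968977) (nat_lit 76) (nat_lit 128097906) (nat_lit 185) (nat_lit 5) (nat_lit 193) (nat_lit 5) (nat_lit 186) (nat_lit 5) (nat_lit 322) (nat_lit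 280) (nat_lit 178)))) (XT.nd (nat_lit 156) (nat_lit 1064) (nat_lit 0) (XT.nd (nat_lit 78) (nat_lit 0) (nat_lit 0) (XT.lf (nat_lit 0) (nat_lit 1814167466) (nat_lit 532) (nat_lit 7550955702) (nat_lit 608) (nat_lit 6211555608) (nat_lit 178) (nat_lit 5) (nat_lit 185) (nat_lit 5) (nat_lit 186) (nat_lit 5) (nat_lit 323) (nat_lit 280) (nat_lit 177)) (XT.lf (nat_lit 0) (nat_lit 13354438425) (nat_lit 608) (nat_lit 2161982764) (nat_lit 76) (nat_lit 349309649) (nat_lit 178) (nat_lit 5) (nat_lit 186) (nat_lit 5) (nat_lit 179) (nat_lit 5) (nat_lit 324) (nat_lit 280) (nat_lit 176))) (XT.nd (nat_lit 78) (nat_lit 456) (nat_lit 0) (XT.lf (nat_lit 0) (nat_lit 1375372110) (nat_lit 608) (nat_lit 6334622260) (nat_lit 76) (nat_lit 8451457633) (nat_lit 170) (nat_lit 5) (nat_lit 178) (nat_lit 5) (nat_lit 171) (nat_lit 5) (nat_lit 325) (nat_lit 280) (nat_lit 175)) (XT.lf (nat_lit 0) (nat_lit 5377277422) (nat_lit 532) (nat_lit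 10698611029) (nat_lit 76) (nat_lit 389183932) (nat_lit 164) (nat_lit 5) (nat_lit 171) (nat_lit 5) (nat_lit 165) (nat_lit 5) (nat_lit 326) (nat_lit 280) (nat_lit 174))))) (XT.nd (nat_lit 234) (nat_lit 1368) (nat_lit 0) (XT.nd (nat_lit 78) (nat_lit 532) (nat_lit 0) (XT.lf (nat_lit 0) (nat_lit 1479113700) (nat_lit 456) (nat_lit 8102719227) (nat_lit 532) (nat_lit 7194330918) (nat_lit 158) (nat_lit 5) (nat_lit 164) (nat_lit 5) (nat_lit 165) (nat_lit 5) (nat_lit 327) (nat_lit 280) (nat_lit 173)) (XT.nd (nat_lit 78) (nat_lit 532) (nat_lit 0) (XT.lf (nat_lit 0) (nat_lit 13964839240) (nat_lit 532) (nat_lit 2956428440) (nat_lit 76) (nat_lit 174288004) (nat_lit 158) (nat_lit 5) (nat_lit 165) (nat_lit 5) (nat_lit 159) (nat_lit 5) (nat_lit 328) (nat_lit 280) (nat_lit 172)) (XT.lf (nat_lit 0) (nat_lit 1138669880) (nat_lit 532) (nat_lit 7629203296) (nat_lit 76) (nat_lit 8654578428) (nat_lit 151) (nat_lit 5) (nat_lit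 158) (nat_lit 5) (nat_lit 152) (nat_lit 5) (nat_lit 329) (nat_lit 280) (nat_lit 171)))) (XT.nd (nat_lit 156) (nat_lit 532) (nat_lit 0) (XT.nd (nat_lit 78) (nat_lit 380) (nat_lit 0) (XT.lf (nat_lit 0) (nat_lit 5226903139) (nat_lit 456) (nat_lit 300572213) (nat_lit 532) (nat_lit 12230600594) (nat_lit 145) (nat_lit 5) (nat_lit 151) (nat_lit 5) (nat_lit 152) (nat_lit 5) (nat_lit 330) (nat_lit 280) (nat_lit 170)) (XT.lf (nat_lit 0) (nat_lit 392898526) (nat_lit 380) (nat_lit 9744209686) (nat_lit 456) (nat_lit 7964890026) (nat_lit 140) (nat_lit 5) (nat_lit 145) (nat_lit 5) (nat_lit 146) (nat_lit 5) (nat_lit 331) (nat_lit 280) (nat_lit 169))) (XT.nd (nat_lit 78) (nat_lit 532) (nat_lit 0) (XT.lf (nat_lit 0) (nat_lit 13847005702) (nat_lit 380) (nat_lit 1105244311) (nat_lit 456) (nat_lit 3502655909) (nat_lit 140) (nat_lit 5) (nat_lit 145) (nat_lit 5) (nat_lit 146) (nat_lit 5) (nat_lit 332) (nat_lit 280) (nat_lit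 168)) (XT.lf (nat_lit 0) (nat_lit 1169069732) (nat_lit 532) (nat_lit 9898244015) (nat_lit 76) (nat_lit 7749157333) (nat_lit 133) (nat_lit 5) (nat_lit 140) (nat_lit 5) (nat_lit 134) (nat_lit 5) (nat_lit 333) (nat_lit 280) (nat_lit 167))))))))
noncomputable def xc86 : XT := (XT.nd (nat_lit 36582) (nat_lit 0) (nat_lit 16720) (XT.nd (nat_lit 1014) (nat_lit 2280) (nat_lit 0) (XT.nd (nat_lit 468) (nat_lit 1748) (nat_lit 0) (XT.nd (nat_lit 234) (nat_lit 836) (nat_lit 0) (XT.nd (nat_lit 78) (nat_lit 380) (nat_lit 0) (XT.lf (nat_lit 0) (nat_lit 3716106294) (nat_lit 380) (nat_lit 2261560939) (nat_lit 456) (nat_lit 13209877959) (nat_lit 128) (nat_lit 5) (nat_lit 133) (nat_lit 5) (nat_lit 134) (nat_lit 5) (nat_lit 334) (nat_lit 280) (nat_lit 166)) (XT.nd (nat_lit 78) (nat_lit 380) (nat_lit 0) (XT.lf (nat_lit 0) (nat_lit 11023662926) (nat_lit 456) (nat_lit 1765146465) (nat_lit 76) (nat_lit 6779090207) (nat_lit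 128) (nat_lit 5) (nat_lit 134) (nat_lit 5) (nat_lit 129) (nat_lit 5) (nat_lit 335) (nat_lit 280) (nat_lit 165)) (XT.lf (nat_lit 0) (nat_lit 12475131425) (nat_lit 380) (nat_lit 3823987200) (nat_lit 456) (nat_lit 3658994968) (nat_lit 123) (nat_lit 5) (nat_lit 128) (nat_lit 5) (nat_lit 129) (nat_lit 5) (nat_lit 336) (nat_lit 280) (nat_lit 164)))) (XT.nd (nat_lit 78) (nat_lit 380) (nat_lit 0) (XT.lf (nat_lit 0) (nat_lit 1429096554) (nat_lit 456) (nat_lit 13532125661) (nat_lit 76) (nat_lit 5397157634) (nat_lit 117) (nat_lit 5) (nat_lit 123) (nat_lit 5) (nat_lit 118) (nat_lit 5) (nat_lit 337) (nat_lit 280) (nat_lit 163)) (XT.nd (nat_lit 78) (nat_lit 0) (nat_lit 0) (XT.lf (nat_lit 0) (nat_lit 832681177) (nat_lit 380) (nat_lit 5852242789) (nat_lit 456) (nat_lit 14083960076) (nat_lit 112) (nat_lit 5) (nat_lit 117) (nat_lit 5) (nat_lit 118) (nat_lit 5) (nat_lit 338) (nat_lit 280) (nat_lit 162)) (XT.lf (nat_lit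 0) (nat_lit 12196446265) (nat_lit 456) (nat_lit 5425040590) (nat_lit 76) (nat_lit 3568265576) (nat_lit 112) (nat_lit 5) (nat_lit 118) (nat_lit 5) (nat_lit 113) (nat_lit 5) (nat_lit 339) (nat_lit 280) (nat_lit 161))))) (XT.nd (nat_lit 234) (nat_lit 988) (nat_lit 0) (XT.nd (nat_lit 78) (nat_lit 456) (nat_lit 0) (XT.lf (nat_lit 0) (nat_lit 9583438757) (nat_lit 304) (nat_lit 8374530848) (nat_lit 380) (nat_lit 3663593355) (nat_lit 108) (nat_lit 5) (nat_lit 112) (nat_lit 5) (nat_lit 113) (nat_lit 5) (nat_lit 340) (nat_lit 280) (nat_lit 160)) (XT.nd (nat_lit 78) (nat_lit 0) (nat_lit 0) (XT.lf (nat_lit 0) (nat_lit 1850276975) (nat_lit 456) (nat_lit 19018762065) (nat_lit 76) (nat_lit 1196096114) (nat_lit 102) (nat_lit 5) (nat_lit 108) (nat_lit 5) (nat_lit 103) (nat_lit 5) (nat_lit 341) (nat_lit 280) (nat_lit 159)) (XT.lf (nat_lit 0) (nat_lit 7601974529) (nat_lit 456) (nat_lit 3877526653) (nat_lit 76) (nat_lit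 11039593804) (nat_lit 102) (nat_lit 5) (nat_lit 108) (nat_lit 5) (nat_lit 103) (nat_lit 5) (nat_lit 342) (nat_lit 280) (nat_lit 158)))) (XT.nd (nat_lit 156) (nat_lit 380) (nat_lit 0) (XT.nd (nat_lit 78) (nat_lit 304) (nat_lit 0) (XT.lf (nat_lit 0) (nat_lit 11849780964) (nat_lit 304) (nat_lit 1737633732) (nat_lit 380) (nat_lit 9398043334) (nat_lit 98) (nat_lit 5) (nat_lit 102) (nat_lit 5) (nat_lit 103) (nat_lit 5) (nat_lit 343) (nat_lit 280) (nat_lit 157)) (XT.lf (nat_lit 0) (nat_lit 4619785804) (nat_lit 304) (nat_lit 15227455328) (nat_lit 380) (nat_lit 3616682383) (nat_lit 94) (nat_lit 5) (nat_lit 98) (nat_lit 5) (nat_lit 99) (nat_lit 5) (nat_lit 344) (nat_lit 280) (nat_lit 156))) (XT.nd (nat_lit 78) (nat_lit 304) (nat_lit 0) (XT.lf (nat_lit 0) (nat_lit 2379739129) (nat_lit 380) (nat_lit 3005485996) (nat_lit 76) (nat_lit 18569776161) (nat_lit 93) (nat_lit 5) (nat_lit 98) (nat_lit 5) (nat_lit 94)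 (nat_lit 5) (nat_lit 345) (nat_lit 280) (nat_lit 155)) (XT.lf (nat_lit 0) (nat_lit 8611137329) (nat_lit 380) (nat_lit 11052664571) (nat_lit 76) (nat_lit 4794454356) (nat_lit 89) (nat_lit 5) (nat_lit 94) (nat_lit 5) (nat_lit 90) (nat_lit 5) (nat_lit 346) (nat_lit 280) (nat_lit 154)))))) (XT.nd (nat_lit 468) (nat_lit 1140) (nat_lit 0) (XT.nd (nat_lit 234) (nat_lit 532) (nat_lit 0) (XT.nd (nat_lit 78) (nat_lit 304) (nat_lit 0) (XT.lf (nat_lit 0) (nat_lit 5385934688) (nat_lit 304) (nat_lit 9720415530) (nat_lit 380) (nat_lit 9868728390) (nat_lit 85) (nat_lit 5) (nat_lit 89) (nat_lit 5) (nat_lit 90) (nat_lit 5) (nat_lit 347) (nat_lit 280) (nat_lit 153)) (XT.nd (nat_lit 78) (nat_lit 304) (nat_lit 0) (XT.lf (nat_lit 0) (nat_lit 21860816816) (nat_lit 380) (nat_lit 3063177840) (nat_lit 76) (nat_lit 582130006) (nat_lit 85) (nat_lit 5) (nat_lit 90) (nat_lit 5) (nat_lit 86) (nat_lit 5) (nat_lit 348) (nat_lit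 280) (nat_lit 152)) (XT.lf (nat_lit 0) (nat_lit 2871796196) (nat_lit 304) (nat_lit 12012964782) (nat_lit 76) (nat_lit 11165123902) (nat_lit 81) (nat_lit 5) (nat_lit 85) (nat_lit 5) (nat_lit 82) (nat_lit 5) (nat_lit 349) (nat_lit 280) (nat_lit 151)))) (XT.nd (nat_lit 78) (nat_lit 228) (nat_lit 0) (XT.lf (nat_lit 0) (nat_lit 5103264521) (nat_lit 304) (nat_lit 4472144067) (nat_lit 380) (nat_lit 17033263442) (nat_lit 77) (nat_lit 5) (nat_lit 81) (nat_lit 5) (nat_lit 82) (nat_lit 5) (nat_lit 350) (nat_lit 280) (nat_lit 150)) (XT.nd (nat_lit 78) (nat_lit 228) (nat_lit 0) (XT.lf (nat_lit 0) (nat_lit 16589093886) (nat_lit 380) (nat_lit 4347750497) (nat_lit 76) (nat_lit 6245205383) (nat_lit 77) (nat_lit 5) (nat_lit 82) (nat_lit 5) (nat_lit 78) (nat_lit 5) (nat_lit 351) (nat_lit 280) (nat_lit 149)) (XT.lf (nat_lit 0) (nat_lit 13450321646) (nat_lit 228) (nat_lit 10466923261) (nat_lit 304) (nat_lit 3853308899)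 (nat_lit 74) (nat_lit 5) (nat_lit 77) (nat_lit 5) (nat_lit 78) (nat_lit 5) (nat_lit 352) (nat_lit 280) (nat_lit 148))))) (XT.nd (nat_lit 234) (nat_lit 532) (nat_lit 0) (XT.nd (nat_lit 78) (nat_lit 228) (nat_lit 0) (XT.lf (nat_lit 0) (nat_lit 3089676219) (nat_lit 380) (nat_lit 24907682816) (nat_lit 76) (nat_lit 378125559) (nat_lit 69) (nat_lit 5) (nat_lit 74) (nat_lit 5) (nat_lit 70) (nat_lit 5) (nat_lit 353) (nat_lit 280) (nat_lit 147)) (XT.nd (nat_lit 78) (nat_lit 228) (nat_lit 0) (XT.lf (nat_lit 0) (nat_lit 10343753389) (nat_lit 380) (nat_lit 7128065592) (nat_lit 76) (nat_lit 11523137456) (nat_lit 69) (nat_lit 5) (nat_lit 74) (nat_lit 5) (nat_lit 70) (nat_lit 5) (nat_lit 354) (nat_lit 280) (nat_lit 146)) (XT.lf (nat_lit 0) (nat_lit 11313386160) (nat_lit 228) (nat_lit 6563071626) (nat_lit 304) (nat_lit 11755340004) (nat_lit 66) (nat_lit 5) (nat_lit 69) (nat_lit 5) (nat_lit 70) (nat_lit 5) (nat_lit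 355) (nat_lit 280) (nat_lit 145)))) (XT.nd (nat_lit 156) (nat_lit 228) (nat_lit 0) (XT.nd (nat_lit 78) (nat_lit 76) (nat_lit 0) (XT.lf (nat_lit 0) (nat_lit 69313280) (nat_lit 228) (nat_lit 25632979970) (nat_lit 304) (nat_lit 4584113430) (nat_lit 63) (nat_lit 5) (nat_lit 66) (nat_lit 5) (nat_lit 67) (nat_lit 5) (nat_lit 356) (nat_lit 280) (nat_lit 144)) (XT.lf (nat_lit 0) (nat_lit 2922225550) (nat_lit 304) (nat_lit 11781316217) (nat_lit 76) (nat_lit 16253618675) (nat_lit 62) (nat_lit 5) (nat_lit 66) (nat_lit 5) (nat_lit 63) (nat_lit 5) (nat_lit 357) (nat_lit 280) (nat_lit 143))) (XT.nd (nat_lit 34632) (nat_lit 0) (nat_lit 29184) (XT.lf (nat_lit 0) (nat_lit 7252920119) (nat_lit 228) (nat_lit 3374237176) (nat_lit 304) (nat_lit 21019564742) (nat_lit 59) (nat_lit 5) (nat_lit 62) (nat_lit 5) (nat_lit 63) (nat_lit 5) (nat_lit 358) (nat_lit 280) (nat_lit 142)) (XT.lf (nat_lit 0) (nat_lit 244984815) (nat_lit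 1444) (nat_lit 1966644059) (nat_lit 1444) (nat_lit 1966644059) (nat_lit 443) (nat_lit 3) (nat_lit 462) (nat_lit 3) (nat_lit 462) (nat_lit 5) (nat_lit 281) (nat_lit 281) (nat_lit 218))))))) (XT.nd (nat_lit 1014) (nat_lit 9956) (nat_lit 0) (XT.nd (nat_lit 468) (nat_lit 1292) (nat_lit 0) (XT.nd (nat_lit 234) (nat_lit 1216) (nat_lit 0) (XT.nd (nat_lit 78) (nat_lit 0) (nat_lit 76) (XT.lf (nat_lit 76) (nat_lit 1753070627) (nat_lit 0) (nat_lit 285325851) (nat_lit 1444) (nat_lit 6411111622) (nat_lit 444) (nat_lit 5) (nat_lit 443) (nat_lit 3) (nat_lit 462) (nat_lit 5) (nat_lit 282) (nat_lit 281) (nat_lit 217)) (XT.nd (nat_lit 78) (nat_lit 0) (nat_lit 0) (XT.lf (nat_lit 0) (nat_lit 3626213673) (nat_lit 1368) (nat_lit 939192583) (nat_lit 1444) (nat_lit 3980055249) (nat_lit 444) (nat_lit 5) (nat_lit 462) (nat_lit 5) (nat_lit 463) (nat_lit 5) (nat_lit 283) (nat_lit 281) (nat_lit 216)) (XT.lf (nat_lit 76) (nat_lit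 5023355534) (nat_lit 0) (nat_lit 214860252) (nat_lit 1444) (nat_lit 3406605993) (nat_lit 445) (nat_lit 5) (nat_lit 444) (nat_lit 5) (nat_lit 463) (nat_lit 5) (nat_lit 284) (nat_lit 281) (nat_lit 215)))) (XT.nd (nat_lit 78) (nat_lit 1368) (nat_lit 0) (XT.lf (nat_lit 76) (nat_lit 2402131068) (nat_lit 0) (nat_lit 4489830183) (nat_lit 1444) (nat_lit 1855391495) (nat_lit 446) (nat_lit 5) (nat_lit 445) (nat_lit 5) (nat_lit 464) (nat_lit 5) (nat_lit 285) (nat_lit 281) (nat_lit 214)) (XT.nd (nat_lit 78) (nat_lit 1444) (nat_lit 0) (XT.lf (nat_lit 0) (nat_lit 8566769226) (nat_lit 1368) (nat_lit 231118291) (nat_lit 1444) (nat_lit 55698995) (nat_lit 446) (nat_lit 5) (nat_lit 464) (nat_lit 5) (nat_lit 465) (nat_lit 5) (nat_lit 286) (nat_lit 281) (nat_lit 213)) (XT.lf (nat_lit 0) (nat_lit 1327829904) (nat_lit 1444) (nat_lit 2887344391) (nat_lit 1520) (nat_lit 4747384760) (nat_lit 427) (nat_lit 5) (nat_lit 446)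 (nat_lit 5) (nat_lit 447) (nat_lit 5) (nat_lit 287) (nat_lit 281) (nat_lit 212))))) (XT.nd (nat_lit 234) (nat_lit 1368) (nat_lit 0) (XT.nd (nat_lit 78) (nat_lit 0) (nat_lit 0) (XT.lf (nat_lit 0) (nat_lit 2962805156) (nat_lit 1444) (nat_lit 5567979650) (nat_lit 1520) (nat_lit 544513978) (nat_lit 428) (nat_lit 5) (nat_lit 447) (nat_lit 5) (nat_lit 448) (nat_lit 5) (nat_lit 288) (nat_lit 281) (nat_lit 211)) (XT.nd (nat_lit 78) (nat_lit 0) (nat_lit 76) (XT.lf (nat_lit 76) (nat_lit 892760595) (nat_lit 0) (nat_lit 3756996222) (nat_lit 1520) (nat_lit 4541655473) (nat_lit 429) (nat_lit 5) (nat_lit 428) (nat_lit 5) (nat_lit 448) (nat_lit 5) (nat_lit 289) (nat_lit 281) (nat_lit 210)) (XT.lf (nat_lit 0) (nat_lit 6383454376) (nat_lit 1444) (nat_lit 1728057701) (nat_lit 1520) (nat_lit 1199623047) (nat_lit 429) (nat_lit 5) (nat_lit 448) (nat_lit 5) (nat_lit 449) (nat_lit 5) (nat_lit 290) (nat_lit 281) (nat_lit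 209)))) (XT.nd (nat_lit 156) (nat_lit 0) (nat_lit 0) (XT.nd (nat_lit 78) (nat_lit 1444) (nat_lit 0) (XT.lf (nat_lit 76) (nat_lit 5048154202) (nat_lit 0) (nat_lit 3130972973) (nat_lit 1520) (nat_lit 1255170434) (nat_lit 430) (nat_lit 5) (nat_lit 429) (nat_lit 5) (nat_lit 449) (nat_lit 5) (nat_lit 291) (nat_lit 281) (nat_lit 208)) (XT.lf (nat_lit 0) (nat_lit 455493450) (nat_lit 1520) (nat_lit 7087632464) (nat_lit 1596) (nat_lit 2018131126) (nat_lit 410) (nat_lit 5) (nat_lit 430) (nat_lit 5) (nat_lit 431) (nat_lit 5) (nat_lit 292) (nat_lit 281) (nat_lit 207))) (XT.nd (nat_lit 78) (nat_lit 0) (nat_lit 76) (XT.lf (nat_lit 0) (nat_lit 2205527575) (nat_lit 1520) (nat_lit 154981704) (nat_lit 1596) (nat_lit 7331291644) (nat_lit 410) (nat_lit 5) (nat_lit 430) (nat_lit 5) (nat_lit 431) (nat_lit 5) (nat_lit 293) (nat_lit 281) (nat_lit 206)) (XT.lf (nat_lit 0) (nat_lit 4029007957) (nat_lit 1520) (nat_lit 2800216033)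 (nat_lit 1596) (nat_lit 2996660623) (nat_lit 411) (nat_lit 5) (nat_lit 431) (nat_lit 5) (nat_lit 432) (nat_lit 5) (nat_lit 294) (nat_lit 281) (nat_lit 205)))))) (XT.nd (nat_lit 546) (nat_lit 5320) (nat_lit 0) (XT.nd (nat_lit 234) (nat_lit 4712) (nat_lit 0) (XT.nd (nat_lit 78) (nat_lit 0) (nat_lit 76) (XT.lf (nat_lit 76) (nat_lit 4469982633) (nat_lit 0) (nat_lit 1439725818) (nat_lit 1596) (nat_lit 4054273207) (nat_lit 412) (nat_lit 5) (nat_lit 411) (nat_lit 5) (nat_lit 432) (nat_lit 5) (nat_lit 295) (nat_lit 281) (nat_lit 204)) (XT.nd (nat_lit 78) (nat_lit 0) (nat_lit 0) (XT.lf (nat_lit 76) (nat_lit 1855125819) (nat_lit 0) (nat_lit 6007313628) (nat_lit 1596) (nat_lit 2243509940) (nat_lit 413) (nat_lit 5) (nat_lit 412) (nat_lit 5) (nat_lit 433) (nat_lit 5) (nat_lit 296) (nat_lit 281) (nat_lit 203)) (XT.lf (nat_lit 76) (nat_lit 9457549609) (nat_lit 0) (nat_lit 421784446) (nat_lit 1596) (nat_lit 372769255)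 (nat_lit 413) (nat_lit 5) (nat_lit 412) (nat_lit 5) (nat_lit 433) (nat_lit 5) (nat_lit 297) (nat_lit 281) (nat_lit 202)))) (XT.nd (nat_lit 156) (nat_lit 1672) (nat_lit 0) (XT.nd (nat_lit 78) (nat_lit 1596) (nat_lit 0) (XT.lf (nat_lit 0) (nat_lit 1573449469) (nat_lit 1596) (nat_lit 3503403795) (nat_lit 76) (nat_lit 5324828949) (nat_lit 392) (nat_lit 5) (nat_lit 413) (nat_lit 5) (nat_lit 393) (nat_lit 5) (nat_lit 298) (nat_lit 281) (nat_lit 201)) (XT.lf (nat_lit 0) (nat_lit 3574564371) (nat_lit 1672) (nat_lit 6264984462) (nat_lit 76) (nat_lit 716154743) (nat_lit 371) (nat_lit 5) (nat_lit 393) (nat_lit 5) (nat_lit 372) (nat_lit 5) (nat_lit 299) (nat_lit 281) (nat_lit 200))) (XT.nd (nat_lit 78) (nat_lit 0) (nat_lit 0) (XT.lf (nat_lit 0) (nat_lit 1606807994) (nat_lit 1672) (nat_lit 4058866801) (nat_lit 1748) (nat_lit 5048106351) (nat_lit 349) (nat_lit 5) (nat_lit 371) (nat_lit 5) (nat_lit 372) (nat_lit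 5) (nat_lit 300) (nat_lit 281) (nat_lit 199)) (XT.lf (nat_lit 0) (nat_lit 7837177994) (nat_lit 1748) (nat_lit 1121016095) (nat_lit 76) (nat_lit 1918087559) (nat_lit 349) (nat_lit 5) (nat_lit 372) (nat_lit 5) (nat_lit 350) (nat_lit 5) (nat_lit 301) (nat_lit 281) (nat_lit 198))))) (XT.nd (nat_lit 234) (nat_lit 2432) (nat_lit 0) (XT.nd (nat_lit 78) (nat_lit 1748) (nat_lit 0) (XT.lf (nat_lit 0) (nat_lit 7138781107) (nat_lit 1140) (nat_lit 2972246742) (nat_lit 1216) (nat_lit 931918095) (nat_lit 334) (nat_lit 5) (nat_lit 349) (nat_lit 5) (nat_lit 350) (nat_lit 5) (nat_lit 302) (nat_lit 281) (nat_lit 197)) (XT.nd (nat_lit 78) (nat_lit 836) (nat_lit 0) (XT.lf (nat_lit 0) (nat_lit 1244224972) (nat_lit 912) (nat_lit 6769984469) (nat_lit 76) (nat_lit 3199831440) (nat_lit 322) (nat_lit 5) (nat_lit 334) (nat_lit 5) (nat_lit 323) (nat_lit 5) (nat_lit 303) (nat_lit 281) (nat_lit 196)) (XT.lf (nat_lit 0) (nat_lit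 1669608189) (nat_lit 836) (nat_lit 1825951706) (nat_lit 912) (nat_lit 7894164519) (nat_lit 311) (nat_lit 5) (nat_lit 322) (nat_lit 5) (nat_lit 323) (nat_lit 5) (nat_lit 304) (nat_lit 281) (nat_lit 195)))) (XT.nd (nat_lit 156) (nat_lit 1672) (nat_lit 0) (XT.nd (nat_lit 78) (nat_lit 760) (nat_lit 0) (XT.lf (nat_lit 0) (nat_lit 5856112911) (nat_lit 912) (nat_lit 1177164406) (nat_lit 76) (nat_lit 4536597011) (nat_lit 311) (nat_lit 5) (nat_lit 323) (nat_lit 5) (nat_lit 312) (nat_lit 5) (nat_lit 305) (nat_lit 281) (nat_lit 194)) (XT.lf (nat_lit 0) (nat_lit 7678896914) (nat_lit 760) (nat_lit 637614546) (nat_lit 836) (nat_lit 3438365281) (nat_lit 301) (nat_lit 5) (nat_lit 311) (nat_lit 5) (nat_lit 312) (nat_lit 5) (nat_lit 306) (nat_lit 281) (nat_lit 193))) (XT.nd (nat_lit 78) (nat_lit 836) (nat_lit 0) (XT.lf (nat_lit 0) (nat_lit 4864757291) (nat_lit 836) (nat_lit 6031939070) (nat_lit 912) (nat_lit 1047841125)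 (nat_lit 290) (nat_lit 5) (nat_lit 301) (nat_lit 5) (nat_lit 302) (nat_lit 5) (nat_lit 307) (nat_lit 281) (nat_lit 192)) (XT.lf (nat_lit 0) (nat_lit 1412586770) (nat_lit 836) (nat_lit 10172504213) (nat_lit 76) (nat_lit 554305055) (nat_lit 279) (nat_lit 5) (nat_lit 290) (nat_lit 5) (nat_lit 280) (nat_lit 5) (nat_lit 308) (nat_lit 281) (nat_lit 191))))))))
noncomputable def xc87 : XT := (XT.nd (nat_lit 2106) (nat_lit 5016) (nat_lit 0) (XT.nd (nat_lit 1014) (nat_lit 5472) (nat_lit 0) (XT.nd (nat_lit 468) (nat_lit 3116) (nat_lit 0) (XT.nd (nat_lit 234) (nat_lit 1444) (nat_lit 0) (XT.nd (nat_lit 78) (nat_lit 1444) (nat_lit 0) (XT.lf (nat_lit 0) (nat_lit 3990254179) (nat_lit 836) (nat_lit 1036837511) (nat_lit 76) (nat_lit 7311742520) (nat_lit 279) (nat_lit 5) (nat_lit 290) (nat_lit 5) (nat_lit 280) (nat_lit 5) (nat_lit 309) (nat_lit 281) (nat_lit 190)) (XT.nd (nat_lit 78) (nat_lit 684) (nat_lit 0) (XT.lf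 (nat_lit 0) (nat_lit 6681562891) (nat_lit 836) (nat_lit 4102578996) (nat_lit 76) (nat_lit 1759412309) (nat_lit 269) (nat_lit 5) (nat_lit 280) (nat_lit 5) (nat_lit 270) (nat_lit 5) (nat_lit 310) (nat_lit 281) (nat_lit 189)) (XT.lf (nat_lit 0) (nat_lit 5470033476) (nat_lit 684) (nat_lit 4030312053) (nat_lit 760) (nat_lit 3253159729) (nat_lit 260) (nat_lit 5) (nat_lit 269) (nat_lit 5) (nat_lit 270) (nat_lit 5) (nat_lit 311) (nat_lit 281) (nat_lit 188)))) (XT.nd (nat_lit 78) (nat_lit 760) (nat_lit 0) (XT.lf (nat_lit 0) (nat_lit 2397882919) (nat_lit 684) (nat_lit 10039537363) (nat_lit 760) (nat_lit 531683463) (nat_lit 251) (nat_lit 5) (nat_lit 260) (nat_lit 5) (nat_lit 261) (nat_lit 5) (nat_lit 312) (nat_lit 281) (nat_lit 187)) (XT.nd (nat_lit 78) (nat_lit 684) (nat_lit 0) (XT.lf (nat_lit 0) (nat_lit 2289889659) (nat_lit 760) (nat_lit 793894018) (nat_lit 76) (nat_lit 10106149035) (nat_lit 250) (nat_lit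 5) (nat_lit 260) (nat_lit 5) (nat_lit 251) (nat_lit 5) (nat_lit 313) (nat_lit 281) (nat_lit 186)) (XT.lf (nat_lit 0) (nat_lit 5249076194) (nat_lit 760) (nat_lit 4077698594) (nat_lit 76) (nat_lit 4089359360) (nat_lit 241) (nat_lit 5) (nat_lit 251) (nat_lit 5) (nat_lit 242) (nat_lit 5) (nat_lit 314) (nat_lit 281) (nat_lit 185))))) (XT.nd (nat_lit 234) (nat_lit 1748) (nat_lit 0) (XT.nd (nat_lit 78) (nat_lit 684) (nat_lit 0) (XT.lf (nat_lit 0) (nat_lit 6166597547) (nat_lit 684) (nat_lit 2169544363) (nat_lit 760) (nat_lit 5312218702) (nat_lit 232) (nat_lit 5) (nat_lit 241) (nat_lit 5) (nat_lit 242) (nat_lit 5) (nat_lit 315) (nat_lit 281) (nat_lit 184)) (XT.nd (nat_lit 78) (nat_lit 76) (nat_lit 0) (XT.lf (nat_lit 0) (nat_lit 2860346621) (nat_lit 608) (nat_lit 8709235436) (nat_lit 684) (nat_lit 2316917002) (nat_lit 224) (nat_lit 5) (nat_lit 232) (nat_lit 5) (nat_lit 233) (nat_lit 5) (nat_lit 316) (nat_lit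 281) (nat_lit 183)) (XT.lf (nat_lit 0) (nat_lit 797695485) (nat_lit 684) (nat_lit 565587869) (nat_lit 76) (nat_lit 12767627455) (nat_lit 223) (nat_lit 5) (nat_lit 232) (nat_lit 5) (nat_lit 224) (nat_lit 5) (nat_lit 317) (nat_lit 281) (nat_lit 182)))) (XT.nd (nat_lit 156) (nat_lit 608) (nat_lit 0) (XT.nd (nat_lit 78) (nat_lit 532) (nat_lit 0) (XT.lf (nat_lit 0) (nat_lit 4056852534) (nat_lit 684) (nat_lit 4123192904) (nat_lit 76) (nat_lit 6200670387) (nat_lit 215) (nat_lit 5) (nat_lit 224) (nat_lit 5) (nat_lit 216) (nat_lit 5) (nat_lit 318) (nat_lit 281) (nat_lit 181)) (XT.lf (nat_lit 0) (nat_lit 6826262506) (nat_lit 532) (nat_lit 620081712) (nat_lit 608) (nat_lit 7191037913) (nat_lit 208) (nat_lit 5) (nat_lit 215) (nat_lit 5) (nat_lit 216) (nat_lit 5) (nat_lit 319) (nat_lit 281) (nat_lit 180))) (XT.nd (nat_lit 78) (nat_lit 0) (nat_lit 0) (XT.lf (nat_lit 0) (nat_lit 3225790846) (nat_lit 608) (nat_lit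 7783098041) (nat_lit 684) (nat_lit 3891449980) (nat_lit 200) (nat_lit 5) (nat_lit 208) (nat_lit 5) (nat_lit 209) (nat_lit 5) (nat_lit 320) (nat_lit 281) (nat_lit 179)) (XT.lf (nat_lit 0) (nat_lit 14667750193) (nat_lit 608) (nat_lit 43897061) (nat_lit 684) (nat_lit 458887590) (nat_lit 200) (nat_lit 5) (nat_lit 208) (nat_lit 5) (nat_lit 209) (nat_lit 5) (nat_lit 321) (nat_lit 281) (nat_lit 178)))))) (XT.nd (nat_lit 546) (nat_lit 2280) (nat_lit 0) (XT.nd (nat_lit 234) (nat_lit 1520) (nat_lit 0) (XT.nd (nat_lit 78) (nat_lit 1064) (nat_lit 0) (XT.lf (nat_lit 0) (nat_lit 3137235131) (nat_lit 608) (nat_lit 4398031959) (nat_lit 76) (nat_lit 7911167864) (nat_lit 192) (nat_lit 5) (nat_lit 200) (nat_lit 5) (nat_lit 193) (nat_lit 5) (nat_lit 322) (nat_lit 281) (nat_lit 177)) (XT.nd (nat_lit 78) (nat_lit 532) (nat_lit 0) (XT.lf (nat_lit 0) (nat_lit 6866091329) (nat_lit 608) (nat_lit 8446346410) (nat_lit 76)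 (nat_lit 417507954) (nat_lit 185) (nat_lit 5) (nat_lit 193) (nat_lit 5) (nat_lit 186) (nat_lit 5) (nat_lit 323) (nat_lit 281) (nat_lit 176)) (XT.lf (nat_lit 0) (nat_lit 3319250791) (nat_lit 532) (nat_lit 7467221065) (nat_lit 608) (nat_lit 5233912234) (nat_lit 178) (nat_lit 5) (nat_lit 185) (nat_lit 5) (nat_lit 186) (nat_lit 5) (nat_lit 324) (nat_lit 281) (nat_lit 175)))) (XT.nd (nat_lit 156) (nat_lit 912) (nat_lit 0) (XT.nd (nat_lit 78) (nat_lit 608) (nat_lit 0) (XT.lf (nat_lit 0) (nat_lit 14864206945) (nat_lit 608) (nat_lit 797484076) (nat_lit 76) (nat_lit 657064811) (nat_lit 178) (nat_lit 5) (nat_lit 186) (nat_lit 5) (nat_lit 179) (nat_lit 5) (nat_lit 325) (nat_lit 281) (nat_lit 174)) (XT.lf (nat_lit 0) (nat_lit 2510517529) (nat_lit 608) (nat_lit 5103227833) (nat_lit 76) (nat_lit 9009945100) (nat_lit 170) (nat_lit 5) (nat_lit 178) (nat_lit 5) (nat_lit 171) (nat_lit 5) (nat_lit 326) (nat_lit 281)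 (nat_lit 173))) (XT.nd (nat_lit 78) (nat_lit 456) (nat_lit 0) (XT.lf (nat_lit 0) (nat_lit 6611823301) (nat_lit 532) (nat_lit 9601193894) (nat_lit 76) (nat_lit 723836578) (nat_lit 164) (nat_lit 5) (nat_lit 171) (nat_lit 5) (nat_lit 165) (nat_lit 5) (nat_lit 327) (nat_lit 281) (nat_lit 172)) (XT.lf (nat_lit 0) (nat_lit 2918851120) (nat_lit 456) (nat_lit 8001464926) (nat_lit 532) (nat_lit 6337426492) (nat_lit 158) (nat_lit 5) (nat_lit 164) (nat_lit 5) (nat_lit 165) (nat_lit 5) (nat_lit 328) (nat_lit 281) (nat_lit 171))))) (XT.nd (nat_lit 234) (nat_lit 1292) (nat_lit 0) (XT.nd (nat_lit 78) (nat_lit 988) (nat_lit 0) (XT.lf (nat_lit 0) (nat_lit 15406370619) (nat_lit 532) (nat_lit 1671495493) (nat_lit 76) (nat_lit 509438829) (nat_lit 158) (nat_lit 5) (nat_lit 165) (nat_lit 5) (nat_lit 159) (nat_lit 5) (nat_lit 329) (nat_lit 281) (nat_lit 170)) (XT.nd (nat_lit 78) (nat_lit 456) (nat_lit 0) (XT.lf (nat_lit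 0) (nat_lit 2181676689) (nat_lit 532) (nat_lit 6492698372) (nat_lit 76) (nat_lit 9249939530) (nat_lit 151) (nat_lit 5) (nat_lit 158) (nat_lit 5) (nat_lit 152) (nat_lit 5) (nat_lit 330) (nat_lit 281) (nat_lit 169)) (XT.lf (nat_lit 0) (nat_lit 6681778707) (nat_lit 532) (nat_lit 11543794933) (nat_lit 76) (nat_lit 44859831) (nat_lit 145) (nat_lit 5) (nat_lit 152) (nat_lit 5) (nat_lit 146) (nat_lit 5) (nat_lit 331) (nat_lit 281) (nat_lit 168)))) (XT.nd (nat_lit 156) (nat_lit 912) (nat_lit 0) (XT.nd (nat_lit 78) (nat_lit 0) (nat_lit 0) (XT.lf (nat_lit 0) (nat_lit 1743902957) (nat_lit 380) (nat_lit 9667653544) (nat_lit 456) (nat_lit 7213497729) (nat_lit 140) (nat_lit 5) (nat_lit 145) (nat_lit 5) (nat_lit 146) (nat_lit 5) (nat_lit 332) (nat_lit 281) (nat_lit 167)) (XT.lf (nat_lit 0) (nat_lit 15562627014) (nat_lit 380) (nat_lit 780263356) (nat_lit 456) (nat_lit 2646241413) (nat_lit 140) (nat_lit 5) (nat_lit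 145) (nat_lit 5) (nat_lit 146) (nat_lit 5) (nat_lit 333) (nat_lit 281) (nat_lit 166))) (XT.nd (nat_lit 78) (nat_lit 380) (nat_lit 0) (XT.lf (nat_lit 0) (nat_lit 2136130720) (nat_lit 532) (nat_lit 8886318320) (nat_lit 76) (nat_lit 8339324462) (nat_lit 133) (nat_lit 5) (nat_lit 140) (nat_lit 5) (nat_lit 134) (nat_lit 5) (nat_lit 334) (nat_lit 281) (nat_lit 165)) (XT.lf (nat_lit 0) (nat_lit 5115227588) (nat_lit 380) (nat_lit 1954973451) (nat_lit 456) (nat_lit 12674170578) (nat_lit 128) (nat_lit 5) (nat_lit 133) (nat_lit 5) (nat_lit 134) (nat_lit 5) (nat_lit 335) (nat_lit 281) (nat_lit 164))))))) (XT.nd (nat_lit 1014) (nat_lit 1748) (nat_lit 0) (XT.nd (nat_lit 468) (nat_lit 1748) (nat_lit 0) (XT.nd (nat_lit 234) (nat_lit 684) (nat_lit 0) (XT.nd (nat_lit 78) (nat_lit 836) (nat_lit 0) (XT.lf (nat_lit 0) (nat_lit 12243338703) (nat_lit 456) (nat_lit 552074683) (nat_lit 76) (nat_lit 7341223635) (nat_lit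 128) (nat_lit 5) (nat_lit 134) (nat_lit 5) (nat_lit 129) (nat_lit 5) (nat_lit 336) (nat_lit 281) (nat_lit 163)) (XT.nd (nat_lit 78) (nat_lit 456) (nat_lit 0) (XT.lf (nat_lit 0) (nat_lit 14094871773) (nat_lit 380) (nat_lit 3564380613) (nat_lit 456) (nat_lit 2879676315) (nat_lit 123) (nat_lit 5) (nat_lit 128) (nat_lit 5) (nat_lit 129) (nat_lit 5) (nat_lit 337) (nat_lit 281) (nat_lit 162)) (XT.lf (nat_lit 0) (nat_lit 2334324115) (nat_lit 456) (nat_lit 12685622066) (nat_lit 76) (nat_lit 5931457203) (nat_lit 117) (nat_lit 5) (nat_lit 123) (nat_lit 5) (nat_lit 118) (nat_lit 5) (nat_lit 338) (nat_lit 281) (nat_lit 161)))) (XT.nd (nat_lit 78) (nat_lit 304) (nat_lit 0) (XT.lf (nat_lit 0) (nat_lit 2089809183) (nat_lit 380) (nat_lit 5640899960) (nat_lit 456) (nat_lit 13643869906) (nat_lit 112) (nat_lit 5) (nat_lit 117) (nat_lit 5) (nat_lit 118) (nat_lit 5) (nat_lit 339) (nat_lit 281) (nat_lit 160)) (XT.nd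 (nat_lit 78) (nat_lit 304) (nat_lit 0) (XT.lf (nat_lit 0) (nat_lit 13385397453) (nat_lit 456) (nat_lit 4377105392) (nat_lit 76) (nat_lit 4046027832) (nat_lit 112) (nat_lit 5) (nat_lit 118) (nat_lit 5) (nat_lit 113) (nat_lit 5) (nat_lit 340) (nat_lit 281) (nat_lit 159)) (XT.lf (nat_lit 0) (nat_lit 11061986386) (nat_lit 304) (nat_lit 8241540602) (nat_lit 380) (nat_lit 2950106524) (nat_lit 108) (nat_lit 5) (nat_lit 112) (nat_lit 5) (nat_lit 113) (nat_lit 5) (nat_lit 341) (nat_lit 281) (nat_lit 158))))) (XT.nd (nat_lit 234) (nat_lit 988) (nat_lit 0) (XT.nd (nat_lit 78) (nat_lit 304) (nat_lit 0) (XT.lf (nat_lit 0) (nat_lit 2704899656) (nat_lit 456) (nat_lit 18392711924) (nat_lit 76) (nat_lit 1613076560) (nat_lit 102) (nat_lit 5) (nat_lit 108) (nat_lit 5) (nat_lit 103) (nat_lit 5) (nat_lit 342) (nat_lit 281) (nat_lit 157)) (XT.nd (nat_lit 78) (nat_lit 304) (nat_lit 0) (XT.lf (nat_lit 0) (nat_lit 8605872960)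 (nat_lit 456) (nat_lit 2832092256) (nat_lit 76) (nat_lit 11740779252) (nat_lit 102) (nat_lit 5) (nat_lit 108) (nat_lit 5) (nat_lit 103) (nat_lit 5) (nat_lit 343) (nat_lit 281) (nat_lit 156)) (XT.lf (nat_lit 0) (nat_lit 13348186411) (nat_lit 304) (nat_lit 1407513206) (nat_lit 380) (nat_lit 8903714163) (nat_lit 98) (nat_lit 5) (nat_lit 102) (nat_lit 5) (nat_lit 103) (nat_lit 5) (nat_lit 344) (nat_lit 281) (nat_lit 155)))) (XT.nd (nat_lit 156) (nat_lit 608) (nat_lit 0) (XT.nd (nat_lit 78) (nat_lit 76) (nat_lit 0) (XT.lf (nat_lit 0) (nat_lit 5895662222) (nat_lit 304) (nat_lit 15295296932) (nat_lit 380) (nat_lit 2961532807) (nat_lit 94) (nat_lit 5) (nat_lit 98) (nat_lit 5) (nat_lit 99) (nat_lit 5) (nat_lit 345) (nat_lit 281) (nat_lit 154)) (XT.lf (nat_lit 0) (nat_lit 3182815420) (nat_lit 380) (nat_lit 1981403992) (nat_lit 76) (nat_lit 19494433445) (nat_lit 93) (nat_lit 5) (nat_lit 98) (nat_lit 5) (nat_lit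 94) (nat_lit 5) (nat_lit 346) (nat_lit 281) (nat_lit 153))) (XT.nd (nat_lit 78) (nat_lit 304) (nat_lit 0) (XT.lf (nat_lit 0) (nat_lit 9589420073) (nat_lit 380) (nat_lit 10275829928) (nat_lit 76) (nat_lit 5312000810) (nat_lit 89) (nat_lit 5) (nat_lit 94) (nat_lit 5) (nat_lit 90) (nat_lit 5) (nat_lit 347) (nat_lit 281) (nat_lit 152)) (XT.lf (nat_lit 0) (nat_lit 6637944599) (nat_lit 304) (nat_lit 9627655178) (nat_lit 380) (nat_lit 9444266162) (nat_lit 85) (nat_lit 5) (nat_lit 89) (nat_lit 5) (nat_lit 90) (nat_lit 5) (nat_lit 348) (nat_lit 281) (nat_lit 151)))))) (XT.nd (nat_lit 546) (nat_lit 532) (nat_lit 0) (XT.nd (nat_lit 234) (nat_lit 608) (nat_lit 0) (XT.nd (nat_lit 78) (nat_lit 608) (nat_lit 0) (XT.lf (nat_lit 0) (nat_lit 23204558463) (nat_lit 380) (nat_lit 2084780657) (nat_lit 76) (nat_lit 967877108) (nat_lit 85) (nat_lit 5) (nat_lit 90) (nat_lit 5) (nat_lit 86) (nat_lit 5) (nat_lit 349) (nat_lit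 281) (nat_lit 150)) (XT.nd (nat_lit 78) (nat_lit 304) (nat_lit 0) (XT.lf (nat_lit 0) (nat_lit 3637455292) (nat_lit 304) (nat_lit 11311077413) (nat_lit 76) (nat_lit 11868940864) (nat_lit 81) (nat_lit 5) (nat_lit 85) (nat_lit 5) (nat_lit 82) (nat_lit 5) (nat_lit 350) (nat_lit 281) (nat_lit 149)) (XT.lf (nat_lit 0) (nat_lit 6301404598) (nat_lit 304) (nat_lit 4227765152) (nat_lit 380) (nat_lit 16864123966) (nat_lit 77) (nat_lit 5) (nat_lit 81) (nat_lit 5) (nat_lit 82) (nat_lit 5) (nat_lit 351) (nat_lit 281) (nat_lit 148)))) (XT.nd (nat_lit 156) (nat_lit 380) (nat_lit 0) (XT.nd (nat_lit 78) (nat_lit 228) (nat_lit 0) (XT.lf (nat_lit 0) (nat_lit 17736239185) (nat_lit 380) (nat_lit 3452723921) (nat_lit 76) (nat_lit 6795259190) (nat_lit 77) (nat_lit 5) (nat_lit 82) (nat_lit 5) (nat_lit 78) (nat_lit 5) (nat_lit 352) (nat_lit 281) (nat_lit 147)) (XT.lf (nat_lit 0) (nat_lit 14862653530) (nat_lit 228) (nat_lit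 10409214476) (nat_lit 304) (nat_lit 3318769511) (nat_lit 74) (nat_lit 5) (nat_lit 77) (nat_lit 5) (nat_lit 78) (nat_lit 5) (nat_lit 353) (nat_lit 281) (nat_lit 146))) (XT.nd (nat_lit 78) (nat_lit 0) (nat_lit 0) (XT.lf (nat_lit 0) (nat_lit 3814204032) (nat_lit 380) (nat_lit 24643337251) (nat_lit 76) (nat_lit 756294315) (nat_lit 69) (nat_lit 5) (nat_lit 74) (nat_lit 5) (nat_lit 70) (nat_lit 5) (nat_lit 354) (nat_lit 281) (nat_lit 145)) (XT.lf (nat_lit 0) (nat_lit 11267500482) (nat_lit 380) (nat_lit 6359794891) (nat_lit 76) (nat_lit 12224972346) (nat_lit 69) (nat_lit 5) (nat_lit 74) (nat_lit 5) (nat_lit 70) (nat_lit 5) (nat_lit 355) (nat_lit 281) (nat_lit 144))))) (XT.nd (nat_lit 34866) (nat_lit 0) (nat_lit 28956) (XT.nd (nat_lit 78) (nat_lit 304) (nat_lit 0) (XT.lf (nat_lit 0) (nat_lit 12618966802) (nat_lit 228) (nat_lit 6395625260) (nat_lit 304) (nat_lit 11493861956) (nat_lit 66) (nat_lit 5) (nat_lit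 69) (nat_lit 5) (nat_lit 70) (nat_lit 5) (nat_lit 356) (nat_lit 281) (nat_lit 143)) (XT.nd (nat_lit 78) (nat_lit 76) (nat_lit 0) (XT.lf (nat_lit 0) (nat_lit 1031667669) (nat_lit 228) (nat_lit 26034536956) (nat_lit 304) (nat_lit 4116684108) (nat_lit 63) (nat_lit 5) (nat_lit 66) (nat_lit 5) (nat_lit 67) (nat_lit 5) (nat_lit 357) (nat_lit 281) (nat_lit 142)) (XT.lf (nat_lit 0) (nat_lit 3589522085) (nat_lit 304) (nat_lit 11194505817) (nat_lit 76) (nat_lit 17090013663) (nat_lit 62) (nat_lit 5) (nat_lit 66) (nat_lit 5) (nat_lit 63) (nat_lit 5) (nat_lit 358) (nat_lit 281) (nat_lit 141)))) (XT.nd (nat_lit 156) (nat_lit 0) (nat_lit 76) (XT.nd (nat_lit 78) (nat_lit 0) (nat_lit 0) (XT.lf (nat_lit 0) (nat_lit 1767325200) (nat_lit 1444) (nat_lit 1252223367) (nat_lit 1444) (nat_lit 1252223367) (nat_lit 443) (nat_lit 3) (nat_lit 462) (nat_lit 3) (nat_lit 462) (nat_lit 5) (nat_lit 282) (nat_lit 282) (nat_lit 216))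 (XT.lf (nat_lit 76) (nat_lit 3327407131) (nat_lit 0) (nat_lit 1723751202) (nat_lit 1444) (nat_lit 3589794325) (nat_lit 444) (nat_lit 5) (nat_lit 443) (nat_lit 3) (nat_lit 462) (nat_lit 5) (nat_lit 283) (nat_lit 282) (nat_lit 215))) (XT.nd (nat_lit 78) (nat_lit 0) (nat_lit 0) (XT.lf (nat_lit 76) (nat_lit 586998882) (nat_lit 0) (nat_lit 6008439887) (nat_lit 1444) (nat_lit 2146256947) (nat_lit 445) (nat_lit 5) (nat_lit 444) (nat_lit 5) (nat_lit 463) (nat_lit 5) (nat_lit 284) (nat_lit 282) (nat_lit 214)) (XT.lf (nat_lit 76) (nat_lit 6695631986) (nat_lit 0) (nat_lit 1483034110) (nat_lit 1444) (nat_lit 666998473) (nat_lit 445) (nat_lit 5) (nat_lit 444) (nat_lit 5) (nat_lit 463) (nat_lit 5) (nat_lit 285) (nat_lit 282) (nat_lit 213))))))))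
noncomputable def xc88 : XT := (XT.nd (nat_lit 2028) (nat_lit 11096) (nat_lit 0) (XT.nd (nat_lit 1014) (nat_lit 9272) (nat_lit 0) (XT.nd (nat_lit 468) (nat_lit 2660) (nat_lit 0) (XT.nd (nat_lit 234) (nat_lit 0) (nat_lit 76) (XT.nd (nat_lit 78) (nat_lit 0) (nat_lit 0) (XT.lf (nat_lit 0) (nat_lit 839065927) (nat_lit 1444) (nat_lit 4921754908) (nat_lit 1520) (nat_lit 3192000336) (nat_lit 426) (nat_lit 5) (nat_lit 445) (nat_lit 5) (nat_lit 446) (nat_lit 5) (nat_lit 286) (nat_lit 282) (nat_lit 212)) (XT.nd (nat_lit 78) (nat_lit 0) (nat_lit 76) (XT.lf (nat_lit 76) (nat_lit 1336547653) (nat_lit 0) (nat_lit 1025887688) (nat_lit 1520) (nat_lit 6701096887) (nat_lit 427) (nat_lit 5) (nat_lit 426) (nat_lit 5) (nat_lit 446) (nat_lit 5) (nat_lit 287) (nat_lit 282) (nat_lit 211)) (XT.lf (nat_lit 0) (nat_lit 3939410817) (nat_lit 1444) (nat_lit 1383490376) (nat_lit 1520) (nat_lit 3854555453) (nat_lit 427) (nat_lit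 5) (nat_lit 446) (nat_lit 5) (nat_lit 447) (nat_lit 5) (nat_lit 288) (nat_lit 282) (nat_lit 210)))) (XT.nd (nat_lit 78) (nat_lit 0) (nat_lit 76) (XT.lf (nat_lit 76) (nat_lit 5180973093) (nat_lit 0) (nat_lit 374026090) (nat_lit 1520) (nat_lit 3740022209) (nat_lit 428) (nat_lit 5) (nat_lit 427) (nat_lit 5) (nat_lit 447) (nat_lit 5) (nat_lit 289) (nat_lit 282) (nat_lit 209)) (XT.nd (nat_lit 78) (nat_lit 0) (nat_lit 76) (XT.lf (nat_lit 76) (nat_lit 2516604855) (nat_lit 0) (nat_lit 4711054089) (nat_lit 1520) (nat_lit 2188329315) (nat_lit 429) (nat_lit 5) (nat_lit 428) (nat_lit 5) (nat_lit 448) (nat_lit 5) (nat_lit 290) (nat_lit 282) (nat_lit 208)) (XT.lf (nat_lit 0) (nat_lit 8937042312) (nat_lit 1444) (nat_lit 174374743) (nat_lit 1520) (nat_lit 429482078) (nat_lit 429) (nat_lit 5) (nat_lit 448) (nat_lit 5) (nat_lit 449) (nat_lit 5) (nat_lit 291) (nat_lit 282) (nat_lit 207))))) (XT.nd (nat_lit 234) (nat_lit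 1368) (nat_lit 0) (XT.nd (nat_lit 78) (nat_lit 0) (nat_lit 76) (XT.lf (nat_lit 0) (nat_lit 1045156969) (nat_lit 1520) (nat_lit 2896795425) (nat_lit 1596) (nat_lit 5726905264) (nat_lit 409) (nat_lit 5) (nat_lit 429) (nat_lit 5) (nat_lit 430) (nat_lit 5) (nat_lit 292) (nat_lit 282) (nat_lit 206)) (XT.nd (nat_lit 78) (nat_lit 0) (nat_lit 0) (XT.lf (nat_lit 0) (nat_lit 2728484431) (nat_lit 1520) (nat_lit 5662060620) (nat_lit 1596) (nat_lit 1410211509) (nat_lit 410) (nat_lit 5) (nat_lit 430) (nat_lit 5) (nat_lit 431) (nat_lit 5) (nat_lit 293) (nat_lit 282) (nat_lit 205)) (XT.lf (nat_lit 76) (nat_lit 1449870386) (nat_lit 0) (nat_lit 3024757096) (nat_lit 1596) (nat_lit 5461779788) (nat_lit 411) (nat_lit 5) (nat_lit 410) (nat_lit 5) (nat_lit 431) (nat_lit 5) (nat_lit 294) (nat_lit 282) (nat_lit 204)))) (XT.nd (nat_lit 156) (nat_lit 1520) (nat_lit 0) (XT.nd (nat_lit 78) (nat_lit 0) (nat_lit 0) (XT.lf (nat_lit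 0) (nat_lit 6285934781) (nat_lit 1520) (nat_lit 1270982083) (nat_lit 1596) (nat_lit 2518995001) (nat_lit 411) (nat_lit 5) (nat_lit 431) (nat_lit 5) (nat_lit 432) (nat_lit 5) (nat_lit 295) (nat_lit 282) (nat_lit 203)) (XT.lf (nat_lit 76) (nat_lit 6191149633) (nat_lit 0) (nat_lit 1979995712) (nat_lit 1596) (nat_lit 2048103768) (nat_lit 412) (nat_lit 5) (nat_lit 411) (nat_lit 5) (nat_lit 432) (nat_lit 5) (nat_lit 296) (nat_lit 282) (nat_lit 202))) (XT.nd (nat_lit 78) (nat_lit 1596) (nat_lit 0) (XT.lf (nat_lit 76) (nat_lit 3518217624) (nat_lit 0) (nat_lit 6610840570) (nat_lit 1596) (nat_lit 237543034) (nat_lit 413) (nat_lit 5) (nat_lit 412) (nat_lit 5) (nat_lit 433) (nat_lit 5) (nat_lit 297) (nat_lit 282) (nat_lit 201)) (XT.lf (nat_lit 76) (nat_lit 783212999) (nat_lit 0) (nat_lit 829441688) (nat_lit 1672) (nat_lit 8905410497) (nat_lit 392) (nat_lit 5) (nat_lit 391) (nat_lit 5) (nat_lit 413) (nat_lit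 5) (nat_lit 298) (nat_lit 282) (nat_lit 200)))))) (XT.nd (nat_lit 468) (nat_lit 4028) (nat_lit 0) (XT.nd (nat_lit 234) (nat_lit 2052) (nat_lit 0) (XT.nd (nat_lit 78) (nat_lit 3268) (nat_lit 0) (XT.lf (nat_lit 0) (nat_lit 3556989452) (nat_lit 1596) (nat_lit 2002462905) (nat_lit 76) (nat_lit 5113786937) (nat_lit 392) (nat_lit 5) (nat_lit 413) (nat_lit 5) (nat_lit 393) (nat_lit 5) (nat_lit 299) (nat_lit 282) (nat_lit 199)) (XT.nd (nat_lit 78) (nat_lit 1672) (nat_lit 0) (XT.lf (nat_lit 0) (nat_lit 5569983885) (nat_lit 1672) (nat_lit 4831413911) (nat_lit 76) (nat_lit 431498035) (nat_lit 371) (nat_lit 5) (nat_lit 393) (nat_lit 5) (nat_lit 372) (nat_lit 5) (nat_lit 300) (nat_lit 282) (nat_lit 198)) (XT.lf (nat_lit 0) (nat_lit 3250225082) (nat_lit 1672) (nat_lit 4428964111) (nat_lit 1748) (nat_lit 3317469262) (nat_lit 349) (nat_lit 5) (nat_lit 371) (nat_lit 5) (nat_lit 372) (nat_lit 5) (nat_lit 301) (nat_lit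 282) (nat_lit 197)))) (XT.nd (nat_lit 78) (nat_lit 912) (nat_lit 0) (XT.lf (nat_lit 0) (nat_lit 438838286) (nat_lit 1140) (nat_lit 9424587598) (nat_lit 1216) (nat_lit 1301704822) (nat_lit 334) (nat_lit 5) (nat_lit 349) (nat_lit 5) (nat_lit 350) (nat_lit 5) (nat_lit 302) (nat_lit 282) (nat_lit 196)) (XT.nd (nat_lit 78) (nat_lit 836) (nat_lit 0) (XT.lf (nat_lit 0) (nat_lit 812166273) (nat_lit 1216) (nat_lit 2428166158) (nat_lit 76) (nat_lit 8097298603) (nat_lit 333) (nat_lit 5) (nat_lit 349) (nat_lit 5) (nat_lit 334) (nat_lit 5) (nat_lit 303) (nat_lit 282) (nat_lit 195)) (XT.lf (nat_lit 0) (nat_lit 2998873858) (nat_lit 912) (nat_lit 5375056424) (nat_lit 76) (nat_lit 3140691331) (nat_lit 322) (nat_lit 5) (nat_lit 334) (nat_lit 5) (nat_lit 323) (nat_lit 5) (nat_lit 304) (nat_lit 282) (nat_lit 194))))) (XT.nd (nat_lit 234) (nat_lit 2432) (nat_lit 0) (XT.nd (nat_lit 78) (nat_lit 760) (nat_lit 0) (XT.lf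 (nat_lit 0) (nat_lit 3291797914) (nat_lit 836) (nat_lit 1986138949) (nat_lit 912) (nat_lit 6418478544) (nat_lit 311) (nat_lit 5) (nat_lit 322) (nat_lit 5) (nat_lit 323) (nat_lit 5) (nat_lit 305) (nat_lit 282) (nat_lit 193)) (XT.nd (nat_lit 78) (nat_lit 0) (nat_lit 0) (XT.lf (nat_lit 0) (nat_lit 353109623) (nat_lit 760) (nat_lit 7308965499) (nat_lit 836) (nat_lit 4220881573) (nat_lit 301) (nat_lit 5) (nat_lit 311) (nat_lit 5) (nat_lit 312) (nat_lit 5) (nat_lit 306) (nat_lit 282) (nat_lit 192)) (XT.lf (nat_lit 0) (nat_lit 9444897001) (nat_lit 760) (nat_lit 711649281) (nat_lit 836) (nat_lit 1917798704) (nat_lit 301) (nat_lit 5) (nat_lit 311) (nat_lit 5) (nat_lit 312) (nat_lit 5) (nat_lit 307) (nat_lit 282) (nat_lit 191)))) (XT.nd (nat_lit 156) (nat_lit 760) (nat_lit 0) (XT.nd (nat_lit 78) (nat_lit 760) (nat_lit 0) (XT.lf (nat_lit 0) (nat_lit 500369008) (nat_lit 912) (nat_lit 5719350419) (nat_lit 76)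 (nat_lit 6050683105) (nat_lit 289) (nat_lit 5) (nat_lit 301) (nat_lit 5) (nat_lit 290) (nat_lit 5) (nat_lit 308) (nat_lit 282) (nat_lit 190)) (XT.lf (nat_lit 0) (nat_lit 2984927692) (nat_lit 836) (nat_lit 8905473908) (nat_lit 76) (nat_lit 581313542) (nat_lit 279) (nat_lit 5) (nat_lit 290) (nat_lit 5) (nat_lit 280) (nat_lit 5) (nat_lit 309) (nat_lit 282) (nat_lit 189))) (XT.nd (nat_lit 78) (nat_lit 0) (nat_lit 0) (XT.lf (nat_lit 0) (nat_lit 464563234) (nat_lit 760) (nat_lit 5133816103) (nat_lit 836) (nat_lit 7079624838) (nat_lit 269) (nat_lit 5) (nat_lit 279) (nat_lit 5) (nat_lit 280) (nat_lit 5) (nat_lit 310) (nat_lit 282) (nat_lit 188)) (XT.lf (nat_lit 0) (nat_lit 8334219731) (nat_lit 836) (nat_lit 2694101933) (nat_lit 76) (nat_lit 1861303978) (nat_lit 269) (nat_lit 5) (nat_lit 280) (nat_lit 5) (nat_lit 270) (nat_lit 5) (nat_lit 311) (nat_lit 282) (nat_lit 187))))))) (XT.nd (nat_lit 1014) (nat_lit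 4712) (nat_lit 0) (XT.nd (nat_lit 468) (nat_lit 2964) (nat_lit 0) (XT.nd (nat_lit 234) (nat_lit 1292) (nat_lit 0) (XT.nd (nat_lit 78) (nat_lit 1444) (nat_lit 0) (XT.lf (nat_lit 0) (nat_lit 7140841263) (nat_lit 684) (nat_lit 4064209748) (nat_lit 760) (nat_lit 1901509211) (nat_lit 260) (nat_lit 5) (nat_lit 269) (nat_lit 5) (nat_lit 270) (nat_lit 5) (nat_lit 312) (nat_lit 282) (nat_lit 186)) (XT.nd (nat_lit 78) (nat_lit 684) (nat_lit 0) (XT.lf (nat_lit 0) (nat_lit 858555168) (nat_lit 760) (nat_lit 9354331921) (nat_lit 76) (nat_lit 3116280142) (nat_lit 250) (nat_lit 5) (nat_lit 260) (nat_lit 5) (nat_lit 251) (nat_lit 5) (nat_lit 313) (nat_lit 282) (nat_lit 185)) (XT.lf (nat_lit 0) (nat_lit 677062084) (nat_lit 684) (nat_lit 3044179246) (nat_lit 760) (nat_lit 9836067717) (nat_lit 241) (nat_lit 5) (nat_lit 250) (nat_lit 5) (nat_lit 251) (nat_lit 5) (nat_lit 314) (nat_lit 282) (nat_lit 184)))) (XT.nd (nat_lit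 78) (nat_lit 1292) (nat_lit 0) (XT.lf (nat_lit 0) (nat_lit 6735604871) (nat_lit 760) (nat_lit 2711509470) (nat_lit 76) (nat_lit 4343885281) (nat_lit 241) (nat_lit 5) (nat_lit 251) (nat_lit 5) (nat_lit 242) (nat_lit 5) (nat_lit 315) (nat_lit 282) (nat_lit 183)) (XT.nd (nat_lit 78) (nat_lit 608) (nat_lit 0) (XT.lf (nat_lit 0) (nat_lit 7815966086) (nat_lit 684) (nat_lit 2070113758) (nat_lit 760) (nat_lit 4144727306) (nat_lit 232) (nat_lit 5) (nat_lit 241) (nat_lit 5) (nat_lit 242) (nat_lit 5) (nat_lit 316) (nat_lit 282) (nat_lit 182)) (XT.lf (nat_lit 0) (nat_lit 4412285303) (nat_lit 608) (nat_lit 8776934195) (nat_lit 684) (nat_lit 1087445662) (nat_lit 224) (nat_lit 5) (nat_lit 232) (nat_lit 5) (nat_lit 233) (nat_lit 5) (nat_lit 317) (nat_lit 282) (nat_lit 181))))) (XT.nd (nat_lit 234) (nat_lit 1748) (nat_lit 0) (XT.nd (nat_lit 78) (nat_lit 532) (nat_lit 0) (XT.lf (nat_lit 0) (nat_lit 869747822) (nat_lit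 608) (nat_lit 1202129885) (nat_lit 684) (nat_lit 12457024627) (nat_lit 215) (nat_lit 5) (nat_lit 223) (nat_lit 5) (nat_lit 224) (nat_lit 5) (nat_lit 318) (nat_lit 282) (nat_lit 180)) (XT.nd (nat_lit 78) (nat_lit 532) (nat_lit 0) (XT.lf (nat_lit 0) (nat_lit 5397413640) (nat_lit 684) (nat_lit 2805412575) (nat_lit 76) (nat_lit 6584030310) (nat_lit 215) (nat_lit 5) (nat_lit 224) (nat_lit 5) (nat_lit 216) (nat_lit 5) (nat_lit 319) (nat_lit 282) (nat_lit 179)) (XT.lf (nat_lit 0) (nat_lit 8449140260) (nat_lit 532) (nat_lit 413156348) (nat_lit 608) (nat_lit 6189478402) (nat_lit 208) (nat_lit 5) (nat_lit 215) (nat_lit 5) (nat_lit 216) (nat_lit 5) (nat_lit 320) (nat_lit 282) (nat_lit 178)))) (XT.nd (nat_lit 156) (nat_lit 532) (nat_lit 0) (XT.nd (nat_lit 78) (nat_lit 608) (nat_lit 0) (XT.lf (nat_lit 0) (nat_lit 4740534498) (nat_lit 608) (nat_lit 7767076330) (nat_lit 684) (nat_lit 2815517309) (nat_lit 200)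 (nat_lit 5) (nat_lit 208) (nat_lit 5) (nat_lit 209) (nat_lit 5) (nat_lit 321) (nat_lit 282) (nat_lit 177)) (XT.lf (nat_lit 0) (nat_lit 683418620) (nat_lit 608) (nat_lit 14713743791) (nat_lit 76) (nat_lit 204741611) (nat_lit 192) (nat_lit 5) (nat_lit 200) (nat_lit 5) (nat_lit 193) (nat_lit 5) (nat_lit 322) (nat_lit 282) (nat_lit 176))) (XT.nd (nat_lit 78) (nat_lit 532) (nat_lit 0) (XT.lf (nat_lit 0) (nat_lit 4351349314) (nat_lit 608) (nat_lit 3138379986) (nat_lit 76) (nat_lit 8396911610) (nat_lit 192) (nat_lit 5) (nat_lit 200) (nat_lit 5) (nat_lit 193) (nat_lit 5) (nat_lit 323) (nat_lit 282) (nat_lit 175)) (XT.lf (nat_lit 0) (nat_lit 8170109367) (nat_lit 608) (nat_lit 7309802184) (nat_lit 76) (nat_lit 699207583) (nat_lit 185) (nat_lit 5) (nat_lit 193) (nat_lit 5) (nat_lit 186) (nat_lit 5) (nat_lit 324) (nat_lit 282) (nat_lit 174)))))) (XT.nd (nat_lit 546) (nat_lit 2128) (nat_lit 0) (XT.nd (nat_lit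 234) (nat_lit 1444) (nat_lit 0) (XT.nd (nat_lit 78) (nat_lit 608) (nat_lit 0) (XT.lf (nat_lit 0) (nat_lit 4786212894) (nat_lit 532) (nat_lit 7398784771) (nat_lit 608) (nat_lit 4293757348) (nat_lit 178) (nat_lit 5) (nat_lit 185) (nat_lit 5) (nat_lit 186) (nat_lit 5) (nat_lit 325) (nat_lit 282) (nat_lit 173)) (XT.nd (nat_lit 78) (nat_lit 76) (nat_lit 0) (XT.lf (nat_lit 0) (nat_lit 532887480) (nat_lit 532) (nat_lit 15826171991) (nat_lit 608) (nat_lit 427560156) (nat_lit 171) (nat_lit 5) (nat_lit 178) (nat_lit 5) (nat_lit 179) (nat_lit 5) (nat_lit 326) (nat_lit 282) (nat_lit 172)) (XT.lf (nat_lit 0) (nat_lit 3616923879) (nat_lit 608) (nat_lit 3916487647) (nat_lit 76) (nat_lit 9567682173) (nat_lit 170) (nat_lit 5) (nat_lit 178) (nat_lit 5) (nat_lit 171) (nat_lit 5) (nat_lit 327) (nat_lit 282) (nat_lit 171)))) (XT.nd (nat_lit 156) (nat_lit 532) (nat_lit 0) (XT.nd (nat_lit 78) (nat_lit 456) (nat_lit 0)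 (XT.lf (nat_lit 0) (nat_lit 7821797905) (nat_lit 532) (nat_lit 8552274799) (nat_lit 76) (nat_lit 1049988595) (nat_lit 164) (nat_lit 5) (nat_lit 171) (nat_lit 5) (nat_lit 165) (nat_lit 5) (nat_lit 328) (nat_lit 282) (nat_lit 170)) (XT.lf (nat_lit 0) (nat_lit 4321681060) (nat_lit 456) (nat_lit 7916939284) (nat_lit 532) (nat_lit 5516394274) (nat_lit 158) (nat_lit 5) (nat_lit 164) (nat_lit 5) (nat_lit 165) (nat_lit 5) (nat_lit 329) (nat_lit 282) (nat_lit 169))) (XT.nd (nat_lit 78) (nat_lit 532) (nat_lit 0) (XT.lf (nat_lit 0) (nat_lit 16832447308) (nat_lit 532) (nat_lit 426866298) (nat_lit 76) (nat_lit 835705297) (nat_lit 158) (nat_lit 5) (nat_lit 165) (nat_lit 5) (nat_lit 159) (nat_lit 5) (nat_lit 330) (nat_lit 282) (nat_lit 168)) (XT.lf (nat_lit 0) (nat_lit 3198061774) (nat_lit 532) (nat_lit 5400476757) (nat_lit 76) (nat_lit 9843889548) (nat_lit 151) (nat_lit 5) (nat_lit 158) (nat_lit 5) (nat_lit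 152) (nat_lit 5) (nat_lit 331) (nat_lit 282) (nat_lit 167))))) (XT.nd (nat_lit 234) (nat_lit 1292) (nat_lit 0) (XT.nd (nat_lit 78) (nat_lit 380) (nat_lit 0) (XT.lf (nat_lit 0) (nat_lit 7815863092) (nat_lit 532) (nat_lit 10606950143) (nat_lit 76) (nat_lit 376480760) (nat_lit 145) (nat_lit 5) (nat_lit 152) (nat_lit 5) (nat_lit 146) (nat_lit 5) (nat_lit 332) (nat_lit 282) (nat_lit 166)) (XT.nd (nat_lit 78) (nat_lit 0) (nat_lit 0) (XT.lf (nat_lit 0) (nat_lit 3058560960) (nat_lit 380) (nat_lit 9609976079) (nat_lit 456) (nat_lit 6496413172) (nat_lit 140) (nat_lit 5) (nat_lit 145) (nat_lit 5) (nat_lit 146) (nat_lit 5) (nat_lit 333) (nat_lit 282) (nat_lit 165)) (XT.lf (nat_lit 0) (nat_lit 17255079527) (nat_lit 380) (nat_lit 466091575) (nat_lit 456) (nat_lit 1819328181) (nat_lit 140) (nat_lit 5) (nat_lit 145) (nat_lit 5) (nat_lit 146) (nat_lit 5) (nat_lit 334) (nat_lit 282) (nat_lit 164)))) (XT.nd (nat_lit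 156) (nat_lit 380) (nat_lit 0) (XT.nd (nat_lit 78) (nat_lit 380) (nat_lit 0) (XT.lf (nat_lit 0) (nat_lit 3078703563) (nat_lit 532) (nat_lit 7919169520) (nat_lit 76) (nat_lit 8926663598) (nat_lit 133) (nat_lit 5) (nat_lit 140) (nat_lit 5) (nat_lit 134) (nat_lit 5) (nat_lit 335) (nat_lit 282) (nat_lit 163)) (XT.lf (nat_lit 0) (nat_lit 6482406826) (nat_lit 380) (nat_lit 1660682400) (nat_lit 456) (nat_lit 12175892801) (nat_lit 128) (nat_lit 5) (nat_lit 133) (nat_lit 5) (nat_lit 134) (nat_lit 5) (nat_lit 336) (nat_lit 282) (nat_lit 162))) (XT.nd (nat_lit 78) (nat_lit 0) (nat_lit 0) (XT.lf (nat_lit 0) (nat_lit 633016291) (nat_lit 380) (nat_lit 12819668144) (nat_lit 456) (nat_lit 7270720401) (nat_lit 123) (nat_lit 5) (nat_lit 128) (nat_lit 5) (nat_lit 129) (nat_lit 5) (nat_lit 337) (nat_lit 282) (nat_lit 161)) (XT.lf (nat_lit 0) (nat_lit 15691708316) (nat_lit 380) (nat_lit 3318473684) (nat_lit 456) (nat_lit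 2128015421) (nat_lit 123) (nat_lit 5) (nat_lit 128) (nat_lit 5) (nat_lit 129) (nat_lit 5) (nat_lit 338) (nat_lit 282) (nat_lit 160))))))))
noncomputable def xc89 : XT := (XT.nd (nat_lit 36738) (nat_lit 0) (nat_lit 13528) (XT.nd (nat_lit 1014) (nat_lit 1368) (nat_lit 0) (XT.nd (nat_lit 468) (nat_lit 1596) (nat_lit 0) (XT.nd (nat_lit 234) (nat_lit 760) (nat_lit 0) (XT.nd (nat_lit 78) (nat_lit 380) (nat_lit 0) (XT.lf (nat_lit 0) (nat_lit 3217205818) (nat_lit 456) (nat_lit 11885620113) (nat_lit 76) (nat_lit 6460409344) (nat_lit 117) (nat_lit 5) (nat_lit 123) (nat_lit 5) (nat_lit 118) (nat_lit 5) (nat_lit 339) (nat_lit 282) (nat_lit 159)) (XT.nd (nat_lit 78) (nat_lit 0) (nat_lit 0) (XT.lf (nat_lit 0) (nat_lit 3313920717) (nat_lit 380) (nat_lit 5445427070) (nat_lit 456) (nat_lit 13240094314) (nat_lit 112) (nat_lit 5) (nat_lit 117) (nat_lit 5) (nat_lit 118) (nat_lit 5) (nat_lit 340) (nat_lit 282) (nat_lit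 158)) (XT.lf (nat_lit 0) (nat_lit 14562770293) (nat_lit 456) (nat_lit 3367230492) (nat_lit 76) (nat_lit 4516842438) (nat_lit 112) (nat_lit 5) (nat_lit 118) (nat_lit 5) (nat_lit 113) (nat_lit 5) (nat_lit 341) (nat_lit 282) (nat_lit 157)))) (XT.nd (nat_lit 78) (nat_lit 456) (nat_lit 0) (XT.lf (nat_lit 0) (nat_lit 12516519619) (nat_lit 304) (nat_lit 8126616802) (nat_lit 380) (nat_lit 2262481309) (nat_lit 108) (nat_lit 5) (nat_lit 112) (nat_lit 5) (nat_lit 113) (nat_lit 5) (nat_lit 342) (nat_lit 282) (nat_lit 156)) (XT.nd (nat_lit 78) (nat_lit 0) (nat_lit 0) (XT.lf (nat_lit 0) (nat_lit 3539288583) (nat_lit 456) (nat_lit 17816570761) (nat_lit 76) (nat_lit 2020689860) (nat_lit 102) (nat_lit 5) (nat_lit 108) (nat_lit 5) (nat_lit 103) (nat_lit 5) (nat_lit 343) (nat_lit 282) (nat_lit 155)) (XT.lf (nat_lit 0) (nat_lit 9595352000) (nat_lit 456) (nat_lit 1821984615) (nat_lit 76) (nat_lit 12441760886) (nat_lit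 102) (nat_lit 5) (nat_lit 108) (nat_lit 5) (nat_lit 103) (nat_lit 5) (nat_lit 344) (nat_lit 282) (nat_lit 154))))) (XT.nd (nat_lit 234) (nat_lit 912) (nat_lit 0) (XT.nd (nat_lit 78) (nat_lit 380) (nat_lit 0) (XT.lf (nat_lit 0) (nat_lit 14825936195) (nat_lit 304) (nat_lit 1089431752) (nat_lit 380) (nat_lit 8439116218) (nat_lit 98) (nat_lit 5) (nat_lit 102) (nat_lit 5) (nat_lit 103) (nat_lit 5) (nat_lit 345) (nat_lit 282) (nat_lit 153)) (XT.nd (nat_lit 78) (nat_lit 76) (nat_lit 0) (XT.lf (nat_lit 0) (nat_lit 7144530246) (nat_lit 304) (nat_lit 15387502946) (nat_lit 380) (nat_lit 2330565380) (nat_lit 94) (nat_lit 5) (nat_lit 98) (nat_lit 5) (nat_lit 99) (nat_lit 5) (nat_lit 346) (nat_lit 282) (nat_lit 152)) (XT.lf (nat_lit 0) (nat_lit 3967982338) (nat_lit 380) (nat_lit 990561840) (nat_lit 76) (nat_lit 20425730770) (nat_lit 93) (nat_lit 5) (nat_lit 98) (nat_lit 5) (nat_lit 94) (nat_lit 5) (nat_lit 347)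 (nat_lit 282) (nat_lit 151)))) (XT.nd (nat_lit 156) (nat_lit 304) (nat_lit 0) (XT.nd (nat_lit 78) (nat_lit 304) (nat_lit 0) (XT.lf (nat_lit 0) (nat_lit 10555723303) (nat_lit 380) (nat_lit 9539317776) (nat_lit 76) (nat_lit 5823621013) (nat_lit 89) (nat_lit 5) (nat_lit 94) (nat_lit 5) (nat_lit 90) (nat_lit 5) (nat_lit 348) (nat_lit 282) (nat_lit 150)) (XT.lf (nat_lit 0) (nat_lit 7864919557) (nat_lit 304) (nat_lit 9554176589) (nat_lit 380) (nat_lit 9048431097) (nat_lit 85) (nat_lit 5) (nat_lit 89) (nat_lit 5) (nat_lit 90) (nat_lit 5) (nat_lit 349) (nat_lit 282) (nat_lit 149))) (XT.nd (nat_lit 78) (nat_lit 304) (nat_lit 0) (XT.lf (nat_lit 0) (nat_lit 24549123101) (nat_lit 380) (nat_lit 1138470727) (nat_lit 76) (nat_lit 1344055662) (nat_lit 85) (nat_lit 5) (nat_lit 90) (nat_lit 5) (nat_lit 86) (nat_lit 5) (nat_lit 350) (nat_lit 282) (nat_lit 148)) (XT.lf (nat_lit 0) (nat_lit 4387077783) (nat_lit 304)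 (nat_lit 10649112429) (nat_lit 76) (nat_lit 12572698076) (nat_lit 81) (nat_lit 5) (nat_lit 85) (nat_lit 5) (nat_lit 82) (nat_lit 5) (nat_lit 351) (nat_lit 282) (nat_lit 147)))))) (XT.nd (nat_lit 468) (nat_lit 228) (nat_lit 0) (XT.nd (nat_lit 234) (nat_lit 608) (nat_lit 0) (XT.nd (nat_lit 78) (nat_lit 228) (nat_lit 0) (XT.lf (nat_lit 0) (nat_lit 7475499183) (nat_lit 304) (nat_lit 3997784799) (nat_lit 380) (nat_lit 16728952974) (nat_lit 77) (nat_lit 5) (nat_lit 81) (nat_lit 5) (nat_lit 82) (nat_lit 5) (nat_lit 352) (nat_lit 282) (nat_lit 146)) (XT.nd (nat_lit 78) (nat_lit 228) (nat_lit 0) (XT.lf (nat_lit 0) (nat_lit 18880516466) (nat_lit 380) (nat_lit 2589712095) (nat_lit 76) (nat_lit 7340994283) (nat_lit 77) (nat_lit 5) (nat_lit 82) (nat_lit 5) (nat_lit 78) (nat_lit 5) (nat_lit 353) (nat_lit 282) (nat_lit 145)) (XT.lf (nat_lit 0) (nat_lit 16259444848) (nat_lit 228) (nat_lit 10371112474) (nat_lit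 304) (nat_lit 2805514560) (nat_lit 74) (nat_lit 5) (nat_lit 77) (nat_lit 5) (nat_lit 78) (nat_lit 5) (nat_lit 354) (nat_lit 282) (nat_lit 144)))) (XT.nd (nat_lit 78) (nat_lit 228) (nat_lit 0) (XT.lf (nat_lit 0) (nat_lit 4524197621) (nat_lit 380) (nat_lit 24429129923) (nat_lit 76) (nat_lit 1124750878) (nat_lit 69) (nat_lit 5) (nat_lit 74) (nat_lit 5) (nat_lit 70) (nat_lit 5) (nat_lit 355) (nat_lit 282) (nat_lit 143)) (XT.nd (nat_lit 78) (nat_lit 228) (nat_lit 0) (XT.lf (nat_lit 0) (nat_lit 12183746339) (nat_lit 380) (nat_lit 5624853353) (nat_lit 76) (nat_lit 12927418345) (nat_lit 69) (nat_lit 5) (nat_lit 74) (nat_lit 5) (nat_lit 70) (nat_lit 5) (nat_lit 356) (nat_lit 282) (nat_lit 142)) (XT.lf (nat_lit 0) (nat_lit 13908252234) (nat_lit 228) (nat_lit 6244070025) (nat_lit 304) (nat_lit 11259793614) (nat_lit 66) (nat_lit 5) (nat_lit 69) (nat_lit 5) (nat_lit 70) (nat_lit 5) (nat_lit 357) (nat_lit 282)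 (nat_lit 141))))) (XT.nd (nat_lit 34944) (nat_lit 0) (nat_lit 27512) (XT.nd (nat_lit 34788) (nat_lit 0) (nat_lit 28880) (XT.lf (nat_lit 0) (nat_lit 1967768977) (nat_lit 228) (nat_lit 26469232775) (nat_lit 304) (nat_lit 3669958668) (nat_lit 63) (nat_lit 5) (nat_lit 66) (nat_lit 5) (nat_lit 67) (nat_lit 5) (nat_lit 358) (nat_lit 282) (nat_lit 140)) (XT.nd (nat_lit 78) (nat_lit 0) (nat_lit 0) (XT.lf (nat_lit 0) (nat_lit 3248369124) (nat_lit 1444) (nat_lit 560767527) (nat_lit 1444) (nat_lit 560767527) (nat_lit 443) (nat_lit 3) (nat_lit 462) (nat_lit 3) (nat_lit 462) (nat_lit 5) (nat_lit 283) (nat_lit 283) (nat_lit 214)) (XT.lf (nat_lit 76) (nat_lit 4861619378) (nat_lit 0) (nat_lit 3123249179) (nat_lit 1444) (nat_lit 856833385) (nat_lit 444) (nat_lit 5) (nat_lit 443) (nat_lit 3) (nat_lit 462) (nat_lit 5) (nat_lit 284) (nat_lit 283) (nat_lit 213)))) (XT.nd (nat_lit 156) (nat_lit 0) (nat_lit 76) (XT.nd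 (nat_lit 78) (nat_lit 0) (nat_lit 0) (XT.lf (nat_lit 0) (nat_lit 541197769) (nat_lit 1444) (nat_lit 6868842281) (nat_lit 1520) (nat_lit 1537037401) (nat_lit 425) (nat_lit 5) (nat_lit 444) (nat_lit 5) (nat_lit 445) (nat_lit 5) (nat_lit 285) (nat_lit 283) (nat_lit 212)) (XT.lf (nat_lit 0) (nat_lit 1965544941) (nat_lit 1444) (nat_lit 738090049) (nat_lit 1520) (nat_lit 6351997275) (nat_lit 425) (nat_lit 5) (nat_lit 444) (nat_lit 5) (nat_lit 445) (nat_lit 5) (nat_lit 286) (nat_lit 283) (nat_lit 211))) (XT.nd (nat_lit 78) (nat_lit 0) (nat_lit 0) (XT.lf (nat_lit 0) (nat_lit 3432863940) (nat_lit 1444) (nat_lit 3559919766) (nat_lit 1520) (nat_lit 2174705317) (nat_lit 426) (nat_lit 5) (nat_lit 445) (nat_lit 5) (nat_lit 446) (nat_lit 5) (nat_lit 287) (nat_lit 283) (nat_lit 210)) (XT.lf (nat_lit 76) (nat_lit 2861642226) (nat_lit 0) (nat_lit 2075119453) (nat_lit 1520) (nat_lit 4346137293) (nat_lit 427) (nat_lit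 5) (nat_lit 426) (nat_lit 5) (nat_lit 446) (nat_lit 5) (nat_lit 288) (nat_lit 283) (nat_lit 209))))))) (XT.nd (nat_lit 1014) (nat_lit 9880) (nat_lit 0) (XT.nd (nat_lit 468) (nat_lit 2812) (nat_lit 0) (XT.nd (nat_lit 234) (nat_lit 0) (nat_lit 0) (XT.nd (nat_lit 78) (nat_lit 1444) (nat_lit 0) (XT.lf (nat_lit 76) (nat_lit 75165332) (nat_lit 0) (nat_lit 6407033105) (nat_lit 1520) (nat_lit 2919691591) (nat_lit 428) (nat_lit 5) (nat_lit 427) (nat_lit 5) (nat_lit 447) (nat_lit 5) (nat_lit 289) (nat_lit 283) (nat_lit 208)) (XT.nd (nat_lit 78) (nat_lit 1444) (nat_lit 0) (XT.lf (nat_lit 76) (nat_lit 6811254572) (nat_lit 0) (nat_lit 1273482222) (nat_lit 1520) (nat_lit 1439545128) (nat_lit 428) (nat_lit 5) (nat_lit 427) (nat_lit 5) (nat_lit 447) (nat_lit 5) (nat_lit 290) (nat_lit 283) (nat_lit 207)) (XT.lf (nat_lit 0) (nat_lit 91469212) (nat_lit 1520) (nat_lit 5553353858) (nat_lit 1596) (nat_lit 4005403564)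 (nat_lit 408) (nat_lit 5) (nat_lit 428) (nat_lit 5) (nat_lit 429) (nat_lit 5) (nat_lit 291) (nat_lit 283) (nat_lit 206)))) (XT.nd (nat_lit 78) (nat_lit 0) (nat_lit 76) (XT.lf (nat_lit 76) (nat_lit 1338485968) (nat_lit 0) (nat_lit 301893589) (nat_lit 1596) (nat_lit 8139591749) (nat_lit 409) (nat_lit 5) (nat_lit 408) (nat_lit 5) (nat_lit 429) (nat_lit 5) (nat_lit 292) (nat_lit 283) (nat_lit 205)) (XT.nd (nat_lit 78) (nat_lit 0) (nat_lit 76) (XT.lf (nat_lit 0) (nat_lit 3264302118) (nat_lit 1520) (nat_lit 1463727186) (nat_lit 1596) (nat_lit 5185049277) (nat_lit 409) (nat_lit 5) (nat_lit 429) (nat_lit 5) (nat_lit 430) (nat_lit 5) (nat_lit 293) (nat_lit 283) (nat_lit 204)) (XT.lf (nat_lit 0) (nat_lit 4939970576) (nat_lit 1520) (nat_lit 4287761048) (nat_lit 1596) (nat_lit 822426845) (nat_lit 410) (nat_lit 5) (nat_lit 430) (nat_lit 5) (nat_lit 431) (nat_lit 5) (nat_lit 294) (nat_lit 283) (nat_lit 203)))))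 (XT.nd (nat_lit 234) (nat_lit 2964) (nat_lit 0) (XT.nd (nat_lit 78) (nat_lit 0) (nat_lit 76) (XT.lf (nat_lit 76) (nat_lit 3012475703) (nat_lit 0) (nat_lit 3673857175) (nat_lit 1596) (nat_lit 3504648197) (nat_lit 411) (nat_lit 5) (nat_lit 410) (nat_lit 5) (nat_lit 431) (nat_lit 5) (nat_lit 295) (nat_lit 283) (nat_lit 202)) (XT.nd (nat_lit 78) (nat_lit 0) (nat_lit 0) (XT.lf (nat_lit 76) (nat_lit 214333304) (nat_lit 0) (nat_lit 8275009314) (nat_lit 1596) (nat_lit 1846638278) (nat_lit 412) (nat_lit 5) (nat_lit 411) (nat_lit 5) (nat_lit 432) (nat_lit 5) (nat_lit 296) (nat_lit 283) (nat_lit 201)) (XT.lf (nat_lit 76) (nat_lit 7872847475) (nat_lit 0) (nat_lit 2507939385) (nat_lit 1596) (nat_lit 103893535) (nat_lit 412) (nat_lit 5) (nat_lit 411) (nat_lit 5) (nat_lit 432) (nat_lit 5) (nat_lit 297) (nat_lit 283) (nat_lit 200)))) (XT.nd (nat_lit 156) (nat_lit 1520) (nat_lit 0) (XT.nd (nat_lit 78) (nat_lit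 0) (nat_lit 0) (XT.lf (nat_lit 0) (nat_lit 1687167011) (nat_lit 1596) (nat_lit 5509684946) (nat_lit 1672) (nat_lit 3440439874) (nat_lit 391) (nat_lit 5) (nat_lit 412) (nat_lit 5) (nat_lit 413) (nat_lit 5) (nat_lit 298) (nat_lit 283) (nat_lit 199)) (XT.lf (nat_lit 76) (nat_lit 2324244770) (nat_lit 0) (nat_lit 1219096243) (nat_lit 1672) (nat_lit 7250904793) (nat_lit 392) (nat_lit 5) (nat_lit 391) (nat_lit 5) (nat_lit 413) (nat_lit 5) (nat_lit 299) (nat_lit 283) (nat_lit 198))) (XT.nd (nat_lit 78) (nat_lit 1596) (nat_lit 0) (XT.lf (nat_lit 0) (nat_lit 5488881998) (nat_lit 1596) (nat_lit 548687228) (nat_lit 76) (nat_lit 4917698348) (nat_lit 392) (nat_lit 5) (nat_lit 413) (nat_lit 5) (nat_lit 393) (nat_lit 5) (nat_lit 300) (nat_lit 283) (nat_lit 197)) (XT.lf (nat_lit 0) (nat_lit 7516876580) (nat_lit 1672) (nat_lit 3447918130) (nat_lit 76) (nat_lit 155875392) (nat_lit 371) (nat_lit 5) (nat_lit 393) (nat_lit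 5) (nat_lit 372) (nat_lit 5) (nat_lit 301) (nat_lit 283) (nat_lit 196)))))) (XT.nd (nat_lit 546) (nat_lit 4560) (nat_lit 0) (XT.nd (nat_lit 234) (nat_lit 2432) (nat_lit 0) (XT.nd (nat_lit 78) (nat_lit 1216) (nat_lit 0) (XT.lf (nat_lit 0) (nat_lit 4851372939) (nat_lit 1672) (nat_lit 4795909107) (nat_lit 1748) (nat_lit 1642952168) (nat_lit 349) (nat_lit 5) (nat_lit 371) (nat_lit 5) (nat_lit 372) (nat_lit 5) (nat_lit 302) (nat_lit 283) (nat_lit 195)) (XT.nd (nat_lit 78) (nat_lit 0) (nat_lit 0) (XT.lf (nat_lit 0) (nat_lit 385035055) (nat_lit 1216) (nat_lit 9498704780) (nat_lit 76) (nat_lit 1580860706) (nat_lit 333) (nat_lit 5) (nat_lit 349) (nat_lit 5) (nat_lit 334) (nat_lit 5) (nat_lit 303) (nat_lit 283) (nat_lit 194)) (XT.lf (nat_lit 0) (nat_lit 2494984433) (nat_lit 1216) (nat_lit 1005213729) (nat_lit 76) (nat_lit 8142942203) (nat_lit 333) (nat_lit 5) (nat_lit 349) (nat_lit 5) (nat_lit 334) (nat_lit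 5) (nat_lit 304) (nat_lit 283) (nat_lit 193)))) (XT.nd (nat_lit 156) (nat_lit 760) (nat_lit 0) (XT.nd (nat_lit 78) (nat_lit 836) (nat_lit 0) (XT.lf (nat_lit 0) (nat_lit 4707580895) (nat_lit 912) (nat_lit 4030013858) (nat_lit 76) (nat_lit 3088682405) (nat_lit 322) (nat_lit 5) (nat_lit 334) (nat_lit 5) (nat_lit 323) (nat_lit 5) (nat_lit 305) (nat_lit 283) (nat_lit 192)) (XT.lf (nat_lit 0) (nat_lit 4872408276) (nat_lit 836) (nat_lit 2145080918) (nat_lit 912) (nat_lit 4996827122) (nat_lit 311) (nat_lit 5) (nat_lit 322) (nat_lit 5) (nat_lit 323) (nat_lit 5) (nat_lit 306) (nat_lit 283) (nat_lit 191))) (XT.nd (nat_lit 78) (nat_lit 0) (nat_lit 0) (XT.lf (nat_lit 0) (nat_lit 1854608911) (nat_lit 760) (nat_lit 7581541550) (nat_lit 836) (nat_lit 2771083228) (nat_lit 301) (nat_lit 5) (nat_lit 311) (nat_lit 5) (nat_lit 312) (nat_lit 5) (nat_lit 307) (nat_lit 283) (nat_lit 190)) (XT.lf (nat_lit 0) (nat_lit 11175725464)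 (nat_lit 760) (nat_lit 784753211) (nat_lit 836) (nat_lit 444823158) (nat_lit 301) (nat_lit 5) (nat_lit 311) (nat_lit 5) (nat_lit 312) (nat_lit 5) (nat_lit 308) (nat_lit 283) (nat_lit 189))))) (XT.nd (nat_lit 234) (nat_lit 2128) (nat_lit 0) (XT.nd (nat_lit 78) (nat_lit 1520) (nat_lit 0) (XT.lf (nat_lit 0) (nat_lit 1991004987) (nat_lit 912) (nat_lit 4414999359) (nat_lit 76) (nat_lit 6201771054) (nat_lit 289) (nat_lit 5) (nat_lit 301) (nat_lit 5) (nat_lit 290) (nat_lit 5) (nat_lit 309) (nat_lit 283) (nat_lit 188)) (XT.nd (nat_lit 78) (nat_lit 760) (nat_lit 0) (XT.lf (nat_lit 0) (nat_lit 4516612689) (nat_lit 836) (nat_lit 7690683716) (nat_lit 76) (nat_lit 608536466) (nat_lit 279) (nat_lit 5) (nat_lit 290) (nat_lit 5) (nat_lit 280) (nat_lit 5) (nat_lit 310) (nat_lit 283) (nat_lit 187)) (XT.lf (nat_lit 0) (nat_lit 1936411590) (nat_lit 760) (nat_lit 5239518026) (nat_lit 836) (nat_lit 5853066414) (nat_lit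 269) (nat_lit 5) (nat_lit 279) (nat_lit 5) (nat_lit 280) (nat_lit 5) (nat_lit 311) (nat_lit 283) (nat_lit 186)))) (XT.nd (nat_lit 156) (nat_lit 1444) (nat_lit 0) (XT.nd (nat_lit 78) (nat_lit 684) (nat_lit 0) (XT.lf (nat_lit 0) (nat_lit 9953093483) (nat_lit 836) (nat_lit 1331288047) (nat_lit 76) (nat_lit 1963433323) (nat_lit 269) (nat_lit 5) (nat_lit 280) (nat_lit 5) (nat_lit 270) (nat_lit 5) (nat_lit 312) (nat_lit 283) (nat_lit 185)) (XT.lf (nat_lit 0) (nat_lit 8775282150) (nat_lit 684) (nat_lit 4104119199) (nat_lit 760) (nat_lit 592501786) (nat_lit 260) (nat_lit 5) (nat_lit 269) (nat_lit 5) (nat_lit 270) (nat_lit 5) (nat_lit 313) (nat_lit 283) (nat_lit 184))) (XT.nd (nat_lit 78) (nat_lit 684) (nat_lit 0) (XT.lf (nat_lit 0) (nat_lit 2203009926) (nat_lit 760) (nat_lit 8192347187) (nat_lit 76) (nat_lit 3306273750) (nat_lit 250) (nat_lit 5) (nat_lit 260) (nat_lit 5) (nat_lit 251) (nat_lit 5) (nat_lit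 314) (nat_lit 283) (nat_lit 183)) (XT.lf (nat_lit 0) (nat_lit 2116583930) (nat_lit 684) (nat_lit 3005798513) (nat_lit 760) (nat_lit 8814848591) (nat_lit 241) (nat_lit 5) (nat_lit 250) (nat_lit 5) (nat_lit 251) (nat_lit 5) (nat_lit 315) (nat_lit 283) (nat_lit 182))))))))
noncomputable def xc90 : XT := (XT.nd (nat_lit 2028) (nat_lit 3268) (nat_lit 0) (XT.nd (nat_lit 1014) (nat_lit 4408) (nat_lit 0) (XT.nd (nat_lit 468) (nat_lit 2888) (nat_lit 0) (XT.nd (nat_lit 234) (nat_lit 1140) (nat_lit 0) (XT.nd (nat_lit 78) (nat_lit 1368) (nat_lit 0) (XT.lf (nat_lit 0) (nat_lit 8190436135) (nat_lit 760) (nat_lit 1389781813) (nat_lit 76) (nat_lit 4598478530) (nat_lit 241) (nat_lit 5) (nat_lit 251) (nat_lit 5) (nat_lit 242) (nat_lit 5) (nat_lit 316) (nat_lit 283) (nat_lit 181)) (XT.nd (nat_lit 78) (nat_lit 684) (nat_lit 0) (XT.lf (nat_lit 0) (nat_lit 9430754817) (nat_lit 684) (nat_lit 1977144180) (nat_lit 760)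 (nat_lit 3018378243) (nat_lit 232) (nat_lit 5) (nat_lit 241) (nat_lit 5) (nat_lit 242) (nat_lit 5) (nat_lit 317) (nat_lit 283) (nat_lit 180)) (XT.lf (nat_lit 0) (nat_lit 102974638) (nat_lit 684) (nat_lit 8754110452) (nat_lit 76) (nat_lit 5822954732) (nat_lit 223) (nat_lit 5) (nat_lit 232) (nat_lit 5) (nat_lit 224) (nat_lit 5) (nat_lit 318) (nat_lit 283) (nat_lit 179)))) (XT.nd (nat_lit 78) (nat_lit 532) (nat_lit 0) (XT.lf (nat_lit 0) (nat_lit 2272072873) (nat_lit 608) (nat_lit 1044055574) (nat_lit 684) (nat_lit 11624121725) (nat_lit 215) (nat_lit 5) (nat_lit 223) (nat_lit 5) (nat_lit 224) (nat_lit 5) (nat_lit 319) (nat_lit 283) (nat_lit 178)) (XT.nd (nat_lit 78) (nat_lit 532) (nat_lit 0) (XT.lf (nat_lit 0) (nat_lit 6708224285) (nat_lit 684) (nat_lit 1530845463) (nat_lit 76) (nat_lit 6967562919) (nat_lit 215) (nat_lit 5) (nat_lit 224) (nat_lit 5) (nat_lit 216) (nat_lit 5) (nat_lit 320) (nat_lit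 283) (nat_lit 177)) (XT.lf (nat_lit 0) (nat_lit 10039300185) (nat_lit 532) (nat_lit 212969443) (nat_lit 608) (nat_lit 5227749569) (nat_lit 208) (nat_lit 5) (nat_lit 215) (nat_lit 5) (nat_lit 216) (nat_lit 5) (nat_lit 321) (nat_lit 283) (nat_lit 176))))) (XT.nd (nat_lit 234) (nat_lit 1672) (nat_lit 0) (XT.nd (nat_lit 78) (nat_lit 608) (nat_lit 0) (XT.lf (nat_lit 0) (nat_lit 6219323186) (nat_lit 608) (nat_lit 7764897129) (nat_lit 684) (nat_lit 1775771150) (nat_lit 200) (nat_lit 5) (nat_lit 208) (nat_lit 5) (nat_lit 209) (nat_lit 5) (nat_lit 322) (nat_lit 283) (nat_lit 175)) (XT.nd (nat_lit 78) (nat_lit 0) (nat_lit 0) (XT.lf (nat_lit 0) (nat_lit 1791297032) (nat_lit 608) (nat_lit 13804095006) (nat_lit 76) (nat_lit 452057364) (nat_lit 192) (nat_lit 5) (nat_lit 200) (nat_lit 5) (nat_lit 193) (nat_lit 5) (nat_lit 323) (nat_lit 283) (nat_lit 174)) (XT.lf (nat_lit 0) (nat_lit 5537594506) (nat_lit 608)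 (nat_lit 1920821580) (nat_lit 76) (nat_lit 8882967992) (nat_lit 192) (nat_lit 5) (nat_lit 200) (nat_lit 5) (nat_lit 193) (nat_lit 5) (nat_lit 324) (nat_lit 283) (nat_lit 173)))) (XT.nd (nat_lit 156) (nat_lit 608) (nat_lit 0) (XT.nd (nat_lit 78) (nat_lit 532) (nat_lit 0) (XT.lf (nat_lit 0) (nat_lit 9450216228) (nat_lit 608) (nat_lit 6218949565) (nat_lit 76) (nat_lit 973906489) (nat_lit 185) (nat_lit 5) (nat_lit 193) (nat_lit 5) (nat_lit 186) (nat_lit 5) (nat_lit 325) (nat_lit 283) (nat_lit 172)) (XT.lf (nat_lit 0) (nat_lit 6218690393) (nat_lit 532) (nat_lit 7345083384) (nat_lit 608) (nat_lit 3388379992) (nat_lit 178) (nat_lit 5) (nat_lit 185) (nat_lit 5) (nat_lit 186) (nat_lit 5) (nat_lit 326) (nat_lit 283) (nat_lit 171))) (XT.nd (nat_lit 78) (nat_lit 0) (nat_lit 0) (XT.lf (nat_lit 0) (nat_lit 566447845) (nat_lit 608) (nat_lit 15437672187) (nat_lit 76) (nat_lit 1265468500) (nat_lit 170) (nat_lit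 5) (nat_lit 178) (nat_lit 5) (nat_lit 171) (nat_lit 5) (nat_lit 327) (nat_lit 283) (nat_lit 170)) (XT.lf (nat_lit 0) (nat_lit 4697333588) (nat_lit 608) (nat_lit 2771057383) (nat_lit 76) (nat_lit 10125651200) (nat_lit 170) (nat_lit 5) (nat_lit 178) (nat_lit 5) (nat_lit 171) (nat_lit 5) (nat_lit 328) (nat_lit 283) (nat_lit 169)))))) (XT.nd (nat_lit 468) (nat_lit 2128) (nat_lit 0) (XT.nd (nat_lit 234) (nat_lit 912) (nat_lit 0) (XT.nd (nat_lit 78) (nat_lit 912) (nat_lit 0) (XT.lf (nat_lit 0) (nat_lit 9010000627) (nat_lit 532) (nat_lit 7548634813) (nat_lit 76) (nat_lit 1368449248) (nat_lit 164) (nat_lit 5) (nat_lit 171) (nat_lit 5) (nat_lit 165) (nat_lit 5) (nat_lit 329) (nat_lit 283) (nat_lit 168)) (XT.nd (nat_lit 78) (nat_lit 456) (nat_lit 0) (XT.lf (nat_lit 0) (nat_lit 5691094341) (nat_lit 456) (nat_lit 7848509494) (nat_lit 532) (nat_lit 4728775524) (nat_lit 158) (nat_lit 5) (nat_lit 164) (nat_lit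 5) (nat_lit 165) (nat_lit 5) (nat_lit 330) (nat_lit 283) (nat_lit 167)) (XT.lf (nat_lit 0) (nat_lit 791152552) (nat_lit 456) (nat_lit 17459959457) (nat_lit 532) (nat_lit 367892179) (nat_lit 152) (nat_lit 5) (nat_lit 158) (nat_lit 5) (nat_lit 159) (nat_lit 5) (nat_lit 331) (nat_lit 283) (nat_lit 166)))) (XT.nd (nat_lit 78) (nat_lit 836) (nat_lit 0) (XT.lf (nat_lit 0) (nat_lit 4190350864) (nat_lit 532) (nat_lit 4349367706) (nat_lit 76) (nat_lit 10437492437) (nat_lit 151) (nat_lit 5) (nat_lit 158) (nat_lit 5) (nat_lit 152) (nat_lit 5) (nat_lit 332) (nat_lit 283) (nat_lit 165)) (XT.nd (nat_lit 78) (nat_lit 380) (nat_lit 0) (XT.lf (nat_lit 0) (nat_lit 8930375769) (nat_lit 532) (nat_lit 9715658564) (nat_lit 76) (nat_lit 699091174) (nat_lit 145) (nat_lit 5) (nat_lit 152) (nat_lit 5) (nat_lit 146) (nat_lit 5) (nat_lit 333) (nat_lit 283) (nat_lit 164)) (XT.lf (nat_lit 0) (nat_lit 4340195170) (nat_lit 380)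 (nat_lit 9570528098) (nat_lit 456) (nat_lit 5811402194) (nat_lit 140) (nat_lit 5) (nat_lit 145) (nat_lit 5) (nat_lit 146) (nat_lit 5) (nat_lit 334) (nat_lit 283) (nat_lit 163))))) (XT.nd (nat_lit 234) (nat_lit 1216) (nat_lit 0) (XT.nd (nat_lit 78) (nat_lit 912) (nat_lit 0) (XT.lf (nat_lit 0) (nat_lit 18927952671) (nat_lit 380) (nat_lit 161873095) (nat_lit 456) (nat_lit 1019632907) (nat_lit 140) (nat_lit 5) (nat_lit 145) (nat_lit 5) (nat_lit 146) (nat_lit 5) (nat_lit 335) (nat_lit 283) (nat_lit 162)) (XT.nd (nat_lit 78) (nat_lit 380) (nat_lit 0) (XT.lf (nat_lit 0) (nat_lit 3999124733) (nat_lit 532) (nat_lit 6993827885) (nat_lit 76) (nat_lit 9512268579) (nat_lit 133) (nat_lit 5) (nat_lit 140) (nat_lit 5) (nat_lit 134) (nat_lit 5) (nat_lit 336) (nat_lit 283) (nat_lit 161)) (XT.lf (nat_lit 0) (nat_lit 7820928810) (nat_lit 380) (nat_lit 1377822832) (nat_lit 456) (nat_lit 11713096350) (nat_lit 128) (nat_lit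 5) (nat_lit 133) (nat_lit 5) (nat_lit 134) (nat_lit 5) (nat_lit 337) (nat_lit 283) (nat_lit 160)))) (XT.nd (nat_lit 156) (nat_lit 836) (nat_lit 0) (XT.nd (nat_lit 78) (nat_lit 0) (nat_lit 0) (XT.lf (nat_lit 0) (nat_lit 1791803275) (nat_lit 380) (nat_lit 12861696686) (nat_lit 456) (nat_lit 6675200087) (nat_lit 123) (nat_lit 5) (nat_lit 128) (nat_lit 5) (nat_lit 129) (nat_lit 5) (nat_lit 338) (nat_lit 283) (nat_lit 159)) (XT.lf (nat_lit 0) (nat_lit 17269058104) (nat_lit 380) (nat_lit 3085443912) (nat_lit 456) (nat_lit 1401912265) (nat_lit 123) (nat_lit 5) (nat_lit 128) (nat_lit 5) (nat_lit 129) (nat_lit 5) (nat_lit 339) (nat_lit 283) (nat_lit 158))) (XT.nd (nat_lit 78) (nat_lit 380) (nat_lit 0) (XT.lf (nat_lit 0) (nat_lit 4079912943) (nat_lit 456) (nat_lit 11129387684) (nat_lit 76) (nat_lit 6985080731) (nat_lit 117) (nat_lit 5) (nat_lit 123) (nat_lit 5) (nat_lit 118) (nat_lit 5) (nat_lit 340) (nat_lit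 283) (nat_lit 157)) (XT.lf (nat_lit 0) (nat_lit 4508085496) (nat_lit 380) (nat_lit 5265025258) (nat_lit 456) (nat_lit 12870880245) (nat_lit 112) (nat_lit 5) (nat_lit 117) (nat_lit 5) (nat_lit 118) (nat_lit 5) (nat_lit 341) (nat_lit 283) (nat_lit 156))))))) (XT.nd (nat_lit 1014) (nat_lit 608) (nat_lit 0) (XT.nd (nat_lit 468) (nat_lit 1292) (nat_lit 0) (XT.nd (nat_lit 234) (nat_lit 608) (nat_lit 0) (XT.nd (nat_lit 78) (nat_lit 760) (nat_lit 0) (XT.lf (nat_lit 0) (nat_lit 15730929597) (nat_lit 456) (nat_lit 2392568207) (nat_lit 76) (nat_lit 4981722555) (nat_lit 112) (nat_lit 5) (nat_lit 118) (nat_lit 5) (nat_lit 113) (nat_lit 5) (nat_lit 342) (nat_lit 283) (nat_lit 155)) (XT.nd (nat_lit 78) (nat_lit 456) (nat_lit 0) (XT.lf (nat_lit 0) (nat_lit 13950242790) (nat_lit 304) (nat_lit 8029035328) (nat_lit 380) (nat_lit 1598780283) (nat_lit 108) (nat_lit 5) (nat_lit 112) (nat_lit 5) (nat_lit 113) (nat_lit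 5) (nat_lit 343) (nat_lit 283) (nat_lit 154)) (XT.lf (nat_lit 0) (nat_lit 4355470009) (nat_lit 456) (nat_lit 17287892730) (nat_lit 76) (nat_lit 2419910805) (nat_lit 102) (nat_lit 5) (nat_lit 108) (nat_lit 5) (nat_lit 103) (nat_lit 5) (nat_lit 344) (nat_lit 283) (nat_lit 153)))) (XT.nd (nat_lit 78) (nat_lit 608) (nat_lit 0) (XT.lf (nat_lit 0) (nat_lit 10572535637) (nat_lit 456) (nat_lit 844435266) (nat_lit 76) (nat_lit 13143751818) (nat_lit 102) (nat_lit 5) (nat_lit 108) (nat_lit 5) (nat_lit 103) (nat_lit 5) (nat_lit 345) (nat_lit 283) (nat_lit 152)) (XT.nd (nat_lit 78) (nat_lit 304) (nat_lit 0) (XT.lf (nat_lit 0) (nat_lit 16286176806) (nat_lit 304) (nat_lit 782490942) (nat_lit 380) (nat_lit 8002583446) (nat_lit 98) (nat_lit 5) (nat_lit 102) (nat_lit 5) (nat_lit 103) (nat_lit 5) (nat_lit 346) (nat_lit 283) (nat_lit 151)) (XT.lf (nat_lit 0) (nat_lit 8369327230) (nat_lit 304) (nat_lit 15503522516)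 (nat_lit 380) (nat_lit 1721989164) (nat_lit 94) (nat_lit 5) (nat_lit 98) (nat_lit 5) (nat_lit 99) (nat_lit 5) (nat_lit 347) (nat_lit 283) (nat_lit 150))))) (XT.nd (nat_lit 234) (nat_lit 608) (nat_lit 0) (XT.nd (nat_lit 78) (nat_lit 608) (nat_lit 0) (XT.lf (nat_lit 0) (nat_lit 4737113669) (nat_lit 380) (nat_lit 30285037) (nat_lit 76) (nat_lit 21365078545) (nat_lit 93) (nat_lit 5) (nat_lit 98) (nat_lit 5) (nat_lit 94) (nat_lit 5) (nat_lit 348) (nat_lit 283) (nat_lit 149)) (XT.nd (nat_lit 78) (nat_lit 304) (nat_lit 0) (XT.lf (nat_lit 0) (nat_lit 11512060029) (nat_lit 380) (nat_lit 8840685311) (nat_lit 76) (nat_lit 6330368646) (nat_lit 89) (nat_lit 5) (nat_lit 94) (nat_lit 5) (nat_lit 90) (nat_lit 5) (nat_lit 349) (nat_lit 283) (nat_lit 148)) (XT.lf (nat_lit 0) (nat_lit 9069701738) (nat_lit 304) (nat_lit 9499291617) (nat_lit 380) (nat_lit 8679707717) (nat_lit 85) (nat_lit 5) (nat_lit 89) (nat_lit 5)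 (nat_lit 90) (nat_lit 5) (nat_lit 350) (nat_lit 283) (nat_lit 147)))) (XT.nd (nat_lit 156) (nat_lit 304) (nat_lit 0) (XT.nd (nat_lit 78) (nat_lit 304) (nat_lit 0) (XT.lf (nat_lit 0) (nat_lit 25896802265) (nat_lit 380) (nat_lit 221683809) (nat_lit 76) (nat_lit 1711592187) (nat_lit 85) (nat_lit 5) (nat_lit 90) (nat_lit 5) (nat_lit 86) (nat_lit 5) (nat_lit 351) (nat_lit 283) (nat_lit 146)) (XT.lf (nat_lit 0) (nat_lit 5122421696) (nat_lit 304) (nat_lit 10024767057) (nat_lit 76) (nat_lit 13277609234) (nat_lit 81) (nat_lit 5) (nat_lit 85) (nat_lit 5) (nat_lit 82) (nat_lit 5) (nat_lit 352) (nat_lit 283) (nat_lit 145))) (XT.nd (nat_lit 78) (nat_lit 0) (nat_lit 0) (XT.lf (nat_lit 0) (nat_lit 8628270566) (nat_lit 304) (nat_lit 3781387579) (nat_lit 380) (nat_lit 16626528311) (nat_lit 77) (nat_lit 5) (nat_lit 81) (nat_lit 5) (nat_lit 82) (nat_lit 5) (nat_lit 353) (nat_lit 283) (nat_lit 144)) (XT.lf (nat_lit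 0) (nat_lit 20023979850) (nat_lit 380) (nat_lit 1756296338) (nat_lit 76) (nat_lit 7883476272) (nat_lit 77) (nat_lit 5) (nat_lit 82) (nat_lit 5) (nat_lit 78) (nat_lit 5) (nat_lit 354) (nat_lit 283) (nat_lit 143)))))) (XT.nd (nat_lit 35412) (nat_lit 0) (nat_lit 25688) (XT.nd (nat_lit 35100) (nat_lit 0) (nat_lit 26980) (XT.nd (nat_lit 78) (nat_lit 380) (nat_lit 0) (XT.lf (nat_lit 0) (nat_lit 17643553683) (nat_lit 228) (nat_lit 10351980568) (nat_lit 304) (nat_lit 2312040222) (nat_lit 74) (nat_lit 5) (nat_lit 77) (nat_lit 5) (nat_lit 78) (nat_lit 5) (nat_lit 355) (nat_lit 283) (nat_lit 142)) (XT.nd (nat_lit 78) (nat_lit 0) (nat_lit 0) (XT.lf (nat_lit 0) (nat_lit 5221303008) (nat_lit 380) (nat_lit 24263231603) (nat_lit 76) (nat_lit 1484412656) (nat_lit 69) (nat_lit 5) (nat_lit 74) (nat_lit 5) (nat_lit 70) (nat_lit 5) (nat_lit 356) (nat_lit 283) (nat_lit 141)) (XT.lf (nat_lit 0) (nat_lit 13094287330)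 (nat_lit 380) (nat_lit 4921004568) (nat_lit 76) (nat_lit 13631667353) (nat_lit 69) (nat_lit 5) (nat_lit 74) (nat_lit 5) (nat_lit 70) (nat_lit 5) (nat_lit 357) (nat_lit 283) (nat_lit 140)))) (XT.nd (nat_lit 156) (nat_lit 0) (nat_lit 76) (XT.nd (nat_lit 78) (nat_lit 0) (nat_lit 0) (XT.lf (nat_lit 0) (nat_lit 108862169) (nat_lit 0) (nat_lit 108862169) (nat_lit 1444) (nat_lit 4254922265) (nat_lit 424) (nat_lit 5) (nat_lit 424) (nat_lit 3) (nat_lit 443) (nat_lit 3) (nat_lit 284) (nat_lit 284) (nat_lit 212)) (XT.lf (nat_lit 0) (nat_lit 1771508759) (nat_lit 1444) (nat_lit 2703967182) (nat_lit 1520) (nat_lit 4576121620) (nat_lit 424) (nat_lit 5) (nat_lit 443) (nat_lit 3) (nat_lit 444) (nat_lit 5) (nat_lit 285) (nat_lit 284) (nat_lit 211))) (XT.nd (nat_lit 78) (nat_lit 0) (nat_lit 0) (XT.lf (nat_lit 0) (nat_lit 3123980431) (nat_lit 1444) (nat_lit 5645797843) (nat_lit 1520) (nat_lit 391836305) (nat_lit 425)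 (nat_lit 5) (nat_lit 444) (nat_lit 5) (nat_lit 445) (nat_lit 5) (nat_lit 286) (nat_lit 284) (nat_lit 210)) (XT.lf (nat_lit 76) (nat_lit 635588254) (nat_lit 0) (nat_lit 3884842635) (nat_lit 1520) (nat_lit 4754481795) (nat_lit 426) (nat_lit 5) (nat_lit 425) (nat_lit 5) (nat_lit 445) (nat_lit 5) (nat_lit 287) (nat_lit 284) (nat_lit 209))))) (XT.nd (nat_lit 234) (nat_lit 1444) (nat_lit 0) (XT.nd (nat_lit 78) (nat_lit 0) (nat_lit 0) (XT.lf (nat_lit 0) (nat_lit 5957026252) (nat_lit 1444) (nat_lit 2243880344) (nat_lit 1520) (nat_lit 1190785361) (nat_lit 426) (nat_lit 5) (nat_lit 445) (nat_lit 5) (nat_lit 446) (nat_lit 5) (nat_lit 288) (nat_lit 284) (nat_lit 208)) (XT.nd (nat_lit 78) (nat_lit 0) (nat_lit 76) (XT.lf (nat_lit 76) (nat_lit 4347244668) (nat_lit 0) (nat_lit 3097364680) (nat_lit 1520) (nat_lit 2067253337) (nat_lit 427) (nat_lit 5) (nat_lit 426) (nat_lit 5) (nat_lit 446) (nat_lit 5) (nat_lit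 289) (nat_lit 284) (nat_lit 207)) (XT.lf (nat_lit 76) (nat_lit 1509315716) (nat_lit 0) (nat_lit 7461608515) (nat_lit 1520) (nat_lit 664876758) (nat_lit 428) (nat_lit 5) (nat_lit 427) (nat_lit 5) (nat_lit 447) (nat_lit 5) (nat_lit 290) (nat_lit 284) (nat_lit 206)))) (XT.nd (nat_lit 156) (nat_lit 0) (nat_lit 76) (XT.nd (nat_lit 78) (nat_lit 0) (nat_lit 76) (XT.lf (nat_lit 0) (nat_lit 781068700) (nat_lit 1520) (nat_lit 1362623612) (nat_lit 1596) (nat_lit 7619471858) (nat_lit 407) (nat_lit 5) (nat_lit 427) (nat_lit 5) (nat_lit 428) (nat_lit 5) (nat_lit 291) (nat_lit 284) (nat_lit 205)) (XT.lf (nat_lit 0) (nat_lit 2277158962) (nat_lit 1520) (nat_lit 4269886870) (nat_lit 1596) (nat_lit 3346939689) (nat_lit 408) (nat_lit 5) (nat_lit 428) (nat_lit 5) (nat_lit 429) (nat_lit 5) (nat_lit 292) (nat_lit 284) (nat_lit 204))) (XT.nd (nat_lit 78) (nat_lit 0) (nat_lit 76) (XT.lf (nat_lit 76) (nat_lit 2805182527)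 (nat_lit 0) (nat_lit 1013035205) (nat_lit 1596) (nat_lit 6210552023) (nat_lit 409) (nat_lit 5) (nat_lit 408) (nat_lit 5) (nat_lit 429) (nat_lit 5) (nat_lit 293) (nat_lit 284) (nat_lit 203)) (XT.lf (nat_lit 0) (nat_lit 5424433500) (nat_lit 1520) (nat_lit 74919515) (nat_lit 1596) (nat_lit 4667904794) (nat_lit 409) (nat_lit 5) (nat_lit 429) (nat_lit 5) (nat_lit 430) (nat_lit 5) (nat_lit 294) (nat_lit 284) (nat_lit 202))))))))
noncomputable def xc91 : XT := (XT.nd (nat_lit 2106) (nat_lit 9196) (nat_lit 0) (XT.nd (nat_lit 1014) (nat_lit 7296) (nat_lit 0) (XT.nd (nat_lit 468) (nat_lit 6004) (nat_lit 0) (XT.nd (nat_lit 234) (nat_lit 0) (nat_lit 0) (XT.nd (nat_lit 78) (nat_lit 1520) (nat_lit 0) (XT.lf (nat_lit 0) (nat_lit 7095551739) (nat_lit 1520) (nat_lit 2960873671) (nat_lit 1596) (nat_lit 253178443) (nat_lit 410) (nat_lit 5) (nat_lit 430) (nat_lit 5) (nat_lit 431) (nat_lit 5) (nat_lit 295) (nat_lit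 284) (nat_lit 201)) (XT.nd (nat_lit 78) (nat_lit 1520) (nat_lit 0) (XT.lf (nat_lit 76) (nat_lit 4534756097) (nat_lit 0) (nat_lit 4310378259) (nat_lit 1596) (nat_lit 1610555873) (nat_lit 411) (nat_lit 5) (nat_lit 410) (nat_lit 5) (nat_lit 431) (nat_lit 5) (nat_lit 296) (nat_lit 284) (nat_lit 200)) (XT.lf (nat_lit 0) (nat_lit 44606040) (nat_lit 1596) (nat_lit 8933251117) (nat_lit 1672) (nat_lit 1628249537) (nat_lit 390) (nat_lit 5) (nat_lit 411) (nat_lit 5) (nat_lit 412) (nat_lit 5) (nat_lit 297) (nat_lit 284) (nat_lit 199)))) (XT.nd (nat_lit 78) (nat_lit 0) (nat_lit 76) (XT.lf (nat_lit 0) (nat_lit 1760119238) (nat_lit 1596) (nat_lit 1252894472) (nat_lit 1672) (nat_lit 7747191271) (nat_lit 390) (nat_lit 5) (nat_lit 411) (nat_lit 5) (nat_lit 412) (nat_lit 5) (nat_lit 298) (nat_lit 284) (nat_lit 198)) (XT.nd (nat_lit 78) (nat_lit 0) (nat_lit 0) (XT.lf (nat_lit 0) (nat_lit 3555698370) (nat_lit 1596)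 (nat_lit 4220963231) (nat_lit 1672) (nat_lit 3141725415) (nat_lit 391) (nat_lit 5) (nat_lit 412) (nat_lit 5) (nat_lit 413) (nat_lit 5) (nat_lit 299) (nat_lit 284) (nat_lit 197)) (XT.lf (nat_lit 76) (nat_lit 3824394755) (nat_lit 0) (nat_lit 1599501069) (nat_lit 1672) (nat_lit 5657075523) (nat_lit 392) (nat_lit 5) (nat_lit 391) (nat_lit 5) (nat_lit 413) (nat_lit 5) (nat_lit 300) (nat_lit 284) (nat_lit 196))))) (XT.nd (nat_lit 234) (nat_lit 2888) (nat_lit 0) (XT.nd (nat_lit 78) (nat_lit 1672) (nat_lit 0) (XT.lf (nat_lit 0) (nat_lit 873253437) (nat_lit 1596) (nat_lit 6506374660) (nat_lit 1672) (nat_lit 3868206260) (nat_lit 371) (nat_lit 5) (nat_lit 392) (nat_lit 5) (nat_lit 393) (nat_lit 5) (nat_lit 301) (nat_lit 284) (nat_lit 195)) (XT.nd (nat_lit 78) (nat_lit 1672) (nat_lit 0) (XT.lf (nat_lit 0) (nat_lit 9307809783) (nat_lit 1596) (nat_lit 112932094) (nat_lit 1672) (nat_lit 1998457217) (nat_lit 371)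 (nat_lit 5) (nat_lit 392) (nat_lit 5) (nat_lit 393) (nat_lit 5) (nat_lit 302) (nat_lit 284) (nat_lit 194)) (XT.lf (nat_lit 0) (nat_lit 6414240081) (nat_lit 1672) (nat_lit 5160425529) (nat_lit 1748) (nat_lit 20036782) (nat_lit 349) (nat_lit 5) (nat_lit 371) (nat_lit 5) (nat_lit 372) (nat_lit 5) (nat_lit 303) (nat_lit 284) (nat_lit 193)))) (XT.nd (nat_lit 156) (nat_lit 836) (nat_lit 0) (XT.nd (nat_lit 78) (nat_lit 836) (nat_lit 0) (XT.lf (nat_lit 0) (nat_lit 2006734818) (nat_lit 1216) (nat_lit 8331435426) (nat_lit 76) (nat_lit 1436757054) (nat_lit 333) (nat_lit 5) (nat_lit 349) (nat_lit 5) (nat_lit 334) (nat_lit 5) (nat_lit 304) (nat_lit 284) (nat_lit 192)) (XT.lf (nat_lit 0) (nat_lit 379540117) (nat_lit 836) (nat_lit 3756009249) (nat_lit 912) (nat_lit 7824203632) (nat_lit 322) (nat_lit 5) (nat_lit 333) (nat_lit 5) (nat_lit 334) (nat_lit 5) (nat_lit 305) (nat_lit 284) (nat_lit 191))) (XT.nd (nat_lit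 78) (nat_lit 836) (nat_lit 0) (XT.lf (nat_lit 0) (nat_lit 6374626798) (nat_lit 912) (nat_lit 2731087468) (nat_lit 76) (nat_lit 3043507392) (nat_lit 322) (nat_lit 5) (nat_lit 334) (nat_lit 5) (nat_lit 323) (nat_lit 5) (nat_lit 306) (nat_lit 284) (nat_lit 190)) (XT.lf (nat_lit 0) (nat_lit 6415372327) (nat_lit 836) (nat_lit 2303087603) (nat_lit 912) (nat_lit 3625188172) (nat_lit 311) (nat_lit 5) (nat_lit 322) (nat_lit 5) (nat_lit 323) (nat_lit 5) (nat_lit 307) (nat_lit 284) (nat_lit 189)))))) (XT.nd (nat_lit 546) (nat_lit 3344) (nat_lit 0) (XT.nd (nat_lit 234) (nat_lit 2280) (nat_lit 0) (XT.nd (nat_lit 78) (nat_lit 912) (nat_lit 0) (XT.lf (nat_lit 0) (nat_lit 3315569074) (nat_lit 760) (nat_lit 7859234837) (nat_lit 836) (nat_lit 1368284164) (nat_lit 301) (nat_lit 5) (nat_lit 311) (nat_lit 5) (nat_lit 312) (nat_lit 5) (nat_lit 308) (nat_lit 284) (nat_lit 188)) (XT.nd (nat_lit 78) (nat_lit 0) (nat_lit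 0) (XT.lf (nat_lit 0) (nat_lit 122621077) (nat_lit 836) (nat_lit 849747520) (nat_lit 912) (nat_lit 11775470254) (nat_lit 289) (nat_lit 5) (nat_lit 300) (nat_lit 5) (nat_lit 301) (nat_lit 5) (nat_lit 309) (nat_lit 284) (nat_lit 187)) (XT.lf (nat_lit 0) (nat_lit 3441653138) (nat_lit 912) (nat_lit 3156242277) (nat_lit 76) (nat_lit 6359138594) (nat_lit 289) (nat_lit 5) (nat_lit 301) (nat_lit 5) (nat_lit 290) (nat_lit 5) (nat_lit 310) (nat_lit 284) (nat_lit 186)))) (XT.nd (nat_lit 156) (nat_lit 760) (nat_lit 0) (XT.nd (nat_lit 78) (nat_lit 760) (nat_lit 0) (XT.lf (nat_lit 0) (nat_lit 6011463662) (nat_lit 836) (nat_lit 6524520065) (nat_lit 76) (nat_lit 636014465) (nat_lit 279) (nat_lit 5) (nat_lit 290) (nat_lit 5) (nat_lit 280) (nat_lit 5) (nat_lit 311) (nat_lit 284) (nat_lit 185)) (XT.lf (nat_lit 0) (nat_lit 3368725314) (nat_lit 760) (nat_lit 5351164345) (nat_lit 836) (nat_lit 4672312692) (nat_lit 269)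 (nat_lit 5) (nat_lit 279) (nat_lit 5) (nat_lit 280) (nat_lit 5) (nat_lit 312) (nat_lit 284) (nat_lit 184))) (XT.nd (nat_lit 78) (nat_lit 760) (nat_lit 0) (XT.lf (nat_lit 0) (nat_lit 11541956022) (nat_lit 836) (nat_lit 10460411) (nat_lit 76) (nat_lit 2065969300) (nat_lit 269) (nat_lit 5) (nat_lit 280) (nat_lit 5) (nat_lit 270) (nat_lit 5) (nat_lit 313) (nat_lit 284) (nat_lit 183)) (XT.lf (nat_lit 0) (nat_lit 668475163) (nat_lit 760) (nat_lit 3476973052) (nat_lit 76) (nat_lit 9704269091) (nat_lit 259) (nat_lit 5) (nat_lit 269) (nat_lit 5) (nat_lit 260) (nat_lit 5) (nat_lit 314) (nat_lit 284) (nat_lit 182))))) (XT.nd (nat_lit 234) (nat_lit 1976) (nat_lit 0) (XT.nd (nat_lit 78) (nat_lit 684) (nat_lit 0) (XT.lf (nat_lit 0) (nat_lit 3512099661) (nat_lit 760) (nat_lit 7078314895) (nat_lit 76) (nat_lit 3496427373) (nat_lit 250) (nat_lit 5) (nat_lit 260) (nat_lit 5) (nat_lit 251) (nat_lit 5) (nat_lit 315)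 (nat_lit 284) (nat_lit 181)) (XT.nd (nat_lit 78) (nat_lit 0) (nat_lit 0) (XT.lf (nat_lit 0) (nat_lit 3517822971) (nat_lit 684) (nat_lit 2973712021) (nat_lit 760) (nat_lit 7838553963) (nat_lit 241) (nat_lit 5) (nat_lit 250) (nat_lit 5) (nat_lit 251) (nat_lit 5) (nat_lit 316) (nat_lit 284) (nat_lit 180)) (XT.lf (nat_lit 0) (nat_lit 9616998609) (nat_lit 760) (nat_lit 108944454) (nat_lit 76) (nat_lit 4853575585) (nat_lit 241) (nat_lit 5) (nat_lit 251) (nat_lit 5) (nat_lit 242) (nat_lit 5) (nat_lit 317) (nat_lit 284) (nat_lit 179)))) (XT.nd (nat_lit 156) (nat_lit 608) (nat_lit 0) (XT.nd (nat_lit 78) (nat_lit 684) (nat_lit 0) (XT.lf (nat_lit 0) (nat_lit 11014751784) (nat_lit 684) (nat_lit 1890287338) (nat_lit 760) (nat_lit 1930033482) (nat_lit 232) (nat_lit 5) (nat_lit 241) (nat_lit 5) (nat_lit 242) (nat_lit 5) (nat_lit 318) (nat_lit 284) (nat_lit 178)) (XT.lf (nat_lit 0) (nat_lit 1245053192) (nat_lit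 684) (nat_lit 7698109417) (nat_lit 76) (nat_lit 6153646831) (nat_lit 223) (nat_lit 5) (nat_lit 232) (nat_lit 5) (nat_lit 224) (nat_lit 5) (nat_lit 319) (nat_lit 284) (nat_lit 177))) (XT.nd (nat_lit 78) (nat_lit 0) (nat_lit 0) (XT.lf (nat_lit 0) (nat_lit 3637466294) (nat_lit 608) (nat_lit 892383361) (nat_lit 684) (nat_lit 10835496295) (nat_lit 215) (nat_lit 5) (nat_lit 223) (nat_lit 5) (nat_lit 224) (nat_lit 5) (nat_lit 320) (nat_lit 284) (nat_lit 176)) (XT.lf (nat_lit 0) (nat_lit 7992408366) (nat_lit 684) (nat_lit 296037968) (nat_lit 76) (nat_lit 7351923673) (nat_lit 215) (nat_lit 5) (nat_lit 224) (nat_lit 5) (nat_lit 216) (nat_lit 5) (nat_lit 321) (nat_lit 284) (nat_lit 175))))))) (XT.nd (nat_lit 1014) (nat_lit 3876) (nat_lit 0) (XT.nd (nat_lit 468) (nat_lit 2508) (nat_lit 0) (XT.nd (nat_lit 234) (nat_lit 1064) (nat_lit 0) (XT.nd (nat_lit 78) (nat_lit 1216) (nat_lit 0) (XT.lf (nat_lit 0) (nat_lit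 11600433681) (nat_lit 532) (nat_lit 18979984) (nat_lit 608) (nat_lit 4303035082) (nat_lit 208) (nat_lit 5) (nat_lit 215) (nat_lit 5) (nat_lit 216) (nat_lit 5) (nat_lit 322) (nat_lit 284) (nat_lit 174)) (XT.nd (nat_lit 78) (nat_lit 608) (nat_lit 0) (XT.lf (nat_lit 0) (nat_lit 7665750796) (nat_lit 608) (nat_lit 7776153506) (nat_lit 684) (nat_lit 769366955) (nat_lit 200) (nat_lit 5) (nat_lit 208) (nat_lit 5) (nat_lit 209) (nat_lit 5) (nat_lit 323) (nat_lit 284) (nat_lit 173)) (XT.lf (nat_lit 0) (nat_lit 2869991975) (nat_lit 608) (nat_lit 12944713191) (nat_lit 76) (nat_lit 692948244) (nat_lit 192) (nat_lit 5) (nat_lit 200) (nat_lit 5) (nat_lit 193) (nat_lit 5) (nat_lit 324) (nat_lit 284) (nat_lit 172)))) (XT.nd (nat_lit 78) (nat_lit 1064) (nat_lit 0) (XT.lf (nat_lit 0) (nat_lit 6698825285) (nat_lit 608) (nat_lit 742033932) (nat_lit 76) (nat_lit 9370164953) (nat_lit 192) (nat_lit 5) (nat_lit 200) (nat_lit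 5) (nat_lit 193) (nat_lit 5) (nat_lit 325) (nat_lit 284) (nat_lit 171)) (XT.nd (nat_lit 78) (nat_lit 532) (nat_lit 0) (XT.lf (nat_lit 0) (nat_lit 10709312855) (nat_lit 608) (nat_lit 5170579147) (nat_lit 76) (nat_lit 1242281644) (nat_lit 185) (nat_lit 5) (nat_lit 193) (nat_lit 5) (nat_lit 186) (nat_lit 5) (nat_lit 326) (nat_lit 284) (nat_lit 170)) (XT.lf (nat_lit 0) (nat_lit 7620154593) (nat_lit 532) (nat_lit 7305595249) (nat_lit 608) (nat_lit 2515208056) (nat_lit 178) (nat_lit 5) (nat_lit 185) (nat_lit 5) (nat_lit 186) (nat_lit 5) (nat_lit 327) (nat_lit 284) (nat_lit 169))))) (XT.nd (nat_lit 234) (nat_lit 1444) (nat_lit 0) (XT.nd (nat_lit 78) (nat_lit 456) (nat_lit 0) (XT.lf (nat_lit 0) (nat_lit 1527035449) (nat_lit 608) (nat_lit 14674661678) (nat_lit 76) (nat_lit 1566479702) (nat_lit 170) (nat_lit 5) (nat_lit 178) (nat_lit 5) (nat_lit 171) (nat_lit 5) (nat_lit 328) (nat_lit 284) (nat_lit 168))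 (XT.nd (nat_lit 78) (nat_lit 456) (nat_lit 0) (XT.lf (nat_lit 0) (nat_lit 5754364438) (nat_lit 608) (nat_lit 1663761265) (nat_lit 76) (nat_lit 10684806315) (nat_lit 170) (nat_lit 5) (nat_lit 178) (nat_lit 5) (nat_lit 171) (nat_lit 5) (nat_lit 329) (nat_lit 284) (nat_lit 167)) (XT.lf (nat_lit 0) (nat_lit 10179111828) (nat_lit 532) (nat_lit 6587226735) (nat_lit 76) (nat_lit 1679990985) (nat_lit 164) (nat_lit 5) (nat_lit 171) (nat_lit 5) (nat_lit 165) (nat_lit 5) (nat_lit 330) (nat_lit 284) (nat_lit 166)))) (XT.nd (nat_lit 156) (nat_lit 456) (nat_lit 0) (XT.nd (nat_lit 78) (nat_lit 532) (nat_lit 0) (XT.lf (nat_lit 0) (nat_lit 7030422561) (nat_lit 456) (nat_lit 7795588902) (nat_lit 532) (nat_lit 3972240657) (nat_lit 158) (nat_lit 5) (nat_lit 164) (nat_lit 5) (nat_lit 165) (nat_lit 5) (nat_lit 331) (nat_lit 284) (nat_lit 165)) (XT.lf (nat_lit 0) (nat_lit 496280812) (nat_lit 532) (nat_lit 17182437263)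 (nat_lit 76) (nat_lit 1480954070) (nat_lit 151) (nat_lit 5) (nat_lit 158) (nat_lit 5) (nat_lit 152) (nat_lit 5) (nat_lit 332) (nat_lit 284) (nat_lit 164))) (XT.nd (nat_lit 78) (nat_lit 456) (nat_lit 0) (XT.lf (nat_lit 0) (nat_lit 5160954629) (nat_lit 532) (nat_lit 3336363626) (nat_lit 76) (nat_lit 11031780564) (nat_lit 151) (nat_lit 5) (nat_lit 158) (nat_lit 5) (nat_lit 152) (nat_lit 5) (nat_lit 333) (nat_lit 284) (nat_lit 163)) (XT.lf (nat_lit 0) (nat_lit 10027806114) (nat_lit 532) (nat_lit 8867058491) (nat_lit 76) (nat_lit 1013509089) (nat_lit 145) (nat_lit 5) (nat_lit 152) (nat_lit 5) (nat_lit 146) (nat_lit 5) (nat_lit 334) (nat_lit 284) (nat_lit 162)))))) (XT.nd (nat_lit 546) (nat_lit 1748) (nat_lit 0) (XT.nd (nat_lit 234) (nat_lit 1216) (nat_lit 0) (XT.nd (nat_lit 78) (nat_lit 532) (nat_lit 0) (XT.lf (nat_lit 0) (nat_lit 5591974577) (nat_lit 380) (nat_lit 9548710711) (nat_lit 456) (nat_lit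 5156350940) (nat_lit 140) (nat_lit 5) (nat_lit 145) (nat_lit 5) (nat_lit 146) (nat_lit 5) (nat_lit 335) (nat_lit 284) (nat_lit 161)) (XT.nd (nat_lit 78) (nat_lit 532) (nat_lit 0) (XT.lf (nat_lit 0) (nat_lit 20452356588) (nat_lit 456) (nat_lit 112644637) (nat_lit 76) (nat_lit 131458866) (nat_lit 140) (nat_lit 5) (nat_lit 146) (nat_lit 5) (nat_lit 141) (nat_lit 5) (nat_lit 336) (nat_lit 284) (nat_lit 160)) (XT.lf (nat_lit 0) (nat_lit 4899624503) (nat_lit 532) (nat_lit 6107482178) (nat_lit 76) (nat_lit 10097198398) (nat_lit 133) (nat_lit 5) (nat_lit 140) (nat_lit 5) (nat_lit 134) (nat_lit 5) (nat_lit 337) (nat_lit 284) (nat_lit 159)))) (XT.nd (nat_lit 156) (nat_lit 456) (nat_lit 0) (XT.nd (nat_lit 78) (nat_lit 380) (nat_lit 0) (XT.lf (nat_lit 0) (nat_lit 9133933316) (nat_lit 380) (nat_lit 1105574673) (nat_lit 456) (nat_lit 11283950798) (nat_lit 128) (nat_lit 5) (nat_lit 133) (nat_lit 5) (nat_lit 134)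 (nat_lit 5) (nat_lit 338) (nat_lit 284) (nat_lit 158)) (XT.lf (nat_lit 0) (nat_lit 2919924887) (nat_lit 380) (nat_lit 12924650516) (nat_lit 456) (nat_lit 6108520538) (nat_lit 123) (nat_lit 5) (nat_lit 128) (nat_lit 5) (nat_lit 129) (nat_lit 5) (nat_lit 339) (nat_lit 284) (nat_lit 157))) (XT.nd (nat_lit 78) (nat_lit 456) (nat_lit 0) (XT.lf (nat_lit 0) (nat_lit 18830205103) (nat_lit 380) (nat_lit 2864514928) (nat_lit 456) (nat_lit 699372011) (nat_lit 123) (nat_lit 5) (nat_lit 128) (nat_lit 5) (nat_lit 129) (nat_lit 5) (nat_lit 340) (nat_lit 284) (nat_lit 156)) (XT.lf (nat_lit 0) (nat_lit 4924518786) (nat_lit 456) (nat_lit 10414347614) (nat_lit 76) (nat_lit 7506499593) (nat_lit 117) (nat_lit 5) (nat_lit 123) (nat_lit 5) (nat_lit 118) (nat_lit 5) (nat_lit 341) (nat_lit 284) (nat_lit 155))))) (XT.nd (nat_lit 234) (nat_lit 1064) (nat_lit 0) (XT.nd (nat_lit 78) (nat_lit 304) (nat_lit 0) (XT.lf (nat_lit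 0) (nat_lit 5675232253) (nat_lit 380) (nat_lit 5098944888) (nat_lit 456) (nat_lit 12534585218) (nat_lit 112) (nat_lit 5) (nat_lit 117) (nat_lit 5) (nat_lit 118) (nat_lit 5) (nat_lit 342) (nat_lit 284) (nat_lit 154)) (XT.nd (nat_lit 78) (nat_lit 304) (nat_lit 0) (XT.lf (nat_lit 0) (nat_lit 16892155436) (nat_lit 456) (nat_lit 1450414441) (nat_lit 76) (nat_lit 5441641611) (nat_lit 112) (nat_lit 5) (nat_lit 118) (nat_lit 5) (nat_lit 113) (nat_lit 5) (nat_lit 343) (nat_lit 284) (nat_lit 153)) (XT.lf (nat_lit 0) (nat_lit 15366231063) (nat_lit 304) (nat_lit 7948123018) (nat_lit 380) (nat_lit 957163651) (nat_lit 108) (nat_lit 5) (nat_lit 112) (nat_lit 5) (nat_lit 113) (nat_lit 5) (nat_lit 344) (nat_lit 284) (nat_lit 152)))) (XT.nd (nat_lit 156) (nat_lit 304) (nat_lit 0) (XT.nd (nat_lit 78) (nat_lit 304) (nat_lit 0) (XT.lf (nat_lit 0) (nat_lit 5155379815) (nat_lit 456) (nat_lit 16804384961) (nat_lit 76)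 (nat_lit 2811671338) (nat_lit 102) (nat_lit 5) (nat_lit 108) (nat_lit 5) (nat_lit 103) (nat_lit 5) (nat_lit 345) (nat_lit 284) (nat_lit 151)) (XT.lf (nat_lit 0) (nat_lit 104558858) (nat_lit 304) (nat_lit 11435584825) (nat_lit 380) (nat_lit 13744051573) (nat_lit 98) (nat_lit 5) (nat_lit 102) (nat_lit 5) (nat_lit 103) (nat_lit 5) (nat_lit 346) (nat_lit 284) (nat_lit 150))) (XT.nd (nat_lit 78) (nat_lit 304) (nat_lit 0) (XT.lf (nat_lit 0) (nat_lit 17731932931) (nat_lit 304) (nat_lit 485837700) (nat_lit 380) (nat_lit 7592546651) (nat_lit 98) (nat_lit 5) (nat_lit 102) (nat_lit 5) (nat_lit 103) (nat_lit 5) (nat_lit 347) (nat_lit 284) (nat_lit 149)) (XT.lf (nat_lit 0) (nat_lit 9572863525) (nat_lit 304) (nat_lit 15642861843) (nat_lit 380) (nat_lit 1134103946) (nat_lit 94) (nat_lit 5) (nat_lit 98) (nat_lit 5) (nat_lit 99) (nat_lit 5) (nat_lit 348) (nat_lit 284) (nat_lit 148))))))))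
noncomputable def xc92 : XT := (XT.nd (nat_lit 36972) (nat_lit 0) (nat_lit 8284) (XT.nd (nat_lit 35958) (nat_lit 0) (nat_lit 24320) (XT.nd (nat_lit 468) (nat_lit 608) (nat_lit 0) (XT.nd (nat_lit 234) (nat_lit 608) (nat_lit 0) (XT.nd (nat_lit 78) (nat_lit 304) (nat_lit 0) (XT.lf (nat_lit 0) (nat_lit 913957094) (nat_lit 304) (nat_lit 4583977929) (nat_lit 380) (nat_lit 21405836885) (nat_lit 89) (nat_lit 5) (nat_lit 93) (nat_lit 5) (nat_lit 94) (nat_lit 5) (nat_lit 349) (nat_lit 284) (nat_lit 147)) (XT.nd (nat_lit 78) (nat_lit 304) (nat_lit 0) (XT.lf (nat_lit 0) (nat_lit 12460367468) (nat_lit 380) (nat_lit 8177626110) (nat_lit 76) (nat_lit 6833258312) (nat_lit 89) (nat_lit 5) (nat_lit 94) (nat_lit 5) (nat_lit 90) (nat_lit 5) (nat_lit 350) (nat_lit 284) (nat_lit 146)) (XT.lf (nat_lit 0) (nat_lit 10255012314) (nat_lit 304) (nat_lit 9462364182) (nat_lit 380) (nat_lit 8336671375) (nat_lit 85) (nat_lit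 5) (nat_lit 89) (nat_lit 5) (nat_lit 90) (nat_lit 5) (nat_lit 351) (nat_lit 284) (nat_lit 145)))) (XT.nd (nat_lit 78) (nat_lit 380) (nat_lit 0) (XT.lf (nat_lit 0) (nat_lit 676896428) (nat_lit 228) (nat_lit 26577324542) (nat_lit 304) (nat_lit 1398869768) (nat_lit 82) (nat_lit 5) (nat_lit 85) (nat_lit 5) (nat_lit 86) (nat_lit 5) (nat_lit 352) (nat_lit 284) (nat_lit 144)) (XT.nd (nat_lit 78) (nat_lit 304) (nat_lit 0) (XT.lf (nat_lit 0) (nat_lit 5845169263) (nat_lit 304) (nat_lit 9435870381) (nat_lit 76) (nat_lit 13984854672) (nat_lit 81) (nat_lit 5) (nat_lit 85) (nat_lit 5) (nat_lit 82) (nat_lit 5) (nat_lit 353) (nat_lit 284) (nat_lit 143)) (XT.lf (nat_lit 0) (nat_lit 9762325024) (nat_lit 304) (nat_lit 3577805205) (nat_lit 380) (nat_lit 16555719813) (nat_lit 77) (nat_lit 5) (nat_lit 81) (nat_lit 5) (nat_lit 82) (nat_lit 5) (nat_lit 354) (nat_lit 284) (nat_lit 142))))) (XT.nd (nat_lit 35178) (nat_lit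 0) (nat_lit 26980) (XT.nd (nat_lit 78) (nat_lit 608) (nat_lit 0) (XT.lf (nat_lit 0) (nat_lit 21168622225) (nat_lit 380) (nat_lit 950179384) (nat_lit 76) (nat_lit 8423734128) (nat_lit 77) (nat_lit 5) (nat_lit 82) (nat_lit 5) (nat_lit 78) (nat_lit 5) (nat_lit 355) (nat_lit 284) (nat_lit 141)) (XT.nd (nat_lit 78) (nat_lit 380) (nat_lit 0) (XT.lf (nat_lit 0) (nat_lit 19017733033) (nat_lit 228) (nat_lit 10351233283) (nat_lit 304) (nat_lit 1836920540) (nat_lit 74) (nat_lit 5) (nat_lit 77) (nat_lit 5) (nat_lit 78) (nat_lit 5) (nat_lit 356) (nat_lit 284) (nat_lit 140)) (XT.lf (nat_lit 0) (nat_lit 5907096080) (nat_lit 380) (nat_lit 24143949536) (nat_lit 76) (nat_lit 1836155188) (nat_lit 69) (nat_lit 5) (nat_lit 74) (nat_lit 5) (nat_lit 70) (nat_lit 5) (nat_lit 357) (nat_lit 284) (nat_lit 139)))) (XT.nd (nat_lit 156) (nat_lit 0) (nat_lit 0) (XT.nd (nat_lit 78) (nat_lit 0) (nat_lit 0) (XT.lf (nat_lit 0) (nat_lit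 755593757) (nat_lit 0) (nat_lit 755593757) (nat_lit 1444) (nat_lit 3068627728) (nat_lit 424) (nat_lit 5) (nat_lit 424) (nat_lit 3) (nat_lit 443) (nat_lit 3) (nat_lit 285) (nat_lit 285) (nat_lit 210)) (XT.lf (nat_lit 0) (nat_lit 4315437788) (nat_lit 1444) (nat_lit 1475077870) (nat_lit 1520) (nat_lit 3480343998) (nat_lit 424) (nat_lit 5) (nat_lit 443) (nat_lit 3) (nat_lit 444) (nat_lit 5) (nat_lit 286) (nat_lit 285) (nat_lit 209))) (XT.nd (nat_lit 78) (nat_lit 0) (nat_lit 76) (XT.lf (nat_lit 76) (nat_lit 4912754548) (nat_lit 0) (nat_lit 728894207) (nat_lit 1520) (nat_lit 3743937073) (nat_lit 425) (nat_lit 5) (nat_lit 424) (nat_lit 5) (nat_lit 444) (nat_lit 5) (nat_lit 287) (nat_lit 285) (nat_lit 208)) (XT.lf (nat_lit 76) (nat_lit 1979874206) (nat_lit 0) (nat_lit 5033527638) (nat_lit 1520) (nat_lit 2490282700) (nat_lit 426) (nat_lit 5) (nat_lit 425) (nat_lit 5) (nat_lit 445) (nat_lit 5) (nat_lit 288)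 (nat_lit 285) (nat_lit 207)))))) (XT.nd (nat_lit 468) (nat_lit 1292) (nat_lit 0) (XT.nd (nat_lit 234) (nat_lit 0) (nat_lit 76) (XT.nd (nat_lit 78) (nat_lit 1520) (nat_lit 0) (XT.lf (nat_lit 0) (nat_lit 8417928003) (nat_lit 1444) (nat_lit 970036405) (nat_lit 1520) (nat_lit 237573945) (nat_lit 426) (nat_lit 5) (nat_lit 445) (nat_lit 5) (nat_lit 446) (nat_lit 5) (nat_lit 289) (nat_lit 285) (nat_lit 206)) (XT.nd (nat_lit 78) (nat_lit 0) (nat_lit 76) (XT.lf (nat_lit 0) (nat_lit 139836933) (nat_lit 1520) (nat_lit 3954394503) (nat_lit 1596) (nat_lit 5656288311) (nat_lit 406) (nat_lit 5) (nat_lit 426) (nat_lit 5) (nat_lit 427) (nat_lit 5) (nat_lit 290) (nat_lit 285) (nat_lit 205)) (XT.lf (nat_lit 0) (nat_lit 1503142877) (nat_lit 1520) (nat_lit 6985088183) (nat_lit 1596) (nat_lit 1391064198) (nat_lit 407) (nat_lit 5) (nat_lit 427) (nat_lit 5) (nat_lit 428) (nat_lit 5) (nat_lit 291) (nat_lit 285) (nat_lit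 204)))) (XT.nd (nat_lit 78) (nat_lit 0) (nat_lit 76) (XT.lf (nat_lit 0) (nat_lit 2920019559) (nat_lit 1520) (nat_lit 62972881) (nat_lit 1596) (nat_lit 7028728126) (nat_lit 407) (nat_lit 5) (nat_lit 427) (nat_lit 5) (nat_lit 428) (nat_lit 5) (nat_lit 292) (nat_lit 285) (nat_lit 203)) (XT.nd (nat_lit 78) (nat_lit 0) (nat_lit 0) (XT.lf (nat_lit 0) (nat_lit 4403109392) (nat_lit 1520) (nat_lit 3031155685) (nat_lit 1596) (nat_lit 2713418214) (nat_lit 408) (nat_lit 5) (nat_lit 428) (nat_lit 5) (nat_lit 429) (nat_lit 5) (nat_lit 293) (nat_lit 285) (nat_lit 202)) (XT.lf (nat_lit 76) (nat_lit 4233990638) (nat_lit 0) (nat_lit 1705208529) (nat_lit 1596) (nat_lit 4348393253) (nat_lit 409) (nat_lit 5) (nat_lit 408) (nat_lit 5) (nat_lit 429) (nat_lit 5) (nat_lit 294) (nat_lit 285) (nat_lit 201))))) (XT.nd (nat_lit 234) (nat_lit 0) (nat_lit 76) (XT.nd (nat_lit 78) (nat_lit 1520) (nat_lit 0) (XT.lf (nat_lit 76)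 (nat_lit 1290230023) (nat_lit 0) (nat_lit 6249136980) (nat_lit 1596) (nat_lit 2892008482) (nat_lit 410) (nat_lit 5) (nat_lit 409) (nat_lit 5) (nat_lit 430) (nat_lit 5) (nat_lit 295) (nat_lit 285) (nat_lit 200)) (XT.nd (nat_lit 78) (nat_lit 1520) (nat_lit 0) (XT.lf (nat_lit 76) (nat_lit 8899507682) (nat_lit 0) (nat_lit 303028172) (nat_lit 1596) (nat_lit 1376671774) (nat_lit 410) (nat_lit 5) (nat_lit 409) (nat_lit 5) (nat_lit 430) (nat_lit 5) (nat_lit 296) (nat_lit 285) (nat_lit 199)) (XT.lf (nat_lit 0) (nat_lit 222636417) (nat_lit 1596) (nat_lit 4711652470) (nat_lit 1672) (nat_lit 5796377209) (nat_lit 389) (nat_lit 5) (nat_lit 410) (nat_lit 5) (nat_lit 411) (nat_lit 5) (nat_lit 297) (nat_lit 285) (nat_lit 198)))) (XT.nd (nat_lit 156) (nat_lit 0) (nat_lit 76) (XT.nd (nat_lit 78) (nat_lit 0) (nat_lit 0) (XT.lf (nat_lit 0) (nat_lit 1857328805) (nat_lit 1596) (nat_lit 7806492675) (nat_lit 1672) (nat_lit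 1222575481) (nat_lit 390) (nat_lit 5) (nat_lit 411) (nat_lit 5) (nat_lit 412) (nat_lit 5) (nat_lit 298) (nat_lit 285) (nat_lit 197)) (XT.lf (nat_lit 76) (nat_lit 64496593) (nat_lit 0) (nat_lit 3507470786) (nat_lit 1672) (nat_lit 7474246120) (nat_lit 391) (nat_lit 5) (nat_lit 390) (nat_lit 5) (nat_lit 412) (nat_lit 5) (nat_lit 299) (nat_lit 285) (nat_lit 196))) (XT.nd (nat_lit 78) (nat_lit 0) (nat_lit 0) (XT.lf (nat_lit 0) (nat_lit 5375929834) (nat_lit 1596) (nat_lit 2977046116) (nat_lit 1672) (nat_lit 2857121815) (nat_lit 391) (nat_lit 5) (nat_lit 412) (nat_lit 5) (nat_lit 413) (nat_lit 5) (nat_lit 300) (nat_lit 285) (nat_lit 195)) (XT.lf (nat_lit 76) (nat_lit 5287437128) (nat_lit 0) (nat_lit 1971580681) (nat_lit 1672) (nat_lit 4119410644) (nat_lit 392) (nat_lit 5) (nat_lit 391) (nat_lit 5) (nat_lit 413) (nat_lit 5) (nat_lit 301) (nat_lit 285) (nat_lit 194))))))) (XT.nd (nat_lit 1014) (nat_lit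 6232) (nat_lit 0) (XT.nd (nat_lit 468) (nat_lit 4712) (nat_lit 0) (XT.nd (nat_lit 234) (nat_lit 1976) (nat_lit 0) (XT.nd (nat_lit 78) (nat_lit 1748) (nat_lit 0) (XT.lf (nat_lit 0) (nat_lit 2262361588) (nat_lit 1596) (nat_lit 6969155605) (nat_lit 1672) (nat_lit 2319662644) (nat_lit 371) (nat_lit 5) (nat_lit 392) (nat_lit 5) (nat_lit 393) (nat_lit 5) (nat_lit 302) (nat_lit 285) (nat_lit 193)) (XT.nd (nat_lit 78) (nat_lit 1748) (nat_lit 0) (XT.lf (nat_lit 0) (nat_lit 10910258200) (nat_lit 1596) (nat_lit 376115886) (nat_lit 1672) (nat_lit 442304328) (nat_lit 371) (nat_lit 5) (nat_lit 392) (nat_lit 5) (nat_lit 393) (nat_lit 5) (nat_lit 303) (nat_lit 285) (nat_lit 192)) (XT.lf (nat_lit 0) (nat_lit 1535173075) (nat_lit 1748) (nat_lit 3977736960) (nat_lit 76) (nat_lit 6397158034) (nat_lit 348) (nat_lit 5) (nat_lit 371) (nat_lit 5) (nat_lit 349) (nat_lit 5) (nat_lit 304) (nat_lit 285) (nat_lit 191)))) (XT.nd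 (nat_lit 78) (nat_lit 836) (nat_lit 0) (XT.lf (nat_lit 0) (nat_lit 3584656450) (nat_lit 1216) (nat_lit 7212511962) (nat_lit 76) (nat_lit 1299324867) (nat_lit 333) (nat_lit 5) (nat_lit 349) (nat_lit 5) (nat_lit 334) (nat_lit 5) (nat_lit 305) (nat_lit 285) (nat_lit 190)) (XT.nd (nat_lit 78) (nat_lit 0) (nat_lit 0) (XT.lf (nat_lit 0) (nat_lit 1737584614) (nat_lit 836) (nat_lit 4004288795) (nat_lit 912) (nat_lit 6545738246) (nat_lit 322) (nat_lit 5) (nat_lit 333) (nat_lit 5) (nat_lit 334) (nat_lit 5) (nat_lit 306) (nat_lit 285) (nat_lit 189)) (XT.lf (nat_lit 0) (nat_lit 8004095856) (nat_lit 912) (nat_lit 1474697152) (nat_lit 76) (nat_lit 3004889449) (nat_lit 322) (nat_lit 5) (nat_lit 334) (nat_lit 5) (nat_lit 323) (nat_lit 5) (nat_lit 307) (nat_lit 285) (nat_lit 188))))) (XT.nd (nat_lit 234) (nat_lit 2204) (nat_lit 0) (XT.nd (nat_lit 78) (nat_lit 1672) (nat_lit 0) (XT.lf (nat_lit 0) (nat_lit 7924443737)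 (nat_lit 836) (nat_lit 2460458351) (nat_lit 912) (nat_lit 2299742890) (nat_lit 311) (nat_lit 5) (nat_lit 322) (nat_lit 5) (nat_lit 323) (nat_lit 5) (nat_lit 308) (nat_lit 285) (nat_lit 187)) (XT.nd (nat_lit 78) (nat_lit 912) (nat_lit 0) (XT.lf (nat_lit 0) (nat_lit 4739686817) (nat_lit 760) (nat_lit 8142374537) (nat_lit 836) (nat_lit 8699679) (nat_lit 301) (nat_lit 5) (nat_lit 311) (nat_lit 5) (nat_lit 312) (nat_lit 5) (nat_lit 309) (nat_lit 285) (nat_lit 186)) (XT.lf (nat_lit 0) (nat_lit 1448668559) (nat_lit 836) (nat_lit 903460147) (nat_lit 912) (nat_lit 10750010915) (nat_lit 289) (nat_lit 5) (nat_lit 300) (nat_lit 5) (nat_lit 301) (nat_lit 5) (nat_lit 310) (nat_lit 285) (nat_lit 185)))) (XT.nd (nat_lit 156) (nat_lit 1444) (nat_lit 0) (XT.nd (nat_lit 78) (nat_lit 760) (nat_lit 0) (XT.lf (nat_lit 0) (nat_lit 4855976351) (nat_lit 912) (nat_lit 1939583459) (nat_lit 76) (nat_lit 6522873831) (nat_lit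 289) (nat_lit 5) (nat_lit 301) (nat_lit 5) (nat_lit 290) (nat_lit 5) (nat_lit 311) (nat_lit 285) (nat_lit 184)) (XT.lf (nat_lit 0) (nat_lit 7473127765) (nat_lit 836) (nat_lit 5403558370) (nat_lit 76) (nat_lit 663787428) (nat_lit 279) (nat_lit 5) (nat_lit 290) (nat_lit 5) (nat_lit 280) (nat_lit 5) (nat_lit 312) (nat_lit 285) (nat_lit 183))) (XT.nd (nat_lit 78) (nat_lit 684) (nat_lit 0) (XT.lf (nat_lit 0) (nat_lit 4765122522) (nat_lit 760) (nat_lit 5468774192) (nat_lit 836) (nat_lit 3533996151) (nat_lit 269) (nat_lit 5) (nat_lit 279) (nat_lit 5) (nat_lit 280) (nat_lit 5) (nat_lit 313) (nat_lit 285) (nat_lit 182)) (XT.lf (nat_lit 0) (nat_lit 1288781097) (nat_lit 684) (nat_lit 11824004200) (nat_lit 760) (nat_lit 888663168) (nat_lit 260) (nat_lit 5) (nat_lit 269) (nat_lit 5) (nat_lit 270) (nat_lit 5) (nat_lit 314) (nat_lit 285) (nat_lit 181)))))) (XT.nd (nat_lit 546) (nat_lit 2812) (nat_lit 0) (XT.nd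 (nat_lit 234) (nat_lit 1976) (nat_lit 0) (XT.nd (nat_lit 78) (nat_lit 1368) (nat_lit 0) (XT.lf (nat_lit 0) (nat_lit 1886331392) (nat_lit 760) (nat_lit 2302571487) (nat_lit 76) (nat_lit 10051400518) (nat_lit 259) (nat_lit 5) (nat_lit 269) (nat_lit 5) (nat_lit 260) (nat_lit 5) (nat_lit 315) (nat_lit 285) (nat_lit 180)) (XT.nd (nat_lit 78) (nat_lit 684) (nat_lit 0) (XT.lf (nat_lit 0) (nat_lit 4789108836) (nat_lit 760) (nat_lit 6008919873) (nat_lit 76) (nat_lit 3687063818) (nat_lit 250) (nat_lit 5) (nat_lit 260) (nat_lit 5) (nat_lit 251) (nat_lit 5) (nat_lit 316) (nat_lit 285) (nat_lit 179)) (XT.lf (nat_lit 0) (nat_lit 4884307348) (nat_lit 684) (nat_lit 2947681183) (nat_lit 760) (nat_lit 6904194053) (nat_lit 241) (nat_lit 5) (nat_lit 250) (nat_lit 5) (nat_lit 251) (nat_lit 5) (nat_lit 317) (nat_lit 285) (nat_lit 178)))) (XT.nd (nat_lit 156) (nat_lit 1292) (nat_lit 0) (XT.nd (nat_lit 78) (nat_lit 0)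 (nat_lit 0) (XT.lf (nat_lit 0) (nat_lit 1149474916) (nat_lit 684) (nat_lit 9876560608) (nat_lit 760) (nat_lit 3967589319) (nat_lit 232) (nat_lit 5) (nat_lit 241) (nat_lit 5) (nat_lit 242) (nat_lit 5) (nat_lit 318) (nat_lit 285) (nat_lit 177)) (XT.lf (nat_lit 0) (nat_lit 12571581671) (nat_lit 684) (nat_lit 1809215614) (nat_lit 760) (nat_lit 876711837) (nat_lit 232) (nat_lit 5) (nat_lit 241) (nat_lit 5) (nat_lit 242) (nat_lit 5) (nat_lit 319) (nat_lit 285) (nat_lit 176))) (XT.nd (nat_lit 78) (nat_lit 608) (nat_lit 0) (XT.lf (nat_lit 0) (nat_lit 2356011457) (nat_lit 684) (nat_lit 6686122783) (nat_lit 76) (nat_lit 6485304457) (nat_lit 223) (nat_lit 5) (nat_lit 232) (nat_lit 5) (nat_lit 224) (nat_lit 5) (nat_lit 320) (nat_lit 285) (nat_lit 175)) (XT.lf (nat_lit 0) (nat_lit 4969355138) (nat_lit 608) (nat_lit 746665578) (nat_lit 684) (nat_lit 10088500592) (nat_lit 215) (nat_lit 5) (nat_lit 223) (nat_lit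 5) (nat_lit 224) (nat_lit 5) (nat_lit 321) (nat_lit 285) (nat_lit 174))))) (XT.nd (nat_lit 234) (nat_lit 1596) (nat_lit 0) (XT.nd (nat_lit 78) (nat_lit 684) (nat_lit 0) (XT.lf (nat_lit 0) (nat_lit 914285463) (nat_lit 532) (nat_lit 8344603618) (nat_lit 608) (nat_lit 6829401052) (nat_lit 208) (nat_lit 5) (nat_lit 215) (nat_lit 5) (nat_lit 216) (nat_lit 5) (nat_lit 322) (nat_lit 285) (nat_lit 173)) (XT.nd (nat_lit 78) (nat_lit 684) (nat_lit 0) (XT.lf (nat_lit 0) (nat_lit 12967847410) (nat_lit 608) (nat_lit 3244437152) (nat_lit 76) (nat_lit 167105860) (nat_lit 208) (nat_lit 5) (nat_lit 216) (nat_lit 5) (nat_lit 209) (nat_lit 5) (nat_lit 323) (nat_lit 285) (nat_lit 172)) (XT.lf (nat_lit 0) (nat_lit 203692583) (nat_lit 684) (nat_lit 7595414050) (nat_lit 76) (nat_lit 8878191342) (nat_lit 199) (nat_lit 5) (nat_lit 208) (nat_lit 5) (nat_lit 200) (nat_lit 5) (nat_lit 324) (nat_lit 285) (nat_lit 171)))) (XT.nd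 (nat_lit 156) (nat_lit 532) (nat_lit 0) (XT.nd (nat_lit 78) (nat_lit 532) (nat_lit 0) (XT.lf (nat_lit 0) (nat_lit 3922211096) (nat_lit 608) (nat_lit 12132654299) (nat_lit 76) (nat_lit 928016227) (nat_lit 192) (nat_lit 5) (nat_lit 200) (nat_lit 5) (nat_lit 193) (nat_lit 5) (nat_lit 325) (nat_lit 285) (nat_lit 170)) (XT.lf (nat_lit 0) (nat_lit 406473191) (nat_lit 532) (nat_lit 7433935909) (nat_lit 608) (nat_lit 9455474188) (nat_lit 185) (nat_lit 5) (nat_lit 192) (nat_lit 5) (nat_lit 193) (nat_lit 5) (nat_lit 326) (nat_lit 285) (nat_lit 169))) (XT.nd (nat_lit 78) (nat_lit 532) (nat_lit 0) (XT.lf (nat_lit 0) (nat_lit 11950179516) (nat_lit 608) (nat_lit 4161648161) (nat_lit 76) (nat_lit 1504979407) (nat_lit 185) (nat_lit 5) (nat_lit 193) (nat_lit 5) (nat_lit 186) (nat_lit 5) (nat_lit 327) (nat_lit 285) (nat_lit 168)) (XT.lf (nat_lit 0) (nat_lit 8993922289) (nat_lit 532) (nat_lit 7279838386) (nat_lit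 608) (nat_lit 1671799809) (nat_lit 178) (nat_lit 5) (nat_lit 185) (nat_lit 5) (nat_lit 186) (nat_lit 5) (nat_lit 328) (nat_lit 285) (nat_lit 167))))))))
noncomputable def xc93 : XT := (XT.nd (nat_lit 2028) (nat_lit 532) (nat_lit 0) (XT.nd (nat_lit 1014) (nat_lit 3192) (nat_lit 0) (XT.nd (nat_lit 468) (nat_lit 2128) (nat_lit 0) (XT.nd (nat_lit 234) (nat_lit 988) (nat_lit 0) (XT.nd (nat_lit 78) (nat_lit 456) (nat_lit 0) (XT.lf (nat_lit 0) (nat_lit 2462274514) (nat_lit 608) (nat_lit 13959146345) (nat_lit 76) (nat_lit 1861421258) (nat_lit 170) (nat_lit 5) (nat_lit 178) (nat_lit 5) (nat_lit 171) (nat_lit 5) (nat_lit 329) (nat_lit 285) (nat_lit 166)) (XT.nd (nat_lit 78) (nat_lit 456) (nat_lit 0) (XT.lf (nat_lit 0) (nat_lit 6790517704) (nat_lit 608) (nat_lit 591581692) (nat_lit 76) (nat_lit 11246075908) (nat_lit 170) (nat_lit 5) (nat_lit 178) (nat_lit 5) (nat_lit 171) (nat_lit 5) (nat_lit 330) (nat_lit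 285) (nat_lit 165)) (XT.lf (nat_lit 0) (nat_lit 11331700927) (nat_lit 532) (nat_lit 5665164847) (nat_lit 76) (nat_lit 1985351842) (nat_lit 164) (nat_lit 5) (nat_lit 171) (nat_lit 5) (nat_lit 165) (nat_lit 5) (nat_lit 331) (nat_lit 285) (nat_lit 164)))) (XT.nd (nat_lit 78) (nat_lit 532) (nat_lit 0) (XT.lf (nat_lit 0) (nat_lit 8342848472) (nat_lit 456) (nat_lit 7757634648) (nat_lit 532) (nat_lit 3244581473) (nat_lit 158) (nat_lit 5) (nat_lit 164) (nat_lit 5) (nat_lit 165) (nat_lit 5) (nat_lit 332) (nat_lit 285) (nat_lit 163)) (XT.nd (nat_lit 78) (nat_lit 0) (nat_lit 0) (XT.lf (nat_lit 0) (nat_lit 1331453934) (nat_lit 532) (nat_lit 16587730662) (nat_lit 76) (nat_lit 1798356823) (nat_lit 151) (nat_lit 5) (nat_lit 158) (nat_lit 5) (nat_lit 152) (nat_lit 5) (nat_lit 333) (nat_lit 285) (nat_lit 162)) (XT.lf (nat_lit 0) (nat_lit 6112176178) (nat_lit 532) (nat_lit 2358610147) (nat_lit 76) (nat_lit 11627757409)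 (nat_lit 151) (nat_lit 5) (nat_lit 158) (nat_lit 5) (nat_lit 152) (nat_lit 5) (nat_lit 334) (nat_lit 285) (nat_lit 161))))) (XT.nd (nat_lit 234) (nat_lit 760) (nat_lit 0) (XT.nd (nat_lit 78) (nat_lit 912) (nat_lit 0) (XT.lf (nat_lit 0) (nat_lit 11110541582) (nat_lit 532) (nat_lit 8058445087) (nat_lit 76) (nat_lit 1320514588) (nat_lit 145) (nat_lit 5) (nat_lit 152) (nat_lit 5) (nat_lit 146) (nat_lit 5) (nat_lit 335) (nat_lit 285) (nat_lit 160)) (XT.nd (nat_lit 78) (nat_lit 532) (nat_lit 0) (XT.lf (nat_lit 0) (nat_lit 6816924456) (nat_lit 380) (nat_lit 9543972833) (nat_lit 456) (nat_lit 4529258718) (nat_lit 140) (nat_lit 5) (nat_lit 145) (nat_lit 5) (nat_lit 146) (nat_lit 5) (nat_lit 336) (nat_lit 285) (nat_lit 159)) (XT.lf (nat_lit 0) (nat_lit 508894785) (nat_lit 532) (nat_lit 20369064014) (nat_lit 76) (nat_lit 423838495) (nat_lit 133) (nat_lit 5) (nat_lit 140) (nat_lit 5) (nat_lit 134) (nat_lit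 5) (nat_lit 337) (nat_lit 285) (nat_lit 158)))) (XT.nd (nat_lit 156) (nat_lit 380) (nat_lit 0) (XT.nd (nat_lit 78) (nat_lit 380) (nat_lit 0) (XT.lf (nat_lit 0) (nat_lit 5782333879) (nat_lit 532) (nat_lit 5257470198) (nat_lit 76) (nat_lit 10682480041) (nat_lit 133) (nat_lit 5) (nat_lit 140) (nat_lit 5) (nat_lit 134) (nat_lit 5) (nat_lit 338) (nat_lit 285) (nat_lit 157)) (XT.lf (nat_lit 0) (nat_lit 10424424726) (nat_lit 380) (nat_lit 843160006) (nat_lit 456) (nat_lit 10886736978) (nat_lit 128) (nat_lit 5) (nat_lit 133) (nat_lit 5) (nat_lit 134) (nat_lit 5) (nat_lit 339) (nat_lit 285) (nat_lit 156))) (XT.nd (nat_lit 78) (nat_lit 0) (nat_lit 0) (XT.lf (nat_lit 0) (nat_lit 4020217057) (nat_lit 380) (nat_lit 13008028574) (nat_lit 456) (nat_lit 5568865841) (nat_lit 123) (nat_lit 5) (nat_lit 128) (nat_lit 5) (nat_lit 129) (nat_lit 5) (nat_lit 340) (nat_lit 285) (nat_lit 155)) (XT.lf (nat_lit 0) (nat_lit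 20378309725) (nat_lit 380) (nat_lit 2654953815) (nat_lit 456) (nat_lit 18498498) (nat_lit 123) (nat_lit 5) (nat_lit 128) (nat_lit 5) (nat_lit 129) (nat_lit 5) (nat_lit 341) (nat_lit 285) (nat_lit 154)))))) (XT.nd (nat_lit 468) (nat_lit 1292) (nat_lit 0) (XT.nd (nat_lit 234) (nat_lit 1064) (nat_lit 0) (XT.nd (nat_lit 78) (nat_lit 380) (nat_lit 0) (XT.lf (nat_lit 0) (nat_lit 5753005085) (nat_lit 456) (nat_lit 9738068739) (nat_lit 76) (nat_lit 8025658612) (nat_lit 117) (nat_lit 5) (nat_lit 123) (nat_lit 5) (nat_lit 118) (nat_lit 5) (nat_lit 342) (nat_lit 285) (nat_lit 153)) (XT.nd (nat_lit 78) (nat_lit 0) (nat_lit 0) (XT.lf (nat_lit 0) (nat_lit 6818157890) (nat_lit 380) (nat_lit 4946482819) (nat_lit 456) (nat_lit 12229671286) (nat_lit 112) (nat_lit 5) (nat_lit 117) (nat_lit 5) (nat_lit 118) (nat_lit 5) (nat_lit 343) (nat_lit 285) (nat_lit 152)) (XT.lf (nat_lit 0) (nat_lit 18048649527) (nat_lit 456)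 (nat_lit 538199838) (nat_lit 76) (nat_lit 5897536142) (nat_lit 112) (nat_lit 5) (nat_lit 118) (nat_lit 5) (nat_lit 113) (nat_lit 5) (nat_lit 344) (nat_lit 285) (nat_lit 151)))) (XT.nd (nat_lit 78) (nat_lit 760) (nat_lit 0) (XT.lf (nat_lit 0) (nat_lit 16767439495) (nat_lit 304) (nat_lit 7883255020) (nat_lit 380) (nat_lit 335883235) (nat_lit 108) (nat_lit 5) (nat_lit 112) (nat_lit 5) (nat_lit 113) (nat_lit 5) (nat_lit 345) (nat_lit 285) (nat_lit 150)) (XT.nd (nat_lit 78) (nat_lit 304) (nat_lit 0) (XT.lf (nat_lit 0) (nat_lit 5940869473) (nat_lit 456) (nat_lit 16363899156) (nat_lit 76) (nat_lit 3196863414) (nat_lit 102) (nat_lit 5) (nat_lit 108) (nat_lit 5) (nat_lit 103) (nat_lit 5) (nat_lit 346) (nat_lit 285) (nat_lit 149)) (XT.lf (nat_lit 0) (nat_lit 1036987683) (nat_lit 304) (nat_lit 11467848516) (nat_lit 380) (nat_lit 13525194190) (nat_lit 98) (nat_lit 5) (nat_lit 102) (nat_lit 5) (nat_lit 103)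 (nat_lit 5) (nat_lit 347) (nat_lit 285) (nat_lit 148))))) (XT.nd (nat_lit 234) (nat_lit 608) (nat_lit 0) (XT.nd (nat_lit 78) (nat_lit 684) (nat_lit 0) (XT.lf (nat_lit 0) (nat_lit 19166116220) (nat_lit 304) (nat_lit 198661517) (nat_lit 380) (nat_lit 7207527972) (nat_lit 98) (nat_lit 5) (nat_lit 102) (nat_lit 5) (nat_lit 103) (nat_lit 5) (nat_lit 348) (nat_lit 285) (nat_lit 147)) (XT.nd (nat_lit 78) (nat_lit 380) (nat_lit 0) (XT.lf (nat_lit 0) (nat_lit 10757831010) (nat_lit 304) (nat_lit 15805081671) (nat_lit 380) (nat_lit 565294665) (nat_lit 94) (nat_lit 5) (nat_lit 98) (nat_lit 5) (nat_lit 99) (nat_lit 5) (nat_lit 349) (nat_lit 285) (nat_lit 146)) (XT.lf (nat_lit 0) (nat_lit 1832661725) (nat_lit 304) (nat_lit 4413596367) (nat_lit 380) (nat_lit 21452671309) (nat_lit 89) (nat_lit 5) (nat_lit 93) (nat_lit 5) (nat_lit 94) (nat_lit 5) (nat_lit 350) (nat_lit 285) (nat_lit 145)))) (XT.nd (nat_lit 156)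 (nat_lit 304) (nat_lit 0) (XT.nd (nat_lit 78) (nat_lit 304) (nat_lit 0) (XT.lf (nat_lit 0) (nat_lit 13402512584) (nat_lit 380) (nat_lit 7547962188) (nat_lit 76) (nat_lit 7333268415) (nat_lit 89) (nat_lit 5) (nat_lit 94) (nat_lit 5) (nat_lit 90) (nat_lit 5) (nat_lit 351) (nat_lit 285) (nat_lit 144)) (XT.lf (nat_lit 0) (nat_lit 11423459672) (nat_lit 304) (nat_lit 9442807656) (nat_lit 380) (nat_lit 8017983154) (nat_lit 85) (nat_lit 5) (nat_lit 89) (nat_lit 5) (nat_lit 90) (nat_lit 5) (nat_lit 352) (nat_lit 285) (nat_lit 143))) (XT.nd (nat_lit 78) (nat_lit 76) (nat_lit 0) (XT.lf (nat_lit 0) (nat_lit 1553330379) (nat_lit 228) (nat_lit 27067123910) (nat_lit 304) (nat_lit 880993510) (nat_lit 82) (nat_lit 5) (nat_lit 85) (nat_lit 5) (nat_lit 86) (nat_lit 5) (nat_lit 353) (nat_lit 285) (nat_lit 142)) (XT.lf (nat_lit 0) (nat_lit 6556932029) (nat_lit 304) (nat_lit 8880375762) (nat_lit 76) (nat_lit 14695584364)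 (nat_lit 81) (nat_lit 5) (nat_lit 85) (nat_lit 5) (nat_lit 82) (nat_lit 5) (nat_lit 354) (nat_lit 285) (nat_lit 141))))))) (XT.nd (nat_lit 36036) (nat_lit 0) (nat_lit 18012) (XT.nd (nat_lit 35490) (nat_lit 0) (nat_lit 25156) (XT.nd (nat_lit 35256) (nat_lit 0) (nat_lit 26600) (XT.nd (nat_lit 78) (nat_lit 228) (nat_lit 0) (XT.lf (nat_lit 0) (nat_lit 10880160691) (nat_lit 304) (nat_lit 3386313834) (nat_lit 380) (nat_lit 16515484680) (nat_lit 77) (nat_lit 5) (nat_lit 81) (nat_lit 5) (nat_lit 82) (nat_lit 5) (nat_lit 355) (nat_lit 285) (nat_lit 140)) (XT.nd (nat_lit 78) (nat_lit 228) (nat_lit 0) (XT.lf (nat_lit 0) (nat_lit 22316380467) (nat_lit 380) (nat_lit 169177891) (nat_lit 76) (nat_lit 8962763023) (nat_lit 77) (nat_lit 5) (nat_lit 82) (nat_lit 5) (nat_lit 78) (nat_lit 5) (nat_lit 356) (nat_lit 285) (nat_lit 139)) (XT.lf (nat_lit 0) (nat_lit 20384638612) (nat_lit 228) (nat_lit 10368333857) (nat_lit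 304) (nat_lit 1378802698) (nat_lit 74) (nat_lit 5) (nat_lit 77) (nat_lit 5) (nat_lit 78) (nat_lit 5) (nat_lit 357) (nat_lit 285) (nat_lit 138)))) (XT.nd (nat_lit 78) (nat_lit 0) (nat_lit 0) (XT.lf (nat_lit 0) (nat_lit 1384789728) (nat_lit 0) (nat_lit 1384789728) (nat_lit 1444) (nat_lit 1922170012) (nat_lit 424) (nat_lit 5) (nat_lit 424) (nat_lit 3) (nat_lit 443) (nat_lit 3) (nat_lit 286) (nat_lit 286) (nat_lit 208)) (XT.nd (nat_lit 78) (nat_lit 0) (nat_lit 0) (XT.lf (nat_lit 0) (nat_lit 6792703510) (nat_lit 1444) (nat_lit 284521716) (nat_lit 1520) (nat_lit 2422475809) (nat_lit 424) (nat_lit 5) (nat_lit 443) (nat_lit 3) (nat_lit 444) (nat_lit 5) (nat_lit 287) (nat_lit 286) (nat_lit 207)) (XT.lf (nat_lit 76) (nat_lit 6274912374) (nat_lit 0) (nat_lit 1823292958) (nat_lit 1520) (nat_lit 1520941385) (nat_lit 425) (nat_lit 5) (nat_lit 424) (nat_lit 5) (nat_lit 444) (nat_lit 5) (nat_lit 288) (nat_lit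 286) (nat_lit 206))))) (XT.nd (nat_lit 234) (nat_lit 0) (nat_lit 152) (XT.nd (nat_lit 78) (nat_lit 1520) (nat_lit 0) (XT.lf (nat_lit 76) (nat_lit 3288415785) (nat_lit 0) (nat_lit 6157424148) (nat_lit 1520) (nat_lit 296319725) (nat_lit 426) (nat_lit 5) (nat_lit 425) (nat_lit 5) (nat_lit 445) (nat_lit 5) (nat_lit 289) (nat_lit 286) (nat_lit 205)) (XT.nd (nat_lit 78) (nat_lit 0) (nat_lit 76) (XT.lf (nat_lit 76) (nat_lit 257677237) (nat_lit 0) (nat_lit 688555977) (nat_lit 1596) (nat_lit 8922668632) (nat_lit 406) (nat_lit 5) (nat_lit 405) (nat_lit 5) (nat_lit 426) (nat_lit 5) (nat_lit 290) (nat_lit 286) (nat_lit 204)) (XT.lf (nat_lit 0) (nat_lit 2256561121) (nat_lit 1520) (nat_lit 2799261218) (nat_lit 1596) (nat_lit 4942934265) (nat_lit 406) (nat_lit 5) (nat_lit 426) (nat_lit 5) (nat_lit 427) (nat_lit 5) (nat_lit 291) (nat_lit 286) (nat_lit 203)))) (XT.nd (nat_lit 156) (nat_lit 0) (nat_lit 76) (XT.nd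 (nat_lit 78) (nat_lit 0) (nat_lit 0) (XT.lf (nat_lit 0) (nat_lit 3602138909) (nat_lit 1520) (nat_lit 5893155936) (nat_lit 1596) (nat_lit 637332155) (nat_lit 407) (nat_lit 5) (nat_lit 427) (nat_lit 5) (nat_lit 428) (nat_lit 5) (nat_lit 292) (nat_lit 286) (nat_lit 202)) (XT.lf (nat_lit 76) (nat_lit 1214645796) (nat_lit 0) (nat_lit 3794940001) (nat_lit 1596) (nat_lit 5260535343) (nat_lit 408) (nat_lit 5) (nat_lit 407) (nat_lit 5) (nat_lit 428) (nat_lit 5) (nat_lit 293) (nat_lit 286) (nat_lit 201))) (XT.nd (nat_lit 78) (nat_lit 0) (nat_lit 0) (XT.lf (nat_lit 0) (nat_lit 6474721631) (nat_lit 1520) (nat_lit 1833724070) (nat_lit 1596) (nat_lit 2103021661) (nat_lit 408) (nat_lit 5) (nat_lit 428) (nat_lit 5) (nat_lit 429) (nat_lit 5) (nat_lit 294) (nat_lit 286) (nat_lit 200)) (XT.lf (nat_lit 76) (nat_lit 5628474429) (nat_lit 0) (nat_lit 2380158044) (nat_lit 1596) (nat_lit 2547960584) (nat_lit 409) (nat_lit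 5) (nat_lit 408) (nat_lit 5) (nat_lit 429) (nat_lit 5) (nat_lit 295) (nat_lit 286) (nat_lit 199)))))) (XT.nd (nat_lit 546) (nat_lit 5852) (nat_lit 0) (XT.nd (nat_lit 234) (nat_lit 0) (nat_lit 152) (XT.nd (nat_lit 78) (nat_lit 1596) (nat_lit 0) (XT.lf (nat_lit 76) (nat_lit 2618806502) (nat_lit 0) (nat_lit 6987356251) (nat_lit 1596) (nat_lit 1099592199) (nat_lit 410) (nat_lit 5) (nat_lit 409) (nat_lit 5) (nat_lit 430) (nat_lit 5) (nat_lit 296) (nat_lit 286) (nat_lit 198)) (XT.nd (nat_lit 78) (nat_lit 0) (nat_lit 76) (XT.lf (nat_lit 0) (nat_lit 401140368) (nat_lit 1596) (nat_lit 442990826) (nat_lit 1672) (nat_lit 10014961242) (nat_lit 388) (nat_lit 5) (nat_lit 409) (nat_lit 5) (nat_lit 410) (nat_lit 5) (nat_lit 297) (nat_lit 286) (nat_lit 197)) (XT.lf (nat_lit 0) (nat_lit 1982310660) (nat_lit 1596) (nat_lit 3555858877) (nat_lit 1672) (nat_lit 5477739898) (nat_lit 389) (nat_lit 5) (nat_lit 410) (nat_lit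 5) (nat_lit 411) (nat_lit 5) (nat_lit 298) (nat_lit 286) (nat_lit 196)))) (XT.nd (nat_lit 156) (nat_lit 0) (nat_lit 76) (XT.nd (nat_lit 78) (nat_lit 0) (nat_lit 0) (XT.lf (nat_lit 0) (nat_lit 3620452367) (nat_lit 1596) (nat_lit 6725996179) (nat_lit 1672) (nat_lit 830822599) (nat_lit 390) (nat_lit 5) (nat_lit 411) (nat_lit 5) (nat_lit 412) (nat_lit 5) (nat_lit 299) (nat_lit 286) (nat_lit 195)) (XT.lf (nat_lit 76) (nat_lit 1359793463) (nat_lit 0) (nat_lit 3985403794) (nat_lit 1672) (nat_lit 5997557297) (nat_lit 391) (nat_lit 5) (nat_lit 390) (nat_lit 5) (nat_lit 412) (nat_lit 5) (nat_lit 300) (nat_lit 286) (nat_lit 194))) (XT.nd (nat_lit 78) (nat_lit 0) (nat_lit 0) (XT.lf (nat_lit 0) (nat_lit 7152402859) (nat_lit 1596) (nat_lit 1774486436) (nat_lit 1672) (nat_lit 2585727955) (nat_lit 391) (nat_lit 5) (nat_lit 412) (nat_lit 5) (nat_lit 413) (nat_lit 5) (nat_lit 301) (nat_lit 286) (nat_lit 193)) (XT.lf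 (nat_lit 76) (nat_lit 6716972233) (nat_lit 0) (nat_lit 2336218326) (nat_lit 1672) (nat_lit 2633626251) (nat_lit 392) (nat_lit 5) (nat_lit 391) (nat_lit 5) (nat_lit 413) (nat_lit 5) (nat_lit 302) (nat_lit 286) (nat_lit 192))))) (XT.nd (nat_lit 234) (nat_lit 2812) (nat_lit 0) (XT.nd (nat_lit 78) (nat_lit 1748) (nat_lit 0) (XT.lf (nat_lit 0) (nat_lit 3614906343) (nat_lit 1596) (nat_lit 7430459234) (nat_lit 1672) (nat_lit 820216984) (nat_lit 371) (nat_lit 5) (nat_lit 392) (nat_lit 5) (nat_lit 393) (nat_lit 5) (nat_lit 303) (nat_lit 286) (nat_lit 191)) (XT.nd (nat_lit 78) (nat_lit 0) (nat_lit 0) (XT.lf (nat_lit 0) (nat_lit 434242719) (nat_lit 1672) (nat_lit 622334798) (nat_lit 1748) (nat_lit 10992569441) (nat_lit 348) (nat_lit 5) (nat_lit 370) (nat_lit 5) (nat_lit 371) (nat_lit 5) (nat_lit 304) (nat_lit 286) (nat_lit 190)) (XT.lf (nat_lit 0) (nat_lit 3047474183) (nat_lit 1748) (nat_lit 2817018897) (nat_lit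 76) (nat_lit 6372263331) (nat_lit 348) (nat_lit 5) (nat_lit 371) (nat_lit 5) (nat_lit 349) (nat_lit 5) (nat_lit 305) (nat_lit 286) (nat_lit 189)))) (XT.nd (nat_lit 156) (nat_lit 836) (nat_lit 0) (XT.nd (nat_lit 78) (nat_lit 836) (nat_lit 0) (XT.lf (nat_lit 0) (nat_lit 5122792418) (nat_lit 1216) (nat_lit 6138599332) (nat_lit 76) (nat_lit 1168133157) (nat_lit 333) (nat_lit 5) (nat_lit 349) (nat_lit 5) (nat_lit 334) (nat_lit 5) (nat_lit 306) (nat_lit 286) (nat_lit 188)) (XT.lf (nat_lit 0) (nat_lit 3059066751) (nat_lit 836) (nat_lit 4252232774) (nat_lit 912) (nat_lit 5315782281) (nat_lit 322) (nat_lit 5) (nat_lit 333) (nat_lit 5) (nat_lit 334) (nat_lit 5) (nat_lit 307) (nat_lit 286) (nat_lit 187))) (XT.nd (nat_lit 78) (nat_lit 836) (nat_lit 0) (XT.lf (nat_lit 0) (nat_lit 9599888685) (nat_lit 912) (nat_lit 257440339) (nat_lit 76) (nat_lit 2972571090) (nat_lit 322) (nat_lit 5) (nat_lit 334) (nat_lit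 5) (nat_lit 323) (nat_lit 5) (nat_lit 308) (nat_lit 286) (nat_lit 186)) (XT.lf (nat_lit 0) (nat_lit 9403208474) (nat_lit 836) (nat_lit 2617482696) (nat_lit 912) (nat_lit 1016863250) (nat_lit 311) (nat_lit 5) (nat_lit 322) (nat_lit 5) (nat_lit 323) (nat_lit 5) (nat_lit 309) (nat_lit 286) (nat_lit 185))))))))
noncomputable def xc94 : XT := (XT.nd (nat_lit 2028) (nat_lit 5852) (nat_lit 0) (XT.nd (nat_lit 1014) (nat_lit 4864) (nat_lit 0) (XT.nd (nat_lit 468) (nat_lit 3344) (nat_lit 0) (XT.nd (nat_lit 234) (nat_lit 2280) (nat_lit 0) (XT.nd (nat_lit 78) (nat_lit 836) (nat_lit 0) (XT.lf (nat_lit 0) (nat_lit 1294072730) (nat_lit 836) (nat_lit 7128532979) (nat_lit 76) (nat_lit 4827731085) (nat_lit 300) (nat_lit 5) (nat_lit 311) (nat_lit 5) (nat_lit 301) (nat_lit 5) (nat_lit 310) (nat_lit 286) (nat_lit 184)) (XT.nd (nat_lit 78) (nat_lit 0) (nat_lit 0) (XT.lf (nat_lit 0) (nat_lit 2738588083) (nat_lit 836)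 (nat_lit 957164199) (nat_lit 912) (nat_lit 9772932163) (nat_lit 289) (nat_lit 5) (nat_lit 300) (nat_lit 5) (nat_lit 301) (nat_lit 5) (nat_lit 311) (nat_lit 286) (nat_lit 183)) (XT.lf (nat_lit 0) (nat_lit 6237468271) (nat_lit 912) (nat_lit 761701507) (nat_lit 76) (nat_lit 6693073269) (nat_lit 289) (nat_lit 5) (nat_lit 301) (nat_lit 5) (nat_lit 290) (nat_lit 5) (nat_lit 312) (nat_lit 286) (nat_lit 182)))) (XT.nd (nat_lit 78) (nat_lit 1520) (nat_lit 0) (XT.lf (nat_lit 0) (nat_lit 8905088770) (nat_lit 836) (nat_lit 4324551635) (nat_lit 76) (nat_lit 691894594) (nat_lit 279) (nat_lit 5) (nat_lit 290) (nat_lit 5) (nat_lit 280) (nat_lit 5) (nat_lit 313) (nat_lit 286) (nat_lit 181)) (XT.nd (nat_lit 78) (nat_lit 760) (nat_lit 0) (XT.lf (nat_lit 0) (nat_lit 6129054091) (nat_lit 760) (nat_lit 5592376409) (nat_lit 836) (nat_lit 2434920435) (nat_lit 269) (nat_lit 5) (nat_lit 279) (nat_lit 5) (nat_lit 280) (nat_lit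 5) (nat_lit 314) (nat_lit 286) (nat_lit 180)) (XT.lf (nat_lit 0) (nat_lit 259596100) (nat_lit 760) (nat_lit 11846637752) (nat_lit 76) (nat_lit 2291196898) (nat_lit 259) (nat_lit 5) (nat_lit 269) (nat_lit 5) (nat_lit 260) (nat_lit 5) (nat_lit 315) (nat_lit 286) (nat_lit 179))))) (XT.nd (nat_lit 234) (nat_lit 1976) (nat_lit 0) (XT.nd (nat_lit 78) (nat_lit 1368) (nat_lit 0) (XT.lf (nat_lit 0) (nat_lit 3071964574) (nat_lit 760) (nat_lit 1166341104) (nat_lit 76) (nat_lit 10405731066) (nat_lit 259) (nat_lit 5) (nat_lit 269) (nat_lit 5) (nat_lit 260) (nat_lit 5) (nat_lit 316) (nat_lit 286) (nat_lit 178)) (XT.nd (nat_lit 78) (nat_lit 684) (nat_lit 0) (XT.lf (nat_lit 0) (nat_lit 6037171001) (nat_lit 760) (nat_lit 4981020376) (nat_lit 76) (nat_lit 3878497322) (nat_lit 250) (nat_lit 5) (nat_lit 260) (nat_lit 5) (nat_lit 251) (nat_lit 5) (nat_lit 317) (nat_lit 286) (nat_lit 177)) (XT.lf (nat_lit 0) (nat_lit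 6219402586) (nat_lit 684) (nat_lit 2927484794) (nat_lit 760) (nat_lit 6008938378) (nat_lit 241) (nat_lit 5) (nat_lit 250) (nat_lit 5) (nat_lit 251) (nat_lit 5) (nat_lit 318) (nat_lit 286) (nat_lit 176)))) (XT.nd (nat_lit 156) (nat_lit 1216) (nat_lit 0) (XT.nd (nat_lit 78) (nat_lit 76) (nat_lit 0) (XT.lf (nat_lit 0) (nat_lit 2374626478) (nat_lit 684) (nat_lit 10039090102) (nat_lit 760) (nat_lit 3007760057) (nat_lit 232) (nat_lit 5) (nat_lit 241) (nat_lit 5) (nat_lit 242) (nat_lit 5) (nat_lit 319) (nat_lit 286) (nat_lit 175)) (XT.lf (nat_lit 0) (nat_lit 142526627) (nat_lit 760) (nat_lit 1590137838) (nat_lit 76) (nat_lit 13961233750) (nat_lit 231) (nat_lit 5) (nat_lit 241) (nat_lit 5) (nat_lit 232) (nat_lit 5) (nat_lit 320) (nat_lit 286) (nat_lit 174))) (XT.nd (nat_lit 78) (nat_lit 608) (nat_lit 0) (XT.lf (nat_lit 0) (nat_lit 3438669055) (nat_lit 684) (nat_lit 5715125812) (nat_lit 76) (nat_lit 6818470642)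 (nat_lit 223) (nat_lit 5) (nat_lit 232) (nat_lit 5) (nat_lit 224) (nat_lit 5) (nat_lit 321) (nat_lit 286) (nat_lit 173)) (XT.lf (nat_lit 0) (nat_lit 6271008943) (nat_lit 608) (nat_lit 606477853) (nat_lit 684) (nat_lit 9380635681) (nat_lit 215) (nat_lit 5) (nat_lit 223) (nat_lit 5) (nat_lit 224) (nat_lit 5) (nat_lit 322) (nat_lit 286) (nat_lit 172)))))) (XT.nd (nat_lit 468) (nat_lit 2584) (nat_lit 0) (XT.nd (nat_lit 234) (nat_lit 1064) (nat_lit 0) (XT.nd (nat_lit 78) (nat_lit 684) (nat_lit 0) (XT.lf (nat_lit 0) (nat_lit 2094750870) (nat_lit 532) (nat_lit 8411566975) (nat_lit 608) (nat_lit 6044514391) (nat_lit 208) (nat_lit 5) (nat_lit 215) (nat_lit 5) (nat_lit 216) (nat_lit 5) (nat_lit 323) (nat_lit 286) (nat_lit 171)) (XT.nd (nat_lit 78) (nat_lit 684) (nat_lit 0) (XT.lf (nat_lit 0) (nat_lit 14299458250) (nat_lit 608) (nat_lit 2203951962) (nat_lit 76) (nat_lit 347817831) (nat_lit 208) (nat_lit 5)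 (nat_lit 216) (nat_lit 5) (nat_lit 209) (nat_lit 5) (nat_lit 324) (nat_lit 286) (nat_lit 170)) (XT.lf (nat_lit 0) (nat_lit 1138964875) (nat_lit 684) (nat_lit 6690910624) (nat_lit 76) (nat_lit 9328498960) (nat_lit 199) (nat_lit 5) (nat_lit 208) (nat_lit 5) (nat_lit 200) (nat_lit 5) (nat_lit 325) (nat_lit 286) (nat_lit 169)))) (XT.nd (nat_lit 78) (nat_lit 532) (nat_lit 0) (XT.lf (nat_lit 0) (nat_lit 4950537588) (nat_lit 608) (nat_lit 11365141528) (nat_lit 76) (nat_lit 1157835727) (nat_lit 192) (nat_lit 5) (nat_lit 200) (nat_lit 5) (nat_lit 193) (nat_lit 5) (nat_lit 326) (nat_lit 286) (nat_lit 168)) (XT.nd (nat_lit 78) (nat_lit 0) (nat_lit 0) (XT.lf (nat_lit 0) (nat_lit 1531802667) (nat_lit 532) (nat_lit 7435181995) (nat_lit 608) (nat_lit 8829326475) (nat_lit 185) (nat_lit 5) (nat_lit 192) (nat_lit 5) (nat_lit 193) (nat_lit 5) (nat_lit 327) (nat_lit 286) (nat_lit 167)) (XT.lf (nat_lit 0) (nat_lit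 13175484105) (nat_lit 608) (nat_lit 3189270384) (nat_lit 76) (nat_lit 1762617539) (nat_lit 185) (nat_lit 5) (nat_lit 193) (nat_lit 5) (nat_lit 186) (nat_lit 5) (nat_lit 328) (nat_lit 286) (nat_lit 166))))) (XT.nd (nat_lit 234) (nat_lit 988) (nat_lit 0) (XT.nd (nat_lit 78) (nat_lit 1064) (nat_lit 0) (XT.lf (nat_lit 0) (nat_lit 10343165972) (nat_lit 532) (nat_lit 7267368498) (nat_lit 608) (nat_lit 855835896) (nat_lit 178) (nat_lit 5) (nat_lit 185) (nat_lit 5) (nat_lit 186) (nat_lit 5) (nat_lit 329) (nat_lit 286) (nat_lit 165)) (XT.nd (nat_lit 78) (nat_lit 456) (nat_lit 0) (XT.lf (nat_lit 0) (nat_lit 3374513946) (nat_lit 608) (nat_lit 13288510628) (nat_lit 76) (nat_lit 2150977879) (nat_lit 170) (nat_lit 5) (nat_lit 178) (nat_lit 5) (nat_lit 171) (nat_lit 5) (nat_lit 330) (nat_lit 286) (nat_lit 164)) (XT.lf (nat_lit 0) (nat_lit 454308916) (nat_lit 456) (nat_lit 7356826612) (nat_lit 532) (nat_lit 11359005724)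 (nat_lit 164) (nat_lit 5) (nat_lit 170) (nat_lit 5) (nat_lit 171) (nat_lit 5) (nat_lit 331) (nat_lit 286) (nat_lit 163)))) (XT.nd (nat_lit 156) (nat_lit 532) (nat_lit 0) (XT.nd (nat_lit 78) (nat_lit 456) (nat_lit 0) (XT.lf (nat_lit 0) (nat_lit 12470234050) (nat_lit 532) (nat_lit 4779715239) (nat_lit 76) (nat_lit 2285237713) (nat_lit 164) (nat_lit 5) (nat_lit 171) (nat_lit 5) (nat_lit 165) (nat_lit 5) (nat_lit 332) (nat_lit 286) (nat_lit 162)) (XT.lf (nat_lit 0) (nat_lit 9631415794) (nat_lit 456) (nat_lit 7734145455) (nat_lit 532) (nat_lit 2543703813) (nat_lit 158) (nat_lit 5) (nat_lit 164) (nat_lit 5) (nat_lit 165) (nat_lit 5) (nat_lit 333) (nat_lit 286) (nat_lit 161))) (XT.nd (nat_lit 78) (nat_lit 0) (nat_lit 0) (XT.lf (nat_lit 0) (nat_lit 2144594553) (nat_lit 532) (nat_lit 16038911720) (nat_lit 76) (nat_lit 2109611826) (nat_lit 151) (nat_lit 5) (nat_lit 158) (nat_lit 5) (nat_lit 152) (nat_lit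 5) (nat_lit 334) (nat_lit 286) (nat_lit 160)) (XT.lf (nat_lit 0) (nat_lit 7046218163) (nat_lit 532) (nat_lit 1413396741) (nat_lit 76) (nat_lit 12226400129) (nat_lit 151) (nat_lit 5) (nat_lit 158) (nat_lit 5) (nat_lit 152) (nat_lit 5) (nat_lit 335) (nat_lit 286) (nat_lit 159))))))) (XT.nd (nat_lit 1014) (nat_lit 1824) (nat_lit 0) (XT.nd (nat_lit 468) (nat_lit 1900) (nat_lit 0) (XT.nd (nat_lit 234) (nat_lit 760) (nat_lit 0) (XT.nd (nat_lit 78) (nat_lit 912) (nat_lit 0) (XT.lf (nat_lit 0) (nat_lit 12180874781) (nat_lit 532) (nat_lit 7287261161) (nat_lit 76) (nat_lit 1620852267) (nat_lit 145) (nat_lit 5) (nat_lit 152) (nat_lit 5) (nat_lit 146) (nat_lit 5) (nat_lit 336) (nat_lit 286) (nat_lit 158)) (XT.nd (nat_lit 78) (nat_lit 532) (nat_lit 0) (XT.lf (nat_lit 0) (nat_lit 8017935764) (nat_lit 380) (nat_lit 9555808845) (nat_lit 456) (nat_lit 3928231257) (nat_lit 140) (nat_lit 5) (nat_lit 145) (nat_lit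 5) (nat_lit 146) (nat_lit 5) (nat_lit 337) (nat_lit 286) (nat_lit 157)) (XT.lf (nat_lit 0) (nat_lit 1238453513) (nat_lit 532) (nat_lit 19976993755) (nat_lit 76) (nat_lit 710695097) (nat_lit 133) (nat_lit 5) (nat_lit 140) (nat_lit 5) (nat_lit 134) (nat_lit 5) (nat_lit 338) (nat_lit 286) (nat_lit 156)))) (XT.nd (nat_lit 78) (nat_lit 760) (nat_lit 0) (XT.lf (nat_lit 0) (nat_lit 6649291162) (nat_lit 532) (nat_lit 4441269859) (nat_lit 76) (nat_lit 11269111188) (nat_lit 133) (nat_lit 5) (nat_lit 140) (nat_lit 5) (nat_lit 134) (nat_lit 5) (nat_lit 339) (nat_lit 286) (nat_lit 155)) (XT.nd (nat_lit 78) (nat_lit 380) (nat_lit 0) (XT.lf (nat_lit 0) (nat_lit 11695281146) (nat_lit 380) (nat_lit 589840511) (nat_lit 456) (nat_lit 10519840790) (nat_lit 128) (nat_lit 5) (nat_lit 133) (nat_lit 5) (nat_lit 134) (nat_lit 5) (nat_lit 340) (nat_lit 286) (nat_lit 154)) (XT.lf (nat_lit 0) (nat_lit 5095385189) (nat_lit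 380) (nat_lit 13111379566) (nat_lit 456) (nat_lit 5054519513) (nat_lit 123) (nat_lit 5) (nat_lit 128) (nat_lit 5) (nat_lit 129) (nat_lit 5) (nat_lit 341) (nat_lit 286) (nat_lit 153))))) (XT.nd (nat_lit 234) (nat_lit 1064) (nat_lit 0) (XT.nd (nat_lit 78) (nat_lit 760) (nat_lit 0) (XT.lf (nat_lit 0) (nat_lit 634085231) (nat_lit 456) (nat_lit 1817728303) (nat_lit 76) (nat_lit 21278077595) (nat_lit 122) (nat_lit 5) (nat_lit 128) (nat_lit 5) (nat_lit 123) (nat_lit 5) (nat_lit 342) (nat_lit 286) (nat_lit 152)) (XT.nd (nat_lit 78) (nat_lit 380) (nat_lit 0) (XT.lf (nat_lit 0) (nat_lit 6567268096) (nat_lit 456) (nat_lit 9098257456) (nat_lit 76) (nat_lit 8543517663) (nat_lit 117) (nat_lit 5) (nat_lit 123) (nat_lit 5) (nat_lit 118) (nat_lit 5) (nat_lit 343) (nat_lit 286) (nat_lit 151)) (XT.lf (nat_lit 0) (nat_lit 7939536136) (nat_lit 380) (nat_lit 4806979843) (nat_lit 456) (nat_lit 11954699338) (nat_lit 112)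 (nat_lit 5) (nat_lit 117) (nat_lit 5) (nat_lit 118) (nat_lit 5) (nat_lit 344) (nat_lit 286) (nat_lit 150)))) (XT.nd (nat_lit 156) (nat_lit 684) (nat_lit 0) (XT.nd (nat_lit 78) (nat_lit 76) (nat_lit 0) (XT.lf (nat_lit 0) (nat_lit 351123609) (nat_lit 304) (nat_lit 18853697432) (nat_lit 380) (nat_lit 6001464590) (nat_lit 108) (nat_lit 5) (nat_lit 112) (nat_lit 5) (nat_lit 113) (nat_lit 5) (nat_lit 345) (nat_lit 286) (nat_lit 149)) (XT.lf (nat_lit 0) (nat_lit 263225079) (nat_lit 380) (nat_lit 7568860856) (nat_lit 76) (nat_lit 17891720162) (nat_lit 107) (nat_lit 5) (nat_lit 112) (nat_lit 5) (nat_lit 108) (nat_lit 5) (nat_lit 346) (nat_lit 286) (nat_lit 148))) (XT.nd (nat_lit 78) (nat_lit 304) (nat_lit 0) (XT.lf (nat_lit 0) (nat_lit 6713711698) (nat_lit 456) (nat_lit 15964423677) (nat_lit 76) (nat_lit 3576341694) (nat_lit 102) (nat_lit 5) (nat_lit 108) (nat_lit 5) (nat_lit 103) (nat_lit 5) (nat_lit 347)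 (nat_lit 286) (nat_lit 147)) (XT.lf (nat_lit 0) (nat_lit 1944044208) (nat_lit 304) (nat_lit 11518921530) (nat_lit 380) (nat_lit 13336003338) (nat_lit 98) (nat_lit 5) (nat_lit 102) (nat_lit 5) (nat_lit 103) (nat_lit 5) (nat_lit 348) (nat_lit 286) (nat_lit 146)))))) (XT.nd (nat_lit 546) (nat_lit 532) (nat_lit 0) (XT.nd (nat_lit 234) (nat_lit 608) (nat_lit 0) (XT.nd (nat_lit 78) (nat_lit 684) (nat_lit 0) (XT.lf (nat_lit 0) (nat_lit 20512243560) (nat_lit 380) (nat_lit 6766845654) (nat_lit 76) (nat_lit 78761492) (nat_lit 98) (nat_lit 5) (nat_lit 103) (nat_lit 5) (nat_lit 99) (nat_lit 5) (nat_lit 349) (nat_lit 286) (nat_lit 145)) (XT.nd (nat_lit 78) (nat_lit 380) (nat_lit 0) (XT.lf (nat_lit 0) (nat_lit 11926811184) (nat_lit 304) (nat_lit 15989794941) (nat_lit 380) (nat_lit 14026151) (nat_lit 94) (nat_lit 5) (nat_lit 98) (nat_lit 5) (nat_lit 99) (nat_lit 5) (nat_lit 350) (nat_lit 286) (nat_lit 144)) (XT.lf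 (nat_lit 0) (nat_lit 2727764036) (nat_lit 304) (nat_lit 4255778129) (nat_lit 380) (nat_lit 21535085755) (nat_lit 89) (nat_lit 5) (nat_lit 93) (nat_lit 5) (nat_lit 94) (nat_lit 5) (nat_lit 351) (nat_lit 286) (nat_lit 143)))) (XT.nd (nat_lit 156) (nat_lit 304) (nat_lit 0) (XT.nd (nat_lit 78) (nat_lit 304) (nat_lit 0) (XT.lf (nat_lit 0) (nat_lit 14340297352) (nat_lit 380) (nat_lit 6949636509) (nat_lit 76) (nat_lit 7831343905) (nat_lit 89) (nat_lit 5) (nat_lit 94) (nat_lit 5) (nat_lit 90) (nat_lit 5) (nat_lit 352) (nat_lit 286) (nat_lit 142)) (XT.lf (nat_lit 0) (nat_lit 12577547181) (nat_lit 304) (nat_lit 9440082412) (nat_lit 380) (nat_lit 7722385066) (nat_lit 85) (nat_lit 5) (nat_lit 89) (nat_lit 5) (nat_lit 90) (nat_lit 5) (nat_lit 353) (nat_lit 286) (nat_lit 141))) (XT.nd (nat_lit 78) (nat_lit 76) (nat_lit 0) (XT.lf (nat_lit 0) (nat_lit 2406912152) (nat_lit 228) (nat_lit 27589270186) (nat_lit 304)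 (nat_lit 379718204) (nat_lit 82) (nat_lit 5) (nat_lit 85) (nat_lit 5) (nat_lit 86) (nat_lit 5) (nat_lit 354) (nat_lit 286) (nat_lit 140)) (XT.lf (nat_lit 0) (nat_lit 7259255683) (nat_lit 304) (nat_lit 8356353694) (nat_lit 76) (nat_lit 15410920791) (nat_lit 81) (nat_lit 5) (nat_lit 85) (nat_lit 5) (nat_lit 82) (nat_lit 5) (nat_lit 355) (nat_lit 286) (nat_lit 139))))) (XT.nd (nat_lit 35334) (nat_lit 0) (nat_lit 25080) (XT.nd (nat_lit 78) (nat_lit 228) (nat_lit 0) (XT.lf (nat_lit 0) (nat_lit 11984175010) (nat_lit 304) (nat_lit 3206231529) (nat_lit 380) (nat_lit 16504863135) (nat_lit 77) (nat_lit 5) (nat_lit 81) (nat_lit 5) (nat_lit 82) (nat_lit 5) (nat_lit 356) (nat_lit 286) (nat_lit 138)) (XT.nd (nat_lit 35178) (nat_lit 0) (nat_lit 26600) (XT.lf (nat_lit 0) (nat_lit 596609279) (nat_lit 228) (nat_lit 22876404708) (nat_lit 304) (nat_lit 8908791328) (nat_lit 74) (nat_lit 5) (nat_lit 77) (nat_lit 5)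 (nat_lit 78) (nat_lit 5) (nat_lit 357) (nat_lit 286) (nat_lit 137)) (XT.lf (nat_lit 0) (nat_lit 1998044380) (nat_lit 0) (nat_lit 1998044380) (nat_lit 1444) (nat_lit 812414481) (nat_lit 424) (nat_lit 5) (nat_lit 424) (nat_lit 3) (nat_lit 443) (nat_lit 3) (nat_lit 287) (nat_lit 287) (nat_lit 206)))) (XT.nd (nat_lit 156) (nat_lit 0) (nat_lit 76) (XT.nd (nat_lit 78) (nat_lit 1520) (nat_lit 0) (XT.lf (nat_lit 76) (nat_lit 882441442) (nat_lit 0) (nat_lit 8332801683) (nat_lit 1520) (nat_lit 522879069) (nat_lit 425) (nat_lit 5) (nat_lit 424) (nat_lit 5) (nat_lit 444) (nat_lit 5) (nat_lit 288) (nat_lit 287) (nat_lit 205)) (XT.lf (nat_lit 0) (nat_lit 626363565) (nat_lit 1520) (nat_lit 2258389157) (nat_lit 1596) (nat_lit 6977635075) (nat_lit 404) (nat_lit 5) (nat_lit 424) (nat_lit 5) (nat_lit 425) (nat_lit 5) (nat_lit 289) (nat_lit 287) (nat_lit 204))) (XT.nd (nat_lit 78) (nat_lit 0) (nat_lit 0) (XT.lf (nat_lit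 0) (nat_lit 1809187961) (nat_lit 1520) (nat_lit 5437861084) (nat_lit 1596) (nat_lit 2743178993) (nat_lit 405) (nat_lit 5) (nat_lit 425) (nat_lit 5) (nat_lit 426) (nat_lit 5) (nat_lit 290) (nat_lit 287) (nat_lit 203)) (XT.lf (nat_lit 76) (nat_lit 1453330567) (nat_lit 0) (nat_lit 1577929033) (nat_lit 1596) (nat_lit 7090607432) (nat_lit 406) (nat_lit 5) (nat_lit 405) (nat_lit 5) (nat_lit 426) (nat_lit 5) (nat_lit 291) (nat_lit 287) (nat_lit 202))))))))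
noncomputable def xc95 : XT := (XT.nd (nat_lit 2106) (nat_lit 10488) (nat_lit 0) (XT.nd (nat_lit 1014) (nat_lit 9120) (nat_lit 0) (XT.nd (nat_lit 468) (nat_lit 1368) (nat_lit 0) (XT.nd (nat_lit 234) (nat_lit 1368) (nat_lit 0) (XT.nd (nat_lit 78) (nat_lit 0) (nat_lit 0) (XT.lf (nat_lit 0) (nat_lit 4315519223) (nat_lit 1520) (nat_lit 1682593264) (nat_lit 1596) (nat_lit 4258869861) (nat_lit 406) (nat_lit 5) (nat_lit 426) (nat_lit 5) (nat_lit 427) (nat_lit 5) (nat_lit 292) (nat_lit 287) (nat_lit 201)) (XT.nd (nat_lit 78) (nat_lit 0) (nat_lit 76) (XT.lf (nat_lit 76) (nat_lit 5552227076) (nat_lit 0) (nat_lit 94589522) (nat_lit 1596) (nat_lit 4749200894) (nat_lit 407) (nat_lit 5) (nat_lit 406) (nat_lit 5) (nat_lit 427) (nat_lit 5) (nat_lit 293) (nat_lit 287) (nat_lit 200)) (XT.lf (nat_lit 76) (nat_lit 2457956550) (nat_lit 0) (nat_lit 4589363682) (nat_lit 1596) (nat_lit 3491353616) (nat_lit 408) (nat_lit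 5) (nat_lit 407) (nat_lit 5) (nat_lit 428) (nat_lit 5) (nat_lit 294) (nat_lit 287) (nat_lit 199)))) (XT.nd (nat_lit 78) (nat_lit 1520) (nat_lit 0) (XT.lf (nat_lit 0) (nat_lit 8497145915) (nat_lit 1520) (nat_lit 674327003) (nat_lit 1596) (nat_lit 1514025309) (nat_lit 408) (nat_lit 5) (nat_lit 428) (nat_lit 5) (nat_lit 429) (nat_lit 5) (nat_lit 295) (nat_lit 287) (nat_lit 198)) (XT.nd (nat_lit 78) (nat_lit 1520) (nat_lit 0) (XT.lf (nat_lit 76) (nat_lit 6992035112) (nat_lit 0) (nat_lit 3039547759) (nat_lit 1596) (nat_lit 804355602) (nat_lit 409) (nat_lit 5) (nat_lit 408) (nat_lit 5) (nat_lit 429) (nat_lit 5) (nat_lit 296) (nat_lit 287) (nat_lit 197)) (XT.lf (nat_lit 0) (nat_lit 630347168) (nat_lit 1596) (nat_lit 7081529944) (nat_lit 1672) (nat_lit 3278619354) (nat_lit 388) (nat_lit 5) (nat_lit 409) (nat_lit 5) (nat_lit 410) (nat_lit 5) (nat_lit 297) (nat_lit 287) (nat_lit 196))))) (XT.nd (nat_lit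 234) (nat_lit 1368) (nat_lit 0) (XT.nd (nat_lit 78) (nat_lit 0) (nat_lit 76) (XT.lf (nat_lit 76) (nat_lit 758200766) (nat_lit 0) (nat_lit 1357054948) (nat_lit 1672) (nat_lit 9033998222) (nat_lit 389) (nat_lit 5) (nat_lit 388) (nat_lit 5) (nat_lit 410) (nat_lit 5) (nat_lit 298) (nat_lit 287) (nat_lit 195)) (XT.nd (nat_lit 78) (nat_lit 0) (nat_lit 76) (XT.lf (nat_lit 0) (nat_lit 3694146037) (nat_lit 1596) (nat_lit 2439852801) (nat_lit 1672) (nat_lit 5177816627) (nat_lit 389) (nat_lit 5) (nat_lit 410) (nat_lit 5) (nat_lit 411) (nat_lit 5) (nat_lit 299) (nat_lit 287) (nat_lit 194)) (XT.lf (nat_lit 0) (nat_lit 5338457679) (nat_lit 1596) (nat_lit 5688553445) (nat_lit 1672) (nat_lit 451910774) (nat_lit 390) (nat_lit 5) (nat_lit 411) (nat_lit 5) (nat_lit 412) (nat_lit 5) (nat_lit 300) (nat_lit 287) (nat_lit 193)))) (XT.nd (nat_lit 156) (nat_lit 1520) (nat_lit 0) (XT.nd (nat_lit 78) (nat_lit 0) (nat_lit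 76) (XT.lf (nat_lit 76) (nat_lit 2619704971) (nat_lit 0) (nat_lit 4456279778) (nat_lit 1672) (nat_lit 4574207357) (nat_lit 391) (nat_lit 5) (nat_lit 390) (nat_lit 5) (nat_lit 412) (nat_lit 5) (nat_lit 301) (nat_lit 287) (nat_lit 192)) (XT.lf (nat_lit 0) (nat_lit 8889451267) (nat_lit 1596) (nat_lit 610008649) (nat_lit 1672) (nat_lit 2326691710) (nat_lit 391) (nat_lit 5) (nat_lit 412) (nat_lit 5) (nat_lit 413) (nat_lit 5) (nat_lit 302) (nat_lit 287) (nat_lit 191))) (XT.nd (nat_lit 78) (nat_lit 1596) (nat_lit 0) (XT.lf (nat_lit 76) (nat_lit 8116437843) (nat_lit 0) (nat_lit 2694258711) (nat_lit 1672) (nat_lit 1195652559) (nat_lit 392) (nat_lit 5) (nat_lit 391) (nat_lit 5) (nat_lit 413) (nat_lit 5) (nat_lit 303) (nat_lit 287) (nat_lit 190)) (XT.lf (nat_lit 0) (nat_lit 625826087) (nat_lit 1672) (nat_lit 7261097288) (nat_lit 76) (nat_lit 4304256192) (nat_lit 370) (nat_lit 5) (nat_lit 392) (nat_lit 5)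 (nat_lit 371) (nat_lit 5) (nat_lit 304) (nat_lit 287) (nat_lit 189)))))) (XT.nd (nat_lit 546) (nat_lit 3800) (nat_lit 0) (XT.nd (nat_lit 234) (nat_lit 2508) (nat_lit 0) (XT.nd (nat_lit 78) (nat_lit 1140) (nat_lit 0) (XT.lf (nat_lit 0) (nat_lit 1658902588) (nat_lit 1672) (nat_lit 854296811) (nat_lit 1748) (nat_lit 9867672232) (nat_lit 348) (nat_lit 5) (nat_lit 370) (nat_lit 5) (nat_lit 371) (nat_lit 5) (nat_lit 305) (nat_lit 287) (nat_lit 188)) (XT.nd (nat_lit 78) (nat_lit 1140) (nat_lit 0) (XT.lf (nat_lit 0) (nat_lit 4520975810) (nat_lit 1748) (nat_lit 1694959409) (nat_lit 76) (nat_lit 6359067535) (nat_lit 348) (nat_lit 5) (nat_lit 371) (nat_lit 5) (nat_lit 349) (nat_lit 5) (nat_lit 306) (nat_lit 287) (nat_lit 187)) (XT.lf (nat_lit 0) (nat_lit 6624950387) (nat_lit 1216) (nat_lit 5106537133) (nat_lit 76) (nat_lit 1042774233) (nat_lit 333) (nat_lit 5) (nat_lit 349) (nat_lit 5) (nat_lit 334) (nat_lit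 5) (nat_lit 307) (nat_lit 287) (nat_lit 186)))) (XT.nd (nat_lit 156) (nat_lit 836) (nat_lit 0) (XT.nd (nat_lit 78) (nat_lit 836) (nat_lit 0) (XT.lf (nat_lit 0) (nat_lit 4347327206) (nat_lit 836) (nat_lit 4500277951) (nat_lit 912) (nat_lit 4130804705) (nat_lit 322) (nat_lit 5) (nat_lit 333) (nat_lit 5) (nat_lit 334) (nat_lit 5) (nat_lit 308) (nat_lit 287) (nat_lit 185)) (XT.lf (nat_lit 0) (nat_lit 936197445) (nat_lit 836) (nat_lit 10235615268) (nat_lit 912) (nat_lit 2016194143) (nat_lit 311) (nat_lit 5) (nat_lit 322) (nat_lit 5) (nat_lit 323) (nat_lit 5) (nat_lit 309) (nat_lit 287) (nat_lit 184))) (XT.nd (nat_lit 78) (nat_lit 760) (nat_lit 0) (XT.lf (nat_lit 0) (nat_lit 223923968) (nat_lit 912) (nat_lit 2549014526) (nat_lit 76) (nat_lit 10629669258) (nat_lit 310) (nat_lit 5) (nat_lit 322) (nat_lit 5) (nat_lit 311) (nat_lit 5) (nat_lit 310) (nat_lit 287) (nat_lit 183)) (XT.lf (nat_lit 0) (nat_lit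 2561018089) (nat_lit 836) (nat_lit 6148105544) (nat_lit 76) (nat_lit 4913133450) (nat_lit 300) (nat_lit 5) (nat_lit 311) (nat_lit 5) (nat_lit 301) (nat_lit 5) (nat_lit 311) (nat_lit 287) (nat_lit 182))))) (XT.nd (nat_lit 234) (nat_lit 2204) (nat_lit 0) (XT.nd (nat_lit 78) (nat_lit 760) (nat_lit 0) (XT.lf (nat_lit 0) (nat_lit 3995653321) (nat_lit 836) (nat_lit 1010952408) (nat_lit 912) (nat_lit 8841142203) (nat_lit 289) (nat_lit 5) (nat_lit 300) (nat_lit 5) (nat_lit 301) (nat_lit 5) (nat_lit 312) (nat_lit 287) (nat_lit 181)) (XT.nd (nat_lit 78) (nat_lit 0) (nat_lit 0) (XT.lf (nat_lit 0) (nat_lit 385618921) (nat_lit 760) (nat_lit 7206349019) (nat_lit 836) (nat_lit 6486726508) (nat_lit 279) (nat_lit 5) (nat_lit 289) (nat_lit 5) (nat_lit 290) (nat_lit 5) (nat_lit 313) (nat_lit 287) (nat_lit 180)) (XT.lf (nat_lit 0) (nat_lit 10310677828) (nat_lit 836) (nat_lit 3284419689) (nat_lit 76) (nat_lit 720374631)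 (nat_lit 279) (nat_lit 5) (nat_lit 290) (nat_lit 5) (nat_lit 280) (nat_lit 5) (nat_lit 314) (nat_lit 287) (nat_lit 179)))) (XT.nd (nat_lit 156) (nat_lit 684) (nat_lit 0) (XT.nd (nat_lit 78) (nat_lit 760) (nat_lit 0) (XT.lf (nat_lit 0) (nat_lit 7463814483) (nat_lit 760) (nat_lit 5722009320) (nat_lit 836) (nat_lit 1372049865) (nat_lit 269) (nat_lit 5) (nat_lit 279) (nat_lit 5) (nat_lit 280) (nat_lit 5) (nat_lit 315) (nat_lit 287) (nat_lit 178)) (XT.lf (nat_lit 0) (nat_lit 1363542468) (nat_lit 760) (nat_lit 11031835401) (nat_lit 76) (nat_lit 2411183808) (nat_lit 259) (nat_lit 5) (nat_lit 269) (nat_lit 5) (nat_lit 260) (nat_lit 5) (nat_lit 316) (nat_lit 287) (nat_lit 177))) (XT.nd (nat_lit 78) (nat_lit 684) (nat_lit 0) (XT.lf (nat_lit 0) (nat_lit 4228355051) (nat_lit 760) (nat_lit 65213392) (nat_lit 76) (nat_lit 10767661253) (nat_lit 259) (nat_lit 5) (nat_lit 269) (nat_lit 5) (nat_lit 260) (nat_lit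 5) (nat_lit 317) (nat_lit 287) (nat_lit 176)) (XT.lf (nat_lit 0) (nat_lit 7259278591) (nat_lit 760) (nat_lit 3991637628) (nat_lit 76) (nat_lit 4071034341) (nat_lit 250) (nat_lit 5) (nat_lit 260) (nat_lit 5) (nat_lit 251) (nat_lit 5) (nat_lit 318) (nat_lit 287) (nat_lit 175))))))) (XT.nd (nat_lit 1014) (nat_lit 4408) (nat_lit 0) (XT.nd (nat_lit 468) (nat_lit 2888) (nat_lit 0) (XT.nd (nat_lit 234) (nat_lit 1748) (nat_lit 0) (XT.nd (nat_lit 78) (nat_lit 760) (nat_lit 0) (XT.lf (nat_lit 0) (nat_lit 7526322129) (nat_lit 684) (nat_lit 2912918137) (nat_lit 760) (nat_lit 5150106241) (nat_lit 241) (nat_lit 5) (nat_lit 250) (nat_lit 5) (nat_lit 251) (nat_lit 5) (nat_lit 319) (nat_lit 287) (nat_lit 174)) (XT.nd (nat_lit 78) (nat_lit 76) (nat_lit 0) (XT.lf (nat_lit 0) (nat_lit 3568183412) (nat_lit 684) (nat_lit 10214174273) (nat_lit 760) (nat_lit 2081066720) (nat_lit 232) (nat_lit 5) (nat_lit 241) (nat_lit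 5) (nat_lit 242) (nat_lit 5) (nat_lit 320) (nat_lit 287) (nat_lit 173)) (XT.lf (nat_lit 0) (nat_lit 1121160649) (nat_lit 760) (nat_lit 534529243) (nat_lit 76) (nat_lit 14488803344) (nat_lit 231) (nat_lit 5) (nat_lit 241) (nat_lit 5) (nat_lit 232) (nat_lit 5) (nat_lit 321) (nat_lit 287) (nat_lit 172)))) (XT.nd (nat_lit 78) (nat_lit 1140) (nat_lit 0) (XT.lf (nat_lit 0) (nat_lit 4495714747) (nat_lit 684) (nat_lit 4782252454) (nat_lit 76) (nat_lit 7153675201) (nat_lit 223) (nat_lit 5) (nat_lit 232) (nat_lit 5) (nat_lit 224) (nat_lit 5) (nat_lit 322) (nat_lit 287) (nat_lit 171)) (XT.nd (nat_lit 78) (nat_lit 532) (nat_lit 0) (XT.lf (nat_lit 0) (nat_lit 7545549948) (nat_lit 608) (nat_lit 471417695) (nat_lit 684) (nat_lit 8709542801) (nat_lit 215) (nat_lit 5) (nat_lit 223) (nat_lit 5) (nat_lit 224) (nat_lit 5) (nat_lit 323) (nat_lit 287) (nat_lit 170)) (XT.lf (nat_lit 0) (nat_lit 3244441206) (nat_lit 532)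 (nat_lit 8491065693) (nat_lit 608) (nat_lit 5292897902) (nat_lit 208) (nat_lit 5) (nat_lit 215) (nat_lit 5) (nat_lit 216) (nat_lit 5) (nat_lit 324) (nat_lit 287) (nat_lit 169))))) (XT.nd (nat_lit 234) (nat_lit 1672) (nat_lit 0) (XT.nd (nat_lit 78) (nat_lit 1216) (nat_lit 0) (XT.lf (nat_lit 0) (nat_lit 15616909732) (nat_lit 608) (nat_lit 1197567641) (nat_lit 76) (nat_lit 523865331) (nat_lit 208) (nat_lit 5) (nat_lit 216) (nat_lit 5) (nat_lit 209) (nat_lit 5) (nat_lit 325) (nat_lit 287) (nat_lit 168)) (XT.nd (nat_lit 78) (nat_lit 532) (nat_lit 0) (XT.lf (nat_lit 0) (nat_lit 2048957664) (nat_lit 684) (nat_lit 5824274526) (nat_lit 76) (nat_lit 9781755641) (nat_lit 199) (nat_lit 5) (nat_lit 208) (nat_lit 5) (nat_lit 200) (nat_lit 5) (nat_lit 326) (nat_lit 287) (nat_lit 167)) (XT.lf (nat_lit 0) (nat_lit 5957438256) (nat_lit 608) (nat_lit 10639555666) (nat_lit 76) (nat_lit 1382955390) (nat_lit 192) (nat_lit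 5) (nat_lit 200) (nat_lit 5) (nat_lit 193) (nat_lit 5) (nat_lit 327) (nat_lit 287) (nat_lit 166)))) (XT.nd (nat_lit 156) (nat_lit 1140) (nat_lit 0) (XT.nd (nat_lit 78) (nat_lit 0) (nat_lit 0) (XT.lf (nat_lit 0) (nat_lit 2626993509) (nat_lit 532) (nat_lit 7449196083) (nat_lit 608) (nat_lit 8236621258) (nat_lit 185) (nat_lit 5) (nat_lit 192) (nat_lit 5) (nat_lit 193) (nat_lit 5) (nat_lit 328) (nat_lit 287) (nat_lit 165)) (XT.lf (nat_lit 0) (nat_lit 14387790011) (nat_lit 608) (nat_lit 2250706604) (nat_lit 76) (nat_lit 2015787091) (nat_lit 185) (nat_lit 5) (nat_lit 193) (nat_lit 5) (nat_lit 186) (nat_lit 5) (nat_lit 329) (nat_lit 287) (nat_lit 164))) (XT.nd (nat_lit 78) (nat_lit 608) (nat_lit 0) (XT.lf (nat_lit 0) (nat_lit 11670923497) (nat_lit 532) (nat_lit 7267777111) (nat_lit 608) (nat_lit 65111776) (nat_lit 178) (nat_lit 5) (nat_lit 185) (nat_lit 5) (nat_lit 186) (nat_lit 5) (nat_lit 330) (nat_lit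 287) (nat_lit 163)) (XT.lf (nat_lit 0) (nat_lit 4265994625) (nat_lit 608) (nat_lit 12660292435) (nat_lit 76) (nat_lit 2435805060) (nat_lit 170) (nat_lit 5) (nat_lit 178) (nat_lit 5) (nat_lit 171) (nat_lit 5) (nat_lit 331) (nat_lit 287) (nat_lit 162)))))) (XT.nd (nat_lit 546) (nat_lit 2128) (nat_lit 0) (XT.nd (nat_lit 234) (nat_lit 1368) (nat_lit 0) (XT.nd (nat_lit 78) (nat_lit 456) (nat_lit 0) (XT.lf (nat_lit 0) (nat_lit 1478151891) (nat_lit 456) (nat_lit 7341105087) (nat_lit 532) (nat_lit 10910002567) (nat_lit 164) (nat_lit 5) (nat_lit 170) (nat_lit 5) (nat_lit 171) (nat_lit 5) (nat_lit 332) (nat_lit 287) (nat_lit 161)) (XT.nd (nat_lit 78) (nat_lit 456) (nat_lit 0) (XT.lf (nat_lit 0) (nat_lit 13597081287) (nat_lit 532) (nat_lit 3928286682) (nat_lit 76) (nat_lit 2580324503) (nat_lit 164) (nat_lit 5) (nat_lit 171) (nat_lit 5) (nat_lit 165) (nat_lit 5) (nat_lit 333) (nat_lit 287) (nat_lit 160)) (XT.lf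 (nat_lit 0) (nat_lit 10899038509) (nat_lit 456) (nat_lit 7724659562) (nat_lit 532) (nat_lit 1867620635) (nat_lit 158) (nat_lit 5) (nat_lit 164) (nat_lit 5) (nat_lit 165) (nat_lit 5) (nat_lit 334) (nat_lit 287) (nat_lit 159)))) (XT.nd (nat_lit 156) (nat_lit 836) (nat_lit 0) (XT.nd (nat_lit 78) (nat_lit 0) (nat_lit 0) (XT.lf (nat_lit 0) (nat_lit 2937744719) (nat_lit 532) (nat_lit 15533698770) (nat_lit 76) (nat_lit 2415434160) (nat_lit 151) (nat_lit 5) (nat_lit 158) (nat_lit 5) (nat_lit 152) (nat_lit 5) (nat_lit 335) (nat_lit 287) (nat_lit 158)) (XT.lf (nat_lit 0) (nat_lit 7965189495) (nat_lit 532) (nat_lit 498147865) (nat_lit 76) (nat_lit 12828662016) (nat_lit 151) (nat_lit 5) (nat_lit 158) (nat_lit 5) (nat_lit 152) (nat_lit 5) (nat_lit 336) (nat_lit 287) (nat_lit 157))) (XT.nd (nat_lit 78) (nat_lit 380) (nat_lit 0) (XT.lf (nat_lit 0) (nat_lit 13241010188) (nat_lit 532) (nat_lit 6551088462) (nat_lit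 76) (nat_lit 1915233553) (nat_lit 145) (nat_lit 5) (nat_lit 152) (nat_lit 5) (nat_lit 146) (nat_lit 5) (nat_lit 337) (nat_lit 287) (nat_lit 156)) (XT.lf (nat_lit 0) (nat_lit 9197774029) (nat_lit 380) (nat_lit 9583756394) (nat_lit 456) (nat_lit 3351474347) (nat_lit 140) (nat_lit 5) (nat_lit 145) (nat_lit 5) (nat_lit 146) (nat_lit 5) (nat_lit 338) (nat_lit 287) (nat_lit 155))))) (XT.nd (nat_lit 234) (nat_lit 1216) (nat_lit 0) (XT.nd (nat_lit 78) (nat_lit 380) (nat_lit 0) (XT.lf (nat_lit 0) (nat_lit 1948895727) (nat_lit 532) (nat_lit 19630745853) (nat_lit 76) (nat_lit 990420557) (nat_lit 133) (nat_lit 5) (nat_lit 140) (nat_lit 5) (nat_lit 134) (nat_lit 5) (nat_lit 339) (nat_lit 287) (nat_lit 154)) (XT.nd (nat_lit 78) (nat_lit 380) (nat_lit 0) (XT.lf (nat_lit 0) (nat_lit 7502448157) (nat_lit 532) (nat_lit 3656490756) (nat_lit 76) (nat_lit 11858062783) (nat_lit 133) (nat_lit 5) (nat_lit 140) (nat_lit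 5) (nat_lit 134) (nat_lit 5) (nat_lit 340) (nat_lit 287) (nat_lit 153)) (XT.lf (nat_lit 0) (nat_lit 12949263041) (nat_lit 380) (nat_lit 344915030) (nat_lit 456) (nat_lit 10181747356) (nat_lit 128) (nat_lit 5) (nat_lit 133) (nat_lit 5) (nat_lit 134) (nat_lit 5) (nat_lit 341) (nat_lit 287) (nat_lit 152)))) (XT.nd (nat_lit 156) (nat_lit 760) (nat_lit 0) (XT.nd (nat_lit 78) (nat_lit 76) (nat_lit 0) (XT.lf (nat_lit 0) (nat_lit 6148012623) (nat_lit 380) (nat_lit 13234299740) (nat_lit 456) (nat_lit 4563858648) (nat_lit 123) (nat_lit 5) (nat_lit 128) (nat_lit 5) (nat_lit 129) (nat_lit 5) (nat_lit 342) (nat_lit 287) (nat_lit 151)) (XT.lf (nat_lit 0) (nat_lit 1268518095) (nat_lit 456) (nat_lit 990175250) (nat_lit 76) (nat_lit 22170438994) (nat_lit 122) (nat_lit 5) (nat_lit 128) (nat_lit 5) (nat_lit 123) (nat_lit 5) (nat_lit 343) (nat_lit 287) (nat_lit 150))) (XT.nd (nat_lit 78) (nat_lit 380) (nat_lit 0)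 (XT.lf (nat_lit 0) (nat_lit 7369124351) (nat_lit 456) (nat_lit 8492749769) (nat_lit 76) (nat_lit 9061006426) (nat_lit 117) (nat_lit 5) (nat_lit 123) (nat_lit 5) (nat_lit 118) (nat_lit 5) (nat_lit 344) (nat_lit 287) (nat_lit 149)) (XT.lf (nat_lit 0) (nat_lit 9041925736) (nat_lit 380) (nat_lit 4679818270) (nat_lit 456) (nat_lit 11708323740) (nat_lit 112) (nat_lit 5) (nat_lit 117) (nat_lit 5) (nat_lit 118) (nat_lit 5) (nat_lit 345) (nat_lit 287) (nat_lit 148))))))))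
noncomputable def xc96 : XT := (XT.nd (nat_lit 37284) (nat_lit 0) (nat_lit 7904) (XT.nd (nat_lit 36270) (nat_lit 0) (nat_lit 23256) (XT.nd (nat_lit 468) (nat_lit 912) (nat_lit 0) (XT.nd (nat_lit 234) (nat_lit 684) (nat_lit 0) (XT.nd (nat_lit 78) (nat_lit 456) (nat_lit 0) (XT.lf (nat_lit 0) (nat_lit 1222093181) (nat_lit 304) (nat_lit 19141735193) (nat_lit 380) (nat_lit 5586670727) (nat_lit 108) (nat_lit 5) (nat_lit 112) (nat_lit 5) (nat_lit 113) (nat_lit 5) (nat_lit 346) (nat_lit 287) (nat_lit 147)) (XT.nd (nat_lit 78) (nat_lit 380) (nat_lit 0) (XT.lf (nat_lit 0) (nat_lit 841060079) (nat_lit 380) (nat_lit 6952675341) (nat_lit 76) (nat_lit 18690083558) (nat_lit 107) (nat_lit 5) (nat_lit 112) (nat_lit 5) (nat_lit 108) (nat_lit 5) (nat_lit 347) (nat_lit 287) (nat_lit 146)) (XT.lf (nat_lit 0) (nat_lit 7475605791) (nat_lit 456) (nat_lit 15604076103) (nat_lit 76) (nat_lit 3950926107) (nat_lit 102) (nat_lit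 5) (nat_lit 108) (nat_lit 5) (nat_lit 103) (nat_lit 5) (nat_lit 348) (nat_lit 287) (nat_lit 145)))) (XT.nd (nat_lit 78) (nat_lit 380) (nat_lit 0) (XT.lf (nat_lit 0) (nat_lit 2828029493) (nat_lit 304) (nat_lit 11588343977) (nat_lit 380) (nat_lit 13175289134) (nat_lit 98) (nat_lit 5) (nat_lit 102) (nat_lit 5) (nat_lit 103) (nat_lit 5) (nat_lit 349) (nat_lit 287) (nat_lit 144)) (XT.nd (nat_lit 78) (nat_lit 380) (nat_lit 0) (XT.lf (nat_lit 0) (nat_lit 21662864923) (nat_lit 380) (nat_lit 6159029096) (nat_lit 76) (nat_lit 345710264) (nat_lit 98) (nat_lit 5) (nat_lit 103) (nat_lit 5) (nat_lit 99) (nat_lit 5) (nat_lit 350) (nat_lit 287) (nat_lit 143)) (XT.lf (nat_lit 0) (nat_lit 514326711) (nat_lit 380) (nat_lit 15678886486) (nat_lit 76) (nat_lit 12564504710) (nat_lit 93) (nat_lit 5) (nat_lit 98) (nat_lit 5) (nat_lit 94) (nat_lit 5) (nat_lit 351) (nat_lit 287) (nat_lit 142))))) (XT.nd (nat_lit 234) (nat_lit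 304) (nat_lit 0) (XT.nd (nat_lit 78) (nat_lit 304) (nat_lit 0) (XT.lf (nat_lit 0) (nat_lit 3601492951) (nat_lit 304) (nat_lit 4109885512) (nat_lit 380) (nat_lit 21652185842) (nat_lit 89) (nat_lit 5) (nat_lit 93) (nat_lit 5) (nat_lit 94) (nat_lit 5) (nat_lit 352) (nat_lit 287) (nat_lit 141)) (XT.nd (nat_lit 78) (nat_lit 304) (nat_lit 0) (XT.lf (nat_lit 0) (nat_lit 15275463752) (nat_lit 380) (nat_lit 6380705919) (nat_lit 76) (nat_lit 8328398877) (nat_lit 89) (nat_lit 5) (nat_lit 94) (nat_lit 5) (nat_lit 90) (nat_lit 5) (nat_lit 353) (nat_lit 287) (nat_lit 140)) (XT.lf (nat_lit 0) (nat_lit 13719680572) (nat_lit 304) (nat_lit 9453693524) (nat_lit 380) (nat_lit 7448695525) (nat_lit 85) (nat_lit 5) (nat_lit 89) (nat_lit 5) (nat_lit 90) (nat_lit 5) (nat_lit 354) (nat_lit 287) (nat_lit 139)))) (XT.nd (nat_lit 35412) (nat_lit 0) (nat_lit 24472) (XT.nd (nat_lit 78) (nat_lit 0) (nat_lit 0) (XT.lf (nat_lit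 0) (nat_lit 104908746) (nat_lit 304) (nat_lit 28038107688) (nat_lit 76) (nat_lit 3134164580) (nat_lit 81) (nat_lit 5) (nat_lit 85) (nat_lit 5) (nat_lit 82) (nat_lit 5) (nat_lit 355) (nat_lit 287) (nat_lit 138)) (XT.lf (nat_lit 0) (nat_lit 7953624637) (nat_lit 304) (nat_lit 7861985072) (nat_lit 76) (nat_lit 16131961673) (nat_lit 81) (nat_lit 5) (nat_lit 85) (nat_lit 5) (nat_lit 82) (nat_lit 5) (nat_lit 356) (nat_lit 287) (nat_lit 137))) (XT.nd (nat_lit 78) (nat_lit 0) (nat_lit 76) (XT.lf (nat_lit 0) (nat_lit 260161584) (nat_lit 1596) (nat_lit 2334970719) (nat_lit 1596) (nat_lit 2334970719) (nat_lit 403) (nat_lit 3) (nat_lit 424) (nat_lit 3) (nat_lit 424) (nat_lit 5) (nat_lit 288) (nat_lit 288) (nat_lit 204)) (XT.lf (nat_lit 0) (nat_lit 1577611873) (nat_lit 1520) (nat_lit 7976105899) (nat_lit 1596) (nat_lit 432407588) (nat_lit 404) (nat_lit 5) (nat_lit 424) (nat_lit 5) (nat_lit 425) (nat_lit 5) (nat_lit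 289) (nat_lit 288) (nat_lit 203)))))) (XT.nd (nat_lit 468) (nat_lit 1292) (nat_lit 0) (XT.nd (nat_lit 234) (nat_lit 0) (nat_lit 152) (XT.nd (nat_lit 78) (nat_lit 0) (nat_lit 76) (XT.lf (nat_lit 0) (nat_lit 2692837901) (nat_lit 1520) (nat_lit 1217647092) (nat_lit 1596) (nat_lit 6204851687) (nat_lit 404) (nat_lit 5) (nat_lit 424) (nat_lit 5) (nat_lit 425) (nat_lit 5) (nat_lit 290) (nat_lit 288) (nat_lit 202)) (XT.nd (nat_lit 78) (nat_lit 0) (nat_lit 0) (XT.lf (nat_lit 0) (nat_lit 3852712731) (nat_lit 1520) (nat_lit 4462799646) (nat_lit 1596) (nat_lit 1932725789) (nat_lit 405) (nat_lit 5) (nat_lit 425) (nat_lit 5) (nat_lit 426) (nat_lit 5) (nat_lit 291) (nat_lit 288) (nat_lit 201)) (XT.lf (nat_lit 76) (nat_lit 2616661856) (nat_lit 0) (nat_lit 2444115407) (nat_lit 1596) (nat_lit 5324118134) (nat_lit 406) (nat_lit 5) (nat_lit 405) (nat_lit 5) (nat_lit 426) (nat_lit 5) (nat_lit 292) (nat_lit 288) (nat_lit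 200)))) (XT.nd (nat_lit 78) (nat_lit 0) (nat_lit 0) (XT.lf (nat_lit 0) (nat_lit 6321939525) (nat_lit 1520) (nat_lit 601347250) (nat_lit 1596) (nat_lit 3602063959) (nat_lit 406) (nat_lit 5) (nat_lit 426) (nat_lit 5) (nat_lit 427) (nat_lit 5) (nat_lit 293) (nat_lit 288) (nat_lit 199)) (XT.nd (nat_lit 78) (nat_lit 0) (nat_lit 76) (XT.lf (nat_lit 76) (nat_lit 6832156825) (nat_lit 0) (nat_lit 813579102) (nat_lit 1596) (nat_lit 3023822288) (nat_lit 407) (nat_lit 5) (nat_lit 406) (nat_lit 5) (nat_lit 427) (nat_lit 5) (nat_lit 294) (nat_lit 288) (nat_lit 198)) (XT.lf (nat_lit 76) (nat_lit 3669287272) (nat_lit 0) (nat_lit 5368552257) (nat_lit 1596) (nat_lit 1779713993) (nat_lit 408) (nat_lit 5) (nat_lit 407) (nat_lit 5) (nat_lit 428) (nat_lit 5) (nat_lit 295) (nat_lit 288) (nat_lit 197))))) (XT.nd (nat_lit 234) (nat_lit 0) (nat_lit 76) (XT.nd (nat_lit 78) (nat_lit 1596) (nat_lit 0) (XT.lf (nat_lit 76) (nat_lit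 456122066) (nat_lit 0) (nat_lit 10022137146) (nat_lit 1596) (nat_lit 491630909) (nat_lit 409) (nat_lit 5) (nat_lit 408) (nat_lit 5) (nat_lit 429) (nat_lit 5) (nat_lit 296) (nat_lit 288) (nat_lit 196)) (XT.nd (nat_lit 78) (nat_lit 0) (nat_lit 76) (XT.lf (nat_lit 0) (nat_lit 875445360) (nat_lit 1596) (nat_lit 2803646363) (nat_lit 1672) (nat_lit 7446601517) (nat_lit 387) (nat_lit 5) (nat_lit 408) (nat_lit 5) (nat_lit 409) (nat_lit 5) (nat_lit 297) (nat_lit 288) (nat_lit 195)) (XT.lf (nat_lit 0) (nat_lit 2296984178) (nat_lit 1596) (nat_lit 6124522077) (nat_lit 1672) (nat_lit 2864226640) (nat_lit 388) (nat_lit 5) (nat_lit 409) (nat_lit 5) (nat_lit 410) (nat_lit 5) (nat_lit 298) (nat_lit 288) (nat_lit 194)))) (XT.nd (nat_lit 156) (nat_lit 0) (nat_lit 152) (XT.nd (nat_lit 78) (nat_lit 0) (nat_lit 76) (XT.lf (nat_lit 76) (nat_lit 1931427556) (nat_lit 0) (nat_lit 1854490072) (nat_lit 1672) (nat_lit 7664190295)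 (nat_lit 389) (nat_lit 5) (nat_lit 388) (nat_lit 5) (nat_lit 410) (nat_lit 5) (nat_lit 299) (nat_lit 288) (nat_lit 193)) (XT.lf (nat_lit 0) (nat_lit 5362483905) (nat_lit 1596) (nat_lit 1360553481) (nat_lit 1672) (nat_lit 4895545820) (nat_lit 389) (nat_lit 5) (nat_lit 410) (nat_lit 5) (nat_lit 411) (nat_lit 5) (nat_lit 300) (nat_lit 288) (nat_lit 192))) (XT.nd (nat_lit 78) (nat_lit 0) (nat_lit 0) (XT.lf (nat_lit 0) (nat_lit 7015617481) (nat_lit 1596) (nat_lit 4691123877) (nat_lit 1672) (nat_lit 84813461) (nat_lit 390) (nat_lit 5) (nat_lit 411) (nat_lit 5) (nat_lit 412) (nat_lit 5) (nat_lit 301) (nat_lit 288) (nat_lit 191)) (XT.lf (nat_lit 76) (nat_lit 3847431481) (nat_lit 0) (nat_lit 4921115188) (nat_lit 1672) (nat_lit 3200191558) (nat_lit 391) (nat_lit 5) (nat_lit 390) (nat_lit 5) (nat_lit 412) (nat_lit 5) (nat_lit 302) (nat_lit 288) (nat_lit 190))))))) (XT.nd (nat_lit 1014) (nat_lit 7144) (nat_lit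 0) (XT.nd (nat_lit 468) (nat_lit 4104) (nat_lit 0) (XT.nd (nat_lit 234) (nat_lit 2736) (nat_lit 0) (XT.nd (nat_lit 78) (nat_lit 1672) (nat_lit 0) (XT.lf (nat_lit 76) (nat_lit 526405704) (nat_lit 0) (nat_lit 10068226828) (nat_lit 1672) (nat_lit 1556219130) (nat_lit 392) (nat_lit 5) (nat_lit 391) (nat_lit 5) (nat_lit 413) (nat_lit 5) (nat_lit 303) (nat_lit 288) (nat_lit 189)) (XT.nd (nat_lit 78) (nat_lit 0) (nat_lit 76) (XT.lf (nat_lit 0) (nat_lit 195777562) (nat_lit 1672) (nat_lit 2849419248) (nat_lit 1748) (nat_lit 9292028488) (nat_lit 369) (nat_lit 5) (nat_lit 391) (nat_lit 5) (nat_lit 392) (nat_lit 5) (nat_lit 304) (nat_lit 288) (nat_lit 188)) (XT.lf (nat_lit 0) (nat_lit 2020385175) (nat_lit 1672) (nat_lit 6318015829) (nat_lit 76) (nat_lit 4189783463) (nat_lit 370) (nat_lit 5) (nat_lit 392) (nat_lit 5) (nat_lit 371) (nat_lit 5) (nat_lit 305) (nat_lit 288) (nat_lit 187)))) (XT.nd (nat_lit 78)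 (nat_lit 1140) (nat_lit 0) (XT.lf (nat_lit 0) (nat_lit 2850749586) (nat_lit 1672) (nat_lit 1080973853) (nat_lit 1748) (nat_lit 8792532361) (nat_lit 348) (nat_lit 5) (nat_lit 370) (nat_lit 5) (nat_lit 371) (nat_lit 5) (nat_lit 306) (nat_lit 288) (nat_lit 186)) (XT.nd (nat_lit 78) (nat_lit 1140) (nat_lit 0) (XT.lf (nat_lit 0) (nat_lit 5959345590) (nat_lit 1748) (nat_lit 608500194) (nat_lit 76) (nat_lit 6357207177) (nat_lit 348) (nat_lit 5) (nat_lit 371) (nat_lit 5) (nat_lit 349) (nat_lit 5) (nat_lit 307) (nat_lit 288) (nat_lit 185)) (XT.lf (nat_lit 0) (nat_lit 8094765159) (nat_lit 1216) (nat_lit 4113329081) (nat_lit 76) (nat_lit 922862325) (nat_lit 333) (nat_lit 5) (nat_lit 349) (nat_lit 5) (nat_lit 334) (nat_lit 5) (nat_lit 308) (nat_lit 288) (nat_lit 184))))) (XT.nd (nat_lit 234) (nat_lit 2356) (nat_lit 0) (XT.nd (nat_lit 78) (nat_lit 912) (nat_lit 0) (XT.lf (nat_lit 0) (nat_lit 5605552142) (nat_lit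 836) (nat_lit 4748848541) (nat_lit 912) (nat_lit 2987454792) (nat_lit 322) (nat_lit 5) (nat_lit 333) (nat_lit 5) (nat_lit 334) (nat_lit 5) (nat_lit 309) (nat_lit 288) (nat_lit 183)) (XT.nd (nat_lit 78) (nat_lit 76) (nat_lit 0) (XT.lf (nat_lit 0) (nat_lit 2100002926) (nat_lit 836) (nat_lit 10618833207) (nat_lit 912) (nat_lit 839525649) (nat_lit 311) (nat_lit 5) (nat_lit 322) (nat_lit 5) (nat_lit 323) (nat_lit 5) (nat_lit 310) (nat_lit 288) (nat_lit 182)) (XT.lf (nat_lit 0) (nat_lit 1416009470) (nat_lit 912) (nat_lit 1506094273) (nat_lit 76) (nat_lit 10857877458) (nat_lit 310) (nat_lit 5) (nat_lit 322) (nat_lit 5) (nat_lit 311) (nat_lit 5) (nat_lit 311) (nat_lit 288) (nat_lit 181)))) (XT.nd (nat_lit 156) (nat_lit 760) (nat_lit 0) (XT.nd (nat_lit 78) (nat_lit 836) (nat_lit 0) (XT.lf (nat_lit 0) (nat_lit 3795472515) (nat_lit 836) (nat_lit 5206822039) (nat_lit 76) (nat_lit 5004509387) (nat_lit 300)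 (nat_lit 5) (nat_lit 311) (nat_lit 5) (nat_lit 301) (nat_lit 5) (nat_lit 312) (nat_lit 288) (nat_lit 180)) (XT.lf (nat_lit 0) (nat_lit 5222986014) (nat_lit 836) (nat_lit 1064914955) (nat_lit 912) (nat_lit 7951717289) (nat_lit 289) (nat_lit 5) (nat_lit 300) (nat_lit 5) (nat_lit 301) (nat_lit 5) (nat_lit 313) (nat_lit 288) (nat_lit 179))) (XT.nd (nat_lit 78) (nat_lit 0) (nat_lit 0) (XT.lf (nat_lit 0) (nat_lit 1510014112) (nat_lit 760) (nat_lit 7414941590) (nat_lit 836) (nat_lit 5553082218) (nat_lit 279) (nat_lit 5) (nat_lit 289) (nat_lit 5) (nat_lit 290) (nat_lit 5) (nat_lit 314) (nat_lit 288) (nat_lit 178)) (XT.lf (nat_lit 0) (nat_lit 11693083652) (nat_lit 836) (nat_lit 2280239022) (nat_lit 76) (nat_lit 749265727) (nat_lit 279) (nat_lit 5) (nat_lit 290) (nat_lit 5) (nat_lit 280) (nat_lit 5) (nat_lit 315) (nat_lit 288) (nat_lit 177)))))) (XT.nd (nat_lit 546) (nat_lit 2888) (nat_lit 0) (XT.nd (nat_lit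 234) (nat_lit 2052) (nat_lit 0) (XT.nd (nat_lit 78) (nat_lit 1444) (nat_lit 0) (XT.lf (nat_lit 0) (nat_lit 8772551962) (nat_lit 760) (nat_lit 5857720518) (nat_lit 836) (nat_lit 342499529) (nat_lit 269) (nat_lit 5) (nat_lit 279) (nat_lit 5) (nat_lit 280) (nat_lit 5) (nat_lit 316) (nat_lit 288) (nat_lit 176)) (XT.nd (nat_lit 78) (nat_lit 684) (nat_lit 0) (XT.lf (nat_lit 0) (nat_lit 2437683247) (nat_lit 760) (nat_lit 10259763332) (nat_lit 76) (nat_lit 2531828308) (nat_lit 259) (nat_lit 5) (nat_lit 269) (nat_lit 5) (nat_lit 260) (nat_lit 5) (nat_lit 317) (nat_lit 288) (nat_lit 175)) (XT.lf (nat_lit 0) (nat_lit 1017069380) (nat_lit 684) (nat_lit 4347880106) (nat_lit 760) (nat_lit 10127127127) (nat_lit 250) (nat_lit 5) (nat_lit 259) (nat_lit 5) (nat_lit 260) (nat_lit 5) (nat_lit 318) (nat_lit 288) (nat_lit 174)))) (XT.nd (nat_lit 156) (nat_lit 1368) (nat_lit 0) (XT.nd (nat_lit 78) (nat_lit 684) (nat_lit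 0) (XT.lf (nat_lit 0) (nat_lit 8458292183) (nat_lit 760) (nat_lit 3037945943) (nat_lit 76) (nat_lit 4264974306) (nat_lit 250) (nat_lit 5) (nat_lit 260) (nat_lit 5) (nat_lit 251) (nat_lit 5) (nat_lit 319) (nat_lit 288) (nat_lit 173)) (XT.lf (nat_lit 0) (nat_lit 8808137305) (nat_lit 684) (nat_lit 2903792154) (nat_lit 760) (nat_lit 4325157747) (nat_lit 241) (nat_lit 5) (nat_lit 250) (nat_lit 5) (nat_lit 251) (nat_lit 5) (nat_lit 320) (nat_lit 288) (nat_lit 172))) (XT.nd (nat_lit 78) (nat_lit 684) (nat_lit 0) (XT.lf (nat_lit 0) (nat_lit 4733121402) (nat_lit 684) (nat_lit 10401748966) (nat_lit 760) (nat_lit 1184948302) (nat_lit 232) (nat_lit 5) (nat_lit 241) (nat_lit 5) (nat_lit 242) (nat_lit 5) (nat_lit 321) (nat_lit 288) (nat_lit 171)) (XT.lf (nat_lit 0) (nat_lit 495916986) (nat_lit 608) (nat_lit 1580524379) (nat_lit 684) (nat_lit 14533261167) (nat_lit 223) (nat_lit 5) (nat_lit 231) (nat_lit 5) (nat_lit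 232) (nat_lit 5) (nat_lit 322) (nat_lit 288) (nat_lit 170))))) (XT.nd (nat_lit 234) (nat_lit 1748) (nat_lit 0) (XT.nd (nat_lit 78) (nat_lit 1140) (nat_lit 0) (XT.lf (nat_lit 0) (nat_lit 5529714872) (nat_lit 684) (nat_lit 3884785790) (nat_lit 76) (nat_lit 7491436027) (nat_lit 223) (nat_lit 5) (nat_lit 232) (nat_lit 5) (nat_lit 224) (nat_lit 5) (nat_lit 323) (nat_lit 288) (nat_lit 169)) (XT.nd (nat_lit 78) (nat_lit 532) (nat_lit 0) (XT.lf (nat_lit 0) (nat_lit 8795962762) (nat_lit 608) (nat_lit 341103167) (nat_lit 684) (nat_lit 8072995218) (nat_lit 215) (nat_lit 5) (nat_lit 223) (nat_lit 5) (nat_lit 224) (nat_lit 5) (nat_lit 324) (nat_lit 288) (nat_lit 168)) (XT.lf (nat_lit 0) (nat_lit 4366232743) (nat_lit 532) (nat_lit 8582871572) (nat_lit 608) (nat_lit 4572288175) (nat_lit 208) (nat_lit 5) (nat_lit 215) (nat_lit 5) (nat_lit 216) (nat_lit 5) (nat_lit 325) (nat_lit 288) (nat_lit 167)))) (XT.nd (nat_lit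 156) (nat_lit 1064) (nat_lit 0) (XT.nd (nat_lit 78) (nat_lit 684) (nat_lit 0) (XT.lf (nat_lit 0) (nat_lit 16922883075) (nat_lit 608) (nat_lit 222557844) (nat_lit 76) (nat_lit 695687395) (nat_lit 208) (nat_lit 5) (nat_lit 216) (nat_lit 5) (nat_lit 209) (nat_lit 5) (nat_lit 326) (nat_lit 288) (nat_lit 166)) (XT.lf (nat_lit 0) (nat_lit 2935974365) (nat_lit 684) (nat_lit 4992910373) (nat_lit 76) (nat_lit 10238656056) (nat_lit 199) (nat_lit 5) (nat_lit 208) (nat_lit 5) (nat_lit 200) (nat_lit 5) (nat_lit 327) (nat_lit 288) (nat_lit 165))) (XT.nd (nat_lit 78) (nat_lit 532) (nat_lit 0) (XT.lf (nat_lit 0) (nat_lit 6945271159) (nat_lit 608) (nat_lit 9953425993) (nat_lit 76) (nat_lit 1603899789) (nat_lit 192) (nat_lit 5) (nat_lit 200) (nat_lit 5) (nat_lit 193) (nat_lit 5) (nat_lit 328) (nat_lit 288) (nat_lit 164)) (XT.lf (nat_lit 0) (nat_lit 3694809593) (nat_lit 532) (nat_lit 7475630423) (nat_lit 608) (nat_lit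 7675363772) (nat_lit 185) (nat_lit 5) (nat_lit 192) (nat_lit 5) (nat_lit 193) (nat_lit 5) (nat_lit 329) (nat_lit 288) (nat_lit 163))))))))
noncomputable def xc97 : XT := (XT.nd (nat_lit 2028) (nat_lit 304) (nat_lit 0) (XT.nd (nat_lit 1014) (nat_lit 3268) (nat_lit 0) (XT.nd (nat_lit 468) (nat_lit 2280) (nat_lit 0) (XT.nd (nat_lit 234) (nat_lit 912) (nat_lit 0) (XT.nd (nat_lit 78) (nat_lit 1140) (nat_lit 0) (XT.lf (nat_lit 0) (nat_lit 15589563577) (nat_lit 608) (nat_lit 1343355626) (nat_lit 76) (nat_lit 2265054206) (nat_lit 185) (nat_lit 5) (nat_lit 193) (nat_lit 5) (nat_lit 186) (nat_lit 5) (nat_lit 330) (nat_lit 288) (nat_lit 162)) (XT.nd (nat_lit 78) (nat_lit 532) (nat_lit 0) (XT.lf (nat_lit 0) (nat_lit 693256401) (nat_lit 608) (nat_lit 6582781311) (nat_lit 76) (nat_lit 12282198718) (nat_lit 177) (nat_lit 5) (nat_lit 185) (nat_lit 5) (nat_lit 178) (nat_lit 5) (nat_lit 331) (nat_lit 288) (nat_lit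 161)) (XT.lf (nat_lit 0) (nat_lit 5138856413) (nat_lit 608) (nat_lit 12072174438) (nat_lit 76) (nat_lit 2716531059) (nat_lit 170) (nat_lit 5) (nat_lit 178) (nat_lit 5) (nat_lit 171) (nat_lit 5) (nat_lit 332) (nat_lit 288) (nat_lit 160)))) (XT.nd (nat_lit 78) (nat_lit 456) (nat_lit 0) (XT.lf (nat_lit 0) (nat_lit 2474719757) (nat_lit 456) (nat_lit 7338483755) (nat_lit 532) (nat_lit 10492865536) (nat_lit 164) (nat_lit 5) (nat_lit 170) (nat_lit 5) (nat_lit 171) (nat_lit 5) (nat_lit 333) (nat_lit 288) (nat_lit 159)) (XT.nd (nat_lit 78) (nat_lit 456) (nat_lit 0) (XT.lf (nat_lit 0) (nat_lit 14714523573) (nat_lit 532) (nat_lit 3108422007) (nat_lit 76) (nat_lit 2871260169) (nat_lit 164) (nat_lit 5) (nat_lit 171) (nat_lit 5) (nat_lit 165) (nat_lit 5) (nat_lit 334) (nat_lit 288) (nat_lit 158)) (XT.lf (nat_lit 0) (nat_lit 12148509657) (nat_lit 456) (nat_lit 7728752769) (nat_lit 532) (nat_lit 1214445472) (nat_lit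 158) (nat_lit 5) (nat_lit 164) (nat_lit 5) (nat_lit 165) (nat_lit 5) (nat_lit 335) (nat_lit 288) (nat_lit 157))))) (XT.nd (nat_lit 234) (nat_lit 1292) (nat_lit 0) (XT.nd (nat_lit 78) (nat_lit 456) (nat_lit 0) (XT.lf (nat_lit 0) (nat_lit 3712852582) (nat_lit 532) (nat_lit 15069951696) (nat_lit 76) (nat_lit 2716508722) (nat_lit 151) (nat_lit 5) (nat_lit 158) (nat_lit 5) (nat_lit 152) (nat_lit 5) (nat_lit 336) (nat_lit 288) (nat_lit 156)) (XT.nd (nat_lit 78) (nat_lit 0) (nat_lit 0) (XT.lf (nat_lit 0) (nat_lit 394762789) (nat_lit 456) (nat_lit 8478911976) (nat_lit 532) (nat_lit 13043275097) (nat_lit 145) (nat_lit 5) (nat_lit 151) (nat_lit 5) (nat_lit 152) (nat_lit 5) (nat_lit 337) (nat_lit 288) (nat_lit 155)) (XT.lf (nat_lit 0) (nat_lit 14293070510) (nat_lit 532) (nat_lit 5847639464) (nat_lit 76) (nat_lit 2204338894) (nat_lit 145) (nat_lit 5) (nat_lit 152) (nat_lit 5) (nat_lit 146) (nat_lit 5) (nat_lit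 338) (nat_lit 288) (nat_lit 154)))) (XT.nd (nat_lit 156) (nat_lit 380) (nat_lit 0) (XT.nd (nat_lit 78) (nat_lit 532) (nat_lit 0) (XT.lf (nat_lit 0) (nat_lit 10359087769) (nat_lit 380) (nat_lit 9627394341) (nat_lit 456) (nat_lit 2797287832) (nat_lit 140) (nat_lit 5) (nat_lit 145) (nat_lit 5) (nat_lit 146) (nat_lit 5) (nat_lit 339) (nat_lit 288) (nat_lit 153)) (XT.lf (nat_lit 0) (nat_lit 2642001687) (nat_lit 532) (nat_lit 19328389395) (nat_lit 76) (nat_lit 1263704300) (nat_lit 133) (nat_lit 5) (nat_lit 140) (nat_lit 5) (nat_lit 134) (nat_lit 5) (nat_lit 340) (nat_lit 288) (nat_lit 152))) (XT.nd (nat_lit 78) (nat_lit 380) (nat_lit 0) (XT.lf (nat_lit 0) (nat_lit 8343676056) (nat_lit 532) (nat_lit 2900866223) (nat_lit 76) (nat_lit 12450281487) (nat_lit 133) (nat_lit 5) (nat_lit 140) (nat_lit 5) (nat_lit 134) (nat_lit 5) (nat_lit 341) (nat_lit 288) (nat_lit 151)) (XT.lf (nat_lit 0) (nat_lit 14189021411)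 (nat_lit 380) (nat_lit 107717288) (nat_lit 456) (nat_lit 9871035522) (nat_lit 128) (nat_lit 5) (nat_lit 133) (nat_lit 5) (nat_lit 134) (nat_lit 5) (nat_lit 342) (nat_lit 288) (nat_lit 150)))))) (XT.nd (nat_lit 468) (nat_lit 1672) (nat_lit 0) (XT.nd (nat_lit 234) (nat_lit 760) (nat_lit 0) (XT.nd (nat_lit 78) (nat_lit 456) (nat_lit 0) (XT.lf (nat_lit 0) (nat_lit 7180568638) (nat_lit 380) (nat_lit 13376430803) (nat_lit 456) (nat_lit 4095348401) (nat_lit 123) (nat_lit 5) (nat_lit 128) (nat_lit 5) (nat_lit 129) (nat_lit 5) (nat_lit 343) (nat_lit 288) (nat_lit 149)) (XT.nd (nat_lit 78) (nat_lit 380) (nat_lit 0) (XT.lf (nat_lit 0) (nat_lit 1886656876) (nat_lit 456) (nat_lit 188430888) (nat_lit 76) (nat_lit 23074989501) (nat_lit 122) (nat_lit 5) (nat_lit 128) (nat_lit 5) (nat_lit 123) (nat_lit 5) (nat_lit 344) (nat_lit 288) (nat_lit 148)) (XT.lf (nat_lit 0) (nat_lit 8160316105) (nat_lit 456) (nat_lit 7919503786)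 (nat_lit 76) (nat_lit 9579026867) (nat_lit 117) (nat_lit 5) (nat_lit 123) (nat_lit 5) (nat_lit 118) (nat_lit 5) (nat_lit 345) (nat_lit 288) (nat_lit 147)))) (XT.nd (nat_lit 78) (nat_lit 380) (nat_lit 0) (XT.lf (nat_lit 0) (nat_lit 10127778206) (nat_lit 380) (nat_lit 4564419654) (nat_lit 456) (nat_lit 11489287302) (nat_lit 112) (nat_lit 5) (nat_lit 117) (nat_lit 5) (nat_lit 118) (nat_lit 5) (nat_lit 346) (nat_lit 288) (nat_lit 146)) (XT.nd (nat_lit 78) (nat_lit 76) (nat_lit 0) (XT.lf (nat_lit 0) (nat_lit 2069799302) (nat_lit 304) (nat_lit 19454347922) (nat_lit 380) (nat_lit 5193579171) (nat_lit 108) (nat_lit 5) (nat_lit 112) (nat_lit 5) (nat_lit 113) (nat_lit 5) (nat_lit 347) (nat_lit 288) (nat_lit 145)) (XT.lf (nat_lit 0) (nat_lit 1403513343) (nat_lit 380) (nat_lit 6366410337) (nat_lit 76) (nat_lit 19497380269) (nat_lit 107) (nat_lit 5) (nat_lit 112) (nat_lit 5) (nat_lit 108) (nat_lit 5) (nat_lit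 348) (nat_lit 288) (nat_lit 144))))) (XT.nd (nat_lit 234) (nat_lit 988) (nat_lit 0) (XT.nd (nat_lit 78) (nat_lit 304) (nat_lit 0) (XT.lf (nat_lit 0) (nat_lit 8228182705) (nat_lit 456) (nat_lit 15281096224) (nat_lit 76) (nat_lit 4321404275) (nat_lit 102) (nat_lit 5) (nat_lit 108) (nat_lit 5) (nat_lit 103) (nat_lit 5) (nat_lit 349) (nat_lit 288) (nat_lit 143)) (XT.nd (nat_lit 78) (nat_lit 0) (nat_lit 0) (XT.lf (nat_lit 0) (nat_lit 3691137847) (nat_lit 304) (nat_lit 11675700962) (nat_lit 380) (nat_lit 13041945390) (nat_lit 98) (nat_lit 5) (nat_lit 102) (nat_lit 5) (nat_lit 103) (nat_lit 5) (nat_lit 350) (nat_lit 288) (nat_lit 142)) (XT.lf (nat_lit 0) (nat_lit 22817279154) (nat_lit 380) (nat_lit 5579522536) (nat_lit 76) (nat_lit 605479185) (nat_lit 98) (nat_lit 5) (nat_lit 103) (nat_lit 5) (nat_lit 99) (nat_lit 5) (nat_lit 351) (nat_lit 288) (nat_lit 141)))) (XT.nd (nat_lit 156) (nat_lit 304) (nat_lit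 0) (XT.nd (nat_lit 78) (nat_lit 304) (nat_lit 0) (XT.lf (nat_lit 0) (nat_lit 1027997792) (nat_lit 380) (nat_lit 15390505377) (nat_lit 76) (nat_lit 13191733049) (nat_lit 93) (nat_lit 5) (nat_lit 98) (nat_lit 5) (nat_lit 94) (nat_lit 5) (nat_lit 352) (nat_lit 288) (nat_lit 140)) (XT.lf (nat_lit 0) (nat_lit 4455975664) (nat_lit 304) (nat_lit 3975319921) (nat_lit 380) (nat_lit 21803162968) (nat_lit 89) (nat_lit 5) (nat_lit 93) (nat_lit 5) (nat_lit 94) (nat_lit 5) (nat_lit 353) (nat_lit 288) (nat_lit 139))) (XT.nd (nat_lit 78) (nat_lit 304) (nat_lit 0) (XT.lf (nat_lit 0) (nat_lit 16209698519) (nat_lit 380) (nat_lit 5839334481) (nat_lit 76) (nat_lit 8825319045) (nat_lit 89) (nat_lit 5) (nat_lit 94) (nat_lit 5) (nat_lit 90) (nat_lit 5) (nat_lit 354) (nat_lit 288) (nat_lit 138)) (XT.lf (nat_lit 0) (nat_lit 14852174915) (nat_lit 304) (nat_lit 9483188616) (nat_lit 380) (nat_lit 7195805092) (nat_lit 85) (nat_lit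 5) (nat_lit 89) (nat_lit 5) (nat_lit 90) (nat_lit 5) (nat_lit 355) (nat_lit 288) (nat_lit 137))))))) (XT.nd (nat_lit 36348) (nat_lit 0) (nat_lit 15808) (XT.nd (nat_lit 35802) (nat_lit 0) (nat_lit 23256) (XT.nd (nat_lit 35568) (nat_lit 0) (nat_lit 24548) (XT.nd (nat_lit 35412) (nat_lit 0) (nat_lit 24472) (XT.lf (nat_lit 0) (nat_lit 570765992) (nat_lit 304) (nat_lit 28155892441) (nat_lit 76) (nat_lit 3479367439) (nat_lit 81) (nat_lit 5) (nat_lit 85) (nat_lit 5) (nat_lit 82) (nat_lit 5) (nat_lit 356) (nat_lit 288) (nat_lit 136)) (XT.nd (nat_lit 78) (nat_lit 0) (nat_lit 0) (XT.lf (nat_lit 0) (nat_lit 1291600977) (nat_lit 1596) (nat_lit 1882473951) (nat_lit 1596) (nat_lit 1882473951) (nat_lit 403) (nat_lit 3) (nat_lit 424) (nat_lit 3) (nat_lit 424) (nat_lit 5) (nat_lit 289) (nat_lit 289) (nat_lit 202)) (XT.lf (nat_lit 76) (nat_lit 3101445184) (nat_lit 0) (nat_lit 514880153) (nat_lit 1596) (nat_lit 6627644353)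 (nat_lit 404) (nat_lit 5) (nat_lit 403) (nat_lit 3) (nat_lit 424) (nat_lit 5) (nat_lit 290) (nat_lit 289) (nat_lit 201)))) (XT.nd (nat_lit 78) (nat_lit 0) (nat_lit 76) (XT.lf (nat_lit 0) (nat_lit 4703761062) (nat_lit 1520) (nat_lit 209314841) (nat_lit 1596) (nat_lit 5465262069) (nat_lit 404) (nat_lit 5) (nat_lit 424) (nat_lit 5) (nat_lit 425) (nat_lit 5) (nat_lit 291) (nat_lit 289) (nat_lit 200)) (XT.nd (nat_lit 78) (nat_lit 0) (nat_lit 0) (XT.lf (nat_lit 0) (nat_lit 5843352206) (nat_lit 1520) (nat_lit 3523823545) (nat_lit 1596) (nat_lit 1149206410) (nat_lit 405) (nat_lit 5) (nat_lit 425) (nat_lit 5) (nat_lit 426) (nat_lit 5) (nat_lit 292) (nat_lit 289) (nat_lit 199)) (XT.lf (nat_lit 76) (nat_lit 3750615922) (nat_lit 0) (nat_lit 3289282118) (nat_lit 1596) (nat_lit 3618248765) (nat_lit 406) (nat_lit 5) (nat_lit 405) (nat_lit 5) (nat_lit 426) (nat_lit 5) (nat_lit 293) (nat_lit 289) (nat_lit 198)))))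 (XT.nd (nat_lit 234) (nat_lit 1444) (nat_lit 0) (XT.nd (nat_lit 78) (nat_lit 0) (nat_lit 0) (XT.lf (nat_lit 76) (nat_lit 453315885) (nat_lit 0) (nat_lit 7830434898) (nat_lit 1596) (nat_lit 2520218864) (nat_lit 407) (nat_lit 5) (nat_lit 406) (nat_lit 5) (nat_lit 427) (nat_lit 5) (nat_lit 294) (nat_lit 289) (nat_lit 197)) (XT.nd (nat_lit 78) (nat_lit 0) (nat_lit 76) (XT.lf (nat_lit 76) (nat_lit 8086572879) (nat_lit 0) (nat_lit 1513028322) (nat_lit 1596) (nat_lit 1353904822) (nat_lit 407) (nat_lit 5) (nat_lit 406) (nat_lit 5) (nat_lit 427) (nat_lit 5) (nat_lit 295) (nat_lit 289) (nat_lit 196)) (XT.lf (nat_lit 76) (nat_lit 4851655479) (nat_lit 0) (nat_lit 6134291326) (nat_lit 1596) (nat_lit 120992838) (nat_lit 408) (nat_lit 5) (nat_lit 407) (nat_lit 5) (nat_lit 428) (nat_lit 5) (nat_lit 296) (nat_lit 289) (nat_lit 195)))) (XT.nd (nat_lit 156) (nat_lit 0) (nat_lit 76) (XT.nd (nat_lit 78) (nat_lit 0)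 (nat_lit 0) (XT.lf (nat_lit 0) (nat_lit 1144014712) (nat_lit 1596) (nat_lit 9709199151) (nat_lit 1672) (nat_lit 411439717) (nat_lit 387) (nat_lit 5) (nat_lit 408) (nat_lit 5) (nat_lit 409) (nat_lit 5) (nat_lit 297) (nat_lit 289) (nat_lit 194)) (XT.lf (nat_lit 0) (nat_lit 2497585698) (nat_lit 1596) (nat_lit 1803586636) (nat_lit 1672) (nat_lit 7124894618) (nat_lit 387) (nat_lit 5) (nat_lit 408) (nat_lit 5) (nat_lit 409) (nat_lit 5) (nat_lit 298) (nat_lit 289) (nat_lit 193))) (XT.nd (nat_lit 78) (nat_lit 0) (nat_lit 0) (XT.lf (nat_lit 0) (nat_lit 3919034052) (nat_lit 1596) (nat_lit 5205935404) (nat_lit 1672) (nat_lit 2466836167) (nat_lit 388) (nat_lit 5) (nat_lit 409) (nat_lit 5) (nat_lit 410) (nat_lit 5) (nat_lit 299) (nat_lit 289) (nat_lit 192)) (XT.lf (nat_lit 76) (nat_lit 3073808848) (nat_lit 0) (nat_lit 2340630453) (nat_lit 1672) (nat_lit 6347478362) (nat_lit 389) (nat_lit 5) (nat_lit 388) (nat_lit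 5) (nat_lit 410) (nat_lit 5) (nat_lit 300) (nat_lit 289) (nat_lit 191)))))) (XT.nd (nat_lit 546) (nat_lit 4484) (nat_lit 0) (XT.nd (nat_lit 234) (nat_lit 3116) (nat_lit 0) (XT.nd (nat_lit 78) (nat_lit 0) (nat_lit 0) (XT.lf (nat_lit 0) (nat_lit 6991464262) (nat_lit 1596) (nat_lit 315033105) (nat_lit 1672) (nat_lit 4629927224) (nat_lit 389) (nat_lit 5) (nat_lit 410) (nat_lit 5) (nat_lit 411) (nat_lit 5) (nat_lit 301) (nat_lit 289) (nat_lit 190)) (XT.nd (nat_lit 78) (nat_lit 0) (nat_lit 76) (XT.lf (nat_lit 76) (nat_lit 8382742543) (nat_lit 0) (nat_lit 275053006) (nat_lit 1672) (nat_lit 3457557167) (nat_lit 390) (nat_lit 5) (nat_lit 389) (nat_lit 5) (nat_lit 411) (nat_lit 5) (nat_lit 302) (nat_lit 289) (nat_lit 189)) (XT.lf (nat_lit 76) (nat_lit 5046024716) (nat_lit 0) (nat_lit 5380886467) (nat_lit 1672) (nat_lit 1871706760) (nat_lit 391) (nat_lit 5) (nat_lit 390) (nat_lit 5) (nat_lit 412) (nat_lit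 5) (nat_lit 303) (nat_lit 289) (nat_lit 188)))) (XT.nd (nat_lit 156) (nat_lit 1596) (nat_lit 0) (XT.nd (nat_lit 78) (nat_lit 1672) (nat_lit 0) (XT.lf (nat_lit 76) (nat_lit 1638497722) (nat_lit 0) (nat_lit 10633792184) (nat_lit 1672) (nat_lit 214651841) (nat_lit 392) (nat_lit 5) (nat_lit 391) (nat_lit 5) (nat_lit 413) (nat_lit 5) (nat_lit 304) (nat_lit 289) (nat_lit 187)) (XT.lf (nat_lit 0) (nat_lit 1531793281) (nat_lit 1672) (nat_lit 1851676731) (nat_lit 1748) (nat_lit 9296089779) (nat_lit 369) (nat_lit 5) (nat_lit 391) (nat_lit 5) (nat_lit 392) (nat_lit 5) (nat_lit 305) (nat_lit 289) (nat_lit 186))) (XT.nd (nat_lit 78) (nat_lit 1672) (nat_lit 0) (XT.lf (nat_lit 0) (nat_lit 3377805388) (nat_lit 1672) (nat_lit 5413283161) (nat_lit 76) (nat_lit 4085860212) (nat_lit 370) (nat_lit 5) (nat_lit 392) (nat_lit 5) (nat_lit 371) (nat_lit 5) (nat_lit 306) (nat_lit 289) (nat_lit 185)) (XT.lf (nat_lit 0) (nat_lit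 4012791935) (nat_lit 1672) (nat_lit 1302910221) (nat_lit 1748) (nat_lit 7763849064) (nat_lit 348) (nat_lit 5) (nat_lit 370) (nat_lit 5) (nat_lit 371) (nat_lit 5) (nat_lit 307) (nat_lit 289) (nat_lit 184))))) (XT.nd (nat_lit 234) (nat_lit 2508) (nat_lit 0) (XT.nd (nat_lit 78) (nat_lit 836) (nat_lit 0) (XT.lf (nat_lit 0) (nat_lit 451184025) (nat_lit 1140) (nat_lit 6917829188) (nat_lit 1216) (nat_lit 5918094256) (nat_lit 333) (nat_lit 5) (nat_lit 348) (nat_lit 5) (nat_lit 349) (nat_lit 5) (nat_lit 308) (nat_lit 289) (nat_lit 183)) (XT.nd (nat_lit 78) (nat_lit 836) (nat_lit 0) (XT.lf (nat_lit 0) (nat_lit 9535709971) (nat_lit 1216) (nat_lit 3156133077) (nat_lit 76) (nat_lit 808032279) (nat_lit 333) (nat_lit 5) (nat_lit 349) (nat_lit 5) (nat_lit 334) (nat_lit 5) (nat_lit 309) (nat_lit 289) (nat_lit 182)) (XT.lf (nat_lit 0) (nat_lit 6836783199) (nat_lit 836) (nat_lit 4998357312) (nat_lit 912) (nat_lit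 1882551096) (nat_lit 322) (nat_lit 5) (nat_lit 333) (nat_lit 5) (nat_lit 334) (nat_lit 5) (nat_lit 310) (nat_lit 289) (nat_lit 181)))) (XT.nd (nat_lit 156) (nat_lit 1596) (nat_lit 0) (XT.nd (nat_lit 78) (nat_lit 0) (nat_lit 0) (XT.lf (nat_lit 0) (nat_lit 297471934) (nat_lit 912) (nat_lit 10709708265) (nat_lit 76) (nat_lit 2934059496) (nat_lit 310) (nat_lit 5) (nat_lit 322) (nat_lit 5) (nat_lit 311) (nat_lit 5) (nat_lit 311) (nat_lit 289) (nat_lit 180)) (XT.lf (nat_lit 0) (nat_lit 2575812577) (nat_lit 912) (nat_lit 496144016) (nat_lit 76) (nat_lit 11098137416) (nat_lit 310) (nat_lit 5) (nat_lit 322) (nat_lit 5) (nat_lit 311) (nat_lit 5) (nat_lit 312) (nat_lit 289) (nat_lit 179))) (XT.nd (nat_lit 78) (nat_lit 836) (nat_lit 0) (XT.lf (nat_lit 0) (nat_lit 5000508227) (nat_lit 836) (nat_lit 4301921346) (nat_lit 76) (nat_lit 5101842268) (nat_lit 300) (nat_lit 5) (nat_lit 311) (nat_lit 5) (nat_lit 301)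 (nat_lit 5) (nat_lit 313) (nat_lit 289) (nat_lit 178)) (XT.lf (nat_lit 0) (nat_lit 6423565775) (nat_lit 836) (nat_lit 1119139692) (nat_lit 912) (nat_lit 7101891787) (nat_lit 289) (nat_lit 5) (nat_lit 300) (nat_lit 5) (nat_lit 301) (nat_lit 5) (nat_lit 314) (nat_lit 289) (nat_lit 177))))))))
noncomputable def xc98 : XT := (XT.nd (nat_lit 2028) (nat_lit 4180) (nat_lit 0) (XT.nd (nat_lit 1014) (nat_lit 4560) (nat_lit 0) (XT.nd (nat_lit 468) (nat_lit 3800) (nat_lit 0) (XT.nd (nat_lit 234) (nat_lit 1368) (nat_lit 0) (XT.nd (nat_lit 78) (nat_lit 836) (nat_lit 0) (XT.lf (nat_lit 0) (nat_lit 2604260358) (nat_lit 760) (nat_lit 7630228088) (nat_lit 836) (nat_lit 4656194539) (nat_lit 279) (nat_lit 5) (nat_lit 289) (nat_lit 5) (nat_lit 290) (nat_lit 5) (nat_lit 315) (nat_lit 289) (nat_lit 176)) (XT.nd (nat_lit 78) (nat_lit 836) (nat_lit 0) (XT.lf (nat_lit 0) (nat_lit 13055362154) (nat_lit 836) (nat_lit 1309233188)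 (nat_lit 76) (nat_lit 778605661) (nat_lit 279) (nat_lit 5) (nat_lit 290) (nat_lit 5) (nat_lit 280) (nat_lit 5) (nat_lit 316) (nat_lit 289) (nat_lit 175)) (XT.lf (nat_lit 0) (nat_lit 647864302) (nat_lit 836) (nat_lit 5347354863) (nat_lit 76) (nat_lit 9406066472) (nat_lit 268) (nat_lit 5) (nat_lit 279) (nat_lit 5) (nat_lit 269) (nat_lit 5) (nat_lit 317) (nat_lit 289) (nat_lit 174)))) (XT.nd (nat_lit 78) (nat_lit 684) (nat_lit 0) (XT.lf (nat_lit 0) (nat_lit 3484736361) (nat_lit 760) (nat_lit 9527847371) (nat_lit 76) (nat_lit 2653319009) (nat_lit 259) (nat_lit 5) (nat_lit 269) (nat_lit 5) (nat_lit 260) (nat_lit 5) (nat_lit 318) (nat_lit 289) (nat_lit 173)) (XT.nd (nat_lit 78) (nat_lit 0) (nat_lit 0) (XT.lf (nat_lit 0) (nat_lit 2070422282) (nat_lit 684) (nat_lit 4407672589) (nat_lit 760) (nat_lit 9458950647) (nat_lit 250) (nat_lit 5) (nat_lit 259) (nat_lit 5) (nat_lit 260) (nat_lit 5) (nat_lit 319)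 (nat_lit 289) (nat_lit 172)) (XT.lf (nat_lit 0) (nat_lit 9636949266) (nat_lit 760) (nat_lit 2117263402) (nat_lit 76) (nat_lit 4460610344) (nat_lit 250) (nat_lit 5) (nat_lit 260) (nat_lit 5) (nat_lit 251) (nat_lit 5) (nat_lit 320) (nat_lit 289) (nat_lit 171))))) (XT.nd (nat_lit 234) (nat_lit 1748) (nat_lit 0) (XT.nd (nat_lit 78) (nat_lit 1368) (nat_lit 0) (XT.lf (nat_lit 0) (nat_lit 10067786752) (nat_lit 684) (nat_lit 2899932663) (nat_lit 760) (nat_lit 3531685332) (nat_lit 241) (nat_lit 5) (nat_lit 250) (nat_lit 5) (nat_lit 251) (nat_lit 5) (nat_lit 321) (nat_lit 289) (nat_lit 170)) (XT.nd (nat_lit 78) (nat_lit 684) (nat_lit 0) (XT.lf (nat_lit 0) (nat_lit 5872280175) (nat_lit 684) (nat_lit 10601773407) (nat_lit 760) (nat_lit 316971048) (nat_lit 232) (nat_lit 5) (nat_lit 241) (nat_lit 5) (nat_lit 242) (nat_lit 5) (nat_lit 322) (nat_lit 289) (nat_lit 169)) (XT.lf (nat_lit 0) (nat_lit 1504100960) (nat_lit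 608) (nat_lit 1506787512) (nat_lit 684) (nat_lit 14079009233) (nat_lit 223) (nat_lit 5) (nat_lit 231) (nat_lit 5) (nat_lit 232) (nat_lit 5) (nat_lit 323) (nat_lit 289) (nat_lit 168)))) (XT.nd (nat_lit 156) (nat_lit 1140) (nat_lit 0) (XT.nd (nat_lit 78) (nat_lit 608) (nat_lit 0) (XT.lf (nat_lit 0) (nat_lit 6543121337) (nat_lit 684) (nat_lit 3020149011) (nat_lit 76) (nat_lit 7832260331) (nat_lit 223) (nat_lit 5) (nat_lit 232) (nat_lit 5) (nat_lit 224) (nat_lit 5) (nat_lit 324) (nat_lit 289) (nat_lit 167)) (XT.lf (nat_lit 0) (nat_lit 10025103513) (nat_lit 608) (nat_lit 215171629) (nat_lit 684) (nat_lit 7468890543) (nat_lit 215) (nat_lit 5) (nat_lit 223) (nat_lit 5) (nat_lit 224) (nat_lit 5) (nat_lit 325) (nat_lit 289) (nat_lit 166))) (XT.nd (nat_lit 78) (nat_lit 608) (nat_lit 0) (XT.lf (nat_lit 0) (nat_lit 5462869928) (nat_lit 532) (nat_lit 8686784252) (nat_lit 608) (nat_lit 3880541122) (nat_lit 208)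 (nat_lit 5) (nat_lit 215) (nat_lit 5) (nat_lit 216) (nat_lit 5) (nat_lit 326) (nat_lit 289) (nat_lit 165)) (XT.lf (nat_lit 0) (nat_lit 733287535) (nat_lit 608) (nat_lit 17491435094) (nat_lit 684) (nat_lit 135176445) (nat_lit 200) (nat_lit 5) (nat_lit 208) (nat_lit 5) (nat_lit 209) (nat_lit 5) (nat_lit 327) (nat_lit 289) (nat_lit 164)))))) (XT.nd (nat_lit 468) (nat_lit 2280) (nat_lit 0) (XT.nd (nat_lit 234) (nat_lit 1140) (nat_lit 0) (XT.nd (nat_lit 78) (nat_lit 1064) (nat_lit 0) (XT.lf (nat_lit 0) (nat_lit 3802211737) (nat_lit 684) (nat_lit 4194359113) (nat_lit 76) (nat_lit 10699880914) (nat_lit 199) (nat_lit 5) (nat_lit 208) (nat_lit 5) (nat_lit 200) (nat_lit 5) (nat_lit 328) (nat_lit 289) (nat_lit 163)) (XT.nd (nat_lit 78) (nat_lit 532) (nat_lit 0) (XT.lf (nat_lit 0) (nat_lit 7916292840) (nat_lit 608) (nat_lit 9304421701) (nat_lit 76) (nat_lit 1821171027) (nat_lit 192) (nat_lit 5) (nat_lit 200)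 (nat_lit 5) (nat_lit 193) (nat_lit 5) (nat_lit 329) (nat_lit 289) (nat_lit 162)) (XT.lf (nat_lit 0) (nat_lit 4737887154) (nat_lit 532) (nat_lit 7514168785) (nat_lit 608) (nat_lit 7143671510) (nat_lit 185) (nat_lit 5) (nat_lit 192) (nat_lit 5) (nat_lit 193) (nat_lit 5) (nat_lit 330) (nat_lit 289) (nat_lit 161)))) (XT.nd (nat_lit 78) (nat_lit 1140) (nat_lit 0) (XT.lf (nat_lit 0) (nat_lit 16783181171) (nat_lit 608) (nat_lit 464745770) (nat_lit 76) (nat_lit 2510961814) (nat_lit 185) (nat_lit 5) (nat_lit 193) (nat_lit 5) (nat_lit 186) (nat_lit 5) (nat_lit 331) (nat_lit 289) (nat_lit 160)) (XT.nd (nat_lit 78) (nat_lit 532) (nat_lit 0) (XT.lf (nat_lit 0) (nat_lit 1429900976) (nat_lit 608) (nat_lit 5866268321) (nat_lit 76) (nat_lit 12834016380) (nat_lit 177) (nat_lit 5) (nat_lit 185) (nat_lit 5) (nat_lit 178) (nat_lit 5) (nat_lit 332) (nat_lit 289) (nat_lit 159)) (XT.lf (nat_lit 0) (nat_lit 5995144784)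 (nat_lit 608) (nat_lit 11521975857) (nat_lit 76) (nat_lit 2993758772) (nat_lit 170) (nat_lit 5) (nat_lit 178) (nat_lit 5) (nat_lit 171) (nat_lit 5) (nat_lit 333) (nat_lit 289) (nat_lit 158))))) (XT.nd (nat_lit 234) (nat_lit 1368) (nat_lit 0) (XT.nd (nat_lit 78) (nat_lit 456) (nat_lit 0) (XT.lf (nat_lit 0) (nat_lit 3446523145) (nat_lit 456) (nat_lit 7348576542) (nat_lit 532) (nat_lit 10105948129) (nat_lit 164) (nat_lit 5) (nat_lit 170) (nat_lit 5) (nat_lit 171) (nat_lit 5) (nat_lit 334) (nat_lit 289) (nat_lit 157)) (XT.nd (nat_lit 78) (nat_lit 456) (nat_lit 0) (XT.lf (nat_lit 0) (nat_lit 15824759212) (nat_lit 532) (nat_lit 2317789969) (nat_lit 76) (nat_lit 3158666642) (nat_lit 164) (nat_lit 5) (nat_lit 171) (nat_lit 5) (nat_lit 165) (nat_lit 5) (nat_lit 335) (nat_lit 289) (nat_lit 156)) (XT.lf (nat_lit 0) (nat_lit 13382509665) (nat_lit 456) (nat_lit 7746036617) (nat_lit 532) (nat_lit 582386253)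 (nat_lit 158) (nat_lit 5) (nat_lit 164) (nat_lit 5) (nat_lit 165) (nat_lit 5) (nat_lit 336) (nat_lit 289) (nat_lit 155)))) (XT.nd (nat_lit 156) (nat_lit 380) (nat_lit 0) (XT.nd (nat_lit 78) (nat_lit 456) (nat_lit 0) (XT.lf (nat_lit 0) (nat_lit 4471778474) (nat_lit 532) (nat_lit 14645664125) (nat_lit 76) (nat_lit 3013492282) (nat_lit 151) (nat_lit 5) (nat_lit 158) (nat_lit 5) (nat_lit 152) (nat_lit 5) (nat_lit 337) (nat_lit 289) (nat_lit 154)) (XT.lf (nat_lit 0) (nat_lit 1268773472) (nat_lit 456) (nat_lit 8505389220) (nat_lit 532) (nat_lit 12787215257) (nat_lit 145) (nat_lit 5) (nat_lit 151) (nat_lit 5) (nat_lit 152) (nat_lit 5) (nat_lit 338) (nat_lit 289) (nat_lit 153))) (XT.nd (nat_lit 78) (nat_lit 380) (nat_lit 0) (XT.lf (nat_lit 0) (nat_lit 15339102719) (nat_lit 532) (nat_lit 5174749624) (nat_lit 76) (nat_lit 2488819833) (nat_lit 145) (nat_lit 5) (nat_lit 152) (nat_lit 5) (nat_lit 146) (nat_lit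 5) (nat_lit 339) (nat_lit 289) (nat_lit 152)) (XT.lf (nat_lit 0) (nat_lit 11504416457) (nat_lit 380) (nat_lit 9686340835) (nat_lit 456) (nat_lit 2264059944) (nat_lit 140) (nat_lit 5) (nat_lit 145) (nat_lit 5) (nat_lit 146) (nat_lit 5) (nat_lit 340) (nat_lit 289) (nat_lit 151))))))) (XT.nd (nat_lit 1014) (nat_lit 608) (nat_lit 0) (XT.nd (nat_lit 468) (nat_lit 1824) (nat_lit 0) (XT.nd (nat_lit 234) (nat_lit 836) (nat_lit 0) (XT.nd (nat_lit 78) (nat_lit 380) (nat_lit 0) (XT.lf (nat_lit 0) (nat_lit 3319469945) (nat_lit 532) (nat_lit 19068125295) (nat_lit 76) (nat_lit 1531204575) (nat_lit 133) (nat_lit 5) (nat_lit 140) (nat_lit 5) (nat_lit 134) (nat_lit 5) (nat_lit 341) (nat_lit 289) (nat_lit 150)) (XT.nd (nat_lit 78) (nat_lit 380) (nat_lit 0) (XT.lf (nat_lit 0) (nat_lit 9174771006) (nat_lit 532) (nat_lit 2172245819) (nat_lit 76) (nat_lit 13046692016) (nat_lit 133) (nat_lit 5) (nat_lit 140) (nat_lit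 5) (nat_lit 134) (nat_lit 5) (nat_lit 342) (nat_lit 289) (nat_lit 149)) (XT.lf (nat_lit 0) (nat_lit 15295513883) (nat_lit 456) (nat_lit 9464781015) (nat_lit 76) (nat_lit 120781161) (nat_lit 128) (nat_lit 5) (nat_lit 134) (nat_lit 5) (nat_lit 129) (nat_lit 5) (nat_lit 343) (nat_lit 289) (nat_lit 148)))) (XT.nd (nat_lit 78) (nat_lit 456) (nat_lit 0) (XT.lf (nat_lit 0) (nat_lit 8195416026) (nat_lit 380) (nat_lit 13537457981) (nat_lit 456) (nat_lit 3647536776) (nat_lit 123) (nat_lit 5) (nat_lit 128) (nat_lit 5) (nat_lit 129) (nat_lit 5) (nat_lit 344) (nat_lit 289) (nat_lit 147)) (XT.nd (nat_lit 78) (nat_lit 0) (nat_lit 0) (XT.lf (nat_lit 0) (nat_lit 597473163) (nat_lit 380) (nat_lit 1896446699) (nat_lit 456) (nat_lit 23399337869) (nat_lit 117) (nat_lit 5) (nat_lit 122) (nat_lit 5) (nat_lit 123) (nat_lit 5) (nat_lit 345) (nat_lit 289) (nat_lit 146)) (XT.lf (nat_lit 0) (nat_lit 8942516505) (nat_lit 456)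 (nat_lit 7376592645) (nat_lit 76) (nat_lit 10098455593) (nat_lit 117) (nat_lit 5) (nat_lit 123) (nat_lit 5) (nat_lit 118) (nat_lit 5) (nat_lit 346) (nat_lit 289) (nat_lit 145))))) (XT.nd (nat_lit 234) (nat_lit 1064) (nat_lit 0) (XT.nd (nat_lit 78) (nat_lit 380) (nat_lit 0) (XT.lf (nat_lit 0) (nat_lit 11199445182) (nat_lit 380) (nat_lit 4460242653) (nat_lit 456) (nat_lit 11296416528) (nat_lit 112) (nat_lit 5) (nat_lit 117) (nat_lit 5) (nat_lit 118) (nat_lit 5) (nat_lit 347) (nat_lit 289) (nat_lit 144)) (XT.nd (nat_lit 78) (nat_lit 76) (nat_lit 0) (XT.lf (nat_lit 0) (nat_lit 2896379402) (nat_lit 304) (nat_lit 19791358201) (nat_lit 380) (nat_lit 4820880865) (nat_lit 108) (nat_lit 5) (nat_lit 112) (nat_lit 5) (nat_lit 113) (nat_lit 5) (nat_lit 348) (nat_lit 289) (nat_lit 143)) (XT.lf (nat_lit 0) (nat_lit 1952001495) (nat_lit 380) (nat_lit 5808184753) (nat_lit 76) (nat_lit 20314740365) (nat_lit 107)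 (nat_lit 5) (nat_lit 112) (nat_lit 5) (nat_lit 108) (nat_lit 5) (nat_lit 349) (nat_lit 289) (nat_lit 142)))) (XT.nd (nat_lit 156) (nat_lit 380) (nat_lit 0) (XT.nd (nat_lit 78) (nat_lit 304) (nat_lit 0) (XT.lf (nat_lit 0) (nat_lit 8973009843) (nat_lit 456) (nat_lit 14993839448) (nat_lit 76) (nat_lit 4688533805) (nat_lit 102) (nat_lit 5) (nat_lit 108) (nat_lit 5) (nat_lit 103) (nat_lit 5) (nat_lit 350) (nat_lit 289) (nat_lit 141)) (XT.lf (nat_lit 0) (nat_lit 4535463716) (nat_lit 304) (nat_lit 11780620558) (nat_lit 380) (nat_lit 12934945276) (nat_lit 98) (nat_lit 5) (nat_lit 102) (nat_lit 5) (nat_lit 103) (nat_lit 5) (nat_lit 351) (nat_lit 289) (nat_lit 140))) (XT.nd (nat_lit 78) (nat_lit 380) (nat_lit 0) (XT.lf (nat_lit 0) (nat_lit 23977363825) (nat_lit 380) (nat_lit 5026503432) (nat_lit 76) (nat_lit 858724729) (nat_lit 98) (nat_lit 5) (nat_lit 103) (nat_lit 5) (nat_lit 99) (nat_lit 5) (nat_lit 352)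 (nat_lit 289) (nat_lit 139)) (XT.lf (nat_lit 0) (nat_lit 1528477918) (nat_lit 380) (nat_lit 15137028056) (nat_lit 76) (nat_lit 13823410385) (nat_lit 93) (nat_lit 5) (nat_lit 98) (nat_lit 5) (nat_lit 94) (nat_lit 5) (nat_lit 353) (nat_lit 289) (nat_lit 138)))))) (XT.nd (nat_lit 35958) (nat_lit 0) (nat_lit 22800) (XT.nd (nat_lit 35646) (nat_lit 0) (nat_lit 24168) (XT.nd (nat_lit 78) (nat_lit 304) (nat_lit 0) (XT.lf (nat_lit 0) (nat_lit 5293244268) (nat_lit 304) (nat_lit 3851519705) (nat_lit 380) (nat_lit 21987290424) (nat_lit 89) (nat_lit 5) (nat_lit 93) (nat_lit 5) (nat_lit 94) (nat_lit 5) (nat_lit 354) (nat_lit 289) (nat_lit 137)) (XT.nd (nat_lit 78) (nat_lit 304) (nat_lit 0) (XT.lf (nat_lit 0) (nat_lit 17144637655) (nat_lit 380) (nat_lit 5323787194) (nat_lit 76) (nat_lit 9322964093) (nat_lit 89) (nat_lit 5) (nat_lit 94) (nat_lit 5) (nat_lit 90) (nat_lit 5) (nat_lit 355) (nat_lit 289) (nat_lit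 136)) (XT.lf (nat_lit 0) (nat_lit 15977261253) (nat_lit 304) (nat_lit 9528155842) (nat_lit 380) (nat_lit 6962672459) (nat_lit 85) (nat_lit 5) (nat_lit 89) (nat_lit 5) (nat_lit 90) (nat_lit 5) (nat_lit 356) (nat_lit 289) (nat_lit 135)))) (XT.nd (nat_lit 156) (nat_lit 0) (nat_lit 76) (XT.nd (nat_lit 78) (nat_lit 0) (nat_lit 0) (XT.lf (nat_lit 0) (nat_lit 2295222742) (nat_lit 1596) (nat_lit 1446398553) (nat_lit 1596) (nat_lit 1446398553) (nat_lit 403) (nat_lit 3) (nat_lit 424) (nat_lit 3) (nat_lit 424) (nat_lit 5) (nat_lit 290) (nat_lit 290) (nat_lit 200)) (XT.lf (nat_lit 76) (nat_lit 4163605709) (nat_lit 0) (nat_lit 1441042773) (nat_lit 1596) (nat_lit 4907241642) (nat_lit 404) (nat_lit 5) (nat_lit 403) (nat_lit 3) (nat_lit 424) (nat_lit 5) (nat_lit 291) (nat_lit 290) (nat_lit 199))) (XT.nd (nat_lit 78) (nat_lit 0) (nat_lit 76) (XT.lf (nat_lit 76) (nat_lit 779511476) (nat_lit 0) (nat_lit 5889763729)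 (nat_lit 1596) (nat_lit 3982175377) (nat_lit 405) (nat_lit 5) (nat_lit 404) (nat_lit 5) (nat_lit 425) (nat_lit 5) (nat_lit 292) (nat_lit 290) (nat_lit 198)) (XT.lf (nat_lit 0) (nat_lit 7786074860) (nat_lit 1520) (nat_lit 2618264718) (nat_lit 1596) (nat_lit 390487058) (nat_lit 405) (nat_lit 5) (nat_lit 425) (nat_lit 5) (nat_lit 426) (nat_lit 5) (nat_lit 293) (nat_lit 290) (nat_lit 197))))) (XT.nd (nat_lit 234) (nat_lit 0) (nat_lit 76) (XT.nd (nat_lit 78) (nat_lit 1520) (nat_lit 0) (XT.lf (nat_lit 76) (nat_lit 4858001221) (nat_lit 0) (nat_lit 4115496871) (nat_lit 1596) (nat_lit 1968295981) (nat_lit 406) (nat_lit 5) (nat_lit 405) (nat_lit 5) (nat_lit 426) (nat_lit 5) (nat_lit 294) (nat_lit 290) (nat_lit 196)) (XT.nd (nat_lit 78) (nat_lit 1596) (nat_lit 0) (XT.lf (nat_lit 76) (nat_lit 1485800168) (nat_lit 0) (nat_lit 8720728378) (nat_lit 1596) (nat_lit 886473842) (nat_lit 407) (nat_lit 5) (nat_lit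 406) (nat_lit 5) (nat_lit 427) (nat_lit 5) (nat_lit 295) (nat_lit 290) (nat_lit 195)) (XT.lf (nat_lit 0) (nat_lit 261566598) (nat_lit 1596) (nat_lit 1931389006) (nat_lit 1672) (nat_lit 9055056767) (nat_lit 385) (nat_lit 5) (nat_lit 406) (nat_lit 5) (nat_lit 407) (nat_lit 5) (nat_lit 296) (nat_lit 290) (nat_lit 194)))) (XT.nd (nat_lit 156) (nat_lit 0) (nat_lit 76) (XT.nd (nat_lit 78) (nat_lit 0) (nat_lit 0) (XT.lf (nat_lit 0) (nat_lit 1469676459) (nat_lit 1596) (nat_lit 5408752555) (nat_lit 1672) (nat_lit 4528402162) (nat_lit 386) (nat_lit 5) (nat_lit 407) (nat_lit 5) (nat_lit 408) (nat_lit 5) (nat_lit 297) (nat_lit 290) (nat_lit 193)) (XT.lf (nat_lit 76) (nat_lit 2621577492) (nat_lit 0) (nat_lit 106846503) (nat_lit 1672) (nat_lit 8841730963) (nat_lit 387) (nat_lit 5) (nat_lit 386) (nat_lit 5) (nat_lit 408) (nat_lit 5) (nat_lit 298) (nat_lit 290) (nat_lit 192))) (XT.nd (nat_lit 78) (nat_lit 0) (nat_lit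 76) (XT.lf (nat_lit 0) (nat_lit 4076780379) (nat_lit 1596) (nat_lit 835760860) (nat_lit 1672) (nat_lit 6824827765) (nat_lit 387) (nat_lit 5) (nat_lit 408) (nat_lit 5) (nat_lit 409) (nat_lit 5) (nat_lit 299) (nat_lit 290) (nat_lit 191)) (XT.lf (nat_lit 0) (nat_lit 5500588811) (nat_lit 1596) (nat_lit 4323068943) (nat_lit 1672) (nat_lit 2085268368) (nat_lit 388) (nat_lit 5) (nat_lit 409) (nat_lit 5) (nat_lit 410) (nat_lit 5) (nat_lit 300) (nat_lit 290) (nat_lit 190))))))))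
noncomputable def xc99 : XT := (XT.nd (nat_lit 2028) (nat_lit 8892) (nat_lit 0) (XT.nd (nat_lit 1014) (nat_lit 6460) (nat_lit 0) (XT.nd (nat_lit 468) (nat_lit 5244) (nat_lit 0) (XT.nd (nat_lit 234) (nat_lit 1444) (nat_lit 0) (XT.nd (nat_lit 78) (nat_lit 0) (nat_lit 76) (XT.lf (nat_lit 76) (nat_lit 4188210374) (nat_lit 0) (nat_lit 2816642259) (nat_lit 1672) (nat_lit 5080048399) (nat_lit 389) (nat_lit 5) (nat_lit 388) (nat_lit 5) (nat_lit 410) (nat_lit 5) (nat_lit 301) (nat_lit 290) (nat_lit 189)) (XT.nd (nat_lit 78) (nat_lit 0) (nat_lit 0) (XT.lf (nat_lit 76) (nat_lit 708788585) (nat_lit 0) (nat_lit 7880852090) (nat_lit 1672) (nat_lit 3675831735) (nat_lit 390) (nat_lit 5) (nat_lit 389) (nat_lit 5) (nat_lit 411) (nat_lit 5) (nat_lit 302) (nat_lit 290) (nat_lit 188)) (XT.lf (nat_lit 76) (nat_lit 9641588806) (nat_lit 0) (nat_lit 626005899) (nat_lit 1672) (nat_lit 2182978189) (nat_lit 390) (nat_lit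 5) (nat_lit 389) (nat_lit 5) (nat_lit 411) (nat_lit 5) (nat_lit 303) (nat_lit 290) (nat_lit 187)))) (XT.nd (nat_lit 78) (nat_lit 1596) (nat_lit 0) (XT.lf (nat_lit 76) (nat_lit 6218397342) (nat_lit 0) (nat_lit 5836532896) (nat_lit 1672) (nat_lit 585139002) (nat_lit 391) (nat_lit 5) (nat_lit 390) (nat_lit 5) (nat_lit 412) (nat_lit 5) (nat_lit 304) (nat_lit 290) (nat_lit 186)) (XT.nd (nat_lit 78) (nat_lit 0) (nat_lit 0) (XT.lf (nat_lit 0) (nat_lit 1073208637) (nat_lit 1672) (nat_lit 10120787026) (nat_lit 1748) (nat_lit 1640609973) (nat_lit 369) (nat_lit 5) (nat_lit 391) (nat_lit 5) (nat_lit 392) (nat_lit 5) (nat_lit 305) (nat_lit 290) (nat_lit 185)) (XT.lf (nat_lit 0) (nat_lit 2831533857) (nat_lit 1672) (nat_lit 886183490) (nat_lit 1748) (nat_lit 9316041787) (nat_lit 369) (nat_lit 5) (nat_lit 391) (nat_lit 5) (nat_lit 392) (nat_lit 5) (nat_lit 306) (nat_lit 290) (nat_lit 184))))) (XT.nd (nat_lit 234)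 (nat_lit 2508) (nat_lit 0) (XT.nd (nat_lit 78) (nat_lit 2812) (nat_lit 0) (XT.lf (nat_lit 0) (nat_lit 4701506086) (nat_lit 1672) (nat_lit 4544224268) (nat_lit 76) (nat_lit 3992000205) (nat_lit 370) (nat_lit 5) (nat_lit 392) (nat_lit 5) (nat_lit 371) (nat_lit 5) (nat_lit 307) (nat_lit 290) (nat_lit 183)) (XT.nd (nat_lit 78) (nat_lit 1140) (nat_lit 0) (XT.lf (nat_lit 0) (nat_lit 5147898910) (nat_lit 1672) (nat_lit 1520626194) (nat_lit 1748) (nat_lit 6778497717) (nat_lit 348) (nat_lit 5) (nat_lit 370) (nat_lit 5) (nat_lit 371) (nat_lit 5) (nat_lit 308) (nat_lit 290) (nat_lit 182)) (XT.lf (nat_lit 0) (nat_lit 1488631765) (nat_lit 1140) (nat_lit 7265567828) (nat_lit 1216) (nat_lit 4907221405) (nat_lit 333) (nat_lit 5) (nat_lit 348) (nat_lit 5) (nat_lit 349) (nat_lit 5) (nat_lit 309) (nat_lit 290) (nat_lit 181)))) (XT.nd (nat_lit 156) (nat_lit 1672) (nat_lit 0) (XT.nd (nat_lit 78) (nat_lit 836) (nat_lit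 0) (XT.lf (nat_lit 0) (nat_lit 10951107180) (nat_lit 1216) (nat_lit 2232251816) (nat_lit 76) (nat_lit 697938328) (nat_lit 333) (nat_lit 5) (nat_lit 349) (nat_lit 5) (nat_lit 334) (nat_lit 5) (nat_lit 310) (nat_lit 290) (nat_lit 180)) (XT.lf (nat_lit 0) (nat_lit 8043926937) (nat_lit 836) (nat_lit 5249206622) (nat_lit 912) (nat_lit 813071045) (nat_lit 322) (nat_lit 5) (nat_lit 333) (nat_lit 5) (nat_lit 334) (nat_lit 5) (nat_lit 311) (nat_lit 290) (nat_lit 179))) (XT.nd (nat_lit 78) (nat_lit 760) (nat_lit 0) (XT.lf (nat_lit 0) (nat_lit 1391175532) (nat_lit 912) (nat_lit 10006598460) (nat_lit 76) (nat_lit 2939094517) (nat_lit 310) (nat_lit 5) (nat_lit 322) (nat_lit 5) (nat_lit 311) (nat_lit 5) (nat_lit 312) (nat_lit 290) (nat_lit 178)) (XT.lf (nat_lit 0) (nat_lit 489961728) (nat_lit 760) (nat_lit 3219490305) (nat_lit 836) (nat_lit 10863731293) (nat_lit 300) (nat_lit 5) (nat_lit 310) (nat_lit 5) (nat_lit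 311) (nat_lit 5) (nat_lit 313) (nat_lit 290) (nat_lit 177)))))) (XT.nd (nat_lit 468) (nat_lit 3344) (nat_lit 0) (XT.nd (nat_lit 234) (nat_lit 1520) (nat_lit 0) (XT.nd (nat_lit 78) (nat_lit 1596) (nat_lit 0) (XT.lf (nat_lit 0) (nat_lit 6179057300) (nat_lit 836) (nat_lit 3430785420) (nat_lit 76) (nat_lit 5205126209) (nat_lit 300) (nat_lit 5) (nat_lit 311) (nat_lit 5) (nat_lit 301) (nat_lit 5) (nat_lit 314) (nat_lit 290) (nat_lit 176)) (XT.nd (nat_lit 78) (nat_lit 760) (nat_lit 0) (XT.lf (nat_lit 0) (nat_lit 7600239362) (nat_lit 836) (nat_lit 1173712363) (nat_lit 912) (nat_lit 6289048814) (nat_lit 289) (nat_lit 5) (nat_lit 300) (nat_lit 5) (nat_lit 301) (nat_lit 5) (nat_lit 315) (nat_lit 290) (nat_lit 175)) (XT.lf (nat_lit 0) (nat_lit 3671120211) (nat_lit 760) (nat_lit 7852384295) (nat_lit 836) (nat_lit 3793448342) (nat_lit 279) (nat_lit 5) (nat_lit 289) (nat_lit 5) (nat_lit 290) (nat_lit 5) (nat_lit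 316) (nat_lit 290) (nat_lit 174)))) (XT.nd (nat_lit 78) (nat_lit 1520) (nat_lit 0) (XT.lf (nat_lit 0) (nat_lit 14400445577) (nat_lit 836) (nat_lit 368763737) (nat_lit 76) (nat_lit 808431889) (nat_lit 279) (nat_lit 5) (nat_lit 290) (nat_lit 5) (nat_lit 280) (nat_lit 5) (nat_lit 317) (nat_lit 290) (nat_lit 173)) (XT.nd (nat_lit 78) (nat_lit 684) (nat_lit 0) (XT.lf (nat_lit 0) (nat_lit 1606137177) (nat_lit 836) (nat_lit 4530698179) (nat_lit 76) (nat_lit 9706962655) (nat_lit 268) (nat_lit 5) (nat_lit 279) (nat_lit 5) (nat_lit 269) (nat_lit 5) (nat_lit 318) (nat_lit 290) (nat_lit 172)) (XT.lf (nat_lit 0) (nat_lit 4507293926) (nat_lit 760) (nat_lit 8833657472) (nat_lit 76) (nat_lit 2775840487) (nat_lit 259) (nat_lit 5) (nat_lit 269) (nat_lit 5) (nat_lit 260) (nat_lit 5) (nat_lit 319) (nat_lit 290) (nat_lit 171))))) (XT.nd (nat_lit 234) (nat_lit 1976) (nat_lit 0) (XT.nd (nat_lit 78) (nat_lit 684) (nat_lit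 0) (XT.lf (nat_lit 0) (nat_lit 3096660523) (nat_lit 684) (nat_lit 4473314096) (nat_lit 760) (nat_lit 8826525091) (nat_lit 250) (nat_lit 5) (nat_lit 259) (nat_lit 5) (nat_lit 260) (nat_lit 5) (nat_lit 320) (nat_lit 290) (nat_lit 170)) (XT.nd (nat_lit 78) (nat_lit 684) (nat_lit 0) (XT.lf (nat_lit 0) (nat_lit 10797872541) (nat_lit 760) (nat_lit 1227043044) (nat_lit 76) (nat_lit 4658229963) (nat_lit 250) (nat_lit 5) (nat_lit 260) (nat_lit 5) (nat_lit 251) (nat_lit 5) (nat_lit 321) (nat_lit 290) (nat_lit 169)) (XT.lf (nat_lit 0) (nat_lit 11308085344) (nat_lit 684) (nat_lit 2901179625) (nat_lit 760) (nat_lit 2767405759) (nat_lit 241) (nat_lit 5) (nat_lit 250) (nat_lit 5) (nat_lit 251) (nat_lit 5) (nat_lit 322) (nat_lit 290) (nat_lit 168)))) (XT.nd (nat_lit 156) (nat_lit 608) (nat_lit 0) (XT.nd (nat_lit 78) (nat_lit 608) (nat_lit 0) (XT.lf (nat_lit 0) (nat_lit 518291629) (nat_lit 760) (nat_lit 10292459809)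 (nat_lit 76) (nat_lit 6466602715) (nat_lit 231) (nat_lit 5) (nat_lit 241) (nat_lit 5) (nat_lit 232) (nat_lit 5) (nat_lit 323) (nat_lit 290) (nat_lit 167)) (XT.lf (nat_lit 0) (nat_lit 2485510599) (nat_lit 608) (nat_lit 1437793194) (nat_lit 684) (nat_lit 13662233719) (nat_lit 223) (nat_lit 5) (nat_lit 231) (nat_lit 5) (nat_lit 232) (nat_lit 5) (nat_lit 324) (nat_lit 290) (nat_lit 166))) (XT.nd (nat_lit 78) (nat_lit 608) (nat_lit 0) (XT.lf (nat_lit 0) (nat_lit 7538279166) (nat_lit 684) (nat_lit 2185896894) (nat_lit 76) (nat_lit 8176645827) (nat_lit 223) (nat_lit 5) (nat_lit 232) (nat_lit 5) (nat_lit 224) (nat_lit 5) (nat_lit 325) (nat_lit 290) (nat_lit 165)) (XT.lf (nat_lit 0) (nat_lit 11235708506) (nat_lit 608) (nat_lit 93278553) (nat_lit 684) (nat_lit 6895243497) (nat_lit 215) (nat_lit 5) (nat_lit 223) (nat_lit 5) (nat_lit 224) (nat_lit 5) (nat_lit 326) (nat_lit 290) (nat_lit 164))))))) (XT.nd (nat_lit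 1014) (nat_lit 3572) (nat_lit 0) (XT.nd (nat_lit 468) (nat_lit 2508) (nat_lit 0) (XT.nd (nat_lit 234) (nat_lit 1596) (nat_lit 0) (XT.nd (nat_lit 78) (nat_lit 684) (nat_lit 0) (XT.lf (nat_lit 0) (nat_lit 6536973956) (nat_lit 532) (nat_lit 8802630057) (nat_lit 608) (nat_lit 3215624810) (nat_lit 208) (nat_lit 5) (nat_lit 215) (nat_lit 5) (nat_lit 216) (nat_lit 5) (nat_lit 327) (nat_lit 290) (nat_lit 163)) (XT.nd (nat_lit 78) (nat_lit 0) (nat_lit 0) (XT.lf (nat_lit 0) (nat_lit 618087650) (nat_lit 684) (nat_lit 17233788843) (nat_lit 76) (nat_lit 1043191756) (nat_lit 199) (nat_lit 5) (nat_lit 208) (nat_lit 5) (nat_lit 200) (nat_lit 5) (nat_lit 328) (nat_lit 290) (nat_lit 162)) (XT.lf (nat_lit 0) (nat_lit 4649766768) (nat_lit 684) (nat_lit 3426289830) (nat_lit 76) (nat_lit 11166098546) (nat_lit 199) (nat_lit 5) (nat_lit 208) (nat_lit 5) (nat_lit 200) (nat_lit 5) (nat_lit 329) (nat_lit 290) (nat_lit 161))))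 (XT.nd (nat_lit 78) (nat_lit 1064) (nat_lit 0) (XT.lf (nat_lit 0) (nat_lit 8872665164) (nat_lit 608) (nat_lit 8690343803) (nat_lit 76) (nat_lit 2035250256) (nat_lit 192) (nat_lit 5) (nat_lit 200) (nat_lit 5) (nat_lit 193) (nat_lit 5) (nat_lit 330) (nat_lit 290) (nat_lit 160)) (XT.nd (nat_lit 78) (nat_lit 532) (nat_lit 0) (XT.lf (nat_lit 0) (nat_lit 5758743038) (nat_lit 532) (nat_lit 7564524990) (nat_lit 608) (nat_lit 6639767710) (nat_lit 185) (nat_lit 5) (nat_lit 192) (nat_lit 5) (nat_lit 193) (nat_lit 5) (nat_lit 331) (nat_lit 290) (nat_lit 159)) (XT.lf (nat_lit 0) (nat_lit 392622471) (nat_lit 532) (nat_lit 17580862596) (nat_lit 608) (nat_lit 2363957943) (nat_lit 178) (nat_lit 5) (nat_lit 185) (nat_lit 5) (nat_lit 186) (nat_lit 5) (nat_lit 332) (nat_lit 290) (nat_lit 158))))) (XT.nd (nat_lit 234) (nat_lit 1444) (nat_lit 0) (XT.nd (nat_lit 78) (nat_lit 988) (nat_lit 0) (XT.lf (nat_lit 0) (nat_lit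 2147552350) (nat_lit 608) (nat_lit 5180727075) (nat_lit 76) (nat_lit 13391863433) (nat_lit 177) (nat_lit 5) (nat_lit 185) (nat_lit 5) (nat_lit 178) (nat_lit 5) (nat_lit 333) (nat_lit 290) (nat_lit 157)) (XT.nd (nat_lit 78) (nat_lit 456) (nat_lit 0) (XT.lf (nat_lit 0) (nat_lit 6836817092) (nat_lit 608) (nat_lit 11007644733) (nat_lit 76) (nat_lit 3268067512) (nat_lit 170) (nat_lit 5) (nat_lit 178) (nat_lit 5) (nat_lit 171) (nat_lit 5) (nat_lit 334) (nat_lit 290) (nat_lit 156)) (XT.lf (nat_lit 0) (nat_lit 4395956916) (nat_lit 456) (nat_lit 7371030515) (nat_lit 532) (nat_lit 9747703844) (nat_lit 164) (nat_lit 5) (nat_lit 170) (nat_lit 5) (nat_lit 171) (nat_lit 5) (nat_lit 335) (nat_lit 290) (nat_lit 155)))) (XT.nd (nat_lit 156) (nat_lit 912) (nat_lit 0) (XT.nd (nat_lit 78) (nat_lit 532) (nat_lit 0) (XT.lf (nat_lit 0) (nat_lit 16929910068) (nat_lit 532) (nat_lit 1554177568) (nat_lit 76) (nat_lit 3443141665)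 (nat_lit 164) (nat_lit 5) (nat_lit 171) (nat_lit 5) (nat_lit 165) (nat_lit 5) (nat_lit 336) (nat_lit 290) (nat_lit 154)) (XT.lf (nat_lit 0) (nat_lit 29863660) (nat_lit 532) (nat_lit 7746092616) (nat_lit 76) (nat_lit 14573550188) (nat_lit 157) (nat_lit 5) (nat_lit 164) (nat_lit 5) (nat_lit 158) (nat_lit 5) (nat_lit 337) (nat_lit 290) (nat_lit 153))) (XT.nd (nat_lit 78) (nat_lit 456) (nat_lit 0) (XT.lf (nat_lit 0) (nat_lit 5216300681) (nat_lit 532) (nat_lit 14258956075) (nat_lit 76) (nat_lit 3307015440) (nat_lit 151) (nat_lit 5) (nat_lit 158) (nat_lit 5) (nat_lit 152) (nat_lit 5) (nat_lit 338) (nat_lit 290) (nat_lit 152)) (XT.lf (nat_lit 0) (nat_lit 2119512516) (nat_lit 456) (nat_lit 8545742606) (nat_lit 532) (nat_lit 12560634626) (nat_lit 145) (nat_lit 5) (nat_lit 151) (nat_lit 5) (nat_lit 152) (nat_lit 5) (nat_lit 339) (nat_lit 290) (nat_lit 151)))))) (XT.nd (nat_lit 546) (nat_lit 1444) (nat_lit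 0) (XT.nd (nat_lit 234) (nat_lit 1216) (nat_lit 0) (XT.nd (nat_lit 78) (nat_lit 912) (nat_lit 0) (XT.lf (nat_lit 0) (nat_lit 16381083788) (nat_lit 532) (nat_lit 4530370072) (nat_lit 76) (nat_lit 2769300973) (nat_lit 145) (nat_lit 5) (nat_lit 152) (nat_lit 5) (nat_lit 146) (nat_lit 5) (nat_lit 340) (nat_lit 290) (nat_lit 150)) (XT.nd (nat_lit 78) (nat_lit 532) (nat_lit 0) (XT.lf (nat_lit 0) (nat_lit 12636198074) (nat_lit 380) (nat_lit 9760251509) (nat_lit 456) (nat_lit 1750261955) (nat_lit 140) (nat_lit 5) (nat_lit 145) (nat_lit 5) (nat_lit 146) (nat_lit 5) (nat_lit 341) (nat_lit 290) (nat_lit 149)) (XT.lf (nat_lit 0) (nat_lit 3982922653) (nat_lit 532) (nat_lit 18848279354) (nat_lit 76) (nat_lit 1793550503) (nat_lit 133) (nat_lit 5) (nat_lit 140) (nat_lit 5) (nat_lit 134) (nat_lit 5) (nat_lit 342) (nat_lit 290) (nat_lit 148)))) (XT.nd (nat_lit 156) (nat_lit 836) (nat_lit 0) (XT.nd (nat_lit 78) (nat_lit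 380) (nat_lit 0) (XT.lf (nat_lit 0) (nat_lit 9997459388) (nat_lit 532) (nat_lit 1468588243) (nat_lit 76) (nat_lit 13648199369) (nat_lit 133) (nat_lit 5) (nat_lit 140) (nat_lit 5) (nat_lit 134) (nat_lit 5) (nat_lit 343) (nat_lit 290) (nat_lit 147)) (XT.lf (nat_lit 0) (nat_lit 16292218282) (nat_lit 456) (nat_lit 8982757789) (nat_lit 76) (nat_lit 341460732) (nat_lit 128) (nat_lit 5) (nat_lit 134) (nat_lit 5) (nat_lit 129) (nat_lit 5) (nat_lit 344) (nat_lit 290) (nat_lit 146))) (XT.nd (nat_lit 78) (nat_lit 456) (nat_lit 0) (XT.lf (nat_lit 0) (nat_lit 9194818265) (nat_lit 380) (nat_lit 13717108212) (nat_lit 456) (nat_lit 3219049714) (nat_lit 123) (nat_lit 5) (nat_lit 128) (nat_lit 5) (nat_lit 129) (nat_lit 5) (nat_lit 345) (nat_lit 290) (nat_lit 145)) (XT.lf (nat_lit 0) (nat_lit 1363946938) (nat_lit 380) (nat_lit 1725047043) (nat_lit 456) (nat_lit 23570365477) (nat_lit 117) (nat_lit 5) (nat_lit 122)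 (nat_lit 5) (nat_lit 123) (nat_lit 5) (nat_lit 346) (nat_lit 290) (nat_lit 144))))) (XT.nd (nat_lit 234) (nat_lit 760) (nat_lit 0) (XT.nd (nat_lit 78) (nat_lit 684) (nat_lit 0) (XT.lf (nat_lit 0) (nat_lit 9717334480) (nat_lit 456) (nat_lit 6862197848) (nat_lit 76) (nat_lit 10620146108) (nat_lit 117) (nat_lit 5) (nat_lit 123) (nat_lit 5) (nat_lit 118) (nat_lit 5) (nat_lit 347) (nat_lit 290) (nat_lit 143)) (XT.nd (nat_lit 78) (nat_lit 304) (nat_lit 0) (XT.lf (nat_lit 0) (nat_lit 12259185376) (nat_lit 380) (nat_lit 4366781019) (nat_lit 456) (nat_lit 11128617165) (nat_lit 112) (nat_lit 5) (nat_lit 117) (nat_lit 5) (nat_lit 118) (nat_lit 5) (nat_lit 348) (nat_lit 290) (nat_lit 142)) (XT.lf (nat_lit 0) (nat_lit 3703872274) (nat_lit 304) (nat_lit 20152635794) (nat_lit 380) (nat_lit 4467339998) (nat_lit 108) (nat_lit 5) (nat_lit 112) (nat_lit 5) (nat_lit 113) (nat_lit 5) (nat_lit 349) (nat_lit 290) (nat_lit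 141)))) (XT.nd (nat_lit 156) (nat_lit 304) (nat_lit 0) (XT.nd (nat_lit 78) (nat_lit 380) (nat_lit 0) (XT.lf (nat_lit 0) (nat_lit 2487875850) (nat_lit 380) (nat_lit 5276220573) (nat_lit 76) (nat_lit 21143278333) (nat_lit 107) (nat_lit 5) (nat_lit 112) (nat_lit 5) (nat_lit 108) (nat_lit 5) (nat_lit 350) (nat_lit 290) (nat_lit 140)) (XT.lf (nat_lit 0) (nat_lit 9711595611) (nat_lit 456) (nat_lit 14740770607) (nat_lit 76) (nat_lit 5053044473) (nat_lit 102) (nat_lit 5) (nat_lit 108) (nat_lit 5) (nat_lit 103) (nat_lit 5) (nat_lit 351) (nat_lit 290) (nat_lit 139))) (XT.nd (nat_lit 78) (nat_lit 0) (nat_lit 0) (XT.lf (nat_lit 0) (nat_lit 5363008194) (nat_lit 304) (nat_lit 11902771918) (nat_lit 380) (nat_lit 12853337233) (nat_lit 98) (nat_lit 5) (nat_lit 102) (nat_lit 5) (nat_lit 103) (nat_lit 5) (nat_lit 352) (nat_lit 290) (nat_lit 138)) (XT.lf (nat_lit 0) (nat_lit 25144951585) (nat_lit 380) (nat_lit 4498247935)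 (nat_lit 76) (nat_lit 1106073020) (nat_lit 98) (nat_lit 5) (nat_lit 103) (nat_lit 5) (nat_lit 99) (nat_lit 5) (nat_lit 353) (nat_lit 290) (nat_lit 137))))))))
noncomputable def xc100 : XT := (XT.nd (nat_lit 37518) (nat_lit 0) (nat_lit 4256) (XT.nd (nat_lit 36504) (nat_lit 0) (nat_lit 16796) (XT.nd (nat_lit 35958) (nat_lit 0) (nat_lit 22496) (XT.nd (nat_lit 35724) (nat_lit 0) (nat_lit 23864) (XT.nd (nat_lit 78) (nat_lit 304) (nat_lit 0) (XT.lf (nat_lit 0) (nat_lit 2017013180) (nat_lit 380) (nat_lit 14917001390) (nat_lit 76) (nat_lit 14460494961) (nat_lit 93) (nat_lit 5) (nat_lit 98) (nat_lit 5) (nat_lit 94) (nat_lit 5) (nat_lit 354) (nat_lit 290) (nat_lit 136)) (XT.nd (nat_lit 78) (nat_lit 0) (nat_lit 0) (XT.lf (nat_lit 0) (nat_lit 6115242024) (nat_lit 304) (nat_lit 3737958110) (nat_lit 380) (nat_lit 22203919757) (nat_lit 89) (nat_lit 5) (nat_lit 93) (nat_lit 5) (nat_lit 94) (nat_lit 5) (nat_lit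 355) (nat_lit 290) (nat_lit 135)) (XT.lf (nat_lit 0) (nat_lit 18081870724) (nat_lit 380) (nat_lit 4832424063) (nat_lit 76) (nat_lit 9822169913) (nat_lit 89) (nat_lit 5) (nat_lit 94) (nat_lit 5) (nat_lit 90) (nat_lit 5) (nat_lit 356) (nat_lit 290) (nat_lit 134)))) (XT.nd (nat_lit 78) (nat_lit 0) (nat_lit 0) (XT.lf (nat_lit 0) (nat_lit 3273565460) (nat_lit 1596) (nat_lit 1025515255) (nat_lit 1596) (nat_lit 1025515255) (nat_lit 403) (nat_lit 3) (nat_lit 424) (nat_lit 3) (nat_lit 424) (nat_lit 5) (nat_lit 291) (nat_lit 291) (nat_lit 198)) (XT.nd (nat_lit 78) (nat_lit 0) (nat_lit 76) (XT.lf (nat_lit 76) (nat_lit 5201999760) (nat_lit 0) (nat_lit 2342711435) (nat_lit 1596) (nat_lit 3245398620) (nat_lit 404) (nat_lit 5) (nat_lit 403) (nat_lit 3) (nat_lit 424) (nat_lit 5) (nat_lit 292) (nat_lit 291) (nat_lit 197)) (XT.lf (nat_lit 76) (nat_lit 1743580106) (nat_lit 0) (nat_lit 6846783530) (nat_lit 1596) (nat_lit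 2344561185) (nat_lit 405) (nat_lit 5) (nat_lit 404) (nat_lit 5) (nat_lit 425) (nat_lit 5) (nat_lit 293) (nat_lit 291) (nat_lit 196))))) (XT.nd (nat_lit 234) (nat_lit 0) (nat_lit 0) (XT.nd (nat_lit 78) (nat_lit 1444) (nat_lit 0) (XT.lf (nat_lit 76) (nat_lit 9337842505) (nat_lit 0) (nat_lit 350052202) (nat_lit 1596) (nat_lit 1395810933) (nat_lit 405) (nat_lit 5) (nat_lit 404) (nat_lit 5) (nat_lit 425) (nat_lit 5) (nat_lit 294) (nat_lit 291) (nat_lit 195)) (XT.nd (nat_lit 78) (nat_lit 1520) (nat_lit 0) (XT.lf (nat_lit 76) (nat_lit 5941498654) (nat_lit 0) (nat_lit 4924734507) (nat_lit 1596) (nat_lit 369789721) (nat_lit 406) (nat_lit 5) (nat_lit 405) (nat_lit 5) (nat_lit 426) (nat_lit 5) (nat_lit 295) (nat_lit 291) (nat_lit 194)) (XT.lf (nat_lit 0) (nat_lit 689003264) (nat_lit 1596) (nat_lit 8906482306) (nat_lit 1672) (nat_lit 1797143983) (nat_lit 385) (nat_lit 5) (nat_lit 406) (nat_lit 5) (nat_lit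 407) (nat_lit 5) (nat_lit 296) (nat_lit 291) (nat_lit 193)))) (XT.nd (nat_lit 156) (nat_lit 0) (nat_lit 76) (XT.nd (nat_lit 78) (nat_lit 0) (nat_lit 76) (XT.lf (nat_lit 0) (nat_lit 1813196384) (nat_lit 1596) (nat_lit 1034954231) (nat_lit 1672) (nat_lit 8704990019) (nat_lit 385) (nat_lit 5) (nat_lit 406) (nat_lit 5) (nat_lit 407) (nat_lit 5) (nat_lit 297) (nat_lit 291) (nat_lit 192)) (XT.lf (nat_lit 0) (nat_lit 3015005922) (nat_lit 1596) (nat_lit 4596954427) (nat_lit 1672) (nat_lit 4105656364) (nat_lit 386) (nat_lit 5) (nat_lit 407) (nat_lit 5) (nat_lit 408) (nat_lit 5) (nat_lit 298) (nat_lit 291) (nat_lit 191))) (XT.nd (nat_lit 78) (nat_lit 0) (nat_lit 76) (XT.lf (nat_lit 76) (nat_lit 3658482543) (nat_lit 0) (nat_lit 615529573) (nat_lit 1672) (nat_lit 7612618788) (nat_lit 387) (nat_lit 5) (nat_lit 386) (nat_lit 5) (nat_lit 408) (nat_lit 5) (nat_lit 299) (nat_lit 291) (nat_lit 190)) (XT.lf (nat_lit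 76) (nat_lit 103797860) (nat_lit 0) (nat_lit 5513875879) (nat_lit 1672) (nat_lit 6442129978) (nat_lit 388) (nat_lit 5) (nat_lit 387) (nat_lit 5) (nat_lit 409) (nat_lit 5) (nat_lit 300) (nat_lit 291) (nat_lit 189)))))) (XT.nd (nat_lit 468) (nat_lit 4408) (nat_lit 0) (XT.nd (nat_lit 234) (nat_lit 1520) (nat_lit 0) (XT.nd (nat_lit 78) (nat_lit 0) (nat_lit 0) (XT.lf (nat_lit 0) (nat_lit 7045551559) (nat_lit 1596) (nat_lit 3473361894) (nat_lit 1672) (nat_lit 1718405283) (nat_lit 388) (nat_lit 5) (nat_lit 409) (nat_lit 5) (nat_lit 410) (nat_lit 5) (nat_lit 301) (nat_lit 291) (nat_lit 188)) (XT.nd (nat_lit 78) (nat_lit 0) (nat_lit 76) (XT.lf (nat_lit 76) (nat_lit 5277366215) (nat_lit 0) (nat_lit 3283640247) (nat_lit 1672) (nat_lit 3858282339) (nat_lit 389) (nat_lit 5) (nat_lit 388) (nat_lit 5) (nat_lit 410) (nat_lit 5) (nat_lit 302) (nat_lit 291) (nat_lit 187)) (XT.lf (nat_lit 76) (nat_lit 1708075531)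 (nat_lit 0) (nat_lit 8449997364) (nat_lit 1672) (nat_lit 2447945820) (nat_lit 390) (nat_lit 5) (nat_lit 389) (nat_lit 5) (nat_lit 411) (nat_lit 5) (nat_lit 303) (nat_lit 291) (nat_lit 186)))) (XT.nd (nat_lit 78) (nat_lit 1596) (nat_lit 0) (XT.lf (nat_lit 76) (nat_lit 10880373644) (nat_lit 0) (nat_lit 967814922) (nat_lit 1672) (nat_lit 949282228) (nat_lit 390) (nat_lit 5) (nat_lit 389) (nat_lit 5) (nat_lit 411) (nat_lit 5) (nat_lit 304) (nat_lit 291) (nat_lit 185)) (XT.nd (nat_lit 78) (nat_lit 0) (nat_lit 76) (XT.lf (nat_lit 0) (nat_lit 654253541) (nat_lit 1672) (nat_lit 5630315369) (nat_lit 1748) (nat_lit 6708688109) (nat_lit 368) (nat_lit 5) (nat_lit 390) (nat_lit 5) (nat_lit 391) (nat_lit 5) (nat_lit 305) (nat_lit 291) (nat_lit 184)) (XT.lf (nat_lit 0) (nat_lit 2322673613) (nat_lit 1672) (nat_lit 9433106226) (nat_lit 1748) (nat_lit 1438439257) (nat_lit 369) (nat_lit 5) (nat_lit 391) (nat_lit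 5) (nat_lit 392) (nat_lit 5) (nat_lit 306) (nat_lit 291) (nat_lit 183))))) (XT.nd (nat_lit 234) (nat_lit 2888) (nat_lit 0) (XT.nd (nat_lit 78) (nat_lit 1596) (nat_lit 0) (XT.lf (nat_lit 76) (nat_lit 50322458) (nat_lit 0) (nat_lit 4048298429) (nat_lit 1748) (nat_lit 9301460304) (nat_lit 370) (nat_lit 5) (nat_lit 369) (nat_lit 5) (nat_lit 392) (nat_lit 5) (nat_lit 307) (nat_lit 291) (nat_lit 182)) (XT.nd (nat_lit 78) (nat_lit 1672) (nat_lit 0) (XT.lf (nat_lit 0) (nat_lit 5994748965) (nat_lit 1672) (nat_lit 3708303482) (nat_lit 76) (nat_lit 3907748698) (nat_lit 370) (nat_lit 5) (nat_lit 392) (nat_lit 5) (nat_lit 371) (nat_lit 5) (nat_lit 308) (nat_lit 291) (nat_lit 181)) (XT.lf (nat_lit 0) (nat_lit 6258809831) (nat_lit 1672) (nat_lit 1734619630) (nat_lit 1748) (nat_lit 5833519329) (nat_lit 348) (nat_lit 5) (nat_lit 370) (nat_lit 5) (nat_lit 371) (nat_lit 5) (nat_lit 309) (nat_lit 291) (nat_lit 180))))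 (XT.nd (nat_lit 156) (nat_lit 1748) (nat_lit 0) (XT.nd (nat_lit 78) (nat_lit 0) (nat_lit 0) (XT.lf (nat_lit 0) (nat_lit 2498426186) (nat_lit 1140) (nat_lit 7615690358) (nat_lit 1216) (nat_lit 3934242289) (nat_lit 333) (nat_lit 5) (nat_lit 348) (nat_lit 5) (nat_lit 349) (nat_lit 5) (nat_lit 310) (nat_lit 291) (nat_lit 179)) (XT.lf (nat_lit 0) (nat_lit 12344138378) (nat_lit 1216) (nat_lit 1339123930) (nat_lit 76) (nat_lit 592252932) (nat_lit 333) (nat_lit 5) (nat_lit 349) (nat_lit 5) (nat_lit 334) (nat_lit 5) (nat_lit 311) (nat_lit 291) (nat_lit 178))) (XT.nd (nat_lit 78) (nat_lit 836) (nat_lit 0) (XT.lf (nat_lit 0) (nat_lit 220922942) (nat_lit 912) (nat_lit 5279383967) (nat_lit 76) (nat_lit 9007358326) (nat_lit 321) (nat_lit 5) (nat_lit 333) (nat_lit 5) (nat_lit 322) (nat_lit 5) (nat_lit 312) (nat_lit 291) (nat_lit 177)) (XT.lf (nat_lit 0) (nat_lit 2455419461) (nat_lit 912) (nat_lit 9341200172)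 (nat_lit 76) (nat_lit 2949044369) (nat_lit 310) (nat_lit 5) (nat_lit 322) (nat_lit 5) (nat_lit 311) (nat_lit 5) (nat_lit 313) (nat_lit 291) (nat_lit 176))))))) (XT.nd (nat_lit 1014) (nat_lit 5928) (nat_lit 0) (XT.nd (nat_lit 468) (nat_lit 3420) (nat_lit 0) (XT.nd (nat_lit 234) (nat_lit 1596) (nat_lit 0) (XT.nd (nat_lit 78) (nat_lit 836) (nat_lit 0) (XT.lf (nat_lit 0) (nat_lit 1454591170) (nat_lit 760) (nat_lit 3365038861) (nat_lit 836) (nat_lit 10169935576) (nat_lit 300) (nat_lit 5) (nat_lit 310) (nat_lit 5) (nat_lit 311) (nat_lit 5) (nat_lit 314) (nat_lit 291) (nat_lit 175)) (XT.nd (nat_lit 78) (nat_lit 836) (nat_lit 0) (XT.lf (nat_lit 0) (nat_lit 7333920797) (nat_lit 836) (nat_lit 2590930619) (nat_lit 76) (nat_lit 5314365747) (nat_lit 300) (nat_lit 5) (nat_lit 311) (nat_lit 5) (nat_lit 301) (nat_lit 5) (nat_lit 315) (nat_lit 291) (nat_lit 174)) (XT.lf (nat_lit 0) (nat_lit 8755729448) (nat_lit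 836) (nat_lit 1228716816) (nat_lit 912) (nat_lit 5510711393) (nat_lit 289) (nat_lit 5) (nat_lit 300) (nat_lit 5) (nat_lit 301) (nat_lit 5) (nat_lit 316) (nat_lit 291) (nat_lit 173)))) (XT.nd (nat_lit 78) (nat_lit 836) (nat_lit 0) (XT.lf (nat_lit 0) (nat_lit 4713228595) (nat_lit 760) (nat_lit 8081592702) (nat_lit 836) (nat_lit 2962363457) (nat_lit 279) (nat_lit 5) (nat_lit 289) (nat_lit 5) (nat_lit 290) (nat_lit 5) (nat_lit 317) (nat_lit 291) (nat_lit 172)) (XT.nd (nat_lit 78) (nat_lit 76) (nat_lit 0) (XT.lf (nat_lit 0) (nat_lit 550903542) (nat_lit 760) (nat_lit 15183824437) (nat_lit 836) (nat_lit 291454900) (nat_lit 269) (nat_lit 5) (nat_lit 279) (nat_lit 5) (nat_lit 280) (nat_lit 5) (nat_lit 318) (nat_lit 291) (nat_lit 171)) (XT.lf (nat_lit 0) (nat_lit 2539265157) (nat_lit 836) (nat_lit 3745630031) (nat_lit 76) (nat_lit 10015811452) (nat_lit 268) (nat_lit 5) (nat_lit 279) (nat_lit 5) (nat_lit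 269) (nat_lit 5) (nat_lit 319) (nat_lit 291) (nat_lit 170))))) (XT.nd (nat_lit 234) (nat_lit 2052) (nat_lit 0) (XT.nd (nat_lit 78) (nat_lit 684) (nat_lit 0) (XT.lf (nat_lit 0) (nat_lit 5507830375) (nat_lit 760) (nat_lit 8174899340) (nat_lit 76) (nat_lit 2899573716) (nat_lit 259) (nat_lit 5) (nat_lit 269) (nat_lit 5) (nat_lit 260) (nat_lit 5) (nat_lit 320) (nat_lit 291) (nat_lit 169)) (XT.nd (nat_lit 78) (nat_lit 0) (nat_lit 0) (XT.lf (nat_lit 0) (nat_lit 4098341160) (nat_lit 684) (nat_lit 4544747311) (nat_lit 760) (nat_lit 8227720057) (nat_lit 250) (nat_lit 5) (nat_lit 259) (nat_lit 5) (nat_lit 260) (nat_lit 5) (nat_lit 321) (nat_lit 291) (nat_lit 168)) (XT.lf (nat_lit 0) (nat_lit 11943577778) (nat_lit 760) (nat_lit 364864553) (nat_lit 76) (nat_lit 4858115714) (nat_lit 250) (nat_lit 5) (nat_lit 260) (nat_lit 5) (nat_lit 251) (nat_lit 5) (nat_lit 322) (nat_lit 291) (nat_lit 167)))) (XT.nd (nat_lit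 156) (nat_lit 608) (nat_lit 0) (XT.nd (nat_lit 78) (nat_lit 760) (nat_lit 0) (XT.lf (nat_lit 0) (nat_lit 12531732645) (nat_lit 684) (nat_lit 2907386454) (nat_lit 760) (nat_lit 2030152569) (nat_lit 241) (nat_lit 5) (nat_lit 250) (nat_lit 5) (nat_lit 251) (nat_lit 5) (nat_lit 323) (nat_lit 291) (nat_lit 166)) (XT.lf (nat_lit 0) (nat_lit 1326082778) (nat_lit 760) (nat_lit 9704139387) (nat_lit 76) (nat_lit 6749010335) (nat_lit 231) (nat_lit 5) (nat_lit 241) (nat_lit 5) (nat_lit 232) (nat_lit 5) (nat_lit 324) (nat_lit 291) (nat_lit 165))) (XT.nd (nat_lit 78) (nat_lit 0) (nat_lit 0) (XT.lf (nat_lit 0) (nat_lit 3442615845) (nat_lit 608) (nat_lit 1373284476) (nat_lit 684) (nat_lit 13281125342) (nat_lit 223) (nat_lit 5) (nat_lit 231) (nat_lit 5) (nat_lit 232) (nat_lit 5) (nat_lit 325) (nat_lit 291) (nat_lit 164)) (XT.lf (nat_lit 0) (nat_lit 8517433658) (nat_lit 684) (nat_lit 1379707764) (nat_lit 76) (nat_lit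 8525081865) (nat_lit 223) (nat_lit 5) (nat_lit 232) (nat_lit 5) (nat_lit 224) (nat_lit 5) (nat_lit 326) (nat_lit 291) (nat_lit 163)))))) (XT.nd (nat_lit 546) (nat_lit 2508) (nat_lit 0) (XT.nd (nat_lit 234) (nat_lit 1596) (nat_lit 0) (XT.nd (nat_lit 78) (nat_lit 1216) (nat_lit 0) (XT.lf (nat_lit 0) (nat_lit 12405660517) (nat_lit 684) (nat_lit 6325437160) (nat_lit 76) (nat_lit 24576987) (nat_lit 215) (nat_lit 5) (nat_lit 224) (nat_lit 5) (nat_lit 216) (nat_lit 5) (nat_lit 327) (nat_lit 291) (nat_lit 162)) (XT.nd (nat_lit 78) (nat_lit 684) (nat_lit 0) (XT.lf (nat_lit 0) (nat_lit 7591050873) (nat_lit 532) (nat_lit 8930260922) (nat_lit 608) (nat_lit 2575612693) (nat_lit 208) (nat_lit 5) (nat_lit 215) (nat_lit 5) (nat_lit 216) (nat_lit 5) (nat_lit 328) (nat_lit 291) (nat_lit 161)) (XT.lf (nat_lit 0) (nat_lit 1348755211) (nat_lit 684) (nat_lit 16882938375) (nat_lit 76) (nat_lit 1215478969) (nat_lit 199)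 (nat_lit 5) (nat_lit 208) (nat_lit 5) (nat_lit 200) (nat_lit 5) (nat_lit 329) (nat_lit 291) (nat_lit 160)))) (XT.nd (nat_lit 156) (nat_lit 1064) (nat_lit 0) (XT.nd (nat_lit 78) (nat_lit 532) (nat_lit 0) (XT.lf (nat_lit 0) (nat_lit 5480643200) (nat_lit 684) (nat_lit 2686491988) (nat_lit 76) (nat_lit 11637966415) (nat_lit 199) (nat_lit 5) (nat_lit 208) (nat_lit 5) (nat_lit 200) (nat_lit 5) (nat_lit 330) (nat_lit 291) (nat_lit 159)) (XT.lf (nat_lit 0) (nat_lit 9816461802) (nat_lit 608) (nat_lit 8109117507) (nat_lit 76) (nat_lit 2246599118) (nat_lit 192) (nat_lit 5) (nat_lit 200) (nat_lit 5) (nat_lit 193) (nat_lit 5) (nat_lit 331) (nat_lit 291) (nat_lit 158))) (XT.nd (nat_lit 78) (nat_lit 532) (nat_lit 0) (XT.lf (nat_lit 0) (nat_lit 6759782518) (nat_lit 532) (nat_lit 7626441550) (nat_lit 608) (nat_lit 6161975214) (nat_lit 185) (nat_lit 5) (nat_lit 192) (nat_lit 5) (nat_lit 193) (nat_lit 5) (nat_lit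 332) (nat_lit 291) (nat_lit 157)) (XT.lf (nat_lit 0) (nat_lit 1231691304) (nat_lit 532) (nat_lit 17931349645) (nat_lit 608) (nat_lit 1771069425) (nat_lit 178) (nat_lit 5) (nat_lit 185) (nat_lit 5) (nat_lit 186) (nat_lit 5) (nat_lit 333) (nat_lit 291) (nat_lit 156))))) (XT.nd (nat_lit 234) (nat_lit 1444) (nat_lit 0) (XT.nd (nat_lit 78) (nat_lit 988) (nat_lit 0) (XT.lf (nat_lit 0) (nat_lit 2847999605) (nat_lit 608) (nat_lit 4524074898) (nat_lit 76) (nat_lit 13956524947) (nat_lit 177) (nat_lit 5) (nat_lit 185) (nat_lit 5) (nat_lit 178) (nat_lit 5) (nat_lit 334) (nat_lit 291) (nat_lit 155)) (XT.nd (nat_lit 78) (nat_lit 456) (nat_lit 0) (XT.lf (nat_lit 0) (nat_lit 7665748510) (nat_lit 608) (nat_lit 10527250643) (nat_lit 76) (nat_lit 3540014690) (nat_lit 170) (nat_lit 5) (nat_lit 178) (nat_lit 5) (nat_lit 171) (nat_lit 5) (nat_lit 335) (nat_lit 291) (nat_lit 154)) (XT.lf (nat_lit 0) (nat_lit 5325307653)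 (nat_lit 456) (nat_lit 7405524308) (nat_lit 532) (nat_lit 9416680601) (nat_lit 164) (nat_lit 5) (nat_lit 170) (nat_lit 5) (nat_lit 171) (nat_lit 5) (nat_lit 336) (nat_lit 291) (nat_lit 153)))) (XT.nd (nat_lit 156) (nat_lit 912) (nat_lit 0) (XT.nd (nat_lit 78) (nat_lit 532) (nat_lit 0) (XT.lf (nat_lit 0) (nat_lit 18032027448) (nat_lit 532) (nat_lit 815482790) (nat_lit 76) (nat_lit 3725260519) (nat_lit 164) (nat_lit 5) (nat_lit 171) (nat_lit 5) (nat_lit 165) (nat_lit 5) (nat_lit 337) (nat_lit 291) (nat_lit 152)) (XT.lf (nat_lit 0) (nat_lit 616916850) (nat_lit 532) (nat_lit 7197734263) (nat_lit 76) (nat_lit 15193245209) (nat_lit 157) (nat_lit 5) (nat_lit 164) (nat_lit 5) (nat_lit 158) (nat_lit 5) (nat_lit 338) (nat_lit 291) (nat_lit 151))) (XT.nd (nat_lit 78) (nat_lit 456) (nat_lit 0) (XT.lf (nat_lit 0) (nat_lit 5948120885) (nat_lit 532) (nat_lit 13908067038) (nat_lit 76) (nat_lit 3597684466) (nat_lit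 151) (nat_lit 5) (nat_lit 158) (nat_lit 5) (nat_lit 152) (nat_lit 5) (nat_lit 339) (nat_lit 291) (nat_lit 150)) (XT.lf (nat_lit 0) (nat_lit 2949122813) (nat_lit 456) (nat_lit 8599637468) (nat_lit 532) (nat_lit 12362284384) (nat_lit 145) (nat_lit 5) (nat_lit 151) (nat_lit 5) (nat_lit 152) (nat_lit 5) (nat_lit 340) (nat_lit 291) (nat_lit 149))))))))
noncomputable def xc101 : XT := (XT.nd (nat_lit 37674) (nat_lit 0) (nat_lit 8740) (XT.nd (nat_lit 1014) (nat_lit 380) (nat_lit 0) (XT.nd (nat_lit 468) (nat_lit 1900) (nat_lit 0) (XT.nd (nat_lit 234) (nat_lit 760) (nat_lit 0) (XT.nd (nat_lit 78) (nat_lit 912) (nat_lit 0) (XT.lf (nat_lit 0) (nat_lit 17420926131) (nat_lit 532) (nat_lit 3912560709) (nat_lit 76) (nat_lit 3046381836) (nat_lit 145) (nat_lit 5) (nat_lit 152) (nat_lit 5) (nat_lit 146) (nat_lit 5) (nat_lit 341) (nat_lit 291) (nat_lit 148)) (XT.nd (nat_lit 78) (nat_lit 532) (nat_lit 0) (XT.lf (nat_lit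 0) (nat_lit 13756776262) (nat_lit 380) (nat_lit 9848817795) (nat_lit 456) (nat_lit 1254443122) (nat_lit 140) (nat_lit 5) (nat_lit 145) (nat_lit 5) (nat_lit 146) (nat_lit 5) (nat_lit 342) (nat_lit 291) (nat_lit 147)) (XT.lf (nat_lit 0) (nat_lit 4633910577) (nat_lit 532) (nat_lit 18667295744) (nat_lit 76) (nat_lit 2051344001) (nat_lit 133) (nat_lit 5) (nat_lit 140) (nat_lit 5) (nat_lit 134) (nat_lit 5) (nat_lit 343) (nat_lit 291) (nat_lit 146)))) (XT.nd (nat_lit 78) (nat_lit 760) (nat_lit 0) (XT.lf (nat_lit 0) (nat_lit 10813402825) (nat_lit 532) (nat_lit 787954636) (nat_lit 76) (nat_lit 14255690964) (nat_lit 133) (nat_lit 5) (nat_lit 140) (nat_lit 5) (nat_lit 134) (nat_lit 5) (nat_lit 344) (nat_lit 291) (nat_lit 145)) (XT.nd (nat_lit 78) (nat_lit 380) (nat_lit 0) (XT.lf (nat_lit 0) (nat_lit 17287949655) (nat_lit 456) (nat_lit 8530243485) (nat_lit 76) (nat_lit 556300780) (nat_lit 128) (nat_lit 5)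 (nat_lit 134) (nat_lit 5) (nat_lit 129) (nat_lit 5) (nat_lit 345) (nat_lit 291) (nat_lit 144)) (XT.lf (nat_lit 0) (nat_lit 10180946306) (nat_lit 380) (nat_lit 13915148456) (nat_lit 456) (nat_lit 2808586457) (nat_lit 123) (nat_lit 5) (nat_lit 128) (nat_lit 5) (nat_lit 129) (nat_lit 5) (nat_lit 346) (nat_lit 291) (nat_lit 143))))) (XT.nd (nat_lit 234) (nat_lit 1064) (nat_lit 0) (XT.nd (nat_lit 78) (nat_lit 380) (nat_lit 0) (XT.lf (nat_lit 0) (nat_lit 2110445119) (nat_lit 380) (nat_lit 1561610354) (nat_lit 456) (nat_lit 23777002761) (nat_lit 117) (nat_lit 5) (nat_lit 122) (nat_lit 5) (nat_lit 123) (nat_lit 5) (nat_lit 347) (nat_lit 291) (nat_lit 142)) (XT.nd (nat_lit 78) (nat_lit 380) (nat_lit 0) (XT.lf (nat_lit 0) (nat_lit 10486319384) (nat_lit 456) (nat_lit 6374602970) (nat_lit 76) (nat_lit 11144930947) (nat_lit 117) (nat_lit 5) (nat_lit 123) (nat_lit 5) (nat_lit 118) (nat_lit 5) (nat_lit 348) (nat_lit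 291) (nat_lit 141)) (XT.lf (nat_lit 0) (nat_lit 13309171172) (nat_lit 380) (nat_lit 4283561701) (nat_lit 456) (nat_lit 10984870006) (nat_lit 112) (nat_lit 5) (nat_lit 117) (nat_lit 5) (nat_lit 118) (nat_lit 5) (nat_lit 349) (nat_lit 291) (nat_lit 140)))) (XT.nd (nat_lit 156) (nat_lit 684) (nat_lit 0) (XT.nd (nat_lit 78) (nat_lit 76) (nat_lit 0) (XT.lf (nat_lit 0) (nat_lit 4494224459) (nat_lit 304) (nat_lit 20538096050) (nat_lit 380) (nat_lit 4131789745) (nat_lit 108) (nat_lit 5) (nat_lit 112) (nat_lit 5) (nat_lit 113) (nat_lit 5) (nat_lit 350) (nat_lit 291) (nat_lit 139)) (XT.lf (nat_lit 0) (nat_lit 3012426642) (nat_lit 380) (nat_lit 4768836795) (nat_lit 76) (nat_lit 21984095446) (nat_lit 107) (nat_lit 5) (nat_lit 112) (nat_lit 5) (nat_lit 108) (nat_lit 5) (nat_lit 351) (nat_lit 291) (nat_lit 138))) (XT.nd (nat_lit 78) (nat_lit 304) (nat_lit 0) (XT.lf (nat_lit 0) (nat_lit 10445393731) (nat_lit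 456) (nat_lit 14520458118) (nat_lit 76) (nat_lit 5415640288) (nat_lit 102) (nat_lit 5) (nat_lit 108) (nat_lit 5) (nat_lit 103) (nat_lit 5) (nat_lit 352) (nat_lit 291) (nat_lit 137)) (XT.lf (nat_lit 0) (nat_lit 6175685194) (nat_lit 304) (nat_lit 12041863506) (nat_lit 380) (nat_lit 12796241147) (nat_lit 98) (nat_lit 5) (nat_lit 102) (nat_lit 5) (nat_lit 103) (nat_lit 5) (nat_lit 353) (nat_lit 291) (nat_lit 136)))))) (XT.nd (nat_lit 36114) (nat_lit 0) (nat_lit 22116) (XT.nd (nat_lit 35880) (nat_lit 0) (nat_lit 22040) (XT.nd (nat_lit 78) (nat_lit 380) (nat_lit 0) (XT.lf (nat_lit 0) (nat_lit 26321834627) (nat_lit 380) (nat_lit 3993125056) (nat_lit 76) (nat_lit 1348121784) (nat_lit 98) (nat_lit 5) (nat_lit 103) (nat_lit 5) (nat_lit 99) (nat_lit 5) (nat_lit 354) (nat_lit 291) (nat_lit 135)) (XT.nd (nat_lit 35724) (nat_lit 0) (nat_lit 23560) (XT.lf (nat_lit 0) (nat_lit 2494792803) (nat_lit 380) (nat_lit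 14729072174) (nat_lit 76) (nat_lit 15103926423) (nat_lit 93) (nat_lit 5) (nat_lit 98) (nat_lit 5) (nat_lit 94) (nat_lit 5) (nat_lit 355) (nat_lit 291) (nat_lit 134)) (XT.lf (nat_lit 0) (nat_lit 4229050240) (nat_lit 1596) (nat_lit 618656758) (nat_lit 1596) (nat_lit 618656758) (nat_lit 403) (nat_lit 3) (nat_lit 424) (nat_lit 3) (nat_lit 424) (nat_lit 5) (nat_lit 292) (nat_lit 292) (nat_lit 196)))) (XT.nd (nat_lit 78) (nat_lit 1520) (nat_lit 0) (XT.lf (nat_lit 76) (nat_lit 6219107806) (nat_lit 0) (nat_lit 3222152340) (nat_lit 1596) (nat_lit 1637547768) (nat_lit 404) (nat_lit 5) (nat_lit 403) (nat_lit 3) (nat_lit 424) (nat_lit 5) (nat_lit 293) (nat_lit 292) (nat_lit 195)) (XT.nd (nat_lit 78) (nat_lit 1596) (nat_lit 0) (XT.lf (nat_lit 76) (nat_lit 2682571726) (nat_lit 0) (nat_lit 7787719969) (nat_lit 1596) (nat_lit 758682116) (nat_lit 405) (nat_lit 5) (nat_lit 404) (nat_lit 5) (nat_lit 425) (nat_lit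 5) (nat_lit 294) (nat_lit 292) (nat_lit 194)) (XT.lf (nat_lit 0) (nat_lit 168057942) (nat_lit 1596) (nat_lit 905477712) (nat_lit 1672) (nat_lit 10309650543) (nat_lit 383) (nat_lit 5) (nat_lit 404) (nat_lit 5) (nat_lit 405) (nat_lit 5) (nat_lit 295) (nat_lit 292) (nat_lit 193))))) (XT.nd (nat_lit 234) (nat_lit 0) (nat_lit 152) (XT.nd (nat_lit 78) (nat_lit 0) (nat_lit 76) (XT.lf (nat_lit 0) (nat_lit 1166025416) (nat_lit 1596) (nat_lit 4545033051) (nat_lit 1672) (nat_lit 5829819838) (nat_lit 384) (nat_lit 5) (nat_lit 405) (nat_lit 5) (nat_lit 406) (nat_lit 5) (nat_lit 296) (nat_lit 292) (nat_lit 192)) (XT.nd (nat_lit 78) (nat_lit 0) (nat_lit 0) (XT.lf (nat_lit 0) (nat_lit 2208491603) (nat_lit 1596) (nat_lit 8247097702) (nat_lit 1672) (nat_lit 1247448156) (nat_lit 385) (nat_lit 5) (nat_lit 406) (nat_lit 5) (nat_lit 407) (nat_lit 5) (nat_lit 297) (nat_lit 292) (nat_lit 191)) (XT.lf (nat_lit 0) (nat_lit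 3322755615) (nat_lit 1596) (nat_lit 166411525) (nat_lit 1672) (nat_lit 8380110451) (nat_lit 385) (nat_lit 5) (nat_lit 406) (nat_lit 5) (nat_lit 407) (nat_lit 5) (nat_lit 298) (nat_lit 292) (nat_lit 190)))) (XT.nd (nat_lit 156) (nat_lit 0) (nat_lit 76) (XT.nd (nat_lit 78) (nat_lit 0) (nat_lit 0) (XT.lf (nat_lit 0) (nat_lit 4520518000) (nat_lit 1596) (nat_lit 3816717424) (nat_lit 1672) (nat_lit 3702293995) (nat_lit 386) (nat_lit 5) (nat_lit 407) (nat_lit 5) (nat_lit 408) (nat_lit 5) (nat_lit 299) (nat_lit 292) (nat_lit 189)) (XT.lf (nat_lit 76) (nat_lit 4671486833) (nat_lit 0) (nat_lit 1110456649) (nat_lit 1672) (nat_lit 6432415861) (nat_lit 387) (nat_lit 5) (nat_lit 386) (nat_lit 5) (nat_lit 408) (nat_lit 5) (nat_lit 300) (nat_lit 292) (nat_lit 188))) (XT.nd (nat_lit 78) (nat_lit 0) (nat_lit 76) (XT.lf (nat_lit 76) (nat_lit 1026952868) (nat_lit 0) (nat_lit 6101746444) (nat_lit 1672) (nat_lit 5264809513)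 (nat_lit 388) (nat_lit 5) (nat_lit 387) (nat_lit 5) (nat_lit 409) (nat_lit 5) (nat_lit 301) (nat_lit 292) (nat_lit 187)) (XT.lf (nat_lit 0) (nat_lit 8557648695) (nat_lit 1596) (nat_lit 2654385149) (nat_lit 1672) (nat_lit 1365186834) (nat_lit 388) (nat_lit 5) (nat_lit 409) (nat_lit 5) (nat_lit 410) (nat_lit 5) (nat_lit 302) (nat_lit 292) (nat_lit 186))))))) (XT.nd (nat_lit 1014) (nat_lit 6992) (nat_lit 0) (XT.nd (nat_lit 468) (nat_lit 5092) (nat_lit 0) (XT.nd (nat_lit 234) (nat_lit 0) (nat_lit 76) (XT.nd (nat_lit 78) (nat_lit 1596) (nat_lit 0) (XT.lf (nat_lit 76) (nat_lit 6343887344) (nat_lit 0) (nat_lit 3742691183) (nat_lit 1672) (nat_lit 2678746134) (nat_lit 389) (nat_lit 5) (nat_lit 388) (nat_lit 5) (nat_lit 410) (nat_lit 5) (nat_lit 303) (nat_lit 292) (nat_lit 185)) (XT.nd (nat_lit 78) (nat_lit 1672) (nat_lit 0) (XT.lf (nat_lit 76) (nat_lit 2681198548) (nat_lit 0) (nat_lit 9017117524) (nat_lit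 1672) (nat_lit 1260039236) (nat_lit 390) (nat_lit 5) (nat_lit 389) (nat_lit 5) (nat_lit 411) (nat_lit 5) (nat_lit 304) (nat_lit 292) (nat_lit 184)) (XT.lf (nat_lit 0) (nat_lit 243608630) (nat_lit 1672) (nat_lit 1056091666) (nat_lit 1748) (nat_lit 11856571336) (nat_lit 367) (nat_lit 5) (nat_lit 389) (nat_lit 5) (nat_lit 390) (nat_lit 5) (nat_lit 305) (nat_lit 292) (nat_lit 183)))) (XT.nd (nat_lit 78) (nat_lit 0) (nat_lit 76) (XT.lf (nat_lit 0) (nat_lit 1851223296) (nat_lit 1672) (nat_lit 4875392609) (nat_lit 1748) (nat_lit 6631844084) (nat_lit 368) (nat_lit 5) (nat_lit 390) (nat_lit 5) (nat_lit 391) (nat_lit 5) (nat_lit 306) (nat_lit 292) (nat_lit 182)) (XT.nd (nat_lit 78) (nat_lit 0) (nat_lit 0) (XT.lf (nat_lit 0) (nat_lit 3539746333) (nat_lit 1672) (nat_lit 8781699931) (nat_lit 1748) (nat_lit 1244634177) (nat_lit 369) (nat_lit 5) (nat_lit 391) (nat_lit 5) (nat_lit 392) (nat_lit 5) (nat_lit 307)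 (nat_lit 292) (nat_lit 181)) (XT.lf (nat_lit 76) (nat_lit 971072092) (nat_lit 0) (nat_lit 4370449050) (nat_lit 1748) (nat_lit 8437175908) (nat_lit 370) (nat_lit 5) (nat_lit 369) (nat_lit 5) (nat_lit 392) (nat_lit 5) (nat_lit 308) (nat_lit 292) (nat_lit 180))))) (XT.nd (nat_lit 234) (nat_lit 2508) (nat_lit 0) (XT.nd (nat_lit 78) (nat_lit 2812) (nat_lit 0) (XT.lf (nat_lit 0) (nat_lit 7260648269) (nat_lit 1672) (nat_lit 2903116057) (nat_lit 76) (nat_lit 3832680742) (nat_lit 370) (nat_lit 5) (nat_lit 392) (nat_lit 5) (nat_lit 371) (nat_lit 5) (nat_lit 309) (nat_lit 292) (nat_lit 179)) (XT.nd (nat_lit 78) (nat_lit 1140) (nat_lit 0) (XT.lf (nat_lit 0) (nat_lit 7348142561) (nat_lit 1672) (nat_lit 1945367475) (nat_lit 1748) (nat_lit 4926110619) (nat_lit 348) (nat_lit 5) (nat_lit 370) (nat_lit 5) (nat_lit 371) (nat_lit 5) (nat_lit 310) (nat_lit 292) (nat_lit 178)) (XT.lf (nat_lit 0) (nat_lit 3483111716)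 (nat_lit 1140) (nat_lit 7968730297) (nat_lit 1216) (nat_lit 2996377620) (nat_lit 333) (nat_lit 5) (nat_lit 348) (nat_lit 5) (nat_lit 349) (nat_lit 5) (nat_lit 311) (nat_lit 292) (nat_lit 177)))) (XT.nd (nat_lit 156) (nat_lit 1596) (nat_lit 0) (XT.nd (nat_lit 78) (nat_lit 912) (nat_lit 0) (XT.lf (nat_lit 0) (nat_lit 13717853973) (nat_lit 1216) (nat_lit 474315613) (nat_lit 76) (nat_lit 490665684) (nat_lit 333) (nat_lit 5) (nat_lit 349) (nat_lit 5) (nat_lit 334) (nat_lit 5) (nat_lit 312) (nat_lit 292) (nat_lit 176)) (XT.lf (nat_lit 0) (nat_lit 1214828074) (nat_lit 912) (nat_lit 4533509982) (nat_lit 76) (nat_lit 9173976257) (nat_lit 321) (nat_lit 5) (nat_lit 333) (nat_lit 5) (nat_lit 322) (nat_lit 5) (nat_lit 313) (nat_lit 292) (nat_lit 175))) (XT.nd (nat_lit 78) (nat_lit 760) (nat_lit 0) (XT.lf (nat_lit 0) (nat_lit 3492894527) (nat_lit 912) (nat_lit 8711269109) (nat_lit 76) (nat_lit 2963783035) (nat_lit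 310) (nat_lit 5) (nat_lit 322) (nat_lit 5) (nat_lit 311) (nat_lit 5) (nat_lit 314) (nat_lit 292) (nat_lit 174)) (XT.lf (nat_lit 0) (nat_lit 2393629594) (nat_lit 760) (nat_lit 3512143148) (nat_lit 836) (nat_lit 9513861379) (nat_lit 300) (nat_lit 5) (nat_lit 310) (nat_lit 5) (nat_lit 311) (nat_lit 5) (nat_lit 315) (nat_lit 292) (nat_lit 173)))))) (XT.nd (nat_lit 546) (nat_lit 3192) (nat_lit 0) (XT.nd (nat_lit 234) (nat_lit 2204) (nat_lit 0) (XT.nd (nat_lit 78) (nat_lit 1596) (nat_lit 0) (XT.lf (nat_lit 0) (nat_lit 8467777404) (nat_lit 836) (nat_lit 1779999508) (nat_lit 76) (nat_lit 5429575540) (nat_lit 300) (nat_lit 5) (nat_lit 311) (nat_lit 5) (nat_lit 301) (nat_lit 5) (nat_lit 316) (nat_lit 292) (nat_lit 172)) (XT.nd (nat_lit 78) (nat_lit 760) (nat_lit 0) (XT.lf (nat_lit 0) (nat_lit 9892642924) (nat_lit 836) (nat_lit 1284235199) (nat_lit 912) (nat_lit 4764534116) (nat_lit 289) (nat_lit 5) (nat_lit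 300) (nat_lit 5) (nat_lit 301) (nat_lit 5) (nat_lit 317) (nat_lit 292) (nat_lit 171)) (XT.lf (nat_lit 0) (nat_lit 5733101065) (nat_lit 760) (nat_lit 8318042631) (nat_lit 836) (nat_lit 2160586483) (nat_lit 279) (nat_lit 5) (nat_lit 289) (nat_lit 5) (nat_lit 290) (nat_lit 5) (nat_lit 318) (nat_lit 292) (nat_lit 170)))) (XT.nd (nat_lit 156) (nat_lit 1368) (nat_lit 0) (XT.nd (nat_lit 78) (nat_lit 0) (nat_lit 0) (XT.lf (nat_lit 0) (nat_lit 562907410) (nat_lit 836) (nat_lit 15043424461) (nat_lit 76) (nat_lit 882806241) (nat_lit 268) (nat_lit 5) (nat_lit 279) (nat_lit 5) (nat_lit 269) (nat_lit 5) (nat_lit 319) (nat_lit 292) (nat_lit 169)) (XT.lf (nat_lit 0) (nat_lit 3449587578) (nat_lit 836) (nat_lit 2989878379) (nat_lit 76) (nat_lit 10332913110) (nat_lit 268) (nat_lit 5) (nat_lit 279) (nat_lit 5) (nat_lit 269) (nat_lit 5) (nat_lit 320) (nat_lit 292) (nat_lit 168))) (XT.nd (nat_lit 78) (nat_lit 684) (nat_lit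 0) (XT.lf (nat_lit 0) (nat_lit 6488710145) (nat_lit 760) (nat_lit 7549406517) (nat_lit 76) (nat_lit 3024696487) (nat_lit 259) (nat_lit 5) (nat_lit 269) (nat_lit 5) (nat_lit 260) (nat_lit 5) (nat_lit 321) (nat_lit 292) (nat_lit 167)) (XT.lf (nat_lit 0) (nat_lit 5077904479) (nat_lit 684) (nat_lit 4621926559) (nat_lit 760) (nat_lit 7660525089) (nat_lit 250) (nat_lit 5) (nat_lit 259) (nat_lit 5) (nat_lit 260) (nat_lit 5) (nat_lit 322) (nat_lit 292) (nat_lit 166))))) (XT.nd (nat_lit 234) (nat_lit 1748) (nat_lit 0) (XT.nd (nat_lit 78) (nat_lit 760) (nat_lit 0) (XT.lf (nat_lit 0) (nat_lit 477840565) (nat_lit 684) (nat_lit 12601743158) (nat_lit 760) (nat_lit 4585807714) (nat_lit 241) (nat_lit 5) (nat_lit 250) (nat_lit 5) (nat_lit 251) (nat_lit 5) (nat_lit 323) (nat_lit 292) (nat_lit 165)) (XT.nd (nat_lit 78) (nat_lit 760) (nat_lit 0) (XT.lf (nat_lit 0) (nat_lit 13741320915) (nat_lit 684) (nat_lit 2918419379)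 (nat_lit 760) (nat_lit 1317868944) (nat_lit 241) (nat_lit 5) (nat_lit 250) (nat_lit 5) (nat_lit 251) (nat_lit 5) (nat_lit 324) (nat_lit 292) (nat_lit 164)) (XT.lf (nat_lit 0) (nat_lit 2112629707) (nat_lit 760) (nat_lit 9149666231) (nat_lit 76) (nat_lit 7034815116) (nat_lit 231) (nat_lit 5) (nat_lit 241) (nat_lit 5) (nat_lit 232) (nat_lit 5) (nat_lit 325) (nat_lit 292) (nat_lit 163)))) (XT.nd (nat_lit 156) (nat_lit 1140) (nat_lit 0) (XT.nd (nat_lit 78) (nat_lit 0) (nat_lit 0) (XT.lf (nat_lit 0) (nat_lit 4377772846) (nat_lit 608) (nat_lit 1313019616) (nat_lit 684) (nat_lit 12933988936) (nat_lit 223) (nat_lit 5) (nat_lit 231) (nat_lit 5) (nat_lit 232) (nat_lit 5) (nat_lit 326) (nat_lit 292) (nat_lit 162)) (XT.lf (nat_lit 0) (nat_lit 9482737153) (nat_lit 684) (nat_lit 599375898) (nat_lit 76) (nat_lit 8878050519) (nat_lit 223) (nat_lit 5) (nat_lit 232) (nat_lit 5) (nat_lit 224) (nat_lit 5) (nat_lit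 327) (nat_lit 292) (nat_lit 161))) (XT.nd (nat_lit 78) (nat_lit 532) (nat_lit 0) (XT.lf (nat_lit 0) (nat_lit 13472926610) (nat_lit 684) (nat_lit 5693146588) (nat_lit 76) (nat_lit 137854434) (nat_lit 215) (nat_lit 5) (nat_lit 224) (nat_lit 5) (nat_lit 216) (nat_lit 5) (nat_lit 328) (nat_lit 292) (nat_lit 160)) (XT.lf (nat_lit 0) (nat_lit 8627499242) (nat_lit 532) (nat_lit 9069553388) (nat_lit 608) (nat_lit 1958677227) (nat_lit 208) (nat_lit 5) (nat_lit 215) (nat_lit 5) (nat_lit 216) (nat_lit 5) (nat_lit 329) (nat_lit 292) (nat_lit 159))))))))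
noncomputable def xc102 : XT := (XT.nd (nat_lit 37752) (nat_lit 0) (nat_lit 13756) (XT.nd (nat_lit 1014) (nat_lit 3572) (nat_lit 0) (XT.nd (nat_lit 468) (nat_lit 2432) (nat_lit 0) (XT.nd (nat_lit 234) (nat_lit 1140) (nat_lit 0) (XT.nd (nat_lit 78) (nat_lit 532) (nat_lit 0) (XT.lf (nat_lit 0) (nat_lit 2060463915) (nat_lit 684) (nat_lit 16571381345) (nat_lit 76) (nat_lit 1384841313) (nat_lit 199) (nat_lit 5) (nat_lit 208) (nat_lit 5) (nat_lit 200) (nat_lit 5) (nat_lit 330) (nat_lit 292) (nat_lit 158)) (XT.nd (nat_lit 78) (nat_lit 532) (nat_lit 0) (XT.lf (nat_lit 0) (nat_lit 6296757688) (nat_lit 684) (nat_lit 1972868125) (nat_lit 76) (nat_lit 12116132567) (nat_lit 199) (nat_lit 5) (nat_lit 208) (nat_lit 5) (nat_lit 200) (nat_lit 5) (nat_lit 331) (nat_lit 292) (nat_lit 157)) (XT.lf (nat_lit 0) (nat_lit 10749674369) (nat_lit 608) (nat_lit 7558785028) (nat_lit 76) (nat_lit 2455661108) (nat_lit 192) (nat_lit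 5) (nat_lit 200) (nat_lit 5) (nat_lit 193) (nat_lit 5) (nat_lit 332) (nat_lit 292) (nat_lit 156)))) (XT.nd (nat_lit 78) (nat_lit 608) (nat_lit 0) (XT.lf (nat_lit 0) (nat_lit 7743306683) (nat_lit 532) (nat_lit 7699688384) (nat_lit 608) (nat_lit 5708710682) (nat_lit 185) (nat_lit 5) (nat_lit 192) (nat_lit 5) (nat_lit 193) (nat_lit 5) (nat_lit 333) (nat_lit 292) (nat_lit 155)) (XT.nd (nat_lit 78) (nat_lit 76) (nat_lit 0) (XT.lf (nat_lit 0) (nat_lit 2048442363) (nat_lit 532) (nat_lit 18302508317) (nat_lit 608) (nat_lit 1198499503) (nat_lit 178) (nat_lit 5) (nat_lit 185) (nat_lit 5) (nat_lit 186) (nat_lit 5) (nat_lit 334) (nat_lit 292) (nat_lit 154)) (XT.lf (nat_lit 0) (nat_lit 3532950089) (nat_lit 608) (nat_lit 3894339524) (nat_lit 76) (nat_lit 14528774858) (nat_lit 177) (nat_lit 5) (nat_lit 185) (nat_lit 5) (nat_lit 178) (nat_lit 5) (nat_lit 335) (nat_lit 292) (nat_lit 153))))) (XT.nd (nat_lit 234)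 (nat_lit 1444) (nat_lit 0) (XT.nd (nat_lit 78) (nat_lit 456) (nat_lit 0) (XT.lf (nat_lit 0) (nat_lit 8483737655) (nat_lit 608) (nat_lit 10078977832) (nat_lit 76) (nat_lit 3810137416) (nat_lit 170) (nat_lit 5) (nat_lit 178) (nat_lit 5) (nat_lit 171) (nat_lit 5) (nat_lit 336) (nat_lit 292) (nat_lit 152)) (XT.nd (nat_lit 78) (nat_lit 0) (nat_lit 0) (XT.lf (nat_lit 0) (nat_lit 6236760756) (nat_lit 456) (nat_lit 7451766649) (nat_lit 532) (nat_lit 9111515491) (nat_lit 164) (nat_lit 5) (nat_lit 170) (nat_lit 5) (nat_lit 171) (nat_lit 5) (nat_lit 337) (nat_lit 292) (nat_lit 151)) (XT.lf (nat_lit 0) (nat_lit 19133097685) (nat_lit 532) (nat_lit 99707754) (nat_lit 76) (nat_lit 4005577676) (nat_lit 164) (nat_lit 5) (nat_lit 171) (nat_lit 5) (nat_lit 165) (nat_lit 5) (nat_lit 338) (nat_lit 292) (nat_lit 150)))) (XT.nd (nat_lit 156) (nat_lit 456) (nat_lit 0) (XT.nd (nat_lit 78) (nat_lit 456) (nat_lit 0) (XT.lf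 (nat_lit 0) (nat_lit 1187933810) (nat_lit 532) (nat_lit 6677742895) (nat_lit 76) (nat_lit 15821055494) (nat_lit 157) (nat_lit 5) (nat_lit 164) (nat_lit 5) (nat_lit 158) (nat_lit 5) (nat_lit 339) (nat_lit 292) (nat_lit 149)) (XT.lf (nat_lit 0) (nat_lit 6668869331) (nat_lit 532) (nat_lit 13591349469) (nat_lit 76) (nat_lit 3886083058) (nat_lit 151) (nat_lit 5) (nat_lit 158) (nat_lit 5) (nat_lit 152) (nat_lit 5) (nat_lit 340) (nat_lit 292) (nat_lit 148))) (XT.nd (nat_lit 78) (nat_lit 0) (nat_lit 0) (XT.lf (nat_lit 0) (nat_lit 3759648456) (nat_lit 456) (nat_lit 8666772208) (nat_lit 532) (nat_lit 12191000705) (nat_lit 145) (nat_lit 5) (nat_lit 151) (nat_lit 5) (nat_lit 152) (nat_lit 5) (nat_lit 341) (nat_lit 292) (nat_lit 147)) (XT.lf (nat_lit 0) (nat_lit 18460482776) (nat_lit 532) (nat_lit 3319483704) (nat_lit 76) (nat_lit 3320638625) (nat_lit 145) (nat_lit 5) (nat_lit 152) (nat_lit 5) (nat_lit 146)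 (nat_lit 5) (nat_lit 342) (nat_lit 292) (nat_lit 146)))))) (XT.nd (nat_lit 468) (nat_lit 1444) (nat_lit 0) (XT.nd (nat_lit 234) (nat_lit 1216) (nat_lit 0) (XT.nd (nat_lit 78) (nat_lit 532) (nat_lit 0) (XT.lf (nat_lit 0) (nat_lit 14868407108) (nat_lit 380) (nat_lit 9951765353) (nat_lit 456) (nat_lit 775225919) (nat_lit 140) (nat_lit 5) (nat_lit 145) (nat_lit 5) (nat_lit 146) (nat_lit 5) (nat_lit 343) (nat_lit 292) (nat_lit 145)) (XT.nd (nat_lit 78) (nat_lit 0) (nat_lit 0) (XT.lf (nat_lit 0) (nat_lit 5273917851) (nat_lit 532) (nat_lit 18523730875) (nat_lit 76) (nat_lit 2305161617) (nat_lit 133) (nat_lit 5) (nat_lit 140) (nat_lit 5) (nat_lit 134) (nat_lit 5) (nat_lit 344) (nat_lit 292) (nat_lit 144)) (XT.lf (nat_lit 0) (nat_lit 11624202925) (nat_lit 532) (nat_lit 128502264) (nat_lit 76) (nat_lit 14870038679) (nat_lit 133) (nat_lit 5) (nat_lit 140) (nat_lit 5) (nat_lit 134) (nat_lit 5) (nat_lit 345)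 (nat_lit 292) (nat_lit 143)))) (XT.nd (nat_lit 78) (nat_lit 836) (nat_lit 0) (XT.lf (nat_lit 0) (nat_lit 18284451115) (nat_lit 456) (nat_lit 8105599336) (nat_lit 76) (nat_lit 765841369) (nat_lit 128) (nat_lit 5) (nat_lit 134) (nat_lit 5) (nat_lit 129) (nat_lit 5) (nat_lit 346) (nat_lit 292) (nat_lit 142)) (XT.nd (nat_lit 78) (nat_lit 456) (nat_lit 0) (XT.lf (nat_lit 0) (nat_lit 11155885010) (nat_lit 380) (nat_lit 14131384130) (nat_lit 456) (nat_lit 2414915170) (nat_lit 123) (nat_lit 5) (nat_lit 128) (nat_lit 5) (nat_lit 129) (nat_lit 5) (nat_lit 347) (nat_lit 292) (nat_lit 141)) (XT.lf (nat_lit 0) (nat_lit 2838835079) (nat_lit 380) (nat_lit 1405623241) (nat_lit 456) (nat_lit 24018568400) (nat_lit 117) (nat_lit 5) (nat_lit 122) (nat_lit 5) (nat_lit 123) (nat_lit 5) (nat_lit 348) (nat_lit 292) (nat_lit 140))))) (XT.nd (nat_lit 234) (nat_lit 760) (nat_lit 0) (XT.nd (nat_lit 78) (nat_lit 684) (nat_lit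 0) (XT.lf (nat_lit 0) (nat_lit 11250965398) (nat_lit 456) (nat_lit 5912187734) (nat_lit 76) (nat_lit 11673623731) (nat_lit 117) (nat_lit 5) (nat_lit 123) (nat_lit 5) (nat_lit 118) (nat_lit 5) (nat_lit 349) (nat_lit 292) (nat_lit 139)) (XT.nd (nat_lit 78) (nat_lit 304) (nat_lit 0) (XT.lf (nat_lit 0) (nat_lit 14351494884) (nat_lit 380) (nat_lit 4210143066) (nat_lit 456) (nat_lit 10864226953) (nat_lit 112) (nat_lit 5) (nat_lit 117) (nat_lit 5) (nat_lit 118) (nat_lit 5) (nat_lit 350) (nat_lit 292) (nat_lit 138)) (XT.lf (nat_lit 0) (nat_lit 5269296283) (nat_lit 304) (nat_lit 20947698431) (nat_lit 380) (nat_lit 3813128250) (nat_lit 108) (nat_lit 5) (nat_lit 112) (nat_lit 5) (nat_lit 113) (nat_lit 5) (nat_lit 351) (nat_lit 292) (nat_lit 137)))) (XT.nd (nat_lit 156) (nat_lit 304) (nat_lit 0) (XT.nd (nat_lit 78) (nat_lit 380) (nat_lit 0) (XT.lf (nat_lit 0) (nat_lit 3526887024) (nat_lit 380) (nat_lit 4284443708)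 (nat_lit 76) (nat_lit 22838282052) (nat_lit 107) (nat_lit 5) (nat_lit 112) (nat_lit 5) (nat_lit 108) (nat_lit 5) (nat_lit 352) (nat_lit 292) (nat_lit 136)) (XT.lf (nat_lit 0) (nat_lit 11175807341) (nat_lit 456) (nat_lit 14331568510) (nat_lit 76) (nat_lit 5777001456) (nat_lit 102) (nat_lit 5) (nat_lit 108) (nat_lit 5) (nat_lit 103) (nat_lit 5) (nat_lit 353) (nat_lit 292) (nat_lit 135))) (XT.nd (nat_lit 78) (nat_lit 0) (nat_lit 0) (XT.lf (nat_lit 0) (nat_lit 6975327277) (nat_lit 304) (nat_lit 12197641449) (nat_lit 380) (nat_lit 12762844752) (nat_lit 98) (nat_lit 5) (nat_lit 102) (nat_lit 5) (nat_lit 103) (nat_lit 5) (nat_lit 354) (nat_lit 292) (nat_lit 134)) (XT.lf (nat_lit 0) (nat_lit 27509768952) (nat_lit 380) (nat_lit 3509591146) (nat_lit 76) (nat_lit 1585442216) (nat_lit 98) (nat_lit 5) (nat_lit 103) (nat_lit 5) (nat_lit 99) (nat_lit 5) (nat_lit 355) (nat_lit 292) (nat_lit 133))))))) (XT.nd (nat_lit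 1014) (nat_lit 7904) (nat_lit 0) (XT.nd (nat_lit 468) (nat_lit 0) (nat_lit 152) (XT.nd (nat_lit 234) (nat_lit 0) (nat_lit 0) (XT.nd (nat_lit 78) (nat_lit 1520) (nat_lit 0) (XT.lf (nat_lit 0) (nat_lit 5163988311) (nat_lit 1596) (nat_lit 224713911) (nat_lit 1596) (nat_lit 224713911) (nat_lit 403) (nat_lit 3) (nat_lit 424) (nat_lit 3) (nat_lit 424) (nat_lit 5) (nat_lit 293) (nat_lit 293) (nat_lit 194)) (XT.nd (nat_lit 78) (nat_lit 1520) (nat_lit 0) (XT.lf (nat_lit 76) (nat_lit 7217301412) (nat_lit 0) (nat_lit 4081527403) (nat_lit 1596) (nat_lit 79347581) (nat_lit 404) (nat_lit 5) (nat_lit 403) (nat_lit 3) (nat_lit 424) (nat_lit 5) (nat_lit 294) (nat_lit 293) (nat_lit 193)) (XT.lf (nat_lit 0) (nat_lit 769473853) (nat_lit 1596) (nat_lit 7940024474) (nat_lit 1672) (nat_lit 2824196365) (nat_lit 383) (nat_lit 5) (nat_lit 404) (nat_lit 5) (nat_lit 405) (nat_lit 5) (nat_lit 295) (nat_lit 293) (nat_lit 192))))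 (XT.nd (nat_lit 78) (nat_lit 0) (nat_lit 76) (XT.lf (nat_lit 0) (nat_lit 1668893539) (nat_lit 1596) (nat_lit 99927450) (nat_lit 1672) (nat_lit 9924550302) (nat_lit 383) (nat_lit 5) (nat_lit 404) (nat_lit 5) (nat_lit 405) (nat_lit 5) (nat_lit 296) (nat_lit 293) (nat_lit 191)) (XT.nd (nat_lit 78) (nat_lit 0) (nat_lit 76) (XT.lf (nat_lit 0) (nat_lit 2654407512) (nat_lit 1596) (nat_lit 3827529809) (nat_lit 1672) (nat_lit 5374745312) (nat_lit 384) (nat_lit 5) (nat_lit 405) (nat_lit 5) (nat_lit 406) (nat_lit 5) (nat_lit 297) (nat_lit 293) (nat_lit 190)) (XT.lf (nat_lit 0) (nat_lit 3687526293) (nat_lit 1596) (nat_lit 7621120989) (nat_lit 1672) (nat_lit 715911146) (nat_lit 385) (nat_lit 5) (nat_lit 406) (nat_lit 5) (nat_lit 407) (nat_lit 5) (nat_lit 298) (nat_lit 293) (nat_lit 189))))) (XT.nd (nat_lit 234) (nat_lit 0) (nat_lit 152) (XT.nd (nat_lit 78) (nat_lit 0) (nat_lit 76) (XT.lf (nat_lit 76) (nat_lit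 685538195) (nat_lit 0) (nat_lit 4112982069) (nat_lit 1672) (nat_lit 7398037747) (nat_lit 386) (nat_lit 5) (nat_lit 385) (nat_lit 5) (nat_lit 407) (nat_lit 5) (nat_lit 299) (nat_lit 293) (nat_lit 188)) (XT.nd (nat_lit 78) (nat_lit 0) (nat_lit 0) (XT.lf (nat_lit 0) (nat_lit 5989965097) (nat_lit 1596) (nat_lit 3065778627) (nat_lit 1672) (nat_lit 3317055849) (nat_lit 386) (nat_lit 5) (nat_lit 407) (nat_lit 5) (nat_lit 408) (nat_lit 5) (nat_lit 300) (nat_lit 293) (nat_lit 187)) (XT.lf (nat_lit 76) (nat_lit 5663031017) (nat_lit 0) (nat_lit 1592880715) (nat_lit 1672) (nat_lit 5297665185) (nat_lit 387) (nat_lit 5) (nat_lit 386) (nat_lit 5) (nat_lit 408) (nat_lit 5) (nat_lit 301) (nat_lit 293) (nat_lit 186)))) (XT.nd (nat_lit 156) (nat_lit 0) (nat_lit 76) (XT.nd (nat_lit 78) (nat_lit 0) (nat_lit 76) (XT.lf (nat_lit 76) (nat_lit 1924988405) (nat_lit 0) (nat_lit 6683002522) (nat_lit 1672) (nat_lit 4130846583)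 (nat_lit 388) (nat_lit 5) (nat_lit 387) (nat_lit 5) (nat_lit 409) (nat_lit 5) (nat_lit 302) (nat_lit 293) (nat_lit 185)) (XT.lf (nat_lit 0) (nat_lit 10040441489) (nat_lit 1596) (nat_lit 1863833273) (nat_lit 1672) (nat_lit 1024607321) (nat_lit 388) (nat_lit 5) (nat_lit 409) (nat_lit 5) (nat_lit 410) (nat_lit 5) (nat_lit 303) (nat_lit 293) (nat_lit 184))) (XT.nd (nat_lit 78) (nat_lit 0) (nat_lit 76) (XT.lf (nat_lit 76) (nat_lit 7390269702) (nat_lit 0) (nat_lit 4194817078) (nat_lit 1672) (nat_lit 1538178481) (nat_lit 389) (nat_lit 5) (nat_lit 388) (nat_lit 5) (nat_lit 410) (nat_lit 5) (nat_lit 304) (nat_lit 293) (nat_lit 183)) (XT.lf (nat_lit 76) (nat_lit 3630595529) (nat_lit 0) (nat_lit 9583248204) (nat_lit 1672) (nat_lit 108901815) (nat_lit 390) (nat_lit 5) (nat_lit 389) (nat_lit 5) (nat_lit 411) (nat_lit 5) (nat_lit 305) (nat_lit 293) (nat_lit 182)))))) (XT.nd (nat_lit 546) (nat_lit 4104) (nat_lit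 0) (XT.nd (nat_lit 234) (nat_lit 2584) (nat_lit 0) (XT.nd (nat_lit 78) (nat_lit 0) (nat_lit 76) (XT.lf (nat_lit 0) (nat_lit 1390087233) (nat_lit 1672) (nat_lit 227966585) (nat_lit 1748) (nat_lit 11909105179) (nat_lit 367) (nat_lit 5) (nat_lit 389) (nat_lit 5) (nat_lit 390) (nat_lit 5) (nat_lit 306) (nat_lit 293) (nat_lit 181)) (XT.nd (nat_lit 78) (nat_lit 0) (nat_lit 76) (XT.lf (nat_lit 0) (nat_lit 3016517887) (nat_lit 1672) (nat_lit 4150853915) (nat_lit 1748) (nat_lit 6568659084) (nat_lit 368) (nat_lit 5) (nat_lit 390) (nat_lit 5) (nat_lit 391) (nat_lit 5) (nat_lit 307) (nat_lit 293) (nat_lit 180)) (XT.lf (nat_lit 0) (nat_lit 4727466212) (nat_lit 1672) (nat_lit 8164389800) (nat_lit 1748) (nat_lit 1058617319) (nat_lit 369) (nat_lit 5) (nat_lit 391) (nat_lit 5) (nat_lit 392) (nat_lit 5) (nat_lit 308) (nat_lit 293) (nat_lit 179)))) (XT.nd (nat_lit 156) (nat_lit 2736) (nat_lit 0) (XT.nd (nat_lit 78)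 (nat_lit 0) (nat_lit 76) (XT.lf (nat_lit 76) (nat_lit 1866676081) (nat_lit 0) (nat_lit 4690743092) (nat_lit 1748) (nat_lit 7612594696) (nat_lit 370) (nat_lit 5) (nat_lit 369) (nat_lit 5) (nat_lit 392) (nat_lit 5) (nat_lit 309) (nat_lit 293) (nat_lit 178)) (XT.lf (nat_lit 0) (nat_lit 8502180447) (nat_lit 1672) (nat_lit 2126380215) (nat_lit 76) (nat_lit 3766399578) (nat_lit 370) (nat_lit 5) (nat_lit 392) (nat_lit 5) (nat_lit 371) (nat_lit 5) (nat_lit 310) (nat_lit 293) (nat_lit 177))) (XT.nd (nat_lit 78) (nat_lit 1140) (nat_lit 0) (XT.lf (nat_lit 0) (nat_lit 8418401557) (nat_lit 1672) (nat_lit 2153327195) (nat_lit 1748) (nat_lit 4053614657) (nat_lit 348) (nat_lit 5) (nat_lit 370) (nat_lit 5) (nat_lit 371) (nat_lit 5) (nat_lit 311) (nat_lit 293) (nat_lit 176)) (XT.lf (nat_lit 0) (nat_lit 4445115431) (nat_lit 1140) (nat_lit 8325210652) (nat_lit 1216) (nat_lit 2090989527) (nat_lit 333) (nat_lit 5) (nat_lit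 348) (nat_lit 5) (nat_lit 349) (nat_lit 5) (nat_lit 312) (nat_lit 293) (nat_lit 175))))) (XT.nd (nat_lit 234) (nat_lit 2356) (nat_lit 0) (XT.nd (nat_lit 78) (nat_lit 912) (nat_lit 0) (XT.lf (nat_lit 0) (nat_lit 369331125) (nat_lit 836) (nat_lit 14708249079) (nat_lit 912) (nat_lit 25949092) (nat_lit 322) (nat_lit 5) (nat_lit 333) (nat_lit 5) (nat_lit 334) (nat_lit 5) (nat_lit 313) (nat_lit 293) (nat_lit 174)) (XT.nd (nat_lit 78) (nat_lit 836) (nat_lit 0) (XT.lf (nat_lit 0) (nat_lit 2181876595) (nat_lit 912) (nat_lit 3817167742) (nat_lit 76) (nat_lit 9351539952) (nat_lit 321) (nat_lit 5) (nat_lit 333) (nat_lit 5) (nat_lit 322) (nat_lit 5) (nat_lit 314) (nat_lit 293) (nat_lit 173)) (XT.lf (nat_lit 0) (nat_lit 4506167066) (nat_lit 912) (nat_lit 8114687428) (nat_lit 76) (nat_lit 2983196418) (nat_lit 310) (nat_lit 5) (nat_lit 322) (nat_lit 5) (nat_lit 311) (nat_lit 5) (nat_lit 315) (nat_lit 293) (nat_lit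 172)))) (XT.nd (nat_lit 156) (nat_lit 1596) (nat_lit 0) (XT.nd (nat_lit 78) (nat_lit 0) (nat_lit 0) (XT.lf (nat_lit 0) (nat_lit 3309439507) (nat_lit 760) (nat_lit 3661011185) (nat_lit 836) (nat_lit 8893280176) (nat_lit 300) (nat_lit 5) (nat_lit 310) (nat_lit 5) (nat_lit 311) (nat_lit 5) (nat_lit 316) (nat_lit 293) (nat_lit 171)) (XT.lf (nat_lit 0) (nat_lit 9583191613) (nat_lit 836) (nat_lit 995753128) (nat_lit 76) (nat_lit 5550780103) (nat_lit 300) (nat_lit 5) (nat_lit 311) (nat_lit 5) (nat_lit 301) (nat_lit 5) (nat_lit 317) (nat_lit 293) (nat_lit 170))) (XT.nd (nat_lit 78) (nat_lit 760) (nat_lit 0) (XT.lf (nat_lit 0) (nat_lit 11013478760) (nat_lit 836) (nat_lit 1340348151) (nat_lit 912) (nat_lit 4048295269) (nat_lit 289) (nat_lit 5) (nat_lit 300) (nat_lit 5) (nat_lit 301) (nat_lit 5) (nat_lit 318) (nat_lit 293) (nat_lit 169)) (XT.lf (nat_lit 0) (nat_lit 6733141616) (nat_lit 760) (nat_lit 8561930359)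 (nat_lit 836) (nat_lit 1385883030) (nat_lit 279) (nat_lit 5) (nat_lit 289) (nat_lit 5) (nat_lit 290) (nat_lit 5) (nat_lit 319) (nat_lit 293) (nat_lit 168))))))))
noncomputable def xc103 : XT := (XT.nd (nat_lit 2106) (nat_lit 2280) (nat_lit 0) (XT.nd (nat_lit 1014) (nat_lit 5396) (nat_lit 0) (XT.nd (nat_lit 468) (nat_lit 3192) (nat_lit 0) (XT.nd (nat_lit 234) (nat_lit 1368) (nat_lit 0) (XT.nd (nat_lit 78) (nat_lit 684) (nat_lit 0) (XT.lf (nat_lit 0) (nat_lit 1389643630) (nat_lit 836) (nat_lit 14651891707) (nat_lit 76) (nat_lit 925433452) (nat_lit 268) (nat_lit 5) (nat_lit 279) (nat_lit 5) (nat_lit 269) (nat_lit 5) (nat_lit 320) (nat_lit 293) (nat_lit 167)) (XT.nd (nat_lit 78) (nat_lit 684) (nat_lit 0) (XT.lf (nat_lit 0) (nat_lit 4339336367) (nat_lit 836) (nat_lit 2261287849) (nat_lit 76) (nat_lit 10658573342) (nat_lit 268) (nat_lit 5) (nat_lit 279) (nat_lit 5) (nat_lit 269) (nat_lit 5) (nat_lit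 321) (nat_lit 293) (nat_lit 166)) (XT.lf (nat_lit 0) (nat_lit 7452194957) (nat_lit 760) (nat_lit 6955132936) (nat_lit 76) (nat_lit 3151383804) (nat_lit 259) (nat_lit 5) (nat_lit 269) (nat_lit 5) (nat_lit 260) (nat_lit 5) (nat_lit 322) (nat_lit 293) (nat_lit 165)))) (XT.nd (nat_lit 78) (nat_lit 684) (nat_lit 0) (XT.lf (nat_lit 0) (nat_lit 6037681602) (nat_lit 684) (nat_lit 4704817393) (nat_lit 760) (nat_lit 7123042728) (nat_lit 250) (nat_lit 5) (nat_lit 259) (nat_lit 5) (nat_lit 260) (nat_lit 5) (nat_lit 323) (nat_lit 293) (nat_lit 164)) (XT.nd (nat_lit 78) (nat_lit 0) (nat_lit 0) (XT.lf (nat_lit 0) (nat_lit 1301531404) (nat_lit 684) (nat_lit 12905825871) (nat_lit 760) (nat_lit 3972713789) (nat_lit 241) (nat_lit 5) (nat_lit 250) (nat_lit 5) (nat_lit 251) (nat_lit 5) (nat_lit 324) (nat_lit 293) (nat_lit 163)) (XT.lf (nat_lit 0) (nat_lit 14939342700) (nat_lit 684) (nat_lit 2934156832) (nat_lit 760)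 (nat_lit 628600977) (nat_lit 241) (nat_lit 5) (nat_lit 250) (nat_lit 5) (nat_lit 251) (nat_lit 5) (nat_lit 325) (nat_lit 293) (nat_lit 162))))) (XT.nd (nat_lit 234) (nat_lit 1216) (nat_lit 0) (XT.nd (nat_lit 78) (nat_lit 1216) (nat_lit 0) (XT.lf (nat_lit 0) (nat_lit 2879905710) (nat_lit 760) (nat_lit 8627099626) (nat_lit 76) (nat_lit 7324410300) (nat_lit 231) (nat_lit 5) (nat_lit 241) (nat_lit 5) (nat_lit 232) (nat_lit 5) (nat_lit 326) (nat_lit 293) (nat_lit 161)) (XT.nd (nat_lit 78) (nat_lit 608) (nat_lit 0) (XT.lf (nat_lit 0) (nat_lit 5293231327) (nat_lit 608) (nat_lit 1256771225) (nat_lit 684) (nat_lit 12619237215) (nat_lit 223) (nat_lit 5) (nat_lit 231) (nat_lit 5) (nat_lit 232) (nat_lit 5) (nat_lit 327) (nat_lit 293) (nat_lit 160)) (XT.lf (nat_lit 0) (nat_lit 159284703) (nat_lit 608) (nat_lit 10278004928) (nat_lit 684) (nat_lit 9077777102) (nat_lit 215) (nat_lit 5) (nat_lit 223) (nat_lit 5)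 (nat_lit 224) (nat_lit 5) (nat_lit 328) (nat_lit 293) (nat_lit 159)))) (XT.nd (nat_lit 156) (nat_lit 684) (nat_lit 0) (XT.nd (nat_lit 78) (nat_lit 532) (nat_lit 0) (XT.lf (nat_lit 0) (nat_lit 14532309316) (nat_lit 684) (nat_lit 5089076544) (nat_lit 76) (nat_lit 248069940) (nat_lit 215) (nat_lit 5) (nat_lit 224) (nat_lit 5) (nat_lit 216) (nat_lit 5) (nat_lit 329) (nat_lit 293) (nat_lit 158)) (XT.lf (nat_lit 0) (nat_lit 9648617406) (nat_lit 532) (nat_lit 9220407677) (nat_lit 608) (nat_lit 1363083837) (nat_lit 208) (nat_lit 5) (nat_lit 215) (nat_lit 5) (nat_lit 216) (nat_lit 5) (nat_lit 330) (nat_lit 293) (nat_lit 157))) (XT.nd (nat_lit 78) (nat_lit 0) (nat_lit 0) (XT.lf (nat_lit 0) (nat_lit 2754991611) (nat_lit 684) (nat_lit 16297436743) (nat_lit 76) (nat_lit 1551655639) (nat_lit 199) (nat_lit 5) (nat_lit 208) (nat_lit 5) (nat_lit 200) (nat_lit 5) (nat_lit 331) (nat_lit 293) (nat_lit 156)) (XT.lf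 (nat_lit 0) (nat_lit 7099945641) (nat_lit 684) (nat_lit 1283426943) (nat_lit 76) (nat_lit 12601237017) (nat_lit 199) (nat_lit 5) (nat_lit 208) (nat_lit 5) (nat_lit 200) (nat_lit 5) (nat_lit 332) (nat_lit 293) (nat_lit 155)))))) (XT.nd (nat_lit 546) (nat_lit 2280) (nat_lit 0) (XT.nd (nat_lit 234) (nat_lit 1520) (nat_lit 0) (XT.nd (nat_lit 78) (nat_lit 1064) (nat_lit 0) (XT.lf (nat_lit 0) (nat_lit 11674218246) (nat_lit 608) (nat_lit 7037498806) (nat_lit 76) (nat_lit 2662862863) (nat_lit 192) (nat_lit 5) (nat_lit 200) (nat_lit 5) (nat_lit 193) (nat_lit 5) (nat_lit 333) (nat_lit 293) (nat_lit 154)) (XT.nd (nat_lit 78) (nat_lit 532) (nat_lit 0) (XT.lf (nat_lit 0) (nat_lit 8711519437) (nat_lit 532) (nat_lit 7784061623) (nat_lit 608) (nat_lit 5278479130) (nat_lit 185) (nat_lit 5) (nat_lit 192) (nat_lit 5) (nat_lit 193) (nat_lit 5) (nat_lit 334) (nat_lit 293) (nat_lit 153)) (XT.lf (nat_lit 0) (nat_lit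 2844932224) (nat_lit 532) (nat_lit 18694375709) (nat_lit 608) (nat_lit 644670338) (nat_lit 178) (nat_lit 5) (nat_lit 185) (nat_lit 5) (nat_lit 186) (nat_lit 5) (nat_lit 335) (nat_lit 293) (nat_lit 152)))) (XT.nd (nat_lit 156) (nat_lit 912) (nat_lit 0) (XT.nd (nat_lit 78) (nat_lit 532) (nat_lit 0) (XT.lf (nat_lit 0) (nat_lit 4204034732) (nat_lit 608) (nat_lit 3289652489) (nat_lit 76) (nat_lit 15109377628) (nat_lit 177) (nat_lit 5) (nat_lit 185) (nat_lit 5) (nat_lit 178) (nat_lit 5) (nat_lit 336) (nat_lit 293) (nat_lit 151)) (XT.lf (nat_lit 0) (nat_lit 9292511911) (nat_lit 608) (nat_lit 9661118747) (nat_lit 76) (nat_lit 4078954015) (nat_lit 170) (nat_lit 5) (nat_lit 178) (nat_lit 5) (nat_lit 171) (nat_lit 5) (nat_lit 337) (nat_lit 293) (nat_lit 150))) (XT.nd (nat_lit 78) (nat_lit 456) (nat_lit 0) (XT.lf (nat_lit 0) (nat_lit 7132407148) (nat_lit 456) (nat_lit 7509494983) (nat_lit 532) (nat_lit 8830929833)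 (nat_lit 164) (nat_lit 5) (nat_lit 170) (nat_lit 5) (nat_lit 171) (nat_lit 5) (nat_lit 338) (nat_lit 293) (nat_lit 149)) (XT.lf (nat_lit 0) (nat_lit 602955626) (nat_lit 456) (nat_lit 19636006619) (nat_lit 532) (nat_lit 3685587513) (nat_lit 158) (nat_lit 5) (nat_lit 164) (nat_lit 5) (nat_lit 165) (nat_lit 5) (nat_lit 339) (nat_lit 293) (nat_lit 148))))) (XT.nd (nat_lit 234) (nat_lit 1292) (nat_lit 0) (XT.nd (nat_lit 78) (nat_lit 912) (nat_lit 0) (XT.lf (nat_lit 0) (nat_lit 1744364976) (nat_lit 532) (nat_lit 6184396799) (nat_lit 76) (nat_lit 16457825842) (nat_lit 157) (nat_lit 5) (nat_lit 164) (nat_lit 5) (nat_lit 158) (nat_lit 5) (nat_lit 340) (nat_lit 293) (nat_lit 147)) (XT.nd (nat_lit 78) (nat_lit 456) (nat_lit 0) (XT.lf (nat_lit 0) (nat_lit 7380109715) (nat_lit 532) (nat_lit 13307262656) (nat_lit 76) (nat_lit 4172774003) (nat_lit 151) (nat_lit 5) (nat_lit 158) (nat_lit 5) (nat_lit 152) (nat_lit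 5) (nat_lit 341) (nat_lit 293) (nat_lit 146)) (XT.lf (nat_lit 0) (nat_lit 4553041131) (nat_lit 456) (nat_lit 8746876813) (nat_lit 532) (nat_lit 12045700270) (nat_lit 145) (nat_lit 5) (nat_lit 151) (nat_lit 5) (nat_lit 152) (nat_lit 5) (nat_lit 342) (nat_lit 293) (nat_lit 145)))) (XT.nd (nat_lit 156) (nat_lit 912) (nat_lit 0) (XT.nd (nat_lit 78) (nat_lit 380) (nat_lit 0) (XT.lf (nat_lit 0) (nat_lit 19501552289) (nat_lit 532) (nat_lit 2749397344) (nat_lit 76) (nat_lit 3592625900) (nat_lit 145) (nat_lit 5) (nat_lit 152) (nat_lit 5) (nat_lit 146) (nat_lit 5) (nat_lit 343) (nat_lit 293) (nat_lit 144)) (XT.lf (nat_lit 0) (nat_lit 15973265577) (nat_lit 380) (nat_lit 10068852601) (nat_lit 456) (nat_lit 311301533) (nat_lit 140) (nat_lit 5) (nat_lit 145) (nat_lit 5) (nat_lit 146) (nat_lit 5) (nat_lit 344) (nat_lit 293) (nat_lit 143))) (XT.nd (nat_lit 78) (nat_lit 380) (nat_lit 0) (XT.lf (nat_lit 0) (nat_lit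 5904366470) (nat_lit 532) (nat_lit 18416247645) (nat_lit 76) (nat_lit 2555556258) (nat_lit 133) (nat_lit 5) (nat_lit 140) (nat_lit 5) (nat_lit 134) (nat_lit 5) (nat_lit 345) (nat_lit 293) (nat_lit 142)) (XT.lf (nat_lit 0) (nat_lit 518319310) (nat_lit 380) (nat_lit 11916451755) (nat_lit 456) (nat_lit 14977146765) (nat_lit 128) (nat_lit 5) (nat_lit 133) (nat_lit 5) (nat_lit 134) (nat_lit 5) (nat_lit 346) (nat_lit 293) (nat_lit 141))))))) (XT.nd (nat_lit 36816) (nat_lit 0) (nat_lit 20444) (XT.nd (nat_lit 468) (nat_lit 760) (nat_lit 0) (XT.nd (nat_lit 234) (nat_lit 684) (nat_lit 0) (XT.nd (nat_lit 78) (nat_lit 836) (nat_lit 0) (XT.lf (nat_lit 0) (nat_lit 19283416328) (nat_lit 456) (nat_lit 7707282299) (nat_lit 76) (nat_lit 970597707) (nat_lit 128) (nat_lit 5) (nat_lit 134) (nat_lit 5) (nat_lit 129) (nat_lit 5) (nat_lit 347) (nat_lit 293) (nat_lit 140)) (XT.nd (nat_lit 78) (nat_lit 456) (nat_lit 0)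 (XT.lf (nat_lit 0) (nat_lit 12121639245) (nat_lit 380) (nat_lit 14365657656) (nat_lit 456) (nat_lit 2036868818) (nat_lit 123) (nat_lit 5) (nat_lit 128) (nat_lit 5) (nat_lit 129) (nat_lit 5) (nat_lit 348) (nat_lit 293) (nat_lit 139)) (XT.lf (nat_lit 0) (nat_lit 3550898621) (nat_lit 380) (nat_lit 1256600097) (nat_lit 456) (nat_lit 24294461070) (nat_lit 117) (nat_lit 5) (nat_lit 122) (nat_lit 5) (nat_lit 123) (nat_lit 5) (nat_lit 349) (nat_lit 293) (nat_lit 138)))) (XT.nd (nat_lit 78) (nat_lit 684) (nat_lit 0) (XT.lf (nat_lit 0) (nat_lit 12012715712) (nat_lit 456) (nat_lit 5473422415) (nat_lit 76) (nat_lit 12207021108) (nat_lit 117) (nat_lit 5) (nat_lit 123) (nat_lit 5) (nat_lit 118) (nat_lit 5) (nat_lit 350) (nat_lit 293) (nat_lit 137)) (XT.nd (nat_lit 78) (nat_lit 304) (nat_lit 0) (XT.lf (nat_lit 0) (nat_lit 15388174689) (nat_lit 380) (nat_lit 4146113220) (nat_lit 456) (nat_lit 10765807307) (nat_lit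 112) (nat_lit 5) (nat_lit 117) (nat_lit 5) (nat_lit 118) (nat_lit 5) (nat_lit 351) (nat_lit 293) (nat_lit 136)) (XT.lf (nat_lit 0) (nat_lit 6030867575) (nat_lit 304) (nat_lit 21381445153) (nat_lit 380) (nat_lit 3510314832) (nat_lit 108) (nat_lit 5) (nat_lit 112) (nat_lit 5) (nat_lit 113) (nat_lit 5) (nat_lit 352) (nat_lit 293) (nat_lit 135))))) (XT.nd (nat_lit 36036) (nat_lit 0) (nat_lit 21584) (XT.nd (nat_lit 78) (nat_lit 684) (nat_lit 0) (XT.lf (nat_lit 0) (nat_lit 4032436855) (nat_lit 380) (nat_lit 3821537495) (nat_lit 76) (nat_lit 23706919760) (nat_lit 107) (nat_lit 5) (nat_lit 112) (nat_lit 5) (nat_lit 108) (nat_lit 5) (nat_lit 353) (nat_lit 293) (nat_lit 134)) (XT.nd (nat_lit 78) (nat_lit 304) (nat_lit 0) (XT.lf (nat_lit 0) (nat_lit 11904192880) (nat_lit 456) (nat_lit 14172861260) (nat_lit 76) (nat_lit 6137786248) (nat_lit 102) (nat_lit 5) (nat_lit 108) (nat_lit 5) (nat_lit 103) (nat_lit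 5) (nat_lit 354) (nat_lit 293) (nat_lit 133)) (XT.lf (nat_lit 0) (nat_lit 7763691184) (nat_lit 304) (nat_lit 12369888006) (nat_lit 380) (nat_lit 12752400253) (nat_lit 98) (nat_lit 5) (nat_lit 102) (nat_lit 5) (nat_lit 103) (nat_lit 5) (nat_lit 355) (nat_lit 293) (nat_lit 132)))) (XT.nd (nat_lit 156) (nat_lit 0) (nat_lit 76) (XT.nd (nat_lit 78) (nat_lit 0) (nat_lit 0) (XT.lf (nat_lit 0) (nat_lit 156332572) (nat_lit 0) (nat_lit 156332572) (nat_lit 1596) (nat_lit 5453105262) (nat_lit 382) (nat_lit 5) (nat_lit 382) (nat_lit 3) (nat_lit 403) (nat_lit 3) (nat_lit 294) (nat_lit 294) (nat_lit 192)) (XT.lf (nat_lit 0) (nat_lit 1414533087) (nat_lit 1596) (nat_lit 3498875667) (nat_lit 1672) (nat_lit 6774825148) (nat_lit 382) (nat_lit 5) (nat_lit 403) (nat_lit 3) (nat_lit 404) (nat_lit 5) (nat_lit 295) (nat_lit 294) (nat_lit 191))) (XT.nd (nat_lit 78) (nat_lit 0) (nat_lit 0) (XT.lf (nat_lit 0) (nat_lit 2244785115)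 (nat_lit 1596) (nat_lit 7369764438) (nat_lit 1672) (nat_lit 2234757443) (nat_lit 383) (nat_lit 5) (nat_lit 404) (nat_lit 5) (nat_lit 405) (nat_lit 5) (nat_lit 296) (nat_lit 294) (nat_lit 190)) (XT.lf (nat_lit 76) (nat_lit 691051357) (nat_lit 0) (nat_lit 2442324923) (nat_lit 1672) (nat_lit 8881193274) (nat_lit 384) (nat_lit 5) (nat_lit 383) (nat_lit 5) (nat_lit 405) (nat_lit 5) (nat_lit 297) (nat_lit 294) (nat_lit 189)))))) (XT.nd (nat_lit 546) (nat_lit 1292) (nat_lit 0) (XT.nd (nat_lit 234) (nat_lit 0) (nat_lit 152) (XT.nd (nat_lit 78) (nat_lit 0) (nat_lit 76) (XT.lf (nat_lit 0) (nat_lit 4104009889) (nat_lit 1596) (nat_lit 3137516196) (nat_lit 1672) (nat_lit 4942181354) (nat_lit 384) (nat_lit 5) (nat_lit 405) (nat_lit 5) (nat_lit 406) (nat_lit 5) (nat_lit 298) (nat_lit 294) (nat_lit 188)) (XT.nd (nat_lit 78) (nat_lit 0) (nat_lit 0) (XT.lf (nat_lit 0) (nat_lit 5129832675) (nat_lit 1596) (nat_lit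 7026501114) (nat_lit 1672) (nat_lit 201088683) (nat_lit 385) (nat_lit 5) (nat_lit 406) (nat_lit 5) (nat_lit 407) (nat_lit 5) (nat_lit 299) (nat_lit 294) (nat_lit 187)) (XT.lf (nat_lit 76) (nat_lit 1516001536) (nat_lit 0) (nat_lit 4724626506) (nat_lit 1672) (nat_lit 6294660659) (nat_lit 386) (nat_lit 5) (nat_lit 385) (nat_lit 5) (nat_lit 407) (nat_lit 5) (nat_lit 300) (nat_lit 294) (nat_lit 186)))) (XT.nd (nat_lit 156) (nat_lit 0) (nat_lit 76) (XT.nd (nat_lit 78) (nat_lit 0) (nat_lit 0) (XT.lf (nat_lit 0) (nat_lit 7426928220) (nat_lit 1596) (nat_lit 2341991481) (nat_lit 1672) (nat_lit 2948750609) (nat_lit 386) (nat_lit 5) (nat_lit 407) (nat_lit 5) (nat_lit 408) (nat_lit 5) (nat_lit 301) (nat_lit 294) (nat_lit 185)) (XT.lf (nat_lit 76) (nat_lit 6635447707) (nat_lit 0) (nat_lit 2063996731) (nat_lit 1672) (nat_lit 4205088730) (nat_lit 387) (nat_lit 5) (nat_lit 386) (nat_lit 5) (nat_lit 408) (nat_lit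 5) (nat_lit 302) (nat_lit 294) (nat_lit 184))) (XT.nd (nat_lit 78) (nat_lit 0) (nat_lit 76) (XT.lf (nat_lit 76) (nat_lit 2800182633) (nat_lit 0) (nat_lit 7258837762) (nat_lit 1672) (nat_lit 3037025524) (nat_lit 388) (nat_lit 5) (nat_lit 387) (nat_lit 5) (nat_lit 409) (nat_lit 5) (nat_lit 303) (nat_lit 294) (nat_lit 183)) (XT.lf (nat_lit 0) (nat_lit 11497337015) (nat_lit 1596) (nat_lit 1099516929) (nat_lit 1672) (nat_lit 695712100) (nat_lit 388) (nat_lit 5) (nat_lit 409) (nat_lit 5) (nat_lit 410) (nat_lit 5) (nat_lit 304) (nat_lit 294) (nat_lit 182))))) (XT.nd (nat_lit 234) (nat_lit 0) (nat_lit 76) (XT.nd (nat_lit 78) (nat_lit 1596) (nat_lit 0) (XT.lf (nat_lit 76) (nat_lit 8418901856) (nat_lit 0) (nat_lit 4640998246) (nat_lit 1672) (nat_lit 433480178) (nat_lit 389) (nat_lit 5) (nat_lit 388) (nat_lit 5) (nat_lit 410) (nat_lit 5) (nat_lit 305) (nat_lit 294) (nat_lit 181)) (XT.nd (nat_lit 78) (nat_lit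 0) (nat_lit 0) (XT.lf (nat_lit 0) (nat_lit 995292870) (nat_lit 1672) (nat_lit 9147421361) (nat_lit 1748) (nat_lit 3556620692) (nat_lit 367) (nat_lit 5) (nat_lit 389) (nat_lit 5) (nat_lit 390) (nat_lit 5) (nat_lit 306) (nat_lit 294) (nat_lit 180)) (XT.lf (nat_lit 76) (nat_lit 583295790) (nat_lit 0) (nat_lit 1926058510) (nat_lit 1748) (nat_lit 11401109204) (nat_lit 368) (nat_lit 5) (nat_lit 367) (nat_lit 5) (nat_lit 390) (nat_lit 5) (nat_lit 307) (nat_lit 294) (nat_lit 179)))) (XT.nd (nat_lit 156) (nat_lit 0) (nat_lit 76) (XT.nd (nat_lit 78) (nat_lit 0) (nat_lit 76) (XT.lf (nat_lit 0) (nat_lit 4153066673) (nat_lit 1672) (nat_lit 3454566570) (nat_lit 1748) (nat_lit 6518626461) (nat_lit 368) (nat_lit 5) (nat_lit 390) (nat_lit 5) (nat_lit 391) (nat_lit 5) (nat_lit 308) (nat_lit 294) (nat_lit 178)) (XT.lf (nat_lit 0) (nat_lit 5888733584) (nat_lit 1672) (nat_lit 7579119657) (nat_lit 1748) (nat_lit 879841496)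 (nat_lit 369) (nat_lit 5) (nat_lit 391) (nat_lit 5) (nat_lit 392) (nat_lit 5) (nat_lit 309) (nat_lit 294) (nat_lit 177))) (XT.nd (nat_lit 78) (nat_lit 0) (nat_lit 76) (XT.lf (nat_lit 76) (nat_lit 2739409162) (nat_lit 0) (nat_lit 5009786218) (nat_lit 1748) (nat_lit 6825140235) (nat_lit 370) (nat_lit 5) (nat_lit 369) (nat_lit 5) (nat_lit 392) (nat_lit 5) (nat_lit 310) (nat_lit 294) (nat_lit 176)) (XT.lf (nat_lit 0) (nat_lit 9722193291) (nat_lit 1672) (nat_lit 1375929635) (nat_lit 76) (nat_lit 3708535136) (nat_lit 370) (nat_lit 5) (nat_lit 392) (nat_lit 5) (nat_lit 371) (nat_lit 5) (nat_lit 311) (nat_lit 294) (nat_lit 175))))))))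
noncomputable def xc104 : XT := (XT.nd (nat_lit 2028) (nat_lit 5320) (nat_lit 0) (XT.nd (nat_lit 1014) (nat_lit 5548) (nat_lit 0) (XT.nd (nat_lit 468) (nat_lit 3800) (nat_lit 0) (XT.nd (nat_lit 234) (nat_lit 1596) (nat_lit 0) (XT.nd (nat_lit 78) (nat_lit 2052) (nat_lit 0) (XT.lf (nat_lit 0) (nat_lit 9471985482) (nat_lit 1672) (nat_lit 2358938129) (nat_lit 1748) (nat_lit 3213512020) (nat_lit 348) (nat_lit 5) (nat_lit 370) (nat_lit 5) (nat_lit 371) (nat_lit 5) (nat_lit 312) (nat_lit 294) (nat_lit 174)) (XT.nd (nat_lit 78) (nat_lit 912) (nat_lit 0) (XT.lf (nat_lit 0) (nat_lit 5386754654) (nat_lit 1140) (nat_lit 8685645118) (nat_lit 1216) (nat_lit 1215572901) (nat_lit 333) (nat_lit 5) (nat_lit 348) (nat_lit 5) (nat_lit 349) (nat_lit 5) (nat_lit 313) (nat_lit 294) (nat_lit 173)) (XT.lf (nat_lit 0) (nat_lit 877121689) (nat_lit 912) (nat_lit 14348528702) (nat_lit 76) (nat_lit 312153836) (nat_lit 321)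 (nat_lit 5) (nat_lit 333) (nat_lit 5) (nat_lit 322) (nat_lit 5) (nat_lit 314) (nat_lit 294) (nat_lit 172)))) (XT.nd (nat_lit 78) (nat_lit 1596) (nat_lit 0) (XT.lf (nat_lit 0) (nat_lit 3124516114) (nat_lit 912) (nat_lit 3128263471) (nat_lit 76) (nat_lit 9540036388) (nat_lit 321) (nat_lit 5) (nat_lit 333) (nat_lit 5) (nat_lit 322) (nat_lit 5) (nat_lit 315) (nat_lit 294) (nat_lit 171)) (XT.nd (nat_lit 78) (nat_lit 760) (nat_lit 0) (XT.lf (nat_lit 0) (nat_lit 5497686985) (nat_lit 912) (nat_lit 7549456400) (nat_lit 76) (nat_lit 3007181793) (nat_lit 310) (nat_lit 5) (nat_lit 322) (nat_lit 5) (nat_lit 311) (nat_lit 5) (nat_lit 316) (nat_lit 294) (nat_lit 170)) (XT.lf (nat_lit 0) (nat_lit 4204274607) (nat_lit 760) (nat_lit 3811847971) (nat_lit 836) (nat_lit 8306089473) (nat_lit 300) (nat_lit 5) (nat_lit 310) (nat_lit 5) (nat_lit 311) (nat_lit 5) (nat_lit 317) (nat_lit 294) (nat_lit 169))))) (XT.nd (nat_lit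 234) (nat_lit 2204) (nat_lit 0) (XT.nd (nat_lit 78) (nat_lit 1596) (nat_lit 0) (XT.lf (nat_lit 0) (nat_lit 10682621462) (nat_lit 836) (nat_lit 236063684) (nat_lit 76) (nat_lit 5678013561) (nat_lit 300) (nat_lit 5) (nat_lit 311) (nat_lit 5) (nat_lit 301) (nat_lit 5) (nat_lit 318) (nat_lit 294) (nat_lit 168)) (XT.nd (nat_lit 78) (nat_lit 760) (nat_lit 0) (XT.lf (nat_lit 0) (nat_lit 12120635454) (nat_lit 836) (nat_lit 1397134990) (nat_lit 912) (nat_lit 3359889409) (nat_lit 289) (nat_lit 5) (nat_lit 300) (nat_lit 5) (nat_lit 301) (nat_lit 5) (nat_lit 319) (nat_lit 294) (nat_lit 167)) (XT.lf (nat_lit 0) (nat_lit 7715650068) (nat_lit 760) (nat_lit 8813459255) (nat_lit 836) (nat_lit 636130417) (nat_lit 279) (nat_lit 5) (nat_lit 289) (nat_lit 5) (nat_lit 290) (nat_lit 5) (nat_lit 320) (nat_lit 294) (nat_lit 166)))) (XT.nd (nat_lit 156) (nat_lit 1368) (nat_lit 0) (XT.nd (nat_lit 78) (nat_lit 0) (nat_lit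 0) (XT.lf (nat_lit 0) (nat_lit 2194693290) (nat_lit 836) (nat_lit 14296995175) (nat_lit 76) (nat_lit 968412803) (nat_lit 268) (nat_lit 5) (nat_lit 279) (nat_lit 5) (nat_lit 269) (nat_lit 5) (nat_lit 321) (nat_lit 294) (nat_lit 165)) (XT.lf (nat_lit 0) (nat_lit 5210643013) (nat_lit 836) (nat_lit 1557812618) (nat_lit 76) (nat_lit 10993103695) (nat_lit 268) (nat_lit 5) (nat_lit 279) (nat_lit 5) (nat_lit 269) (nat_lit 5) (nat_lit 322) (nat_lit 294) (nat_lit 164))) (XT.nd (nat_lit 78) (nat_lit 684) (nat_lit 0) (XT.lf (nat_lit 0) (nat_lit 8400450699) (nat_lit 760) (nat_lit 6390145887) (nat_lit 76) (nat_lit 3279808268) (nat_lit 259) (nat_lit 5) (nat_lit 269) (nat_lit 5) (nat_lit 260) (nat_lit 5) (nat_lit 323) (nat_lit 294) (nat_lit 163)) (XT.lf (nat_lit 0) (nat_lit 6979901680) (nat_lit 684) (nat_lit 4793396203) (nat_lit 760) (nat_lit 6613481947) (nat_lit 250) (nat_lit 5) (nat_lit 259) (nat_lit 5) (nat_lit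 260) (nat_lit 5) (nat_lit 324) (nat_lit 294) (nat_lit 162)))))) (XT.nd (nat_lit 468) (nat_lit 2888) (nat_lit 0) (XT.nd (nat_lit 234) (nat_lit 1216) (nat_lit 0) (XT.nd (nat_lit 78) (nat_lit 760) (nat_lit 0) (XT.lf (nat_lit 0) (nat_lit 2103472645) (nat_lit 684) (nat_lit 13223277222) (nat_lit 760) (nat_lit 3384318469) (nat_lit 241) (nat_lit 5) (nat_lit 250) (nat_lit 5) (nat_lit 251) (nat_lit 5) (nat_lit 325) (nat_lit 294) (nat_lit 161)) (XT.nd (nat_lit 78) (nat_lit 684) (nat_lit 0) (XT.lf (nat_lit 0) (nat_lit 38990532) (nat_lit 760) (nat_lit 2915236711) (nat_lit 76) (nat_lit 16088945848) (nat_lit 240) (nat_lit 5) (nat_lit 250) (nat_lit 5) (nat_lit 241) (nat_lit 5) (nat_lit 326) (nat_lit 294) (nat_lit 160)) (XT.lf (nat_lit 0) (nat_lit 3629793419) (nat_lit 760) (nat_lit 8134610333) (nat_lit 76) (nat_lit 7618184206) (nat_lit 231) (nat_lit 5) (nat_lit 241) (nat_lit 5) (nat_lit 232) (nat_lit 5) (nat_lit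 327) (nat_lit 294) (nat_lit 159)))) (XT.nd (nat_lit 78) (nat_lit 608) (nat_lit 0) (XT.lf (nat_lit 0) (nat_lit 6191141562) (nat_lit 608) (nat_lit 1204325451) (nat_lit 684) (nat_lit 12335384896) (nat_lit 223) (nat_lit 5) (nat_lit 231) (nat_lit 5) (nat_lit 232) (nat_lit 5) (nat_lit 328) (nat_lit 294) (nat_lit 158)) (XT.nd (nat_lit 78) (nat_lit 0) (nat_lit 0) (XT.lf (nat_lit 0) (nat_lit 903856091) (nat_lit 608) (nat_lit 10481986223) (nat_lit 684) (nat_lit 8701496126) (nat_lit 215) (nat_lit 5) (nat_lit 223) (nat_lit 5) (nat_lit 224) (nat_lit 5) (nat_lit 329) (nat_lit 294) (nat_lit 157)) (XT.lf (nat_lit 0) (nat_lit 15585862635) (nat_lit 684) (nat_lit 4511364787) (nat_lit 76) (nat_lit 355502492) (nat_lit 215) (nat_lit 5) (nat_lit 224) (nat_lit 5) (nat_lit 216) (nat_lit 5) (nat_lit 330) (nat_lit 294) (nat_lit 156))))) (XT.nd (nat_lit 234) (nat_lit 1672) (nat_lit 0) (XT.nd (nat_lit 78) (nat_lit 684) (nat_lit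 0) (XT.lf (nat_lit 0) (nat_lit 10656610368) (nat_lit 532) (nat_lit 9382746824) (nat_lit 608) (nat_lit 787185225) (nat_lit 208) (nat_lit 5) (nat_lit 215) (nat_lit 5) (nat_lit 216) (nat_lit 5) (nat_lit 331) (nat_lit 294) (nat_lit 155)) (XT.nd (nat_lit 78) (nat_lit 0) (nat_lit 0) (XT.lf (nat_lit 0) (nat_lit 3434034778) (nat_lit 684) (nat_lit 16059537297) (nat_lit 76) (nat_lit 1716283437) (nat_lit 199) (nat_lit 5) (nat_lit 208) (nat_lit 5) (nat_lit 200) (nat_lit 5) (nat_lit 332) (nat_lit 294) (nat_lit 154)) (XT.lf (nat_lit 0) (nat_lit 7891966747) (nat_lit 684) (nat_lit 616276792) (nat_lit 76) (nat_lit 13093913087) (nat_lit 199) (nat_lit 5) (nat_lit 208) (nat_lit 5) (nat_lit 200) (nat_lit 5) (nat_lit 333) (nat_lit 294) (nat_lit 153)))) (XT.nd (nat_lit 156) (nat_lit 608) (nat_lit 0) (XT.nd (nat_lit 78) (nat_lit 532) (nat_lit 0) (XT.lf (nat_lit 0) (nat_lit 12591938097) (nat_lit 608) (nat_lit 6543515114)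 (nat_lit 76) (nat_lit 2868615393) (nat_lit 192) (nat_lit 5) (nat_lit 200) (nat_lit 5) (nat_lit 193) (nat_lit 5) (nat_lit 334) (nat_lit 294) (nat_lit 152)) (XT.lf (nat_lit 0) (nat_lit 9666534126) (nat_lit 532) (nat_lit 7879382499) (nat_lit 608) (nat_lit 4869868783) (nat_lit 185) (nat_lit 5) (nat_lit 192) (nat_lit 5) (nat_lit 193) (nat_lit 5) (nat_lit 335) (nat_lit 294) (nat_lit 151))) (XT.nd (nat_lit 78) (nat_lit 76) (nat_lit 0) (XT.lf (nat_lit 0) (nat_lit 3623122675) (nat_lit 532) (nat_lit 19107023496) (nat_lit 608) (nat_lit 108082321) (nat_lit 178) (nat_lit 5) (nat_lit 185) (nat_lit 5) (nat_lit 186) (nat_lit 5) (nat_lit 336) (nat_lit 294) (nat_lit 150)) (XT.lf (nat_lit 0) (nat_lit 4862813085) (nat_lit 608) (nat_lit 2708242882) (nat_lit 76) (nat_lit 15699089841) (nat_lit 177) (nat_lit 5) (nat_lit 185) (nat_lit 5) (nat_lit 178) (nat_lit 5) (nat_lit 337) (nat_lit 294) (nat_lit 149))))))) (XT.nd (nat_lit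 1014) (nat_lit 760) (nat_lit 0) (XT.nd (nat_lit 468) (nat_lit 2128) (nat_lit 0) (XT.nd (nat_lit 234) (nat_lit 988) (nat_lit 0) (XT.nd (nat_lit 78) (nat_lit 912) (nat_lit 0) (XT.lf (nat_lit 0) (nat_lit 10093732480) (nat_lit 608) (nat_lit 9272067946) (nat_lit 76) (nat_lit 4346965463) (nat_lit 170) (nat_lit 5) (nat_lit 178) (nat_lit 5) (nat_lit 171) (nat_lit 5) (nat_lit 338) (nat_lit 294) (nat_lit 148)) (XT.nd (nat_lit 78) (nat_lit 456) (nat_lit 0) (XT.lf (nat_lit 0) (nat_lit 8014249633) (nat_lit 456) (nat_lit 7578474181) (nat_lit 532) (nat_lit 8573724519) (nat_lit 164) (nat_lit 5) (nat_lit 170) (nat_lit 5) (nat_lit 171) (nat_lit 5) (nat_lit 339) (nat_lit 294) (nat_lit 147)) (XT.lf (nat_lit 0) (nat_lit 1287477916) (nat_lit 456) (nat_lit 20060630085) (nat_lit 532) (nat_lit 3283811237) (nat_lit 158) (nat_lit 5) (nat_lit 164) (nat_lit 5) (nat_lit 165) (nat_lit 5) (nat_lit 340) (nat_lit 294) (nat_lit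 146)))) (XT.nd (nat_lit 78) (nat_lit 912) (nat_lit 0) (XT.lf (nat_lit 0) (nat_lit 2287593420) (nat_lit 532) (nat_lit 5716070297) (nat_lit 76) (nat_lit 17104391876) (nat_lit 157) (nat_lit 5) (nat_lit 164) (nat_lit 5) (nat_lit 158) (nat_lit 5) (nat_lit 341) (nat_lit 294) (nat_lit 145)) (XT.nd (nat_lit 78) (nat_lit 456) (nat_lit 0) (XT.lf (nat_lit 0) (nat_lit 8083343815) (nat_lit 532) (nat_lit 13054366955) (nat_lit 76) (nat_lit 4458300756) (nat_lit 151) (nat_lit 5) (nat_lit 158) (nat_lit 5) (nat_lit 152) (nat_lit 5) (nat_lit 342) (nat_lit 294) (nat_lit 144)) (XT.lf (nat_lit 0) (nat_lit 5331166178) (nat_lit 456) (nat_lit 8839711469) (nat_lit 532) (nat_lit 11925376061) (nat_lit 145) (nat_lit 5) (nat_lit 151) (nat_lit 5) (nat_lit 152) (nat_lit 5) (nat_lit 343) (nat_lit 294) (nat_lit 143))))) (XT.nd (nat_lit 234) (nat_lit 1216) (nat_lit 0) (XT.nd (nat_lit 78) (nat_lit 912) (nat_lit 0) (XT.lf (nat_lit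 0) (nat_lit 20545883456) (nat_lit 532) (nat_lit 2200650241) (nat_lit 76) (nat_lit 3862878158) (nat_lit 145) (nat_lit 5) (nat_lit 152) (nat_lit 5) (nat_lit 146) (nat_lit 5) (nat_lit 344) (nat_lit 294) (nat_lit 142)) (XT.nd (nat_lit 78) (nat_lit 456) (nat_lit 0) (XT.lf (nat_lit 0) (nat_lit 136756963) (nat_lit 456) (nat_lit 10062194664) (nat_lit 76) (nat_lit 16935776952) (nat_lit 139) (nat_lit 5) (nat_lit 145) (nat_lit 5) (nat_lit 140) (nat_lit 5) (nat_lit 345) (nat_lit 294) (nat_lit 141)) (XT.lf (nat_lit 0) (nat_lit 6526620552) (nat_lit 532) (nat_lit 18343610032) (nat_lit 76) (nat_lit 2803058832) (nat_lit 133) (nat_lit 5) (nat_lit 140) (nat_lit 5) (nat_lit 134) (nat_lit 5) (nat_lit 346) (nat_lit 294) (nat_lit 140)))) (XT.nd (nat_lit 156) (nat_lit 836) (nat_lit 0) (XT.nd (nat_lit 78) (nat_lit 0) (nat_lit 0) (XT.lf (nat_lit 0) (nat_lit 1148852020) (nat_lit 380) (nat_lit 12095113393) (nat_lit 456) (nat_lit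 14981331001) (nat_lit 128) (nat_lit 5) (nat_lit 133) (nat_lit 5) (nat_lit 134) (nat_lit 5) (nat_lit 347) (nat_lit 294) (nat_lit 139)) (XT.lf (nat_lit 0) (nat_lit 20286493878) (nat_lit 456) (nat_lit 7333839616) (nat_lit 76) (nat_lit 1171061757) (nat_lit 128) (nat_lit 5) (nat_lit 134) (nat_lit 5) (nat_lit 129) (nat_lit 5) (nat_lit 348) (nat_lit 294) (nat_lit 138))) (XT.nd (nat_lit 78) (nat_lit 456) (nat_lit 0) (XT.lf (nat_lit 0) (nat_lit 13080139665) (nat_lit 380) (nat_lit 14617847107) (nat_lit 456) (nat_lit 1673341263) (nat_lit 123) (nat_lit 5) (nat_lit 128) (nat_lit 5) (nat_lit 129) (nat_lit 5) (nat_lit 349) (nat_lit 294) (nat_lit 137)) (XT.lf (nat_lit 0) (nat_lit 4248337531) (nat_lit 380) (nat_lit 1114081454) (nat_lit 456) (nat_lit 24604156074) (nat_lit 117) (nat_lit 5) (nat_lit 122) (nat_lit 5) (nat_lit 123) (nat_lit 5) (nat_lit 350) (nat_lit 294) (nat_lit 136)))))) (XT.nd (nat_lit 36504) (nat_lit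 0) (nat_lit 20976) (XT.nd (nat_lit 234) (nat_lit 76) (nat_lit 0) (XT.nd (nat_lit 78) (nat_lit 684) (nat_lit 0) (XT.lf (nat_lit 0) (nat_lit 12772966494) (nat_lit 456) (nat_lit 5056862574) (nat_lit 76) (nat_lit 12745904628) (nat_lit 117) (nat_lit 5) (nat_lit 123) (nat_lit 5) (nat_lit 118) (nat_lit 5) (nat_lit 351) (nat_lit 294) (nat_lit 135)) (XT.nd (nat_lit 78) (nat_lit 304) (nat_lit 0) (XT.lf (nat_lit 0) (nat_lit 16421160261) (nat_lit 380) (nat_lit 4091088438) (nat_lit 456) (nat_lit 10688794294) (nat_lit 112) (nat_lit 5) (nat_lit 117) (nat_lit 5) (nat_lit 118) (nat_lit 5) (nat_lit 352) (nat_lit 294) (nat_lit 134)) (XT.lf (nat_lit 0) (nat_lit 6780643072) (nat_lit 304) (nat_lit 21839379948) (nat_lit 380) (nat_lit 3222366415) (nat_lit 108) (nat_lit 5) (nat_lit 112) (nat_lit 5) (nat_lit 113) (nat_lit 5) (nat_lit 353) (nat_lit 294) (nat_lit 133)))) (XT.nd (nat_lit 36114) (nat_lit 0) (nat_lit 20900)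 (XT.nd (nat_lit 36036) (nat_lit 0) (nat_lit 20900) (XT.lf (nat_lit 0) (nat_lit 4530206285) (nat_lit 380) (nat_lit 3378695143) (nat_lit 76) (nat_lit 24591083566) (nat_lit 107) (nat_lit 5) (nat_lit 112) (nat_lit 5) (nat_lit 108) (nat_lit 5) (nat_lit 354) (nat_lit 294) (nat_lit 132)) (XT.lf (nat_lit 0) (nat_lit 525114517) (nat_lit 0) (nat_lit 525114517) (nat_lit 1596) (nat_lit 4873273809) (nat_lit 382) (nat_lit 5) (nat_lit 382) (nat_lit 3) (nat_lit 403) (nat_lit 3) (nat_lit 295) (nat_lit 295) (nat_lit 190))) (XT.nd (nat_lit 78) (nat_lit 0) (nat_lit 76) (XT.lf (nat_lit 0) (nat_lit 2866328320) (nat_lit 1596) (nat_lit 2862683548) (nat_lit 1672) (nat_lit 6280367308) (nat_lit 382) (nat_lit 5) (nat_lit 403) (nat_lit 3) (nat_lit 404) (nat_lit 5) (nat_lit 296) (nat_lit 295) (nat_lit 189)) (XT.lf (nat_lit 0) (nat_lit 3680991942) (nat_lit 1596) (nat_lit 6828805557) (nat_lit 1672) (nat_lit 1666335173) (nat_lit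 383) (nat_lit 5) (nat_lit 404) (nat_lit 5) (nat_lit 405) (nat_lit 5) (nat_lit 297) (nat_lit 295) (nat_lit 188))))) (XT.nd (nat_lit 234) (nat_lit 0) (nat_lit 152) (XT.nd (nat_lit 78) (nat_lit 0) (nat_lit 76) (XT.lf (nat_lit 76) (nat_lit 1461471326) (nat_lit 0) (nat_lit 3099767185) (nat_lit 1672) (nat_lit 7785851813) (nat_lit 384) (nat_lit 5) (nat_lit 383) (nat_lit 5) (nat_lit 405) (nat_lit 5) (nat_lit 298) (nat_lit 295) (nat_lit 187)) (XT.nd (nat_lit 78) (nat_lit 0) (nat_lit 0) (XT.lf (nat_lit 0) (nat_lit 5518458446) (nat_lit 1596) (nat_lit 2473003255) (nat_lit 1672) (nat_lit 4530727390) (nat_lit 384) (nat_lit 5) (nat_lit 405) (nat_lit 5) (nat_lit 406) (nat_lit 5) (nat_lit 299) (nat_lit 295) (nat_lit 186)) (XT.lf (nat_lit 76) (nat_lit 6238569313) (nat_lit 0) (nat_lit 302358132) (nat_lit 1672) (nat_lit 6160905739) (nat_lit 385) (nat_lit 5) (nat_lit 384) (nat_lit 5) (nat_lit 406) (nat_lit 5) (nat_lit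 300) (nat_lit 295) (nat_lit 185)))) (XT.nd (nat_lit 156) (nat_lit 0) (nat_lit 76) (XT.nd (nat_lit 78) (nat_lit 0) (nat_lit 76) (XT.lf (nat_lit 76) (nat_lit 2324887365) (nat_lit 0) (nat_lit 5326592443) (nat_lit 1672) (nat_lit 5234260946) (nat_lit 386) (nat_lit 5) (nat_lit 385) (nat_lit 5) (nat_lit 407) (nat_lit 5) (nat_lit 301) (nat_lit 295) (nat_lit 184)) (XT.lf (nat_lit 0) (nat_lit 8834828130) (nat_lit 1596) (nat_lit 1643318710) (nat_lit 1672) (nat_lit 2596250816) (nat_lit 386) (nat_lit 5) (nat_lit 407) (nat_lit 5) (nat_lit 408) (nat_lit 5) (nat_lit 302) (nat_lit 295) (nat_lit 183))) (XT.nd (nat_lit 78) (nat_lit 0) (nat_lit 76) (XT.lf (nat_lit 76) (nat_lit 7590968637) (nat_lit 0) (nat_lit 2524945377) (nat_lit 1672) (nat_lit 3151576569) (nat_lit 387) (nat_lit 5) (nat_lit 386) (nat_lit 5) (nat_lit 408) (nat_lit 5) (nat_lit 303) (nat_lit 295) (nat_lit 182)) (XT.lf (nat_lit 76) (nat_lit 3654708025)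 (nat_lit 0) (nat_lit 7830401711) (nat_lit 1672) (nat_lit 1980293462) (nat_lit 388) (nat_lit 5) (nat_lit 387) (nat_lit 5) (nat_lit 409) (nat_lit 5) (nat_lit 304) (nat_lit 295) (nat_lit 181))))))))
noncomputable def xc105 : XT := (XT.nd (nat_lit 2028) (nat_lit 8132) (nat_lit 0) (XT.nd (nat_lit 1014) (nat_lit 7220) (nat_lit 0) (XT.nd (nat_lit 468) (nat_lit 4256) (nat_lit 0) (XT.nd (nat_lit 234) (nat_lit 0) (nat_lit 76) (XT.nd (nat_lit 78) (nat_lit 1672) (nat_lit 0) (XT.lf (nat_lit 0) (nat_lit 12931598517) (nat_lit 1596) (nat_lit 359355730) (nat_lit 1672) (nat_lit 377594452) (nat_lit 388) (nat_lit 5) (nat_lit 409) (nat_lit 5) (nat_lit 410) (nat_lit 5) (nat_lit 305) (nat_lit 295) (nat_lit 180)) (XT.nd (nat_lit 78) (nat_lit 0) (nat_lit 76) (XT.lf (nat_lit 0) (nat_lit 629924573) (nat_lit 1672) (nat_lit 4448024517) (nat_lit 1748) (nat_lit 8797920533) (nat_lit 366) (nat_lit 5) (nat_lit 388) (nat_lit 5)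 (nat_lit 389) (nat_lit 5) (nat_lit 306) (nat_lit 295) (nat_lit 179)) (XT.lf (nat_lit 0) (nat_lit 2067653896) (nat_lit 1672) (nat_lit 8634998036) (nat_lit 1748) (nat_lit 3385881950) (nat_lit 367) (nat_lit 5) (nat_lit 389) (nat_lit 5) (nat_lit 390) (nat_lit 5) (nat_lit 307) (nat_lit 295) (nat_lit 178)))) (XT.nd (nat_lit 78) (nat_lit 0) (nat_lit 76) (XT.lf (nat_lit 76) (nat_lit 1374874988) (nat_lit 0) (nat_lit 2226923880) (nat_lit 1748) (nat_lit 10704731336) (nat_lit 368) (nat_lit 5) (nat_lit 367) (nat_lit 5) (nat_lit 390) (nat_lit 5) (nat_lit 308) (nat_lit 295) (nat_lit 177)) (XT.nd (nat_lit 78) (nat_lit 0) (nat_lit 76) (XT.lf (nat_lit 0) (nat_lit 5263664187) (nat_lit 1672) (nat_lit 2784508627) (nat_lit 1748) (nat_lit 6481276973) (nat_lit 368) (nat_lit 5) (nat_lit 390) (nat_lit 5) (nat_lit 391) (nat_lit 5) (nat_lit 309) (nat_lit 295) (nat_lit 176)) (XT.lf (nat_lit 0) (nat_lit 7026318757) (nat_lit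 1672) (nat_lit 7023948391) (nat_lit 1748) (nat_lit 707787931) (nat_lit 369) (nat_lit 5) (nat_lit 391) (nat_lit 5) (nat_lit 392) (nat_lit 5) (nat_lit 310) (nat_lit 295) (nat_lit 175))))) (XT.nd (nat_lit 234) (nat_lit 2888) (nat_lit 0) (XT.nd (nat_lit 78) (nat_lit 1596) (nat_lit 0) (XT.lf (nat_lit 76) (nat_lit 3591440432) (nat_lit 0) (nat_lit 5328164292) (nat_lit 1748) (nat_lit 6072375070) (nat_lit 370) (nat_lit 5) (nat_lit 369) (nat_lit 5) (nat_lit 392) (nat_lit 5) (nat_lit 311) (nat_lit 295) (nat_lit 174)) (XT.nd (nat_lit 78) (nat_lit 1672) (nat_lit 0) (XT.lf (nat_lit 0) (nat_lit 10923414591) (nat_lit 1672) (nat_lit 649706358) (nat_lit 76) (nat_lit 3658742618) (nat_lit 370) (nat_lit 5) (nat_lit 392) (nat_lit 5) (nat_lit 371) (nat_lit 5) (nat_lit 312) (nat_lit 295) (nat_lit 173)) (XT.lf (nat_lit 0) (nat_lit 10511194418) (nat_lit 1672) (nat_lit 2562622777) (nat_lit 1748) (nat_lit 2403412454) (nat_lit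 348) (nat_lit 5) (nat_lit 370) (nat_lit 5) (nat_lit 371) (nat_lit 5) (nat_lit 313) (nat_lit 295) (nat_lit 172)))) (XT.nd (nat_lit 156) (nat_lit 836) (nat_lit 0) (XT.nd (nat_lit 78) (nat_lit 912) (nat_lit 0) (XT.lf (nat_lit 0) (nat_lit 6310244145) (nat_lit 1140) (nat_lit 9050539239) (nat_lit 1216) (nat_lit 367747213) (nat_lit 333) (nat_lit 5) (nat_lit 348) (nat_lit 5) (nat_lit 349) (nat_lit 5) (nat_lit 314) (nat_lit 295) (nat_lit 171)) (XT.lf (nat_lit 0) (nat_lit 1755069535) (nat_lit 912) (nat_lit 13998965822) (nat_lit 76) (nat_lit 232149750) (nat_lit 321) (nat_lit 5) (nat_lit 333) (nat_lit 5) (nat_lit 322) (nat_lit 5) (nat_lit 315) (nat_lit 295) (nat_lit 170))) (XT.nd (nat_lit 78) (nat_lit 836) (nat_lit 0) (XT.lf (nat_lit 0) (nat_lit 4045080913) (nat_lit 912) (nat_lit 2464811627) (nat_lit 76) (nat_lit 9739471751) (nat_lit 321) (nat_lit 5) (nat_lit 333) (nat_lit 5) (nat_lit 322) (nat_lit 5) (nat_lit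 316) (nat_lit 295) (nat_lit 169)) (XT.lf (nat_lit 0) (nat_lit 6469795375) (nat_lit 912) (nat_lit 7013689502) (nat_lit 76) (nat_lit 3035647301) (nat_lit 310) (nat_lit 5) (nat_lit 322) (nat_lit 5) (nat_lit 311) (nat_lit 5) (nat_lit 317) (nat_lit 295) (nat_lit 168)))))) (XT.nd (nat_lit 468) (nat_lit 4028) (nat_lit 0) (XT.nd (nat_lit 234) (nat_lit 1596) (nat_lit 0) (XT.nd (nat_lit 78) (nat_lit 836) (nat_lit 0) (XT.lf (nat_lit 0) (nat_lit 5080286825) (nat_lit 760) (nat_lit 3964855922) (nat_lit 836) (nat_lit 7750305518) (nat_lit 300) (nat_lit 5) (nat_lit 310) (nat_lit 5) (nat_lit 311) (nat_lit 5) (nat_lit 318) (nat_lit 295) (nat_lit 167)) (XT.nd (nat_lit 78) (nat_lit 0) (nat_lit 0) (XT.lf (nat_lit 0) (nat_lit 507751604) (nat_lit 836) (nat_lit 11263970923) (nat_lit 912) (nat_lit 5306864482) (nat_lit 289) (nat_lit 5) (nat_lit 300) (nat_lit 5) (nat_lit 301) (nat_lit 5) (nat_lit 319) (nat_lit 295) (nat_lit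 166)) (XT.lf (nat_lit 0) (nat_lit 13216418088) (nat_lit 836) (nat_lit 1454673882) (nat_lit 912) (nat_lit 2697320348) (nat_lit 289) (nat_lit 5) (nat_lit 300) (nat_lit 5) (nat_lit 301) (nat_lit 5) (nat_lit 320) (nat_lit 295) (nat_lit 165)))) (XT.nd (nat_lit 78) (nat_lit 760) (nat_lit 0) (XT.lf (nat_lit 0) (nat_lit 89499840) (nat_lit 836) (nat_lit 8982739494) (nat_lit 76) (nat_lit 8592728634) (nat_lit 278) (nat_lit 5) (nat_lit 289) (nat_lit 5) (nat_lit 279) (nat_lit 5) (nat_lit 321) (nat_lit 295) (nat_lit 164)) (XT.nd (nat_lit 78) (nat_lit 0) (nat_lit 0) (XT.lf (nat_lit 0) (nat_lit 2980074433) (nat_lit 836) (nat_lit 13977056616) (nat_lit 76) (nat_lit 1011808055) (nat_lit 268) (nat_lit 5) (nat_lit 279) (nat_lit 5) (nat_lit 269) (nat_lit 5) (nat_lit 322) (nat_lit 295) (nat_lit 163)) (XT.lf (nat_lit 0) (nat_lit 6065545162) (nat_lit 836) (nat_lit 877509701) (nat_lit 76) (nat_lit 11336821920) (nat_lit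 268) (nat_lit 5) (nat_lit 279) (nat_lit 5) (nat_lit 269) (nat_lit 5) (nat_lit 323) (nat_lit 295) (nat_lit 162))))) (XT.nd (nat_lit 234) (nat_lit 1976) (nat_lit 0) (XT.nd (nat_lit 78) (nat_lit 1368) (nat_lit 0) (XT.lf (nat_lit 0) (nat_lit 9335553948) (nat_lit 760) (nat_lit 5852619387) (nat_lit 76) (nat_lit 3410140447) (nat_lit 259) (nat_lit 5) (nat_lit 269) (nat_lit 5) (nat_lit 260) (nat_lit 5) (nat_lit 324) (nat_lit 295) (nat_lit 161)) (XT.nd (nat_lit 78) (nat_lit 684) (nat_lit 0) (XT.lf (nat_lit 0) (nat_lit 7906698702) (nat_lit 684) (nat_lit 4887649865) (nat_lit 760) (nat_lit 6130151969) (nat_lit 250) (nat_lit 5) (nat_lit 259) (nat_lit 5) (nat_lit 260) (nat_lit 5) (nat_lit 325) (nat_lit 295) (nat_lit 160)) (XT.lf (nat_lit 0) (nat_lit 2885678812) (nat_lit 684) (nat_lit 13554254523) (nat_lit 760) (nat_lit 2818889088) (nat_lit 241) (nat_lit 5) (nat_lit 250) (nat_lit 5) (nat_lit 251) (nat_lit 5) (nat_lit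 326) (nat_lit 295) (nat_lit 159)))) (XT.nd (nat_lit 156) (nat_lit 1216) (nat_lit 0) (XT.nd (nat_lit 78) (nat_lit 684) (nat_lit 0) (XT.lf (nat_lit 0) (nat_lit 679200683) (nat_lit 760) (nat_lit 2295558269) (nat_lit 76) (nat_lit 16626442760) (nat_lit 240) (nat_lit 5) (nat_lit 250) (nat_lit 5) (nat_lit 241) (nat_lit 5) (nat_lit 327) (nat_lit 295) (nat_lit 158)) (XT.lf (nat_lit 0) (nat_lit 4364090689) (nat_lit 760) (nat_lit 7670474185) (nat_lit 76) (nat_lit 7916521039) (nat_lit 231) (nat_lit 5) (nat_lit 241) (nat_lit 5) (nat_lit 232) (nat_lit 5) (nat_lit 328) (nat_lit 295) (nat_lit 157))) (XT.nd (nat_lit 78) (nat_lit 608) (nat_lit 0) (XT.lf (nat_lit 0) (nat_lit 7073560978) (nat_lit 608) (nat_lit 1155481219) (nat_lit 684) (nat_lit 12081043166) (nat_lit 223) (nat_lit 5) (nat_lit 231) (nat_lit 5) (nat_lit 232) (nat_lit 5) (nat_lit 329) (nat_lit 295) (nat_lit 156)) (XT.lf (nat_lit 0) (nat_lit 1628297485)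 (nat_lit 608) (nat_lit 10698077582) (nat_lit 684) (nat_lit 8351159835) (nat_lit 215) (nat_lit 5) (nat_lit 223) (nat_lit 5) (nat_lit 224) (nat_lit 5) (nat_lit 330) (nat_lit 295) (nat_lit 155))))))) (XT.nd (nat_lit 1014) (nat_lit 3268) (nat_lit 0) (XT.nd (nat_lit 468) (nat_lit 2584) (nat_lit 0) (XT.nd (nat_lit 234) (nat_lit 1064) (nat_lit 0) (XT.nd (nat_lit 78) (nat_lit 1216) (nat_lit 0) (XT.lf (nat_lit 0) (nat_lit 16635570703) (nat_lit 684) (nat_lit 3958248709) (nat_lit 76) (nat_lit 460418160) (nat_lit 215) (nat_lit 5) (nat_lit 224) (nat_lit 5) (nat_lit 216) (nat_lit 5) (nat_lit 331) (nat_lit 295) (nat_lit 154)) (XT.nd (nat_lit 78) (nat_lit 684) (nat_lit 0) (XT.lf (nat_lit 0) (nat_lit 11653596303) (nat_lit 532) (nat_lit 9556515889) (nat_lit 608) (nat_lit 229415989) (nat_lit 208) (nat_lit 5) (nat_lit 215) (nat_lit 5) (nat_lit 216) (nat_lit 5) (nat_lit 332) (nat_lit 295) (nat_lit 153)) (XT.lf (nat_lit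 0) (nat_lit 4099213819) (nat_lit 684) (nat_lit 15856223456) (nat_lit 76) (nat_lit 1879071901) (nat_lit 199) (nat_lit 5) (nat_lit 208) (nat_lit 5) (nat_lit 200) (nat_lit 5) (nat_lit 333) (nat_lit 295) (nat_lit 152)))) (XT.nd (nat_lit 78) (nat_lit 532) (nat_lit 0) (XT.lf (nat_lit 0) (nat_lit 30784237) (nat_lit 532) (nat_lit 8643925847) (nat_lit 608) (nat_lit 13564204329) (nat_lit 192) (nat_lit 5) (nat_lit 199) (nat_lit 5) (nat_lit 200) (nat_lit 5) (nat_lit 334) (nat_lit 295) (nat_lit 151)) (XT.nd (nat_lit 78) (nat_lit 532) (nat_lit 0) (XT.lf (nat_lit 0) (nat_lit 13504613106) (nat_lit 608) (nat_lit 6075188033) (nat_lit 76) (nat_lit 3073315238) (nat_lit 192) (nat_lit 5) (nat_lit 200) (nat_lit 5) (nat_lit 193) (nat_lit 5) (nat_lit 335) (nat_lit 295) (nat_lit 150)) (XT.lf (nat_lit 0) (nat_lit 10610379811) (nat_lit 532) (nat_lit 7985496302) (nat_lit 608) (nat_lit 4481546220) (nat_lit 185) (nat_lit 5)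 (nat_lit 192) (nat_lit 5) (nat_lit 193) (nat_lit 5) (nat_lit 336) (nat_lit 295) (nat_lit 149))))) (XT.nd (nat_lit 234) (nat_lit 1444) (nat_lit 0) (XT.nd (nat_lit 78) (nat_lit 532) (nat_lit 0) (XT.lf (nat_lit 0) (nat_lit 407278273) (nat_lit 608) (nat_lit 19130545730) (nat_lit 76) (nat_lit 3974875521) (nat_lit 177) (nat_lit 5) (nat_lit 185) (nat_lit 5) (nat_lit 178) (nat_lit 5) (nat_lit 337) (nat_lit 295) (nat_lit 148)) (XT.nd (nat_lit 78) (nat_lit 532) (nat_lit 0) (XT.lf (nat_lit 0) (nat_lit 5510778079) (nat_lit 608) (nat_lit 2148431462) (nat_lit 76) (nat_lit 16298661730) (nat_lit 177) (nat_lit 5) (nat_lit 185) (nat_lit 5) (nat_lit 178) (nat_lit 5) (nat_lit 338) (nat_lit 295) (nat_lit 147)) (XT.lf (nat_lit 0) (nat_lit 10888999175) (nat_lit 608) (nat_lit 8910316362) (nat_lit 76) (nat_lit 4614656760) (nat_lit 170) (nat_lit 5) (nat_lit 178) (nat_lit 5) (nat_lit 171) (nat_lit 5) (nat_lit 339) (nat_lit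 295) (nat_lit 146)))) (XT.nd (nat_lit 156) (nat_lit 532) (nat_lit 0) (XT.nd (nat_lit 78) (nat_lit 456) (nat_lit 0) (XT.lf (nat_lit 0) (nat_lit 8884208906) (nat_lit 456) (nat_lit 7658495338) (nat_lit 532) (nat_lit 8338775627) (nat_lit 164) (nat_lit 5) (nat_lit 170) (nat_lit 5) (nat_lit 171) (nat_lit 5) (nat_lit 340) (nat_lit 295) (nat_lit 145)) (XT.lf (nat_lit 0) (nat_lit 1954279860) (nat_lit 456) (nat_lit 20507432743) (nat_lit 532) (nat_lit 2899392309) (nat_lit 158) (nat_lit 5) (nat_lit 164) (nat_lit 5) (nat_lit 165) (nat_lit 5) (nat_lit 341) (nat_lit 295) (nat_lit 144))) (XT.nd (nat_lit 78) (nat_lit 456) (nat_lit 0) (XT.lf (nat_lit 0) (nat_lit 2818939192) (nat_lit 532) (nat_lit 5271228147) (nat_lit 76) (nat_lit 17761581752) (nat_lit 157) (nat_lit 5) (nat_lit 164) (nat_lit 5) (nat_lit 158) (nat_lit 5) (nat_lit 342) (nat_lit 295) (nat_lit 143)) (XT.lf (nat_lit 0) (nat_lit 8780015878) (nat_lit 532)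 (nat_lit 12831318370) (nat_lit 76) (nat_lit 4743188936) (nat_lit 151) (nat_lit 5) (nat_lit 158) (nat_lit 5) (nat_lit 152) (nat_lit 5) (nat_lit 343) (nat_lit 295) (nat_lit 142)))))) (XT.nd (nat_lit 546) (nat_lit 1140) (nat_lit 0) (XT.nd (nat_lit 234) (nat_lit 1216) (nat_lit 0) (XT.nd (nat_lit 78) (nat_lit 456) (nat_lit 0) (XT.lf (nat_lit 0) (nat_lit 6095808310) (nat_lit 456) (nat_lit 8945065271) (nat_lit 532) (nat_lit 11829093401) (nat_lit 145) (nat_lit 5) (nat_lit 151) (nat_lit 5) (nat_lit 152) (nat_lit 5) (nat_lit 344) (nat_lit 295) (nat_lit 141)) (XT.nd (nat_lit 78) (nat_lit 456) (nat_lit 0) (XT.lf (nat_lit 0) (nat_lit 21595179743) (nat_lit 532) (nat_lit 1671675853) (nat_lit 76) (nat_lit 4131911342) (nat_lit 145) (nat_lit 5) (nat_lit 152) (nat_lit 5) (nat_lit 146) (nat_lit 5) (nat_lit 345) (nat_lit 295) (nat_lit 140)) (XT.lf (nat_lit 0) (nat_lit 568036866) (nat_lit 456) (nat_lit 9772786791) (nat_lit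 76) (nat_lit 17599147309) (nat_lit 139) (nat_lit 5) (nat_lit 145) (nat_lit 5) (nat_lit 140) (nat_lit 5) (nat_lit 346) (nat_lit 295) (nat_lit 139)))) (XT.nd (nat_lit 156) (nat_lit 380) (nat_lit 0) (XT.nd (nat_lit 78) (nat_lit 380) (nat_lit 0) (XT.lf (nat_lit 0) (nat_lit 7141990369) (nat_lit 532) (nat_lit 18304678027) (nat_lit 76) (nat_lit 3048179805) (nat_lit 133) (nat_lit 5) (nat_lit 140) (nat_lit 5) (nat_lit 134) (nat_lit 5) (nat_lit 347) (nat_lit 295) (nat_lit 138)) (XT.lf (nat_lit 0) (nat_lit 1762998163) (nat_lit 380) (nat_lit 12289400564) (nat_lit 456) (nat_lit 15011193056) (nat_lit 128) (nat_lit 5) (nat_lit 133) (nat_lit 5) (nat_lit 134) (nat_lit 5) (nat_lit 348) (nat_lit 295) (nat_lit 137))) (XT.nd (nat_lit 78) (nat_lit 380) (nat_lit 0) (XT.lf (nat_lit 0) (nat_lit 21295291408) (nat_lit 456) (nat_lit 6983903676) (nat_lit 76) (nat_lit 1367703760) (nat_lit 128) (nat_lit 5) (nat_lit 134) (nat_lit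 5) (nat_lit 129) (nat_lit 5) (nat_lit 349) (nat_lit 295) (nat_lit 136)) (XT.lf (nat_lit 0) (nat_lit 14033248204) (nat_lit 380) (nat_lit 14887864960) (nat_lit 456) (nat_lit 1323283588) (nat_lit 123) (nat_lit 5) (nat_lit 128) (nat_lit 5) (nat_lit 129) (nat_lit 5) (nat_lit 350) (nat_lit 295) (nat_lit 135))))) (XT.nd (nat_lit 234) (nat_lit 304) (nat_lit 0) (XT.nd (nat_lit 78) (nat_lit 380) (nat_lit 0) (XT.lf (nat_lit 0) (nat_lit 4932778845) (nat_lit 380) (nat_lit 977632423) (nat_lit 456) (nat_lit 24947202211) (nat_lit 117) (nat_lit 5) (nat_lit 122) (nat_lit 5) (nat_lit 123) (nat_lit 5) (nat_lit 351) (nat_lit 295) (nat_lit 134)) (XT.nd (nat_lit 78) (nat_lit 380) (nat_lit 0) (XT.lf (nat_lit 0) (nat_lit 13533070666) (nat_lit 456) (nat_lit 4661144082) (nat_lit 76) (nat_lit 13291042523) (nat_lit 117) (nat_lit 5) (nat_lit 123) (nat_lit 5) (nat_lit 118) (nat_lit 5) (nat_lit 352) (nat_lit 295) (nat_lit 133))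 (XT.lf (nat_lit 0) (nat_lit 17452338129) (nat_lit 380) (nat_lit 4044711675) (nat_lit 456) (nat_lit 10632431794) (nat_lit 112) (nat_lit 5) (nat_lit 117) (nat_lit 5) (nat_lit 118) (nat_lit 5) (nat_lit 353) (nat_lit 295) (nat_lit 132)))) (XT.nd (nat_lit 36192) (nat_lit 0) (nat_lit 20824) (XT.nd (nat_lit 36114) (nat_lit 0) (nat_lit 20824) (XT.lf (nat_lit 0) (nat_lit 7520257548) (nat_lit 304) (nat_lit 22321586929) (nat_lit 380) (nat_lit 2948354156) (nat_lit 108) (nat_lit 5) (nat_lit 112) (nat_lit 5) (nat_lit 113) (nat_lit 5) (nat_lit 354) (nat_lit 295) (nat_lit 131)) (XT.lf (nat_lit 0) (nat_lit 884059552) (nat_lit 0) (nat_lit 884059552) (nat_lit 1596) (nat_lit 4318723025) (nat_lit 382) (nat_lit 5) (nat_lit 382) (nat_lit 3) (nat_lit 403) (nat_lit 3) (nat_lit 296) (nat_lit 296) (nat_lit 188))) (XT.nd (nat_lit 78) (nat_lit 0) (nat_lit 76) (XT.lf (nat_lit 0) (nat_lit 4280774425) (nat_lit 1596) (nat_lit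 2249951189) (nat_lit 1672) (nat_lit 5811126716) (nat_lit 382) (nat_lit 5) (nat_lit 403) (nat_lit 3) (nat_lit 404) (nat_lit 5) (nat_lit 297) (nat_lit 296) (nat_lit 187)) (XT.lf (nat_lit 0) (nat_lit 5081706622) (nat_lit 1596) (nat_lit 6315362801) (nat_lit 1672) (nat_lit 1117338524) (nat_lit 383) (nat_lit 5) (nat_lit 404) (nat_lit 5) (nat_lit 405) (nat_lit 5) (nat_lit 298) (nat_lit 296) (nat_lit 186))))))))
noncomputable def xc106 : XT := (XT.nd (nat_lit 2028) (nat_lit 11020) (nat_lit 0) (XT.nd (nat_lit 1014) (nat_lit 7448) (nat_lit 0) (XT.nd (nat_lit 468) (nat_lit 1292) (nat_lit 0) (XT.nd (nat_lit 234) (nat_lit 0) (nat_lit 152) (XT.nd (nat_lit 78) (nat_lit 0) (nat_lit 76) (XT.lf (nat_lit 76) (nat_lit 2211968712) (nat_lit 0) (nat_lit 3743398824) (nat_lit 1672) (nat_lit 6735821694) (nat_lit 384) (nat_lit 5) (nat_lit 383) (nat_lit 5) (nat_lit 405) (nat_lit 5) (nat_lit 299) (nat_lit 296) (nat_lit 185))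 (XT.nd (nat_lit 78) (nat_lit 0) (nat_lit 0) (XT.lf (nat_lit 0) (nat_lit 6901212935) (nat_lit 1596) (nat_lit 1832103874) (nat_lit 1672) (nat_lit 4139059990) (nat_lit 384) (nat_lit 5) (nat_lit 405) (nat_lit 5) (nat_lit 406) (nat_lit 5) (nat_lit 300) (nat_lit 296) (nat_lit 184)) (XT.lf (nat_lit 76) (nat_lit 7129214393) (nat_lit 0) (nat_lit 794256673) (nat_lit 1672) (nat_lit 5134589876) (nat_lit 385) (nat_lit 5) (nat_lit 384) (nat_lit 5) (nat_lit 406) (nat_lit 5) (nat_lit 301) (nat_lit 296) (nat_lit 183)))) (XT.nd (nat_lit 78) (nat_lit 0) (nat_lit 76) (XT.lf (nat_lit 76) (nat_lit 3114217154) (nat_lit 0) (nat_lit 5920198438) (nat_lit 1672) (nat_lit 4213760702) (nat_lit 386) (nat_lit 5) (nat_lit 385) (nat_lit 5) (nat_lit 407) (nat_lit 5) (nat_lit 302) (nat_lit 296) (nat_lit 182)) (XT.nd (nat_lit 78) (nat_lit 0) (nat_lit 0) (XT.lf (nat_lit 0) (nat_lit 10216935905) (nat_lit 1596) (nat_lit 967825628) (nat_lit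 1672) (nat_lit 2258489070) (nat_lit 386) (nat_lit 5) (nat_lit 407) (nat_lit 5) (nat_lit 408) (nat_lit 5) (nat_lit 303) (nat_lit 296) (nat_lit 181)) (XT.lf (nat_lit 76) (nat_lit 8531731439) (nat_lit 0) (nat_lit 2976816600) (nat_lit 1672) (nat_lit 2134176630) (nat_lit 387) (nat_lit 5) (nat_lit 386) (nat_lit 5) (nat_lit 408) (nat_lit 5) (nat_lit 304) (nat_lit 296) (nat_lit 180))))) (XT.nd (nat_lit 234) (nat_lit 0) (nat_lit 76) (XT.nd (nat_lit 78) (nat_lit 1596) (nat_lit 0) (XT.lf (nat_lit 76) (nat_lit 4490638184) (nat_lit 0) (nat_lit 8398803079) (nat_lit 1672) (nat_lit 957750311) (nat_lit 388) (nat_lit 5) (nat_lit 387) (nat_lit 5) (nat_lit 409) (nat_lit 5) (nat_lit 305) (nat_lit 296) (nat_lit 179)) (XT.nd (nat_lit 78) (nat_lit 0) (nat_lit 0) (XT.lf (nat_lit 0) (nat_lit 287817532) (nat_lit 1672) (nat_lit 13695571165) (nat_lit 1748) (nat_lit 73645565) (nat_lit 366) (nat_lit 5) (nat_lit 388) (nat_lit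 5) (nat_lit 389) (nat_lit 5) (nat_lit 306) (nat_lit 296) (nat_lit 178)) (XT.lf (nat_lit 0) (nat_lit 1657921596) (nat_lit 1672) (nat_lit 3850209349) (nat_lit 1748) (nat_lit 8762928855) (nat_lit 366) (nat_lit 5) (nat_lit 388) (nat_lit 5) (nat_lit 389) (nat_lit 5) (nat_lit 307) (nat_lit 296) (nat_lit 177)))) (XT.nd (nat_lit 156) (nat_lit 0) (nat_lit 76) (XT.nd (nat_lit 78) (nat_lit 0) (nat_lit 0) (XT.lf (nat_lit 0) (nat_lit 3112341859) (nat_lit 1672) (nat_lit 8152370189) (nat_lit 1748) (nat_lit 3225947086) (nat_lit 367) (nat_lit 5) (nat_lit 389) (nat_lit 5) (nat_lit 390) (nat_lit 5) (nat_lit 308) (nat_lit 296) (nat_lit 176)) (XT.lf (nat_lit 76) (nat_lit 2145766184) (nat_lit 0) (nat_lit 2522861217) (nat_lit 1748) (nat_lit 10047071180) (nat_lit 368) (nat_lit 5) (nat_lit 367) (nat_lit 5) (nat_lit 390) (nat_lit 5) (nat_lit 309) (nat_lit 296) (nat_lit 175))) (XT.nd (nat_lit 78) (nat_lit 0) (nat_lit 76)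 (XT.lf (nat_lit 0) (nat_lit 6350978876) (nat_lit 1672) (nat_lit 2138762200) (nat_lit 1748) (nat_lit 6456176889) (nat_lit 368) (nat_lit 5) (nat_lit 390) (nat_lit 5) (nat_lit 391) (nat_lit 5) (nat_lit 310) (nat_lit 296) (nat_lit 174)) (XT.lf (nat_lit 0) (nat_lit 8142870564) (nat_lit 1672) (nat_lit 6497043264) (nat_lit 1748) (nat_lit 541964533) (nat_lit 369) (nat_lit 5) (nat_lit 391) (nat_lit 5) (nat_lit 392) (nat_lit 5) (nat_lit 311) (nat_lit 296) (nat_lit 173)))))) (XT.nd (nat_lit 468) (nat_lit 4028) (nat_lit 0) (XT.nd (nat_lit 234) (nat_lit 2052) (nat_lit 0) (XT.nd (nat_lit 78) (nat_lit 1596) (nat_lit 0) (XT.lf (nat_lit 76) (nat_lit 4424840158) (nat_lit 0) (nat_lit 5646444971) (nat_lit 1748) (nat_lit 5351992479) (nat_lit 370) (nat_lit 5) (nat_lit 369) (nat_lit 5) (nat_lit 392) (nat_lit 5) (nat_lit 312) (nat_lit 296) (nat_lit 172)) (XT.nd (nat_lit 78) (nat_lit 0) (nat_lit 0) (XT.lf (nat_lit 0) (nat_lit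 54966809) (nat_lit 1672) (nat_lit 12053850395) (nat_lit 1748) (nat_lit 3562091243) (nat_lit 348) (nat_lit 5) (nat_lit 370) (nat_lit 5) (nat_lit 371) (nat_lit 5) (nat_lit 313) (nat_lit 296) (nat_lit 171)) (XT.lf (nat_lit 0) (nat_lit 11538236699) (nat_lit 1672) (nat_lit 2764788013) (nat_lit 1748) (nat_lit 1621046992) (nat_lit 348) (nat_lit 5) (nat_lit 370) (nat_lit 5) (nat_lit 371) (nat_lit 5) (nat_lit 314) (nat_lit 296) (nat_lit 170)))) (XT.nd (nat_lit 78) (nat_lit 836) (nat_lit 0) (XT.lf (nat_lit 0) (nat_lit 448787072) (nat_lit 1216) (nat_lit 8968592846) (nat_lit 76) (nat_lit 6765904228) (nat_lit 332) (nat_lit 5) (nat_lit 348) (nat_lit 5) (nat_lit 333) (nat_lit 5) (nat_lit 315) (nat_lit 296) (nat_lit 169)) (XT.nd (nat_lit 78) (nat_lit 0) (nat_lit 0) (XT.lf (nat_lit 0) (nat_lit 2610468529) (nat_lit 912) (nat_lit 13683692322) (nat_lit 76) (nat_lit 154875670) (nat_lit 321) (nat_lit 5) (nat_lit 333)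 (nat_lit 5) (nat_lit 322) (nat_lit 5) (nat_lit 316) (nat_lit 296) (nat_lit 168)) (XT.lf (nat_lit 0) (nat_lit 4945799272) (nat_lit 912) (nat_lit 1824928330) (nat_lit 76) (nat_lit 9949870882) (nat_lit 321) (nat_lit 5) (nat_lit 333) (nat_lit 5) (nat_lit 322) (nat_lit 5) (nat_lit 317) (nat_lit 296) (nat_lit 167))))) (XT.nd (nat_lit 234) (nat_lit 1596) (nat_lit 0) (XT.nd (nat_lit 78) (nat_lit 1596) (nat_lit 0) (XT.lf (nat_lit 0) (nat_lit 7424731710) (nat_lit 912) (nat_lit 6505605899) (nat_lit 76) (nat_lit 3068511474) (nat_lit 310) (nat_lit 5) (nat_lit 322) (nat_lit 5) (nat_lit 311) (nat_lit 5) (nat_lit 318) (nat_lit 296) (nat_lit 166)) (XT.nd (nat_lit 78) (nat_lit 836) (nat_lit 0) (XT.lf (nat_lit 0) (nat_lit 5939533001) (nat_lit 760) (nat_lit 4120235300) (nat_lit 836) (nat_lit 7224056422) (nat_lit 300) (nat_lit 5) (nat_lit 310) (nat_lit 5) (nat_lit 311) (nat_lit 5) (nat_lit 319) (nat_lit 296) (nat_lit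 165)) (XT.lf (nat_lit 0) (nat_lit 1233822570) (nat_lit 836) (nat_lit 11617059800) (nat_lit 912) (nat_lit 4724938627) (nat_lit 289) (nat_lit 5) (nat_lit 300) (nat_lit 5) (nat_lit 301) (nat_lit 5) (nat_lit 320) (nat_lit 296) (nat_lit 164)))) (XT.nd (nat_lit 156) (nat_lit 760) (nat_lit 0) (XT.nd (nat_lit 78) (nat_lit 836) (nat_lit 0) (XT.lf (nat_lit 0) (nat_lit 14303045016) (nat_lit 836) (nat_lit 1513042010) (nat_lit 912) (nat_lit 2058694531) (nat_lit 289) (nat_lit 5) (nat_lit 300) (nat_lit 5) (nat_lit 301) (nat_lit 5) (nat_lit 321) (nat_lit 296) (nat_lit 163)) (XT.lf (nat_lit 0) (nat_lit 786049401) (nat_lit 836) (nat_lit 8548966157) (nat_lit 76) (nat_lit 8845466492) (nat_lit 278) (nat_lit 5) (nat_lit 289) (nat_lit 5) (nat_lit 279) (nat_lit 5) (nat_lit 322) (nat_lit 296) (nat_lit 162))) (XT.nd (nat_lit 78) (nat_lit 0) (nat_lit 0) (XT.lf (nat_lit 0) (nat_lit 3747712451) (nat_lit 836) (nat_lit 13690506863)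 (nat_lit 76) (nat_lit 1055681824) (nat_lit 268) (nat_lit 5) (nat_lit 279) (nat_lit 5) (nat_lit 269) (nat_lit 5) (nat_lit 323) (nat_lit 296) (nat_lit 161)) (XT.lf (nat_lit 0) (nat_lit 6905992862) (nat_lit 836) (nat_lit 218532612) (nat_lit 76) (nat_lit 11690052333) (nat_lit 268) (nat_lit 5) (nat_lit 279) (nat_lit 5) (nat_lit 269) (nat_lit 5) (nat_lit 324) (nat_lit 296) (nat_lit 160))))))) (XT.nd (nat_lit 1014) (nat_lit 4712) (nat_lit 0) (XT.nd (nat_lit 468) (nat_lit 2888) (nat_lit 0) (XT.nd (nat_lit 234) (nat_lit 1368) (nat_lit 0) (XT.nd (nat_lit 78) (nat_lit 1368) (nat_lit 0) (XT.lf (nat_lit 0) (nat_lit 10259498150) (nat_lit 760) (nat_lit 5340827928) (nat_lit 76) (nat_lit 3542549223) (nat_lit 259) (nat_lit 5) (nat_lit 269) (nat_lit 5) (nat_lit 260) (nat_lit 5) (nat_lit 325) (nat_lit 296) (nat_lit 159)) (XT.nd (nat_lit 78) (nat_lit 684) (nat_lit 0) (XT.lf (nat_lit 0) (nat_lit 8820117942) (nat_lit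 684) (nat_lit 4987575407) (nat_lit 760) (nat_lit 5671456438) (nat_lit 250) (nat_lit 5) (nat_lit 259) (nat_lit 5) (nat_lit 260) (nat_lit 5) (nat_lit 326) (nat_lit 296) (nat_lit 158)) (XT.lf (nat_lit 0) (nat_lit 3650071768) (nat_lit 684) (nat_lit 13898933798) (nat_lit 760) (nat_lit 2274782997) (nat_lit 241) (nat_lit 5) (nat_lit 250) (nat_lit 5) (nat_lit 251) (nat_lit 5) (nat_lit 327) (nat_lit 296) (nat_lit 157)))) (XT.nd (nat_lit 78) (nat_lit 1292) (nat_lit 0) (XT.lf (nat_lit 0) (nat_lit 1301933604) (nat_lit 760) (nat_lit 1697881946) (nat_lit 76) (nat_lit 17176917197) (nat_lit 240) (nat_lit 5) (nat_lit 250) (nat_lit 5) (nat_lit 241) (nat_lit 5) (nat_lit 328) (nat_lit 296) (nat_lit 156)) (XT.nd (nat_lit 78) (nat_lit 608) (nat_lit 0) (XT.lf (nat_lit 0) (nat_lit 5084516159) (nat_lit 760) (nat_lit 7233066063) (nat_lit 76) (nat_lit 8219801671) (nat_lit 231) (nat_lit 5) (nat_lit 241) (nat_lit 5) (nat_lit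 232) (nat_lit 5) (nat_lit 329) (nat_lit 296) (nat_lit 155)) (XT.lf (nat_lit 0) (nat_lit 7942460397) (nat_lit 608) (nat_lit 1110049516) (nat_lit 684) (nat_lit 11854914488) (nat_lit 223) (nat_lit 5) (nat_lit 231) (nat_lit 5) (nat_lit 232) (nat_lit 5) (nat_lit 330) (nat_lit 296) (nat_lit 154))))) (XT.nd (nat_lit 234) (nat_lit 1672) (nat_lit 0) (XT.nd (nat_lit 78) (nat_lit 608) (nat_lit 0) (XT.lf (nat_lit 0) (nat_lit 2334442772) (nat_lit 608) (nat_lit 10926298420) (nat_lit 684) (nat_lit 8025409235) (nat_lit 215) (nat_lit 5) (nat_lit 223) (nat_lit 5) (nat_lit 224) (nat_lit 5) (nat_lit 331) (nat_lit 296) (nat_lit 153)) (XT.nd (nat_lit 78) (nat_lit 608) (nat_lit 0) (XT.lf (nat_lit 0) (nat_lit 17683353244) (nat_lit 684) (nat_lit 3428059399) (nat_lit 76) (nat_lit 563070928) (nat_lit 215) (nat_lit 5) (nat_lit 224) (nat_lit 5) (nat_lit 216) (nat_lit 5) (nat_lit 332) (nat_lit 296) (nat_lit 152)) (XT.lf (nat_lit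 0) (nat_lit 307624293) (nat_lit 608) (nat_lit 9431992597) (nat_lit 76) (nat_lit 12331924121) (nat_lit 207) (nat_lit 5) (nat_lit 215) (nat_lit 5) (nat_lit 208) (nat_lit 5) (nat_lit 333) (nat_lit 296) (nat_lit 151)))) (XT.nd (nat_lit 156) (nat_lit 532) (nat_lit 0) (XT.nd (nat_lit 78) (nat_lit 532) (nat_lit 0) (XT.lf (nat_lit 0) (nat_lit 4752078062) (nat_lit 684) (nat_lit 15686137739) (nat_lit 76) (nat_lit 2040354946) (nat_lit 199) (nat_lit 5) (nat_lit 208) (nat_lit 5) (nat_lit 200) (nat_lit 5) (nat_lit 334) (nat_lit 296) (nat_lit 150)) (XT.lf (nat_lit 0) (nat_lit 667003294) (nat_lit 532) (nat_lit 8786527055) (nat_lit 608) (nat_lit 13441814920) (nat_lit 192) (nat_lit 5) (nat_lit 199) (nat_lit 5) (nat_lit 200) (nat_lit 5) (nat_lit 335) (nat_lit 296) (nat_lit 149))) (XT.nd (nat_lit 78) (nat_lit 532) (nat_lit 0) (XT.lf (nat_lit 0) (nat_lit 14413961950) (nat_lit 608) (nat_lit 5630963766) (nat_lit 76)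 (nat_lit 3277345577) (nat_lit 192) (nat_lit 5) (nat_lit 200) (nat_lit 5) (nat_lit 193) (nat_lit 5) (nat_lit 336) (nat_lit 296) (nat_lit 148)) (XT.lf (nat_lit 0) (nat_lit 11545007222) (nat_lit 532) (nat_lit 8102271416) (nat_lit 608) (nat_lit 4112251796) (nat_lit 185) (nat_lit 5) (nat_lit 192) (nat_lit 5) (nat_lit 193) (nat_lit 5) (nat_lit 337) (nat_lit 296) (nat_lit 147)))))) (XT.nd (nat_lit 546) (nat_lit 2128) (nat_lit 0) (XT.nd (nat_lit 234) (nat_lit 1444) (nat_lit 0) (XT.nd (nat_lit 78) (nat_lit 532) (nat_lit 0) (XT.lf (nat_lit 0) (nat_lit 906953516) (nat_lit 608) (nat_lit 19082075009) (nat_lit 76) (nat_lit 4218975372) (nat_lit 177) (nat_lit 5) (nat_lit 185) (nat_lit 5) (nat_lit 178) (nat_lit 5) (nat_lit 338) (nat_lit 296) (nat_lit 146)) (XT.nd (nat_lit 78) (nat_lit 532) (nat_lit 0) (XT.lf (nat_lit 0) (nat_lit 6149360542) (nat_lit 608) (nat_lit 1608625092) (nat_lit 76) (nat_lit 16908838655) (nat_lit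 177) (nat_lit 5) (nat_lit 185) (nat_lit 5) (nat_lit 178) (nat_lit 5) (nat_lit 339) (nat_lit 296) (nat_lit 145)) (XT.lf (nat_lit 0) (nat_lit 11679854955) (nat_lit 608) (nat_lit 8574445890) (nat_lit 76) (nat_lit 4882498229) (nat_lit 170) (nat_lit 5) (nat_lit 178) (nat_lit 5) (nat_lit 171) (nat_lit 5) (nat_lit 340) (nat_lit 296) (nat_lit 144)))) (XT.nd (nat_lit 156) (nat_lit 532) (nat_lit 0) (XT.nd (nat_lit 78) (nat_lit 456) (nat_lit 0) (XT.lf (nat_lit 0) (nat_lit 9744129258) (nat_lit 456) (nat_lit 7749374651) (nat_lit 532) (nat_lit 8125030301) (nat_lit 164) (nat_lit 5) (nat_lit 170) (nat_lit 5) (nat_lit 171) (nat_lit 5) (nat_lit 341) (nat_lit 296) (nat_lit 143)) (XT.lf (nat_lit 0) (nat_lit 2605025897) (nat_lit 456) (nat_lit 20976538048) (nat_lit 532) (nat_lit 2531163158) (nat_lit 158) (nat_lit 5) (nat_lit 164) (nat_lit 5) (nat_lit 165) (nat_lit 5) (nat_lit 342) (nat_lit 296) (nat_lit 142))) (XT.nd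 (nat_lit 78) (nat_lit 456) (nat_lit 0) (XT.lf (nat_lit 0) (nat_lit 3339663433) (nat_lit 532) (nat_lit 4848420267) (nat_lit 76) (nat_lit 18430217799) (nat_lit 157) (nat_lit 5) (nat_lit 164) (nat_lit 5) (nat_lit 158) (nat_lit 5) (nat_lit 343) (nat_lit 296) (nat_lit 141)) (XT.lf (nat_lit 0) (nat_lit 9471516787) (nat_lit 532) (nat_lit 12636863451) (nat_lit 76) (nat_lit 5027947756) (nat_lit 151) (nat_lit 5) (nat_lit 158) (nat_lit 5) (nat_lit 152) (nat_lit 5) (nat_lit 344) (nat_lit 296) (nat_lit 140))))) (XT.nd (nat_lit 234) (nat_lit 1216) (nat_lit 0) (XT.nd (nat_lit 78) (nat_lit 456) (nat_lit 0) (XT.lf (nat_lit 0) (nat_lit 6848677043) (nat_lit 456) (nat_lit 9062755016) (nat_lit 532) (nat_lit 11755986242) (nat_lit 145) (nat_lit 5) (nat_lit 151) (nat_lit 5) (nat_lit 152) (nat_lit 5) (nat_lit 345) (nat_lit 296) (nat_lit 139)) (XT.nd (nat_lit 78) (nat_lit 456) (nat_lit 0) (XT.lf (nat_lit 0) (nat_lit 22651103552)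 (nat_lit 532) (nat_lit 1160987318) (nat_lit 76) (nat_lit 4400224266) (nat_lit 145) (nat_lit 5) (nat_lit 152) (nat_lit 5) (nat_lit 146) (nat_lit 5) (nat_lit 346) (nat_lit 296) (nat_lit 138)) (XT.lf (nat_lit 0) (nat_lit 987733448) (nat_lit 456) (nat_lit 9508638211) (nat_lit 76) (nat_lit 18273504090) (nat_lit 139) (nat_lit 5) (nat_lit 145) (nat_lit 5) (nat_lit 140) (nat_lit 5) (nat_lit 347) (nat_lit 296) (nat_lit 137)))) (XT.nd (nat_lit 156) (nat_lit 380) (nat_lit 0) (XT.nd (nat_lit 78) (nat_lit 380) (nat_lit 0) (XT.lf (nat_lit 0) (nat_lit 7751736178) (nat_lit 532) (nat_lit 18298402865) (nat_lit 76) (nat_lit 3291410672) (nat_lit 133) (nat_lit 5) (nat_lit 140) (nat_lit 5) (nat_lit 134) (nat_lit 5) (nat_lit 348) (nat_lit 296) (nat_lit 136)) (XT.lf (nat_lit 0) (nat_lit 2362292654) (nat_lit 380) (nat_lit 12499192741) (nat_lit 456) (nat_lit 15066036459) (nat_lit 128) (nat_lit 5) (nat_lit 133) (nat_lit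 5) (nat_lit 134) (nat_lit 5) (nat_lit 349) (nat_lit 296) (nat_lit 135))) (XT.nd (nat_lit 78) (nat_lit 380) (nat_lit 0) (XT.lf (nat_lit 0) (nat_lit 22311379591) (nat_lit 456) (nat_lit 6656187185) (nat_lit 76) (nat_lit 1560973680) (nat_lit 128) (nat_lit 5) (nat_lit 134) (nat_lit 5) (nat_lit 129) (nat_lit 5) (nat_lit 350) (nat_lit 296) (nat_lit 134)) (XT.lf (nat_lit 0) (nat_lit 14982763275) (nat_lit 380) (nat_lit 15175656947) (nat_lit 456) (nat_lit 985700624) (nat_lit 123) (nat_lit 5) (nat_lit 128) (nat_lit 5) (nat_lit 129) (nat_lit 5) (nat_lit 351) (nat_lit 296) (nat_lit 133))))))))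
noncomputable def xc107 : XT := (XT.nd (nat_lit 38220) (nat_lit 0) (nat_lit 2508) (XT.nd (nat_lit 37128) (nat_lit 0) (nat_lit 14288) (XT.nd (nat_lit 36582) (nat_lit 0) (nat_lit 19228) (XT.nd (nat_lit 36348) (nat_lit 0) (nat_lit 20520) (XT.nd (nat_lit 78) (nat_lit 380) (nat_lit 0) (XT.lf (nat_lit 0) (nat_lit 5605779825) (nat_lit 380) (nat_lit 846841240) (nat_lit 456) (nat_lit 25323218857) (nat_lit 117) (nat_lit 5) (nat_lit 122) (nat_lit 5) (nat_lit 123) (nat_lit 5) (nat_lit 352) (nat_lit 296) (nat_lit 132)) (XT.nd (nat_lit 78) (nat_lit 380) (nat_lit 0) (XT.lf (nat_lit 0) (nat_lit 14294341490) (nat_lit 456) (nat_lit 4284978433) (nat_lit 76) (nat_lit 13843191422) (nat_lit 117) (nat_lit 5) (nat_lit 123) (nat_lit 5) (nat_lit 118) (nat_lit 5) (nat_lit 353) (nat_lit 296) (nat_lit 131)) (XT.lf (nat_lit 0) (nat_lit 18483536757) (nat_lit 380) (nat_lit 4006651182) (nat_lit 456) (nat_lit 10596021272) (nat_lit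 112) (nat_lit 5) (nat_lit 117) (nat_lit 5) (nat_lit 118) (nat_lit 5) (nat_lit 354) (nat_lit 296) (nat_lit 130)))) (XT.nd (nat_lit 78) (nat_lit 0) (nat_lit 0) (XT.lf (nat_lit 0) (nat_lit 1234072336) (nat_lit 0) (nat_lit 1234072336) (nat_lit 1596) (nat_lit 3787761577) (nat_lit 382) (nat_lit 5) (nat_lit 382) (nat_lit 3) (nat_lit 403) (nat_lit 3) (nat_lit 297) (nat_lit 297) (nat_lit 186)) (XT.nd (nat_lit 78) (nat_lit 0) (nat_lit 76) (XT.lf (nat_lit 0) (nat_lit 5661395089) (nat_lit 1596) (nat_lit 1658940095) (nat_lit 1672) (nat_lit 5365560799) (nat_lit 382) (nat_lit 5) (nat_lit 403) (nat_lit 3) (nat_lit 404) (nat_lit 5) (nat_lit 298) (nat_lit 297) (nat_lit 185)) (XT.lf (nat_lit 0) (nat_lit 6450375109) (nat_lit 1596) (nat_lit 5827750518) (nat_lit 1672) (nat_lit 586256263) (nat_lit 383) (nat_lit 5) (nat_lit 404) (nat_lit 5) (nat_lit 405) (nat_lit 5) (nat_lit 299) (nat_lit 297) (nat_lit 184))))) (XT.nd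 (nat_lit 234) (nat_lit 1368) (nat_lit 0) (XT.nd (nat_lit 78) (nat_lit 0) (nat_lit 76) (XT.lf (nat_lit 76) (nat_lit 2944416233) (nat_lit 0) (nat_lit 4374730501) (nat_lit 1672) (nat_lit 5727974887) (nat_lit 384) (nat_lit 5) (nat_lit 383) (nat_lit 5) (nat_lit 405) (nat_lit 5) (nat_lit 300) (nat_lit 297) (nat_lit 183)) (XT.nd (nat_lit 78) (nat_lit 0) (nat_lit 0) (XT.lf (nat_lit 0) (nat_lit 8255577757) (nat_lit 1596) (nat_lit 1213026574) (nat_lit 1672) (nat_lit 3765928348) (nat_lit 384) (nat_lit 5) (nat_lit 405) (nat_lit 5) (nat_lit 406) (nat_lit 5) (nat_lit 301) (nat_lit 297) (nat_lit 182)) (XT.lf (nat_lit 76) (nat_lit 8006195736) (nat_lit 0) (nat_lit 1273195879) (nat_lit 1672) (nat_lit 4147009102) (nat_lit 385) (nat_lit 5) (nat_lit 384) (nat_lit 5) (nat_lit 406) (nat_lit 5) (nat_lit 302) (nat_lit 297) (nat_lit 181)))) (XT.nd (nat_lit 156) (nat_lit 1520) (nat_lit 0) (XT.nd (nat_lit 78) (nat_lit 0)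 (nat_lit 76) (XT.lf (nat_lit 76) (nat_lit 3885919819) (nat_lit 0) (nat_lit 6506710245) (nat_lit 1672) (nat_lit 3230240378) (nat_lit 386) (nat_lit 5) (nat_lit 385) (nat_lit 5) (nat_lit 407) (nat_lit 5) (nat_lit 303) (nat_lit 297) (nat_lit 180)) (XT.lf (nat_lit 0) (nat_lit 11576382930) (nat_lit 1596) (nat_lit 313673817) (nat_lit 1672) (nat_lit 1934454440) (nat_lit 386) (nat_lit 5) (nat_lit 407) (nat_lit 5) (nat_lit 408) (nat_lit 5) (nat_lit 304) (nat_lit 297) (nat_lit 179))) (XT.nd (nat_lit 78) (nat_lit 1596) (nat_lit 0) (XT.lf (nat_lit 76) (nat_lit 9459786072) (nat_lit 0) (nat_lit 3420652969) (nat_lit 1672) (nat_lit 1150085012) (nat_lit 387) (nat_lit 5) (nat_lit 386) (nat_lit 5) (nat_lit 408) (nat_lit 5) (nat_lit 305) (nat_lit 297) (nat_lit 178)) (XT.lf (nat_lit 0) (nat_lit 32923133) (nat_lit 1672) (nat_lit 8931968772) (nat_lit 1748) (nat_lit 5276810228) (nat_lit 365) (nat_lit 5) (nat_lit 387) (nat_lit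 5) (nat_lit 388) (nat_lit 5) (nat_lit 306) (nat_lit 297) (nat_lit 177)))))) (XT.nd (nat_lit 546) (nat_lit 4940) (nat_lit 0) (XT.nd (nat_lit 234) (nat_lit 0) (nat_lit 152) (XT.nd (nat_lit 78) (nat_lit 0) (nat_lit 76) (XT.lf (nat_lit 76) (nat_lit 1060353899) (nat_lit 0) (nat_lit 217216516) (nat_lit 1748) (nat_lit 13180674910) (nat_lit 366) (nat_lit 5) (nat_lit 365) (nat_lit 5) (nat_lit 388) (nat_lit 5) (nat_lit 307) (nat_lit 297) (nat_lit 176)) (XT.nd (nat_lit 78) (nat_lit 0) (nat_lit 76) (XT.lf (nat_lit 0) (nat_lit 2658832102) (nat_lit 1672) (nat_lit 3276436808) (nat_lit 1748) (nat_lit 8744047191) (nat_lit 366) (nat_lit 5) (nat_lit 388) (nat_lit 5) (nat_lit 389) (nat_lit 5) (nat_lit 308) (nat_lit 297) (nat_lit 175)) (XT.lf (nat_lit 0) (nat_lit 4131961851) (nat_lit 1672) (nat_lit 7697838846) (nat_lit 1748) (nat_lit 3076225995) (nat_lit 367) (nat_lit 5) (nat_lit 389) (nat_lit 5) (nat_lit 390) (nat_lit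 5) (nat_lit 309) (nat_lit 297) (nat_lit 174)))) (XT.nd (nat_lit 156) (nat_lit 0) (nat_lit 152) (XT.nd (nat_lit 78) (nat_lit 0) (nat_lit 76) (XT.lf (nat_lit 76) (nat_lit 2897899512) (nat_lit 0) (nat_lit 2814523698) (nat_lit 1748) (nat_lit 9425868464) (nat_lit 368) (nat_lit 5) (nat_lit 367) (nat_lit 5) (nat_lit 390) (nat_lit 5) (nat_lit 310) (nat_lit 297) (nat_lit 173)) (XT.lf (nat_lit 0) (nat_lit 7417561370) (nat_lit 1672) (nat_lit 1515507132) (nat_lit 1748) (nat_lit 6442926205) (nat_lit 368) (nat_lit 5) (nat_lit 390) (nat_lit 5) (nat_lit 391) (nat_lit 5) (nat_lit 311) (nat_lit 297) (nat_lit 172))) (XT.nd (nat_lit 78) (nat_lit 0) (nat_lit 0) (XT.lf (nat_lit 0) (nat_lit 9240924467) (nat_lit 1672) (nat_lit 5996673593) (nat_lit 1748) (nat_lit 381904271) (nat_lit 369) (nat_lit 5) (nat_lit 391) (nat_lit 5) (nat_lit 392) (nat_lit 5) (nat_lit 312) (nat_lit 297) (nat_lit 171)) (XT.lf (nat_lit 76) (nat_lit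 5241586224) (nat_lit 0) (nat_lit 5965179210) (nat_lit 1748) (nat_lit 4661808693) (nat_lit 370) (nat_lit 5) (nat_lit 369) (nat_lit 5) (nat_lit 392) (nat_lit 5) (nat_lit 313) (nat_lit 297) (nat_lit 170))))) (XT.nd (nat_lit 234) (nat_lit 2432) (nat_lit 0) (XT.nd (nat_lit 78) (nat_lit 1216) (nat_lit 0) (XT.lf (nat_lit 0) (nat_lit 747592947) (nat_lit 1672) (nat_lit 12537103337) (nat_lit 1748) (nat_lit 2839373558) (nat_lit 348) (nat_lit 5) (nat_lit 370) (nat_lit 5) (nat_lit 371) (nat_lit 5) (nat_lit 314) (nat_lit 297) (nat_lit 169)) (XT.nd (nat_lit 78) (nat_lit 1216) (nat_lit 0) (XT.lf (nat_lit 0) (nat_lit 12555235386) (nat_lit 1672) (nat_lit 2965826245) (nat_lit 1748) (nat_lit 864260516) (nat_lit 348) (nat_lit 5) (nat_lit 370) (nat_lit 5) (nat_lit 371) (nat_lit 5) (nat_lit 315) (nat_lit 297) (nat_lit 168)) (XT.lf (nat_lit 0) (nat_lit 1237629079) (nat_lit 1216) (nat_lit 8549760244) (nat_lit 76) (nat_lit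 6865226362) (nat_lit 332) (nat_lit 5) (nat_lit 348) (nat_lit 5) (nat_lit 333) (nat_lit 5) (nat_lit 316) (nat_lit 297) (nat_lit 167)))) (XT.nd (nat_lit 156) (nat_lit 1596) (nat_lit 0) (XT.nd (nat_lit 78) (nat_lit 0) (nat_lit 0) (XT.lf (nat_lit 0) (nat_lit 3445448537) (nat_lit 912) (nat_lit 13401166543) (nat_lit 76) (nat_lit 80119007) (nat_lit 321) (nat_lit 5) (nat_lit 333) (nat_lit 5) (nat_lit 322) (nat_lit 5) (nat_lit 317) (nat_lit 297) (nat_lit 166)) (XT.lf (nat_lit 0) (nat_lit 5828800388) (nat_lit 912) (nat_lit 1206825162) (nat_lit 76) (nat_lit 10171276782) (nat_lit 321) (nat_lit 5) (nat_lit 333) (nat_lit 5) (nat_lit 322) (nat_lit 5) (nat_lit 318) (nat_lit 297) (nat_lit 165))) (XT.nd (nat_lit 78) (nat_lit 760) (nat_lit 0) (XT.lf (nat_lit 0) (nat_lit 8364640665) (nat_lit 912) (nat_lit 6023524299) (nat_lit 76) (nat_lit 3105702791) (nat_lit 310) (nat_lit 5) (nat_lit 322) (nat_lit 5) (nat_lit 311)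 (nat_lit 5) (nat_lit 319) (nat_lit 297) (nat_lit 164)) (XT.lf (nat_lit 0) (nat_lit 6783981195) (nat_lit 760) (nat_lit 4278184616) (nat_lit 836) (nat_lit 6725575682) (nat_lit 300) (nat_lit 5) (nat_lit 310) (nat_lit 5) (nat_lit 311) (nat_lit 5) (nat_lit 320) (nat_lit 297) (nat_lit 163))))))) (XT.nd (nat_lit 1014) (nat_lit 5320) (nat_lit 0) (XT.nd (nat_lit 468) (nat_lit 3344) (nat_lit 0) (XT.nd (nat_lit 234) (nat_lit 1444) (nat_lit 0) (XT.nd (nat_lit 78) (nat_lit 836) (nat_lit 0) (XT.lf (nat_lit 0) (nat_lit 1940870631) (nat_lit 836) (nat_lit 11979870537) (nat_lit 912) (nat_lit 4168098992) (nat_lit 289) (nat_lit 5) (nat_lit 300) (nat_lit 5) (nat_lit 301) (nat_lit 5) (nat_lit 321) (nat_lit 297) (nat_lit 162)) (XT.nd (nat_lit 78) (nat_lit 836) (nat_lit 0) (XT.lf (nat_lit 0) (nat_lit 15382654216) (nat_lit 836) (nat_lit 1572315740) (nat_lit 912) (nat_lit 1442214791) (nat_lit 289) (nat_lit 5) (nat_lit 300)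 (nat_lit 5) (nat_lit 301) (nat_lit 5) (nat_lit 322) (nat_lit 297) (nat_lit 161)) (XT.lf (nat_lit 0) (nat_lit 1463664783) (nat_lit 836) (nat_lit 8142549364) (nat_lit 76) (nat_lit 9106076032) (nat_lit 278) (nat_lit 5) (nat_lit 289) (nat_lit 5) (nat_lit 279) (nat_lit 5) (nat_lit 323) (nat_lit 297) (nat_lit 160)))) (XT.nd (nat_lit 78) (nat_lit 684) (nat_lit 0) (XT.lf (nat_lit 0) (nat_lit 4499446101) (nat_lit 836) (nat_lit 13435879951) (nat_lit 76) (nat_lit 1100095731) (nat_lit 268) (nat_lit 5) (nat_lit 279) (nat_lit 5) (nat_lit 269) (nat_lit 5) (nat_lit 324) (nat_lit 297) (nat_lit 159)) (XT.nd (nat_lit 78) (nat_lit 0) (nat_lit 0) (XT.lf (nat_lit 0) (nat_lit 426467832) (nat_lit 684) (nat_lit 7310155549) (nat_lit 760) (nat_lit 11629427266) (nat_lit 259) (nat_lit 5) (nat_lit 268) (nat_lit 5) (nat_lit 269) (nat_lit 5) (nat_lit 325) (nat_lit 297) (nat_lit 158)) (XT.lf (nat_lit 0) (nat_lit 11174199471) (nat_lit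 760) (nat_lit 4853140577) (nat_lit 76) (nat_lit 3677202137) (nat_lit 259) (nat_lit 5) (nat_lit 269) (nat_lit 5) (nat_lit 260) (nat_lit 5) (nat_lit 326) (nat_lit 297) (nat_lit 157))))) (XT.nd (nat_lit 234) (nat_lit 1900) (nat_lit 0) (XT.nd (nat_lit 78) (nat_lit 760) (nat_lit 0) (XT.lf (nat_lit 0) (nat_lit 9722122064) (nat_lit 684) (nat_lit 5093179714) (nat_lit 760) (nat_lit 5235887914) (nat_lit 250) (nat_lit 5) (nat_lit 259) (nat_lit 5) (nat_lit 260) (nat_lit 5) (nat_lit 327) (nat_lit 297) (nat_lit 156)) (XT.nd (nat_lit 78) (nat_lit 76) (nat_lit 0) (XT.lf (nat_lit 0) (nat_lit 4398486723) (nat_lit 684) (nat_lit 14257509541) (nat_lit 760) (nat_lit 1750442112) (nat_lit 241) (nat_lit 5) (nat_lit 250) (nat_lit 5) (nat_lit 251) (nat_lit 5) (nat_lit 328) (nat_lit 297) (nat_lit 155)) (XT.lf (nat_lit 0) (nat_lit 1908770762) (nat_lit 760) (nat_lit 1120537632) (nat_lit 76) (nat_lit 17740939158) (nat_lit 240)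 (nat_lit 5) (nat_lit 250) (nat_lit 5) (nat_lit 241) (nat_lit 5) (nat_lit 329) (nat_lit 297) (nat_lit 154)))) (XT.nd (nat_lit 156) (nat_lit 608) (nat_lit 0) (XT.nd (nat_lit 78) (nat_lit 608) (nat_lit 0) (XT.lf (nat_lit 0) (nat_lit 5792714523) (nat_lit 760) (nat_lit 6820854211) (nat_lit 76) (nat_lit 8528404393) (nat_lit 231) (nat_lit 5) (nat_lit 241) (nat_lit 5) (nat_lit 232) (nat_lit 5) (nat_lit 330) (nat_lit 297) (nat_lit 153)) (XT.lf (nat_lit 0) (nat_lit 8799729958) (nat_lit 608) (nat_lit 1067852708) (nat_lit 684) (nat_lit 11655787698) (nat_lit 223) (nat_lit 5) (nat_lit 231) (nat_lit 5) (nat_lit 232) (nat_lit 5) (nat_lit 331) (nat_lit 297) (nat_lit 152))) (XT.nd (nat_lit 78) (nat_lit 0) (nat_lit 0) (XT.lf (nat_lit 0) (nat_lit 3024040917) (nat_lit 608) (nat_lit 11166688476) (nat_lit 684) (nat_lit 7722967256) (nat_lit 215) (nat_lit 5) (nat_lit 223) (nat_lit 5) (nat_lit 224) (nat_lit 5) (nat_lit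 332) (nat_lit 297) (nat_lit 151)) (XT.lf (nat_lit 0) (nat_lit 18731070752) (nat_lit 684) (nat_lit 2919216035) (nat_lit 76) (nat_lit 663703487) (nat_lit 215) (nat_lit 5) (nat_lit 224) (nat_lit 5) (nat_lit 216) (nat_lit 5) (nat_lit 333) (nat_lit 297) (nat_lit 150)))))) (XT.nd (nat_lit 546) (nat_lit 2432) (nat_lit 0) (XT.nd (nat_lit 234) (nat_lit 1140) (nat_lit 0) (XT.nd (nat_lit 78) (nat_lit 1140) (nat_lit 0) (XT.lf (nat_lit 0) (nat_lit 826631196) (nat_lit 608) (nat_lit 9106051413) (nat_lit 76) (nat_lit 12790444071) (nat_lit 207) (nat_lit 5) (nat_lit 215) (nat_lit 5) (nat_lit 208) (nat_lit 5) (nat_lit 334) (nat_lit 297) (nat_lit 149)) (XT.nd (nat_lit 78) (nat_lit 532) (nat_lit 0) (XT.lf (nat_lit 0) (nat_lit 5394110503) (nat_lit 684) (nat_lit 15548019429) (nat_lit 76) (nat_lit 2200454169) (nat_lit 199) (nat_lit 5) (nat_lit 208) (nat_lit 5) (nat_lit 200) (nat_lit 5) (nat_lit 335) (nat_lit 297) (nat_lit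 148)) (XT.lf (nat_lit 0) (nat_lit 1285840361) (nat_lit 532) (nat_lit 8940106307) (nat_lit 608) (nat_lit 13346138706) (nat_lit 192) (nat_lit 5) (nat_lit 199) (nat_lit 5) (nat_lit 200) (nat_lit 5) (nat_lit 336) (nat_lit 297) (nat_lit 147)))) (XT.nd (nat_lit 156) (nat_lit 608) (nat_lit 0) (XT.nd (nat_lit 78) (nat_lit 532) (nat_lit 0) (XT.lf (nat_lit 0) (nat_lit 15321647516) (nat_lit 608) (nat_lit 5209375280) (nat_lit 76) (nat_lit 3481077277) (nat_lit 192) (nat_lit 5) (nat_lit 200) (nat_lit 5) (nat_lit 193) (nat_lit 5) (nat_lit 337) (nat_lit 297) (nat_lit 146)) (XT.lf (nat_lit 0) (nat_lit 12472294394) (nat_lit 532) (nat_lit 8229598420) (nat_lit 608) (nat_lit 3760795322) (nat_lit 185) (nat_lit 5) (nat_lit 192) (nat_lit 5) (nat_lit 193) (nat_lit 5) (nat_lit 338) (nat_lit 297) (nat_lit 145))) (XT.nd (nat_lit 78) (nat_lit 0) (nat_lit 0) (XT.lf (nat_lit 0) (nat_lit 1393636996) (nat_lit 608) (nat_lit 19067877731)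 (nat_lit 76) (nat_lit 4463231113) (nat_lit 177) (nat_lit 5) (nat_lit 185) (nat_lit 5) (nat_lit 178) (nat_lit 5) (nat_lit 339) (nat_lit 297) (nat_lit 144)) (XT.lf (nat_lit 0) (nat_lit 6779933470) (nat_lit 608) (nat_lit 1087311488) (nat_lit 76) (nat_lit 17530362533) (nat_lit 177) (nat_lit 5) (nat_lit 185) (nat_lit 5) (nat_lit 178) (nat_lit 5) (nat_lit 340) (nat_lit 297) (nat_lit 143))))) (XT.nd (nat_lit 234) (nat_lit 988) (nat_lit 0) (XT.nd (nat_lit 78) (nat_lit 912) (nat_lit 0) (XT.lf (nat_lit 0) (nat_lit 12467790244) (nat_lit 608) (nat_lit 8263124301) (nat_lit 76) (nat_lit 5150946751) (nat_lit 170) (nat_lit 5) (nat_lit 178) (nat_lit 5) (nat_lit 171) (nat_lit 5) (nat_lit 341) (nat_lit 297) (nat_lit 142)) (XT.nd (nat_lit 78) (nat_lit 456) (nat_lit 0) (XT.lf (nat_lit 0) (nat_lit 10595783973) (nat_lit 456) (nat_lit 7850952368) (nat_lit 532) (nat_lit 7931502867) (nat_lit 164) (nat_lit 5) (nat_lit 170)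 (nat_lit 5) (nat_lit 171) (nat_lit 5) (nat_lit 342) (nat_lit 297) (nat_lit 141)) (XT.lf (nat_lit 0) (nat_lit 3241304340) (nat_lit 456) (nat_lit 21468104265) (nat_lit 532) (nat_lit 2178018101) (nat_lit 158) (nat_lit 5) (nat_lit 164) (nat_lit 5) (nat_lit 165) (nat_lit 5) (nat_lit 343) (nat_lit 297) (nat_lit 140)))) (XT.nd (nat_lit 156) (nat_lit 456) (nat_lit 0) (XT.nd (nat_lit 78) (nat_lit 456) (nat_lit 0) (XT.lf (nat_lit 0) (nat_lit 3850972259) (nat_lit 532) (nat_lit 4446276754) (nat_lit 76) (nat_lit 19111118106) (nat_lit 157) (nat_lit 5) (nat_lit 164) (nat_lit 5) (nat_lit 158) (nat_lit 5) (nat_lit 344) (nat_lit 297) (nat_lit 139)) (XT.lf (nat_lit 0) (nat_lit 10159188007) (nat_lit 532) (nat_lit 12469834497) (nat_lit 76) (nat_lit 5313071372) (nat_lit 151) (nat_lit 5) (nat_lit 158) (nat_lit 5) (nat_lit 152) (nat_lit 5) (nat_lit 345) (nat_lit 297) (nat_lit 138))) (XT.nd (nat_lit 78) (nat_lit 0) (nat_lit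 0) (XT.lf (nat_lit 0) (nat_lit 7591411822) (nat_lit 456) (nat_lit 9192624081) (nat_lit 532) (nat_lit 11705253668) (nat_lit 145) (nat_lit 5) (nat_lit 151) (nat_lit 5) (nat_lit 152) (nat_lit 5) (nat_lit 346) (nat_lit 297) (nat_lit 137)) (XT.lf (nat_lit 0) (nat_lit 23715280278) (nat_lit 532) (nat_lit 667172568) (nat_lit 76) (nat_lit 4668299976) (nat_lit 145) (nat_lit 5) (nat_lit 152) (nat_lit 5) (nat_lit 146) (nat_lit 5) (nat_lit 347) (nat_lit 297) (nat_lit 136))))))))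
noncomputable def xc108 : XT := (XT.nd (nat_lit 38298) (nat_lit 0) (nat_lit 3116) (XT.nd (nat_lit 37284) (nat_lit 0) (nat_lit 16340) (XT.nd (nat_lit 36738) (nat_lit 0) (nat_lit 20140) (XT.nd (nat_lit 234) (nat_lit 836) (nat_lit 0) (XT.nd (nat_lit 78) (nat_lit 836) (nat_lit 0) (XT.lf (nat_lit 0) (nat_lit 1396906855) (nat_lit 456) (nat_lit 9268558321) (nat_lit 76) (nat_lit 18959688629) (nat_lit 139) (nat_lit 5) (nat_lit 145) (nat_lit 5) (nat_lit 140) (nat_lit 5) (nat_lit 348) (nat_lit 297) (nat_lit 135)) (XT.nd (nat_lit 78) (nat_lit 380) (nat_lit 0) (XT.lf (nat_lit 0) (nat_lit 8357071842) (nat_lit 532) (nat_lit 18323822570) (nat_lit 76) (nat_lit 3533225358) (nat_lit 133) (nat_lit 5) (nat_lit 140) (nat_lit 5) (nat_lit 134) (nat_lit 5) (nat_lit 349) (nat_lit 297) (nat_lit 134)) (XT.lf (nat_lit 0) (nat_lit 2948200123) (nat_lit 380) (nat_lit 12724399610) (nat_lit 456) (nat_lit 15145228045) (nat_lit 128)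 (nat_lit 5) (nat_lit 133) (nat_lit 5) (nat_lit 134) (nat_lit 5) (nat_lit 350) (nat_lit 297) (nat_lit 133)))) (XT.nd (nat_lit 78) (nat_lit 836) (nat_lit 0) (XT.lf (nat_lit 0) (nat_lit 23336295907) (nat_lit 456) (nat_lit 6349478605) (nat_lit 76) (nat_lit 1751302567) (nat_lit 128) (nat_lit 5) (nat_lit 134) (nat_lit 5) (nat_lit 129) (nat_lit 5) (nat_lit 351) (nat_lit 297) (nat_lit 132)) (XT.nd (nat_lit 78) (nat_lit 456) (nat_lit 0) (XT.lf (nat_lit 0) (nat_lit 15930424725) (nat_lit 380) (nat_lit 15481200986) (nat_lit 456) (nat_lit 659647672) (nat_lit 123) (nat_lit 5) (nat_lit 128) (nat_lit 5) (nat_lit 129) (nat_lit 5) (nat_lit 352) (nat_lit 297) (nat_lit 131)) (XT.lf (nat_lit 0) (nat_lit 6268832676) (nat_lit 380) (nat_lit 721317872) (nat_lit 456) (nat_lit 25731893253) (nat_lit 117) (nat_lit 5) (nat_lit 122) (nat_lit 5) (nat_lit 123) (nat_lit 5) (nat_lit 353) (nat_lit 297) (nat_lit 130))))) (XT.nd (nat_lit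 234) (nat_lit 0) (nat_lit 76) (XT.nd (nat_lit 78) (nat_lit 0) (nat_lit 0) (XT.lf (nat_lit 0) (nat_lit 1576015798) (nat_lit 0) (nat_lit 1576015798) (nat_lit 1596) (nat_lit 3278788017) (nat_lit 382) (nat_lit 5) (nat_lit 382) (nat_lit 3) (nat_lit 403) (nat_lit 3) (nat_lit 298) (nat_lit 298) (nat_lit 184)) (XT.nd (nat_lit 78) (nat_lit 0) (nat_lit 76) (XT.lf (nat_lit 0) (nat_lit 7011553118) (nat_lit 1596) (nat_lit 1087999816) (nat_lit 1672) (nat_lit 4942212685) (nat_lit 382) (nat_lit 5) (nat_lit 403) (nat_lit 3) (nat_lit 404) (nat_lit 5) (nat_lit 299) (nat_lit 298) (nat_lit 183)) (XT.lf (nat_lit 0) (nat_lit 7790287804) (nat_lit 1596) (nat_lit 5364376636) (nat_lit 1672) (nat_lit 71652023) (nat_lit 383) (nat_lit 5) (nat_lit 404) (nat_lit 5) (nat_lit 405) (nat_lit 5) (nat_lit 300) (nat_lit 298) (nat_lit 182)))) (XT.nd (nat_lit 156) (nat_lit 0) (nat_lit 76) (XT.nd (nat_lit 78) (nat_lit 0) (nat_lit 76) (XT.lf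 (nat_lit 76) (nat_lit 3660600977) (nat_lit 0) (nat_lit 4995207701) (nat_lit 1672) (nat_lit 4759347118) (nat_lit 384) (nat_lit 5) (nat_lit 383) (nat_lit 5) (nat_lit 405) (nat_lit 5) (nat_lit 301) (nat_lit 298) (nat_lit 181)) (XT.lf (nat_lit 0) (nat_lit 9584712178) (nat_lit 1596) (nat_lit 614069632) (nat_lit 1672) (nat_lit 3410150009) (nat_lit 384) (nat_lit 5) (nat_lit 405) (nat_lit 5) (nat_lit 406) (nat_lit 5) (nat_lit 302) (nat_lit 298) (nat_lit 180))) (XT.nd (nat_lit 78) (nat_lit 0) (nat_lit 76) (XT.lf (nat_lit 76) (nat_lit 8871421586) (nat_lit 0) (nat_lit 1740377999) (nat_lit 1672) (nat_lit 3195334475) (nat_lit 385) (nat_lit 5) (nat_lit 384) (nat_lit 5) (nat_lit 406) (nat_lit 5) (nat_lit 303) (nat_lit 298) (nat_lit 179)) (XT.lf (nat_lit 76) (nat_lit 4641837738) (nat_lit 0) (nat_lit 7087344539) (nat_lit 1672) (nat_lit 2280929148) (nat_lit 386) (nat_lit 5) (nat_lit 385) (nat_lit 5) (nat_lit 407)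 (nat_lit 5) (nat_lit 304) (nat_lit 298) (nat_lit 178)))))) (XT.nd (nat_lit 468) (nat_lit 2508) (nat_lit 0) (XT.nd (nat_lit 234) (nat_lit 0) (nat_lit 0) (XT.nd (nat_lit 78) (nat_lit 1596) (nat_lit 0) (XT.lf (nat_lit 76) (nat_lit 325149234) (nat_lit 0) (nat_lit 12593132214) (nat_lit 1672) (nat_lit 1300150931) (nat_lit 387) (nat_lit 5) (nat_lit 386) (nat_lit 5) (nat_lit 408) (nat_lit 5) (nat_lit 305) (nat_lit 298) (nat_lit 177)) (XT.nd (nat_lit 78) (nat_lit 1596) (nat_lit 0) (XT.lf (nat_lit 76) (nat_lit 10377100900) (nat_lit 0) (nat_lit 3857452849) (nat_lit 1672) (nat_lit 196636845) (nat_lit 387) (nat_lit 5) (nat_lit 386) (nat_lit 5) (nat_lit 408) (nat_lit 5) (nat_lit 306) (nat_lit 298) (nat_lit 176)) (XT.lf (nat_lit 0) (nat_lit 982603498) (nat_lit 1672) (nat_lit 8541169875) (nat_lit 1748) (nat_lit 5125353934) (nat_lit 365) (nat_lit 5) (nat_lit 387) (nat_lit 5) (nat_lit 388) (nat_lit 5) (nat_lit 307)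 (nat_lit 298) (nat_lit 175)))) (XT.nd (nat_lit 78) (nat_lit 0) (nat_lit 76) (XT.lf (nat_lit 76) (nat_lit 1740234911) (nat_lit 0) (nat_lit 500931166) (nat_lit 1748) (nat_lit 12631494017) (nat_lit 366) (nat_lit 5) (nat_lit 365) (nat_lit 5) (nat_lit 388) (nat_lit 5) (nat_lit 308) (nat_lit 298) (nat_lit 174)) (XT.nd (nat_lit 78) (nat_lit 0) (nat_lit 76) (XT.lf (nat_lit 0) (nat_lit 3635168710) (nat_lit 1672) (nat_lit 2725018514) (nat_lit 1748) (nat_lit 8740773800) (nat_lit 366) (nat_lit 5) (nat_lit 388) (nat_lit 5) (nat_lit 389) (nat_lit 5) (nat_lit 309) (nat_lit 298) (nat_lit 173)) (XT.lf (nat_lit 0) (nat_lit 5128999920) (nat_lit 1672) (nat_lit 7269802904) (nat_lit 1748) (nat_lit 2936163352) (nat_lit 367) (nat_lit 5) (nat_lit 389) (nat_lit 5) (nat_lit 390) (nat_lit 5) (nat_lit 310) (nat_lit 298) (nat_lit 172))))) (XT.nd (nat_lit 234) (nat_lit 2660) (nat_lit 0) (XT.nd (nat_lit 78) (nat_lit 0) (nat_lit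 76) (XT.lf (nat_lit 76) (nat_lit 3633116582) (nat_lit 0) (nat_lit 3102538109) (nat_lit 1748) (nat_lit 8838991533) (nat_lit 368) (nat_lit 5) (nat_lit 367) (nat_lit 5) (nat_lit 390) (nat_lit 5) (nat_lit 311) (nat_lit 298) (nat_lit 171)) (XT.nd (nat_lit 78) (nat_lit 0) (nat_lit 76) (XT.lf (nat_lit 0) (nat_lit 8465852306) (nat_lit 1672) (nat_lit 913015014) (nat_lit 1748) (nat_lit 6441156972) (nat_lit 368) (nat_lit 5) (nat_lit 390) (nat_lit 5) (nat_lit 391) (nat_lit 5) (nat_lit 312) (nat_lit 298) (nat_lit 170)) (XT.lf (nat_lit 0) (nat_lit 10322910224) (nat_lit 1672) (nat_lit 5521204804) (nat_lit 1748) (nat_lit 227163646) (nat_lit 369) (nat_lit 5) (nat_lit 391) (nat_lit 5) (nat_lit 392) (nat_lit 5) (nat_lit 313) (nat_lit 298) (nat_lit 169)))) (XT.nd (nat_lit 156) (nat_lit 1216) (nat_lit 0) (XT.nd (nat_lit 78) (nat_lit 1596) (nat_lit 0) (XT.lf (nat_lit 76) (nat_lit 6043570224) (nat_lit 0) (nat_lit 6284902698)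 (nat_lit 1748) (nat_lit 3999755555) (nat_lit 370) (nat_lit 5) (nat_lit 369) (nat_lit 5) (nat_lit 392) (nat_lit 5) (nat_lit 314) (nat_lit 298) (nat_lit 168)) (XT.lf (nat_lit 0) (nat_lit 1421332956) (nat_lit 1672) (nat_lit 13027871380) (nat_lit 1748) (nat_lit 2142595652) (nat_lit 348) (nat_lit 5) (nat_lit 370) (nat_lit 5) (nat_lit 371) (nat_lit 5) (nat_lit 315) (nat_lit 298) (nat_lit 167))) (XT.nd (nat_lit 78) (nat_lit 1216) (nat_lit 0) (XT.lf (nat_lit 0) (nat_lit 13564234409) (nat_lit 1672) (nat_lit 3166116511) (nat_lit 1748) (nat_lit 131004727) (nat_lit 348) (nat_lit 5) (nat_lit 370) (nat_lit 5) (nat_lit 371) (nat_lit 5) (nat_lit 316) (nat_lit 298) (nat_lit 166)) (XT.lf (nat_lit 0) (nat_lit 2005626455) (nat_lit 1216) (nat_lit 8157850386) (nat_lit 76) (nat_lit 6973478380) (nat_lit 332) (nat_lit 5) (nat_lit 348) (nat_lit 5) (nat_lit 333) (nat_lit 5) (nat_lit 317) (nat_lit 298) (nat_lit 165)))))))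 (XT.nd (nat_lit 1014) (nat_lit 6232) (nat_lit 0) (XT.nd (nat_lit 468) (nat_lit 3724) (nat_lit 0) (XT.nd (nat_lit 234) (nat_lit 1596) (nat_lit 0) (XT.nd (nat_lit 78) (nat_lit 836) (nat_lit 0) (XT.lf (nat_lit 0) (nat_lit 4262042224) (nat_lit 912) (nat_lit 13149948123) (nat_lit 76) (nat_lit 7677697) (nat_lit 321) (nat_lit 5) (nat_lit 333) (nat_lit 5) (nat_lit 322) (nat_lit 5) (nat_lit 318) (nat_lit 298) (nat_lit 164)) (XT.nd (nat_lit 78) (nat_lit 836) (nat_lit 0) (XT.lf (nat_lit 0) (nat_lit 6696120934) (nat_lit 912) (nat_lit 608803300) (nat_lit 76) (nat_lit 10403750153) (nat_lit 321) (nat_lit 5) (nat_lit 333) (nat_lit 5) (nat_lit 322) (nat_lit 5) (nat_lit 319) (nat_lit 298) (nat_lit 163)) (XT.lf (nat_lit 0) (nat_lit 9291578568) (nat_lit 912) (nat_lit 5565857159) (nat_lit 76) (nat_lit 3147159268) (nat_lit 310) (nat_lit 5) (nat_lit 322) (nat_lit 5) (nat_lit 311) (nat_lit 5) (nat_lit 320) (nat_lit 298)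 (nat_lit 162)))) (XT.nd (nat_lit 78) (nat_lit 836) (nat_lit 0) (XT.lf (nat_lit 0) (nat_lit 7615516658) (nat_lit 760) (nat_lit 4438901025) (nat_lit 836) (nat_lit 6253196065) (nat_lit 300) (nat_lit 5) (nat_lit 310) (nat_lit 5) (nat_lit 311) (nat_lit 5) (nat_lit 321) (nat_lit 298) (nat_lit 161)) (XT.nd (nat_lit 78) (nat_lit 0) (nat_lit 0) (XT.lf (nat_lit 0) (nat_lit 2630667477) (nat_lit 836) (nat_lit 12352744779) (nat_lit 912) (nat_lit 3634655965) (nat_lit 289) (nat_lit 5) (nat_lit 300) (nat_lit 5) (nat_lit 301) (nat_lit 5) (nat_lit 322) (nat_lit 298) (nat_lit 160)) (XT.lf (nat_lit 0) (nat_lit 16457309305) (nat_lit 836) (nat_lit 1632570771) (nat_lit 912) (nat_lit 846174442) (nat_lit 289) (nat_lit 5) (nat_lit 300) (nat_lit 5) (nat_lit 301) (nat_lit 5) (nat_lit 323) (nat_lit 298) (nat_lit 159))))) (XT.nd (nat_lit 234) (nat_lit 1444) (nat_lit 0) (XT.nd (nat_lit 78) (nat_lit 1444) (nat_lit 0) (XT.lf (nat_lit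 0) (nat_lit 2124064406) (nat_lit 836) (nat_lit 7761992423) (nat_lit 76) (nat_lit 9374776784) (nat_lit 278) (nat_lit 5) (nat_lit 289) (nat_lit 5) (nat_lit 279) (nat_lit 5) (nat_lit 324) (nat_lit 298) (nat_lit 158)) (XT.nd (nat_lit 78) (nat_lit 684) (nat_lit 0) (XT.lf (nat_lit 0) (nat_lit 5237033195) (nat_lit 836) (nat_lit 13211807592) (nat_lit 76) (nat_lit 1145110528) (nat_lit 268) (nat_lit 5) (nat_lit 279) (nat_lit 5) (nat_lit 269) (nat_lit 5) (nat_lit 325) (nat_lit 298) (nat_lit 157)) (XT.lf (nat_lit 0) (nat_lit 1056235881) (nat_lit 684) (nat_lit 7501544152) (nat_lit 760) (nat_lit 11377003938) (nat_lit 259) (nat_lit 5) (nat_lit 268) (nat_lit 5) (nat_lit 269) (nat_lit 5) (nat_lit 326) (nat_lit 298) (nat_lit 156)))) (XT.nd (nat_lit 156) (nat_lit 760) (nat_lit 0) (XT.nd (nat_lit 78) (nat_lit 684) (nat_lit 0) (XT.lf (nat_lit 0) (nat_lit 12081502348) (nat_lit 760) (nat_lit 4388015416) (nat_lit 76)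 (nat_lit 3814265715) (nat_lit 259) (nat_lit 5) (nat_lit 269) (nat_lit 5) (nat_lit 260) (nat_lit 5) (nat_lit 327) (nat_lit 298) (nat_lit 155)) (XT.lf (nat_lit 0) (nat_lit 10614596908) (nat_lit 684) (nat_lit 5204479247) (nat_lit 760) (nat_lit 4822022694) (nat_lit 250) (nat_lit 5) (nat_lit 259) (nat_lit 5) (nat_lit 260) (nat_lit 5) (nat_lit 328) (nat_lit 298) (nat_lit 154))) (XT.nd (nat_lit 78) (nat_lit 76) (nat_lit 0) (XT.lf (nat_lit 0) (nat_lit 5132677918) (nat_lit 684) (nat_lit 14630194512) (nat_lit 760) (nat_lit 1244387768) (nat_lit 241) (nat_lit 5) (nat_lit 250) (nat_lit 5) (nat_lit 251) (nat_lit 5) (nat_lit 329) (nat_lit 298) (nat_lit 153)) (XT.lf (nat_lit 0) (nat_lit 2501220189) (nat_lit 760) (nat_lit 561938876) (nat_lit 76) (nat_lit 18319085368) (nat_lit 240) (nat_lit 5) (nat_lit 250) (nat_lit 5) (nat_lit 241) (nat_lit 5) (nat_lit 330) (nat_lit 298) (nat_lit 152)))))) (XT.nd (nat_lit 546)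 (nat_lit 2584) (nat_lit 0) (XT.nd (nat_lit 234) (nat_lit 1748) (nat_lit 0) (XT.nd (nat_lit 78) (nat_lit 1216) (nat_lit 0) (XT.lf (nat_lit 0) (nat_lit 6490261517) (nat_lit 760) (nat_lit 6432394878) (nat_lit 76) (nat_lit 8842705645) (nat_lit 231) (nat_lit 5) (nat_lit 241) (nat_lit 5) (nat_lit 232) (nat_lit 5) (nat_lit 331) (nat_lit 298) (nat_lit 151)) (XT.nd (nat_lit 78) (nat_lit 608) (nat_lit 0) (XT.lf (nat_lit 0) (nat_lit 9647184718) (nat_lit 608) (nat_lit 1028723906) (nat_lit 684) (nat_lit 11482533416) (nat_lit 223) (nat_lit 5) (nat_lit 231) (nat_lit 5) (nat_lit 232) (nat_lit 5) (nat_lit 332) (nat_lit 298) (nat_lit 150)) (XT.lf (nat_lit 0) (nat_lit 3698761449) (nat_lit 608) (nat_lit 11419307288) (nat_lit 684) (nat_lit 7442634165) (nat_lit 215) (nat_lit 5) (nat_lit 223) (nat_lit 5) (nat_lit 224) (nat_lit 5) (nat_lit 333) (nat_lit 298) (nat_lit 149)))) (XT.nd (nat_lit 156) (nat_lit 1140) (nat_lit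 0) (XT.nd (nat_lit 78) (nat_lit 608) (nat_lit 0) (XT.lf (nat_lit 0) (nat_lit 19780529418) (nat_lit 684) (nat_lit 2430220600) (nat_lit 76) (nat_lit 762547980) (nat_lit 215) (nat_lit 5) (nat_lit 224) (nat_lit 5) (nat_lit 216) (nat_lit 5) (nat_lit 334) (nat_lit 298) (nat_lit 148)) (XT.lf (nat_lit 0) (nat_lit 1331944954) (nat_lit 608) (nat_lit 8805285399) (nat_lit 76) (nat_lit 13257635786) (nat_lit 207) (nat_lit 5) (nat_lit 215) (nat_lit 5) (nat_lit 208) (nat_lit 5) (nat_lit 335) (nat_lit 298) (nat_lit 147))) (XT.nd (nat_lit 78) (nat_lit 532) (nat_lit 0) (XT.lf (nat_lit 0) (nat_lit 6026732291) (nat_lit 684) (nat_lit 15440699581) (nat_lit 76) (nat_lit 2359679759) (nat_lit 199) (nat_lit 5) (nat_lit 208) (nat_lit 5) (nat_lit 200) (nat_lit 5) (nat_lit 336) (nat_lit 298) (nat_lit 146)) (XT.lf (nat_lit 0) (nat_lit 1888867421) (nat_lit 532) (nat_lit 9104608337) (nat_lit 608) (nat_lit 13276232866) (nat_lit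 192) (nat_lit 5) (nat_lit 199) (nat_lit 5) (nat_lit 200) (nat_lit 5) (nat_lit 337) (nat_lit 298) (nat_lit 145))))) (XT.nd (nat_lit 234) (nat_lit 1444) (nat_lit 0) (XT.nd (nat_lit 78) (nat_lit 1140) (nat_lit 0) (XT.lf (nat_lit 0) (nat_lit 16229281396) (nat_lit 608) (nat_lit 4809037255) (nat_lit 76) (nat_lit 3684869886) (nat_lit 192) (nat_lit 5) (nat_lit 200) (nat_lit 5) (nat_lit 193) (nat_lit 5) (nat_lit 338) (nat_lit 298) (nat_lit 144)) (XT.nd (nat_lit 78) (nat_lit 608) (nat_lit 0) (XT.lf (nat_lit 0) (nat_lit 13394052023) (nat_lit 532) (nat_lit 8367389248) (nat_lit 608) (nat_lit 3426051995) (nat_lit 185) (nat_lit 5) (nat_lit 192) (nat_lit 5) (nat_lit 193) (nat_lit 5) (nat_lit 339) (nat_lit 298) (nat_lit 143)) (XT.lf (nat_lit 0) (nat_lit 1868545244) (nat_lit 608) (nat_lit 19086931192) (nat_lit 76) (nat_lit 4708058840) (nat_lit 177) (nat_lit 5) (nat_lit 185) (nat_lit 5) (nat_lit 178) (nat_lit 5)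 (nat_lit 340) (nat_lit 298) (nat_lit 142)))) (XT.nd (nat_lit 156) (nat_lit 912) (nat_lit 0) (XT.nd (nat_lit 78) (nat_lit 532) (nat_lit 0) (XT.lf (nat_lit 0) (nat_lit 7403816074) (nat_lit 608) (nat_lit 583054258) (nat_lit 76) (nat_lit 18163973208) (nat_lit 177) (nat_lit 5) (nat_lit 185) (nat_lit 5) (nat_lit 178) (nat_lit 5) (nat_lit 341) (nat_lit 298) (nat_lit 141)) (XT.lf (nat_lit 0) (nat_lit 13254247026) (nat_lit 608) (nat_lit 7975100445) (nat_lit 76) (nat_lit 5420446946) (nat_lit 170) (nat_lit 5) (nat_lit 178) (nat_lit 5) (nat_lit 171) (nat_lit 5) (nat_lit 342) (nat_lit 298) (nat_lit 140))) (XT.nd (nat_lit 78) (nat_lit 456) (nat_lit 0) (XT.lf (nat_lit 0) (nat_lit 11440880451) (nat_lit 456) (nat_lit 7963091814) (nat_lit 532) (nat_lit 7757271176) (nat_lit 164) (nat_lit 5) (nat_lit 170) (nat_lit 5) (nat_lit 171) (nat_lit 5) (nat_lit 343) (nat_lit 298) (nat_lit 139)) (XT.lf (nat_lit 0) (nat_lit 3864632325)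 (nat_lit 456) (nat_lit 21982323729) (nat_lit 532) (nat_lit 1838909637) (nat_lit 158) (nat_lit 5) (nat_lit 164) (nat_lit 5) (nat_lit 165) (nat_lit 5) (nat_lit 344) (nat_lit 298) (nat_lit 138))))))))
noncomputable def xc109 : XT := (XT.nd (nat_lit 38376) (nat_lit 0) (nat_lit 4104) (XT.nd (nat_lit 37362) (nat_lit 0) (nat_lit 18316) (XT.nd (nat_lit 468) (nat_lit 760) (nat_lit 0) (XT.nd (nat_lit 234) (nat_lit 912) (nat_lit 0) (XT.nd (nat_lit 78) (nat_lit 912) (nat_lit 0) (XT.lf (nat_lit 0) (nat_lit 4354020442) (nat_lit 532) (nat_lit 4063503193) (nat_lit 76) (nat_lit 19805098056) (nat_lit 157) (nat_lit 5) (nat_lit 164) (nat_lit 5) (nat_lit 158) (nat_lit 5) (nat_lit 345) (nat_lit 298) (nat_lit 137)) (XT.nd (nat_lit 78) (nat_lit 456) (nat_lit 0) (XT.lf (nat_lit 0) (nat_lit 10844325337) (nat_lit 532) (nat_lit 12329145050) (nat_lit 76) (nat_lit 5599040178) (nat_lit 151) (nat_lit 5) (nat_lit 158) (nat_lit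 5) (nat_lit 152) (nat_lit 5) (nat_lit 346) (nat_lit 298) (nat_lit 136)) (XT.lf (nat_lit 0) (nat_lit 8325586893) (nat_lit 456) (nat_lit 9334541378) (nat_lit 532) (nat_lit 11676156625) (nat_lit 145) (nat_lit 5) (nat_lit 151) (nat_lit 5) (nat_lit 152) (nat_lit 5) (nat_lit 347) (nat_lit 298) (nat_lit 135)))) (XT.nd (nat_lit 78) (nat_lit 912) (nat_lit 0) (XT.lf (nat_lit 0) (nat_lit 24789302190) (nat_lit 532) (nat_lit 188889725) (nat_lit 76) (nat_lit 4936607042) (nat_lit 145) (nat_lit 5) (nat_lit 152) (nat_lit 5) (nat_lit 146) (nat_lit 5) (nat_lit 348) (nat_lit 298) (nat_lit 134)) (XT.nd (nat_lit 78) (nat_lit 456) (nat_lit 0) (XT.lf (nat_lit 0) (nat_lit 1796568235) (nat_lit 456) (nat_lit 9051432644) (nat_lit 76) (nat_lit 19658538121) (nat_lit 139) (nat_lit 5) (nat_lit 145) (nat_lit 5) (nat_lit 140) (nat_lit 5) (nat_lit 349) (nat_lit 298) (nat_lit 133)) (XT.lf (nat_lit 0) (nat_lit 8959168273) (nat_lit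 532) (nat_lit 18380057767) (nat_lit 76) (nat_lit 3774081546) (nat_lit 133) (nat_lit 5) (nat_lit 140) (nat_lit 5) (nat_lit 134) (nat_lit 5) (nat_lit 350) (nat_lit 298) (nat_lit 132))))) (XT.nd (nat_lit 36582) (nat_lit 0) (nat_lit 19684) (XT.nd (nat_lit 78) (nat_lit 380) (nat_lit 0) (XT.lf (nat_lit 0) (nat_lit 3522119489) (nat_lit 380) (nat_lit 12964960033) (nat_lit 456) (nat_lit 15248195022) (nat_lit 128) (nat_lit 5) (nat_lit 133) (nat_lit 5) (nat_lit 134) (nat_lit 5) (nat_lit 351) (nat_lit 298) (nat_lit 131)) (XT.nd (nat_lit 78) (nat_lit 380) (nat_lit 0) (XT.lf (nat_lit 0) (nat_lit 24371548257) (nat_lit 456) (nat_lit 6062637866) (nat_lit 76) (nat_lit 1939103852) (nat_lit 128) (nat_lit 5) (nat_lit 134) (nat_lit 5) (nat_lit 129) (nat_lit 5) (nat_lit 352) (nat_lit 298) (nat_lit 130)) (XT.lf (nat_lit 0) (nat_lit 16877918531) (nat_lit 380) (nat_lit 15804506212) (nat_lit 456) (nat_lit 344227401) (nat_lit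 123) (nat_lit 5) (nat_lit 128) (nat_lit 5) (nat_lit 129) (nat_lit 5) (nat_lit 353) (nat_lit 298) (nat_lit 129)))) (XT.nd (nat_lit 156) (nat_lit 0) (nat_lit 0) (XT.nd (nat_lit 78) (nat_lit 0) (nat_lit 0) (XT.lf (nat_lit 0) (nat_lit 1910713833) (nat_lit 0) (nat_lit 1910713833) (nat_lit 1596) (nat_lit 2790285404) (nat_lit 382) (nat_lit 5) (nat_lit 382) (nat_lit 3) (nat_lit 403) (nat_lit 3) (nat_lit 299) (nat_lit 299) (nat_lit 182)) (XT.lf (nat_lit 0) (nat_lit 8334460911) (nat_lit 1596) (nat_lit 535562534) (nat_lit 1672) (nat_lit 4539706194) (nat_lit 382) (nat_lit 5) (nat_lit 403) (nat_lit 3) (nat_lit 404) (nat_lit 5) (nat_lit 300) (nat_lit 299) (nat_lit 181))) (XT.nd (nat_lit 78) (nat_lit 0) (nat_lit 76) (XT.lf (nat_lit 76) (nat_lit 8673878362) (nat_lit 0) (nat_lit 433526123) (nat_lit 1672) (nat_lit 4493025812) (nat_lit 383) (nat_lit 5) (nat_lit 382) (nat_lit 5) (nat_lit 404) (nat_lit 5) (nat_lit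 301) (nat_lit 299) (nat_lit 180)) (XT.lf (nat_lit 76) (nat_lit 4362229975) (nat_lit 0) (nat_lit 5606215109) (nat_lit 1672) (nat_lit 3827127988) (nat_lit 384) (nat_lit 5) (nat_lit 383) (nat_lit 5) (nat_lit 405) (nat_lit 5) (nat_lit 302) (nat_lit 299) (nat_lit 179)))))) (XT.nd (nat_lit 468) (nat_lit 0) (nat_lit 76) (XT.nd (nat_lit 234) (nat_lit 1520) (nat_lit 0) (XT.nd (nat_lit 78) (nat_lit 0) (nat_lit 0) (XT.lf (nat_lit 0) (nat_lit 10891639997) (nat_lit 1596) (nat_lit 33615541) (nat_lit 1672) (nat_lit 3070606842) (nat_lit 384) (nat_lit 5) (nat_lit 405) (nat_lit 5) (nat_lit 406) (nat_lit 5) (nat_lit 303) (nat_lit 299) (nat_lit 178)) (XT.nd (nat_lit 78) (nat_lit 0) (nat_lit 76) (XT.lf (nat_lit 76) (nat_lit 9726724359) (nat_lit 0) (nat_lit 2196950018) (nat_lit 1672) (nat_lit 2276881284) (nat_lit 385) (nat_lit 5) (nat_lit 384) (nat_lit 5) (nat_lit 406) (nat_lit 5) (nat_lit 304) (nat_lit 299) (nat_lit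 177)) (XT.lf (nat_lit 76) (nat_lit 5383732445) (nat_lit 0) (nat_lit 7663272431) (nat_lit 1672) (nat_lit 1363195800) (nat_lit 386) (nat_lit 5) (nat_lit 385) (nat_lit 5) (nat_lit 407) (nat_lit 5) (nat_lit 305) (nat_lit 299) (nat_lit 176)))) (XT.nd (nat_lit 78) (nat_lit 1672) (nat_lit 0) (XT.lf (nat_lit 76) (nat_lit 949972882) (nat_lit 0) (nat_lit 13295373065) (nat_lit 1672) (nat_lit 379980005) (nat_lit 387) (nat_lit 5) (nat_lit 386) (nat_lit 5) (nat_lit 408) (nat_lit 5) (nat_lit 306) (nat_lit 299) (nat_lit 175)) (XT.nd (nat_lit 78) (nat_lit 0) (nat_lit 76) (XT.lf (nat_lit 0) (nat_lit 719145291) (nat_lit 1672) (nat_lit 3564202275) (nat_lit 1748) (nat_lit 10561597327) (nat_lit 364) (nat_lit 5) (nat_lit 386) (nat_lit 5) (nat_lit 387) (nat_lit 5) (nat_lit 307) (nat_lit 299) (nat_lit 174)) (XT.lf (nat_lit 0) (nat_lit 1906315434) (nat_lit 1672) (nat_lit 8176462413) (nat_lit 1748) (nat_lit 4987135476) (nat_lit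 365) (nat_lit 5) (nat_lit 387) (nat_lit 5) (nat_lit 388) (nat_lit 5) (nat_lit 308) (nat_lit 299) (nat_lit 173))))) (XT.nd (nat_lit 234) (nat_lit 0) (nat_lit 152) (XT.nd (nat_lit 78) (nat_lit 0) (nat_lit 76) (XT.lf (nat_lit 76) (nat_lit 2403310461) (nat_lit 0) (nat_lit 777244947) (nat_lit 1748) (nat_lit 12120061667) (nat_lit 366) (nat_lit 5) (nat_lit 365) (nat_lit 5) (nat_lit 388) (nat_lit 5) (nat_lit 309) (nat_lit 299) (nat_lit 172)) (XT.nd (nat_lit 78) (nat_lit 0) (nat_lit 76) (XT.lf (nat_lit 0) (nat_lit 4589328537) (nat_lit 1672) (nat_lit 2194353763) (nat_lit 1748) (nat_lit 8752648436) (nat_lit 366) (nat_lit 5) (nat_lit 388) (nat_lit 5) (nat_lit 389) (nat_lit 5) (nat_lit 310) (nat_lit 299) (nat_lit 171)) (XT.lf (nat_lit 0) (nat_lit 6105830812) (nat_lit 1672) (nat_lit 6866753520) (nat_lit 1748) (nat_lit 2805236637) (nat_lit 367) (nat_lit 5) (nat_lit 389) (nat_lit 5) (nat_lit 390) (nat_lit 5) (nat_lit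 311) (nat_lit 299) (nat_lit 170)))) (XT.nd (nat_lit 156) (nat_lit 0) (nat_lit 152) (XT.nd (nat_lit 78) (nat_lit 0) (nat_lit 76) (XT.lf (nat_lit 76) (nat_lit 4353176236) (nat_lit 0) (nat_lit 3387506703) (nat_lit 1748) (nat_lit 8284429933) (nat_lit 368) (nat_lit 5) (nat_lit 367) (nat_lit 5) (nat_lit 390) (nat_lit 5) (nat_lit 312) (nat_lit 299) (nat_lit 169)) (XT.lf (nat_lit 0) (nat_lit 9498189733) (nat_lit 1672) (nat_lit 329643533) (nat_lit 1748) (nat_lit 6450531733) (nat_lit 368) (nat_lit 5) (nat_lit 390) (nat_lit 5) (nat_lit 391) (nat_lit 5) (nat_lit 313) (nat_lit 299) (nat_lit 168))) (XT.nd (nat_lit 78) (nat_lit 0) (nat_lit 0) (XT.lf (nat_lit 0) (nat_lit 11391159151) (nat_lit 1672) (nat_lit 5069092813) (nat_lit 1748) (nat_lit 77321232) (nat_lit 369) (nat_lit 5) (nat_lit 391) (nat_lit 5) (nat_lit 392) (nat_lit 5) (nat_lit 314) (nat_lit 299) (nat_lit 167)) (XT.lf (nat_lit 76) (nat_lit 6832603236)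 (nat_lit 0) (nat_lit 6606137225) (nat_lit 1748) (nat_lit 3363873587) (nat_lit 370) (nat_lit 5) (nat_lit 369) (nat_lit 5) (nat_lit 392) (nat_lit 5) (nat_lit 315) (nat_lit 299) (nat_lit 166))))))) (XT.nd (nat_lit 1014) (nat_lit 6232) (nat_lit 0) (XT.nd (nat_lit 468) (nat_lit 3876) (nat_lit 0) (XT.nd (nat_lit 234) (nat_lit 1672) (nat_lit 0) (XT.nd (nat_lit 78) (nat_lit 1216) (nat_lit 0) (XT.lf (nat_lit 0) (nat_lit 2077897179) (nat_lit 1672) (nat_lit 13526780803) (nat_lit 1748) (nat_lit 1469802061) (nat_lit 348) (nat_lit 5) (nat_lit 370) (nat_lit 5) (nat_lit 371) (nat_lit 5) (nat_lit 316) (nat_lit 299) (nat_lit 165)) (XT.nd (nat_lit 78) (nat_lit 1140) (nat_lit 0) (XT.lf (nat_lit 0) (nat_lit 573052919) (nat_lit 1748) (nat_lit 2789127116) (nat_lit 76) (nat_lit 13990305982) (nat_lit 347) (nat_lit 5) (nat_lit 370) (nat_lit 5) (nat_lit 348) (nat_lit 5) (nat_lit 317) (nat_lit 299) (nat_lit 164)) (XT.lf (nat_lit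 0) (nat_lit 2754708910) (nat_lit 1216) (nat_lit 7791404198) (nat_lit 76) (nat_lit 7090586613) (nat_lit 332) (nat_lit 5) (nat_lit 348) (nat_lit 5) (nat_lit 333) (nat_lit 5) (nat_lit 318) (nat_lit 299) (nat_lit 163)))) (XT.nd (nat_lit 78) (nat_lit 836) (nat_lit 0) (XT.lf (nat_lit 0) (nat_lit 4999130589) (nat_lit 836) (nat_lit 63472908) (nat_lit 912) (nat_lit 12865631770) (nat_lit 321) (nat_lit 5) (nat_lit 332) (nat_lit 5) (nat_lit 333) (nat_lit 5) (nat_lit 319) (nat_lit 299) (nat_lit 162)) (XT.nd (nat_lit 78) (nat_lit 836) (nat_lit 0) (XT.lf (nat_lit 0) (nat_lit 7549711259) (nat_lit 912) (nat_lit 29247984) (nat_lit 76) (nat_lit 10647368989) (nat_lit 321) (nat_lit 5) (nat_lit 333) (nat_lit 5) (nat_lit 322) (nat_lit 5) (nat_lit 320) (nat_lit 299) (nat_lit 161)) (XT.lf (nat_lit 0) (nat_lit 10207519519) (nat_lit 912) (nat_lit 5131105219) (nat_lit 76) (nat_lit 3192828068) (nat_lit 310) (nat_lit 5) (nat_lit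 322) (nat_lit 5) (nat_lit 311) (nat_lit 5) (nat_lit 321) (nat_lit 299) (nat_lit 160))))) (XT.nd (nat_lit 234) (nat_lit 2280) (nat_lit 0) (XT.nd (nat_lit 78) (nat_lit 836) (nat_lit 0) (XT.lf (nat_lit 0) (nat_lit 8435947497) (nat_lit 760) (nat_lit 4602580706) (nat_lit 836) (nat_lit 5805343848) (nat_lit 300) (nat_lit 5) (nat_lit 310) (nat_lit 5) (nat_lit 311) (nat_lit 5) (nat_lit 322) (nat_lit 299) (nat_lit 159)) (XT.nd (nat_lit 78) (nat_lit 0) (nat_lit 0) (XT.lf (nat_lit 0) (nat_lit 3304903485) (nat_lit 836) (nat_lit 12736031548) (nat_lit 912) (nat_lit 3123009438) (nat_lit 289) (nat_lit 5) (nat_lit 300) (nat_lit 5) (nat_lit 301) (nat_lit 5) (nat_lit 323) (nat_lit 299) (nat_lit 158)) (XT.lf (nat_lit 0) (nat_lit 17529005268) (nat_lit 836) (nat_lit 1693882288) (nat_lit 912) (nat_lit 268951708) (nat_lit 289) (nat_lit 5) (nat_lit 300) (nat_lit 5) (nat_lit 301) (nat_lit 5) (nat_lit 324) (nat_lit 299) (nat_lit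 157)))) (XT.nd (nat_lit 156) (nat_lit 684) (nat_lit 0) (XT.nd (nat_lit 78) (nat_lit 760) (nat_lit 0) (XT.lf (nat_lit 0) (nat_lit 2768886987) (nat_lit 836) (nat_lit 7405886768) (nat_lit 76) (nat_lit 9651795816) (nat_lit 278) (nat_lit 5) (nat_lit 289) (nat_lit 5) (nat_lit 279) (nat_lit 5) (nat_lit 325) (nat_lit 299) (nat_lit 156)) (XT.lf (nat_lit 0) (nat_lit 5962155983) (nat_lit 836) (nat_lit 13017013967) (nat_lit 76) (nat_lit 1190786236) (nat_lit 268) (nat_lit 5) (nat_lit 279) (nat_lit 5) (nat_lit 269) (nat_lit 5) (nat_lit 326) (nat_lit 299) (nat_lit 155))) (XT.nd (nat_lit 78) (nat_lit 0) (nat_lit 0) (XT.lf (nat_lit 0) (nat_lit 1669480139) (nat_lit 684) (nat_lit 7700276910) (nat_lit 760) (nat_lit 11151525342) (nat_lit 259) (nat_lit 5) (nat_lit 268) (nat_lit 5) (nat_lit 269) (nat_lit 5) (nat_lit 327) (nat_lit 299) (nat_lit 154)) (XT.lf (nat_lit 0) (nat_lit 12983184758) (nat_lit 760) (nat_lit 3943994290)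 (nat_lit 76) (nat_lit 3953905784) (nat_lit 259) (nat_lit 5) (nat_lit 269) (nat_lit 5) (nat_lit 260) (nat_lit 5) (nat_lit 328) (nat_lit 299) (nat_lit 153)))))) (XT.nd (nat_lit 546) (nat_lit 2888) (nat_lit 0) (XT.nd (nat_lit 234) (nat_lit 1900) (nat_lit 0) (XT.nd (nat_lit 78) (nat_lit 760) (nat_lit 0) (XT.lf (nat_lit 0) (nat_lit 11499356978) (nat_lit 684) (nat_lit 5321499799) (nat_lit 760) (nat_lit 4428515916) (nat_lit 250) (nat_lit 5) (nat_lit 259) (nat_lit 5) (nat_lit 260) (nat_lit 5) (nat_lit 329) (nat_lit 299) (nat_lit 152)) (XT.nd (nat_lit 78) (nat_lit 76) (nat_lit 0) (XT.lf (nat_lit 0) (nat_lit 5854324005) (nat_lit 684) (nat_lit 15017219571) (nat_lit 760) (nat_lit 755215859) (nat_lit 241) (nat_lit 5) (nat_lit 250) (nat_lit 5) (nat_lit 251) (nat_lit 5) (nat_lit 330) (nat_lit 299) (nat_lit 151)) (XT.lf (nat_lit 0) (nat_lit 3080721215) (nat_lit 760) (nat_lit 20577713) (nat_lit 76) (nat_lit 18911940082)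 (nat_lit 240) (nat_lit 5) (nat_lit 250) (nat_lit 5) (nat_lit 241) (nat_lit 5) (nat_lit 331) (nat_lit 299) (nat_lit 150)))) (XT.nd (nat_lit 156) (nat_lit 608) (nat_lit 0) (XT.nd (nat_lit 78) (nat_lit 608) (nat_lit 0) (XT.lf (nat_lit 0) (nat_lit 7178668634) (nat_lit 760) (nat_lit 6066327268) (nat_lit 76) (nat_lit 9163080717) (nat_lit 231) (nat_lit 5) (nat_lit 241) (nat_lit 5) (nat_lit 232) (nat_lit 5) (nat_lit 332) (nat_lit 299) (nat_lit 149)) (XT.lf (nat_lit 0) (nat_lit 10486569965) (nat_lit 608) (nat_lit 992506367) (nat_lit 684) (nat_lit 11334099706) (nat_lit 223) (nat_lit 5) (nat_lit 231) (nat_lit 5) (nat_lit 232) (nat_lit 5) (nat_lit 333) (nat_lit 299) (nat_lit 148))) (XT.nd (nat_lit 78) (nat_lit 0) (nat_lit 0) (XT.lf (nat_lit 0) (nat_lit 4360199648) (nat_lit 608) (nat_lit 11684233720) (nat_lit 684) (nat_lit 7183283244) (nat_lit 215) (nat_lit 5) (nat_lit 223) (nat_lit 5) (nat_lit 224) (nat_lit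 5) (nat_lit 334) (nat_lit 299) (nat_lit 147)) (XT.lf (nat_lit 0) (nat_lit 20833485827) (nat_lit 684) (nat_lit 1959652888) (nat_lit 76) (nat_lit 859826708) (nat_lit 215) (nat_lit 5) (nat_lit 224) (nat_lit 5) (nat_lit 216) (nat_lit 5) (nat_lit 335) (nat_lit 299) (nat_lit 146))))) (XT.nd (nat_lit 234) (nat_lit 1140) (nat_lit 0) (XT.nd (nat_lit 78) (nat_lit 1140) (nat_lit 0) (XT.lf (nat_lit 0) (nat_lit 1824834608) (nat_lit 608) (nat_lit 8528443343) (nat_lit 76) (nat_lit 13734051251) (nat_lit 207) (nat_lit 5) (nat_lit 215) (nat_lit 5) (nat_lit 208) (nat_lit 5) (nat_lit 336) (nat_lit 299) (nat_lit 145)) (XT.nd (nat_lit 78) (nat_lit 532) (nat_lit 0) (XT.lf (nat_lit 0) (nat_lit 6651306973) (nat_lit 684) (nat_lit 15363096333) (nat_lit 76) (nat_lit 2518331369) (nat_lit 199) (nat_lit 5) (nat_lit 208) (nat_lit 5) (nat_lit 200) (nat_lit 5) (nat_lit 337) (nat_lit 299) (nat_lit 144)) (XT.lf (nat_lit 0) (nat_lit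 2477583449) (nat_lit 532) (nat_lit 9279998300) (nat_lit 608) (nat_lit 13231226422) (nat_lit 192) (nat_lit 5) (nat_lit 199) (nat_lit 5) (nat_lit 200) (nat_lit 5) (nat_lit 338) (nat_lit 299) (nat_lit 143)))) (XT.nd (nat_lit 156) (nat_lit 608) (nat_lit 0) (XT.nd (nat_lit 78) (nat_lit 532) (nat_lit 0) (XT.lf (nat_lit 0) (nat_lit 17138428152) (nat_lit 608) (nat_lit 4428641312) (nat_lit 76) (nat_lit 3889072586) (nat_lit 192) (nat_lit 5) (nat_lit 200) (nat_lit 5) (nat_lit 193) (nat_lit 5) (nat_lit 339) (nat_lit 299) (nat_lit 142)) (XT.lf (nat_lit 0) (nat_lit 14312028544) (nat_lit 532) (nat_lit 8515576422) (nat_lit 608) (nat_lit 3106958556) (nat_lit 185) (nat_lit 5) (nat_lit 192) (nat_lit 5) (nat_lit 193) (nat_lit 5) (nat_lit 340) (nat_lit 299) (nat_lit 141))) (XT.nd (nat_lit 78) (nat_lit 0) (nat_lit 0) (XT.lf (nat_lit 0) (nat_lit 2332839076) (nat_lit 608) (nat_lit 19138299735) (nat_lit 76) (nat_lit 4953863517)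 (nat_lit 177) (nat_lit 5) (nat_lit 185) (nat_lit 5) (nat_lit 178) (nat_lit 5) (nat_lit 341) (nat_lit 299) (nat_lit 140)) (XT.lf (nat_lit 0) (nat_lit 8022277620) (nat_lit 608) (nat_lit 94488224) (nat_lit 76) (nat_lit 18810409795) (nat_lit 177) (nat_lit 5) (nat_lit 185) (nat_lit 5) (nat_lit 178) (nat_lit 5) (nat_lit 342) (nat_lit 299) (nat_lit 139))))))))
noncomputable def xc110 : XT := (XT.nd (nat_lit 38454) (nat_lit 0) (nat_lit 4332) (XT.nd (nat_lit 37440) (nat_lit 0) (nat_lit 17936) (XT.nd (nat_lit 468) (nat_lit 1292) (nat_lit 0) (XT.nd (nat_lit 234) (nat_lit 988) (nat_lit 0) (XT.nd (nat_lit 78) (nat_lit 912) (nat_lit 0) (XT.lf (nat_lit 0) (nat_lit 14040622741) (nat_lit 608) (nat_lit 7709199736) (nat_lit 76) (nat_lit 5691432297) (nat_lit 170) (nat_lit 5) (nat_lit 178) (nat_lit 5) (nat_lit 171) (nat_lit 5) (nat_lit 343) (nat_lit 299) (nat_lit 138)) (XT.nd (nat_lit 78) (nat_lit 456) (nat_lit 0)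 (XT.lf (nat_lit 0) (nat_lit 12281065068) (nat_lit 456) (nat_lit 8085678484) (nat_lit 532) (nat_lit 7601473167) (nat_lit 164) (nat_lit 5) (nat_lit 170) (nat_lit 5) (nat_lit 171) (nat_lit 5) (nat_lit 344) (nat_lit 299) (nat_lit 137)) (XT.lf (nat_lit 0) (nat_lit 4476460498) (nat_lit 456) (nat_lit 22519422187) (nat_lit 532) (nat_lit 1512844947) (nat_lit 158) (nat_lit 5) (nat_lit 164) (nat_lit 5) (nat_lit 165) (nat_lit 5) (nat_lit 345) (nat_lit 299) (nat_lit 136)))) (XT.nd (nat_lit 78) (nat_lit 912) (nat_lit 0) (XT.lf (nat_lit 0) (nat_lit 4849914893) (nat_lit 532) (nat_lit 3698876228) (nat_lit 76) (nat_lit 20512971808) (nat_lit 157) (nat_lit 5) (nat_lit 164) (nat_lit 5) (nat_lit 158) (nat_lit 5) (nat_lit 346) (nat_lit 299) (nat_lit 135)) (XT.nd (nat_lit 78) (nat_lit 456) (nat_lit 0) (XT.lf (nat_lit 0) (nat_lit 11528182469) (nat_lit 532) (nat_lit 12213785654) (nat_lit 76) (nat_lit 5886322030) (nat_lit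 151) (nat_lit 5) (nat_lit 158) (nat_lit 5) (nat_lit 152) (nat_lit 5) (nat_lit 347) (nat_lit 299) (nat_lit 134)) (XT.lf (nat_lit 0) (nat_lit 9052715906) (nat_lit 456) (nat_lit 9488400388) (nat_lit 532) (nat_lit 11668014844) (nat_lit 145) (nat_lit 5) (nat_lit 151) (nat_lit 5) (nat_lit 152) (nat_lit 5) (nat_lit 348) (nat_lit 299) (nat_lit 133))))) (XT.nd (nat_lit 234) (nat_lit 380) (nat_lit 0) (XT.nd (nat_lit 78) (nat_lit 532) (nat_lit 0) (XT.lf (nat_lit 0) (nat_lit 278793687) (nat_lit 380) (nat_lit 25597748556) (nat_lit 456) (nat_lit 4928617208) (nat_lit 140) (nat_lit 5) (nat_lit 145) (nat_lit 5) (nat_lit 146) (nat_lit 5) (nat_lit 349) (nat_lit 299) (nat_lit 132)) (XT.nd (nat_lit 78) (nat_lit 456) (nat_lit 0) (XT.lf (nat_lit 0) (nat_lit 2187682904) (nat_lit 456) (nat_lit 8856218694) (nat_lit 76) (nat_lit 20370887189) (nat_lit 139) (nat_lit 5) (nat_lit 145) (nat_lit 5) (nat_lit 140) (nat_lit 5) (nat_lit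 350) (nat_lit 299) (nat_lit 131)) (XT.lf (nat_lit 0) (nat_lit 9559156701) (nat_lit 532) (nat_lit 18466307761) (nat_lit 76) (nat_lit 4014421936) (nat_lit 133) (nat_lit 5) (nat_lit 140) (nat_lit 5) (nat_lit 134) (nat_lit 5) (nat_lit 351) (nat_lit 299) (nat_lit 130)))) (XT.nd (nat_lit 36582) (nat_lit 0) (nat_lit 19304) (XT.nd (nat_lit 78) (nat_lit 0) (nat_lit 0) (XT.lf (nat_lit 0) (nat_lit 4085388279) (nat_lit 380) (nat_lit 13220841095) (nat_lit 456) (nat_lit 15374422224) (nat_lit 128) (nat_lit 5) (nat_lit 133) (nat_lit 5) (nat_lit 134) (nat_lit 5) (nat_lit 352) (nat_lit 299) (nat_lit 129)) (XT.lf (nat_lit 0) (nat_lit 25418618422) (nat_lit 456) (nat_lit 5794592318) (nat_lit 76) (nat_lit 2124774571) (nat_lit 128) (nat_lit 5) (nat_lit 134) (nat_lit 5) (nat_lit 129) (nat_lit 5) (nat_lit 353) (nat_lit 299) (nat_lit 128))) (XT.nd (nat_lit 78) (nat_lit 0) (nat_lit 0) (XT.lf (nat_lit 0) (nat_lit 2238953866)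 (nat_lit 0) (nat_lit 2238953866) (nat_lit 1596) (nat_lit 2320816236) (nat_lit 382) (nat_lit 5) (nat_lit 382) (nat_lit 3) (nat_lit 403) (nat_lit 3) (nat_lit 300) (nat_lit 300) (nat_lit 180)) (XT.lf (nat_lit 0) (nat_lit 9633190373) (nat_lit 1596) (nat_lit 137963) (nat_lit 1672) (nat_lit 4156741125) (nat_lit 382) (nat_lit 5) (nat_lit 403) (nat_lit 3) (nat_lit 404) (nat_lit 5) (nat_lit 301) (nat_lit 300) (nat_lit 179)))))) (XT.nd (nat_lit 468) (nat_lit 0) (nat_lit 0) (XT.nd (nat_lit 234) (nat_lit 1368) (nat_lit 0) (XT.nd (nat_lit 78) (nat_lit 0) (nat_lit 76) (XT.lf (nat_lit 76) (nat_lit 9476638866) (nat_lit 0) (nat_lit 925661411) (nat_lit 1672) (nat_lit 3584759790) (nat_lit 383) (nat_lit 5) (nat_lit 382) (nat_lit 5) (nat_lit 404) (nat_lit 5) (nat_lit 302) (nat_lit 300) (nat_lit 178)) (XT.nd (nat_lit 78) (nat_lit 0) (nat_lit 76) (XT.lf (nat_lit 76) (nat_lit 5050935472) (nat_lit 0) (nat_lit 6209080776)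 (nat_lit 1672) (nat_lit 2928651655) (nat_lit 384) (nat_lit 5) (nat_lit 383) (nat_lit 5) (nat_lit 405) (nat_lit 5) (nat_lit 303) (nat_lit 300) (nat_lit 177)) (XT.lf (nat_lit 76) (nat_lit 536915979) (nat_lit 0) (nat_lit 11645828733) (nat_lit 1672) (nat_lit 2212811279) (nat_lit 385) (nat_lit 5) (nat_lit 384) (nat_lit 5) (nat_lit 406) (nat_lit 5) (nat_lit 304) (nat_lit 300) (nat_lit 176)))) (XT.nd (nat_lit 78) (nat_lit 1520) (nat_lit 0) (XT.lf (nat_lit 76) (nat_lit 10573866014) (nat_lit 0) (nat_lit 2644007240) (nat_lit 1672) (nat_lit 1389100227) (nat_lit 385) (nat_lit 5) (nat_lit 384) (nat_lit 5) (nat_lit 406) (nat_lit 5) (nat_lit 305) (nat_lit 300) (nat_lit 175)) (XT.nd (nat_lit 78) (nat_lit 1596) (nat_lit 0) (XT.lf (nat_lit 76) (nat_lit 6113290016) (nat_lit 0) (nat_lit 8235622819) (nat_lit 1672) (nat_lit 474540140) (nat_lit 386) (nat_lit 5) (nat_lit 385) (nat_lit 5) (nat_lit 407) (nat_lit 5) (nat_lit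 306) (nat_lit 300) (nat_lit 174)) (XT.lf (nat_lit 0) (nat_lit 506010835) (nat_lit 1672) (nat_lit 13490650128) (nat_lit 1748) (nat_lit 1048827317) (nat_lit 364) (nat_lit 5) (nat_lit 386) (nat_lit 5) (nat_lit 387) (nat_lit 5) (nat_lit 307) (nat_lit 300) (nat_lit 173))))) (XT.nd (nat_lit 234) (nat_lit 0) (nat_lit 152) (XT.nd (nat_lit 78) (nat_lit 0) (nat_lit 76) (XT.lf (nat_lit 0) (nat_lit 1606988805) (nat_lit 1672) (nat_lit 3095960927) (nat_lit 1748) (nat_lit 10569238391) (nat_lit 364) (nat_lit 5) (nat_lit 386) (nat_lit 5) (nat_lit 387) (nat_lit 5) (nat_lit 308) (nat_lit 300) (nat_lit 172)) (XT.nd (nat_lit 78) (nat_lit 0) (nat_lit 0) (XT.lf (nat_lit 0) (nat_lit 2806406048) (nat_lit 1672) (nat_lit 7836458371) (nat_lit 1748) (nat_lit 4861531258) (nat_lit 365) (nat_lit 5) (nat_lit 387) (nat_lit 5) (nat_lit 388) (nat_lit 5) (nat_lit 309) (nat_lit 300) (nat_lit 171)) (XT.lf (nat_lit 76) (nat_lit 3051211927)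 (nat_lit 0) (nat_lit 1046849265) (nat_lit 1748) (nat_lit 11644397639) (nat_lit 366) (nat_lit 5) (nat_lit 365) (nat_lit 5) (nat_lit 388) (nat_lit 5) (nat_lit 310) (nat_lit 300) (nat_lit 170)))) (XT.nd (nat_lit 156) (nat_lit 0) (nat_lit 76) (XT.nd (nat_lit 78) (nat_lit 0) (nat_lit 76) (XT.lf (nat_lit 0) (nat_lit 5523600687) (nat_lit 1672) (nat_lit 1682924214) (nat_lit 1748) (nat_lit 8779250344) (nat_lit 366) (nat_lit 5) (nat_lit 388) (nat_lit 5) (nat_lit 389) (nat_lit 5) (nat_lit 311) (nat_lit 300) (nat_lit 169)) (XT.lf (nat_lit 0) (nat_lit 7064725308) (nat_lit 1672) (nat_lit 6487268831) (nat_lit 1748) (nat_lit 2682954283) (nat_lit 367) (nat_lit 5) (nat_lit 389) (nat_lit 5) (nat_lit 390) (nat_lit 5) (nat_lit 312) (nat_lit 300) (nat_lit 168))) (XT.nd (nat_lit 78) (nat_lit 0) (nat_lit 76) (XT.lf (nat_lit 76) (nat_lit 5059759982) (nat_lit 0) (nat_lit 3670008943) (nat_lit 1748) (nat_lit 7760287418) (nat_lit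 368) (nat_lit 5) (nat_lit 367) (nat_lit 5) (nat_lit 390) (nat_lit 5) (nat_lit 313) (nat_lit 300) (nat_lit 167)) (XT.lf (nat_lit 76) (nat_lit 239307417) (nat_lit 0) (nat_lit 10279062453) (nat_lit 1748) (nat_lit 6232988376) (nat_lit 369) (nat_lit 5) (nat_lit 368) (nat_lit 5) (nat_lit 391) (nat_lit 5) (nat_lit 314) (nat_lit 300) (nat_lit 166))))))) (XT.nd (nat_lit 1014) (nat_lit 6308) (nat_lit 0) (XT.nd (nat_lit 468) (nat_lit 4028) (nat_lit 0) (XT.nd (nat_lit 234) (nat_lit 2052) (nat_lit 0) (XT.nd (nat_lit 78) (nat_lit 1520) (nat_lit 0) (XT.lf (nat_lit 76) (nat_lit 12379430848) (nat_lit 0) (nat_lit 68927681) (nat_lit 1748) (nat_lit 4570398575) (nat_lit 369) (nat_lit 5) (nat_lit 368) (nat_lit 5) (nat_lit 391) (nat_lit 5) (nat_lit 315) (nat_lit 300) (nat_lit 165)) (XT.nd (nat_lit 78) (nat_lit 1596) (nat_lit 0) (XT.lf (nat_lit 76) (nat_lit 7610421286) (nat_lit 0) (nat_lit 6929391986) (nat_lit 1748) (nat_lit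 2752305456) (nat_lit 370) (nat_lit 5) (nat_lit 369) (nat_lit 5) (nat_lit 392) (nat_lit 5) (nat_lit 316) (nat_lit 300) (nat_lit 164)) (XT.lf (nat_lit 0) (nat_lit 2718916566) (nat_lit 1672) (nat_lit 14034453659) (nat_lit 1748) (nat_lit 819135579) (nat_lit 348) (nat_lit 5) (nat_lit 370) (nat_lit 5) (nat_lit 371) (nat_lit 5) (nat_lit 317) (nat_lit 300) (nat_lit 163)))) (XT.nd (nat_lit 78) (nat_lit 1976) (nat_lit 0) (XT.lf (nat_lit 0) (nat_lit 1255922792) (nat_lit 1748) (nat_lit 2301557954) (nat_lit 76) (nat_lit 14301697466) (nat_lit 347) (nat_lit 5) (nat_lit 370) (nat_lit 5) (nat_lit 348) (nat_lit 5) (nat_lit 318) (nat_lit 300) (nat_lit 162)) (XT.nd (nat_lit 78) (nat_lit 836) (nat_lit 0) (XT.lf (nat_lit 0) (nat_lit 3486717377) (nat_lit 1216) (nat_lit 7449048954) (nat_lit 76) (nat_lit 7216494786) (nat_lit 332) (nat_lit 5) (nat_lit 348) (nat_lit 5) (nat_lit 333) (nat_lit 5) (nat_lit 319) (nat_lit 300)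 (nat_lit 161)) (XT.lf (nat_lit 0) (nat_lit 5715855381) (nat_lit 836) (nat_lit 132759535) (nat_lit 912) (nat_lit 12604248576) (nat_lit 321) (nat_lit 5) (nat_lit 332) (nat_lit 5) (nat_lit 333) (nat_lit 5) (nat_lit 320) (nat_lit 300) (nat_lit 160))))) (XT.nd (nat_lit 234) (nat_lit 2432) (nat_lit 0) (XT.nd (nat_lit 78) (nat_lit 760) (nat_lit 0) (XT.lf (nat_lit 0) (nat_lit 540465006) (nat_lit 836) (nat_lit 7854485311) (nat_lit 912) (nat_lit 10365272259) (nat_lit 310) (nat_lit 5) (nat_lit 321) (nat_lit 5) (nat_lit 322) (nat_lit 5) (nat_lit 321) (nat_lit 300) (nat_lit 159)) (XT.nd (nat_lit 78) (nat_lit 760) (nat_lit 0) (XT.lf (nat_lit 0) (nat_lit 11114361179) (nat_lit 912) (nat_lit 4717852350) (nat_lit 76) (nat_lit 3242665151) (nat_lit 310) (nat_lit 5) (nat_lit 322) (nat_lit 5) (nat_lit 311) (nat_lit 5) (nat_lit 322) (nat_lit 300) (nat_lit 158)) (XT.lf (nat_lit 0) (nat_lit 9247010028) (nat_lit 760) (nat_lit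 4769419226) (nat_lit 836) (nat_lit 5380533386) (nat_lit 300) (nat_lit 5) (nat_lit 310) (nat_lit 5) (nat_lit 311) (nat_lit 5) (nat_lit 323) (nat_lit 300) (nat_lit 157)))) (XT.nd (nat_lit 156) (nat_lit 1520) (nat_lit 0) (XT.nd (nat_lit 78) (nat_lit 76) (nat_lit 0) (XT.lf (nat_lit 0) (nat_lit 3965193001) (nat_lit 836) (nat_lit 13130087635) (nat_lit 912) (nat_lit 2631643442) (nat_lit 289) (nat_lit 5) (nat_lit 300) (nat_lit 5) (nat_lit 301) (nat_lit 5) (nat_lit 324) (nat_lit 300) (nat_lit 156)) (XT.lf (nat_lit 0) (nat_lit 287179086) (nat_lit 912) (nat_lit 1467218897) (nat_lit 76) (nat_lit 18310567673) (nat_lit 288) (nat_lit 5) (nat_lit 300) (nat_lit 5) (nat_lit 289) (nat_lit 5) (nat_lit 325) (nat_lit 300) (nat_lit 155))) (XT.nd (nat_lit 78) (nat_lit 760) (nat_lit 0) (XT.lf (nat_lit 0) (nat_lit 3399696692) (nat_lit 836) (nat_lit 7072906968) (nat_lit 76) (nat_lit 9937367910) (nat_lit 278) (nat_lit 5)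 (nat_lit 289) (nat_lit 5) (nat_lit 279) (nat_lit 5) (nat_lit 326) (nat_lit 300) (nat_lit 154)) (XT.lf (nat_lit 0) (nat_lit 6676426254) (nat_lit 836) (nat_lit 12850310837) (nat_lit 76) (nat_lit 1237182263) (nat_lit 268) (nat_lit 5) (nat_lit 279) (nat_lit 5) (nat_lit 269) (nat_lit 5) (nat_lit 327) (nat_lit 300) (nat_lit 153)))))) (XT.nd (nat_lit 546) (nat_lit 2888) (nat_lit 0) (XT.nd (nat_lit 234) (nat_lit 2052) (nat_lit 0) (XT.nd (nat_lit 78) (nat_lit 684) (nat_lit 0) (XT.lf (nat_lit 0) (nat_lit 2267737964) (nat_lit 684) (nat_lit 7906482156) (nat_lit 760) (nat_lit 10951818380) (nat_lit 259) (nat_lit 5) (nat_lit 268) (nat_lit 5) (nat_lit 269) (nat_lit 5) (nat_lit 328) (nat_lit 300) (nat_lit 152)) (XT.nd (nat_lit 78) (nat_lit 684) (nat_lit 0) (XT.lf (nat_lit 0) (nat_lit 13880963211) (nat_lit 760) (nat_lit 3519697861) (nat_lit 76) (nat_lit 4096287777) (nat_lit 259) (nat_lit 5) (nat_lit 269) (nat_lit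 5) (nat_lit 260) (nat_lit 5) (nat_lit 329) (nat_lit 300) (nat_lit 151)) (XT.lf (nat_lit 0) (nat_lit 12378150641) (nat_lit 684) (nat_lit 5444276260) (nat_lit 760) (nat_lit 4054096948) (nat_lit 250) (nat_lit 5) (nat_lit 259) (nat_lit 5) (nat_lit 260) (nat_lit 5) (nat_lit 330) (nat_lit 300) (nat_lit 150)))) (XT.nd (nat_lit 156) (nat_lit 608) (nat_lit 0) (XT.nd (nat_lit 78) (nat_lit 760) (nat_lit 0) (XT.lf (nat_lit 0) (nat_lit 6565033138) (nat_lit 684) (nat_lit 15418833550) (nat_lit 760) (nat_lit 281592250) (nat_lit 241) (nat_lit 5) (nat_lit 250) (nat_lit 5) (nat_lit 251) (nat_lit 5) (nat_lit 331) (nat_lit 300) (nat_lit 149)) (XT.lf (nat_lit 0) (nat_lit 511691131) (nat_lit 684) (nat_lit 3140280058) (nat_lit 760) (nat_lit 19011726972) (nat_lit 231) (nat_lit 5) (nat_lit 240) (nat_lit 5) (nat_lit 241) (nat_lit 5) (nat_lit 332) (nat_lit 300) (nat_lit 148))) (XT.nd (nat_lit 78) (nat_lit 608) (nat_lit 0)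 (XT.lf (nat_lit 0) (nat_lit 7859387607) (nat_lit 760) (nat_lit 5721368781) (nat_lit 76) (nat_lit 9489904425) (nat_lit 231) (nat_lit 5) (nat_lit 241) (nat_lit 5) (nat_lit 232) (nat_lit 5) (nat_lit 333) (nat_lit 300) (nat_lit 147)) (XT.lf (nat_lit 0) (nat_lit 11319566259) (nat_lit 608) (nat_lit 959052926) (nat_lit 684) (nat_lit 11209508019) (nat_lit 223) (nat_lit 5) (nat_lit 231) (nat_lit 5) (nat_lit 232) (nat_lit 5) (nat_lit 334) (nat_lit 300) (nat_lit 146))))) (XT.nd (nat_lit 234) (nat_lit 1672) (nat_lit 0) (XT.nd (nat_lit 78) (nat_lit 608) (nat_lit 0) (XT.lf (nat_lit 0) (nat_lit 5009881456) (nat_lit 608) (nat_lit 11961565531) (nat_lit 684) (nat_lit 6943856729) (nat_lit 215) (nat_lit 5) (nat_lit 223) (nat_lit 5) (nat_lit 224) (nat_lit 5) (nat_lit 335) (nat_lit 300) (nat_lit 145)) (XT.nd (nat_lit 78) (nat_lit 608) (nat_lit 0) (XT.lf (nat_lit 0) (nat_lit 21891651421) (nat_lit 684) (nat_lit 1506165795)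 (nat_lit 76) (nat_lit 955752802) (nat_lit 215) (nat_lit 5) (nat_lit 224) (nat_lit 5) (nat_lit 216) (nat_lit 5) (nat_lit 336) (nat_lit 300) (nat_lit 144)) (XT.lf (nat_lit 0) (nat_lit 2306510842) (nat_lit 608) (nat_lit 8274351673) (nat_lit 76) (nat_lit 14220242259) (nat_lit 207) (nat_lit 5) (nat_lit 215) (nat_lit 5) (nat_lit 208) (nat_lit 5) (nat_lit 337) (nat_lit 300) (nat_lit 143)))) (XT.nd (nat_lit 156) (nat_lit 532) (nat_lit 0) (XT.nd (nat_lit 78) (nat_lit 532) (nat_lit 0) (XT.lf (nat_lit 0) (nat_lit 7269144528) (nat_lit 684) (nat_lit 15314210511) (nat_lit 76) (nat_lit 2676698934) (nat_lit 199) (nat_lit 5) (nat_lit 208) (nat_lit 5) (nat_lit 200) (nat_lit 5) (nat_lit 338) (nat_lit 300) (nat_lit 142)) (XT.lf (nat_lit 0) (nat_lit 3053419110) (nat_lit 532) (nat_lit 9466261112) (nat_lit 608) (nat_lit 13210316640) (nat_lit 192) (nat_lit 5) (nat_lit 199) (nat_lit 5) (nat_lit 200) (nat_lit 5) (nat_lit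 339) (nat_lit 300) (nat_lit 141))) (XT.nd (nat_lit 78) (nat_lit 532) (nat_lit 0) (XT.lf (nat_lit 0) (nat_lit 18050609382) (nat_lit 608) (nat_lit 4066951527) (nat_lit 76) (nat_lit 4094025095) (nat_lit 192) (nat_lit 5) (nat_lit 200) (nat_lit 5) (nat_lit 193) (nat_lit 5) (nat_lit 340) (nat_lit 300) (nat_lit 140)) (XT.lf (nat_lit 0) (nat_lit 15227914955) (nat_lit 532) (nat_lit 8674112333) (nat_lit 608) (nat_lit 2802509665) (nat_lit 185) (nat_lit 5) (nat_lit 192) (nat_lit 5) (nat_lit 193) (nat_lit 5) (nat_lit 341) (nat_lit 300) (nat_lit 139))))))))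
noncomputable def xc111 : XT := (XT.nd (nat_lit 38688) (nat_lit 0) (nat_lit 3344) (XT.nd (nat_lit 37596) (nat_lit 0) (nat_lit 17480) (XT.nd (nat_lit 468) (nat_lit 1824) (nat_lit 0) (XT.nd (nat_lit 234) (nat_lit 988) (nat_lit 0) (XT.nd (nat_lit 78) (nat_lit 532) (nat_lit 0) (XT.lf (nat_lit 0) (nat_lit 2787627223) (nat_lit 608) (nat_lit 19221130609) (nat_lit 76) (nat_lit 5201039996) (nat_lit 177) (nat_lit 5) (nat_lit 185) (nat_lit 5) (nat_lit 178) (nat_lit 5) (nat_lit 342) (nat_lit 300) (nat_lit 138)) (XT.nd (nat_lit 78) (nat_lit 0) (nat_lit 0) (XT.lf (nat_lit 0) (nat_lit 384730825) (nat_lit 532) (nat_lit 8254308171) (nat_lit 608) (nat_lit 19088179069) (nat_lit 170) (nat_lit 5) (nat_lit 177) (nat_lit 5) (nat_lit 178) (nat_lit 5) (nat_lit 343) (nat_lit 300) (nat_lit 137)) (XT.lf (nat_lit 0) (nat_lit 14828273983) (nat_lit 608) (nat_lit 7464319895) (nat_lit 76) (nat_lit 5964326215) (nat_lit 170) (nat_lit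 5) (nat_lit 178) (nat_lit 5) (nat_lit 171) (nat_lit 5) (nat_lit 344) (nat_lit 300) (nat_lit 136)))) (XT.nd (nat_lit 78) (nat_lit 532) (nat_lit 0) (XT.lf (nat_lit 0) (nat_lit 13117927791) (nat_lit 456) (nat_lit 8218619200) (nat_lit 532) (nat_lit 7463303633) (nat_lit 164) (nat_lit 5) (nat_lit 170) (nat_lit 5) (nat_lit 171) (nat_lit 5) (nat_lit 345) (nat_lit 300) (nat_lit 135)) (XT.nd (nat_lit 78) (nat_lit 76) (nat_lit 0) (XT.lf (nat_lit 0) (nat_lit 5078177446) (nat_lit 456) (nat_lit 23079658209) (nat_lit 532) (nat_lit 1198882591) (nat_lit 158) (nat_lit 5) (nat_lit 164) (nat_lit 5) (nat_lit 165) (nat_lit 5) (nat_lit 346) (nat_lit 300) (nat_lit 134)) (XT.lf (nat_lit 0) (nat_lit 5339717966) (nat_lit 532) (nat_lit 3351239385) (nat_lit 76) (nat_lit 21235553733) (nat_lit 157) (nat_lit 5) (nat_lit 164) (nat_lit 5) (nat_lit 158) (nat_lit 5) (nat_lit 347) (nat_lit 300) (nat_lit 133))))) (XT.nd (nat_lit 234)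 (nat_lit 532) (nat_lit 0) (XT.nd (nat_lit 78) (nat_lit 836) (nat_lit 0) (XT.lf (nat_lit 0) (nat_lit 12211974378) (nat_lit 532) (nat_lit 12122819878) (nat_lit 76) (nat_lit 6175373419) (nat_lit 151) (nat_lit 5) (nat_lit 158) (nat_lit 5) (nat_lit 152) (nat_lit 5) (nat_lit 348) (nat_lit 300) (nat_lit 132)) (XT.nd (nat_lit 78) (nat_lit 380) (nat_lit 0) (XT.lf (nat_lit 0) (nat_lit 9774256291) (nat_lit 456) (nat_lit 9654118257) (nat_lit 532) (nat_lit 11680203955) (nat_lit 145) (nat_lit 5) (nat_lit 151) (nat_lit 5) (nat_lit 152) (nat_lit 5) (nat_lit 349) (nat_lit 300) (nat_lit 131)) (XT.lf (nat_lit 0) (nat_lit 735772501) (nat_lit 380) (nat_lit 26242111692) (nat_lit 456) (nat_lit 4744729058) (nat_lit 140) (nat_lit 5) (nat_lit 145) (nat_lit 5) (nat_lit 146) (nat_lit 5) (nat_lit 350) (nat_lit 300) (nat_lit 130)))) (XT.nd (nat_lit 36738) (nat_lit 0) (nat_lit 18924) (XT.nd (nat_lit 78) (nat_lit 456) (nat_lit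 0) (XT.lf (nat_lit 0) (nat_lit 2571173341) (nat_lit 456) (nat_lit 8681942082) (nat_lit 76) (nat_lit 21097569393) (nat_lit 139) (nat_lit 5) (nat_lit 145) (nat_lit 5) (nat_lit 140) (nat_lit 5) (nat_lit 351) (nat_lit 300) (nat_lit 129)) (XT.lf (nat_lit 0) (nat_lit 10158131780) (nat_lit 532) (nat_lit 18581846867) (nat_lit 76) (nat_lit 4254675448) (nat_lit 133) (nat_lit 5) (nat_lit 140) (nat_lit 5) (nat_lit 134) (nat_lit 5) (nat_lit 352) (nat_lit 300) (nat_lit 128))) (XT.nd (nat_lit 78) (nat_lit 0) (nat_lit 0) (XT.lf (nat_lit 0) (nat_lit 2561489262) (nat_lit 0) (nat_lit 2561489262) (nat_lit 1596) (nat_lit 1869017658) (nat_lit 382) (nat_lit 5) (nat_lit 382) (nat_lit 3) (nat_lit 403) (nat_lit 3) (nat_lit 301) (nat_lit 301) (nat_lit 178)) (XT.lf (nat_lit 76) (nat_lit 526597906) (nat_lit 0) (nat_lit 10387503417) (nat_lit 1672) (nat_lit 3268909913) (nat_lit 383) (nat_lit 5) (nat_lit 382) (nat_lit 5) (nat_lit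 404) (nat_lit 5) (nat_lit 302) (nat_lit 301) (nat_lit 177)))))) (XT.nd (nat_lit 546) (nat_lit 0) (nat_lit 152) (XT.nd (nat_lit 234) (nat_lit 1444) (nat_lit 0) (XT.nd (nat_lit 78) (nat_lit 0) (nat_lit 76) (XT.lf (nat_lit 76) (nat_lit 10272337932) (nat_lit 0) (nat_lit 1405056765) (nat_lit 1672) (nat_lit 2709121515) (nat_lit 383) (nat_lit 5) (nat_lit 382) (nat_lit 5) (nat_lit 404) (nat_lit 5) (nat_lit 303) (nat_lit 301) (nat_lit 176)) (XT.nd (nat_lit 78) (nat_lit 0) (nat_lit 76) (XT.lf (nat_lit 76) (nat_lit 5728279917) (nat_lit 0) (nat_lit 6805080048) (nat_lit 1672) (nat_lit 2061388034) (nat_lit 384) (nat_lit 5) (nat_lit 383) (nat_lit 5) (nat_lit 405) (nat_lit 5) (nat_lit 304) (nat_lit 301) (nat_lit 175)) (XT.lf (nat_lit 76) (nat_lit 1092188433) (nat_lit 0) (nat_lit 12365250897) (nat_lit 1672) (nat_lit 1350955330) (nat_lit 385) (nat_lit 5) (nat_lit 384) (nat_lit 5) (nat_lit 406) (nat_lit 5) (nat_lit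 305) (nat_lit 301) (nat_lit 174)))) (XT.nd (nat_lit 156) (nat_lit 0) (nat_lit 76) (XT.nd (nat_lit 78) (nat_lit 1596) (nat_lit 0) (XT.lf (nat_lit 76) (nat_lit 11414543135) (nat_lit 0) (nat_lit 3082596683) (nat_lit 1672) (nat_lit 529569071) (nat_lit 385) (nat_lit 5) (nat_lit 384) (nat_lit 5) (nat_lit 406) (nat_lit 5) (nat_lit 306) (nat_lit 301) (nat_lit 173)) (XT.lf (nat_lit 0) (nat_lit 382334110) (nat_lit 1672) (nat_lit 8420585788) (nat_lit 1748) (nat_lit 6447226400) (nat_lit 363) (nat_lit 5) (nat_lit 385) (nat_lit 5) (nat_lit 386) (nat_lit 5) (nat_lit 307) (nat_lit 301) (nat_lit 172))) (XT.nd (nat_lit 78) (nat_lit 0) (nat_lit 0) (XT.lf (nat_lit 0) (nat_lit 1362229175) (nat_lit 1672) (nat_lit 13336954664) (nat_lit 1748) (nat_lit 780091306) (nat_lit 364) (nat_lit 5) (nat_lit 386) (nat_lit 5) (nat_lit 387) (nat_lit 5) (nat_lit 308) (nat_lit 301) (nat_lit 171)) (XT.lf (nat_lit 0) (nat_lit 2471740231)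 (nat_lit 1672) (nat_lit 2646689300) (nat_lit 1748) (nat_lit 10594858426) (nat_lit 364) (nat_lit 5) (nat_lit 386) (nat_lit 5) (nat_lit 387) (nat_lit 5) (nat_lit 309) (nat_lit 301) (nat_lit 170))))) (XT.nd (nat_lit 234) (nat_lit 0) (nat_lit 152) (XT.nd (nat_lit 78) (nat_lit 0) (nat_lit 0) (XT.lf (nat_lit 0) (nat_lit 3685113406) (nat_lit 1672) (nat_lit 7519852701) (nat_lit 1748) (nat_lit 4747957568) (nat_lit 365) (nat_lit 5) (nat_lit 387) (nat_lit 5) (nat_lit 388) (nat_lit 5) (nat_lit 310) (nat_lit 301) (nat_lit 169)) (XT.nd (nat_lit 78) (nat_lit 0) (nat_lit 76) (XT.lf (nat_lit 76) (nat_lit 3685497037) (nat_lit 0) (nat_lit 1310403833) (nat_lit 1748) (nat_lit 11202640984) (nat_lit 366) (nat_lit 5) (nat_lit 365) (nat_lit 5) (nat_lit 388) (nat_lit 5) (nat_lit 311) (nat_lit 301) (nat_lit 168)) (XT.lf (nat_lit 0) (nat_lit 6440173345) (nat_lit 1672) (nat_lit 1189288873) (nat_lit 1748) (nat_lit 8820196385)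 (nat_lit 366) (nat_lit 5) (nat_lit 388) (nat_lit 5) (nat_lit 389) (nat_lit 5) (nat_lit 312) (nat_lit 301) (nat_lit 167)))) (XT.nd (nat_lit 156) (nat_lit 0) (nat_lit 76) (XT.nd (nat_lit 78) (nat_lit 0) (nat_lit 0) (XT.lf (nat_lit 0) (nat_lit 8007857163) (nat_lit 1672) (nat_lit 6130008967) (nat_lit 1748) (nat_lit 2568853927) (nat_lit 367) (nat_lit 5) (nat_lit 389) (nat_lit 5) (nat_lit 390) (nat_lit 5) (nat_lit 313) (nat_lit 301) (nat_lit 166)) (XT.lf (nat_lit 76) (nat_lit 5754477146) (nat_lit 0) (nat_lit 3950603168) (nat_lit 1748) (nat_lit 7264775357) (nat_lit 368) (nat_lit 5) (nat_lit 367) (nat_lit 5) (nat_lit 390) (nat_lit 5) (nat_lit 314) (nat_lit 301) (nat_lit 165))) (XT.nd (nat_lit 78) (nat_lit 0) (nat_lit 0) (XT.lf (nat_lit 76) (nat_lit 796352291) (nat_lit 0) (nat_lit 10732703197) (nat_lit 1748) (nat_lit 5710325286) (nat_lit 369) (nat_lit 5) (nat_lit 368) (nat_lit 5) (nat_lit 391) (nat_lit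 5) (nat_lit 315) (nat_lit 301) (nat_lit 164)) (XT.lf (nat_lit 76) (nat_lit 13284663921) (nat_lit 0) (nat_lit 212033249) (nat_lit 1748) (nat_lit 4018527288) (nat_lit 369) (nat_lit 5) (nat_lit 368) (nat_lit 5) (nat_lit 391) (nat_lit 5) (nat_lit 316) (nat_lit 301) (nat_lit 163))))))) (XT.nd (nat_lit 1014) (nat_lit 6232) (nat_lit 0) (XT.nd (nat_lit 468) (nat_lit 3876) (nat_lit 0) (XT.nd (nat_lit 234) (nat_lit 2812) (nat_lit 0) (XT.nd (nat_lit 78) (nat_lit 1672) (nat_lit 0) (XT.lf (nat_lit 76) (nat_lit 8378690520) (nat_lit 0) (nat_lit 7255164823) (nat_lit 1748) (nat_lit 2163289798) (nat_lit 370) (nat_lit 5) (nat_lit 369) (nat_lit 5) (nat_lit 392) (nat_lit 5) (nat_lit 317) (nat_lit 301) (nat_lit 162)) (XT.nd (nat_lit 78) (nat_lit 76) (nat_lit 0) (XT.lf (nat_lit 0) (nat_lit 3345947794) (nat_lit 1672) (nat_lit 14551508979) (nat_lit 1748) (nat_lit 188831200) (nat_lit 348) (nat_lit 5) (nat_lit 370) (nat_lit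 5) (nat_lit 371) (nat_lit 5) (nat_lit 318) (nat_lit 301) (nat_lit 161)) (XT.lf (nat_lit 0) (nat_lit 1921066105) (nat_lit 1748) (nat_lit 1832153400) (nat_lit 76) (nat_lit 14628648574) (nat_lit 347) (nat_lit 5) (nat_lit 370) (nat_lit 5) (nat_lit 348) (nat_lit 5) (nat_lit 319) (nat_lit 301) (nat_lit 160)))) (XT.nd (nat_lit 78) (nat_lit 1672) (nat_lit 0) (XT.lf (nat_lit 0) (nat_lit 4203409763) (nat_lit 1216) (nat_lit 7129493399) (nat_lit 76) (nat_lit 7351163421) (nat_lit 332) (nat_lit 5) (nat_lit 348) (nat_lit 5) (nat_lit 333) (nat_lit 5) (nat_lit 320) (nat_lit 301) (nat_lit 159)) (XT.nd (nat_lit 78) (nat_lit 836) (nat_lit 0) (XT.lf (nat_lit 0) (nat_lit 6421548098) (nat_lit 836) (nat_lit 200256732) (nat_lit 912) (nat_lit 12372184548) (nat_lit 321) (nat_lit 5) (nat_lit 332) (nat_lit 5) (nat_lit 333) (nat_lit 5) (nat_lit 321) (nat_lit 301) (nat_lit 158)) (XT.lf (nat_lit 0) (nat_lit 1094892531) (nat_lit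 836) (nat_lit 8135322181) (nat_lit 912) (nat_lit 10080655554) (nat_lit 310) (nat_lit 5) (nat_lit 321) (nat_lit 5) (nat_lit 322) (nat_lit 5) (nat_lit 322) (nat_lit 301) (nat_lit 157))))) (XT.nd (nat_lit 234) (nat_lit 2280) (nat_lit 0) (XT.nd (nat_lit 78) (nat_lit 1596) (nat_lit 0) (XT.lf (nat_lit 0) (nat_lit 12013930270) (nat_lit 912) (nat_lit 4324760693) (nat_lit 76) (nat_lit 3296634936) (nat_lit 310) (nat_lit 5) (nat_lit 322) (nat_lit 5) (nat_lit 311) (nat_lit 5) (nat_lit 323) (nat_lit 301) (nat_lit 156)) (XT.nd (nat_lit 78) (nat_lit 836) (nat_lit 0) (XT.lf (nat_lit 0) (nat_lit 10050373865) (nat_lit 760) (nat_lit 4939611897) (nat_lit 836) (nat_lit 4977361982) (nat_lit 300) (nat_lit 5) (nat_lit 310) (nat_lit 5) (nat_lit 311) (nat_lit 5) (nat_lit 324) (nat_lit 301) (nat_lit 155)) (XT.lf (nat_lit 0) (nat_lit 4613079332) (nat_lit 836) (nat_lit 13535277982) (nat_lit 912) (nat_lit 2159121090) (nat_lit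 289) (nat_lit 5) (nat_lit 300) (nat_lit 5) (nat_lit 301) (nat_lit 5) (nat_lit 325) (nat_lit 301) (nat_lit 154)))) (XT.nd (nat_lit 156) (nat_lit 1444) (nat_lit 0) (XT.nd (nat_lit 78) (nat_lit 760) (nat_lit 0) (XT.lf (nat_lit 0) (nat_lit 824181842) (nat_lit 912) (nat_lit 990261272) (nat_lit 76) (nat_lit 18841476359) (nat_lit 288) (nat_lit 5) (nat_lit 300) (nat_lit 5) (nat_lit 289) (nat_lit 5) (nat_lit 326) (nat_lit 301) (nat_lit 153)) (XT.lf (nat_lit 0) (nat_lit 4017987993) (nat_lit 836) (nat_lit 6761806023) (nat_lit 76) (nat_lit 10231735737) (nat_lit 278) (nat_lit 5) (nat_lit 289) (nat_lit 5) (nat_lit 279) (nat_lit 5) (nat_lit 327) (nat_lit 301) (nat_lit 152))) (XT.nd (nat_lit 78) (nat_lit 684) (nat_lit 0) (XT.lf (nat_lit 0) (nat_lit 7381390162) (nat_lit 836) (nat_lit 12710592951) (nat_lit 76) (nat_lit 1284357530) (nat_lit 268) (nat_lit 5) (nat_lit 279) (nat_lit 5) (nat_lit 269) (nat_lit 5) (nat_lit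 328) (nat_lit 301) (nat_lit 151)) (XT.lf (nat_lit 0) (nat_lit 2852476126) (nat_lit 684) (nat_lit 8120297357) (nat_lit 760) (nat_lit 10776788501) (nat_lit 259) (nat_lit 5) (nat_lit 268) (nat_lit 5) (nat_lit 269) (nat_lit 5) (nat_lit 329) (nat_lit 301) (nat_lit 150)))))) (XT.nd (nat_lit 546) (nat_lit 2888) (nat_lit 0) (XT.nd (nat_lit 234) (nat_lit 1900) (nat_lit 0) (XT.nd (nat_lit 78) (nat_lit 1444) (nat_lit 0) (XT.lf (nat_lit 0) (nat_lit 14776497500) (nat_lit 760) (nat_lit 3113820932) (nat_lit 76) (nat_lit 4241577032) (nat_lit 259) (nat_lit 5) (nat_lit 269) (nat_lit 5) (nat_lit 260) (nat_lit 5) (nat_lit 330) (nat_lit 301) (nat_lit 149)) (XT.nd (nat_lit 78) (nat_lit 760) (nat_lit 0) (XT.lf (nat_lit 0) (nat_lit 13252665067) (nat_lit 684) (nat_lit 5572852421) (nat_lit 760) (nat_lit 3697565039) (nat_lit 250) (nat_lit 5) (nat_lit 259) (nat_lit 5) (nat_lit 260) (nat_lit 5) (nat_lit 331) (nat_lit 301)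 (nat_lit 148)) (XT.lf (nat_lit 0) (nat_lit 175420316) (nat_lit 760) (nat_lit 15658705680) (nat_lit 76) (nat_lit 7089750319) (nat_lit 240) (nat_lit 5) (nat_lit 250) (nat_lit 5) (nat_lit 241) (nat_lit 5) (nat_lit 332) (nat_lit 301) (nat_lit 147)))) (XT.nd (nat_lit 156) (nat_lit 1216) (nat_lit 0) (XT.nd (nat_lit 78) (nat_lit 0) (nat_lit 0) (XT.lf (nat_lit 0) (nat_lit 1029603697) (nat_lit 684) (nat_lit 3183399697) (nat_lit 760) (nat_lit 19121235546) (nat_lit 231) (nat_lit 5) (nat_lit 240) (nat_lit 5) (nat_lit 241) (nat_lit 5) (nat_lit 333) (nat_lit 301) (nat_lit 146)) (XT.lf (nat_lit 0) (nat_lit 8533814644) (nat_lit 760) (nat_lit 5396310527) (nat_lit 76) (nat_lit 9823551776) (nat_lit 231) (nat_lit 5) (nat_lit 241) (nat_lit 5) (nat_lit 232) (nat_lit 5) (nat_lit 334) (nat_lit 301) (nat_lit 145))) (XT.nd (nat_lit 78) (nat_lit 608) (nat_lit 0) (XT.lf (nat_lit 0) (nat_lit 12147794207) (nat_lit 608) (nat_lit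 928225463) (nat_lit 684) (nat_lit 11107849364) (nat_lit 223) (nat_lit 5) (nat_lit 231) (nat_lit 5) (nat_lit 232) (nat_lit 5) (nat_lit 335) (nat_lit 301) (nat_lit 144)) (XT.lf (nat_lit 0) (nat_lit 5649268124) (nat_lit 608) (nat_lit 12251419002) (nat_lit 684) (nat_lit 6723361976) (nat_lit 215) (nat_lit 5) (nat_lit 223) (nat_lit 5) (nat_lit 224) (nat_lit 5) (nat_lit 336) (nat_lit 301) (nat_lit 143))))) (XT.nd (nat_lit 234) (nat_lit 1672) (nat_lit 0) (XT.nd (nat_lit 78) (nat_lit 1216) (nat_lit 0) (XT.lf (nat_lit 0) (nat_lit 22956696769) (nat_lit 684) (nat_lit 1068480866) (nat_lit 76) (nat_lit 1050530855) (nat_lit 215) (nat_lit 5) (nat_lit 224) (nat_lit 5) (nat_lit 216) (nat_lit 5) (nat_lit 337) (nat_lit 301) (nat_lit 142)) (XT.nd (nat_lit 78) (nat_lit 608) (nat_lit 0) (XT.lf (nat_lit 0) (nat_lit 2778129766) (nat_lit 608) (nat_lit 8041910181) (nat_lit 76) (nat_lit 14716761366) (nat_lit 207) (nat_lit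 5) (nat_lit 215) (nat_lit 5) (nat_lit 208) (nat_lit 5) (nat_lit 338) (nat_lit 301) (nat_lit 141)) (XT.lf (nat_lit 0) (nat_lit 7881505172) (nat_lit 684) (nat_lit 15293121498) (nat_lit 76) (nat_lit 2835063455) (nat_lit 199) (nat_lit 5) (nat_lit 208) (nat_lit 5) (nat_lit 200) (nat_lit 5) (nat_lit 339) (nat_lit 301) (nat_lit 140)))) (XT.nd (nat_lit 156) (nat_lit 1140) (nat_lit 0) (XT.nd (nat_lit 78) (nat_lit 0) (nat_lit 0) (XT.lf (nat_lit 0) (nat_lit 3617741222) (nat_lit 532) (nat_lit 9663400858) (nat_lit 608) (nat_lit 13212765668) (nat_lit 192) (nat_lit 5) (nat_lit 199) (nat_lit 5) (nat_lit 200) (nat_lit 5) (nat_lit 340) (nat_lit 301) (nat_lit 139)) (XT.lf (nat_lit 0) (nat_lit 18967307591) (nat_lit 608) (nat_lit 3722800185) (nat_lit 76) (nat_lit 4300058527) (nat_lit 192) (nat_lit 5) (nat_lit 200) (nat_lit 5) (nat_lit 193) (nat_lit 5) (nat_lit 341) (nat_lit 301) (nat_lit 138))) (XT.nd (nat_lit 78)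 (nat_lit 608) (nat_lit 0) (XT.lf (nat_lit 0) (nat_lit 16143349400) (nat_lit 532) (nat_lit 8842968579) (nat_lit 608) (nat_lit 2511754482) (nat_lit 185) (nat_lit 5) (nat_lit 192) (nat_lit 5) (nat_lit 193) (nat_lit 5) (nat_lit 342) (nat_lit 301) (nat_lit 137)) (XT.lf (nat_lit 0) (nat_lit 3233969748) (nat_lit 608) (nat_lit 19334650078) (nat_lit 76) (nat_lit 5449973990) (nat_lit 177) (nat_lit 5) (nat_lit 185) (nat_lit 5) (nat_lit 178) (nat_lit 5) (nat_lit 343) (nat_lit 301) (nat_lit 136))))))))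
noncomputable def xc112 : XT := (XT.nd (nat_lit 38688) (nat_lit 0) (nat_lit 2356) (XT.nd (nat_lit 37674) (nat_lit 0) (nat_lit 16948) (XT.nd (nat_lit 468) (nat_lit 912) (nat_lit 0) (XT.nd (nat_lit 234) (nat_lit 988) (nat_lit 0) (XT.nd (nat_lit 78) (nat_lit 456) (nat_lit 0) (XT.lf (nat_lit 0) (nat_lit 851873717) (nat_lit 532) (nat_lit 8401443745) (nat_lit 608) (nat_lit 19298378424) (nat_lit 170) (nat_lit 5) (nat_lit 177) (nat_lit 5) (nat_lit 178) (nat_lit 5) (nat_lit 344) (nat_lit 301) (nat_lit 135)) (XT.nd (nat_lit 78) (nat_lit 456) (nat_lit 0) (XT.lf (nat_lit 0) (nat_lit 15618520035) (nat_lit 608) (nat_lit 7239426952) (nat_lit 76) (nat_lit 6239543068) (nat_lit 170) (nat_lit 5) (nat_lit 178) (nat_lit 5) (nat_lit 171) (nat_lit 5) (nat_lit 345) (nat_lit 301) (nat_lit 134)) (XT.lf (nat_lit 0) (nat_lit 13953006552) (nat_lit 456) (nat_lit 8361841326) (nat_lit 532) (nat_lit 7342011180) (nat_lit 164) (nat_lit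 5) (nat_lit 170) (nat_lit 5) (nat_lit 171) (nat_lit 5) (nat_lit 346) (nat_lit 301) (nat_lit 133)))) (XT.nd (nat_lit 78) (nat_lit 532) (nat_lit 0) (XT.lf (nat_lit 0) (nat_lit 5671113903) (nat_lit 456) (nat_lit 23663322680) (nat_lit 532) (nat_lit 896129393) (nat_lit 158) (nat_lit 5) (nat_lit 164) (nat_lit 5) (nat_lit 165) (nat_lit 5) (nat_lit 347) (nat_lit 301) (nat_lit 132)) (XT.nd (nat_lit 78) (nat_lit 456) (nat_lit 0) (XT.lf (nat_lit 0) (nat_lit 5824450579) (nat_lit 532) (nat_lit 3019499132) (nat_lit 76) (nat_lit 21973659811) (nat_lit 157) (nat_lit 5) (nat_lit 164) (nat_lit 5) (nat_lit 158) (nat_lit 5) (nat_lit 348) (nat_lit 301) (nat_lit 131)) (XT.lf (nat_lit 0) (nat_lit 12896880536) (nat_lit 532) (nat_lit 12055380575) (nat_lit 76) (nat_lit 6466640585) (nat_lit 151) (nat_lit 5) (nat_lit 158) (nat_lit 5) (nat_lit 152) (nat_lit 5) (nat_lit 349) (nat_lit 301) (nat_lit 130))))) (XT.nd (nat_lit 36894)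 (nat_lit 0) (nat_lit 18468) (XT.nd (nat_lit 78) (nat_lit 456) (nat_lit 0) (XT.lf (nat_lit 0) (nat_lit 10491613407) (nat_lit 456) (nat_lit 9831634969) (nat_lit 532) (nat_lit 11712152789) (nat_lit 145) (nat_lit 5) (nat_lit 151) (nat_lit 5) (nat_lit 152) (nat_lit 5) (nat_lit 350) (nat_lit 301) (nat_lit 129)) (XT.nd (nat_lit 78) (nat_lit 76) (nat_lit 0) (XT.lf (nat_lit 0) (nat_lit 1180708342) (nat_lit 380) (nat_lit 26912899107) (nat_lit 456) (nat_lit 4574367880) (nat_lit 140) (nat_lit 5) (nat_lit 145) (nat_lit 5) (nat_lit 146) (nat_lit 5) (nat_lit 351) (nat_lit 301) (nat_lit 128)) (XT.lf (nat_lit 0) (nat_lit 2947922031) (nat_lit 456) (nat_lit 8527692859) (nat_lit 76) (nat_lit 21839418700) (nat_lit 139) (nat_lit 5) (nat_lit 145) (nat_lit 5) (nat_lit 140) (nat_lit 5) (nat_lit 352) (nat_lit 301) (nat_lit 127)))) (XT.nd (nat_lit 156) (nat_lit 0) (nat_lit 0) (XT.nd (nat_lit 78) (nat_lit 0) (nat_lit 0) (XT.lf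 (nat_lit 0) (nat_lit 2879041623) (nat_lit 0) (nat_lit 2879041623) (nat_lit 1596) (nat_lit 1433596940) (nat_lit 382) (nat_lit 5) (nat_lit 382) (nat_lit 3) (nat_lit 403) (nat_lit 3) (nat_lit 302) (nat_lit 302) (nat_lit 176)) (XT.lf (nat_lit 76) (nat_lit 1038900600) (nat_lit 0) (nat_lit 11137599890) (nat_lit 1672) (nat_lit 2412432484) (nat_lit 383) (nat_lit 5) (nat_lit 382) (nat_lit 5) (nat_lit 404) (nat_lit 5) (nat_lit 303) (nat_lit 302) (nat_lit 175))) (XT.nd (nat_lit 78) (nat_lit 0) (nat_lit 76) (XT.lf (nat_lit 76) (nat_lit 11062551524) (nat_lit 0) (nat_lit 1872908827) (nat_lit 1672) (nat_lit 1863652707) (nat_lit 383) (nat_lit 5) (nat_lit 382) (nat_lit 5) (nat_lit 404) (nat_lit 5) (nat_lit 304) (nat_lit 302) (nat_lit 174)) (XT.lf (nat_lit 76) (nat_lit 6395760684) (nat_lit 0) (nat_lit 7395439300) (nat_lit 1672) (nat_lit 1222934481) (nat_lit 384) (nat_lit 5) (nat_lit 383) (nat_lit 5) (nat_lit 405)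 (nat_lit 5) (nat_lit 305) (nat_lit 302) (nat_lit 173)))))) (XT.nd (nat_lit 468) (nat_lit 0) (nat_lit 228) (XT.nd (nat_lit 234) (nat_lit 0) (nat_lit 152) (XT.nd (nat_lit 78) (nat_lit 1672) (nat_lit 0) (XT.lf (nat_lit 76) (nat_lit 1633168786) (nat_lit 0) (nat_lit 13085013498) (nat_lit 1672) (nat_lit 516528492) (nat_lit 385) (nat_lit 5) (nat_lit 384) (nat_lit 5) (nat_lit 406) (nat_lit 5) (nat_lit 306) (nat_lit 302) (nat_lit 172)) (XT.nd (nat_lit 78) (nat_lit 0) (nat_lit 76) (XT.lf (nat_lit 0) (nat_lit 300027998) (nat_lit 1672) (nat_lit 3211678941) (nat_lit 1748) (nat_lit 11948350414) (nat_lit 362) (nat_lit 5) (nat_lit 384) (nat_lit 5) (nat_lit 385) (nat_lit 5) (nat_lit 307) (nat_lit 302) (nat_lit 171)) (XT.lf (nat_lit 0) (nat_lit 1208866877) (nat_lit 1672) (nat_lit 8156935477) (nat_lit 1748) (nat_lit 6324812104) (nat_lit 363) (nat_lit 5) (nat_lit 385) (nat_lit 5) (nat_lit 386) (nat_lit 5) (nat_lit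 308) (nat_lit 302) (nat_lit 170)))) (XT.nd (nat_lit 78) (nat_lit 0) (nat_lit 0) (XT.lf (nat_lit 0) (nat_lit 2195855043) (nat_lit 1672) (nat_lit 13210703640) (nat_lit 1748) (nat_lit 520525970) (nat_lit 364) (nat_lit 5) (nat_lit 386) (nat_lit 5) (nat_lit 387) (nat_lit 5) (nat_lit 309) (nat_lit 302) (nat_lit 169)) (XT.nd (nat_lit 78) (nat_lit 0) (nat_lit 76) (XT.lf (nat_lit 0) (nat_lit 3315561362) (nat_lit 1672) (nat_lit 2215061179) (nat_lit 1748) (nat_lit 10637977892) (nat_lit 364) (nat_lit 5) (nat_lit 386) (nat_lit 5) (nat_lit 387) (nat_lit 5) (nat_lit 310) (nat_lit 302) (nat_lit 168)) (XT.lf (nat_lit 0) (nat_lit 4544573564) (nat_lit 1672) (nat_lit 7225418666) (nat_lit 1748) (nat_lit 4645868416) (nat_lit 365) (nat_lit 5) (nat_lit 387) (nat_lit 5) (nat_lit 388) (nat_lit 5) (nat_lit 311) (nat_lit 302) (nat_lit 167))))) (XT.nd (nat_lit 234) (nat_lit 0) (nat_lit 152) (XT.nd (nat_lit 78) (nat_lit 0)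 (nat_lit 76) (XT.lf (nat_lit 76) (nat_lit 4307654703) (nat_lit 0) (nat_lit 1568538731) (nat_lit 1748) (nat_lit 10793043351) (nat_lit 366) (nat_lit 5) (nat_lit 365) (nat_lit 5) (nat_lit 388) (nat_lit 5) (nat_lit 312) (nat_lit 302) (nat_lit 166)) (XT.nd (nat_lit 78) (nat_lit 0) (nat_lit 76) (XT.lf (nat_lit 0) (nat_lit 7341140482) (nat_lit 1672) (nat_lit 712079361) (nat_lit 1748) (nat_lit 8875139284) (nat_lit 366) (nat_lit 5) (nat_lit 388) (nat_lit 5) (nat_lit 389) (nat_lit 5) (nat_lit 313) (nat_lit 302) (nat_lit 165)) (XT.lf (nat_lit 0) (nat_lit 8937309671) (nat_lit 1672) (nat_lit 5793711358) (nat_lit 1748) (nat_lit 2462500765) (nat_lit 367) (nat_lit 5) (nat_lit 389) (nat_lit 5) (nat_lit 390) (nat_lit 5) (nat_lit 314) (nat_lit 302) (nat_lit 164)))) (XT.nd (nat_lit 156) (nat_lit 0) (nat_lit 76) (XT.nd (nat_lit 78) (nat_lit 0) (nat_lit 76) (XT.lf (nat_lit 76) (nat_lit 6438869746) (nat_lit 0) (nat_lit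 4229828169) (nat_lit 1748) (nat_lit 6796206521) (nat_lit 368) (nat_lit 5) (nat_lit 367) (nat_lit 5) (nat_lit 390) (nat_lit 5) (nat_lit 315) (nat_lit 302) (nat_lit 163)) (XT.lf (nat_lit 76) (nat_lit 1338543974) (nat_lit 0) (nat_lit 11191614135) (nat_lit 1748) (nat_lit 5212719273) (nat_lit 369) (nat_lit 5) (nat_lit 368) (nat_lit 5) (nat_lit 391) (nat_lit 5) (nat_lit 316) (nat_lit 302) (nat_lit 162))) (XT.nd (nat_lit 78) (nat_lit 0) (nat_lit 76) (XT.lf (nat_lit 76) (nat_lit 14186408804) (nat_lit 0) (nat_lit 351335841) (nat_lit 1748) (nat_lit 3489650319) (nat_lit 369) (nat_lit 5) (nat_lit 368) (nat_lit 5) (nat_lit 391) (nat_lit 5) (nat_lit 317) (nat_lit 302) (nat_lit 161)) (XT.lf (nat_lit 76) (nat_lit 9139012114) (nat_lit 0) (nat_lit 7583943415) (nat_lit 1748) (nat_lit 1595155385) (nat_lit 370) (nat_lit 5) (nat_lit 369) (nat_lit 5) (nat_lit 392) (nat_lit 5) (nat_lit 318) (nat_lit 302) (nat_lit 160)))))))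 (XT.nd (nat_lit 1014) (nat_lit 6764) (nat_lit 0) (XT.nd (nat_lit 468) (nat_lit 3876) (nat_lit 0) (XT.nd (nat_lit 234) (nat_lit 1672) (nat_lit 0) (XT.nd (nat_lit 78) (nat_lit 1140) (nat_lit 0) (XT.lf (nat_lit 0) (nat_lit 417244646) (nat_lit 1748) (nat_lit 14658519342) (nat_lit 76) (nat_lit 3540433531) (nat_lit 347) (nat_lit 5) (nat_lit 370) (nat_lit 5) (nat_lit 348) (nat_lit 5) (nat_lit 319) (nat_lit 302) (nat_lit 159)) (XT.nd (nat_lit 78) (nat_lit 1140) (nat_lit 0) (XT.lf (nat_lit 0) (nat_lit 2570144623) (nat_lit 1748) (nat_lit 1379576017) (nat_lit 76) (nat_lit 14971269163) (nat_lit 347) (nat_lit 5) (nat_lit 370) (nat_lit 5) (nat_lit 348) (nat_lit 5) (nat_lit 320) (nat_lit 302) (nat_lit 158)) (XT.lf (nat_lit 0) (nat_lit 4906466402) (nat_lit 1216) (nat_lit 6831523149) (nat_lit 76) (nat_lit 7494569274) (nat_lit 332) (nat_lit 5) (nat_lit 348) (nat_lit 5) (nat_lit 333) (nat_lit 5) (nat_lit 321) (nat_lit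 302) (nat_lit 157)))) (XT.nd (nat_lit 78) (nat_lit 836) (nat_lit 0) (XT.lf (nat_lit 0) (nat_lit 7117745352) (nat_lit 836) (nat_lit 266132859) (nat_lit 912) (nat_lit 12168186087) (nat_lit 321) (nat_lit 5) (nat_lit 332) (nat_lit 5) (nat_lit 333) (nat_lit 5) (nat_lit 322) (nat_lit 302) (nat_lit 156)) (XT.nd (nat_lit 78) (nat_lit 0) (nat_lit 0) (XT.lf (nat_lit 0) (nat_lit 1635057221) (nat_lit 836) (nat_lit 8421989360) (nat_lit 912) (nat_lit 9821688783) (nat_lit 310) (nat_lit 5) (nat_lit 321) (nat_lit 5) (nat_lit 322) (nat_lit 5) (nat_lit 323) (nat_lit 302) (nat_lit 155)) (XT.lf (nat_lit 0) (nat_lit 12907987781) (nat_lit 912) (nat_lit 3950566076) (nat_lit 76) (nat_lit 3354709996) (nat_lit 310) (nat_lit 5) (nat_lit 322) (nat_lit 5) (nat_lit 311) (nat_lit 5) (nat_lit 324) (nat_lit 302) (nat_lit 154))))) (XT.nd (nat_lit 234) (nat_lit 2204) (nat_lit 0) (XT.nd (nat_lit 78) (nat_lit 912) (nat_lit 0) (XT.lf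 (nat_lit 0) (nat_lit 10847646732) (nat_lit 760) (nat_lit 5113354118) (nat_lit 836) (nat_lit 4594505063) (nat_lit 300) (nat_lit 5) (nat_lit 310) (nat_lit 5) (nat_lit 311) (nat_lit 5) (nat_lit 325) (nat_lit 302) (nat_lit 153)) (XT.nd (nat_lit 78) (nat_lit 76) (nat_lit 0) (XT.lf (nat_lit 0) (nat_lit 5250039476) (nat_lit 836) (nat_lit 13951976078) (nat_lit 912) (nat_lit 1704079797) (nat_lit 289) (nat_lit 5) (nat_lit 300) (nat_lit 5) (nat_lit 301) (nat_lit 5) (nat_lit 326) (nat_lit 302) (nat_lit 152)) (XT.lf (nat_lit 0) (nat_lit 1346963084) (nat_lit 912) (nat_lit 528900968) (nat_lit 76) (nat_lit 19389369020) (nat_lit 288) (nat_lit 5) (nat_lit 300) (nat_lit 5) (nat_lit 289) (nat_lit 5) (nat_lit 327) (nat_lit 302) (nat_lit 151)))) (XT.nd (nat_lit 156) (nat_lit 684) (nat_lit 0) (XT.nd (nat_lit 78) (nat_lit 760) (nat_lit 0) (XT.lf (nat_lit 0) (nat_lit 4625190279) (nat_lit 836) (nat_lit 6471410930) (nat_lit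 76) (nat_lit 10535150049) (nat_lit 278) (nat_lit 5) (nat_lit 289) (nat_lit 5) (nat_lit 279) (nat_lit 5) (nat_lit 328) (nat_lit 302) (nat_lit 150)) (XT.lf (nat_lit 0) (nat_lit 8078532801) (nat_lit 836) (nat_lit 12596833719) (nat_lit 76) (nat_lit 1332370580) (nat_lit 268) (nat_lit 5) (nat_lit 279) (nat_lit 5) (nat_lit 269) (nat_lit 5) (nat_lit 329) (nat_lit 302) (nat_lit 149))) (XT.nd (nat_lit 78) (nat_lit 0) (nat_lit 0) (XT.lf (nat_lit 0) (nat_lit 3425095394) (nat_lit 684) (nat_lit 8341869080) (nat_lit 760) (nat_lit 10625415531) (nat_lit 259) (nat_lit 5) (nat_lit 268) (nat_lit 5) (nat_lit 269) (nat_lit 5) (nat_lit 330) (nat_lit 302) (nat_lit 148)) (XT.lf (nat_lit 0) (nat_lit 15671395207) (nat_lit 760) (nat_lit 2725128043) (nat_lit 76) (nat_lit 4389939077) (nat_lit 259) (nat_lit 5) (nat_lit 269) (nat_lit 5) (nat_lit 260) (nat_lit 5) (nat_lit 331) (nat_lit 302) (nat_lit 147)))))) (XT.nd (nat_lit 546)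 (nat_lit 3420) (nat_lit 0) (XT.nd (nat_lit 234) (nat_lit 1216) (nat_lit 0) (XT.nd (nat_lit 78) (nat_lit 1444) (nat_lit 0) (XT.lf (nat_lit 0) (nat_lit 14124530914) (nat_lit 684) (nat_lit 5707280780) (nat_lit 760) (nat_lit 3357785216) (nat_lit 250) (nat_lit 5) (nat_lit 259) (nat_lit 5) (nat_lit 260) (nat_lit 5) (nat_lit 332) (nat_lit 302) (nat_lit 146)) (XT.nd (nat_lit 78) (nat_lit 684) (nat_lit 0) (XT.lf (nat_lit 0) (nat_lit 615838366) (nat_lit 760) (nat_lit 15646941954) (nat_lit 76) (nat_lit 7339778394) (nat_lit 240) (nat_lit 5) (nat_lit 250) (nat_lit 5) (nat_lit 241) (nat_lit 5) (nat_lit 333) (nat_lit 302) (nat_lit 145)) (XT.lf (nat_lit 0) (nat_lit 1534204534) (nat_lit 684) (nat_lit 3230745628) (nat_lit 760) (nat_lit 19260483665) (nat_lit 231) (nat_lit 5) (nat_lit 240) (nat_lit 5) (nat_lit 241) (nat_lit 5) (nat_lit 334) (nat_lit 302) (nat_lit 144)))) (XT.nd (nat_lit 156) (nat_lit 608) (nat_lit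 0) (XT.nd (nat_lit 78) (nat_lit 608) (nat_lit 0) (XT.lf (nat_lit 0) (nat_lit 9203294451) (nat_lit 760) (nat_lit 5090013099) (nat_lit 76) (nat_lit 10164398605) (nat_lit 231) (nat_lit 5) (nat_lit 241) (nat_lit 5) (nat_lit 232) (nat_lit 5) (nat_lit 335) (nat_lit 302) (nat_lit 143)) (XT.lf (nat_lit 0) (nat_lit 12972819003) (nat_lit 608) (nat_lit 899894406) (nat_lit 684) (nat_lit 11028280721) (nat_lit 223) (nat_lit 5) (nat_lit 231) (nat_lit 5) (nat_lit 232) (nat_lit 5) (nat_lit 336) (nat_lit 302) (nat_lit 142))) (XT.nd (nat_lit 78) (nat_lit 0) (nat_lit 0) (XT.lf (nat_lit 0) (nat_lit 6279760611) (nat_lit 608) (nat_lit 12553928585) (nat_lit 684) (nat_lit 6520867854) (nat_lit 215) (nat_lit 5) (nat_lit 223) (nat_lit 5) (nat_lit 224) (nat_lit 5) (nat_lit 337) (nat_lit 302) (nat_lit 141)) (XT.lf (nat_lit 0) (nat_lit 24030255628) (nat_lit 684) (nat_lit 645384097) (nat_lit 76) (nat_lit 1144357526) (nat_lit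 215) (nat_lit 5) (nat_lit 224) (nat_lit 5) (nat_lit 216) (nat_lit 5) (nat_lit 338) (nat_lit 302) (nat_lit 140))))) (XT.nd (nat_lit 234) (nat_lit 1672) (nat_lit 0) (XT.nd (nat_lit 78) (nat_lit 1140) (nat_lit 0) (XT.lf (nat_lit 0) (nat_lit 3240796497) (nat_lit 608) (nat_lit 7830087986) (nat_lit 76) (nat_lit 15224162821) (nat_lit 207) (nat_lit 5) (nat_lit 215) (nat_lit 5) (nat_lit 208) (nat_lit 5) (nat_lit 339) (nat_lit 302) (nat_lit 139)) (XT.nd (nat_lit 78) (nat_lit 532) (nat_lit 0) (XT.lf (nat_lit 0) (nat_lit 8489602989) (nat_lit 684) (nat_lit 15298983360) (nat_lit 76) (nat_lit 2993697745) (nat_lit 199) (nat_lit 5) (nat_lit 208) (nat_lit 5) (nat_lit 200) (nat_lit 5) (nat_lit 340) (nat_lit 302) (nat_lit 138)) (XT.lf (nat_lit 0) (nat_lit 4171856961) (nat_lit 532) (nat_lit 9871440231) (nat_lit 608) (nat_lit 13237897368) (nat_lit 192) (nat_lit 5) (nat_lit 199) (nat_lit 5) (nat_lit 200) (nat_lit 5)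 (nat_lit 341) (nat_lit 302) (nat_lit 137)))) (XT.nd (nat_lit 156) (nat_lit 1140) (nat_lit 0) (XT.nd (nat_lit 78) (nat_lit 532) (nat_lit 0) (XT.lf (nat_lit 0) (nat_lit 19889969884) (nat_lit 608) (nat_lit 3395083788) (nat_lit 76) (nat_lit 4507496214) (nat_lit 192) (nat_lit 5) (nat_lit 200) (nat_lit 5) (nat_lit 193) (nat_lit 5) (nat_lit 342) (nat_lit 302) (nat_lit 136)) (XT.lf (nat_lit 0) (nat_lit 17059921536) (nat_lit 532) (nat_lit 9022135359) (nat_lit 608) (nat_lit 2233793447) (nat_lit 185) (nat_lit 5) (nat_lit 192) (nat_lit 5) (nat_lit 193) (nat_lit 5) (nat_lit 343) (nat_lit 302) (nat_lit 135))) (XT.nd (nat_lit 78) (nat_lit 532) (nat_lit 0) (XT.lf (nat_lit 0) (nat_lit 3672881299) (nat_lit 608) (nat_lit 19478159795) (nat_lit 76) (nat_lit 5701043003) (nat_lit 177) (nat_lit 5) (nat_lit 185) (nat_lit 5) (nat_lit 178) (nat_lit 5) (nat_lit 344) (nat_lit 302) (nat_lit 134)) (XT.lf (nat_lit 0) (nat_lit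 1306877536) (nat_lit 532) (nat_lit 8558762134) (nat_lit 608) (nat_lit 19535689645) (nat_lit 170) (nat_lit 5) (nat_lit 177) (nat_lit 5) (nat_lit 178) (nat_lit 5) (nat_lit 345) (nat_lit 302) (nat_lit 133))))))))
noncomputable def xc113 : XT := (XT.nd (nat_lit 38844) (nat_lit 0) (nat_lit 988) (XT.nd (nat_lit 37830) (nat_lit 0) (nat_lit 14212) (XT.nd (nat_lit 37284) (nat_lit 0) (nat_lit 16492) (XT.nd (nat_lit 234) (nat_lit 988) (nat_lit 0) (XT.nd (nat_lit 78) (nat_lit 912) (nat_lit 0) (XT.lf (nat_lit 0) (nat_lit 16412646220) (nat_lit 608) (nat_lit 7033551470) (nat_lit 76) (nat_lit 6517489155) (nat_lit 170) (nat_lit 5) (nat_lit 178) (nat_lit 5) (nat_lit 171) (nat_lit 5) (nat_lit 346) (nat_lit 302) (nat_lit 132)) (XT.nd (nat_lit 78) (nat_lit 456) (nat_lit 0) (XT.lf (nat_lit 0) (nat_lit 14787791421) (nat_lit 456) (nat_lit 8515292051) (nat_lit 532) (nat_lit 7236895361) (nat_lit 164) (nat_lit 5) (nat_lit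 170) (nat_lit 5) (nat_lit 171) (nat_lit 5) (nat_lit 347) (nat_lit 302) (nat_lit 131)) (XT.lf (nat_lit 0) (nat_lit 6256546721) (nat_lit 456) (nat_lit 24270738362) (nat_lit 532) (nat_lit 603737494) (nat_lit 158) (nat_lit 5) (nat_lit 164) (nat_lit 5) (nat_lit 165) (nat_lit 5) (nat_lit 348) (nat_lit 302) (nat_lit 130)))) (XT.nd (nat_lit 78) (nat_lit 912) (nat_lit 0) (XT.lf (nat_lit 0) (nat_lit 6305095185) (nat_lit 532) (nat_lit 2702621164) (nat_lit 76) (nat_lit 22728108993) (nat_lit 157) (nat_lit 5) (nat_lit 164) (nat_lit 5) (nat_lit 158) (nat_lit 5) (nat_lit 349) (nat_lit 302) (nat_lit 129)) (XT.nd (nat_lit 78) (nat_lit 456) (nat_lit 0) (XT.lf (nat_lit 0) (nat_lit 13584047982) (nat_lit 532) (nat_lit 12010666368) (nat_lit 76) (nat_lit 6760560591) (nat_lit 151) (nat_lit 5) (nat_lit 158) (nat_lit 5) (nat_lit 152) (nat_lit 5) (nat_lit 350) (nat_lit 302) (nat_lit 128)) (XT.lf (nat_lit 0) (nat_lit 11206144471)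 (nat_lit 456) (nat_lit 10020912573) (nat_lit 532) (nat_lit 11763340838) (nat_lit 145) (nat_lit 5) (nat_lit 151) (nat_lit 5) (nat_lit 152) (nat_lit 5) (nat_lit 351) (nat_lit 302) (nat_lit 127))))) (XT.nd (nat_lit 234) (nat_lit 1520) (nat_lit 0) (XT.nd (nat_lit 78) (nat_lit 0) (nat_lit 0) (XT.lf (nat_lit 0) (nat_lit 3192302949) (nat_lit 0) (nat_lit 3192302949) (nat_lit 1596) (nat_lit 1013327208) (nat_lit 382) (nat_lit 5) (nat_lit 382) (nat_lit 3) (nat_lit 403) (nat_lit 3) (nat_lit 303) (nat_lit 303) (nat_lit 174)) (XT.nd (nat_lit 78) (nat_lit 0) (nat_lit 0) (XT.lf (nat_lit 76) (nat_lit 1538070971) (nat_lit 0) (nat_lit 11885029206) (nat_lit 1672) (nat_lit 1585055503) (nat_lit 383) (nat_lit 5) (nat_lit 382) (nat_lit 5) (nat_lit 404) (nat_lit 5) (nat_lit 304) (nat_lit 303) (nat_lit 173)) (XT.lf (nat_lit 76) (nat_lit 11848800257) (nat_lit 0) (nat_lit 2330359509) (nat_lit 1672) (nat_lit 1046018642) (nat_lit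 383) (nat_lit 5) (nat_lit 382) (nat_lit 5) (nat_lit 404) (nat_lit 5) (nat_lit 305) (nat_lit 303) (nat_lit 172)))) (XT.nd (nat_lit 156) (nat_lit 0) (nat_lit 0) (XT.nd (nat_lit 78) (nat_lit 1596) (nat_lit 0) (XT.lf (nat_lit 76) (nat_lit 7054814548) (nat_lit 0) (nat_lit 7981339477) (nat_lit 1672) (nat_lit 411007949) (nat_lit 384) (nat_lit 5) (nat_lit 383) (nat_lit 5) (nat_lit 405) (nat_lit 5) (nat_lit 306) (nat_lit 303) (nat_lit 171)) (XT.lf (nat_lit 0) (nat_lit 288866244) (nat_lit 1672) (nat_lit 13515541449) (nat_lit 1748) (nat_lit 1870400257) (nat_lit 362) (nat_lit 5) (nat_lit 384) (nat_lit 5) (nat_lit 385) (nat_lit 5) (nat_lit 307) (nat_lit 303) (nat_lit 170))) (XT.nd (nat_lit 78) (nat_lit 0) (nat_lit 76) (XT.lf (nat_lit 0) (nat_lit 1099235632) (nat_lit 1672) (nat_lit 2831725866) (nat_lit 1748) (nat_lit 11976379873) (nat_lit 362) (nat_lit 5) (nat_lit 384) (nat_lit 5) (nat_lit 385) (nat_lit 5) (nat_lit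 308) (nat_lit 303) (nat_lit 169)) (XT.lf (nat_lit 0) (nat_lit 2013407691) (nat_lit 1672) (nat_lit 7915011544) (nat_lit 1748) (nat_lit 6216855376) (nat_lit 363) (nat_lit 5) (nat_lit 385) (nat_lit 5) (nat_lit 386) (nat_lit 5) (nat_lit 309) (nat_lit 303) (nat_lit 168)))))) (XT.nd (nat_lit 468) (nat_lit 2432) (nat_lit 0) (XT.nd (nat_lit 234) (nat_lit 0) (nat_lit 76) (XT.nd (nat_lit 78) (nat_lit 0) (nat_lit 0) (XT.lf (nat_lit 0) (nat_lit 3008982077) (nat_lit 1672) (nat_lit 13110880283) (nat_lit 1748) (nat_lit 269417199) (nat_lit 364) (nat_lit 5) (nat_lit 386) (nat_lit 5) (nat_lit 387) (nat_lit 5) (nat_lit 310) (nat_lit 303) (nat_lit 167)) (XT.nd (nat_lit 78) (nat_lit 0) (nat_lit 76) (XT.lf (nat_lit 0) (nat_lit 4140514983) (nat_lit 1672) (nat_lit 1799819357) (nat_lit 1748) (nat_lit 10698161355) (nat_lit 364) (nat_lit 5) (nat_lit 386) (nat_lit 5) (nat_lit 387) (nat_lit 5) (nat_lit 311) (nat_lit 303) (nat_lit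 166)) (XT.lf (nat_lit 0) (nat_lit 5386827215) (nat_lit 1672) (nat_lit 6952003436) (nat_lit 1748) (nat_lit 4554753490) (nat_lit 365) (nat_lit 5) (nat_lit 387) (nat_lit 5) (nat_lit 388) (nat_lit 5) (nat_lit 312) (nat_lit 303) (nat_lit 165)))) (XT.nd (nat_lit 78) (nat_lit 0) (nat_lit 76) (XT.lf (nat_lit 76) (nat_lit 4919109581) (nat_lit 0) (nat_lit 1821856352) (nat_lit 1748) (nat_lit 10413962691) (nat_lit 366) (nat_lit 5) (nat_lit 365) (nat_lit 5) (nat_lit 388) (nat_lit 5) (nat_lit 313) (nat_lit 303) (nat_lit 164)) (XT.nd (nat_lit 78) (nat_lit 0) (nat_lit 76) (XT.lf (nat_lit 0) (nat_lit 8228508202) (nat_lit 1672) (nat_lit 249995444) (nat_lit 1748) (nat_lit 8943765984) (nat_lit 366) (nat_lit 5) (nat_lit 388) (nat_lit 5) (nat_lit 389) (nat_lit 5) (nat_lit 314) (nat_lit 303) (nat_lit 163)) (XT.lf (nat_lit 0) (nat_lit 9855081891) (nat_lit 1672) (nat_lit 5477186307) (nat_lit 1748) (nat_lit 2363485996)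 (nat_lit 367) (nat_lit 5) (nat_lit 389) (nat_lit 5) (nat_lit 390) (nat_lit 5) (nat_lit 315) (nat_lit 303) (nat_lit 162))))) (XT.nd (nat_lit 234) (nat_lit 2660) (nat_lit 0) (XT.nd (nat_lit 78) (nat_lit 0) (nat_lit 76) (XT.lf (nat_lit 76) (nat_lit 7114417105) (nat_lit 0) (nat_lit 4508204686) (nat_lit 1748) (nat_lit 6352989222) (nat_lit 368) (nat_lit 5) (nat_lit 367) (nat_lit 5) (nat_lit 390) (nat_lit 5) (nat_lit 316) (nat_lit 303) (nat_lit 161)) (XT.nd (nat_lit 78) (nat_lit 0) (nat_lit 0) (XT.lf (nat_lit 76) (nat_lit 1867248802) (nat_lit 0) (nat_lit 11656432069) (nat_lit 1748) (nat_lit 4738583582) (nat_lit 369) (nat_lit 5) (nat_lit 368) (nat_lit 5) (nat_lit 391) (nat_lit 5) (nat_lit 317) (nat_lit 303) (nat_lit 160)) (XT.lf (nat_lit 76) (nat_lit 15086320009) (nat_lit 0) (nat_lit 487186120) (nat_lit 1748) (nat_lit 2982187140) (nat_lit 369) (nat_lit 5) (nat_lit 368) (nat_lit 5) (nat_lit 391) (nat_lit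 5) (nat_lit 318) (nat_lit 303) (nat_lit 159)))) (XT.nd (nat_lit 156) (nat_lit 1140) (nat_lit 0) (XT.nd (nat_lit 78) (nat_lit 1672) (nat_lit 0) (XT.lf (nat_lit 76) (nat_lit 9892926919) (nat_lit 0) (nat_lit 7916206413) (nat_lit 1748) (nat_lit 1046315631) (nat_lit 370) (nat_lit 5) (nat_lit 369) (nat_lit 5) (nat_lit 392) (nat_lit 5) (nat_lit 319) (nat_lit 303) (nat_lit 158)) (XT.lf (nat_lit 0) (nat_lit 1003981922) (nat_lit 1748) (nat_lit 14605515713) (nat_lit 76) (nat_lit 3553210742) (nat_lit 347) (nat_lit 5) (nat_lit 370) (nat_lit 5) (nat_lit 348) (nat_lit 5) (nat_lit 320) (nat_lit 303) (nat_lit 157))) (XT.nd (nat_lit 78) (nat_lit 1140) (nat_lit 0) (XT.lf (nat_lit 0) (nat_lit 3204744046) (nat_lit 1748) (nat_lit 942556299) (nat_lit 76) (nat_lit 15329692873) (nat_lit 347) (nat_lit 5) (nat_lit 370) (nat_lit 5) (nat_lit 348) (nat_lit 5) (nat_lit 321) (nat_lit 303) (nat_lit 156)) (XT.lf (nat_lit 0) (nat_lit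 5597495200) (nat_lit 1216) (nat_lit 6553996366) (nat_lit 76) (nat_lit 7646704826) (nat_lit 332) (nat_lit 5) (nat_lit 348) (nat_lit 5) (nat_lit 333) (nat_lit 5) (nat_lit 322) (nat_lit 303) (nat_lit 155))))))) (XT.nd (nat_lit 1014) (nat_lit 5548) (nat_lit 0) (XT.nd (nat_lit 468) (nat_lit 4332) (nat_lit 0) (XT.nd (nat_lit 234) (nat_lit 1672) (nat_lit 0) (XT.nd (nat_lit 78) (nat_lit 836) (nat_lit 0) (XT.lf (nat_lit 0) (nat_lit 7805922648) (nat_lit 836) (nat_lit 330548577) (nat_lit 912) (nat_lit 11991084438) (nat_lit 321) (nat_lit 5) (nat_lit 332) (nat_lit 5) (nat_lit 333) (nat_lit 5) (nat_lit 323) (nat_lit 303) (nat_lit 154)) (XT.nd (nat_lit 78) (nat_lit 0) (nat_lit 0) (XT.lf (nat_lit 0) (nat_lit 2162304728) (nat_lit 836) (nat_lit 8714810709) (nat_lit 912) (nat_lit 9587178886) (nat_lit 310) (nat_lit 5) (nat_lit 321) (nat_lit 5) (nat_lit 322) (nat_lit 5) (nat_lit 324) (nat_lit 303) (nat_lit 153)) (XT.lf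 (nat_lit 0) (nat_lit 13798233921) (nat_lit 912) (nat_lit 3594073691) (nat_lit 76) (nat_lit 3416870771) (nat_lit 310) (nat_lit 5) (nat_lit 322) (nat_lit 5) (nat_lit 311) (nat_lit 5) (nat_lit 325) (nat_lit 303) (nat_lit 152)))) (XT.nd (nat_lit 78) (nat_lit 912) (nat_lit 0) (XT.lf (nat_lit 0) (nat_lit 11640379038) (nat_lit 760) (nat_lit 5290841710) (nat_lit 836) (nat_lit 4230711618) (nat_lit 300) (nat_lit 5) (nat_lit 310) (nat_lit 5) (nat_lit 311) (nat_lit 5) (nat_lit 326) (nat_lit 303) (nat_lit 151)) (XT.nd (nat_lit 78) (nat_lit 76) (nat_lit 0) (XT.lf (nat_lit 0) (nat_lit 5877488595) (nat_lit 836) (nat_lit 14380564352) (nat_lit 912) (nat_lit 1265226767) (nat_lit 289) (nat_lit 5) (nat_lit 300) (nat_lit 5) (nat_lit 301) (nat_lit 5) (nat_lit 327) (nat_lit 303) (nat_lit 150)) (XT.lf (nat_lit 0) (nat_lit 1856837323) (nat_lit 912) (nat_lit 81889176) (nat_lit 76) (nat_lit 19954694515) (nat_lit 288) (nat_lit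 5) (nat_lit 300) (nat_lit 5) (nat_lit 289) (nat_lit 5) (nat_lit 328) (nat_lit 303) (nat_lit 149))))) (XT.nd (nat_lit 234) (nat_lit 2128) (nat_lit 0) (XT.nd (nat_lit 78) (nat_lit 1444) (nat_lit 0) (XT.lf (nat_lit 0) (nat_lit 5222672206) (nat_lit 836) (nat_lit 6200618511) (nat_lit 76) (nat_lit 10847869872) (nat_lit 278) (nat_lit 5) (nat_lit 289) (nat_lit 5) (nat_lit 279) (nat_lit 5) (nat_lit 329) (nat_lit 303) (nat_lit 148)) (XT.nd (nat_lit 78) (nat_lit 684) (nat_lit 0) (XT.lf (nat_lit 0) (nat_lit 8769282539) (nat_lit 836) (nat_lit 12508081156) (nat_lit 76) (nat_lit 1381279698) (nat_lit 268) (nat_lit 5) (nat_lit 279) (nat_lit 5) (nat_lit 269) (nat_lit 5) (nat_lit 330) (nat_lit 303) (nat_lit 147)) (XT.lf (nat_lit 0) (nat_lit 3986934866) (nat_lit 684) (nat_lit 8571352979) (nat_lit 760) (nat_lit 10496749753) (nat_lit 259) (nat_lit 5) (nat_lit 268) (nat_lit 5) (nat_lit 269) (nat_lit 5) (nat_lit 331)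 (nat_lit 303) (nat_lit 146)))) (XT.nd (nat_lit 156) (nat_lit 1444) (nat_lit 0) (XT.nd (nat_lit 78) (nat_lit 684) (nat_lit 0) (XT.lf (nat_lit 0) (nat_lit 16567215999) (nat_lit 760) (nat_lit 2352449311) (nat_lit 76) (nat_lit 4541539912) (nat_lit 259) (nat_lit 5) (nat_lit 269) (nat_lit 5) (nat_lit 260) (nat_lit 5) (nat_lit 332) (nat_lit 303) (nat_lit 145)) (XT.lf (nat_lit 0) (nat_lit 14995326786) (nat_lit 684) (nat_lit 5847622388) (nat_lit 760) (nat_lit 3033684410) (nat_lit 250) (nat_lit 5) (nat_lit 259) (nat_lit 5) (nat_lit 260) (nat_lit 5) (nat_lit 333) (nat_lit 303) (nat_lit 144))) (XT.nd (nat_lit 78) (nat_lit 684) (nat_lit 0) (XT.lf (nat_lit 0) (nat_lit 1044489255) (nat_lit 760) (nat_lit 15662466815) (nat_lit 76) (nat_lit 7595164097) (nat_lit 240) (nat_lit 5) (nat_lit 250) (nat_lit 5) (nat_lit 241) (nat_lit 5) (nat_lit 334) (nat_lit 303) (nat_lit 143)) (XT.lf (nat_lit 0) (nat_lit 2026750349) (nat_lit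 684) (nat_lit 3282276293) (nat_lit 760) (nat_lit 19428844929) (nat_lit 231) (nat_lit 5) (nat_lit 240) (nat_lit 5) (nat_lit 241) (nat_lit 5) (nat_lit 335) (nat_lit 303) (nat_lit 142)))))) (XT.nd (nat_lit 546) (nat_lit 2584) (nat_lit 0) (XT.nd (nat_lit 234) (nat_lit 1748) (nat_lit 0) (XT.nd (nat_lit 78) (nat_lit 1216) (nat_lit 0) (XT.lf (nat_lit 0) (nat_lit 9869124048) (nat_lit 760) (nat_lit 4801402583) (nat_lit 76) (nat_lit 10512822198) (nat_lit 231) (nat_lit 5) (nat_lit 241) (nat_lit 5) (nat_lit 232) (nat_lit 5) (nat_lit 336) (nat_lit 303) (nat_lit 141)) (XT.nd (nat_lit 78) (nat_lit 608) (nat_lit 0) (XT.lf (nat_lit 0) (nat_lit 13796154737) (nat_lit 608) (nat_lit 873938254) (nat_lit 684) (nat_lit 10970021664) (nat_lit 223) (nat_lit 5) (nat_lit 231) (nat_lit 5) (nat_lit 232) (nat_lit 5) (nat_lit 337) (nat_lit 303) (nat_lit 140)) (XT.lf (nat_lit 0) (nat_lit 6902703759) (nat_lit 608) (nat_lit 12869246615)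 (nat_lit 684) (nat_lit 6335501354) (nat_lit 215) (nat_lit 5) (nat_lit 223) (nat_lit 5) (nat_lit 224) (nat_lit 5) (nat_lit 338) (nat_lit 303) (nat_lit 139)))) (XT.nd (nat_lit 156) (nat_lit 1140) (nat_lit 0) (XT.nd (nat_lit 78) (nat_lit 608) (nat_lit 0) (XT.lf (nat_lit 0) (nat_lit 25113928831) (nat_lit 684) (nat_lit 235721966) (nat_lit 76) (nat_lit 1237422106) (nat_lit 215) (nat_lit 5) (nat_lit 224) (nat_lit 5) (nat_lit 216) (nat_lit 5) (nat_lit 339) (nat_lit 303) (nat_lit 138)) (XT.lf (nat_lit 0) (nat_lit 3695568547) (nat_lit 608) (nat_lit 7637919741) (nat_lit 76) (nat_lit 15743003470) (nat_lit 207) (nat_lit 5) (nat_lit 215) (nat_lit 5) (nat_lit 208) (nat_lit 5) (nat_lit 340) (nat_lit 303) (nat_lit 137))) (XT.nd (nat_lit 78) (nat_lit 532) (nat_lit 0) (XT.lf (nat_lit 0) (nat_lit 9094609357) (nat_lit 684) (nat_lit 15331021215) (nat_lit 76) (nat_lit 3152867133) (nat_lit 199) (nat_lit 5) (nat_lit 208)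 (nat_lit 5) (nat_lit 200) (nat_lit 5) (nat_lit 341) (nat_lit 303) (nat_lit 136)) (XT.lf (nat_lit 0) (nat_lit 4717017857) (nat_lit 532) (nat_lit 10090420037) (nat_lit 608) (nat_lit 13285094362) (nat_lit 192) (nat_lit 5) (nat_lit 199) (nat_lit 5) (nat_lit 200) (nat_lit 5) (nat_lit 342) (nat_lit 303) (nat_lit 135))))) (XT.nd (nat_lit 234) (nat_lit 1444) (nat_lit 0) (XT.nd (nat_lit 78) (nat_lit 1140) (nat_lit 0) (XT.lf (nat_lit 0) (nat_lit 20820011487) (nat_lit 608) (nat_lit 3082759279) (nat_lit 76) (nat_lit 4716654488) (nat_lit 192) (nat_lit 5) (nat_lit 200) (nat_lit 5) (nat_lit 193) (nat_lit 5) (nat_lit 343) (nat_lit 303) (nat_lit 134)) (XT.nd (nat_lit 78) (nat_lit 608) (nat_lit 0) (XT.lf (nat_lit 0) (nat_lit 17979176674) (nat_lit 532) (nat_lit 9211620913) (nat_lit 608) (nat_lit 1967775231) (nat_lit 185) (nat_lit 5) (nat_lit 192) (nat_lit 5) (nat_lit 193) (nat_lit 5) (nat_lit 344) (nat_lit 303) (nat_lit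 133)) (XT.lf (nat_lit 0) (nat_lit 4105334171) (nat_lit 608) (nat_lit 19651033400) (nat_lit 76) (nat_lit 5954617221) (nat_lit 177) (nat_lit 5) (nat_lit 185) (nat_lit 5) (nat_lit 178) (nat_lit 5) (nat_lit 345) (nat_lit 303) (nat_lit 132)))) (XT.nd (nat_lit 156) (nat_lit 912) (nat_lit 0) (XT.nd (nat_lit 78) (nat_lit 0) (nat_lit 0) (XT.lf (nat_lit 0) (nat_lit 1750879420) (nat_lit 532) (nat_lit 8726237673) (nat_lit 608) (nat_lit 19799731742) (nat_lit 170) (nat_lit 5) (nat_lit 177) (nat_lit 5) (nat_lit 178) (nat_lit 5) (nat_lit 346) (nat_lit 303) (nat_lit 131)) (XT.lf (nat_lit 0) (nat_lit 17211907108) (nat_lit 608) (nat_lit 6845785000) (nat_lit 76) (nat_lit 6798563641) (nat_lit 170) (nat_lit 5) (nat_lit 178) (nat_lit 5) (nat_lit 171) (nat_lit 5) (nat_lit 347) (nat_lit 303) (nat_lit 130))) (XT.nd (nat_lit 78) (nat_lit 456) (nat_lit 0) (XT.lf (nat_lit 0) (nat_lit 15623728559) (nat_lit 456) (nat_lit 8678937716)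 (nat_lit 532) (nat_lit 7147303990) (nat_lit 164) (nat_lit 5) (nat_lit 170) (nat_lit 5) (nat_lit 171) (nat_lit 5) (nat_lit 348) (nat_lit 303) (nat_lit 129)) (XT.lf (nat_lit 0) (nat_lit 6835702638) (nat_lit 456) (nat_lit 24902259514) (nat_lit 532) (nat_lit 320901574) (nat_lit 158) (nat_lit 5) (nat_lit 164) (nat_lit 5) (nat_lit 165) (nat_lit 5) (nat_lit 349) (nat_lit 303) (nat_lit 128))))))))
noncomputable def xc114 : XT := (XT.nd (nat_lit 38922) (nat_lit 0) (nat_lit 456) (XT.nd (nat_lit 37908) (nat_lit 0) (nat_lit 11324) (XT.nd (nat_lit 37362) (nat_lit 0) (nat_lit 16036) (XT.nd (nat_lit 37128) (nat_lit 0) (nat_lit 15960) (XT.nd (nat_lit 78) (nat_lit 456) (nat_lit 0) (XT.lf (nat_lit 0) (nat_lit 6782598582) (nat_lit 532) (nat_lit 2399626897) (nat_lit 76) (nat_lit 23499724521) (nat_lit 157) (nat_lit 5) (nat_lit 164) (nat_lit 5) (nat_lit 158) (nat_lit 5) (nat_lit 350) (nat_lit 303) (nat_lit 127)) (XT.nd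 (nat_lit 36972) (nat_lit 0) (nat_lit 17556) (XT.lf (nat_lit 0) (nat_lit 14274594240) (nat_lit 532) (nat_lit 11987938359) (nat_lit 76) (nat_lit 7057562335) (nat_lit 151) (nat_lit 5) (nat_lit 158) (nat_lit 5) (nat_lit 152) (nat_lit 5) (nat_lit 351) (nat_lit 303) (nat_lit 126)) (XT.lf (nat_lit 0) (nat_lit 3501937696) (nat_lit 0) (nat_lit 3501937696) (nat_lit 1596) (nat_lit 607043417) (nat_lit 382) (nat_lit 5) (nat_lit 382) (nat_lit 3) (nat_lit 403) (nat_lit 3) (nat_lit 304) (nat_lit 304) (nat_lit 172)))) (XT.nd (nat_lit 78) (nat_lit 1596) (nat_lit 0) (XT.lf (nat_lit 76) (nat_lit 2025351146) (nat_lit 0) (nat_lit 12631156215) (nat_lit 1672) (nat_lit 784506541) (nat_lit 383) (nat_lit 5) (nat_lit 382) (nat_lit 5) (nat_lit 404) (nat_lit 5) (nat_lit 305) (nat_lit 304) (nat_lit 171)) (XT.nd (nat_lit 78) (nat_lit 1596) (nat_lit 0) (XT.lf (nat_lit 76) (nat_lit 12632553629) (nat_lit 0) (nat_lit 2778499550)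 (nat_lit 1672) (nat_lit 254000535) (nat_lit 383) (nat_lit 5) (nat_lit 382) (nat_lit 5) (nat_lit 404) (nat_lit 5) (nat_lit 306) (nat_lit 304) (nat_lit 170)) (XT.lf (nat_lit 0) (nat_lit 371623746) (nat_lit 1672) (nat_lit 8189801909) (nat_lit 1748) (nat_lit 7332704387) (nat_lit 361) (nat_lit 5) (nat_lit 383) (nat_lit 5) (nat_lit 384) (nat_lit 5) (nat_lit 307) (nat_lit 304) (nat_lit 169))))) (XT.nd (nat_lit 234) (nat_lit 0) (nat_lit 152) (XT.nd (nat_lit 78) (nat_lit 0) (nat_lit 0) (XT.lf (nat_lit 0) (nat_lit 1064723293) (nat_lit 1672) (nat_lit 13458577165) (nat_lit 1748) (nat_lit 1605715126) (nat_lit 362) (nat_lit 5) (nat_lit 384) (nat_lit 5) (nat_lit 385) (nat_lit 5) (nat_lit 308) (nat_lit 304) (nat_lit 168)) (XT.nd (nat_lit 78) (nat_lit 0) (nat_lit 76) (XT.lf (nat_lit 0) (nat_lit 1877058392) (nat_lit 1672) (nat_lit 2467715965) (nat_lit 1748) (nat_lit 12024217736) (nat_lit 362) (nat_lit 5) (nat_lit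 384) (nat_lit 5) (nat_lit 385) (nat_lit 5) (nat_lit 309) (nat_lit 304) (nat_lit 167)) (XT.lf (nat_lit 0) (nat_lit 2797982613) (nat_lit 1672) (nat_lit 7693764561) (nat_lit 1748) (nat_lit 6122749207) (nat_lit 363) (nat_lit 5) (nat_lit 385) (nat_lit 5) (nat_lit 386) (nat_lit 5) (nat_lit 310) (nat_lit 304) (nat_lit 166)))) (XT.nd (nat_lit 156) (nat_lit 0) (nat_lit 76) (XT.nd (nat_lit 78) (nat_lit 0) (nat_lit 0) (XT.lf (nat_lit 0) (nat_lit 3803607636) (nat_lit 1672) (nat_lit 13036542947) (nat_lit 1748) (nat_lit 26086245) (nat_lit 364) (nat_lit 5) (nat_lit 386) (nat_lit 5) (nat_lit 387) (nat_lit 5) (nat_lit 311) (nat_lit 304) (nat_lit 165)) (XT.lf (nat_lit 0) (nat_lit 4948571303) (nat_lit 1672) (nat_lit 1399771468) (nat_lit 1748) (nat_lit 10775015448) (nat_lit 364) (nat_lit 5) (nat_lit 386) (nat_lit 5) (nat_lit 387) (nat_lit 5) (nat_lit 312) (nat_lit 304) (nat_lit 164))) (XT.nd (nat_lit 78) (nat_lit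 0) (nat_lit 0) (XT.lf (nat_lit 0) (nat_lit 6213825983) (nat_lit 1672) (nat_lit 6698523960) (nat_lit 1748) (nat_lit 4474136241) (nat_lit 365) (nat_lit 5) (nat_lit 387) (nat_lit 5) (nat_lit 388) (nat_lit 5) (nat_lit 313) (nat_lit 304) (nat_lit 163)) (XT.lf (nat_lit 76) (nat_lit 5521226404) (nat_lit 0) (nat_lit 2070933251) (nat_lit 1748) (nat_lit 10063857338) (nat_lit 366) (nat_lit 5) (nat_lit 365) (nat_lit 5) (nat_lit 388) (nat_lit 5) (nat_lit 314) (nat_lit 304) (nat_lit 162)))))) (XT.nd (nat_lit 468) (nat_lit 5016) (nat_lit 0) (XT.nd (nat_lit 234) (nat_lit 0) (nat_lit 152) (XT.nd (nat_lit 78) (nat_lit 0) (nat_lit 76) (XT.lf (nat_lit 76) (nat_lit 200833157) (nat_lit 0) (nat_lit 8904671546) (nat_lit 1748) (nat_lit 8826266894) (nat_lit 367) (nat_lit 5) (nat_lit 366) (nat_lit 5) (nat_lit 389) (nat_lit 5) (nat_lit 315) (nat_lit 304) (nat_lit 161)) (XT.nd (nat_lit 78) (nat_lit 0) (nat_lit 0) (XT.lf (nat_lit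 0) (nat_lit 10763094541) (nat_lit 1672) (nat_lit 5179312819) (nat_lit 1748) (nat_lit 2271425365) (nat_lit 367) (nat_lit 5) (nat_lit 389) (nat_lit 5) (nat_lit 390) (nat_lit 5) (nat_lit 316) (nat_lit 304) (nat_lit 160)) (XT.lf (nat_lit 76) (nat_lit 7782540226) (nat_lit 0) (nat_lit 4786236832) (nat_lit 1748) (nat_lit 5933621792) (nat_lit 368) (nat_lit 5) (nat_lit 367) (nat_lit 5) (nat_lit 390) (nat_lit 5) (nat_lit 317) (nat_lit 304) (nat_lit 159)))) (XT.nd (nat_lit 78) (nat_lit 0) (nat_lit 0) (XT.lf (nat_lit 76) (nat_lit 2383770093) (nat_lit 0) (nat_lit 12127785422) (nat_lit 1748) (nat_lit 4286418091) (nat_lit 369) (nat_lit 5) (nat_lit 368) (nat_lit 5) (nat_lit 391) (nat_lit 5) (nat_lit 318) (nat_lit 304) (nat_lit 158)) (XT.nd (nat_lit 78) (nat_lit 0) (nat_lit 76) (XT.lf (nat_lit 76) (nat_lit 15986000703) (nat_lit 0) (nat_lit 619918588) (nat_lit 1748) (nat_lit 2494640134) (nat_lit 369) (nat_lit 5)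 (nat_lit 368) (nat_lit 5) (nat_lit 391) (nat_lit 5) (nat_lit 319) (nat_lit 304) (nat_lit 157)) (XT.lf (nat_lit 76) (nat_lit 10641919875) (nat_lit 0) (nat_lit 8252424527) (nat_lit 1748) (nat_lit 515263384) (nat_lit 370) (nat_lit 5) (nat_lit 369) (nat_lit 5) (nat_lit 392) (nat_lit 5) (nat_lit 320) (nat_lit 304) (nat_lit 156))))) (XT.nd (nat_lit 234) (nat_lit 2432) (nat_lit 0) (XT.nd (nat_lit 78) (nat_lit 1140) (nat_lit 0) (XT.lf (nat_lit 0) (nat_lit 1575358743) (nat_lit 1748) (nat_lit 14579208370) (nat_lit 76) (nat_lit 3571734866) (nat_lit 347) (nat_lit 5) (nat_lit 370) (nat_lit 5) (nat_lit 348) (nat_lit 5) (nat_lit 321) (nat_lit 304) (nat_lit 155)) (XT.nd (nat_lit 78) (nat_lit 1140) (nat_lit 0) (XT.lf (nat_lit 0) (nat_lit 3826378953) (nat_lit 1748) (nat_lit 519888507) (nat_lit 76) (nat_lit 15704076671) (nat_lit 347) (nat_lit 5) (nat_lit 370) (nat_lit 5) (nat_lit 348) (nat_lit 5) (nat_lit 322) (nat_lit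 304) (nat_lit 154)) (XT.lf (nat_lit 0) (nat_lit 6278036520) (nat_lit 1216) (nat_lit 6295839674) (nat_lit 76) (nat_lit 7807577809) (nat_lit 332) (nat_lit 5) (nat_lit 348) (nat_lit 5) (nat_lit 333) (nat_lit 5) (nat_lit 323) (nat_lit 304) (nat_lit 153)))) (XT.nd (nat_lit 156) (nat_lit 760) (nat_lit 0) (XT.nd (nat_lit 78) (nat_lit 836) (nat_lit 0) (XT.lf (nat_lit 0) (nat_lit 8487498701) (nat_lit 836) (nat_lit 393657355) (nat_lit 912) (nat_lit 11839791208) (nat_lit 321) (nat_lit 5) (nat_lit 332) (nat_lit 5) (nat_lit 333) (nat_lit 5) (nat_lit 324) (nat_lit 304) (nat_lit 152)) (XT.lf (nat_lit 0) (nat_lit 2677919265) (nat_lit 836) (nat_lit 9014111254) (nat_lit 912) (nat_lit 9376009674) (nat_lit 310) (nat_lit 5) (nat_lit 321) (nat_lit 5) (nat_lit 322) (nat_lit 5) (nat_lit 325) (nat_lit 304) (nat_lit 151))) (XT.nd (nat_lit 78) (nat_lit 760) (nat_lit 0) (XT.lf (nat_lit 0) (nat_lit 14686312814) (nat_lit 912)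 (nat_lit 3254154016) (nat_lit 76) (nat_lit 3483105309) (nat_lit 310) (nat_lit 5) (nat_lit 322) (nat_lit 5) (nat_lit 311) (nat_lit 5) (nat_lit 326) (nat_lit 304) (nat_lit 150)) (XT.lf (nat_lit 0) (nat_lit 12430068216) (nat_lit 760) (nat_lit 5472271238) (nat_lit 836) (nat_lit 3884799904) (nat_lit 300) (nat_lit 5) (nat_lit 310) (nat_lit 5) (nat_lit 311) (nat_lit 5) (nat_lit 327) (nat_lit 304) (nat_lit 149))))))) (XT.nd (nat_lit 1014) (nat_lit 3876) (nat_lit 0) (XT.nd (nat_lit 468) (nat_lit 3876) (nat_lit 0) (XT.nd (nat_lit 234) (nat_lit 1444) (nat_lit 0) (XT.nd (nat_lit 78) (nat_lit 836) (nat_lit 0) (XT.lf (nat_lit 0) (nat_lit 6496784254) (nat_lit 836) (nat_lit 14821434569) (nat_lit 912) (nat_lit 841334741) (nat_lit 289) (nat_lit 5) (nat_lit 300) (nat_lit 5) (nat_lit 301) (nat_lit 5) (nat_lit 328) (nat_lit 304) (nat_lit 148)) (XT.nd (nat_lit 78) (nat_lit 0) (nat_lit 0) (XT.lf (nat_lit 0) (nat_lit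 356639219) (nat_lit 760) (nat_lit 2000734877) (nat_lit 836) (nat_lit 20183594971) (nat_lit 278) (nat_lit 5) (nat_lit 288) (nat_lit 5) (nat_lit 289) (nat_lit 5) (nat_lit 329) (nat_lit 304) (nat_lit 147)) (XT.lf (nat_lit 0) (nat_lit 5811745829) (nat_lit 836) (nat_lit 5948391475) (nat_lit 76) (nat_lit 11170162713) (nat_lit 278) (nat_lit 5) (nat_lit 289) (nat_lit 5) (nat_lit 279) (nat_lit 5) (nat_lit 330) (nat_lit 304) (nat_lit 146)))) (XT.nd (nat_lit 78) (nat_lit 684) (nat_lit 0) (XT.lf (nat_lit 0) (nat_lit 9455015134) (nat_lit 836) (nat_lit 12443454071) (nat_lit 76) (nat_lit 1431143012) (nat_lit 268) (nat_lit 5) (nat_lit 279) (nat_lit 5) (nat_lit 269) (nat_lit 5) (nat_lit 331) (nat_lit 304) (nat_lit 145)) (XT.nd (nat_lit 78) (nat_lit 0) (nat_lit 0) (XT.lf (nat_lit 0) (nat_lit 4539276072) (nat_lit 684) (nat_lit 8808913803) (nat_lit 760) (nat_lit 10389908213) (nat_lit 259) (nat_lit 5) (nat_lit 268)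 (nat_lit 5) (nat_lit 269) (nat_lit 5) (nat_lit 332) (nat_lit 304) (nat_lit 144)) (XT.lf (nat_lit 0) (nat_lit 17465475701) (nat_lit 760) (nat_lit 1994676506) (nat_lit 76) (nat_lit 4696546278) (nat_lit 259) (nat_lit 5) (nat_lit 269) (nat_lit 5) (nat_lit 260) (nat_lit 5) (nat_lit 333) (nat_lit 304) (nat_lit 143))))) (XT.nd (nat_lit 234) (nat_lit 1748) (nat_lit 0) (XT.nd (nat_lit 78) (nat_lit 1444) (nat_lit 0) (XT.lf (nat_lit 0) (nat_lit 15866583465) (nat_lit 684) (nat_lit 5993946700) (nat_lit 760) (nat_lit 2724247811) (nat_lit 250) (nat_lit 5) (nat_lit 259) (nat_lit 5) (nat_lit 260) (nat_lit 5) (nat_lit 334) (nat_lit 304) (nat_lit 142)) (XT.nd (nat_lit 78) (nat_lit 684) (nat_lit 0) (XT.lf (nat_lit 0) (nat_lit 1462453906) (nat_lit 760) (nat_lit 15704512186) (nat_lit 76) (nat_lit 7856191186) (nat_lit 240) (nat_lit 5) (nat_lit 250) (nat_lit 5) (nat_lit 241) (nat_lit 5) (nat_lit 335) (nat_lit 304) (nat_lit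 141)) (XT.lf (nat_lit 0) (nat_lit 2508440482) (nat_lit 684) (nat_lit 3337958547) (nat_lit 760) (nat_lit 19625761323) (nat_lit 231) (nat_lit 5) (nat_lit 240) (nat_lit 5) (nat_lit 241) (nat_lit 5) (nat_lit 336) (nat_lit 304) (nat_lit 140)))) (XT.nd (nat_lit 156) (nat_lit 1140) (nat_lit 0) (XT.nd (nat_lit 78) (nat_lit 608) (nat_lit 0) (XT.lf (nat_lit 0) (nat_lit 10532556394) (nat_lit 760) (nat_lit 4529466802) (nat_lit 76) (nat_lit 10869201901) (nat_lit 231) (nat_lit 5) (nat_lit 241) (nat_lit 5) (nat_lit 232) (nat_lit 5) (nat_lit 337) (nat_lit 304) (nat_lit 139)) (XT.lf (nat_lit 0) (nat_lit 14619268491) (nat_lit 608) (nat_lit 850243135) (nat_lit 684) (nat_lit 10932351197) (nat_lit 223) (nat_lit 5) (nat_lit 231) (nat_lit 5) (nat_lit 232) (nat_lit 5) (nat_lit 338) (nat_lit 304) (nat_lit 138))) (XT.nd (nat_lit 78) (nat_lit 532) (nat_lit 0) (XT.lf (nat_lit 0) (nat_lit 7519390234) (nat_lit 608) (nat_lit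 13197543047) (nat_lit 684) (nat_lit 6166444389) (nat_lit 215) (nat_lit 5) (nat_lit 223) (nat_lit 5) (nat_lit 224) (nat_lit 5) (nat_lit 339) (nat_lit 304) (nat_lit 137)) (XT.lf (nat_lit 0) (nat_lit 163749925) (nat_lit 532) (nat_lit 26046601252) (nat_lit 608) (nat_lit 1167220306) (nat_lit 208) (nat_lit 5) (nat_lit 215) (nat_lit 5) (nat_lit 216) (nat_lit 5) (nat_lit 340) (nat_lit 304) (nat_lit 136)))))) (XT.nd (nat_lit 546) (nat_lit 988) (nat_lit 0) (XT.nd (nat_lit 234) (nat_lit 1672) (nat_lit 0) (XT.nd (nat_lit 78) (nat_lit 1140) (nat_lit 0) (XT.lf (nat_lit 0) (nat_lit 4143459032) (nat_lit 608) (nat_lit 7464502065) (nat_lit 76) (nat_lit 16273843639) (nat_lit 207) (nat_lit 5) (nat_lit 215) (nat_lit 5) (nat_lit 208) (nat_lit 5) (nat_lit 341) (nat_lit 304) (nat_lit 135)) (XT.nd (nat_lit 78) (nat_lit 532) (nat_lit 0) (XT.lf (nat_lit 0) (nat_lit 9697656214) (nat_lit 684) (nat_lit 15388527829) (nat_lit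 76) (nat_lit 3312830144) (nat_lit 199) (nat_lit 5) (nat_lit 208) (nat_lit 5) (nat_lit 200) (nat_lit 5) (nat_lit 342) (nat_lit 304) (nat_lit 134)) (XT.lf (nat_lit 0) (nat_lit 5254423563) (nat_lit 532) (nat_lit 10320398732) (nat_lit 608) (nat_lit 13353795248) (nat_lit 192) (nat_lit 5) (nat_lit 199) (nat_lit 5) (nat_lit 200) (nat_lit 5) (nat_lit 343) (nat_lit 304) (nat_lit 133)))) (XT.nd (nat_lit 156) (nat_lit 1140) (nat_lit 0) (XT.nd (nat_lit 78) (nat_lit 532) (nat_lit 0) (XT.lf (nat_lit 0) (nat_lit 21758819114) (nat_lit 608) (nat_lit 2784840491) (nat_lit 76) (nat_lit 4927843431) (nat_lit 192) (nat_lit 5) (nat_lit 200) (nat_lit 5) (nat_lit 193) (nat_lit 5) (nat_lit 344) (nat_lit 304) (nat_lit 132)) (XT.lf (nat_lit 0) (nat_lit 18902619739) (nat_lit 532) (nat_lit 9411451012) (nat_lit 608) (nat_lit 1712893868) (nat_lit 185) (nat_lit 5) (nat_lit 192) (nat_lit 5) (nat_lit 193) (nat_lit 5) (nat_lit 345)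 (nat_lit 304) (nat_lit 131))) (XT.nd (nat_lit 78) (nat_lit 532) (nat_lit 0) (XT.lf (nat_lit 0) (nat_lit 4532261218) (nat_lit 608) (nat_lit 19852713342) (nat_lit 76) (nat_lit 6211060365) (nat_lit 177) (nat_lit 5) (nat_lit 185) (nat_lit 5) (nat_lit 178) (nat_lit 5) (nat_lit 346) (nat_lit 304) (nat_lit 130)) (XT.lf (nat_lit 0) (nat_lit 2184964440) (nat_lit 532) (nat_lit 8903862935) (nat_lit 608) (nat_lit 20090180862) (nat_lit 170) (nat_lit 5) (nat_lit 177) (nat_lit 5) (nat_lit 178) (nat_lit 5) (nat_lit 347) (nat_lit 304) (nat_lit 129))))) (XT.nd (nat_lit 234) (nat_lit 76) (nat_lit 0) (XT.nd (nat_lit 78) (nat_lit 912) (nat_lit 0) (XT.lf (nat_lit 0) (nat_lit 18017529568) (nat_lit 608) (nat_lit 6675276739) (nat_lit 76) (nat_lit 7083159453) (nat_lit 170) (nat_lit 5) (nat_lit 178) (nat_lit 5) (nat_lit 171) (nat_lit 5) (nat_lit 348) (nat_lit 304) (nat_lit 128)) (XT.nd (nat_lit 78) (nat_lit 456) (nat_lit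 0) (XT.lf (nat_lit 0) (nat_lit 16462223991) (nat_lit 456) (nat_lit 8852763198) (nat_lit 532) (nat_lit 7072630611) (nat_lit 164) (nat_lit 5) (nat_lit 170) (nat_lit 5) (nat_lit 171) (nat_lit 5) (nat_lit 349) (nat_lit 304) (nat_lit 127)) (XT.lf (nat_lit 0) (nat_lit 7409761856) (nat_lit 456) (nat_lit 25558271594) (nat_lit 532) (nat_lit 46856225) (nat_lit 158) (nat_lit 5) (nat_lit 164) (nat_lit 5) (nat_lit 165) (nat_lit 5) (nat_lit 350) (nat_lit 304) (nat_lit 126)))) (XT.nd (nat_lit 37128) (nat_lit 0) (nat_lit 15428) (XT.nd (nat_lit 37050) (nat_lit 0) (nat_lit 17100) (XT.lf (nat_lit 0) (nat_lit 7257874579) (nat_lit 532) (nat_lit 2109590158) (nat_lit 76) (nat_lit 24289335219) (nat_lit 157) (nat_lit 5) (nat_lit 164) (nat_lit 5) (nat_lit 158) (nat_lit 5) (nat_lit 351) (nat_lit 304) (nat_lit 125)) (XT.lf (nat_lit 0) (nat_lit 3808584722) (nat_lit 0) (nat_lit 3808584722) (nat_lit 1596) (nat_lit 213638537)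 (nat_lit 382) (nat_lit 5) (nat_lit 382) (nat_lit 3) (nat_lit 403) (nat_lit 3) (nat_lit 305) (nat_lit 305) (nat_lit 170))) (XT.nd (nat_lit 78) (nat_lit 1672) (nat_lit 0) (XT.lf (nat_lit 76) (nat_lit 2501926598) (nat_lit 0) (nat_lit 13377303771) (nat_lit 1672) (nat_lit 8625556) (nat_lit 383) (nat_lit 5) (nat_lit 382) (nat_lit 5) (nat_lit 404) (nat_lit 5) (nat_lit 306) (nat_lit 305) (nat_lit 169)) (XT.lf (nat_lit 0) (nat_lit 507763750) (nat_lit 1672) (nat_lit 2707200773) (nat_lit 1748) (nat_lit 12904062929) (nat_lit 360) (nat_lit 5) (nat_lit 382) (nat_lit 5) (nat_lit 383) (nat_lit 5) (nat_lit 307) (nat_lit 305) (nat_lit 168))))))))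
noncomputable def xc115 : XT := (XT.nd (nat_lit 2106) (nat_lit 7220) (nat_lit 0) (XT.nd (nat_lit 1014) (nat_lit 7752) (nat_lit 0) (XT.nd (nat_lit 468) (nat_lit 0) (nat_lit 304) (XT.nd (nat_lit 234) (nat_lit 0) (nat_lit 152) (XT.nd (nat_lit 78) (nat_lit 0) (nat_lit 76) (XT.lf (nat_lit 0) (nat_lit 1126866886) (nat_lit 1672) (nat_lit 8009850431) (nat_lit 1748) (nat_lit 7218682132) (nat_lit 361) (nat_lit 5) (nat_lit 383) (nat_lit 5) (nat_lit 384) (nat_lit 5) (nat_lit 308) (nat_lit 305) (nat_lit 167)) (XT.nd (nat_lit 78) (nat_lit 0) (nat_lit 0) (XT.lf (nat_lit 0) (nat_lit 1819816148) (nat_lit 1672) (nat_lit 13426449356) (nat_lit 1748) (nat_lit 1351504508) (nat_lit 362) (nat_lit 5) (nat_lit 384) (nat_lit 5) (nat_lit 385) (nat_lit 5) (nat_lit 309) (nat_lit 305) (nat_lit 166)) (XT.lf (nat_lit 0) (nat_lit 2635458645) (nat_lit 1672) (nat_lit 2118558003) (nat_lit 1748) (nat_lit 12091369441) (nat_lit 362)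 (nat_lit 5) (nat_lit 384) (nat_lit 5) (nat_lit 385) (nat_lit 5) (nat_lit 310) (nat_lit 305) (nat_lit 165)))) (XT.nd (nat_lit 78) (nat_lit 0) (nat_lit 0) (XT.lf (nat_lit 0) (nat_lit 3564524308) (nat_lit 1672) (nat_lit 7492211271) (nat_lit 1748) (nat_lit 6041928120) (nat_lit 363) (nat_lit 5) (nat_lit 385) (nat_lit 5) (nat_lit 386) (nat_lit 5) (nat_lit 311) (nat_lit 305) (nat_lit 164)) (XT.nd (nat_lit 78) (nat_lit 0) (nat_lit 76) (XT.lf (nat_lit 76) (nat_lit 4370116600) (nat_lit 0) (nat_lit 212904759) (nat_lit 1748) (nat_lit 12775298863) (nat_lit 364) (nat_lit 5) (nat_lit 363) (nat_lit 5) (nat_lit 386) (nat_lit 5) (nat_lit 312) (nat_lit 305) (nat_lit 163)) (XT.lf (nat_lit 0) (nat_lit 5741614049) (nat_lit 1672) (nat_lit 1013786037) (nat_lit 1748) (nat_lit 10868186972) (nat_lit 364) (nat_lit 5) (nat_lit 386) (nat_lit 5) (nat_lit 387) (nat_lit 5) (nat_lit 313) (nat_lit 305) (nat_lit 162))))) (XT.nd (nat_lit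 234) (nat_lit 0) (nat_lit 152) (XT.nd (nat_lit 78) (nat_lit 0) (nat_lit 0) (XT.lf (nat_lit 0) (nat_lit 7027438380) (nat_lit 1672) (nat_lit 6463963062) (nat_lit 1748) (nat_lit 4403572079) (nat_lit 365) (nat_lit 5) (nat_lit 387) (nat_lit 5) (nat_lit 388) (nat_lit 5) (nat_lit 314) (nat_lit 305) (nat_lit 161)) (XT.nd (nat_lit 78) (nat_lit 0) (nat_lit 76) (XT.lf (nat_lit 76) (nat_lit 6115314074) (nat_lit 0) (nat_lit 2316321884) (nat_lit 1748) (nat_lit 9741280425) (nat_lit 366) (nat_lit 5) (nat_lit 365) (nat_lit 5) (nat_lit 388) (nat_lit 5) (nat_lit 315) (nat_lit 305) (nat_lit 160)) (XT.lf (nat_lit 76) (nat_lit 642102230) (nat_lit 0) (nat_lit 9332132986) (nat_lit 1748) (nat_lit 8483047260) (nat_lit 367) (nat_lit 5) (nat_lit 366) (nat_lit 5) (nat_lit 389) (nat_lit 5) (nat_lit 316) (nat_lit 305) (nat_lit 159)))) (XT.nd (nat_lit 156) (nat_lit 0) (nat_lit 76) (XT.nd (nat_lit 78) (nat_lit 0) (nat_lit 0) (XT.lf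 (nat_lit 0) (nat_lit 11663195591) (nat_lit 1672) (nat_lit 4899034671) (nat_lit 1748) (nat_lit 2185957785) (nat_lit 367) (nat_lit 5) (nat_lit 389) (nat_lit 5) (nat_lit 390) (nat_lit 5) (nat_lit 317) (nat_lit 305) (nat_lit 158)) (XT.lf (nat_lit 76) (nat_lit 8444605940) (nat_lit 0) (nat_lit 5064413441) (nat_lit 1748) (nat_lit 5536687373) (nat_lit 368) (nat_lit 5) (nat_lit 367) (nat_lit 5) (nat_lit 390) (nat_lit 5) (nat_lit 318) (nat_lit 305) (nat_lit 157))) (XT.nd (nat_lit 78) (nat_lit 0) (nat_lit 0) (XT.lf (nat_lit 76) (nat_lit 2889352219) (nat_lit 0) (nat_lit 12606295572) (nat_lit 1748) (nat_lit 3854804206) (nat_lit 369) (nat_lit 5) (nat_lit 368) (nat_lit 5) (nat_lit 391) (nat_lit 5) (nat_lit 319) (nat_lit 305) (nat_lit 156)) (XT.lf (nat_lit 76) (nat_lit 16887006960) (nat_lit 0) (nat_lit 749852639) (nat_lit 1748) (nat_lit 2025589603) (nat_lit 369) (nat_lit 5) (nat_lit 368) (nat_lit 5) (nat_lit 391)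 (nat_lit 5) (nat_lit 320) (nat_lit 305) (nat_lit 155)))))) (XT.nd (nat_lit 546) (nat_lit 3876) (nat_lit 0) (XT.nd (nat_lit 234) (nat_lit 2812) (nat_lit 0) (XT.nd (nat_lit 78) (nat_lit 1672) (nat_lit 0) (XT.lf (nat_lit 76) (nat_lit 11387424194) (nat_lit 0) (nat_lit 8593061568) (nat_lit 1748) (nat_lit 566025) (nat_lit 370) (nat_lit 5) (nat_lit 369) (nat_lit 5) (nat_lit 392) (nat_lit 5) (nat_lit 321) (nat_lit 305) (nat_lit 154)) (XT.nd (nat_lit 78) (nat_lit 0) (nat_lit 0) (XT.lf (nat_lit 0) (nat_lit 2132806482) (nat_lit 1748) (nat_lit 14578774447) (nat_lit 76) (nat_lit 3595870418) (nat_lit 347) (nat_lit 5) (nat_lit 370) (nat_lit 5) (nat_lit 348) (nat_lit 5) (nat_lit 322) (nat_lit 305) (nat_lit 153)) (XT.lf (nat_lit 0) (nat_lit 4436497483) (nat_lit 1748) (nat_lit 110426740) (nat_lit 76) (nat_lit 16094600434) (nat_lit 347) (nat_lit 5) (nat_lit 370) (nat_lit 5) (nat_lit 348) (nat_lit 5) (nat_lit 323)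 (nat_lit 305) (nat_lit 152)))) (XT.nd (nat_lit 156) (nat_lit 836) (nat_lit 0) (XT.nd (nat_lit 78) (nat_lit 836) (nat_lit 0) (XT.lf (nat_lit 0) (nat_lit 6949567797) (nat_lit 1216) (nat_lit 6056044317) (nat_lit 76) (nat_lit 7977210778) (nat_lit 332) (nat_lit 5) (nat_lit 348) (nat_lit 5) (nat_lit 333) (nat_lit 5) (nat_lit 324) (nat_lit 305) (nat_lit 151)) (XT.lf (nat_lit 0) (nat_lit 9163839539) (nat_lit 836) (nat_lit 455605939) (nat_lit 912) (nat_lit 11713294151) (nat_lit 321) (nat_lit 5) (nat_lit 332) (nat_lit 5) (nat_lit 333) (nat_lit 5) (nat_lit 325) (nat_lit 305) (nat_lit 150))) (XT.nd (nat_lit 78) (nat_lit 0) (nat_lit 0) (XT.lf (nat_lit 0) (nat_lit 3183127609) (nat_lit 836) (nat_lit 9320217714) (nat_lit 912) (nat_lit 9187137660) (nat_lit 310) (nat_lit 5) (nat_lit 321) (nat_lit 5) (nat_lit 322) (nat_lit 5) (nat_lit 326) (nat_lit 305) (nat_lit 149)) (XT.lf (nat_lit 0) (nat_lit 15573816965) (nat_lit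 912) (nat_lit 2929738966) (nat_lit 76) (nat_lit 3553409020) (nat_lit 310) (nat_lit 5) (nat_lit 322) (nat_lit 5) (nat_lit 311) (nat_lit 5) (nat_lit 327) (nat_lit 305) (nat_lit 148))))) (XT.nd (nat_lit 234) (nat_lit 1444) (nat_lit 0) (XT.nd (nat_lit 78) (nat_lit 1672) (nat_lit 0) (XT.lf (nat_lit 0) (nat_lit 13218162840) (nat_lit 760) (nat_lit 5657840334) (nat_lit 836) (nat_lit 3555653390) (nat_lit 300) (nat_lit 5) (nat_lit 310) (nat_lit 5) (nat_lit 311) (nat_lit 5) (nat_lit 328) (nat_lit 305) (nat_lit 147)) (XT.nd (nat_lit 78) (nat_lit 836) (nat_lit 0) (XT.lf (nat_lit 0) (nat_lit 7109230434) (nat_lit 836) (nat_lit 15274988234) (nat_lit 912) (nat_lit 431237966) (nat_lit 289) (nat_lit 5) (nat_lit 300) (nat_lit 5) (nat_lit 301) (nat_lit 5) (nat_lit 329) (nat_lit 305) (nat_lit 146)) (XT.lf (nat_lit 0) (nat_lit 784065687) (nat_lit 760) (nat_lit 2063849182) (nat_lit 836) (nat_lit 20360549482) (nat_lit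 278) (nat_lit 5) (nat_lit 288) (nat_lit 5) (nat_lit 289) (nat_lit 5) (nat_lit 330) (nat_lit 305) (nat_lit 145)))) (XT.nd (nat_lit 156) (nat_lit 684) (nat_lit 0) (XT.nd (nat_lit 78) (nat_lit 760) (nat_lit 0) (XT.lf (nat_lit 0) (nat_lit 6393670508) (nat_lit 836) (nat_lit 5713754719) (nat_lit 76) (nat_lit 11502304776) (nat_lit 278) (nat_lit 5) (nat_lit 289) (nat_lit 5) (nat_lit 279) (nat_lit 5) (nat_lit 331) (nat_lit 305) (nat_lit 144)) (XT.lf (nat_lit 0) (nat_lit 10137057630) (nat_lit 836) (nat_lit 12402138482) (nat_lit 76) (nat_lit 1482018600) (nat_lit 268) (nat_lit 5) (nat_lit 279) (nat_lit 5) (nat_lit 269) (nat_lit 5) (nat_lit 332) (nat_lit 305) (nat_lit 143))) (XT.nd (nat_lit 78) (nat_lit 0) (nat_lit 0) (XT.lf (nat_lit 0) (nat_lit 5083346861) (nat_lit 684) (nat_lit 9054725410) (nat_lit 760) (nat_lit 10304071259) (nat_lit 259) (nat_lit 5) (nat_lit 268) (nat_lit 5) (nat_lit 269) (nat_lit 5) (nat_lit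 333) (nat_lit 305) (nat_lit 142)) (XT.lf (nat_lit 0) (nat_lit 18367650193) (nat_lit 760) (nat_lit 1650759345) (nat_lit 76) (nat_lit 4855125924) (nat_lit 259) (nat_lit 5) (nat_lit 269) (nat_lit 5) (nat_lit 260) (nat_lit 5) (nat_lit 334) (nat_lit 305) (nat_lit 141))))))) (XT.nd (nat_lit 1014) (nat_lit 988) (nat_lit 0) (XT.nd (nat_lit 468) (nat_lit 2888) (nat_lit 0) (XT.nd (nat_lit 234) (nat_lit 1216) (nat_lit 0) (XT.nd (nat_lit 78) (nat_lit 1444) (nat_lit 0) (XT.lf (nat_lit 0) (nat_lit 16739787939) (nat_lit 684) (nat_lit 6146331450) (nat_lit 760) (nat_lit 2428515417) (nat_lit 250) (nat_lit 5) (nat_lit 259) (nat_lit 5) (nat_lit 260) (nat_lit 5) (nat_lit 335) (nat_lit 305) (nat_lit 140)) (XT.nd (nat_lit 78) (nat_lit 684) (nat_lit 0) (XT.lf (nat_lit 0) (nat_lit 1870763354) (nat_lit 760) (nat_lit 15772378032) (nat_lit 76) (nat_lit 8123144869) (nat_lit 240) (nat_lit 5) (nat_lit 250) (nat_lit 5) (nat_lit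 241) (nat_lit 5) (nat_lit 336) (nat_lit 305) (nat_lit 139)) (XT.lf (nat_lit 0) (nat_lit 2980420647) (nat_lit 684) (nat_lit 3397767361) (nat_lit 760) (nat_lit 19850740258) (nat_lit 231) (nat_lit 5) (nat_lit 240) (nat_lit 5) (nat_lit 241) (nat_lit 5) (nat_lit 337) (nat_lit 305) (nat_lit 138)))) (XT.nd (nat_lit 78) (nat_lit 1216) (nat_lit 0) (XT.lf (nat_lit 0) (nat_lit 11194803822) (nat_lit 760) (nat_lit 4273251779) (nat_lit 76) (nat_lit 11233919713) (nat_lit 231) (nat_lit 5) (nat_lit 241) (nat_lit 5) (nat_lit 232) (nat_lit 5) (nat_lit 338) (nat_lit 305) (nat_lit 137)) (XT.nd (nat_lit 78) (nat_lit 608) (nat_lit 0) (XT.lf (nat_lit 0) (nat_lit 15443584232) (nat_lit 608) (nat_lit 828702389) (nat_lit 684) (nat_lit 10914604778) (nat_lit 223) (nat_lit 5) (nat_lit 231) (nat_lit 5) (nat_lit 232) (nat_lit 5) (nat_lit 339) (nat_lit 305) (nat_lit 136)) (XT.lf (nat_lit 0) (nat_lit 8131064280) (nat_lit 608) (nat_lit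 13539005235) (nat_lit 684) (nat_lit 6012930787) (nat_lit 215) (nat_lit 5) (nat_lit 223) (nat_lit 5) (nat_lit 224) (nat_lit 5) (nat_lit 340) (nat_lit 305) (nat_lit 135))))) (XT.nd (nat_lit 234) (nat_lit 1672) (nat_lit 0) (XT.nd (nat_lit 78) (nat_lit 684) (nat_lit 0) (XT.lf (nat_lit 0) (nat_lit 554910091) (nat_lit 532) (nat_lit 26766571877) (nat_lit 608) (nat_lit 870681292) (nat_lit 208) (nat_lit 5) (nat_lit 215) (nat_lit 5) (nat_lit 216) (nat_lit 5) (nat_lit 341) (nat_lit 305) (nat_lit 134)) (XT.nd (nat_lit 78) (nat_lit 608) (nat_lit 0) (XT.lf (nat_lit 0) (nat_lit 4585439708) (nat_lit 608) (nat_lit 7308990178) (nat_lit 76) (nat_lit 16817248000) (nat_lit 207) (nat_lit 5) (nat_lit 215) (nat_lit 5) (nat_lit 208) (nat_lit 5) (nat_lit 342) (nat_lit 305) (nat_lit 133)) (XT.lf (nat_lit 0) (nat_lit 10299839153) (nat_lit 684) (nat_lit 15470860427) (nat_lit 76) (nat_lit 3473839138) (nat_lit 199) (nat_lit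 5) (nat_lit 208) (nat_lit 5) (nat_lit 200) (nat_lit 5) (nat_lit 343) (nat_lit 305) (nat_lit 132)))) (XT.nd (nat_lit 156) (nat_lit 1140) (nat_lit 0) (XT.nd (nat_lit 78) (nat_lit 0) (nat_lit 0) (XT.lf (nat_lit 0) (nat_lit 5785225439) (nat_lit 532) (nat_lit 10561452011) (nat_lit 608) (nat_lit 13443492012) (nat_lit 192) (nat_lit 5) (nat_lit 199) (nat_lit 5) (nat_lit 200) (nat_lit 5) (nat_lit 344) (nat_lit 305) (nat_lit 131)) (XT.lf (nat_lit 0) (nat_lit 22707754187) (nat_lit 608) (nat_lit 2500394786) (nat_lit 76) (nat_lit 5141367592) (nat_lit 192) (nat_lit 5) (nat_lit 200) (nat_lit 5) (nat_lit 193) (nat_lit 5) (nat_lit 345) (nat_lit 305) (nat_lit 130))) (XT.nd (nat_lit 78) (nat_lit 608) (nat_lit 0) (XT.lf (nat_lit 0) (nat_lit 19831719036) (nat_lit 532) (nat_lit 9621668491) (nat_lit 608) (nat_lit 1468386048) (nat_lit 185) (nat_lit 5) (nat_lit 192) (nat_lit 5) (nat_lit 193) (nat_lit 5) (nat_lit 346) (nat_lit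 305) (nat_lit 129)) (XT.lf (nat_lit 0) (nat_lit 4954558606) (nat_lit 608) (nat_lit 20082707920) (nat_lit 76) (nat_lit 6470730499) (nat_lit 177) (nat_lit 5) (nat_lit 185) (nat_lit 5) (nat_lit 178) (nat_lit 5) (nat_lit 347) (nat_lit 305) (nat_lit 128)))))) (XT.nd (nat_lit 37674) (nat_lit 0) (nat_lit 15048) (XT.nd (nat_lit 37362) (nat_lit 0) (nat_lit 14820) (XT.nd (nat_lit 78) (nat_lit 456) (nat_lit 0) (XT.lf (nat_lit 0) (nat_lit 2610168984) (nat_lit 532) (nat_lit 9091648191) (nat_lit 608) (nat_lit 20406768055) (nat_lit 170) (nat_lit 5) (nat_lit 177) (nat_lit 5) (nat_lit 178) (nat_lit 5) (nat_lit 348) (nat_lit 305) (nat_lit 127)) (XT.nd (nat_lit 78) (nat_lit 456) (nat_lit 0) (XT.lf (nat_lit 0) (nat_lit 18830715693) (nat_lit 608) (nat_lit 6521230384) (nat_lit 76) (nat_lit 7371664136) (nat_lit 170) (nat_lit 5) (nat_lit 178) (nat_lit 5) (nat_lit 171) (nat_lit 5) (nat_lit 349) (nat_lit 305) (nat_lit 126))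 (XT.lf (nat_lit 0) (nat_lit 17304647196) (nat_lit 456) (nat_lit 9036771346) (nat_lit 532) (nat_lit 7012312123) (nat_lit 164) (nat_lit 5) (nat_lit 170) (nat_lit 5) (nat_lit 171) (nat_lit 5) (nat_lit 350) (nat_lit 305) (nat_lit 125)))) (XT.nd (nat_lit 156) (nat_lit 0) (nat_lit 76) (XT.nd (nat_lit 78) (nat_lit 0) (nat_lit 76) (XT.lf (nat_lit 0) (nat_lit 165737472) (nat_lit 1748) (nat_lit 3946009473) (nat_lit 1748) (nat_lit 3946009473) (nat_lit 359) (nat_lit 3) (nat_lit 382) (nat_lit 3) (nat_lit 382) (nat_lit 5) (nat_lit 306) (nat_lit 306) (nat_lit 168)) (XT.lf (nat_lit 0) (nat_lit 734875983) (nat_lit 1672) (nat_lit 13384948845) (nat_lit 1748) (nat_lit 2229122447) (nat_lit 360) (nat_lit 5) (nat_lit 382) (nat_lit 5) (nat_lit 383) (nat_lit 5) (nat_lit 307) (nat_lit 306) (nat_lit 167))) (XT.nd (nat_lit 78) (nat_lit 0) (nat_lit 76) (XT.lf (nat_lit 0) (nat_lit 1244980923) (nat_lit 1672) (nat_lit 2397639437)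 (nat_lit 1748) (nat_lit 12944885216) (nat_lit 360) (nat_lit 5) (nat_lit 382) (nat_lit 5) (nat_lit 383) (nat_lit 5) (nat_lit 308) (nat_lit 306) (nat_lit 166)) (XT.lf (nat_lit 0) (nat_lit 1862053257) (nat_lit 1672) (nat_lit 7848934204) (nat_lit 1748) (nat_lit 7120412370) (nat_lit 361) (nat_lit 5) (nat_lit 383) (nat_lit 5) (nat_lit 384) (nat_lit 5) (nat_lit 309) (nat_lit 306) (nat_lit 165))))) (XT.nd (nat_lit 234) (nat_lit 0) (nat_lit 76) (XT.nd (nat_lit 78) (nat_lit 0) (nat_lit 0) (XT.lf (nat_lit 0) (nat_lit 2556049954) (nat_lit 1672) (nat_lit 13418379303) (nat_lit 1748) (nat_lit 1107025540) (nat_lit 362) (nat_lit 5) (nat_lit 384) (nat_lit 5) (nat_lit 385) (nat_lit 5) (nat_lit 310) (nat_lit 306) (nat_lit 164)) (XT.nd (nat_lit 78) (nat_lit 0) (nat_lit 76) (XT.lf (nat_lit 0) (nat_lit 3376308153) (nat_lit 1672) (nat_lit 1783218108) (nat_lit 1748) (nat_lit 12177388094) (nat_lit 362) (nat_lit 5) (nat_lit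 384) (nat_lit 5) (nat_lit 385) (nat_lit 5) (nat_lit 311) (nat_lit 306) (nat_lit 163)) (XT.lf (nat_lit 0) (nat_lit 4314878093) (nat_lit 1672) (nat_lit 7309430973) (nat_lit 1748) (nat_lit 5973865986) (nat_lit 363) (nat_lit 5) (nat_lit 385) (nat_lit 5) (nat_lit 386) (nat_lit 5) (nat_lit 312) (nat_lit 306) (nat_lit 162)))) (XT.nd (nat_lit 156) (nat_lit 0) (nat_lit 152) (XT.nd (nat_lit 78) (nat_lit 0) (nat_lit 76) (XT.lf (nat_lit 76) (nat_lit 4902154775) (nat_lit 0) (nat_lit 445638084) (nat_lit 1748) (nat_lit 12518168056) (nat_lit 364) (nat_lit 5) (nat_lit 363) (nat_lit 5) (nat_lit 386) (nat_lit 5) (nat_lit 313) (nat_lit 306) (nat_lit 161)) (XT.lf (nat_lit 0) (nat_lit 6521446227) (nat_lit 1672) (nat_lit 640788764) (nat_lit 1748) (nat_lit 10977361113) (nat_lit 364) (nat_lit 5) (nat_lit 386) (nat_lit 5) (nat_lit 387) (nat_lit 5) (nat_lit 314) (nat_lit 306) (nat_lit 160))) (XT.nd (nat_lit 78) (nat_lit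 0) (nat_lit 0) (XT.lf (nat_lit 0) (nat_lit 7829455440) (nat_lit 1672) (nat_lit 6247365772) (nat_lit 1748) (nat_lit 4342646675) (nat_lit 365) (nat_lit 5) (nat_lit 387) (nat_lit 5) (nat_lit 388) (nat_lit 5) (nat_lit 315) (nat_lit 306) (nat_lit 159)) (XT.lf (nat_lit 76) (nat_lit 6702629540) (nat_lit 0) (nat_lit 2558552266) (nat_lit 1748) (nat_lit 9444874636) (nat_lit 366) (nat_lit 5) (nat_lit 365) (nat_lit 5) (nat_lit 388) (nat_lit 5) (nat_lit 316) (nat_lit 306) (nat_lit 158))))))))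
noncomputable def xc116 : XT := (XT.nd (nat_lit 2028) (nat_lit 2888) (nat_lit 0) (XT.nd (nat_lit 1014) (nat_lit 6992) (nat_lit 0) (XT.nd (nat_lit 468) (nat_lit 3496) (nat_lit 0) (XT.nd (nat_lit 234) (nat_lit 1520) (nat_lit 0) (XT.nd (nat_lit 78) (nat_lit 0) (nat_lit 76) (XT.lf (nat_lit 76) (nat_lit 1071624585) (nat_lit 0) (nat_lit 9763215171) (nat_lit 1748) (nat_lit 8164433163) (nat_lit 367) (nat_lit 5) (nat_lit 366) (nat_lit 5) (nat_lit 389) (nat_lit 5) (nat_lit 317) (nat_lit 306) (nat_lit 157)) (XT.nd (nat_lit 78) (nat_lit 0) (nat_lit 0) (XT.lf (nat_lit 0) (nat_lit 12557165560) (nat_lit 1672) (nat_lit 4635356702) (nat_lit 1748) (nat_lit 2106744040) (nat_lit 367) (nat_lit 5) (nat_lit 389) (nat_lit 5) (nat_lit 390) (nat_lit 5) (nat_lit 318) (nat_lit 306) (nat_lit 156)) (XT.lf (nat_lit 76) (nat_lit 9101930834) (nat_lit 0) (nat_lit 5343209360) (nat_lit 1748) (nat_lit 5160849005) (nat_lit 368) (nat_lit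 5) (nat_lit 367) (nat_lit 5) (nat_lit 390) (nat_lit 5) (nat_lit 319) (nat_lit 306) (nat_lit 155)))) (XT.nd (nat_lit 78) (nat_lit 1672) (nat_lit 0) (XT.lf (nat_lit 76) (nat_lit 3385184471) (nat_lit 0) (nat_lit 13092578122) (nat_lit 1748) (nat_lit 3442400046) (nat_lit 369) (nat_lit 5) (nat_lit 368) (nat_lit 5) (nat_lit 391) (nat_lit 5) (nat_lit 320) (nat_lit 306) (nat_lit 154)) (XT.nd (nat_lit 78) (nat_lit 1672) (nat_lit 0) (XT.lf (nat_lit 76) (nat_lit 17790851815) (nat_lit 0) (nat_lit 877293540) (nat_lit 1748) (nat_lit 1573689052) (nat_lit 369) (nat_lit 5) (nat_lit 368) (nat_lit 5) (nat_lit 391) (nat_lit 5) (nat_lit 321) (nat_lit 306) (nat_lit 153)) (XT.lf (nat_lit 0) (nat_lit 492592873) (nat_lit 1748) (nat_lit 8442677018) (nat_lit 1824) (nat_lit 11634926906) (nat_lit 346) (nat_lit 5) (nat_lit 369) (nat_lit 5) (nat_lit 370) (nat_lit 5) (nat_lit 322) (nat_lit 306) (nat_lit 152))))) (XT.nd (nat_lit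 234) (nat_lit 2432) (nat_lit 0) (XT.nd (nat_lit 78) (nat_lit 1140) (nat_lit 0) (XT.lf (nat_lit 0) (nat_lit 2677690833) (nat_lit 1748) (nat_lit 14603459600) (nat_lit 76) (nat_lit 3625495524) (nat_lit 347) (nat_lit 5) (nat_lit 370) (nat_lit 5) (nat_lit 348) (nat_lit 5) (nat_lit 323) (nat_lit 306) (nat_lit 151)) (XT.nd (nat_lit 78) (nat_lit 0) (nat_lit 0) (XT.lf (nat_lit 0) (nat_lit 290731786) (nat_lit 1140) (nat_lit 4747641601) (nat_lit 1216) (nat_lit 16212622432) (nat_lit 332) (nat_lit 5) (nat_lit 347) (nat_lit 5) (nat_lit 348) (nat_lit 5) (nat_lit 324) (nat_lit 306) (nat_lit 150)) (XT.lf (nat_lit 0) (nat_lit 7613507919) (nat_lit 1216) (nat_lit 5833662542) (nat_lit 76) (nat_lit 8155640717) (nat_lit 332) (nat_lit 5) (nat_lit 348) (nat_lit 5) (nat_lit 333) (nat_lit 5) (nat_lit 325) (nat_lit 306) (nat_lit 149)))) (XT.nd (nat_lit 156) (nat_lit 760) (nat_lit 0) (XT.nd (nat_lit 78) (nat_lit 836) (nat_lit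 0) (XT.lf (nat_lit 0) (nat_lit 9836262386) (nat_lit 836) (nat_lit 516534804) (nat_lit 912) (nat_lit 11610653205) (nat_lit 321) (nat_lit 5) (nat_lit 332) (nat_lit 5) (nat_lit 333) (nat_lit 5) (nat_lit 326) (nat_lit 306) (nat_lit 148)) (XT.lf (nat_lit 0) (nat_lit 3679102883) (nat_lit 836) (nat_lit 9633459010) (nat_lit 912) (nat_lit 9019588152) (nat_lit 310) (nat_lit 5) (nat_lit 321) (nat_lit 5) (nat_lit 322) (nat_lit 5) (nat_lit 327) (nat_lit 306) (nat_lit 147))) (XT.nd (nat_lit 78) (nat_lit 760) (nat_lit 0) (XT.lf (nat_lit 0) (nat_lit 16462291505) (nat_lit 912) (nat_lit 2619818268) (nat_lit 76) (nat_lit 3627784457) (nat_lit 310) (nat_lit 5) (nat_lit 322) (nat_lit 5) (nat_lit 311) (nat_lit 5) (nat_lit 328) (nat_lit 306) (nat_lit 146)) (XT.lf (nat_lit 0) (nat_lit 14006066551) (nat_lit 760) (nat_lit 5847748001) (nat_lit 836) (nat_lit 3242216939) (nat_lit 300) (nat_lit 5) (nat_lit 310) (nat_lit 5) (nat_lit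 311) (nat_lit 5) (nat_lit 329) (nat_lit 306) (nat_lit 145)))))) (XT.nd (nat_lit 468) (nat_lit 3876) (nat_lit 0) (XT.nd (nat_lit 234) (nat_lit 1444) (nat_lit 0) (XT.nd (nat_lit 78) (nat_lit 836) (nat_lit 0) (XT.lf (nat_lit 0) (nat_lit 7716081344) (nat_lit 836) (nat_lit 15741637004) (nat_lit 912) (nat_lit 33828403) (nat_lit 289) (nat_lit 5) (nat_lit 300) (nat_lit 5) (nat_lit 301) (nat_lit 5) (nat_lit 330) (nat_lit 306) (nat_lit 144)) (XT.nd (nat_lit 78) (nat_lit 0) (nat_lit 0) (XT.lf (nat_lit 0) (nat_lit 1200393097) (nat_lit 760) (nat_lit 2128679408) (nat_lit 836) (nat_lit 20567413344) (nat_lit 278) (nat_lit 5) (nat_lit 288) (nat_lit 5) (nat_lit 289) (nat_lit 5) (nat_lit 331) (nat_lit 306) (nat_lit 143)) (XT.lf (nat_lit 0) (nat_lit 6969656610) (nat_lit 836) (nat_lit 5495791829) (nat_lit 76) (nat_lit 11844581179) (nat_lit 278) (nat_lit 5) (nat_lit 289) (nat_lit 5) (nat_lit 279) (nat_lit 5) (nat_lit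 332) (nat_lit 306) (nat_lit 142)))) (XT.nd (nat_lit 78) (nat_lit 684) (nat_lit 0) (XT.lf (nat_lit 0) (nat_lit 10816692069) (nat_lit 836) (nat_lit 12383384265) (nat_lit 76) (nat_lit 1533964593) (nat_lit 268) (nat_lit 5) (nat_lit 279) (nat_lit 5) (nat_lit 269) (nat_lit 5) (nat_lit 333) (nat_lit 306) (nat_lit 141)) (XT.nd (nat_lit 78) (nat_lit 0) (nat_lit 0) (XT.lf (nat_lit 0) (nat_lit 5620325074) (nat_lit 684) (nat_lit 9308970805) (nat_lit 760) (nat_lit 10238479287) (nat_lit 259) (nat_lit 5) (nat_lit 268) (nat_lit 5) (nat_lit 269) (nat_lit 5) (nat_lit 334) (nat_lit 306) (nat_lit 140)) (XT.lf (nat_lit 0) (nat_lit 19275179106) (nat_lit 760) (nat_lit 1319702000) (nat_lit 76) (nat_lit 5017447868) (nat_lit 259) (nat_lit 5) (nat_lit 269) (nat_lit 5) (nat_lit 260) (nat_lit 5) (nat_lit 335) (nat_lit 306) (nat_lit 139))))) (XT.nd (nat_lit 234) (nat_lit 1748) (nat_lit 0) (XT.nd (nat_lit 78) (nat_lit 1444)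 (nat_lit 0) (XT.lf (nat_lit 0) (nat_lit 17616387243) (nat_lit 684) (nat_lit 6304862547) (nat_lit 760) (nat_lit 2145578790) (nat_lit 250) (nat_lit 5) (nat_lit 259) (nat_lit 5) (nat_lit 260) (nat_lit 5) (nat_lit 336) (nat_lit 306) (nat_lit 138)) (XT.nd (nat_lit 78) (nat_lit 684) (nat_lit 0) (XT.lf (nat_lit 0) (nat_lit 2270401978) (nat_lit 760) (nat_lit 15865429173) (nat_lit 76) (nat_lit 8396312256) (nat_lit 240) (nat_lit 5) (nat_lit 250) (nat_lit 5) (nat_lit 241) (nat_lit 5) (nat_lit 337) (nat_lit 306) (nat_lit 137)) (XT.lf (nat_lit 0) (nat_lit 3443786468) (nat_lit 684) (nat_lit 3461685544) (nat_lit 760) (nat_lit 20103351819) (nat_lit 231) (nat_lit 5) (nat_lit 240) (nat_lit 5) (nat_lit 241) (nat_lit 5) (nat_lit 338) (nat_lit 306) (nat_lit 136)))) (XT.nd (nat_lit 156) (nat_lit 1140) (nat_lit 0) (XT.nd (nat_lit 78) (nat_lit 608) (nat_lit 0) (XT.lf (nat_lit 0) (nat_lit 11857041316) (nat_lit 760) (nat_lit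 4031858394) (nat_lit 76) (nat_lit 11607360864) (nat_lit 231) (nat_lit 5) (nat_lit 241) (nat_lit 5) (nat_lit 232) (nat_lit 5) (nat_lit 339) (nat_lit 306) (nat_lit 135)) (XT.lf (nat_lit 0) (nat_lit 16270486524) (nat_lit 608) (nat_lit 809216170) (nat_lit 684) (nat_lit 10916171533) (nat_lit 223) (nat_lit 5) (nat_lit 231) (nat_lit 5) (nat_lit 232) (nat_lit 5) (nat_lit 340) (nat_lit 306) (nat_lit 134))) (XT.nd (nat_lit 78) (nat_lit 532) (nat_lit 0) (XT.lf (nat_lit 0) (nat_lit 8738925267) (nat_lit 608) (nat_lit 13893837752) (nat_lit 684) (nat_lit 5874243460) (nat_lit 215) (nat_lit 5) (nat_lit 223) (nat_lit 5) (nat_lit 224) (nat_lit 5) (nat_lit 341) (nat_lit 306) (nat_lit 133)) (XT.lf (nat_lit 0) (nat_lit 935632865) (nat_lit 532) (nat_lit 27511667805) (nat_lit 608) (nat_lit 584278756) (nat_lit 208) (nat_lit 5) (nat_lit 215) (nat_lit 5) (nat_lit 216) (nat_lit 5) (nat_lit 342) (nat_lit 306) (nat_lit 132)))))))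 (XT.nd (nat_lit 38220) (nat_lit 0) (nat_lit 12312) (XT.nd (nat_lit 468) (nat_lit 532) (nat_lit 0) (XT.nd (nat_lit 234) (nat_lit 1140) (nat_lit 0) (XT.nd (nat_lit 78) (nat_lit 1140) (nat_lit 0) (XT.lf (nat_lit 0) (nat_lit 5022443850) (nat_lit 608) (nat_lit 7170594742) (nat_lit 76) (nat_lit 17373786414) (nat_lit 207) (nat_lit 5) (nat_lit 215) (nat_lit 5) (nat_lit 208) (nat_lit 5) (nat_lit 343) (nat_lit 306) (nat_lit 131)) (XT.nd (nat_lit 78) (nat_lit 532) (nat_lit 0) (XT.lf (nat_lit 0) (nat_lit 10902220371) (nat_lit 684) (nat_lit 15577437707) (nat_lit 76) (nat_lit 3636140928) (nat_lit 199) (nat_lit 5) (nat_lit 208) (nat_lit 5) (nat_lit 200) (nat_lit 5) (nat_lit 344) (nat_lit 306) (nat_lit 130)) (XT.lf (nat_lit 0) (nat_lit 6310529934) (nat_lit 532) (nat_lit 10813672438) (nat_lit 608) (nat_lit 13553727593) (nat_lit 192) (nat_lit 5) (nat_lit 199) (nat_lit 5) (nat_lit 200) (nat_lit 5) (nat_lit 345) (nat_lit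 306) (nat_lit 129)))) (XT.nd (nat_lit 78) (nat_lit 1140) (nat_lit 0) (XT.lf (nat_lit 0) (nat_lit 23668155914) (nat_lit 608) (nat_lit 2228539894) (nat_lit 76) (nat_lit 5357526668) (nat_lit 192) (nat_lit 5) (nat_lit 200) (nat_lit 5) (nat_lit 193) (nat_lit 5) (nat_lit 346) (nat_lit 306) (nat_lit 128)) (XT.nd (nat_lit 78) (nat_lit 608) (nat_lit 0) (XT.lf (nat_lit 0) (nat_lit 20767909842) (nat_lit 532) (nat_lit 9842332825) (nat_lit 608) (nat_lit 1233528556) (nat_lit 185) (nat_lit 5) (nat_lit 192) (nat_lit 5) (nat_lit 193) (nat_lit 5) (nat_lit 347) (nat_lit 306) (nat_lit 127)) (XT.lf (nat_lit 0) (nat_lit 5373088428) (nat_lit 608) (nat_lit 20340588514) (nat_lit 76) (nat_lit 6733980817) (nat_lit 177) (nat_lit 5) (nat_lit 185) (nat_lit 5) (nat_lit 178) (nat_lit 5) (nat_lit 348) (nat_lit 306) (nat_lit 126))))) (XT.nd (nat_lit 37440) (nat_lit 0) (nat_lit 14440) (XT.nd (nat_lit 78) (nat_lit 0) (nat_lit 0)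 (XT.lf (nat_lit 0) (nat_lit 3027483961) (nat_lit 532) (nat_lit 9289620908) (nat_lit 608) (nat_lit 20749277221) (nat_lit 170) (nat_lit 5) (nat_lit 177) (nat_lit 5) (nat_lit 178) (nat_lit 5) (nat_lit 349) (nat_lit 306) (nat_lit 125)) (XT.nd (nat_lit 37284) (nat_lit 0) (nat_lit 14364) (XT.lf (nat_lit 0) (nat_lit 19652645590) (nat_lit 608) (nat_lit 6382901174) (nat_lit 76) (nat_lit 7664460680) (nat_lit 170) (nat_lit 5) (nat_lit 178) (nat_lit 5) (nat_lit 171) (nat_lit 5) (nat_lit 350) (nat_lit 306) (nat_lit 124)) (XT.lf (nat_lit 0) (nat_lit 531628817) (nat_lit 1748) (nat_lit 3880157701) (nat_lit 1748) (nat_lit 3880157701) (nat_lit 359) (nat_lit 3) (nat_lit 382) (nat_lit 3) (nat_lit 382) (nat_lit 5) (nat_lit 307) (nat_lit 307) (nat_lit 166)))) (XT.nd (nat_lit 156) (nat_lit 0) (nat_lit 76) (XT.nd (nat_lit 78) (nat_lit 0) (nat_lit 0) (XT.lf (nat_lit 0) (nat_lit 1457877855) (nat_lit 1672) (nat_lit 13407101815)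 (nat_lit 1748) (nat_lit 1959782916) (nat_lit 360) (nat_lit 5) (nat_lit 382) (nat_lit 5) (nat_lit 383) (nat_lit 5) (nat_lit 308) (nat_lit 307) (nat_lit 165)) (XT.lf (nat_lit 0) (nat_lit 1962869760) (nat_lit 1672) (nat_lit 2101223479) (nat_lit 1748) (nat_lit 13006811185) (nat_lit 360) (nat_lit 5) (nat_lit 382) (nat_lit 5) (nat_lit 383) (nat_lit 5) (nat_lit 309) (nat_lit 307) (nat_lit 164))) (XT.nd (nat_lit 78) (nat_lit 0) (nat_lit 76) (XT.lf (nat_lit 0) (nat_lit 2579033116) (nat_lit 1672) (nat_lit 7706221685) (nat_lit 1748) (nat_lit 7037267058) (nat_lit 361) (nat_lit 5) (nat_lit 383) (nat_lit 5) (nat_lit 384) (nat_lit 5) (nat_lit 310) (nat_lit 307) (nat_lit 163)) (XT.lf (nat_lit 0) (nat_lit 3275241889) (nat_lit 1672) (nat_lit 13433652395) (nat_lit 1748) (nat_lit 871573753) (nat_lit 362) (nat_lit 5) (nat_lit 384) (nat_lit 5) (nat_lit 385) (nat_lit 5) (nat_lit 311) (nat_lit 307) (nat_lit 162))))))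 (XT.nd (nat_lit 546) (nat_lit 2280) (nat_lit 0) (XT.nd (nat_lit 234) (nat_lit 0) (nat_lit 152) (XT.nd (nat_lit 78) (nat_lit 0) (nat_lit 76) (XT.lf (nat_lit 0) (nat_lit 4101393938) (nat_lit 1672) (nat_lit 1460716315) (nat_lit 1748) (nat_lit 12281872306) (nat_lit 362) (nat_lit 5) (nat_lit 384) (nat_lit 5) (nat_lit 385) (nat_lit 5) (nat_lit 312) (nat_lit 307) (nat_lit 161)) (XT.nd (nat_lit 78) (nat_lit 0) (nat_lit 0) (XT.lf (nat_lit 0) (nat_lit 5050807664) (nat_lit 1672) (nat_lit 7144562111) (nat_lit 1748) (nat_lit 5918073975) (nat_lit 363) (nat_lit 5) (nat_lit 385) (nat_lit 5) (nat_lit 386) (nat_lit 5) (nat_lit 313) (nat_lit 307) (nat_lit 160)) (XT.lf (nat_lit 76) (nat_lit 5427138804) (nat_lit 0) (nat_lit 672360212) (nat_lit 1748) (nat_lit 12290084318) (nat_lit 364) (nat_lit 5) (nat_lit 363) (nat_lit 5) (nat_lit 386) (nat_lit 5) (nat_lit 314) (nat_lit 307) (nat_lit 159)))) (XT.nd (nat_lit 156) (nat_lit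 0) (nat_lit 76) (XT.nd (nat_lit 78) (nat_lit 0) (nat_lit 76) (XT.lf (nat_lit 0) (nat_lit 7289795577) (nat_lit 1672) (nat_lit 279759006) (nat_lit 1748) (nat_lit 11102259789) (nat_lit 364) (nat_lit 5) (nat_lit 386) (nat_lit 5) (nat_lit 387) (nat_lit 5) (nat_lit 315) (nat_lit 307) (nat_lit 158)) (XT.lf (nat_lit 0) (nat_lit 8621596063) (nat_lit 1672) (nat_lit 6047835872) (nat_lit 1748) (nat_lit 4290974368) (nat_lit 365) (nat_lit 5) (nat_lit 387) (nat_lit 5) (nat_lit 388) (nat_lit 5) (nat_lit 316) (nat_lit 307) (nat_lit 157))) (XT.nd (nat_lit 78) (nat_lit 0) (nat_lit 76) (XT.lf (nat_lit 76) (nat_lit 7284381481) (nat_lit 0) (nat_lit 2798133535) (nat_lit 1748) (nat_lit 9173367259) (nat_lit 366) (nat_lit 5) (nat_lit 365) (nat_lit 5) (nat_lit 388) (nat_lit 5) (nat_lit 317) (nat_lit 307) (nat_lit 156)) (XT.lf (nat_lit 76) (nat_lit 1490482049) (nat_lit 0) (nat_lit 10198555019) (nat_lit 1748) (nat_lit 7869159244)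 (nat_lit 367) (nat_lit 5) (nat_lit 366) (nat_lit 5) (nat_lit 389) (nat_lit 5) (nat_lit 318) (nat_lit 307) (nat_lit 155))))) (XT.nd (nat_lit 234) (nat_lit 2660) (nat_lit 0) (XT.nd (nat_lit 78) (nat_lit 0) (nat_lit 0) (XT.lf (nat_lit 0) (nat_lit 13446722548) (nat_lit 1672) (nat_lit 4387341328) (nat_lit 1748) (nat_lit 2033465562) (nat_lit 367) (nat_lit 5) (nat_lit 389) (nat_lit 5) (nat_lit 390) (nat_lit 5) (nat_lit 319) (nat_lit 307) (nat_lit 154)) (XT.nd (nat_lit 78) (nat_lit 0) (nat_lit 76) (XT.lf (nat_lit 76) (nat_lit 9755784986) (nat_lit 0) (nat_lit 5623086671) (nat_lit 1748) (nat_lit 4804845002) (nat_lit 368) (nat_lit 5) (nat_lit 367) (nat_lit 5) (nat_lit 390) (nat_lit 5) (nat_lit 320) (nat_lit 307) (nat_lit 153)) (XT.lf (nat_lit 76) (nat_lit 3872404710) (nat_lit 0) (nat_lit 13587244128) (nat_lit 1748) (nat_lit 3047935892) (nat_lit 369) (nat_lit 5) (nat_lit 368) (nat_lit 5) (nat_lit 391) (nat_lit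 5) (nat_lit 321) (nat_lit 307) (nat_lit 152)))) (XT.nd (nat_lit 156) (nat_lit 1064) (nat_lit 0) (XT.nd (nat_lit 78) (nat_lit 1672) (nat_lit 0) (XT.lf (nat_lit 76) (nat_lit 18699009122) (nat_lit 0) (nat_lit 1002533378) (nat_lit 1748) (nat_lit 1137660738) (nat_lit 369) (nat_lit 5) (nat_lit 368) (nat_lit 5) (nat_lit 391) (nat_lit 5) (nat_lit 322) (nat_lit 307) (nat_lit 151)) (XT.lf (nat_lit 0) (nat_lit 972229019) (nat_lit 1748) (nat_lit 8310665954) (nat_lit 1824) (nat_lit 11894711602) (nat_lit 346) (nat_lit 5) (nat_lit 369) (nat_lit 5) (nat_lit 370) (nat_lit 5) (nat_lit 323) (nat_lit 307) (nat_lit 150))) (XT.nd (nat_lit 78) (nat_lit 1140) (nat_lit 0) (XT.lf (nat_lit 0) (nat_lit 3211316079) (nat_lit 1748) (nat_lit 14652574718) (nat_lit 76) (nat_lit 3660501310) (nat_lit 347) (nat_lit 5) (nat_lit 370) (nat_lit 5) (nat_lit 348) (nat_lit 5) (nat_lit 324) (nat_lit 307) (nat_lit 149)) (XT.lf (nat_lit 0)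 (nat_lit 682131530) (nat_lit 1140) (nat_lit 4949969424) (nat_lit 1216) (nat_lit 16247197156) (nat_lit 332) (nat_lit 5) (nat_lit 347) (nat_lit 5) (nat_lit 348) (nat_lit 5) (nat_lit 325) (nat_lit 307) (nat_lit 148))))))))
noncomputable def xc117 : XT := (XT.nd (nat_lit 39390) (nat_lit 0) (nat_lit 6232) (XT.nd (nat_lit 1014) (nat_lit 4788) (nat_lit 0) (XT.nd (nat_lit 468) (nat_lit 3648) (nat_lit 0) (XT.nd (nat_lit 234) (nat_lit 1672) (nat_lit 0) (XT.nd (nat_lit 78) (nat_lit 1672) (nat_lit 0) (XT.lf (nat_lit 0) (nat_lit 8271221374) (nat_lit 1216) (nat_lit 5627804190) (nat_lit 76) (nat_lit 8342918682) (nat_lit 332) (nat_lit 5) (nat_lit 348) (nat_lit 5) (nat_lit 333) (nat_lit 5) (nat_lit 326) (nat_lit 307) (nat_lit 147)) (XT.nd (nat_lit 78) (nat_lit 836) (nat_lit 0) (XT.lf (nat_lit 0) (nat_lit 10506039352) (nat_lit 836) (nat_lit 576578579) (nat_lit 912) (nat_lit 11530996770) (nat_lit 321) (nat_lit 5)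 (nat_lit 332) (nat_lit 5) (nat_lit 333) (nat_lit 5) (nat_lit 327) (nat_lit 307) (nat_lit 146)) (XT.lf (nat_lit 0) (nat_lit 4166968143) (nat_lit 836) (nat_lit 9954166772) (nat_lit 912) (nat_lit 8872451564) (nat_lit 310) (nat_lit 5) (nat_lit 321) (nat_lit 5) (nat_lit 322) (nat_lit 5) (nat_lit 328) (nat_lit 307) (nat_lit 145)))) (XT.nd (nat_lit 78) (nat_lit 1672) (nat_lit 0) (XT.lf (nat_lit 0) (nat_lit 17353238231) (nat_lit 912) (nat_lit 2323436036) (nat_lit 76) (nat_lit 3706241109) (nat_lit 310) (nat_lit 5) (nat_lit 322) (nat_lit 5) (nat_lit 311) (nat_lit 5) (nat_lit 329) (nat_lit 307) (nat_lit 144)) (XT.nd (nat_lit 78) (nat_lit 912) (nat_lit 0) (XT.lf (nat_lit 0) (nat_lit 14795141776) (nat_lit 760) (nat_lit 6042194915) (nat_lit 836) (nat_lit 2943493200) (nat_lit 300) (nat_lit 5) (nat_lit 310) (nat_lit 5) (nat_lit 311) (nat_lit 5) (nat_lit 330) (nat_lit 307) (nat_lit 143)) (XT.lf (nat_lit 0) (nat_lit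 347332008) (nat_lit 912) (nat_lit 15872140303) (nat_lit 76) (nat_lit 7968882235) (nat_lit 288) (nat_lit 5) (nat_lit 300) (nat_lit 5) (nat_lit 289) (nat_lit 5) (nat_lit 331) (nat_lit 307) (nat_lit 142))))) (XT.nd (nat_lit 234) (nat_lit 2128) (nat_lit 0) (XT.nd (nat_lit 78) (nat_lit 760) (nat_lit 0) (XT.lf (nat_lit 0) (nat_lit 1606661691) (nat_lit 760) (nat_lit 2195287223) (nat_lit 836) (nat_lit 20803671654) (nat_lit 278) (nat_lit 5) (nat_lit 288) (nat_lit 5) (nat_lit 289) (nat_lit 5) (nat_lit 332) (nat_lit 307) (nat_lit 141)) (XT.nd (nat_lit 78) (nat_lit 760) (nat_lit 0) (XT.lf (nat_lit 0) (nat_lit 7540869021) (nat_lit 836) (nat_lit 5293641801) (nat_lit 76) (nat_lit 12197286188) (nat_lit 278) (nat_lit 5) (nat_lit 289) (nat_lit 5) (nat_lit 279) (nat_lit 5) (nat_lit 333) (nat_lit 307) (nat_lit 140)) (XT.lf (nat_lit 0) (nat_lit 11495159001) (nat_lit 836) (nat_lit 12386501994) (nat_lit 76) (nat_lit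 1587039271) (nat_lit 268) (nat_lit 5) (nat_lit 279) (nat_lit 5) (nat_lit 269) (nat_lit 5) (nat_lit 334) (nat_lit 307) (nat_lit 139)))) (XT.nd (nat_lit 156) (nat_lit 1444) (nat_lit 0) (XT.nd (nat_lit 78) (nat_lit 0) (nat_lit 0) (XT.lf (nat_lit 0) (nat_lit 6151342036) (nat_lit 684) (nat_lit 9571842184) (nat_lit 760) (nat_lit 10192429677) (nat_lit 259) (nat_lit 5) (nat_lit 268) (nat_lit 5) (nat_lit 269) (nat_lit 5) (nat_lit 335) (nat_lit 307) (nat_lit 138)) (XT.lf (nat_lit 0) (nat_lit 20189469361) (nat_lit 760) (nat_lit 1000559790) (nat_lit 76) (nat_lit 5183682649) (nat_lit 259) (nat_lit 5) (nat_lit 269) (nat_lit 5) (nat_lit 260) (nat_lit 5) (nat_lit 336) (nat_lit 307) (nat_lit 137))) (XT.nd (nat_lit 78) (nat_lit 760) (nat_lit 0) (XT.lf (nat_lit 0) (nat_lit 18497792109) (nat_lit 684) (nat_lit 6469633980) (nat_lit 760) (nat_lit 1874577985) (nat_lit 250) (nat_lit 5) (nat_lit 259) (nat_lit 5) (nat_lit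 260) (nat_lit 5) (nat_lit 337) (nat_lit 307) (nat_lit 136)) (XT.lf (nat_lit 0) (nat_lit 2662310553) (nat_lit 760) (nat_lit 15983092303) (nat_lit 76) (nat_lit 8675982790) (nat_lit 240) (nat_lit 5) (nat_lit 250) (nat_lit 5) (nat_lit 241) (nat_lit 5) (nat_lit 338) (nat_lit 307) (nat_lit 135)))))) (XT.nd (nat_lit 468) (nat_lit 2280) (nat_lit 0) (XT.nd (nat_lit 234) (nat_lit 1216) (nat_lit 0) (XT.nd (nat_lit 78) (nat_lit 608) (nat_lit 0) (XT.lf (nat_lit 0) (nat_lit 3899586819) (nat_lit 684) (nat_lit 3529703480) (nat_lit 760) (nat_lit 20383226200) (nat_lit 231) (nat_lit 5) (nat_lit 240) (nat_lit 5) (nat_lit 241) (nat_lit 5) (nat_lit 339) (nat_lit 307) (nat_lit 134)) (XT.nd (nat_lit 78) (nat_lit 608) (nat_lit 0) (XT.lf (nat_lit 0) (nat_lit 12520409619) (nat_lit 760) (nat_lit 3804439238) (nat_lit 76) (nat_lit 11989914388) (nat_lit 231) (nat_lit 5) (nat_lit 241) (nat_lit 5) (nat_lit 232) (nat_lit 5) (nat_lit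 340) (nat_lit 307) (nat_lit 133)) (XT.lf (nat_lit 0) (nat_lit 17101324058) (nat_lit 608) (nat_lit 791691080) (nat_lit 684) (nat_lit 10936491643) (nat_lit 223) (nat_lit 5) (nat_lit 231) (nat_lit 5) (nat_lit 232) (nat_lit 5) (nat_lit 341) (nat_lit 307) (nat_lit 132)))) (XT.nd (nat_lit 78) (nat_lit 608) (nat_lit 0) (XT.lf (nat_lit 0) (nat_lit 9344131068) (nat_lit 608) (nat_lit 14262262235) (nat_lit 684) (nat_lit 5749711738) (nat_lit 215) (nat_lit 5) (nat_lit 223) (nat_lit 5) (nat_lit 224) (nat_lit 5) (nat_lit 342) (nat_lit 307) (nat_lit 131)) (XT.nd (nat_lit 78) (nat_lit 76) (nat_lit 0) (XT.lf (nat_lit 0) (nat_lit 1306877902) (nat_lit 532) (nat_lit 28282440379) (nat_lit 608) (nat_lit 307224242) (nat_lit 208) (nat_lit 5) (nat_lit 215) (nat_lit 5) (nat_lit 216) (nat_lit 5) (nat_lit 343) (nat_lit 307) (nat_lit 130)) (XT.lf (nat_lit 0) (nat_lit 5455368981) (nat_lit 608) (nat_lit 7048578885) (nat_lit 76)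 (nat_lit 17944034764) (nat_lit 207) (nat_lit 5) (nat_lit 215) (nat_lit 5) (nat_lit 208) (nat_lit 5) (nat_lit 344) (nat_lit 307) (nat_lit 129))))) (XT.nd (nat_lit 234) (nat_lit 1140) (nat_lit 0) (XT.nd (nat_lit 78) (nat_lit 532) (nat_lit 0) (XT.lf (nat_lit 0) (nat_lit 11505831466) (nat_lit 684) (nat_lit 15707737055) (nat_lit 76) (nat_lit 3799977361) (nat_lit 199) (nat_lit 5) (nat_lit 208) (nat_lit 5) (nat_lit 200) (nat_lit 5) (nat_lit 345) (nat_lit 307) (nat_lit 128)) (XT.nd (nat_lit 78) (nat_lit 0) (nat_lit 0) (XT.lf (nat_lit 0) (nat_lit 6831401805) (nat_lit 532) (nat_lit 11077169109) (nat_lit 608) (nat_lit 13684093610) (nat_lit 192) (nat_lit 5) (nat_lit 199) (nat_lit 5) (nat_lit 200) (nat_lit 5) (nat_lit 346) (nat_lit 307) (nat_lit 127)) (XT.lf (nat_lit 0) (nat_lit 24641344244) (nat_lit 608) (nat_lit 1968440924) (nat_lit 76) (nat_lit 5576616167) (nat_lit 192) (nat_lit 5) (nat_lit 200) (nat_lit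 5) (nat_lit 193) (nat_lit 5) (nat_lit 347) (nat_lit 307) (nat_lit 126)))) (XT.nd (nat_lit 37518) (nat_lit 0) (nat_lit 13832) (XT.nd (nat_lit 78) (nat_lit 608) (nat_lit 0) (XT.lf (nat_lit 0) (nat_lit 21712597844) (nat_lit 532) (nat_lit 10073519747) (nat_lit 608) (nat_lit 1007635861) (nat_lit 185) (nat_lit 5) (nat_lit 192) (nat_lit 5) (nat_lit 193) (nat_lit 5) (nat_lit 348) (nat_lit 307) (nat_lit 125)) (XT.lf (nat_lit 0) (nat_lit 5788681178) (nat_lit 608) (nat_lit 20625987013) (nat_lit 76) (nat_lit 7001160392) (nat_lit 177) (nat_lit 5) (nat_lit 185) (nat_lit 5) (nat_lit 178) (nat_lit 5) (nat_lit 349) (nat_lit 307) (nat_lit 124))) (XT.nd (nat_lit 78) (nat_lit 0) (nat_lit 76) (XT.lf (nat_lit 0) (nat_lit 887778662) (nat_lit 1748) (nat_lit 3822906050) (nat_lit 1748) (nat_lit 3822906050) (nat_lit 359) (nat_lit 3) (nat_lit 382) (nat_lit 3) (nat_lit 382) (nat_lit 5) (nat_lit 308) (nat_lit 308) (nat_lit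 164)) (XT.lf (nat_lit 0) (nat_lit 2162332064) (nat_lit 1672) (nat_lit 13451698229) (nat_lit 1748) (nat_lit 1701663212) (nat_lit 360) (nat_lit 5) (nat_lit 382) (nat_lit 5) (nat_lit 383) (nat_lit 5) (nat_lit 309) (nat_lit 308) (nat_lit 163))))))) (XT.nd (nat_lit 1014) (nat_lit 7676) (nat_lit 0) (XT.nd (nat_lit 468) (nat_lit 0) (nat_lit 304) (XT.nd (nat_lit 234) (nat_lit 0) (nat_lit 152) (XT.nd (nat_lit 78) (nat_lit 0) (nat_lit 76) (XT.lf (nat_lit 0) (nat_lit 2663229517) (nat_lit 1672) (nat_lit 1817059561) (nat_lit 1748) (nat_lit 13089332811) (nat_lit 360) (nat_lit 5) (nat_lit 382) (nat_lit 5) (nat_lit 383) (nat_lit 5) (nat_lit 310) (nat_lit 308) (nat_lit 162)) (XT.nd (nat_lit 78) (nat_lit 0) (nat_lit 76) (XT.lf (nat_lit 0) (nat_lit 3279571478) (nat_lit 1672) (nat_lit 7580936900) (nat_lit 1748) (nat_lit 6968662492) (nat_lit 361) (nat_lit 5) (nat_lit 383) (nat_lit 5) (nat_lit 384) (nat_lit 5) (nat_lit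 311) (nat_lit 308) (nat_lit 161)) (XT.lf (nat_lit 0) (nat_lit 3979126854) (nat_lit 1672) (nat_lit 13471615039) (nat_lit 1748) (nat_lit 644480741) (nat_lit 362) (nat_lit 5) (nat_lit 384) (nat_lit 5) (nat_lit 385) (nat_lit 5) (nat_lit 312) (nat_lit 308) (nat_lit 160)))) (XT.nd (nat_lit 78) (nat_lit 0) (nat_lit 76) (XT.lf (nat_lit 0) (nat_lit 4812423823) (nat_lit 1672) (nat_lit 1150123311) (nat_lit 1748) (nat_lit 12404464180) (nat_lit 362) (nat_lit 5) (nat_lit 384) (nat_lit 5) (nat_lit 385) (nat_lit 5) (nat_lit 313) (nat_lit 308) (nat_lit 159)) (XT.nd (nat_lit 78) (nat_lit 0) (nat_lit 0) (XT.lf (nat_lit 0) (nat_lit 5774000504) (nat_lit 1672) (nat_lit 6996799066) (nat_lit 1748) (nat_lit 5874098624) (nat_lit 363) (nat_lit 5) (nat_lit 385) (nat_lit 5) (nat_lit 386) (nat_lit 5) (nat_lit 314) (nat_lit 308) (nat_lit 158)) (XT.lf (nat_lit 76) (nat_lit 5946178235) (nat_lit 0) (nat_lit 893636670) (nat_lit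 1748) (nat_lit 12089808829) (nat_lit 364) (nat_lit 5) (nat_lit 363) (nat_lit 5) (nat_lit 386) (nat_lit 5) (nat_lit 315) (nat_lit 308) (nat_lit 157))))) (XT.nd (nat_lit 234) (nat_lit 0) (nat_lit 152) (XT.nd (nat_lit 78) (nat_lit 0) (nat_lit 76) (XT.lf (nat_lit 76) (nat_lit 71207440) (nat_lit 0) (nat_lit 7977574628) (nat_lit 1748) (nat_lit 11171894978) (nat_lit 365) (nat_lit 5) (nat_lit 364) (nat_lit 5) (nat_lit 387) (nat_lit 5) (nat_lit 316) (nat_lit 308) (nat_lit 156)) (XT.nd (nat_lit 78) (nat_lit 0) (nat_lit 0) (XT.lf (nat_lit 0) (nat_lit 9405512075) (nat_lit 1672) (nat_lit 5864532638) (nat_lit 1748) (nat_lit 4248196665) (nat_lit 365) (nat_lit 5) (nat_lit 387) (nat_lit 5) (nat_lit 388) (nat_lit 5) (nat_lit 317) (nat_lit 308) (nat_lit 155)) (XT.lf (nat_lit 76) (nat_lit 7861733790) (nat_lit 0) (nat_lit 3035555438) (nat_lit 1748) (nat_lit 8925565529) (nat_lit 366) (nat_lit 5) (nat_lit 365) (nat_lit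 5) (nat_lit 388) (nat_lit 5) (nat_lit 318) (nat_lit 308) (nat_lit 154)))) (XT.nd (nat_lit 156) (nat_lit 0) (nat_lit 76) (XT.nd (nat_lit 78) (nat_lit 0) (nat_lit 76) (XT.lf (nat_lit 76) (nat_lit 1899706574) (nat_lit 0) (nat_lit 10638778229) (nat_lit 1748) (nat_lit 7596037195) (nat_lit 367) (nat_lit 5) (nat_lit 366) (nat_lit 5) (nat_lit 389) (nat_lit 5) (nat_lit 319) (nat_lit 308) (nat_lit 153)) (XT.lf (nat_lit 0) (nat_lit 14333527016) (nat_lit 1672) (nat_lit 4154105242) (nat_lit 1748) (nat_lit 1965823287) (nat_lit 367) (nat_lit 5) (nat_lit 389) (nat_lit 5) (nat_lit 390) (nat_lit 5) (nat_lit 320) (nat_lit 308) (nat_lit 152))) (XT.nd (nat_lit 78) (nat_lit 0) (nat_lit 76) (XT.lf (nat_lit 76) (nat_lit 10407395500) (nat_lit 0) (nat_lit 5904495862) (nat_lit 1748) (nat_lit 4467484580) (nat_lit 368) (nat_lit 5) (nat_lit 367) (nat_lit 5) (nat_lit 390) (nat_lit 5) (nat_lit 321) (nat_lit 308) (nat_lit 151))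 (XT.lf (nat_lit 76) (nat_lit 4352102824) (nat_lit 0) (nat_lit 14090901288) (nat_lit 1748) (nat_lit 2670209905) (nat_lit 369) (nat_lit 5) (nat_lit 368) (nat_lit 5) (nat_lit 391) (nat_lit 5) (nat_lit 322) (nat_lit 308) (nat_lit 150)))))) (XT.nd (nat_lit 546) (nat_lit 3876) (nat_lit 0) (XT.nd (nat_lit 234) (nat_lit 2736) (nat_lit 0) (XT.nd (nat_lit 78) (nat_lit 1672) (nat_lit 0) (XT.lf (nat_lit 76) (nat_lit 19612917234) (nat_lit 0) (nat_lit 1125851939) (nat_lit 1748) (nat_lit 716291470) (nat_lit 369) (nat_lit 5) (nat_lit 368) (nat_lit 5) (nat_lit 391) (nat_lit 5) (nat_lit 323) (nat_lit 308) (nat_lit 149)) (XT.nd (nat_lit 78) (nat_lit 0) (nat_lit 76) (XT.lf (nat_lit 0) (nat_lit 1439569477) (nat_lit 1748) (nat_lit 8196811860) (nat_lit 1824) (nat_lit 12167413907) (nat_lit 346) (nat_lit 5) (nat_lit 369) (nat_lit 5) (nat_lit 370) (nat_lit 5) (nat_lit 324) (nat_lit 308) (nat_lit 148)) (XT.lf (nat_lit 0)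 (nat_lit 3734929122) (nat_lit 1748) (nat_lit 14725492831) (nat_lit 76) (nat_lit 3700791343) (nat_lit 347) (nat_lit 5) (nat_lit 370) (nat_lit 5) (nat_lit 348) (nat_lit 5) (nat_lit 325) (nat_lit 308) (nat_lit 147)))) (XT.nd (nat_lit 156) (nat_lit 1672) (nat_lit 0) (XT.nd (nat_lit 78) (nat_lit 0) (nat_lit 0) (XT.lf (nat_lit 0) (nat_lit 1063305996) (nat_lit 1140) (nat_lit 5154928658) (nat_lit 1216) (nat_lit 16308744516) (nat_lit 332) (nat_lit 5) (nat_lit 347) (nat_lit 5) (nat_lit 348) (nat_lit 5) (nat_lit 326) (nat_lit 308) (nat_lit 146)) (XT.lf (nat_lit 0) (nat_lit 8924022185) (nat_lit 1216) (nat_lit 5437633481) (nat_lit 76) (nat_lit 8539109479) (nat_lit 332) (nat_lit 5) (nat_lit 348) (nat_lit 5) (nat_lit 333) (nat_lit 5) (nat_lit 327) (nat_lit 308) (nat_lit 145))) (XT.nd (nat_lit 78) (nat_lit 836) (nat_lit 0) (XT.lf (nat_lit 0) (nat_lit 11174400940) (nat_lit 836) (nat_lit 635866445) (nat_lit 912)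 (nat_lit 11473518217) (nat_lit 321) (nat_lit 5) (nat_lit 332) (nat_lit 5) (nat_lit 333) (nat_lit 5) (nat_lit 328) (nat_lit 308) (nat_lit 144)) (XT.lf (nat_lit 0) (nat_lit 4647799764) (nat_lit 836) (nat_lit 10282675827) (nat_lit 912) (nat_lit 8744879958) (nat_lit 310) (nat_lit 5) (nat_lit 321) (nat_lit 5) (nat_lit 322) (nat_lit 5) (nat_lit 329) (nat_lit 308) (nat_lit 143))))) (XT.nd (nat_lit 234) (nat_lit 2204) (nat_lit 0) (XT.nd (nat_lit 78) (nat_lit 1672) (nat_lit 0) (XT.lf (nat_lit 0) (nat_lit 18248119459) (nat_lit 912) (nat_lit 2039687537) (nat_lit 76) (nat_lit 3788795218) (nat_lit 310) (nat_lit 5) (nat_lit 322) (nat_lit 5) (nat_lit 311) (nat_lit 5) (nat_lit 330) (nat_lit 308) (nat_lit 142)) (XT.nd (nat_lit 78) (nat_lit 912) (nat_lit 0) (XT.lf (nat_lit 0) (nat_lit 15586713277) (nat_lit 760) (nat_lit 6241383729) (nat_lit 836) (nat_lit 2658539210) (nat_lit 300) (nat_lit 5) (nat_lit 310) (nat_lit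 5) (nat_lit 311) (nat_lit 5) (nat_lit 331) (nat_lit 308) (nat_lit 141)) (XT.lf (nat_lit 0) (nat_lit 717558065) (nat_lit 912) (nat_lit 15993546438) (nat_lit 76) (nat_lit 8195413515) (nat_lit 288) (nat_lit 5) (nat_lit 300) (nat_lit 5) (nat_lit 289) (nat_lit 5) (nat_lit 332) (nat_lit 308) (nat_lit 140)))) (XT.nd (nat_lit 156) (nat_lit 1444) (nat_lit 0) (XT.nd (nat_lit 78) (nat_lit 0) (nat_lit 0) (XT.lf (nat_lit 0) (nat_lit 2003864087) (nat_lit 760) (nat_lit 2263735557) (nat_lit 836) (nat_lit 21068875130) (nat_lit 278) (nat_lit 5) (nat_lit 288) (nat_lit 5) (nat_lit 289) (nat_lit 5) (nat_lit 333) (nat_lit 308) (nat_lit 139)) (XT.lf (nat_lit 0) (nat_lit 8108430480) (nat_lit 836) (nat_lit 5106495938) (nat_lit 76) (nat_lit 12560723459) (nat_lit 278) (nat_lit 5) (nat_lit 289) (nat_lit 5) (nat_lit 279) (nat_lit 5) (nat_lit 334) (nat_lit 308) (nat_lit 138))) (XT.nd (nat_lit 78) (nat_lit 684) (nat_lit 0) (XT.lf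 (nat_lit 0) (nat_lit 12173660835) (nat_lit 836) (nat_lit 12410859993) (nat_lit 76) (nat_lit 1641301161) (nat_lit 268) (nat_lit 5) (nat_lit 279) (nat_lit 5) (nat_lit 269) (nat_lit 5) (nat_lit 335) (nat_lit 308) (nat_lit 137)) (XT.lf (nat_lit 0) (nat_lit 6677485849) (nat_lit 684) (nat_lit 9843541002) (nat_lit 760) (nat_lit 10165273934) (nat_lit 259) (nat_lit 5) (nat_lit 268) (nat_lit 5) (nat_lit 269) (nat_lit 5) (nat_lit 336) (nat_lit 308) (nat_lit 136))))))))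
noncomputable def xc118 : XT := (XT.nd (nat_lit 39468) (nat_lit 0) (nat_lit 532) (XT.nd (nat_lit 38454) (nat_lit 0) (nat_lit 13224) (XT.nd (nat_lit 468) (nat_lit 2888) (nat_lit 0) (XT.nd (nat_lit 234) (nat_lit 1292) (nat_lit 0) (XT.nd (nat_lit 78) (nat_lit 1444) (nat_lit 0) (XT.lf (nat_lit 0) (nat_lit 21111898547) (nat_lit 760) (nat_lit 692436071) (nat_lit 76) (nat_lit 5354002579) (nat_lit 259) (nat_lit 5) (nat_lit 269) (nat_lit 5) (nat_lit 260) (nat_lit 5) (nat_lit 337) (nat_lit 308) (nat_lit 135)) (XT.nd (nat_lit 78) (nat_lit 760) (nat_lit 0) (XT.lf (nat_lit 0) (nat_lit 19385380457) (nat_lit 684) (nat_lit 6640747749) (nat_lit 760) (nat_lit 1614698662) (nat_lit 250) (nat_lit 5) (nat_lit 259) (nat_lit 5) (nat_lit 260) (nat_lit 5) (nat_lit 338) (nat_lit 308) (nat_lit 134)) (XT.lf (nat_lit 0) (nat_lit 3047389140) (nat_lit 760) (nat_lit 16124853198) (nat_lit 76) (nat_lit 8962448688) (nat_lit 240)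 (nat_lit 5) (nat_lit 250) (nat_lit 5) (nat_lit 241) (nat_lit 5) (nat_lit 339) (nat_lit 308) (nat_lit 133)))) (XT.nd (nat_lit 78) (nat_lit 608) (nat_lit 0) (XT.lf (nat_lit 0) (nat_lit 4348826999) (nat_lit 684) (nat_lit 3601818893) (nat_lit 760) (nat_lit 20690051318) (nat_lit 231) (nat_lit 5) (nat_lit 240) (nat_lit 5) (nat_lit 241) (nat_lit 5) (nat_lit 340) (nat_lit 308) (nat_lit 132)) (XT.nd (nat_lit 78) (nat_lit 608) (nat_lit 0) (XT.lf (nat_lit 0) (nat_lit 13186018198) (nat_lit 760) (nat_lit 3590195653) (nat_lit 76) (nat_lit 12381973681) (nat_lit 231) (nat_lit 5) (nat_lit 241) (nat_lit 5) (nat_lit 232) (nat_lit 5) (nat_lit 341) (nat_lit 308) (nat_lit 131)) (XT.lf (nat_lit 0) (nat_lit 17937413019) (nat_lit 608) (nat_lit 776039819) (nat_lit 684) (nat_lit 10975053885) (nat_lit 223) (nat_lit 5) (nat_lit 231) (nat_lit 5) (nat_lit 232) (nat_lit 5) (nat_lit 342) (nat_lit 308) (nat_lit 130))))) (XT.nd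 (nat_lit 234) (nat_lit 1672) (nat_lit 0) (XT.nd (nat_lit 78) (nat_lit 608) (nat_lit 0) (XT.lf (nat_lit 0) (nat_lit 9947801255) (nat_lit 608) (nat_lit 14644517273) (nat_lit 684) (nat_lit 5638708863) (nat_lit 215) (nat_lit 5) (nat_lit 223) (nat_lit 5) (nat_lit 224) (nat_lit 5) (nat_lit 343) (nat_lit 308) (nat_lit 129)) (XT.nd (nat_lit 78) (nat_lit 76) (nat_lit 0) (XT.lf (nat_lit 0) (nat_lit 1669560580) (nat_lit 532) (nat_lit 29079469099) (nat_lit 608) (nat_lit 38768354) (nat_lit 208) (nat_lit 5) (nat_lit 215) (nat_lit 5) (nat_lit 216) (nat_lit 5) (nat_lit 344) (nat_lit 308) (nat_lit 128)) (XT.lf (nat_lit 0) (nat_lit 5885079457) (nat_lit 608) (nat_lit 6942255405) (nat_lit 76) (nat_lit 18528575769) (nat_lit 207) (nat_lit 5) (nat_lit 215) (nat_lit 5) (nat_lit 208) (nat_lit 5) (nat_lit 345) (nat_lit 308) (nat_lit 127)))) (XT.nd (nat_lit 156) (nat_lit 532) (nat_lit 0) (XT.nd (nat_lit 78) (nat_lit 532)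 (nat_lit 0) (XT.lf (nat_lit 0) (nat_lit 12111676109) (nat_lit 684) (nat_lit 15861291927) (nat_lit 76) (nat_lit 3965585887) (nat_lit 199) (nat_lit 5) (nat_lit 208) (nat_lit 5) (nat_lit 200) (nat_lit 5) (nat_lit 346) (nat_lit 308) (nat_lit 126)) (XT.lf (nat_lit 0) (nat_lit 7348867163) (nat_lit 532) (nat_lit 11352067366) (nat_lit 608) (nat_lit 13834228248) (nat_lit 192) (nat_lit 5) (nat_lit 199) (nat_lit 5) (nat_lit 200) (nat_lit 5) (nat_lit 347) (nat_lit 308) (nat_lit 125))) (XT.nd (nat_lit 78) (nat_lit 532) (nat_lit 0) (XT.lf (nat_lit 0) (nat_lit 25628622702) (nat_lit 608) (nat_lit 1719307550) (nat_lit 76) (nat_lit 5798928036) (nat_lit 192) (nat_lit 5) (nat_lit 200) (nat_lit 5) (nat_lit 193) (nat_lit 5) (nat_lit 348) (nat_lit 308) (nat_lit 124)) (XT.lf (nat_lit 0) (nat_lit 22667162420) (nat_lit 532) (nat_lit 10315320907) (nat_lit 608) (nat_lit 790057838) (nat_lit 185) (nat_lit 5) (nat_lit 192) (nat_lit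 5) (nat_lit 193) (nat_lit 5) (nat_lit 349) (nat_lit 308) (nat_lit 123)))))) (XT.nd (nat_lit 468) (nat_lit 0) (nat_lit 304) (XT.nd (nat_lit 234) (nat_lit 0) (nat_lit 152) (XT.nd (nat_lit 78) (nat_lit 0) (nat_lit 76) (XT.lf (nat_lit 0) (nat_lit 1235084074) (nat_lit 1748) (nat_lit 3773905435) (nat_lit 1748) (nat_lit 3773905435) (nat_lit 359) (nat_lit 3) (nat_lit 382) (nat_lit 3) (nat_lit 382) (nat_lit 5) (nat_lit 309) (nat_lit 309) (nat_lit 162)) (XT.nd (nat_lit 78) (nat_lit 0) (nat_lit 0) (XT.lf (nat_lit 0) (nat_lit 2849991991) (nat_lit 1672) (nat_lit 13518161192) (nat_lit 1748) (nat_lit 1453992031) (nat_lit 360) (nat_lit 5) (nat_lit 382) (nat_lit 5) (nat_lit 383) (nat_lit 5) (nat_lit 310) (nat_lit 309) (nat_lit 161)) (XT.lf (nat_lit 0) (nat_lit 3347776854) (nat_lit 1672) (nat_lit 1544301461) (nat_lit 1748) (nat_lit 13191992331) (nat_lit 360) (nat_lit 5) (nat_lit 382) (nat_lit 5) (nat_lit 383) (nat_lit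 5) (nat_lit 311) (nat_lit 309) (nat_lit 160)))) (XT.nd (nat_lit 78) (nat_lit 0) (nat_lit 76) (XT.lf (nat_lit 0) (nat_lit 3965353635) (nat_lit 1672) (nat_lit 7472356491) (nat_lit 1748) (nat_lit 6914057009) (nat_lit 361) (nat_lit 5) (nat_lit 383) (nat_lit 5) (nat_lit 384) (nat_lit 5) (nat_lit 312) (nat_lit 309) (nat_lit 159)) (XT.nd (nat_lit 78) (nat_lit 0) (nat_lit 0) (XT.lf (nat_lit 0) (nat_lit 4669362861) (nat_lit 1672) (nat_lit 13531671748) (nat_lit 1748) (nat_lit 425111964) (nat_lit 362) (nat_lit 5) (nat_lit 384) (nat_lit 5) (nat_lit 385) (nat_lit 5) (nat_lit 313) (nat_lit 309) (nat_lit 158)) (XT.lf (nat_lit 0) (nat_lit 5511031684) (nat_lit 1672) (nat_lit 850557358) (nat_lit 1748) (nat_lit 12544847426) (nat_lit 362) (nat_lit 5) (nat_lit 384) (nat_lit 5) (nat_lit 385) (nat_lit 5) (nat_lit 314) (nat_lit 309) (nat_lit 157))))) (XT.nd (nat_lit 234) (nat_lit 0) (nat_lit 152) (XT.nd (nat_lit 78) (nat_lit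 0) (nat_lit 0) (XT.lf (nat_lit 0) (nat_lit 6486073012) (nat_lit 1672) (nat_lit 6865389146) (nat_lit 1748) (nat_lit 5841520027) (nat_lit 363) (nat_lit 5) (nat_lit 385) (nat_lit 5) (nat_lit 386) (nat_lit 5) (nat_lit 315) (nat_lit 309) (nat_lit 156)) (XT.nd (nat_lit 78) (nat_lit 0) (nat_lit 76) (XT.lf (nat_lit 76) (nat_lit 6460340061) (nat_lit 0) (nat_lit 1110007134) (nat_lit 1748) (nat_lit 11916186741) (nat_lit 364) (nat_lit 5) (nat_lit 363) (nat_lit 5) (nat_lit 386) (nat_lit 5) (nat_lit 316) (nat_lit 309) (nat_lit 155)) (XT.lf (nat_lit 76) (nat_lit 415683754) (nat_lit 0) (nat_lit 8385626306) (nat_lit 1748) (nat_lit 10985307996) (nat_lit 365) (nat_lit 5) (nat_lit 364) (nat_lit 5) (nat_lit 387) (nat_lit 5) (nat_lit 317) (nat_lit 309) (nat_lit 154)))) (XT.nd (nat_lit 156) (nat_lit 0) (nat_lit 76) (XT.nd (nat_lit 78) (nat_lit 0) (nat_lit 0) (XT.lf (nat_lit 0) (nat_lit 10182793028) (nat_lit 1672) (nat_lit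 5696667778) (nat_lit 1748) (nat_lit 4213980829) (nat_lit 365) (nat_lit 5) (nat_lit 387) (nat_lit 5) (nat_lit 388) (nat_lit 5) (nat_lit 318) (nat_lit 309) (nat_lit 153)) (XT.lf (nat_lit 76) (nat_lit 8435808883) (nat_lit 0) (nat_lit 3271289739) (nat_lit 1748) (nat_lit 8700352243) (nat_lit 366) (nat_lit 5) (nat_lit 365) (nat_lit 5) (nat_lit 388) (nat_lit 5) (nat_lit 319) (nat_lit 309) (nat_lit 152))) (XT.nd (nat_lit 78) (nat_lit 0) (nat_lit 76) (XT.lf (nat_lit 76) (nat_lit 2300283465) (nat_lit 0) (nat_lit 11084500686) (nat_lit 1748) (nat_lit 7343951465) (nat_lit 367) (nat_lit 5) (nat_lit 366) (nat_lit 5) (nat_lit 389) (nat_lit 5) (nat_lit 320) (nat_lit 309) (nat_lit 151)) (XT.lf (nat_lit 0) (nat_lit 15219186320) (nat_lit 1672) (nat_lit 3934816320) (nat_lit 1748) (nat_lit 1903536564) (nat_lit 367) (nat_lit 5) (nat_lit 389) (nat_lit 5) (nat_lit 390) (nat_lit 5) (nat_lit 321) (nat_lit 309) (nat_lit 150)))))))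 (XT.nd (nat_lit 1014) (nat_lit 6536) (nat_lit 0) (XT.nd (nat_lit 468) (nat_lit 4104) (nat_lit 0) (XT.nd (nat_lit 234) (nat_lit 2660) (nat_lit 0) (XT.nd (nat_lit 78) (nat_lit 0) (nat_lit 76) (XT.lf (nat_lit 76) (nat_lit 11057949880) (nat_lit 0) (nat_lit 6187876935) (nat_lit 1748) (nat_lit 4147643746) (nat_lit 368) (nat_lit 5) (nat_lit 367) (nat_lit 5) (nat_lit 390) (nat_lit 5) (nat_lit 322) (nat_lit 309) (nat_lit 149)) (XT.nd (nat_lit 78) (nat_lit 0) (nat_lit 0) (XT.lf (nat_lit 76) (nat_lit 4825324004) (nat_lit 0) (nat_lit 14604155084) (nat_lit 1748) (nat_lit 2308084076) (nat_lit 369) (nat_lit 5) (nat_lit 368) (nat_lit 5) (nat_lit 391) (nat_lit 5) (nat_lit 323) (nat_lit 309) (nat_lit 148)) (XT.lf (nat_lit 76) (nat_lit 20533982513) (nat_lit 0) (nat_lit 1247517553) (nat_lit 1748) (nat_lit 308428634) (nat_lit 369) (nat_lit 5) (nat_lit 368) (nat_lit 5) (nat_lit 391) (nat_lit 5) (nat_lit 324) (nat_lit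 309) (nat_lit 147)))) (XT.nd (nat_lit 78) (nat_lit 1064) (nat_lit 0) (XT.lf (nat_lit 0) (nat_lit 1895777193) (nat_lit 1748) (nat_lit 8100389821) (nat_lit 1824) (nat_lit 12453127206) (nat_lit 346) (nat_lit 5) (nat_lit 369) (nat_lit 5) (nat_lit 370) (nat_lit 5) (nat_lit 325) (nat_lit 309) (nat_lit 146)) (XT.nd (nat_lit 78) (nat_lit 1140) (nat_lit 0) (XT.lf (nat_lit 0) (nat_lit 4249723306) (nat_lit 1748) (nat_lit 14821646221) (nat_lit 76) (nat_lit 3746281096) (nat_lit 347) (nat_lit 5) (nat_lit 370) (nat_lit 5) (nat_lit 348) (nat_lit 5) (nat_lit 326) (nat_lit 309) (nat_lit 145)) (XT.lf (nat_lit 0) (nat_lit 1435209437) (nat_lit 1140) (nat_lit 5362795626) (nat_lit 1216) (nat_lit 16396584894) (nat_lit 332) (nat_lit 5) (nat_lit 347) (nat_lit 5) (nat_lit 348) (nat_lit 5) (nat_lit 327) (nat_lit 309) (nat_lit 144))))) (XT.nd (nat_lit 234) (nat_lit 2432) (nat_lit 0) (XT.nd (nat_lit 78) (nat_lit 1672) (nat_lit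 0) (XT.lf (nat_lit 0) (nat_lit 9573177642) (nat_lit 1216) (nat_lit 5262365997) (nat_lit 76) (nat_lit 8744291376) (nat_lit 332) (nat_lit 5) (nat_lit 348) (nat_lit 5) (nat_lit 333) (nat_lit 5) (nat_lit 328) (nat_lit 309) (nat_lit 143)) (XT.nd (nat_lit 78) (nat_lit 836) (nat_lit 0) (XT.lf (nat_lit 0) (nat_lit 11842539376) (nat_lit 836) (nat_lit 694522520) (nat_lit 912) (nat_lit 11437472603) (nat_lit 321) (nat_lit 5) (nat_lit 332) (nat_lit 5) (nat_lit 333) (nat_lit 5) (nat_lit 329) (nat_lit 309) (nat_lit 142)) (XT.lf (nat_lit 0) (nat_lit 5122630664) (nat_lit 836) (nat_lit 10619324688) (nat_lit 912) (nat_lit 8636083787) (nat_lit 310) (nat_lit 5) (nat_lit 321) (nat_lit 5) (nat_lit 322) (nat_lit 5) (nat_lit 330) (nat_lit 309) (nat_lit 141)))) (XT.nd (nat_lit 156) (nat_lit 1672) (nat_lit 0) (XT.nd (nat_lit 78) (nat_lit 760) (nat_lit 0) (XT.lf (nat_lit 0) (nat_lit 19148361686) (nat_lit 912) (nat_lit 1767716150)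 (nat_lit 76) (nat_lit 3875469609) (nat_lit 310) (nat_lit 5) (nat_lit 322) (nat_lit 5) (nat_lit 311) (nat_lit 5) (nat_lit 331) (nat_lit 309) (nat_lit 140)) (XT.lf (nat_lit 0) (nat_lit 16382071530) (nat_lit 760) (nat_lit 6445519356) (nat_lit 836) (nat_lit 2386463181) (nat_lit 300) (nat_lit 5) (nat_lit 310) (nat_lit 5) (nat_lit 311) (nat_lit 5) (nat_lit 332) (nat_lit 309) (nat_lit 139))) (XT.nd (nat_lit 78) (nat_lit 760) (nat_lit 0) (XT.lf (nat_lit 0) (nat_lit 1078236563) (nat_lit 912) (nat_lit 16138959322) (nat_lit 76) (nat_lit 8429460305) (nat_lit 288) (nat_lit 5) (nat_lit 300) (nat_lit 5) (nat_lit 289) (nat_lit 5) (nat_lit 333) (nat_lit 309) (nat_lit 138)) (XT.lf (nat_lit 0) (nat_lit 2392948382) (nat_lit 760) (nat_lit 2334088682) (nat_lit 836) (nat_lit 21362637421) (nat_lit 278) (nat_lit 5) (nat_lit 288) (nat_lit 5) (nat_lit 289) (nat_lit 5) (nat_lit 334) (nat_lit 309) (nat_lit 137)))))) (XT.nd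 (nat_lit 546) (nat_lit 2964) (nat_lit 0) (XT.nd (nat_lit 234) (nat_lit 2128) (nat_lit 0) (XT.nd (nat_lit 78) (nat_lit 1444) (nat_lit 0) (XT.lf (nat_lit 0) (nat_lit 8673424734) (nat_lit 836) (nat_lit 4933594939) (nat_lit 76) (nat_lit 12935206287) (nat_lit 278) (nat_lit 5) (nat_lit 289) (nat_lit 5) (nat_lit 279) (nat_lit 5) (nat_lit 335) (nat_lit 309) (nat_lit 136)) (XT.nd (nat_lit 78) (nat_lit 684) (nat_lit 0) (XT.lf (nat_lit 0) (nat_lit 12853365018) (nat_lit 836) (nat_lit 12455881559) (nat_lit 76) (nat_lit 1696809130) (nat_lit 268) (nat_lit 5) (nat_lit 279) (nat_lit 5) (nat_lit 269) (nat_lit 5) (nat_lit 336) (nat_lit 309) (nat_lit 135)) (XT.lf (nat_lit 0) (nat_lit 7199804536) (nat_lit 684) (nat_lit 10124278048) (nat_lit 760) (nat_lit 10156414984) (nat_lit 259) (nat_lit 5) (nat_lit 268) (nat_lit 5) (nat_lit 269) (nat_lit 5) (nat_lit 337) (nat_lit 309) (nat_lit 134)))) (XT.nd (nat_lit 156) (nat_lit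 1444) (nat_lit 0) (XT.nd (nat_lit 78) (nat_lit 684) (nat_lit 0) (XT.lf (nat_lit 0) (nat_lit 22043818144) (nat_lit 760) (nat_lit 394479289) (nat_lit 76) (nat_lit 5528581983) (nat_lit 259) (nat_lit 5) (nat_lit 269) (nat_lit 5) (nat_lit 260) (nat_lit 5) (nat_lit 338) (nat_lit 309) (nat_lit 133)) (XT.lf (nat_lit 0) (nat_lit 20280500721) (nat_lit 684) (nat_lit 6818313804) (nat_lit 760) (nat_lit 1365169348) (nat_lit 250) (nat_lit 5) (nat_lit 259) (nat_lit 5) (nat_lit 260) (nat_lit 5) (nat_lit 339) (nat_lit 309) (nat_lit 132))) (XT.nd (nat_lit 78) (nat_lit 684) (nat_lit 0) (XT.lf (nat_lit 0) (nat_lit 3426499825) (nat_lit 760) (nat_lit 16290254111) (nat_lit 76) (nat_lit 9256005356) (nat_lit 240) (nat_lit 5) (nat_lit 250) (nat_lit 5) (nat_lit 241) (nat_lit 5) (nat_lit 340) (nat_lit 309) (nat_lit 131)) (XT.lf (nat_lit 0) (nat_lit 4792471728) (nat_lit 684) (nat_lit 3678036632) (nat_lit 760) (nat_lit 21023570589)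 (nat_lit 231) (nat_lit 5) (nat_lit 240) (nat_lit 5) (nat_lit 241) (nat_lit 5) (nat_lit 341) (nat_lit 309) (nat_lit 130))))) (XT.nd (nat_lit 234) (nat_lit 1748) (nat_lit 0) (XT.nd (nat_lit 78) (nat_lit 1216) (nat_lit 0) (XT.lf (nat_lit 0) (nat_lit 13854948061) (nat_lit 760) (nat_lit 3388374930) (nat_lit 76) (nat_lit 12783937049) (nat_lit 231) (nat_lit 5) (nat_lit 241) (nat_lit 5) (nat_lit 232) (nat_lit 5) (nat_lit 342) (nat_lit 309) (nat_lit 129)) (XT.nd (nat_lit 78) (nat_lit 608) (nat_lit 0) (XT.lf (nat_lit 0) (nat_lit 18780040301) (nat_lit 608) (nat_lit 762180856) (nat_lit 684) (nat_lit 11031393345) (nat_lit 223) (nat_lit 5) (nat_lit 231) (nat_lit 5) (nat_lit 232) (nat_lit 5) (nat_lit 343) (nat_lit 309) (nat_lit 128)) (XT.lf (nat_lit 0) (nat_lit 10551020151) (nat_lit 608) (nat_lit 15040858326) (nat_lit 684) (nat_lit 5540649630) (nat_lit 215) (nat_lit 5) (nat_lit 223) (nat_lit 5) (nat_lit 224)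 (nat_lit 5) (nat_lit 344) (nat_lit 309) (nat_lit 127)))) (XT.nd (nat_lit 156) (nat_lit 1140) (nat_lit 0) (XT.nd (nat_lit 78) (nat_lit 0) (nat_lit 0) (XT.lf (nat_lit 0) (nat_lit 218892697) (nat_lit 608) (nat_lit 29683000223) (nat_lit 76) (nat_lit 1804193290) (nat_lit 207) (nat_lit 5) (nat_lit 215) (nat_lit 5) (nat_lit 208) (nat_lit 5) (nat_lit 345) (nat_lit 309) (nat_lit 126)) (XT.lf (nat_lit 0) (nat_lit 6312408923) (nat_lit 608) (nat_lit 6850984142) (nat_lit 76) (nat_lit 19127999789) (nat_lit 207) (nat_lit 5) (nat_lit 215) (nat_lit 5) (nat_lit 208) (nat_lit 5) (nat_lit 346) (nat_lit 309) (nat_lit 125))) (XT.nd (nat_lit 78) (nat_lit 532) (nat_lit 0) (XT.lf (nat_lit 0) (nat_lit 12720732585) (nat_lit 684) (nat_lit 16037689419) (nat_lit 76) (nat_lit 4133200089) (nat_lit 199) (nat_lit 5) (nat_lit 208) (nat_lit 5) (nat_lit 200) (nat_lit 5) (nat_lit 347) (nat_lit 309) (nat_lit 124)) (XT.lf (nat_lit 0)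 (nat_lit 7863916365) (nat_lit 532) (nat_lit 11638508529) (nat_lit 608) (nat_lit 14003814270) (nat_lit 192) (nat_lit 5) (nat_lit 199) (nat_lit 5) (nat_lit 200) (nat_lit 5) (nat_lit 348) (nat_lit 309) (nat_lit 123))))))))
noncomputable def xc119 : XT := (XT.nd (nat_lit 2106) (nat_lit 6004) (nat_lit 0) (XT.nd (nat_lit 1014) (nat_lit 6156) (nat_lit 0) (XT.nd (nat_lit 468) (nat_lit 0) (nat_lit 304) (XT.nd (nat_lit 234) (nat_lit 0) (nat_lit 152) (XT.nd (nat_lit 78) (nat_lit 0) (nat_lit 76) (XT.lf (nat_lit 0) (nat_lit 1574400762) (nat_lit 1748) (nat_lit 3732831152) (nat_lit 1748) (nat_lit 3732831152) (nat_lit 359) (nat_lit 3) (nat_lit 382) (nat_lit 3) (nat_lit 382) (nat_lit 5) (nat_lit 310) (nat_lit 310) (nat_lit 160)) (XT.nd (nat_lit 78) (nat_lit 0) (nat_lit 0) (XT.lf (nat_lit 0) (nat_lit 3522531024) (nat_lit 1672) (nat_lit 13605968274) (nat_lit 1748) (nat_lit 1216038526) (nat_lit 360) (nat_lit 5) (nat_lit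 382) (nat_lit 5) (nat_lit 383) (nat_lit 5) (nat_lit 311) (nat_lit 310) (nat_lit 159)) (XT.lf (nat_lit 0) (nat_lit 4018151201) (nat_lit 1672) (nat_lit 1282147249) (nat_lit 1748) (nat_lit 13314379999) (nat_lit 360) (nat_lit 5) (nat_lit 382) (nat_lit 5) (nat_lit 383) (nat_lit 5) (nat_lit 312) (nat_lit 310) (nat_lit 158)))) (XT.nd (nat_lit 78) (nat_lit 0) (nat_lit 76) (XT.lf (nat_lit 0) (nat_lit 4637990380) (nat_lit 1672) (nat_lit 7379806933) (nat_lit 1748) (nat_lit 6872948832) (nat_lit 361) (nat_lit 5) (nat_lit 383) (nat_lit 5) (nat_lit 384) (nat_lit 5) (nat_lit 313) (nat_lit 310) (nat_lit 157)) (XT.nd (nat_lit 78) (nat_lit 0) (nat_lit 0) (XT.lf (nat_lit 0) (nat_lit 5347536121) (nat_lit 1672) (nat_lit 13613282433) (nat_lit 1748) (nat_lit 212864664) (nat_lit 362) (nat_lit 5) (nat_lit 384) (nat_lit 5) (nat_lit 385) (nat_lit 5) (nat_lit 314) (nat_lit 310) (nat_lit 156)) (XT.lf (nat_lit 0) (nat_lit 6198782416)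 (nat_lit 1672) (nat_lit 561181391) (nat_lit 1748) (nat_lit 12702745607) (nat_lit 362) (nat_lit 5) (nat_lit 384) (nat_lit 5) (nat_lit 385) (nat_lit 5) (nat_lit 315) (nat_lit 310) (nat_lit 155))))) (XT.nd (nat_lit 234) (nat_lit 0) (nat_lit 152) (XT.nd (nat_lit 78) (nat_lit 0) (nat_lit 0) (XT.lf (nat_lit 0) (nat_lit 7188575357) (nat_lit 1672) (nat_lit 6749629743) (nat_lit 1748) (nat_lit 5819950136) (nat_lit 363) (nat_lit 5) (nat_lit 385) (nat_lit 5) (nat_lit 386) (nat_lit 5) (nat_lit 316) (nat_lit 310) (nat_lit 154)) (XT.nd (nat_lit 78) (nat_lit 0) (nat_lit 76) (XT.lf (nat_lit 76) (nat_lit 6970651798) (nat_lit 0) (nat_lit 1321987115) (nat_lit 1748) (nat_lit 11768142744) (nat_lit 364) (nat_lit 5) (nat_lit 363) (nat_lit 5) (nat_lit 386) (nat_lit 5) (nat_lit 317) (nat_lit 310) (nat_lit 153)) (XT.lf (nat_lit 76) (nat_lit 750842636) (nat_lit 0) (nat_lit 8796234060) (nat_lit 1748) (nat_lit 10823073634)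 (nat_lit 365) (nat_lit 5) (nat_lit 364) (nat_lit 5) (nat_lit 387) (nat_lit 5) (nat_lit 318) (nat_lit 310) (nat_lit 152)))) (XT.nd (nat_lit 156) (nat_lit 0) (nat_lit 76) (XT.nd (nat_lit 78) (nat_lit 0) (nat_lit 0) (XT.lf (nat_lit 0) (nat_lit 10954970749) (nat_lit 1672) (nat_lit 5543502546) (nat_lit 1748) (nat_lit 4188018564) (nat_lit 365) (nat_lit 5) (nat_lit 387) (nat_lit 5) (nat_lit 388) (nat_lit 5) (nat_lit 319) (nat_lit 310) (nat_lit 151)) (XT.lf (nat_lit 76) (nat_lit 9007690840) (nat_lit 0) (nat_lit 3505791555) (nat_lit 1748) (nat_lit 8496681642) (nat_lit 366) (nat_lit 5) (nat_lit 365) (nat_lit 5) (nat_lit 388) (nat_lit 5) (nat_lit 320) (nat_lit 310) (nat_lit 150))) (XT.nd (nat_lit 78) (nat_lit 0) (nat_lit 76) (XT.lf (nat_lit 76) (nat_lit 2693154440) (nat_lit 0) (nat_lit 11536329805) (nat_lit 1748) (nat_lit 7111855223) (nat_lit 367) (nat_lit 5) (nat_lit 366) (nat_lit 5) (nat_lit 389) (nat_lit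 5) (nat_lit 321) (nat_lit 310) (nat_lit 149)) (XT.lf (nat_lit 0) (nat_lit 16105259029) (nat_lit 1672) (nat_lit 3728690690) (nat_lit 1748) (nat_lit 1846342141) (nat_lit 367) (nat_lit 5) (nat_lit 389) (nat_lit 5) (nat_lit 390) (nat_lit 5) (nat_lit 322) (nat_lit 310) (nat_lit 148)))))) (XT.nd (nat_lit 546) (nat_lit 4104) (nat_lit 0) (XT.nd (nat_lit 234) (nat_lit 988) (nat_lit 0) (XT.nd (nat_lit 78) (nat_lit 1672) (nat_lit 0) (XT.lf (nat_lit 76) (nat_lit 11708599221) (nat_lit 0) (nat_lit 6473660474) (nat_lit 1748) (nat_lit 3844261416) (nat_lit 368) (nat_lit 5) (nat_lit 367) (nat_lit 5) (nat_lit 390) (nat_lit 5) (nat_lit 323) (nat_lit 310) (nat_lit 147)) (XT.nd (nat_lit 78) (nat_lit 1748) (nat_lit 0) (XT.lf (nat_lit 76) (nat_lit 5293071843) (nat_lit 0) (nat_lit 15127609887) (nat_lit 1748) (nat_lit 1960480404) (nat_lit 369) (nat_lit 5) (nat_lit 368) (nat_lit 5) (nat_lit 391) (nat_lit 5) (nat_lit 324)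 (nat_lit 310) (nat_lit 146)) (XT.lf (nat_lit 0) (nat_lit 85882219) (nat_lit 1748) (nat_lit 1281329352) (nat_lit 1824) (nat_lit 21377124152) (nat_lit 345) (nat_lit 5) (nat_lit 368) (nat_lit 5) (nat_lit 369) (nat_lit 5) (nat_lit 325) (nat_lit 310) (nat_lit 145)))) (XT.nd (nat_lit 156) (nat_lit 1064) (nat_lit 0) (XT.nd (nat_lit 78) (nat_lit 0) (nat_lit 76) (XT.lf (nat_lit 0) (nat_lit 2341962066) (nat_lit 1748) (nat_lit 8020726056) (nat_lit 1824) (nat_lit 12751964572) (nat_lit 346) (nat_lit 5) (nat_lit 369) (nat_lit 5) (nat_lit 370) (nat_lit 5) (nat_lit 326) (nat_lit 310) (nat_lit 144)) (XT.lf (nat_lit 0) (nat_lit 4756842030) (nat_lit 1748) (nat_lit 14940523721) (nat_lit 76) (nat_lit 3796897461) (nat_lit 347) (nat_lit 5) (nat_lit 370) (nat_lit 5) (nat_lit 348) (nat_lit 5) (nat_lit 327) (nat_lit 310) (nat_lit 143))) (XT.nd (nat_lit 78) (nat_lit 0) (nat_lit 0) (XT.lf (nat_lit 0) (nat_lit 1798752345)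 (nat_lit 1140) (nat_lit 5573843608) (nat_lit 1216) (nat_lit 16510103746) (nat_lit 332) (nat_lit 5) (nat_lit 347) (nat_lit 5) (nat_lit 348) (nat_lit 5) (nat_lit 328) (nat_lit 310) (nat_lit 142)) (XT.lf (nat_lit 0) (nat_lit 10219911845) (nat_lit 1216) (nat_lit 5101265831) (nat_lit 76) (nat_lit 8958555843) (nat_lit 332) (nat_lit 5) (nat_lit 348) (nat_lit 5) (nat_lit 333) (nat_lit 5) (nat_lit 329) (nat_lit 310) (nat_lit 141))))) (XT.nd (nat_lit 234) (nat_lit 2432) (nat_lit 0) (XT.nd (nat_lit 78) (nat_lit 836) (nat_lit 0) (XT.lf (nat_lit 0) (nat_lit 12511611775) (nat_lit 836) (nat_lit 752666219) (nat_lit 912) (nat_lit 11422173593) (nat_lit 321) (nat_lit 5) (nat_lit 332) (nat_lit 5) (nat_lit 333) (nat_lit 5) (nat_lit 330) (nat_lit 310) (nat_lit 140)) (XT.nd (nat_lit 78) (nat_lit 0) (nat_lit 0) (XT.lf (nat_lit 0) (nat_lit 5592453335) (nat_lit 836) (nat_lit 10964456023) (nat_lit 912) (nat_lit 8545328832)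 (nat_lit 310) (nat_lit 5) (nat_lit 321) (nat_lit 5) (nat_lit 322) (nat_lit 5) (nat_lit 331) (nat_lit 310) (nat_lit 139)) (XT.lf (nat_lit 0) (nat_lit 20055359095) (nat_lit 912) (nat_lit 1506710484) (nat_lit 76) (nat_lit 3966293537) (nat_lit 310) (nat_lit 5) (nat_lit 322) (nat_lit 5) (nat_lit 311) (nat_lit 5) (nat_lit 332) (nat_lit 310) (nat_lit 138)))) (XT.nd (nat_lit 156) (nat_lit 760) (nat_lit 0) (XT.nd (nat_lit 78) (nat_lit 912) (nat_lit 0) (XT.lf (nat_lit 0) (nat_lit 17182475947) (nat_lit 760) (nat_lit 6654809260) (nat_lit 836) (nat_lit 2126421479) (nat_lit 300) (nat_lit 5) (nat_lit 310) (nat_lit 5) (nat_lit 311) (nat_lit 5) (nat_lit 333) (nat_lit 310) (nat_lit 137)) (XT.lf (nat_lit 0) (nat_lit 1430266716) (nat_lit 912) (nat_lit 16307930148) (nat_lit 76) (nat_lit 8671206763) (nat_lit 288) (nat_lit 5) (nat_lit 300) (nat_lit 5) (nat_lit 289) (nat_lit 5) (nat_lit 334) (nat_lit 310) (nat_lit 136)))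 (XT.nd (nat_lit 78) (nat_lit 0) (nat_lit 0) (XT.lf (nat_lit 0) (nat_lit 2774821075) (nat_lit 760) (nat_lit 2406412273) (nat_lit 836) (nat_lit 21684632613) (nat_lit 278) (nat_lit 5) (nat_lit 288) (nat_lit 5) (nat_lit 289) (nat_lit 5) (nat_lit 335) (nat_lit 310) (nat_lit 135)) (XT.lf (nat_lit 0) (nat_lit 9236899548) (nat_lit 836) (nat_lit 4774226147) (nat_lit 76) (nat_lit 13321057860) (nat_lit 278) (nat_lit 5) (nat_lit 289) (nat_lit 5) (nat_lit 279) (nat_lit 5) (nat_lit 336) (nat_lit 310) (nat_lit 134))))))) (XT.nd (nat_lit 38688) (nat_lit 0) (nat_lit 12236) (XT.nd (nat_lit 468) (nat_lit 2432) (nat_lit 0) (XT.nd (nat_lit 234) (nat_lit 2128) (nat_lit 0) (XT.nd (nat_lit 78) (nat_lit 684) (nat_lit 0) (XT.lf (nat_lit 0) (nat_lit 13535407063) (nat_lit 836) (nat_lit 12521042374) (nat_lit 76) (nat_lit 1753622475) (nat_lit 268) (nat_lit 5) (nat_lit 279) (nat_lit 5) (nat_lit 269) (nat_lit 5) (nat_lit 337)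 (nat_lit 310) (nat_lit 133)) (XT.nd (nat_lit 78) (nat_lit 0) (nat_lit 0) (XT.lf (nat_lit 0) (nat_lit 7719309004) (nat_lit 684) (nat_lit 10414273536) (nat_lit 760) (nat_lit 10165304654) (nat_lit 259) (nat_lit 5) (nat_lit 268) (nat_lit 5) (nat_lit 269) (nat_lit 5) (nat_lit 338) (nat_lit 310) (nat_lit 132)) (XT.lf (nat_lit 0) (nat_lit 22986556612) (nat_lit 760) (nat_lit 105880202) (nat_lit 76) (nat_lit 5707597447) (nat_lit 259) (nat_lit 5) (nat_lit 269) (nat_lit 5) (nat_lit 260) (nat_lit 5) (nat_lit 339) (nat_lit 310) (nat_lit 131)))) (XT.nd (nat_lit 78) (nat_lit 1444) (nat_lit 0) (XT.lf (nat_lit 0) (nat_lit 21184475032) (nat_lit 684) (nat_lit 7002450006) (nat_lit 760) (nat_lit 1125258867) (nat_lit 250) (nat_lit 5) (nat_lit 259) (nat_lit 5) (nat_lit 260) (nat_lit 5) (nat_lit 340) (nat_lit 310) (nat_lit 130)) (XT.nd (nat_lit 78) (nat_lit 684) (nat_lit 0) (XT.lf (nat_lit 0) (nat_lit 3800469303) (nat_lit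 760) (nat_lit 16478891339) (nat_lit 76) (nat_lit 9556951807) (nat_lit 240) (nat_lit 5) (nat_lit 250) (nat_lit 5) (nat_lit 241) (nat_lit 5) (nat_lit 341) (nat_lit 310) (nat_lit 129)) (XT.lf (nat_lit 0) (nat_lit 5231447990) (nat_lit 684) (nat_lit 3758368467) (nat_lit 760) (nat_lit 21383580876) (nat_lit 231) (nat_lit 5) (nat_lit 240) (nat_lit 5) (nat_lit 241) (nat_lit 5) (nat_lit 342) (nat_lit 310) (nat_lit 128))))) (XT.nd (nat_lit 234) (nat_lit 1216) (nat_lit 0) (XT.nd (nat_lit 78) (nat_lit 1216) (nat_lit 0) (XT.lf (nat_lit 0) (nat_lit 14528254450) (nat_lit 760) (nat_lit 3198267678) (nat_lit 76) (nat_lit 13196208255) (nat_lit 231) (nat_lit 5) (nat_lit 241) (nat_lit 5) (nat_lit 232) (nat_lit 5) (nat_lit 343) (nat_lit 310) (nat_lit 127)) (XT.nd (nat_lit 78) (nat_lit 608) (nat_lit 0) (XT.lf (nat_lit 0) (nat_lit 19630466576) (nat_lit 608) (nat_lit 750038121) (nat_lit 684) (nat_lit 11105089263) (nat_lit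 223) (nat_lit 5) (nat_lit 231) (nat_lit 5) (nat_lit 232) (nat_lit 5) (nat_lit 344) (nat_lit 310) (nat_lit 126)) (XT.lf (nat_lit 0) (nat_lit 11154839715) (nat_lit 608) (nat_lit 15451557668) (nat_lit 684) (nat_lit 5454988169) (nat_lit 215) (nat_lit 5) (nat_lit 223) (nat_lit 5) (nat_lit 224) (nat_lit 5) (nat_lit 345) (nat_lit 310) (nat_lit 125)))) (XT.nd (nat_lit 156) (nat_lit 608) (nat_lit 0) (XT.nd (nat_lit 78) (nat_lit 0) (nat_lit 0) (XT.lf (nat_lit 0) (nat_lit 468932373) (nat_lit 608) (nat_lit 30282675739) (nat_lit 76) (nat_lit 1900616902) (nat_lit 207) (nat_lit 5) (nat_lit 215) (nat_lit 5) (nat_lit 208) (nat_lit 5) (nat_lit 346) (nat_lit 310) (nat_lit 124)) (XT.lf (nat_lit 0) (nat_lit 6738162642) (nat_lit 608) (nat_lit 6774169500) (nat_lit 76) (nat_lit 19742905621) (nat_lit 207) (nat_lit 5) (nat_lit 215) (nat_lit 5) (nat_lit 208) (nat_lit 5) (nat_lit 347) (nat_lit 310) (nat_lit 123))) (XT.nd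 (nat_lit 37752) (nat_lit 0) (nat_lit 12160) (XT.lf (nat_lit 0) (nat_lit 13333956214) (nat_lit 684) (nat_lit 16236567989) (nat_lit 76) (nat_lit 4303050202) (nat_lit 199) (nat_lit 5) (nat_lit 208) (nat_lit 5) (nat_lit 200) (nat_lit 5) (nat_lit 348) (nat_lit 310) (nat_lit 122)) (XT.lf (nat_lit 0) (nat_lit 1906545750) (nat_lit 1748) (nat_lit 3699381600) (nat_lit 1748) (nat_lit 3699381600) (nat_lit 359) (nat_lit 3) (nat_lit 382) (nat_lit 3) (nat_lit 382) (nat_lit 5) (nat_lit 311) (nat_lit 311) (nat_lit 158)))))) (XT.nd (nat_lit 546) (nat_lit 0) (nat_lit 304) (XT.nd (nat_lit 234) (nat_lit 0) (nat_lit 152) (XT.nd (nat_lit 78) (nat_lit 0) (nat_lit 0) (XT.lf (nat_lit 0) (nat_lit 4181547772) (nat_lit 1672) (nat_lit 13714649015) (nat_lit 1748) (nat_lit 987109874) (nat_lit 360) (nat_lit 5) (nat_lit 382) (nat_lit 5) (nat_lit 383) (nat_lit 5) (nat_lit 312) (nat_lit 311) (nat_lit 157)) (XT.nd (nat_lit 78) (nat_lit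 0) (nat_lit 76) (XT.lf (nat_lit 0) (nat_lit 4675919832) (nat_lit 1672) (nat_lit 1029836611) (nat_lit 1748) (nat_lit 13456131973) (nat_lit 360) (nat_lit 5) (nat_lit 382) (nat_lit 5) (nat_lit 383) (nat_lit 5) (nat_lit 313) (nat_lit 311) (nat_lit 156)) (XT.lf (nat_lit 0) (nat_lit 5299022952) (nat_lit 1672) (nat_lit 7302661927) (nat_lit 1748) (nat_lit 6844874041) (nat_lit 361) (nat_lit 5) (nat_lit 383) (nat_lit 5) (nat_lit 384) (nat_lit 5) (nat_lit 314) (nat_lit 311) (nat_lit 155)))) (XT.nd (nat_lit 156) (nat_lit 0) (nat_lit 76) (XT.nd (nat_lit 78) (nat_lit 0) (nat_lit 0) (XT.lf (nat_lit 0) (nat_lit 6015165876) (nat_lit 1672) (nat_lit 13715959850) (nat_lit 1748) (nat_lit 7165903) (nat_lit 362) (nat_lit 5) (nat_lit 384) (nat_lit 5) (nat_lit 385) (nat_lit 5) (nat_lit 315) (nat_lit 311) (nat_lit 154)) (XT.lf (nat_lit 0) (nat_lit 6877176637) (nat_lit 1672) (nat_lit 281200274) (nat_lit 1748) (nat_lit 12877920499)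 (nat_lit 362) (nat_lit 5) (nat_lit 384) (nat_lit 5) (nat_lit 385) (nat_lit 5) (nat_lit 316) (nat_lit 311) (nat_lit 153))) (XT.nd (nat_lit 78) (nat_lit 0) (nat_lit 0) (XT.lf (nat_lit 0) (nat_lit 7882996079) (nat_lit 1672) (nat_lit 6648865663) (nat_lit 1748) (nat_lit 5809031162) (nat_lit 363) (nat_lit 5) (nat_lit 385) (nat_lit 5) (nat_lit 386) (nat_lit 5) (nat_lit 317) (nat_lit 311) (nat_lit 152)) (XT.lf (nat_lit 76) (nat_lit 7478104405) (nat_lit 0) (nat_lit 1530069545) (nat_lit 1748) (nat_lit 11644676893) (nat_lit 364) (nat_lit 5) (nat_lit 363) (nat_lit 5) (nat_lit 386) (nat_lit 5) (nat_lit 318) (nat_lit 311) (nat_lit 151))))) (XT.nd (nat_lit 234) (nat_lit 0) (nat_lit 152) (XT.nd (nat_lit 78) (nat_lit 0) (nat_lit 76) (XT.lf (nat_lit 76) (nat_lit 1077532652) (nat_lit 0) (nat_lit 9210030560) (nat_lit 1748) (nat_lit 10684203206) (nat_lit 365) (nat_lit 5) (nat_lit 364) (nat_lit 5) (nat_lit 387) (nat_lit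 5) (nat_lit 319) (nat_lit 311) (nat_lit 150)) (XT.nd (nat_lit 78) (nat_lit 0) (nat_lit 0) (XT.lf (nat_lit 0) (nat_lit 11723523661) (nat_lit 1672) (nat_lit 5404345030) (nat_lit 1748) (nat_lit 4170024763) (nat_lit 365) (nat_lit 5) (nat_lit 387) (nat_lit 5) (nat_lit 388) (nat_lit 5) (nat_lit 320) (nat_lit 311) (nat_lit 149)) (XT.lf (nat_lit 76) (nat_lit 9578428391) (nat_lit 0) (nat_lit 3739500624) (nat_lit 1748) (nat_lit 8313575523) (nat_lit 366) (nat_lit 5) (nat_lit 365) (nat_lit 5) (nat_lit 388) (nat_lit 5) (nat_lit 321) (nat_lit 311) (nat_lit 148)))) (XT.nd (nat_lit 156) (nat_lit 0) (nat_lit 76) (XT.nd (nat_lit 78) (nat_lit 0) (nat_lit 76) (XT.lf (nat_lit 76) (nat_lit 3079220512) (nat_lit 0) (nat_lit 11994865829) (nat_lit 1748) (nat_lit 6898766553) (nat_lit 367) (nat_lit 5) (nat_lit 366) (nat_lit 5) (nat_lit 389) (nat_lit 5) (nat_lit 322) (nat_lit 311) (nat_lit 147)) (XT.lf (nat_lit 0) (nat_lit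 16993259028) (nat_lit 1672) (nat_lit 3534989983) (nat_lit 1748) (nat_lit 1793993203) (nat_lit 367) (nat_lit 5) (nat_lit 389) (nat_lit 5) (nat_lit 390) (nat_lit 5) (nat_lit 323) (nat_lit 311) (nat_lit 146))) (XT.nd (nat_lit 78) (nat_lit 0) (nat_lit 76) (XT.lf (nat_lit 76) (nat_lit 12360461255) (nat_lit 0) (nat_lit 6762268658) (nat_lit 1748) (nat_lit 3556335755) (nat_lit 368) (nat_lit 5) (nat_lit 367) (nat_lit 5) (nat_lit 390) (nat_lit 5) (nat_lit 324) (nat_lit 311) (nat_lit 145)) (XT.lf (nat_lit 76) (nat_lit 5756311278) (nat_lit 0) (nat_lit 15661870035) (nat_lit 1748) (nat_lit 1626377300) (nat_lit 369) (nat_lit 5) (nat_lit 368) (nat_lit 5) (nat_lit 391) (nat_lit 5) (nat_lit 325) (nat_lit 311) (nat_lit 144))))))))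
noncomputable def xc120 : XT := (XT.nd (nat_lit 39858) (nat_lit 0) (nat_lit 3268) (XT.nd (nat_lit 1014) (nat_lit 4636) (nat_lit 0) (XT.nd (nat_lit 468) (nat_lit 4028) (nat_lit 0) (XT.nd (nat_lit 234) (nat_lit 1824) (nat_lit 0) (XT.nd (nat_lit 78) (nat_lit 0) (nat_lit 76) (XT.lf (nat_lit 0) (nat_lit 464928911) (nat_lit 1748) (nat_lit 1018861869) (nat_lit 1824) (nat_lit 21935021220) (nat_lit 345) (nat_lit 5) (nat_lit 368) (nat_lit 5) (nat_lit 369) (nat_lit 5) (nat_lit 326) (nat_lit 311) (nat_lit 143)) (XT.nd (nat_lit 78) (nat_lit 0) (nat_lit 76) (XT.lf (nat_lit 0) (nat_lit 2779184410) (nat_lit 1748) (nat_lit 7957195269) (nat_lit 1824) (nat_lit 13064058385) (nat_lit 346) (nat_lit 5) (nat_lit 369) (nat_lit 5) (nat_lit 370) (nat_lit 5) (nat_lit 327) (nat_lit 311) (nat_lit 142)) (XT.lf (nat_lit 0) (nat_lit 5257382171) (nat_lit 1748) (nat_lit 15081668184) (nat_lit 76) (nat_lit 3852578287) (nat_lit 347)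 (nat_lit 5) (nat_lit 370) (nat_lit 5) (nat_lit 348) (nat_lit 5) (nat_lit 328) (nat_lit 311) (nat_lit 141)))) (XT.nd (nat_lit 78) (nat_lit 836) (nat_lit 0) (XT.lf (nat_lit 0) (nat_lit 2154804297) (nat_lit 1140) (nat_lit 5788343404) (nat_lit 1216) (nat_lit 16648748649) (nat_lit 332) (nat_lit 5) (nat_lit 347) (nat_lit 5) (nat_lit 348) (nat_lit 5) (nat_lit 329) (nat_lit 311) (nat_lit 140)) (XT.nd (nat_lit 78) (nat_lit 836) (nat_lit 0) (XT.lf (nat_lit 0) (nat_lit 10865409072) (nat_lit 1216) (nat_lit 4953642909) (nat_lit 76) (nat_lit 9182007330) (nat_lit 332) (nat_lit 5) (nat_lit 348) (nat_lit 5) (nat_lit 333) (nat_lit 5) (nat_lit 330) (nat_lit 311) (nat_lit 139)) (XT.lf (nat_lit 0) (nat_lit 13182743159) (nat_lit 836) (nat_lit 810412595) (nat_lit 912) (nat_lit 11426990570) (nat_lit 321) (nat_lit 5) (nat_lit 332) (nat_lit 5) (nat_lit 333) (nat_lit 5) (nat_lit 331) (nat_lit 311) (nat_lit 138))))) (XT.nd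 (nat_lit 234) (nat_lit 2432) (nat_lit 0) (XT.nd (nat_lit 78) (nat_lit 760) (nat_lit 0) (XT.lf (nat_lit 0) (nat_lit 6058222742) (nat_lit 836) (nat_lit 11318417127) (nat_lit 912) (nat_lit 8471933331) (nat_lit 310) (nat_lit 5) (nat_lit 321) (nat_lit 5) (nat_lit 322) (nat_lit 5) (nat_lit 332) (nat_lit 311) (nat_lit 137)) (XT.nd (nat_lit 78) (nat_lit 760) (nat_lit 0) (XT.lf (nat_lit 0) (nat_lit 20970476893) (nat_lit 912) (nat_lit 1255901665) (nat_lit 76) (nat_lit 4061302553) (nat_lit 310) (nat_lit 5) (nat_lit 322) (nat_lit 5) (nat_lit 311) (nat_lit 5) (nat_lit 333) (nat_lit 311) (nat_lit 136)) (XT.lf (nat_lit 0) (nat_lit 17989157946) (nat_lit 760) (nat_lit 6869463739) (nat_lit 836) (nat_lit 1877615766) (nat_lit 300) (nat_lit 5) (nat_lit 310) (nat_lit 5) (nat_lit 311) (nat_lit 5) (nat_lit 334) (nat_lit 311) (nat_lit 135)))) (XT.nd (nat_lit 156) (nat_lit 760) (nat_lit 0) (XT.nd (nat_lit 78) (nat_lit 760)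 (nat_lit 0) (XT.lf (nat_lit 0) (nat_lit 1774506660) (nat_lit 912) (nat_lit 16500063750) (nat_lit 76) (nat_lit 8920844945) (nat_lit 288) (nat_lit 5) (nat_lit 300) (nat_lit 5) (nat_lit 289) (nat_lit 5) (nat_lit 335) (nat_lit 311) (nat_lit 134)) (XT.lf (nat_lit 0) (nat_lit 3150349844) (nat_lit 760) (nat_lit 2480773490) (nat_lit 836) (nat_lit 22034592902) (nat_lit 278) (nat_lit 5) (nat_lit 288) (nat_lit 5) (nat_lit 289) (nat_lit 5) (nat_lit 336) (nat_lit 311) (nat_lit 133))) (XT.nd (nat_lit 78) (nat_lit 760) (nat_lit 0) (XT.lf (nat_lit 0) (nat_lit 9799869548) (nat_lit 836) (nat_lit 4627720968) (nat_lit 76) (nat_lit 13718611534) (nat_lit 278) (nat_lit 5) (nat_lit 289) (nat_lit 5) (nat_lit 279) (nat_lit 5) (nat_lit 337) (nat_lit 311) (nat_lit 132)) (XT.lf (nat_lit 0) (nat_lit 14220893439) (nat_lit 836) (nat_lit 12605868073) (nat_lit 76) (nat_lit 1811801016) (nat_lit 268) (nat_lit 5) (nat_lit 279) (nat_lit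 5) (nat_lit 269) (nat_lit 5) (nat_lit 338) (nat_lit 311) (nat_lit 131)))))) (XT.nd (nat_lit 468) (nat_lit 1824) (nat_lit 0) (XT.nd (nat_lit 234) (nat_lit 1444) (nat_lit 0) (XT.nd (nat_lit 78) (nat_lit 684) (nat_lit 0) (XT.lf (nat_lit 0) (nat_lit 8236975872) (nat_lit 684) (nat_lit 10713757210) (nat_lit 760) (nat_lit 10191441304) (nat_lit 259) (nat_lit 5) (nat_lit 268) (nat_lit 5) (nat_lit 269) (nat_lit 5) (nat_lit 339) (nat_lit 311) (nat_lit 130)) (XT.nd (nat_lit 78) (nat_lit 0) (nat_lit 0) (XT.lf (nat_lit 0) (nat_lit 176444853) (nat_lit 684) (nat_lit 23766123094) (nat_lit 760) (nat_lit 5715928795) (nat_lit 250) (nat_lit 5) (nat_lit 259) (nat_lit 5) (nat_lit 260) (nat_lit 5) (nat_lit 340) (nat_lit 311) (nat_lit 129)) (XT.lf (nat_lit 0) (nat_lit 22098602261) (nat_lit 684) (nat_lit 7193282096) (nat_lit 760) (nat_lit 894273904) (nat_lit 250) (nat_lit 5) (nat_lit 259) (nat_lit 5) (nat_lit 260) (nat_lit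 5) (nat_lit 341) (nat_lit 311) (nat_lit 128)))) (XT.nd (nat_lit 78) (nat_lit 684) (nat_lit 0) (XT.lf (nat_lit 0) (nat_lit 4170091342) (nat_lit 760) (nat_lit 16690412952) (nat_lit 76) (nat_lit 9865591071) (nat_lit 240) (nat_lit 5) (nat_lit 250) (nat_lit 5) (nat_lit 241) (nat_lit 5) (nat_lit 342) (nat_lit 311) (nat_lit 127)) (XT.nd (nat_lit 78) (nat_lit 0) (nat_lit 0) (XT.lf (nat_lit 0) (nat_lit 5666647731) (nat_lit 684) (nat_lit 3842832911) (nat_lit 760) (nat_lit 21769930576) (nat_lit 231) (nat_lit 5) (nat_lit 240) (nat_lit 5) (nat_lit 241) (nat_lit 5) (nat_lit 343) (nat_lit 311) (nat_lit 126)) (XT.lf (nat_lit 0) (nat_lit 15206969411) (nat_lit 760) (nat_lit 3019205340) (nat_lit 76) (nat_lit 13619197052) (nat_lit 231) (nat_lit 5) (nat_lit 241) (nat_lit 5) (nat_lit 232) (nat_lit 5) (nat_lit 344) (nat_lit 311) (nat_lit 125))))) (XT.nd (nat_lit 38064) (nat_lit 0) (nat_lit 11552) (XT.nd (nat_lit 78)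 (nat_lit 1216) (nat_lit 0) (XT.lf (nat_lit 0) (nat_lit 20489929225) (nat_lit 608) (nat_lit 739540715) (nat_lit 684) (nat_lit 11195763024) (nat_lit 223) (nat_lit 5) (nat_lit 231) (nat_lit 5) (nat_lit 232) (nat_lit 5) (nat_lit 345) (nat_lit 311) (nat_lit 124)) (XT.nd (nat_lit 78) (nat_lit 608) (nat_lit 0) (XT.lf (nat_lit 0) (nat_lit 11760282305) (nat_lit 608) (nat_lit 15876904372) (nat_lit 684) (nat_lit 5381215862) (nat_lit 215) (nat_lit 5) (nat_lit 223) (nat_lit 5) (nat_lit 224) (nat_lit 5) (nat_lit 346) (nat_lit 311) (nat_lit 123)) (XT.lf (nat_lit 0) (nat_lit 712496899) (nat_lit 608) (nat_lit 30917035461) (nat_lit 76) (nat_lit 1997505154) (nat_lit 207) (nat_lit 5) (nat_lit 215) (nat_lit 5) (nat_lit 208) (nat_lit 5) (nat_lit 347) (nat_lit 311) (nat_lit 122)))) (XT.nd (nat_lit 156) (nat_lit 0) (nat_lit 76) (XT.nd (nat_lit 78) (nat_lit 0) (nat_lit 76) (XT.lf (nat_lit 0) (nat_lit 2232299918) (nat_lit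 1748) (nat_lit 3673277096) (nat_lit 1748) (nat_lit 3673277096) (nat_lit 359) (nat_lit 3) (nat_lit 382) (nat_lit 3) (nat_lit 382) (nat_lit 5) (nat_lit 312) (nat_lit 312) (nat_lit 156)) (XT.lf (nat_lit 0) (nat_lit 4828570996) (nat_lit 1672) (nat_lit 13843782607) (nat_lit 1748) (nat_lit 766548970) (nat_lit 360) (nat_lit 5) (nat_lit 382) (nat_lit 5) (nat_lit 383) (nat_lit 5) (nat_lit 313) (nat_lit 312) (nat_lit 155))) (XT.nd (nat_lit 78) (nat_lit 0) (nat_lit 76) (XT.lf (nat_lit 0) (nat_lit 5322582660) (nat_lit 1672) (nat_lit 786648332) (nat_lit 1748) (nat_lit 13616928360) (nat_lit 360) (nat_lit 5) (nat_lit 382) (nat_lit 5) (nat_lit 383) (nat_lit 5) (nat_lit 314) (nat_lit 312) (nat_lit 154)) (XT.lf (nat_lit 0) (nat_lit 5949927716) (nat_lit 1672) (nat_lit 7240339942) (nat_lit 1748) (nat_lit 6829404676) (nat_lit 361) (nat_lit 5) (nat_lit 383) (nat_lit 5) (nat_lit 384) (nat_lit 5) (nat_lit 315) (nat_lit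 312) (nat_lit 153))))))) (XT.nd (nat_lit 1014) (nat_lit 7220) (nat_lit 0) (XT.nd (nat_lit 468) (nat_lit 1216) (nat_lit 0) (XT.nd (nat_lit 234) (nat_lit 0) (nat_lit 152) (XT.nd (nat_lit 78) (nat_lit 0) (nat_lit 76) (XT.lf (nat_lit 76) (nat_lit 6479887694) (nat_lit 0) (nat_lit 195087903) (nat_lit 1748) (nat_lit 13645445965) (nat_lit 362) (nat_lit 5) (nat_lit 361) (nat_lit 5) (nat_lit 384) (nat_lit 5) (nat_lit 316) (nat_lit 312) (nat_lit 152)) (XT.nd (nat_lit 78) (nat_lit 0) (nat_lit 76) (XT.lf (nat_lit 0) (nat_lit 7547655145) (nat_lit 1672) (nat_lit 9858208) (nat_lit 1748) (nat_lit 13070170569) (nat_lit 362) (nat_lit 5) (nat_lit 384) (nat_lit 5) (nat_lit 385) (nat_lit 5) (nat_lit 317) (nat_lit 312) (nat_lit 151)) (XT.lf (nat_lit 0) (nat_lit 8570766440) (nat_lit 1672) (nat_lit 6562486622) (nat_lit 1748) (nat_lit 5808434081) (nat_lit 363) (nat_lit 5) (nat_lit 385) (nat_lit 5) (nat_lit 386) (nat_lit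 5) (nat_lit 318) (nat_lit 312) (nat_lit 150)))) (XT.nd (nat_lit 78) (nat_lit 0) (nat_lit 76) (XT.lf (nat_lit 76) (nat_lit 7983655053) (nat_lit 0) (nat_lit 1734726290) (nat_lit 1748) (nat_lit 11544860698) (nat_lit 364) (nat_lit 5) (nat_lit 363) (nat_lit 5) (nat_lit 386) (nat_lit 5) (nat_lit 319) (nat_lit 312) (nat_lit 149)) (XT.nd (nat_lit 78) (nat_lit 0) (nat_lit 76) (XT.lf (nat_lit 76) (nat_lit 1396563068) (nat_lit 0) (nat_lit 9627635538) (nat_lit 1748) (nat_lit 10567777057) (nat_lit 365) (nat_lit 5) (nat_lit 364) (nat_lit 5) (nat_lit 387) (nat_lit 5) (nat_lit 320) (nat_lit 312) (nat_lit 148)) (XT.lf (nat_lit 0) (nat_lit 12489880884) (nat_lit 1672) (nat_lit 5278547591) (nat_lit 1748) (nat_lit 4159736348) (nat_lit 365) (nat_lit 5) (nat_lit 387) (nat_lit 5) (nat_lit 388) (nat_lit 5) (nat_lit 321) (nat_lit 312) (nat_lit 147))))) (XT.nd (nat_lit 234) (nat_lit 1520) (nat_lit 0) (XT.nd (nat_lit 78)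 (nat_lit 0) (nat_lit 76) (XT.lf (nat_lit 76) (nat_lit 10149037746) (nat_lit 0) (nat_lit 3972842512) (nat_lit 1748) (nat_lit 8150119590) (nat_lit 366) (nat_lit 5) (nat_lit 365) (nat_lit 5) (nat_lit 388) (nat_lit 5) (nat_lit 322) (nat_lit 312) (nat_lit 146)) (XT.nd (nat_lit 78) (nat_lit 0) (nat_lit 76) (XT.lf (nat_lit 76) (nat_lit 3459344738) (nat_lit 0) (nat_lit 12460703066) (nat_lit 1748) (nat_lit 6703764873) (nat_lit 367) (nat_lit 5) (nat_lit 366) (nat_lit 5) (nat_lit 389) (nat_lit 5) (nat_lit 323) (nat_lit 312) (nat_lit 145)) (XT.lf (nat_lit 0) (nat_lit 17884659426) (nat_lit 1672) (nat_lit 3353018730) (nat_lit 1748) (nat_lit 1746258468) (nat_lit 367) (nat_lit 5) (nat_lit 389) (nat_lit 5) (nat_lit 390) (nat_lit 5) (nat_lit 324) (nat_lit 312) (nat_lit 144)))) (XT.nd (nat_lit 156) (nat_lit 1672) (nat_lit 0) (XT.nd (nat_lit 78) (nat_lit 0) (nat_lit 76) (XT.lf (nat_lit 76) (nat_lit 13014623247) (nat_lit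 0) (nat_lit 7054116236) (nat_lit 1748) (nat_lit 3282920724) (nat_lit 368) (nat_lit 5) (nat_lit 367) (nat_lit 5) (nat_lit 390) (nat_lit 5) (nat_lit 325) (nat_lit 312) (nat_lit 143)) (XT.lf (nat_lit 76) (nat_lit 6215971376) (nat_lit 0) (nat_lit 16207540870) (nat_lit 1748) (nat_lit 1304806175) (nat_lit 369) (nat_lit 5) (nat_lit 368) (nat_lit 5) (nat_lit 391) (nat_lit 5) (nat_lit 326) (nat_lit 312) (nat_lit 142))) (XT.nd (nat_lit 78) (nat_lit 0) (nat_lit 76) (XT.lf (nat_lit 0) (nat_lit 833736074) (nat_lit 1748) (nat_lit 765793675) (nat_lit 1824) (nat_lit 22514443657) (nat_lit 345) (nat_lit 5) (nat_lit 368) (nat_lit 5) (nat_lit 369) (nat_lit 5) (nat_lit 327) (nat_lit 312) (nat_lit 141)) (XT.lf (nat_lit 0) (nat_lit 3208458219) (nat_lit 1748) (nat_lit 7909218161) (nat_lit 1824) (nat_lit 13389559999) (nat_lit 346) (nat_lit 5) (nat_lit 369) (nat_lit 5) (nat_lit 370) (nat_lit 5) (nat_lit 328) (nat_lit 312)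 (nat_lit 140)))))) (XT.nd (nat_lit 546) (nat_lit 3800) (nat_lit 0) (XT.nd (nat_lit 234) (nat_lit 2432) (nat_lit 0) (XT.nd (nat_lit 78) (nat_lit 1140) (nat_lit 0) (XT.lf (nat_lit 0) (nat_lit 5752397331) (nat_lit 1748) (nat_lit 15244674128) (nat_lit 76) (nat_lit 3913271953) (nat_lit 347) (nat_lit 5) (nat_lit 370) (nat_lit 5) (nat_lit 348) (nat_lit 5) (nat_lit 329) (nat_lit 312) (nat_lit 139)) (XT.nd (nat_lit 78) (nat_lit 0) (nat_lit 0) (XT.lf (nat_lit 0) (nat_lit 2504196642) (nat_lit 1140) (nat_lit 6006563871) (nat_lit 1216) (nat_lit 16812026539) (nat_lit 332) (nat_lit 5) (nat_lit 347) (nat_lit 5) (nat_lit 348) (nat_lit 5) (nat_lit 330) (nat_lit 312) (nat_lit 138)) (XT.lf (nat_lit 0) (nat_lit 11510816976) (nat_lit 1216) (nat_lit 4818850464) (nat_lit 76) (nat_lit 9414763066) (nat_lit 332) (nat_lit 5) (nat_lit 348) (nat_lit 5) (nat_lit 333) (nat_lit 5) (nat_lit 331) (nat_lit 312) (nat_lit 137)))) (XT.nd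 (nat_lit 156) (nat_lit 760) (nat_lit 0) (XT.nd (nat_lit 78) (nat_lit 836) (nat_lit 0) (XT.lf (nat_lit 0) (nat_lit 13857029329) (nat_lit 836) (nat_lit 867872668) (nat_lit 912) (nat_lit 11451345927) (nat_lit 321) (nat_lit 5) (nat_lit 332) (nat_lit 5) (nat_lit 333) (nat_lit 5) (nat_lit 332) (nat_lit 312) (nat_lit 136)) (XT.lf (nat_lit 0) (nat_lit 6520859053) (nat_lit 836) (nat_lit 11681560388) (nat_lit 912) (nat_lit 8415265271) (nat_lit 310) (nat_lit 5) (nat_lit 321) (nat_lit 5) (nat_lit 322) (nat_lit 5) (nat_lit 333) (nat_lit 312) (nat_lit 135))) (XT.nd (nat_lit 78) (nat_lit 760) (nat_lit 0) (XT.lf (nat_lit 0) (nat_lit 21895054510) (nat_lit 912) (nat_lit 1014560774) (nat_lit 76) (nat_lit 4160538376) (nat_lit 310) (nat_lit 5) (nat_lit 322) (nat_lit 5) (nat_lit 311) (nat_lit 5) (nat_lit 334) (nat_lit 312) (nat_lit 134)) (XT.lf (nat_lit 0) (nat_lit 18803323891) (nat_lit 760) (nat_lit 7089696207) (nat_lit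 836) (nat_lit 1639290306) (nat_lit 300) (nat_lit 5) (nat_lit 310) (nat_lit 5) (nat_lit 311) (nat_lit 5) (nat_lit 335) (nat_lit 312) (nat_lit 133))))) (XT.nd (nat_lit 234) (nat_lit 2128) (nat_lit 0) (XT.nd (nat_lit 78) (nat_lit 760) (nat_lit 0) (XT.lf (nat_lit 0) (nat_lit 2111776115) (nat_lit 912) (nat_lit 16715016363) (nat_lit 76) (nat_lit 9178574901) (nat_lit 288) (nat_lit 5) (nat_lit 300) (nat_lit 5) (nat_lit 289) (nat_lit 5) (nat_lit 336) (nat_lit 312) (nat_lit 132)) (XT.nd (nat_lit 78) (nat_lit 0) (nat_lit 0) (XT.lf (nat_lit 0) (nat_lit 3520366172) (nat_lit 760) (nat_lit 2557241042) (nat_lit 836) (nat_lit 22412306447) (nat_lit 278) (nat_lit 5) (nat_lit 288) (nat_lit 5) (nat_lit 289) (nat_lit 5) (nat_lit 337) (nat_lit 312) (nat_lit 131)) (XT.lf (nat_lit 0) (nat_lit 10363318941) (nat_lit 836) (nat_lit 4493452434) (nat_lit 76) (nat_lit 14128211108) (nat_lit 278) (nat_lit 5) (nat_lit 289) (nat_lit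 5) (nat_lit 279) (nat_lit 5) (nat_lit 338) (nat_lit 312) (nat_lit 130)))) (XT.nd (nat_lit 156) (nat_lit 684) (nat_lit 0) (XT.nd (nat_lit 78) (nat_lit 684) (nat_lit 0) (XT.lf (nat_lit 0) (nat_lit 14910904315) (nat_lit 836) (nat_lit 12709931973) (nat_lit 76) (nat_lit 1871405180) (nat_lit 268) (nat_lit 5) (nat_lit 279) (nat_lit 5) (nat_lit 269) (nat_lit 5) (nat_lit 339) (nat_lit 312) (nat_lit 129)) (XT.lf (nat_lit 0) (nat_lit 8753750147) (nat_lit 684) (nat_lit 11022968464) (nat_lit 760) (nat_lit 10234367605) (nat_lit 259) (nat_lit 5) (nat_lit 268) (nat_lit 5) (nat_lit 269) (nat_lit 5) (nat_lit 340) (nat_lit 312) (nat_lit 128))) (XT.nd (nat_lit 78) (nat_lit 0) (nat_lit 0) (XT.lf (nat_lit 0) (nat_lit 452216817) (nat_lit 684) (nat_lit 24460425806) (nat_lit 760) (nat_lit 5630374884) (nat_lit 250) (nat_lit 5) (nat_lit 259) (nat_lit 5) (nat_lit 260) (nat_lit 5) (nat_lit 341) (nat_lit 312) (nat_lit 127))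 (XT.lf (nat_lit 0) (nat_lit 23024160930) (nat_lit 684) (nat_lit 7390943684) (nat_lit 760) (nat_lit 671556708) (nat_lit 250) (nat_lit 5) (nat_lit 259) (nat_lit 5) (nat_lit 260) (nat_lit 5) (nat_lit 342) (nat_lit 312) (nat_lit 126))))))))
noncomputable def xc121 : XT := (XT.nd (nat_lit 39936) (nat_lit 0) (nat_lit 1216) (XT.nd (nat_lit 38922) (nat_lit 0) (nat_lit 8056) (XT.nd (nat_lit 38376) (nat_lit 0) (nat_lit 11020) (XT.nd (nat_lit 234) (nat_lit 1216) (nat_lit 0) (XT.nd (nat_lit 78) (nat_lit 684) (nat_lit 0) (XT.lf (nat_lit 0) (nat_lit 4536129099) (nat_lit 760) (nat_lit 16924516680) (nat_lit 76) (nat_lit 10182230600) (nat_lit 240) (nat_lit 5) (nat_lit 250) (nat_lit 5) (nat_lit 241) (nat_lit 5) (nat_lit 343) (nat_lit 312) (nat_lit 125)) (XT.nd (nat_lit 78) (nat_lit 0) (nat_lit 0) (XT.lf (nat_lit 0) (nat_lit 6098930414) (nat_lit 684) (nat_lit 3931455056) (nat_lit 760) (nat_lit 22182517865) (nat_lit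 231) (nat_lit 5) (nat_lit 240) (nat_lit 5) (nat_lit 241) (nat_lit 5) (nat_lit 344) (nat_lit 312) (nat_lit 124)) (XT.lf (nat_lit 0) (nat_lit 15892104243) (nat_lit 760) (nat_lit 2850557851) (nat_lit 76) (nat_lit 14053319715) (nat_lit 231) (nat_lit 5) (nat_lit 241) (nat_lit 5) (nat_lit 232) (nat_lit 5) (nat_lit 345) (nat_lit 312) (nat_lit 123)))) (XT.nd (nat_lit 78) (nat_lit 608) (nat_lit 0) (XT.lf (nat_lit 0) (nat_lit 21359645155) (nat_lit 608) (nat_lit 730622639) (nat_lit 684) (nat_lit 11303076280) (nat_lit 223) (nat_lit 5) (nat_lit 231) (nat_lit 5) (nat_lit 232) (nat_lit 5) (nat_lit 346) (nat_lit 312) (nat_lit 122)) (XT.nd (nat_lit 37986) (nat_lit 0) (nat_lit 10944) (XT.lf (nat_lit 0) (nat_lit 12368343294) (nat_lit 608) (nat_lit 16317204315) (nat_lit 684) (nat_lit 5318859377) (nat_lit 215) (nat_lit 5) (nat_lit 223) (nat_lit 5) (nat_lit 224) (nat_lit 5) (nat_lit 347) (nat_lit 312) (nat_lit 121))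 (XT.lf (nat_lit 0) (nat_lit 2552410395) (nat_lit 1748) (nat_lit 3654258751) (nat_lit 1748) (nat_lit 3654258751) (nat_lit 359) (nat_lit 3) (nat_lit 382) (nat_lit 3) (nat_lit 382) (nat_lit 5) (nat_lit 313) (nat_lit 313) (nat_lit 154))))) (XT.nd (nat_lit 234) (nat_lit 0) (nat_lit 76) (XT.nd (nat_lit 78) (nat_lit 0) (nat_lit 0) (XT.lf (nat_lit 0) (nat_lit 5465064275) (nat_lit 1672) (nat_lit 13992995719) (nat_lit 1748) (nat_lit 553732262) (nat_lit 360) (nat_lit 5) (nat_lit 382) (nat_lit 5) (nat_lit 383) (nat_lit 5) (nat_lit 314) (nat_lit 313) (nat_lit 153)) (XT.nd (nat_lit 78) (nat_lit 0) (nat_lit 76) (XT.lf (nat_lit 0) (nat_lit 5959576790) (nat_lit 1672) (nat_lit 551897911) (nat_lit 1748) (nat_lit 13796491378) (nat_lit 360) (nat_lit 5) (nat_lit 382) (nat_lit 5) (nat_lit 383) (nat_lit 5) (nat_lit 315) (nat_lit 313) (nat_lit 152)) (XT.lf (nat_lit 0) (nat_lit 6592120595) (nat_lit 1672) (nat_lit 7192301915)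 (nat_lit 1748) (nat_lit 6826146948) (nat_lit 361) (nat_lit 5) (nat_lit 383) (nat_lit 5) (nat_lit 384) (nat_lit 5) (nat_lit 316) (nat_lit 313) (nat_lit 151)))) (XT.nd (nat_lit 156) (nat_lit 0) (nat_lit 152) (XT.nd (nat_lit 78) (nat_lit 0) (nat_lit 76) (XT.lf (nat_lit 76) (nat_lit 6935229213) (nat_lit 0) (nat_lit 391879246) (nat_lit 1748) (nat_lit 13593481141) (nat_lit 362) (nat_lit 5) (nat_lit 361) (nat_lit 5) (nat_lit 384) (nat_lit 5) (nat_lit 317) (nat_lit 313) (nat_lit 150)) (XT.lf (nat_lit 76) (nat_lit 256933441) (nat_lit 0) (nat_lit 7956337883) (nat_lit 1748) (nat_lit 13024064301) (nat_lit 363) (nat_lit 5) (nat_lit 362) (nat_lit 5) (nat_lit 385) (nat_lit 5) (nat_lit 318) (nat_lit 313) (nat_lit 149))) (XT.nd (nat_lit 78) (nat_lit 0) (nat_lit 0) (XT.lf (nat_lit 0) (nat_lit 9253264567) (nat_lit 1672) (nat_lit 6489924883) (nat_lit 1748) (nat_lit 5817857228) (nat_lit 363) (nat_lit 5) (nat_lit 385)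 (nat_lit 5) (nat_lit 386) (nat_lit 5) (nat_lit 319) (nat_lit 313) (nat_lit 148)) (XT.lf (nat_lit 76) (nat_lit 8488229758) (nat_lit 0) (nat_lit 1936409570) (nat_lit 1748) (nat_lit 11467833438) (nat_lit 364) (nat_lit 5) (nat_lit 363) (nat_lit 5) (nat_lit 386) (nat_lit 5) (nat_lit 320) (nat_lit 313) (nat_lit 147)))))) (XT.nd (nat_lit 468) (nat_lit 3268) (nat_lit 0) (XT.nd (nat_lit 234) (nat_lit 0) (nat_lit 152) (XT.nd (nat_lit 78) (nat_lit 0) (nat_lit 76) (XT.lf (nat_lit 76) (nat_lit 1708706389) (nat_lit 0) (nat_lit 10049657234) (nat_lit 1748) (nat_lit 10472940970) (nat_lit 365) (nat_lit 5) (nat_lit 364) (nat_lit 5) (nat_lit 387) (nat_lit 5) (nat_lit 321) (nat_lit 313) (nat_lit 146)) (XT.nd (nat_lit 78) (nat_lit 0) (nat_lit 0) (XT.lf (nat_lit 0) (nat_lit 13255426130) (nat_lit 1672) (nat_lit 5165504461) (nat_lit 1748) (nat_lit 4156911172) (nat_lit 365) (nat_lit 5) (nat_lit 387) (nat_lit 5) (nat_lit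 388) (nat_lit 5) (nat_lit 322) (nat_lit 313) (nat_lit 145)) (XT.lf (nat_lit 76) (nat_lit 10720505301) (nat_lit 0) (nat_lit 4206229756) (nat_lit 1748) (nat_lit 8005460015) (nat_lit 366) (nat_lit 5) (nat_lit 365) (nat_lit 5) (nat_lit 388) (nat_lit 5) (nat_lit 323) (nat_lit 313) (nat_lit 144)))) (XT.nd (nat_lit 78) (nat_lit 0) (nat_lit 76) (XT.lf (nat_lit 76) (nat_lit 3834354800) (nat_lit 0) (nat_lit 12934431088) (nat_lit 1748) (nat_lit 6525987558) (nat_lit 367) (nat_lit 5) (nat_lit 366) (nat_lit 5) (nat_lit 389) (nat_lit 5) (nat_lit 324) (nat_lit 313) (nat_lit 143)) (XT.nd (nat_lit 78) (nat_lit 0) (nat_lit 0) (XT.lf (nat_lit 0) (nat_lit 18780896285) (nat_lit 1672) (nat_lit 3182121920) (nat_lit 1748) (nat_lit 1702921336) (nat_lit 367) (nat_lit 5) (nat_lit 389) (nat_lit 5) (nat_lit 390) (nat_lit 5) (nat_lit 325) (nat_lit 313) (nat_lit 142)) (XT.lf (nat_lit 76) (nat_lit 13672144756) (nat_lit 0) (nat_lit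 7349611452) (nat_lit 1748) (nat_lit 3023122831) (nat_lit 368) (nat_lit 5) (nat_lit 367) (nat_lit 5) (nat_lit 390) (nat_lit 5) (nat_lit 326) (nat_lit 313) (nat_lit 141))))) (XT.nd (nat_lit 234) (nat_lit 1824) (nat_lit 0) (XT.nd (nat_lit 78) (nat_lit 1748) (nat_lit 0) (XT.lf (nat_lit 76) (nat_lit 6672947982) (nat_lit 0) (nat_lit 16765229754) (nat_lit 1748) (nat_lit 994848235) (nat_lit 369) (nat_lit 5) (nat_lit 368) (nat_lit 5) (nat_lit 391) (nat_lit 5) (nat_lit 327) (nat_lit 313) (nat_lit 140)) (XT.nd (nat_lit 78) (nat_lit 0) (nat_lit 76) (XT.lf (nat_lit 0) (nat_lit 1193237076) (nat_lit 1748) (nat_lit 521415190) (nat_lit 1824) (nat_lit 23115762348) (nat_lit 345) (nat_lit 5) (nat_lit 368) (nat_lit 5) (nat_lit 369) (nat_lit 5) (nat_lit 328) (nat_lit 313) (nat_lit 139)) (XT.lf (nat_lit 0) (nat_lit 3630754266) (nat_lit 1748) (nat_lit 7876259088) (nat_lit 1824) (nat_lit 13728639449) (nat_lit 346) (nat_lit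 5) (nat_lit 369) (nat_lit 5) (nat_lit 370) (nat_lit 5) (nat_lit 329) (nat_lit 313) (nat_lit 138)))) (XT.nd (nat_lit 156) (nat_lit 836) (nat_lit 0) (XT.nd (nat_lit 78) (nat_lit 1140) (nat_lit 0) (XT.lf (nat_lit 0) (nat_lit 6242900907) (nat_lit 1748) (nat_lit 15429185525) (nat_lit 76) (nat_lit 3978936978) (nat_lit 347) (nat_lit 5) (nat_lit 370) (nat_lit 5) (nat_lit 348) (nat_lit 5) (nat_lit 330) (nat_lit 313) (nat_lit 137)) (XT.lf (nat_lit 0) (nat_lit 2847725044) (nat_lit 1140) (nat_lit 6228772443) (nat_lit 1216) (nat_lit 16999501135) (nat_lit 332) (nat_lit 5) (nat_lit 347) (nat_lit 5) (nat_lit 348) (nat_lit 5) (nat_lit 331) (nat_lit 313) (nat_lit 136))) (XT.nd (nat_lit 78) (nat_lit 836) (nat_lit 0) (XT.lf (nat_lit 0) (nat_lit 12157249632) (nat_lit 1216) (nat_lit 4696282666) (nat_lit 76) (nat_lit 9656952885) (nat_lit 332) (nat_lit 5) (nat_lit 348) (nat_lit 5) (nat_lit 333) (nat_lit 5) (nat_lit 332)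 (nat_lit 313) (nat_lit 135)) (XT.lf (nat_lit 0) (nat_lit 14535539601) (nat_lit 836) (nat_lit 925153730) (nat_lit 912) (nat_lit 11494712527) (nat_lit 321) (nat_lit 5) (nat_lit 332) (nat_lit 5) (nat_lit 333) (nat_lit 5) (nat_lit 333) (nat_lit 313) (nat_lit 134))))))) (XT.nd (nat_lit 39078) (nat_lit 0) (nat_lit 9728) (XT.nd (nat_lit 468) (nat_lit 3572) (nat_lit 0) (XT.nd (nat_lit 234) (nat_lit 1672) (nat_lit 0) (XT.nd (nat_lit 78) (nat_lit 760) (nat_lit 0) (XT.lf (nat_lit 0) (nat_lit 6981250239) (nat_lit 836) (nat_lit 12054243742) (nat_lit 912) (nat_lit 8374739857) (nat_lit 310) (nat_lit 5) (nat_lit 321) (nat_lit 5) (nat_lit 322) (nat_lit 5) (nat_lit 334) (nat_lit 313) (nat_lit 133)) (XT.nd (nat_lit 78) (nat_lit 760) (nat_lit 0) (XT.lf (nat_lit 0) (nat_lit 22830408652) (nat_lit 912) (nat_lit 781996428) (nat_lit 76) (nat_lit 4264048794) (nat_lit 310) (nat_lit 5) (nat_lit 322) (nat_lit 5) (nat_lit 311)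 (nat_lit 5) (nat_lit 335) (nat_lit 313) (nat_lit 132)) (XT.lf (nat_lit 0) (nat_lit 19626157896) (nat_lit 760) (nat_lit 7315723463) (nat_lit 836) (nat_lit 1410729424) (nat_lit 300) (nat_lit 5) (nat_lit 310) (nat_lit 5) (nat_lit 311) (nat_lit 5) (nat_lit 336) (nat_lit 313) (nat_lit 131)))) (XT.nd (nat_lit 78) (nat_lit 760) (nat_lit 0) (XT.lf (nat_lit 0) (nat_lit 2442858926) (nat_lit 912) (nat_lit 16952493530) (nat_lit 76) (nat_lit 9444604792) (nat_lit 288) (nat_lit 5) (nat_lit 300) (nat_lit 5) (nat_lit 289) (nat_lit 5) (nat_lit 337) (nat_lit 313) (nat_lit 130)) (XT.nd (nat_lit 78) (nat_lit 0) (nat_lit 0) (XT.lf (nat_lit 0) (nat_lit 3885667828) (nat_lit 760) (nat_lit 2635885267) (nat_lit 836) (nat_lit 22817615368) (nat_lit 278) (nat_lit 5) (nat_lit 288) (nat_lit 5) (nat_lit 289) (nat_lit 5) (nat_lit 338) (nat_lit 313) (nat_lit 129)) (XT.lf (nat_lit 0) (nat_lit 10928204095) (nat_lit 836) (nat_lit 4370832910)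 (nat_lit 76) (nat_lit 14550211110) (nat_lit 278) (nat_lit 5) (nat_lit 289) (nat_lit 5) (nat_lit 279) (nat_lit 5) (nat_lit 339) (nat_lit 313) (nat_lit 128))))) (XT.nd (nat_lit 234) (nat_lit 1444) (nat_lit 0) (XT.nd (nat_lit 78) (nat_lit 1368) (nat_lit 0) (XT.lf (nat_lit 0) (nat_lit 15606496194) (nat_lit 836) (nat_lit 12832852947) (nat_lit 76) (nat_lit 1932496090) (nat_lit 268) (nat_lit 5) (nat_lit 279) (nat_lit 5) (nat_lit 269) (nat_lit 5) (nat_lit 340) (nat_lit 313) (nat_lit 127)) (XT.nd (nat_lit 78) (nat_lit 684) (nat_lit 0) (XT.lf (nat_lit 0) (nat_lit 9270547776) (nat_lit 684) (nat_lit 11342156470) (nat_lit 760) (nat_lit 10293668463) (nat_lit 259) (nat_lit 5) (nat_lit 268) (nat_lit 5) (nat_lit 269) (nat_lit 5) (nat_lit 341) (nat_lit 313) (nat_lit 126)) (XT.lf (nat_lit 0) (nat_lit 720735361) (nat_lit 684) (nat_lit 25176629964) (nat_lit 760) (nat_lit 5557009030) (nat_lit 250) (nat_lit 5) (nat_lit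 259) (nat_lit 5) (nat_lit 260) (nat_lit 5) (nat_lit 342) (nat_lit 313) (nat_lit 125)))) (XT.nd (nat_lit 156) (nat_lit 684) (nat_lit 0) (XT.nd (nat_lit 78) (nat_lit 760) (nat_lit 0) (XT.lf (nat_lit 0) (nat_lit 23962412010) (nat_lit 684) (nat_lit 7595576250) (nat_lit 760) (nat_lit 456482923) (nat_lit 250) (nat_lit 5) (nat_lit 259) (nat_lit 5) (nat_lit 260) (nat_lit 5) (nat_lit 343) (nat_lit 313) (nat_lit 124)) (XT.lf (nat_lit 0) (nat_lit 4899317333) (nat_lit 760) (nat_lit 17180947948) (nat_lit 76) (nat_lit 10507182670) (nat_lit 240) (nat_lit 5) (nat_lit 250) (nat_lit 5) (nat_lit 241) (nat_lit 5) (nat_lit 344) (nat_lit 313) (nat_lit 123))) (XT.nd (nat_lit 78) (nat_lit 0) (nat_lit 0) (XT.lf (nat_lit 0) (nat_lit 6529125447) (nat_lit 684) (nat_lit 4024266422) (nat_lit 760) (nat_lit 22621289067) (nat_lit 231) (nat_lit 5) (nat_lit 240) (nat_lit 5) (nat_lit 241) (nat_lit 5) (nat_lit 345) (nat_lit 313) (nat_lit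 122)) (XT.lf (nat_lit 0) (nat_lit 16584651845) (nat_lit 760) (nat_lit 2691731436) (nat_lit 76) (nat_lit 14498999570) (nat_lit 231) (nat_lit 5) (nat_lit 241) (nat_lit 5) (nat_lit 232) (nat_lit 5) (nat_lit 346) (nat_lit 313) (nat_lit 121)))))) (XT.nd (nat_lit 546) (nat_lit 0) (nat_lit 304) (XT.nd (nat_lit 234) (nat_lit 0) (nat_lit 152) (XT.nd (nat_lit 78) (nat_lit 0) (nat_lit 76) (XT.lf (nat_lit 0) (nat_lit 2867592830) (nat_lit 1748) (nat_lit 3642087421) (nat_lit 1748) (nat_lit 3642087421) (nat_lit 359) (nat_lit 3) (nat_lit 382) (nat_lit 3) (nat_lit 382) (nat_lit 5) (nat_lit 314) (nat_lit 314) (nat_lit 152)) (XT.nd (nat_lit 78) (nat_lit 0) (nat_lit 0) (XT.lf (nat_lit 0) (nat_lit 6092430426) (nat_lit 1672) (nat_lit 14161960473) (nat_lit 1748) (nat_lit 348067694) (nat_lit 360) (nat_lit 5) (nat_lit 382) (nat_lit 5) (nat_lit 383) (nat_lit 5) (nat_lit 315) (nat_lit 314) (nat_lit 151)) (XT.lf (nat_lit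 0) (nat_lit 6588280815) (nat_lit 1672) (nat_lit 324935317) (nat_lit 1748) (nat_lit 13994583657) (nat_lit 360) (nat_lit 5) (nat_lit 382) (nat_lit 5) (nat_lit 383) (nat_lit 5) (nat_lit 316) (nat_lit 314) (nat_lit 150)))) (XT.nd (nat_lit 156) (nat_lit 0) (nat_lit 76) (XT.nd (nat_lit 78) (nat_lit 0) (nat_lit 0) (XT.lf (nat_lit 0) (nat_lit 7226961267) (nat_lit 1672) (nat_lit 7158049080) (nat_lit 1748) (nat_lit 6834739569) (nat_lit 361) (nat_lit 5) (nat_lit 383) (nat_lit 5) (nat_lit 384) (nat_lit 5) (nat_lit 317) (nat_lit 314) (nat_lit 149)) (XT.lf (nat_lit 76) (nat_lit 7389251674) (nat_lit 0) (nat_lit 583613666) (nat_lit 1748) (nat_lit 13566439499) (nat_lit 362) (nat_lit 5) (nat_lit 361) (nat_lit 5) (nat_lit 384) (nat_lit 5) (nat_lit 318) (nat_lit 314) (nat_lit 148))) (XT.nd (nat_lit 78) (nat_lit 0) (nat_lit 76) (XT.lf (nat_lit 76) (nat_lit 516524126) (nat_lit 0) (nat_lit 8357183727) (nat_lit 1748)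 (nat_lit 12992094668) (nat_lit 363) (nat_lit 5) (nat_lit 362) (nat_lit 5) (nat_lit 385) (nat_lit 5) (nat_lit 319) (nat_lit 314) (nat_lit 147)) (XT.lf (nat_lit 0) (nat_lit 9931819365) (nat_lit 1672) (nat_lit 6430653040) (nat_lit 1748) (nat_lit 5837024978) (nat_lit 363) (nat_lit 5) (nat_lit 385) (nat_lit 5) (nat_lit 386) (nat_lit 5) (nat_lit 320) (nat_lit 314) (nat_lit 146))))) (XT.nd (nat_lit 234) (nat_lit 0) (nat_lit 152) (XT.nd (nat_lit 78) (nat_lit 0) (nat_lit 76) (XT.lf (nat_lit 76) (nat_lit 8992725885) (nat_lit 0) (nat_lit 2135553315) (nat_lit 1748) (nat_lit 11412798706) (nat_lit 364) (nat_lit 5) (nat_lit 363) (nat_lit 5) (nat_lit 386) (nat_lit 5) (nat_lit 321) (nat_lit 314) (nat_lit 145)) (XT.nd (nat_lit 78) (nat_lit 0) (nat_lit 76) (XT.lf (nat_lit 76) (nat_lit 2014700760) (nat_lit 0) (nat_lit 10476693779) (nat_lit 1748) (nat_lit 10398902789) (nat_lit 365) (nat_lit 5) (nat_lit 364) (nat_lit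 5) (nat_lit 387) (nat_lit 5) (nat_lit 322) (nat_lit 314) (nat_lit 144)) (XT.lf (nat_lit 0) (nat_lit 14021501412) (nat_lit 1672) (nat_lit 5064649483) (nat_lit 1748) (nat_lit 4161326994) (nat_lit 365) (nat_lit 5) (nat_lit 387) (nat_lit 5) (nat_lit 388) (nat_lit 5) (nat_lit 323) (nat_lit 314) (nat_lit 143)))) (XT.nd (nat_lit 156) (nat_lit 0) (nat_lit 152) (XT.nd (nat_lit 78) (nat_lit 0) (nat_lit 76) (XT.lf (nat_lit 76) (nat_lit 11293790195) (nat_lit 0) (nat_lit 4440062958) (nat_lit 1748) (nat_lit 7878800210) (nat_lit 366) (nat_lit 5) (nat_lit 365) (nat_lit 5) (nat_lit 388) (nat_lit 5) (nat_lit 324) (nat_lit 314) (nat_lit 142)) (XT.lf (nat_lit 76) (nat_lit 4205045469) (nat_lit 0) (nat_lit 13416635884) (nat_lit 1748) (nat_lit 6364626776) (nat_lit 367) (nat_lit 5) (nat_lit 366) (nat_lit 5) (nat_lit 389) (nat_lit 5) (nat_lit 325) (nat_lit 314) (nat_lit 141))) (XT.nd (nat_lit 78) (nat_lit 0) (nat_lit 0)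 (XT.lf (nat_lit 0) (nat_lit 19683372166) (nat_lit 1672) (nat_lit 3021682692) (nat_lit 1748) (nat_lit 1663779090) (nat_lit 367) (nat_lit 5) (nat_lit 389) (nat_lit 5) (nat_lit 390) (nat_lit 5) (nat_lit 326) (nat_lit 314) (nat_lit 140)) (XT.lf (nat_lit 76) (nat_lit 14334060264) (nat_lit 0) (nat_lit 7649156944) (nat_lit 1748) (nat_lit 2776098055) (nat_lit 368) (nat_lit 5) (nat_lit 367) (nat_lit 5) (nat_lit 390) (nat_lit 5) (nat_lit 327) (nat_lit 314) (nat_lit 139))))))))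
noncomputable def xc122 : XT := (XT.nd (nat_lit 40170) (nat_lit 0) (nat_lit 1444) (XT.nd (nat_lit 1014) (nat_lit 3572) (nat_lit 0) (XT.nd (nat_lit 468) (nat_lit 4104) (nat_lit 0) (XT.nd (nat_lit 234) (nat_lit 988) (nat_lit 0) (XT.nd (nat_lit 78) (nat_lit 1748) (nat_lit 0) (XT.lf (nat_lit 76) (nat_lit 7128106225) (nat_lit 0) (nat_lit 17335547056) (nat_lit 1748) (nat_lit 695631448) (nat_lit 369) (nat_lit 5) (nat_lit 368) (nat_lit 5) (nat_lit 391) (nat_lit 5) (nat_lit 328) (nat_lit 314) (nat_lit 138)) (XT.nd (nat_lit 78) (nat_lit 0) (nat_lit 76) (XT.lf (nat_lit 0) (nat_lit 1544322076) (nat_lit 1748) (nat_lit 285052466) (nat_lit 1824) (nat_lit 23739375082) (nat_lit 345) (nat_lit 5) (nat_lit 368) (nat_lit 5) (nat_lit 369) (nat_lit 5) (nat_lit 329) (nat_lit 314) (nat_lit 137)) (XT.lf (nat_lit 0) (nat_lit 4047003032) (nat_lit 1748) (nat_lit 7857823873) (nat_lit 1824) (nat_lit 14081485200) (nat_lit 346)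 (nat_lit 5) (nat_lit 369) (nat_lit 5) (nat_lit 370) (nat_lit 5) (nat_lit 330) (nat_lit 314) (nat_lit 136)))) (XT.nd (nat_lit 78) (nat_lit 1140) (nat_lit 0) (XT.lf (nat_lit 0) (nat_lit 6729869013) (nat_lit 1748) (nat_lit 15634893755) (nat_lit 76) (nat_lit 4049541646) (nat_lit 347) (nat_lit 5) (nat_lit 370) (nat_lit 5) (nat_lit 348) (nat_lit 5) (nat_lit 331) (nat_lit 314) (nat_lit 135)) (XT.nd (nat_lit 78) (nat_lit 0) (nat_lit 0) (XT.lf (nat_lit 0) (nat_lit 3186151897) (nat_lit 1140) (nat_lit 6455235630) (nat_lit 1216) (nat_lit 17210790533) (nat_lit 332) (nat_lit 5) (nat_lit 347) (nat_lit 5) (nat_lit 348) (nat_lit 5) (nat_lit 332) (nat_lit 314) (nat_lit 134)) (XT.lf (nat_lit 0) (nat_lit 12805790428) (nat_lit 1216) (nat_lit 4585372378) (nat_lit 76) (nat_lit 9908719090) (nat_lit 332) (nat_lit 5) (nat_lit 348) (nat_lit 5) (nat_lit 333) (nat_lit 5) (nat_lit 333) (nat_lit 314) (nat_lit 133))))) (XT.nd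 (nat_lit 234) (nat_lit 2432) (nat_lit 0) (XT.nd (nat_lit 78) (nat_lit 836) (nat_lit 0) (XT.lf (nat_lit 0) (nat_lit 15219319421) (nat_lit 836) (nat_lit 982359640) (nat_lit 912) (nat_lit 11556611329) (nat_lit 321) (nat_lit 5) (nat_lit 332) (nat_lit 5) (nat_lit 333) (nat_lit 5) (nat_lit 334) (nat_lit 314) (nat_lit 132)) (XT.nd (nat_lit 78) (nat_lit 0) (nat_lit 0) (XT.lf (nat_lit 0) (nat_lit 7440254543) (nat_lit 836) (nat_lit 12436831127) (nat_lit 912) (nat_lit 8349817125) (nat_lit 310) (nat_lit 5) (nat_lit 321) (nat_lit 5) (nat_lit 322) (nat_lit 5) (nat_lit 335) (nat_lit 314) (nat_lit 131)) (XT.lf (nat_lit 0) (nat_lit 23777836236) (nat_lit 912) (nat_lit 557552494) (nat_lit 76) (nat_lit 4371887561) (nat_lit 310) (nat_lit 5) (nat_lit 322) (nat_lit 5) (nat_lit 311) (nat_lit 5) (nat_lit 336) (nat_lit 314) (nat_lit 130)))) (XT.nd (nat_lit 156) (nat_lit 760) (nat_lit 0) (XT.nd (nat_lit 78) (nat_lit 912)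 (nat_lit 0) (XT.lf (nat_lit 0) (nat_lit 20458824514) (nat_lit 760) (nat_lit 7547765975) (nat_lit 836) (nat_lit 1191255104) (nat_lit 300) (nat_lit 5) (nat_lit 310) (nat_lit 5) (nat_lit 311) (nat_lit 5) (nat_lit 337) (nat_lit 314) (nat_lit 129)) (XT.lf (nat_lit 0) (nat_lit 2768505451) (nat_lit 912) (nat_lit 17212248161) (nat_lit 76) (nat_lit 9719151008) (nat_lit 288) (nat_lit 5) (nat_lit 300) (nat_lit 5) (nat_lit 289) (nat_lit 5) (nat_lit 338) (nat_lit 314) (nat_lit 128))) (XT.nd (nat_lit 78) (nat_lit 0) (nat_lit 0) (XT.lf (nat_lit 0) (nat_lit 4247021226) (nat_lit 760) (nat_lit 2716778201) (nat_lit 836) (nat_lit 23250413909) (nat_lit 278) (nat_lit 5) (nat_lit 288) (nat_lit 5) (nat_lit 289) (nat_lit 5) (nat_lit 339) (nat_lit 314) (nat_lit 127)) (XT.lf (nat_lit 0) (nat_lit 11495455991) (nat_lit 836) (nat_lit 4259311940) (nat_lit 76) (nat_lit 14984977100) (nat_lit 278) (nat_lit 5) (nat_lit 289) (nat_lit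 5) (nat_lit 279) (nat_lit 5) (nat_lit 340) (nat_lit 314) (nat_lit 126)))))) (XT.nd (nat_lit 38610) (nat_lit 0) (nat_lit 9728) (XT.nd (nat_lit 234) (nat_lit 1444) (nat_lit 0) (XT.nd (nat_lit 78) (nat_lit 1368) (nat_lit 0) (XT.lf (nat_lit 0) (nat_lit 16308704418) (nat_lit 836) (nat_lit 12974293447) (nat_lit 76) (nat_lit 1995135648) (nat_lit 268) (nat_lit 5) (nat_lit 279) (nat_lit 5) (nat_lit 269) (nat_lit 5) (nat_lit 341) (nat_lit 314) (nat_lit 125)) (XT.nd (nat_lit 78) (nat_lit 684) (nat_lit 0) (XT.lf (nat_lit 0) (nat_lit 9788258068) (nat_lit 684) (nat_lit 11671580323) (nat_lit 760) (nat_lit 10368969071) (nat_lit 259) (nat_lit 5) (nat_lit 268) (nat_lit 5) (nat_lit 269) (nat_lit 5) (nat_lit 342) (nat_lit 314) (nat_lit 124)) (XT.lf (nat_lit 0) (nat_lit 982674172) (nat_lit 684) (nat_lit 25915331053) (nat_lit 760) (nat_lit 5495349897) (nat_lit 250) (nat_lit 5) (nat_lit 259) (nat_lit 5) (nat_lit 260)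 (nat_lit 5) (nat_lit 343) (nat_lit 314) (nat_lit 123)))) (XT.nd (nat_lit 78) (nat_lit 1444) (nat_lit 0) (XT.lf (nat_lit 0) (nat_lit 24914601602) (nat_lit 684) (nat_lit 7807329160) (nat_lit 760) (nat_lit 248459543) (nat_lit 250) (nat_lit 5) (nat_lit 259) (nat_lit 5) (nat_lit 260) (nat_lit 5) (nat_lit 344) (nat_lit 314) (nat_lit 122)) (XT.nd (nat_lit 78) (nat_lit 684) (nat_lit 0) (XT.lf (nat_lit 0) (nat_lit 5260364495) (nat_lit 760) (nat_lit 17459498045) (nat_lit 76) (nat_lit 10840764774) (nat_lit 240) (nat_lit 5) (nat_lit 250) (nat_lit 5) (nat_lit 241) (nat_lit 5) (nat_lit 345) (nat_lit 314) (nat_lit 121)) (XT.lf (nat_lit 0) (nat_lit 6958034482) (nat_lit 684) (nat_lit 4121304824) (nat_lit 760) (nat_lit 23086237161) (nat_lit 231) (nat_lit 5) (nat_lit 240) (nat_lit 5) (nat_lit 241) (nat_lit 5) (nat_lit 346) (nat_lit 314) (nat_lit 120))))) (XT.nd (nat_lit 234) (nat_lit 0) (nat_lit 152) (XT.nd (nat_lit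 78) (nat_lit 0) (nat_lit 76) (XT.lf (nat_lit 0) (nat_lit 3178533541) (nat_lit 1748) (nat_lit 3636542717) (nat_lit 1748) (nat_lit 3636542717) (nat_lit 359) (nat_lit 3) (nat_lit 382) (nat_lit 3) (nat_lit 382) (nat_lit 5) (nat_lit 315) (nat_lit 315) (nat_lit 150)) (XT.nd (nat_lit 78) (nat_lit 0) (nat_lit 0) (XT.lf (nat_lit 0) (nat_lit 6712015690) (nat_lit 1672) (nat_lit 14350392558) (nat_lit 1748) (nat_lit 148992771) (nat_lit 360) (nat_lit 5) (nat_lit 382) (nat_lit 5) (nat_lit 383) (nat_lit 5) (nat_lit 316) (nat_lit 315) (nat_lit 149)) (XT.lf (nat_lit 0) (nat_lit 7210018900) (nat_lit 1672) (nat_lit 105142863) (nat_lit 1748) (nat_lit 14211006649) (nat_lit 360) (nat_lit 5) (nat_lit 382) (nat_lit 5) (nat_lit 383) (nat_lit 5) (nat_lit 317) (nat_lit 315) (nat_lit 148)))) (XT.nd (nat_lit 156) (nat_lit 0) (nat_lit 76) (XT.nd (nat_lit 78) (nat_lit 0) (nat_lit 0) (XT.lf (nat_lit 0) (nat_lit 7855757148) (nat_lit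 1672) (nat_lit 7137120940) (nat_lit 1748) (nat_lit 6854852179) (nat_lit 361) (nat_lit 5) (nat_lit 383) (nat_lit 5) (nat_lit 384) (nat_lit 5) (nat_lit 318) (nat_lit 315) (nat_lit 147)) (XT.lf (nat_lit 76) (nat_lit 7842775377) (nat_lit 0) (nat_lit 770768642) (nat_lit 1748) (nat_lit 13563548551) (nat_lit 362) (nat_lit 5) (nat_lit 361) (nat_lit 5) (nat_lit 384) (nat_lit 5) (nat_lit 319) (nat_lit 315) (nat_lit 146))) (XT.nd (nat_lit 78) (nat_lit 0) (nat_lit 76) (XT.lf (nat_lit 76) (nat_lit 769443435) (nat_lit 0) (nat_lit 8760746545) (nat_lit 1748) (nat_lit 12983430170) (nat_lit 363) (nat_lit 5) (nat_lit 362) (nat_lit 5) (nat_lit 385) (nat_lit 5) (nat_lit 320) (nat_lit 315) (nat_lit 145)) (XT.lf (nat_lit 0) (nat_lit 10607714243) (nat_lit 1672) (nat_lit 6384181934) (nat_lit 1748) (nat_lit 5865686517) (nat_lit 363) (nat_lit 5) (nat_lit 385) (nat_lit 5) (nat_lit 386) (nat_lit 5) (nat_lit 321) (nat_lit 315)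 (nat_lit 144))))))) (XT.nd (nat_lit 1014) (nat_lit 6232) (nat_lit 0) (XT.nd (nat_lit 468) (nat_lit 2356) (nat_lit 0) (XT.nd (nat_lit 234) (nat_lit 0) (nat_lit 152) (XT.nd (nat_lit 78) (nat_lit 0) (nat_lit 76) (XT.lf (nat_lit 76) (nat_lit 9498014529) (nat_lit 0) (nat_lit 2332574441) (nat_lit 1748) (nat_lit 11379021168) (nat_lit 364) (nat_lit 5) (nat_lit 363) (nat_lit 5) (nat_lit 386) (nat_lit 5) (nat_lit 322) (nat_lit 315) (nat_lit 143)) (XT.nd (nat_lit 78) (nat_lit 0) (nat_lit 76) (XT.lf (nat_lit 76) (nat_lit 2315252235) (nat_lit 0) (nat_lit 10909334519) (nat_lit 1748) (nat_lit 10344929246) (nat_lit 365) (nat_lit 5) (nat_lit 364) (nat_lit 5) (nat_lit 387) (nat_lit 5) (nat_lit 323) (nat_lit 315) (nat_lit 142)) (XT.lf (nat_lit 0) (nat_lit 14789410568) (nat_lit 1672) (nat_lit 4975453976) (nat_lit 1748) (nat_lit 4172780516) (nat_lit 365) (nat_lit 5) (nat_lit 387) (nat_lit 5) (nat_lit 388) (nat_lit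 5) (nat_lit 324) (nat_lit 315) (nat_lit 141)))) (XT.nd (nat_lit 78) (nat_lit 0) (nat_lit 76) (XT.lf (nat_lit 76) (nat_lit 11869826763) (nat_lit 0) (nat_lit 4674731817) (nat_lit 1748) (nat_lit 7769397787) (nat_lit 366) (nat_lit 5) (nat_lit 365) (nat_lit 5) (nat_lit 388) (nat_lit 5) (nat_lit 325) (nat_lit 315) (nat_lit 140)) (XT.nd (nat_lit 78) (nat_lit 0) (nat_lit 76) (XT.lf (nat_lit 76) (nat_lit 4572180926) (nat_lit 0) (nat_lit 13907900974) (nat_lit 1748) (nat_lit 6218926490) (nat_lit 367) (nat_lit 5) (nat_lit 366) (nat_lit 5) (nat_lit 389) (nat_lit 5) (nat_lit 326) (nat_lit 315) (nat_lit 139)) (XT.lf (nat_lit 0) (nat_lit 20593459524) (nat_lit 1672) (nat_lit 2871120159) (nat_lit 1748) (nat_lit 1628642141) (nat_lit 367) (nat_lit 5) (nat_lit 389) (nat_lit 5) (nat_lit 390) (nat_lit 5) (nat_lit 327) (nat_lit 315) (nat_lit 138))))) (XT.nd (nat_lit 234) (nat_lit 988) (nat_lit 0) (XT.nd (nat_lit 78) (nat_lit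 1672) (nat_lit 0) (XT.lf (nat_lit 76) (nat_lit 15001381691) (nat_lit 0) (nat_lit 7953150598) (nat_lit 1748) (nat_lit 2541048957) (nat_lit 368) (nat_lit 5) (nat_lit 367) (nat_lit 5) (nat_lit 390) (nat_lit 5) (nat_lit 328) (nat_lit 315) (nat_lit 137)) (XT.nd (nat_lit 78) (nat_lit 1748) (nat_lit 0) (XT.lf (nat_lit 76) (nat_lit 7582282906) (nat_lit 0) (nat_lit 17919107113) (nat_lit 1748) (nat_lit 406327675) (nat_lit 369) (nat_lit 5) (nat_lit 368) (nat_lit 5) (nat_lit 391) (nat_lit 5) (nat_lit 329) (nat_lit 315) (nat_lit 136)) (XT.lf (nat_lit 0) (nat_lit 1887840811) (nat_lit 1748) (nat_lit 56064988) (nat_lit 1824) (nat_lit 24385706455) (nat_lit 345) (nat_lit 5) (nat_lit 368) (nat_lit 5) (nat_lit 369) (nat_lit 5) (nat_lit 330) (nat_lit 315) (nat_lit 135)))) (XT.nd (nat_lit 156) (nat_lit 1064) (nat_lit 0) (XT.nd (nat_lit 78) (nat_lit 0) (nat_lit 76) (XT.lf (nat_lit 0) (nat_lit 4458097484) (nat_lit 1748)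 (nat_lit 7853457743) (nat_lit 1824) (nat_lit 14448303936) (nat_lit 346) (nat_lit 5) (nat_lit 369) (nat_lit 5) (nat_lit 370) (nat_lit 5) (nat_lit 331) (nat_lit 315) (nat_lit 134)) (XT.lf (nat_lit 0) (nat_lit 7214243243) (nat_lit 1748) (nat_lit 15861535689) (nat_lit 76) (nat_lit 4125063676) (nat_lit 347) (nat_lit 5) (nat_lit 370) (nat_lit 5) (nat_lit 348) (nat_lit 5) (nat_lit 332) (nat_lit 315) (nat_lit 133))) (XT.nd (nat_lit 78) (nat_lit 0) (nat_lit 0) (XT.lf (nat_lit 0) (nat_lit 3520208602) (nat_lit 1140) (nat_lit 6686219511) (nat_lit 1216) (nat_lit 17445564965) (nat_lit 332) (nat_lit 5) (nat_lit 347) (nat_lit 5) (nat_lit 348) (nat_lit 5) (nat_lit 333) (nat_lit 315) (nat_lit 132)) (XT.lf (nat_lit 0) (nat_lit 13457494829) (nat_lit 1216) (nat_lit 4485589060) (nat_lit 76) (nat_lit 10170216329) (nat_lit 332) (nat_lit 5) (nat_lit 348) (nat_lit 5) (nat_lit 333) (nat_lit 5) (nat_lit 334) (nat_lit 315)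 (nat_lit 131)))))) (XT.nd (nat_lit 546) (nat_lit 2128) (nat_lit 0) (XT.nd (nat_lit 234) (nat_lit 2432) (nat_lit 0) (XT.nd (nat_lit 78) (nat_lit 836) (nat_lit 0) (XT.lf (nat_lit 0) (nat_lit 15909392860) (nat_lit 836) (nat_lit 1039591102) (nat_lit 912) (nat_lit 11636609155) (nat_lit 321) (nat_lit 5) (nat_lit 332) (nat_lit 5) (nat_lit 333) (nat_lit 5) (nat_lit 335) (nat_lit 315) (nat_lit 130)) (XT.nd (nat_lit 78) (nat_lit 0) (nat_lit 0) (XT.lf (nat_lit 0) (nat_lit 7898702822) (nat_lit 836) (nat_lit 12829692940) (nat_lit 912) (nat_lit 8339999707) (nat_lit 310) (nat_lit 5) (nat_lit 321) (nat_lit 5) (nat_lit 322) (nat_lit 5) (nat_lit 336) (nat_lit 315) (nat_lit 129)) (XT.lf (nat_lit 0) (nat_lit 24738617193) (nat_lit 912) (nat_lit 340605936) (nat_lit 76) (nat_lit 4484114319) (nat_lit 310) (nat_lit 5) (nat_lit 322) (nat_lit 5) (nat_lit 311) (nat_lit 5) (nat_lit 337) (nat_lit 315) (nat_lit 128)))) (XT.nd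 (nat_lit 156) (nat_lit 760) (nat_lit 0) (XT.nd (nat_lit 78) (nat_lit 912) (nat_lit 0) (XT.lf (nat_lit 0) (nat_lit 21302471313) (nat_lit 760) (nat_lit 7786048146) (nat_lit 836) (nat_lit 980224727) (nat_lit 300) (nat_lit 5) (nat_lit 310) (nat_lit 5) (nat_lit 311) (nat_lit 5) (nat_lit 338) (nat_lit 315) (nat_lit 127)) (XT.lf (nat_lit 0) (nat_lit 3089434832) (nat_lit 912) (nat_lit 17494078726) (nat_lit 76) (nat_lit 10002438303) (nat_lit 288) (nat_lit 5) (nat_lit 300) (nat_lit 5) (nat_lit 289) (nat_lit 5) (nat_lit 339) (nat_lit 315) (nat_lit 126))) (XT.nd (nat_lit 78) (nat_lit 0) (nat_lit 0) (XT.lf (nat_lit 0) (nat_lit 4605163660) (nat_lit 760) (nat_lit 2799993656) (nat_lit 836) (nat_lit 23710646734) (nat_lit 278) (nat_lit 5) (nat_lit 288) (nat_lit 5) (nat_lit 289) (nat_lit 5) (nat_lit 340) (nat_lit 315) (nat_lit 125)) (XT.lf (nat_lit 0) (nat_lit 12065982574) (nat_lit 836) (nat_lit 4158374210) (nat_lit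 76) (nat_lit 15432885972) (nat_lit 278) (nat_lit 5) (nat_lit 289) (nat_lit 5) (nat_lit 279) (nat_lit 5) (nat_lit 341) (nat_lit 315) (nat_lit 124))))) (XT.nd (nat_lit 234) (nat_lit 0) (nat_lit 0) (XT.nd (nat_lit 78) (nat_lit 1368) (nat_lit 0) (XT.lf (nat_lit 0) (nat_lit 17018545565) (nat_lit 836) (nat_lit 13133957647) (nat_lit 76) (nat_lit 2059386622) (nat_lit 268) (nat_lit 5) (nat_lit 279) (nat_lit 5) (nat_lit 269) (nat_lit 5) (nat_lit 342) (nat_lit 315) (nat_lit 123)) (XT.nd (nat_lit 78) (nat_lit 684) (nat_lit 0) (XT.lf (nat_lit 0) (nat_lit 10307746001) (nat_lit 684) (nat_lit 12011509200) (nat_lit 760) (nat_lit 10459933095) (nat_lit 259) (nat_lit 5) (nat_lit 268) (nat_lit 5) (nat_lit 269) (nat_lit 5) (nat_lit 343) (nat_lit 315) (nat_lit 122)) (XT.lf (nat_lit 0) (nat_lit 1238675982) (nat_lit 684) (nat_lit 26677145957) (nat_lit 760) (nat_lit 5444950328) (nat_lit 250) (nat_lit 5) (nat_lit 259) (nat_lit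 5) (nat_lit 260) (nat_lit 5) (nat_lit 344) (nat_lit 315) (nat_lit 121)))) (XT.nd (nat_lit 38454) (nat_lit 0) (nat_lit 8284) (XT.nd (nat_lit 38376) (nat_lit 0) (nat_lit 8284) (XT.lf (nat_lit 0) (nat_lit 25881963519) (nat_lit 684) (nat_lit 8026359687) (nat_lit 760) (nat_lit 46922975) (nat_lit 250) (nat_lit 5) (nat_lit 259) (nat_lit 5) (nat_lit 260) (nat_lit 5) (nat_lit 345) (nat_lit 315) (nat_lit 120)) (XT.lf (nat_lit 0) (nat_lit 3485891551) (nat_lit 1748) (nat_lit 3637422082) (nat_lit 1748) (nat_lit 3637422082) (nat_lit 359) (nat_lit 3) (nat_lit 382) (nat_lit 3) (nat_lit 382) (nat_lit 5) (nat_lit 316) (nat_lit 316) (nat_lit 148))) (XT.nd (nat_lit 78) (nat_lit 0) (nat_lit 76) (XT.lf (nat_lit 76) (nat_lit 7280790980) (nat_lit 0) (nat_lit 44612368) (nat_lit 1748) (nat_lit 14513726752) (nat_lit 360) (nat_lit 5) (nat_lit 359) (nat_lit 3) (nat_lit 382) (nat_lit 5) (nat_lit 317) (nat_lit 316) (nat_lit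 147)) (XT.lf (nat_lit 76) (nat_lit 109502950) (nat_lit 0) (nat_lit 7717272662) (nat_lit 1748) (nat_lit 14336807171) (nat_lit 361) (nat_lit 5) (nat_lit 360) (nat_lit 5) (nat_lit 383) (nat_lit 5) (nat_lit 318) (nat_lit 316) (nat_lit 146))))))))
noncomputable def xc123 : XT := (XT.nd (nat_lit 40482) (nat_lit 0) (nat_lit 2128) (XT.nd (nat_lit 1014) (nat_lit 7220) (nat_lit 0) (XT.nd (nat_lit 468) (nat_lit 1216) (nat_lit 0) (XT.nd (nat_lit 234) (nat_lit 0) (nat_lit 152) (XT.nd (nat_lit 78) (nat_lit 0) (nat_lit 0) (XT.lf (nat_lit 0) (nat_lit 8479767165) (nat_lit 1672) (nat_lit 7129093355) (nat_lit 1748) (nat_lit 6886183881) (nat_lit 361) (nat_lit 5) (nat_lit 383) (nat_lit 5) (nat_lit 384) (nat_lit 5) (nat_lit 319) (nat_lit 316) (nat_lit 145)) (XT.nd (nat_lit 78) (nat_lit 0) (nat_lit 76) (XT.lf (nat_lit 76) (nat_lit 8296595874) (nat_lit 0) (nat_lit 953799861) (nat_lit 1748) (nat_lit 13584099901) (nat_lit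 362) (nat_lit 5) (nat_lit 361) (nat_lit 5) (nat_lit 384) (nat_lit 5) (nat_lit 320) (nat_lit 316) (nat_lit 144)) (XT.lf (nat_lit 76) (nat_lit 1016321239) (nat_lit 0) (nat_lit 9167642187) (nat_lit 1748) (nat_lit 12997377097) (nat_lit 363) (nat_lit 5) (nat_lit 362) (nat_lit 5) (nat_lit 385) (nat_lit 5) (nat_lit 321) (nat_lit 316) (nat_lit 143)))) (XT.nd (nat_lit 78) (nat_lit 0) (nat_lit 0) (XT.lf (nat_lit 0) (nat_lit 11282190648) (nat_lit 1672) (nat_lit 6350058701) (nat_lit 1748) (nat_lit 5903614686) (nat_lit 363) (nat_lit 5) (nat_lit 385) (nat_lit 5) (nat_lit 386) (nat_lit 5) (nat_lit 322) (nat_lit 316) (nat_lit 142)) (XT.nd (nat_lit 78) (nat_lit 0) (nat_lit 76) (XT.lf (nat_lit 76) (nat_lit 10004942774) (nat_lit 0) (nat_lit 2527874068) (nat_lit 1748) (nat_lit 11365823513) (nat_lit 364) (nat_lit 5) (nat_lit 363) (nat_lit 5) (nat_lit 386) (nat_lit 5) (nat_lit 323) (nat_lit 316) (nat_lit 141)) (XT.lf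 (nat_lit 76) (nat_lit 2611036931) (nat_lit 0) (nat_lit 11348161285) (nat_lit 1748) (nat_lit 10310342986) (nat_lit 365) (nat_lit 5) (nat_lit 364) (nat_lit 5) (nat_lit 387) (nat_lit 5) (nat_lit 324) (nat_lit 316) (nat_lit 140))))) (XT.nd (nat_lit 234) (nat_lit 1520) (nat_lit 0) (XT.nd (nat_lit 78) (nat_lit 0) (nat_lit 0) (XT.lf (nat_lit 0) (nat_lit 15560422618) (nat_lit 1672) (nat_lit 4897424739) (nat_lit 1748) (nat_lit 4191086480) (nat_lit 365) (nat_lit 5) (nat_lit 387) (nat_lit 5) (nat_lit 388) (nat_lit 5) (nat_lit 325) (nat_lit 316) (nat_lit 139)) (XT.nd (nat_lit 78) (nat_lit 0) (nat_lit 76) (XT.lf (nat_lit 76) (nat_lit 12449526866) (nat_lit 0) (nat_lit 4910616123) (nat_lit 1748) (nat_lit 7676561698) (nat_lit 366) (nat_lit 5) (nat_lit 365) (nat_lit 5) (nat_lit 388) (nat_lit 5) (nat_lit 326) (nat_lit 316) (nat_lit 138)) (XT.lf (nat_lit 76) (nat_lit 4936496975) (nat_lit 0) (nat_lit 14408808484)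 (nat_lit 1748) (nat_lit 6088179656) (nat_lit 367) (nat_lit 5) (nat_lit 366) (nat_lit 5) (nat_lit 389) (nat_lit 5) (nat_lit 327) (nat_lit 316) (nat_lit 137)))) (XT.nd (nat_lit 156) (nat_lit 1672) (nat_lit 0) (XT.nd (nat_lit 78) (nat_lit 0) (nat_lit 0) (XT.lf (nat_lit 0) (nat_lit 21512503947) (nat_lit 1672) (nat_lit 2729887365) (nat_lit 1748) (nat_lit 1597333321) (nat_lit 367) (nat_lit 5) (nat_lit 389) (nat_lit 5) (nat_lit 390) (nat_lit 5) (nat_lit 328) (nat_lit 316) (nat_lit 136)) (XT.lf (nat_lit 76) (nat_lit 15675100791) (nat_lit 0) (nat_lit 8261986368) (nat_lit 1748) (nat_lit 2317221947) (nat_lit 368) (nat_lit 5) (nat_lit 367) (nat_lit 5) (nat_lit 390) (nat_lit 5) (nat_lit 329) (nat_lit 316) (nat_lit 135))) (XT.nd (nat_lit 78) (nat_lit 1748) (nat_lit 0) (XT.lf (nat_lit 76) (nat_lit 8036288761) (nat_lit 0) (nat_lit 18516529178) (nat_lit 1748) (nat_lit 126149972) (nat_lit 369) (nat_lit 5) (nat_lit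 368) (nat_lit 5) (nat_lit 391) (nat_lit 5) (nat_lit 330) (nat_lit 316) (nat_lit 134)) (XT.lf (nat_lit 76) (nat_lit 168364531) (nat_lit 0) (nat_lit 2057333843) (nat_lit 1824) (nat_lit 24887936425) (nat_lit 346) (nat_lit 5) (nat_lit 345) (nat_lit 5) (nat_lit 369) (nat_lit 5) (nat_lit 331) (nat_lit 316) (nat_lit 133)))))) (XT.nd (nat_lit 546) (nat_lit 4560) (nat_lit 0) (XT.nd (nat_lit 234) (nat_lit 1672) (nat_lit 0) (XT.nd (nat_lit 78) (nat_lit 1064) (nat_lit 0) (XT.lf (nat_lit 0) (nat_lit 4864895702) (nat_lit 1748) (nat_lit 7862743400) (nat_lit 1824) (nat_lit 14829320384) (nat_lit 346) (nat_lit 5) (nat_lit 369) (nat_lit 5) (nat_lit 370) (nat_lit 5) (nat_lit 332) (nat_lit 316) (nat_lit 132)) (XT.nd (nat_lit 78) (nat_lit 1140) (nat_lit 0) (XT.lf (nat_lit 0) (nat_lit 7696933297) (nat_lit 1748) (nat_lit 16108891912) (nat_lit 76) (nat_lit 4205489901) (nat_lit 347) (nat_lit 5) (nat_lit 370) (nat_lit 5)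 (nat_lit 348) (nat_lit 5) (nat_lit 333) (nat_lit 316) (nat_lit 131)) (XT.lf (nat_lit 0) (nat_lit 3850597730) (nat_lit 1140) (nat_lit 6921990196) (nat_lit 1216) (nat_lit 17703544710) (nat_lit 332) (nat_lit 5) (nat_lit 347) (nat_lit 5) (nat_lit 348) (nat_lit 5) (nat_lit 334) (nat_lit 316) (nat_lit 130)))) (XT.nd (nat_lit 156) (nat_lit 836) (nat_lit 0) (XT.nd (nat_lit 78) (nat_lit 836) (nat_lit 0) (XT.lf (nat_lit 0) (nat_lit 14113393006) (nat_lit 1216) (nat_lit 4396436788) (nat_lit 76) (nat_lit 10441611504) (nat_lit 332) (nat_lit 5) (nat_lit 348) (nat_lit 5) (nat_lit 333) (nat_lit 5) (nat_lit 335) (nat_lit 316) (nat_lit 129)) (XT.lf (nat_lit 0) (nat_lit 16606764999) (nat_lit 836) (nat_lit 1096945932) (nat_lit 912) (nat_lit 11734316617) (nat_lit 321) (nat_lit 5) (nat_lit 332) (nat_lit 5) (nat_lit 333) (nat_lit 5) (nat_lit 336) (nat_lit 316) (nat_lit 128))) (XT.nd (nat_lit 78) (nat_lit 0) (nat_lit 0)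 (XT.lf (nat_lit 0) (nat_lit 8357400773) (nat_lit 836) (nat_lit 13233206482) (nat_lit 912) (nat_lit 8344830737) (nat_lit 310) (nat_lit 5) (nat_lit 321) (nat_lit 5) (nat_lit 322) (nat_lit 5) (nat_lit 337) (nat_lit 316) (nat_lit 127)) (XT.lf (nat_lit 0) (nat_lit 25714017174) (nat_lit 912) (nat_lit 130564775) (nat_lit 76) (nat_lit 4600794532) (nat_lit 310) (nat_lit 5) (nat_lit 322) (nat_lit 5) (nat_lit 311) (nat_lit 5) (nat_lit 338) (nat_lit 316) (nat_lit 126))))) (XT.nd (nat_lit 234) (nat_lit 2128) (nat_lit 0) (XT.nd (nat_lit 78) (nat_lit 1672) (nat_lit 0) (XT.lf (nat_lit 0) (nat_lit 22158231346) (nat_lit 760) (nat_lit 8030798590) (nat_lit 836) (nat_lit 777028933) (nat_lit 300) (nat_lit 5) (nat_lit 310) (nat_lit 5) (nat_lit 311) (nat_lit 5) (nat_lit 339) (nat_lit 316) (nat_lit 125)) (XT.nd (nat_lit 78) (nat_lit 760) (nat_lit 0) (XT.lf (nat_lit 0) (nat_lit 3406337141) (nat_lit 912) (nat_lit 17797827585)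 (nat_lit 76) (nat_lit 10294699938) (nat_lit 288) (nat_lit 5) (nat_lit 300) (nat_lit 5) (nat_lit 289) (nat_lit 5) (nat_lit 340) (nat_lit 316) (nat_lit 124)) (XT.lf (nat_lit 0) (nat_lit 4960805418) (nat_lit 760) (nat_lit 2885607292) (nat_lit 836) (nat_lit 24198307363) (nat_lit 278) (nat_lit 5) (nat_lit 288) (nat_lit 5) (nat_lit 289) (nat_lit 5) (nat_lit 341) (nat_lit 316) (nat_lit 123)))) (XT.nd (nat_lit 156) (nat_lit 1368) (nat_lit 0) (XT.nd (nat_lit 78) (nat_lit 760) (nat_lit 0) (XT.lf (nat_lit 0) (nat_lit 12640670980) (nat_lit 836) (nat_lit 4067537646) (nat_lit 76) (nat_lit 15894326278) (nat_lit 278) (nat_lit 5) (nat_lit 289) (nat_lit 5) (nat_lit 279) (nat_lit 5) (nat_lit 342) (nat_lit 316) (nat_lit 122)) (XT.lf (nat_lit 0) (nat_lit 17737019752) (nat_lit 836) (nat_lit 13311589719) (nat_lit 76) (nat_lit 2125312724) (nat_lit 268) (nat_lit 5) (nat_lit 279) (nat_lit 5) (nat_lit 269) (nat_lit 5) (nat_lit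 343) (nat_lit 316) (nat_lit 121))) (XT.nd (nat_lit 78) (nat_lit 684) (nat_lit 0) (XT.lf (nat_lit 0) (nat_lit 10829854422) (nat_lit 684) (nat_lit 12362222528) (nat_lit 760) (nat_lit 10566260971) (nat_lit 259) (nat_lit 5) (nat_lit 268) (nat_lit 5) (nat_lit 269) (nat_lit 5) (nat_lit 344) (nat_lit 316) (nat_lit 120)) (XT.lf (nat_lit 0) (nat_lit 1489354581) (nat_lit 684) (nat_lit 27462713397) (nat_lit 760) (nat_lit 5405395581) (nat_lit 250) (nat_lit 5) (nat_lit 259) (nat_lit 5) (nat_lit 260) (nat_lit 5) (nat_lit 345) (nat_lit 316) (nat_lit 119))))))) (XT.nd (nat_lit 1014) (nat_lit 6156) (nat_lit 0) (XT.nd (nat_lit 468) (nat_lit 0) (nat_lit 304) (XT.nd (nat_lit 234) (nat_lit 0) (nat_lit 152) (XT.nd (nat_lit 78) (nat_lit 0) (nat_lit 0) (XT.lf (nat_lit 0) (nat_lit 3790300519) (nat_lit 1748) (nat_lit 3644539922) (nat_lit 1748) (nat_lit 3644539922) (nat_lit 359) (nat_lit 3) (nat_lit 382) (nat_lit 3) (nat_lit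 382) (nat_lit 5) (nat_lit 317) (nat_lit 317) (nat_lit 146)) (XT.nd (nat_lit 78) (nat_lit 0) (nat_lit 76) (XT.lf (nat_lit 76) (nat_lit 7699914541) (nat_lit 0) (nat_lit 234577715) (nat_lit 1748) (nat_lit 14551674183) (nat_lit 360) (nat_lit 5) (nat_lit 359) (nat_lit 3) (nat_lit 382) (nat_lit 5) (nat_lit 318) (nat_lit 317) (nat_lit 145)) (XT.lf (nat_lit 76) (nat_lit 319442118) (nat_lit 0) (nat_lit 8120276670) (nat_lit 1748) (nat_lit 14380867878) (nat_lit 361) (nat_lit 5) (nat_lit 360) (nat_lit 5) (nat_lit 383) (nat_lit 5) (nat_lit 319) (nat_lit 317) (nat_lit 144)))) (XT.nd (nat_lit 78) (nat_lit 0) (nat_lit 0) (XT.lf (nat_lit 0) (nat_lit 9100205332) (nat_lit 1672) (nat_lit 7133576757) (nat_lit 1748) (nat_lit 6928461864) (nat_lit 361) (nat_lit 5) (nat_lit 383) (nat_lit 5) (nat_lit 384) (nat_lit 5) (nat_lit 320) (nat_lit 317) (nat_lit 143)) (XT.nd (nat_lit 78) (nat_lit 0) (nat_lit 76) (XT.lf (nat_lit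 76) (nat_lit 8751486055) (nat_lit 0) (nat_lit 1133142634) (nat_lit 1748) (nat_lit 13627446154) (nat_lit 362) (nat_lit 5) (nat_lit 361) (nat_lit 5) (nat_lit 384) (nat_lit 5) (nat_lit 321) (nat_lit 317) (nat_lit 142)) (XT.lf (nat_lit 76) (nat_lit 1257758657) (nat_lit 0) (nat_lit 9578474305) (nat_lit 1748) (nat_lit 13033300881) (nat_lit 363) (nat_lit 5) (nat_lit 362) (nat_lit 5) (nat_lit 385) (nat_lit 5) (nat_lit 322) (nat_lit 317) (nat_lit 141))))) (XT.nd (nat_lit 234) (nat_lit 0) (nat_lit 152) (XT.nd (nat_lit 78) (nat_lit 0) (nat_lit 0) (XT.lf (nat_lit 0) (nat_lit 11956451426) (nat_lit 1672) (nat_lit 6327864929) (nat_lit 1748) (nat_lit 5950604900) (nat_lit 363) (nat_lit 5) (nat_lit 385) (nat_lit 5) (nat_lit 386) (nat_lit 5) (nat_lit 323) (nat_lit 317) (nat_lit 140)) (XT.nd (nat_lit 78) (nat_lit 0) (nat_lit 76) (XT.lf (nat_lit 76) (nat_lit 10514335858) (nat_lit 0) (nat_lit 2721838665) (nat_lit 1748)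 (nat_lit 11372583599) (nat_lit 364) (nat_lit 5) (nat_lit 363) (nat_lit 5) (nat_lit 386) (nat_lit 5) (nat_lit 324) (nat_lit 317) (nat_lit 139)) (XT.lf (nat_lit 76) (nat_lit 2902703066) (nat_lit 0) (nat_lit 11793749615) (nat_lit 1748) (nat_lit 10294519769) (nat_lit 365) (nat_lit 5) (nat_lit 364) (nat_lit 5) (nat_lit 387) (nat_lit 5) (nat_lit 325) (nat_lit 317) (nat_lit 138)))) (XT.nd (nat_lit 156) (nat_lit 0) (nat_lit 76) (XT.nd (nat_lit 78) (nat_lit 0) (nat_lit 0) (XT.lf (nat_lit 0) (nat_lit 16335774964) (nat_lit 1672) (nat_lit 4830102164) (nat_lit 1748) (nat_lit 4216076825) (nat_lit 365) (nat_lit 5) (nat_lit 387) (nat_lit 5) (nat_lit 388) (nat_lit 5) (nat_lit 326) (nat_lit 317) (nat_lit 137)) (XT.lf (nat_lit 76) (nat_lit 13033782113) (nat_lit 0) (nat_lit 5148086696) (nat_lit 1748) (nat_lit 7599649555) (nat_lit 366) (nat_lit 5) (nat_lit 365) (nat_lit 5) (nat_lit 388) (nat_lit 5) (nat_lit 327) (nat_lit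 317) (nat_lit 136))) (XT.nd (nat_lit 78) (nat_lit 0) (nat_lit 76) (XT.lf (nat_lit 76) (nat_lit 5298703130) (nat_lit 0) (nat_lit 14919940191) (nat_lit 1748) (nat_lit 5971725576) (nat_lit 367) (nat_lit 5) (nat_lit 366) (nat_lit 5) (nat_lit 389) (nat_lit 5) (nat_lit 328) (nat_lit 317) (nat_lit 135)) (XT.lf (nat_lit 0) (nat_lit 22441827259) (nat_lit 1672) (nat_lit 2597469348) (nat_lit 1748) (nat_lit 1569687211) (nat_lit 367) (nat_lit 5) (nat_lit 389) (nat_lit 5) (nat_lit 390) (nat_lit 5) (nat_lit 329) (nat_lit 317) (nat_lit 134)))))) (XT.nd (nat_lit 546) (nat_lit 4104) (nat_lit 0) (XT.nd (nat_lit 234) (nat_lit 988) (nat_lit 0) (XT.nd (nat_lit 78) (nat_lit 1672) (nat_lit 0) (XT.lf (nat_lit 76) (nat_lit 16356191452) (nat_lit 0) (nat_lit 8576055077) (nat_lit 1748) (nat_lit 2103904712) (nat_lit 368) (nat_lit 5) (nat_lit 367) (nat_lit 5) (nat_lit 390) (nat_lit 5) (nat_lit 330) (nat_lit 317) (nat_lit 133))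 (XT.nd (nat_lit 78) (nat_lit 0) (nat_lit 0) (XT.lf (nat_lit 0) (nat_lit 143739743) (nat_lit 1748) (nat_lit 18983734022) (nat_lit 1824) (nat_lit 8346206307) (nat_lit 345) (nat_lit 5) (nat_lit 368) (nat_lit 5) (nat_lit 369) (nat_lit 5) (nat_lit 331) (nat_lit 317) (nat_lit 132)) (XT.lf (nat_lit 76) (nat_lit 387270586) (nat_lit 0) (nat_lit 2170635871) (nat_lit 1824) (nat_lit 25363601124) (nat_lit 346) (nat_lit 5) (nat_lit 345) (nat_lit 5) (nat_lit 369) (nat_lit 5) (nat_lit 332) (nat_lit 317) (nat_lit 131)))) (XT.nd (nat_lit 156) (nat_lit 1064) (nat_lit 0) (XT.nd (nat_lit 78) (nat_lit 0) (nat_lit 76) (XT.lf (nat_lit 0) (nat_lit 5268223376) (nat_lit 1748) (nat_lit 7885299210) (nat_lit 1824) (nat_lit 15224777175) (nat_lit 346) (nat_lit 5) (nat_lit 369) (nat_lit 5) (nat_lit 370) (nat_lit 5) (nat_lit 333) (nat_lit 317) (nat_lit 130)) (XT.lf (nat_lit 0) (nat_lit 8178819482) (nat_lit 1748) (nat_lit 16376785074)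 (nat_lit 76) (nat_lit 4290815984) (nat_lit 347) (nat_lit 5) (nat_lit 370) (nat_lit 5) (nat_lit 348) (nat_lit 5) (nat_lit 334) (nat_lit 317) (nat_lit 129))) (XT.nd (nat_lit 78) (nat_lit 0) (nat_lit 0) (XT.lf (nat_lit 0) (nat_lit 4177995077) (nat_lit 1140) (nat_lit 7162814291) (nat_lit 1216) (nat_lit 17984498159) (nat_lit 332) (nat_lit 5) (nat_lit 347) (nat_lit 5) (nat_lit 348) (nat_lit 5) (nat_lit 335) (nat_lit 317) (nat_lit 128)) (XT.lf (nat_lit 0) (nat_lit 14774492347) (nat_lit 1216) (nat_lit 4317452388) (nat_lit 76) (nat_lit 10723083702) (nat_lit 332) (nat_lit 5) (nat_lit 348) (nat_lit 5) (nat_lit 333) (nat_lit 5) (nat_lit 336) (nat_lit 317) (nat_lit 127))))) (XT.nd (nat_lit 234) (nat_lit 1672) (nat_lit 0) (XT.nd (nat_lit 78) (nat_lit 1596) (nat_lit 0) (XT.lf (nat_lit 0) (nat_lit 17312424216) (nat_lit 836) (nat_lit 1154519308) (nat_lit 912) (nat_lit 11849386164) (nat_lit 321) (nat_lit 5) (nat_lit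 332) (nat_lit 5) (nat_lit 333) (nat_lit 5) (nat_lit 337) (nat_lit 317) (nat_lit 126)) (XT.nd (nat_lit 78) (nat_lit 760) (nat_lit 0) (XT.lf (nat_lit 0) (nat_lit 8817131059) (nat_lit 836) (nat_lit 13647756408) (nat_lit 912) (nat_lit 8363891880) (nat_lit 310) (nat_lit 5) (nat_lit 321) (nat_lit 5) (nat_lit 322) (nat_lit 5) (nat_lit 338) (nat_lit 317) (nat_lit 125)) (XT.lf (nat_lit 0) (nat_lit 74105743) (nat_lit 760) (nat_lit 26631665541) (nat_lit 836) (nat_lit 4648374826) (nat_lit 300) (nat_lit 5) (nat_lit 310) (nat_lit 5) (nat_lit 311) (nat_lit 5) (nat_lit 339) (nat_lit 317) (nat_lit 124)))) (XT.nd (nat_lit 156) (nat_lit 760) (nat_lit 0) (XT.nd (nat_lit 78) (nat_lit 912) (nat_lit 0) (XT.lf (nat_lit 0) (nat_lit 23027225522) (nat_lit 760) (nat_lit 8282250402) (nat_lit 836) (nat_lit 581089603) (nat_lit 300) (nat_lit 5) (nat_lit 310) (nat_lit 5) (nat_lit 311) (nat_lit 5) (nat_lit 340) (nat_lit 317) (nat_lit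 123)) (XT.lf (nat_lit 0) (nat_lit 3719875416) (nat_lit 912) (nat_lit 18123379433) (nat_lit 76) (nat_lit 10596177835) (nat_lit 288) (nat_lit 5) (nat_lit 300) (nat_lit 5) (nat_lit 289) (nat_lit 5) (nat_lit 341) (nat_lit 317) (nat_lit 122))) (XT.nd (nat_lit 78) (nat_lit 0) (nat_lit 0) (XT.lf (nat_lit 0) (nat_lit 5314631794) (nat_lit 760) (nat_lit 2973696697) (nat_lit 836) (nat_lit 24713436739) (nat_lit 278) (nat_lit 5) (nat_lit 288) (nat_lit 5) (nat_lit 289) (nat_lit 5) (nat_lit 342) (nat_lit 317) (nat_lit 121)) (XT.lf (nat_lit 0) (nat_lit 13220389676) (nat_lit 836) (nat_lit 3986351605) (nat_lit 76) (nat_lit 16369698556) (nat_lit 278) (nat_lit 5) (nat_lit 289) (nat_lit 5) (nat_lit 279) (nat_lit 5) (nat_lit 343) (nat_lit 317) (nat_lit 120))))))))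
noncomputable def xc124 : XT := (XT.nd (nat_lit 40560) (nat_lit 0) (nat_lit 760) (XT.nd (nat_lit 39546) (nat_lit 0) (nat_lit 1520) (XT.nd (nat_lit 39000) (nat_lit 0) (nat_lit 7144) (XT.nd (nat_lit 38766) (nat_lit 0) (nat_lit 6992) (XT.nd (nat_lit 38610) (nat_lit 0) (nat_lit 6916) (XT.lf (nat_lit 0) (nat_lit 18465112831) (nat_lit 836) (nat_lit 13506972233) (nat_lit 76) (nat_lit 2192978698) (nat_lit 268) (nat_lit 5) (nat_lit 279) (nat_lit 5) (nat_lit 269) (nat_lit 5) (nat_lit 344) (nat_lit 317) (nat_lit 119)) (XT.nd (nat_lit 78) (nat_lit 0) (nat_lit 0) (XT.lf (nat_lit 0) (nat_lit 4092370569) (nat_lit 1748) (nat_lit 3657726791) (nat_lit 1748) (nat_lit 3657726791) (nat_lit 359) (nat_lit 3) (nat_lit 382) (nat_lit 3) (nat_lit 382) (nat_lit 5) (nat_lit 318) (nat_lit 318) (nat_lit 144)) (XT.lf (nat_lit 76) (nat_lit 8120090817) (nat_lit 0) (nat_lit 419414063) (nat_lit 1748) (nat_lit 14613576118) (nat_lit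 360) (nat_lit 5) (nat_lit 359) (nat_lit 3) (nat_lit 382) (nat_lit 5) (nat_lit 319) (nat_lit 318) (nat_lit 143)))) (XT.nd (nat_lit 78) (nat_lit 0) (nat_lit 76) (XT.lf (nat_lit 76) (nat_lit 523816671) (nat_lit 0) (nat_lit 8525526809) (nat_lit 1748) (nat_lit 14448410882) (nat_lit 361) (nat_lit 5) (nat_lit 360) (nat_lit 5) (nat_lit 383) (nat_lit 5) (nat_lit 320) (nat_lit 318) (nat_lit 142)) (XT.nd (nat_lit 78) (nat_lit 0) (nat_lit 0) (XT.lf (nat_lit 0) (nat_lit 9718244155) (nat_lit 1672) (nat_lit 7150214469) (nat_lit 1748) (nat_lit 6981440110) (nat_lit 361) (nat_lit 5) (nat_lit 383) (nat_lit 5) (nat_lit 384) (nat_lit 5) (nat_lit 321) (nat_lit 318) (nat_lit 141)) (XT.lf (nat_lit 76) (nat_lit 9208198140) (nat_lit 0) (nat_lit 1309213242) (nat_lit 1748) (nat_lit 13692998030) (nat_lit 362) (nat_lit 5) (nat_lit 361) (nat_lit 5) (nat_lit 384) (nat_lit 5) (nat_lit 322) (nat_lit 318) (nat_lit 140))))) (XT.nd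 (nat_lit 234) (nat_lit 0) (nat_lit 152) (XT.nd (nat_lit 78) (nat_lit 0) (nat_lit 76) (XT.lf (nat_lit 76) (nat_lit 1494329931) (nat_lit 0) (nat_lit 9993835747) (nat_lit 1748) (nat_lit 13090623285) (nat_lit 363) (nat_lit 5) (nat_lit 362) (nat_lit 5) (nat_lit 385) (nat_lit 5) (nat_lit 323) (nat_lit 318) (nat_lit 139)) (XT.nd (nat_lit 78) (nat_lit 0) (nat_lit 0) (XT.lf (nat_lit 0) (nat_lit 12631664017) (nat_lit 1672) (nat_lit 6317214938) (nat_lit 1748) (nat_lit 6006474139) (nat_lit 363) (nat_lit 5) (nat_lit 385) (nat_lit 5) (nat_lit 386) (nat_lit 5) (nat_lit 324) (nat_lit 318) (nat_lit 138)) (XT.lf (nat_lit 76) (nat_lit 11026999227) (nat_lit 0) (nat_lit 2914841148) (nat_lit 1748) (nat_lit 11398731773) (nat_lit 364) (nat_lit 5) (nat_lit 363) (nat_lit 5) (nat_lit 386) (nat_lit 5) (nat_lit 325) (nat_lit 318) (nat_lit 137)))) (XT.nd (nat_lit 156) (nat_lit 0) (nat_lit 76) (XT.nd (nat_lit 78) (nat_lit 0)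 (nat_lit 76) (XT.lf (nat_lit 76) (nat_lit 3190872882) (nat_lit 0) (nat_lit 12246669929) (nat_lit 1748) (nat_lit 10296885849) (nat_lit 365) (nat_lit 5) (nat_lit 364) (nat_lit 5) (nat_lit 387) (nat_lit 5) (nat_lit 326) (nat_lit 318) (nat_lit 136)) (XT.lf (nat_lit 0) (nat_lit 17116676441) (nat_lit 1672) (nat_lit 4773058470) (nat_lit 1748) (nat_lit 4247599899) (nat_lit 365) (nat_lit 5) (nat_lit 387) (nat_lit 5) (nat_lit 388) (nat_lit 5) (nat_lit 327) (nat_lit 318) (nat_lit 135))) (XT.nd (nat_lit 78) (nat_lit 0) (nat_lit 76) (XT.lf (nat_lit 76) (nat_lit 13623465989) (nat_lit 0) (nat_lit 5387506287) (nat_lit 1748) (nat_lit 7538065101) (nat_lit 366) (nat_lit 5) (nat_lit 365) (nat_lit 5) (nat_lit 388) (nat_lit 5) (nat_lit 328) (nat_lit 318) (nat_lit 134)) (XT.lf (nat_lit 76) (nat_lit 5659484608) (nat_lit 0) (nat_lit 15441878536) (nat_lit 1748) (nat_lit 5868947406) (nat_lit 367) (nat_lit 5) (nat_lit 366)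 (nat_lit 5) (nat_lit 389) (nat_lit 5) (nat_lit 329) (nat_lit 318) (nat_lit 133)))))) (XT.nd (nat_lit 468) (nat_lit 4332) (nat_lit 0) (XT.nd (nat_lit 234) (nat_lit 0) (nat_lit 0) (XT.nd (nat_lit 78) (nat_lit 1672) (nat_lit 0) (XT.lf (nat_lit 0) (nat_lit 23382730482) (nat_lit 1672) (nat_lit 2473381327) (nat_lit 1748) (nat_lit 1545549522) (nat_lit 367) (nat_lit 5) (nat_lit 389) (nat_lit 5) (nat_lit 390) (nat_lit 5) (nat_lit 330) (nat_lit 318) (nat_lit 132)) (XT.nd (nat_lit 78) (nat_lit 1672) (nat_lit 0) (XT.lf (nat_lit 76) (nat_lit 17045611891) (nat_lit 0) (nat_lit 8895745173) (nat_lit 1748) (nat_lit 1900423781) (nat_lit 368) (nat_lit 5) (nat_lit 367) (nat_lit 5) (nat_lit 390) (nat_lit 5) (nat_lit 331) (nat_lit 318) (nat_lit 131)) (XT.lf (nat_lit 0) (nat_lit 404409841) (nat_lit 1748) (nat_lit 19348342770) (nat_lit 1824) (nat_lit 8539789812) (nat_lit 345) (nat_lit 5) (nat_lit 368) (nat_lit 5) (nat_lit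 369) (nat_lit 5) (nat_lit 332) (nat_lit 318) (nat_lit 130)))) (XT.nd (nat_lit 78) (nat_lit 0) (nat_lit 76) (XT.lf (nat_lit 76) (nat_lit 600467663) (nat_lit 0) (nat_lit 2284375941) (nat_lit 1824) (nat_lit 25869090744) (nat_lit 346) (nat_lit 5) (nat_lit 345) (nat_lit 5) (nat_lit 369) (nat_lit 5) (nat_lit 333) (nat_lit 318) (nat_lit 129)) (XT.nd (nat_lit 78) (nat_lit 0) (nat_lit 76) (XT.lf (nat_lit 0) (nat_lit 5668876169) (nat_lit 1748) (nat_lit 7920777508) (nat_lit 1824) (nat_lit 15634934742) (nat_lit 346) (nat_lit 5) (nat_lit 369) (nat_lit 5) (nat_lit 370) (nat_lit 5) (nat_lit 334) (nat_lit 318) (nat_lit 128)) (XT.lf (nat_lit 0) (nat_lit 8660755077) (nat_lit 1748) (nat_lit 16665078357) (nat_lit 76) (nat_lit 4381046153) (nat_lit 347) (nat_lit 5) (nat_lit 370) (nat_lit 5) (nat_lit 348) (nat_lit 5) (nat_lit 335) (nat_lit 318) (nat_lit 127))))) (XT.nd (nat_lit 234) (nat_lit 2508) (nat_lit 0) (XT.nd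 (nat_lit 78) (nat_lit 836) (nat_lit 0) (XT.lf (nat_lit 0) (nat_lit 4503051598) (nat_lit 1140) (nat_lit 7408959336) (nat_lit 1216) (nat_lit 18288240011) (nat_lit 332) (nat_lit 5) (nat_lit 347) (nat_lit 5) (nat_lit 348) (nat_lit 5) (nat_lit 336) (nat_lit 318) (nat_lit 126)) (XT.nd (nat_lit 78) (nat_lit 836) (nat_lit 0) (XT.lf (nat_lit 0) (nat_lit 15441779857) (nat_lit 1216) (nat_lit 4248203687) (nat_lit 76) (nat_lit 11014824147) (nat_lit 332) (nat_lit 5) (nat_lit 348) (nat_lit 5) (nat_lit 333) (nat_lit 5) (nat_lit 337) (nat_lit 318) (nat_lit 125)) (XT.lf (nat_lit 0) (nat_lit 18027344372) (nat_lit 836) (nat_lit 1212404014) (nat_lit 912) (nat_lit 11981510268) (nat_lit 321) (nat_lit 5) (nat_lit 332) (nat_lit 5) (nat_lit 333) (nat_lit 5) (nat_lit 338) (nat_lit 318) (nat_lit 124)))) (XT.nd (nat_lit 156) (nat_lit 912) (nat_lit 0) (XT.nd (nat_lit 78) (nat_lit 760) (nat_lit 0) (XT.lf (nat_lit 0) (nat_lit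 9278655325) (nat_lit 836) (nat_lit 14073735176) (nat_lit 912) (nat_lit 8396801492) (nat_lit 310) (nat_lit 5) (nat_lit 321) (nat_lit 5) (nat_lit 322) (nat_lit 5) (nat_lit 339) (nat_lit 318) (nat_lit 123)) (XT.lf (nat_lit 0) (nat_lit 274627202) (nat_lit 760) (nat_lit 27440836724) (nat_lit 836) (nat_lit 4574961801) (nat_lit 300) (nat_lit 5) (nat_lit 310) (nat_lit 5) (nat_lit 311) (nat_lit 5) (nat_lit 340) (nat_lit 318) (nat_lit 122))) (XT.nd (nat_lit 78) (nat_lit 912) (nat_lit 0) (XT.lf (nat_lit 0) (nat_lit 23910564897) (nat_lit 760) (nat_lit 8540641426) (nat_lit 836) (nat_lit 391857951) (nat_lit 300) (nat_lit 5) (nat_lit 310) (nat_lit 5) (nat_lit 311) (nat_lit 5) (nat_lit 341) (nat_lit 318) (nat_lit 121)) (XT.lf (nat_lit 0) (nat_lit 4030687591) (nat_lit 912) (nat_lit 18470659872) (nat_lit 76) (nat_lit 10907122741) (nat_lit 288) (nat_lit 5) (nat_lit 300) (nat_lit 5) (nat_lit 289) (nat_lit 5) (nat_lit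 342) (nat_lit 318) (nat_lit 120))))))) (XT.nd (nat_lit 39624) (nat_lit 0) (nat_lit 760) (XT.nd (nat_lit 39078) (nat_lit 0) (nat_lit 6308) (XT.nd (nat_lit 38844) (nat_lit 0) (nat_lit 6156) (XT.nd (nat_lit 78) (nat_lit 0) (nat_lit 0) (XT.lf (nat_lit 0) (nat_lit 5667304996) (nat_lit 760) (nat_lit 3064341462) (nat_lit 836) (nat_lit 25256121918) (nat_lit 278) (nat_lit 5) (nat_lit 288) (nat_lit 5) (nat_lit 289) (nat_lit 5) (nat_lit 343) (nat_lit 318) (nat_lit 119)) (XT.nd (nat_lit 38688) (nat_lit 0) (nat_lit 6156) (XT.lf (nat_lit 0) (nat_lit 13805990494) (nat_lit 836) (nat_lit 3914395194) (nat_lit 76) (nat_lit 16859415669) (nat_lit 278) (nat_lit 5) (nat_lit 289) (nat_lit 5) (nat_lit 279) (nat_lit 5) (nat_lit 344) (nat_lit 318) (nat_lit 118)) (XT.lf (nat_lit 0) (nat_lit 4392690027) (nat_lit 1748) (nat_lit 3676828631) (nat_lit 1748) (nat_lit 3676828631) (nat_lit 359) (nat_lit 3) (nat_lit 382) (nat_lit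 3) (nat_lit 382) (nat_lit 5) (nat_lit 319) (nat_lit 319) (nat_lit 142)))) (XT.nd (nat_lit 78) (nat_lit 0) (nat_lit 76) (XT.lf (nat_lit 76) (nat_lit 8542012742) (nat_lit 0) (nat_lit 599589110) (nat_lit 1748) (nat_lit 14698841455) (nat_lit 360) (nat_lit 5) (nat_lit 359) (nat_lit 3) (nat_lit 382) (nat_lit 5) (nat_lit 320) (nat_lit 319) (nat_lit 141)) (XT.nd (nat_lit 78) (nat_lit 0) (nat_lit 76) (XT.lf (nat_lit 76) (nat_lit 723140643) (nat_lit 0) (nat_lit 8933655550) (nat_lit 1748) (nat_lit 14538868552) (nat_lit 361) (nat_lit 5) (nat_lit 360) (nat_lit 5) (nat_lit 383) (nat_lit 5) (nat_lit 321) (nat_lit 319) (nat_lit 140)) (XT.lf (nat_lit 0) (nat_lit 10335017856) (nat_lit 1672) (nat_lit 7178681135) (nat_lit 1748) (nat_lit 7044898198) (nat_lit 361) (nat_lit 5) (nat_lit 383) (nat_lit 5) (nat_lit 384) (nat_lit 5) (nat_lit 322) (nat_lit 319) (nat_lit 139))))) (XT.nd (nat_lit 234) (nat_lit 0) (nat_lit 152)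 (XT.nd (nat_lit 78) (nat_lit 0) (nat_lit 76) (XT.lf (nat_lit 76) (nat_lit 9667465579) (nat_lit 0) (nat_lit 1482410205) (nat_lit 1748) (nat_lit 13780221652) (nat_lit 362) (nat_lit 5) (nat_lit 361) (nat_lit 5) (nat_lit 384) (nat_lit 5) (nat_lit 323) (nat_lit 319) (nat_lit 138)) (XT.nd (nat_lit 78) (nat_lit 0) (nat_lit 76) (XT.lf (nat_lit 76) (nat_lit 1726584200) (nat_lit 0) (nat_lit 10414309894) (nat_lit 1748) (nat_lit 13168819764) (nat_lit 363) (nat_lit 5) (nat_lit 362) (nat_lit 5) (nat_lit 385) (nat_lit 5) (nat_lit 324) (nat_lit 319) (nat_lit 137)) (XT.lf (nat_lit 0) (nat_lit 13308963498) (nat_lit 1672) (nat_lit 6317754159) (nat_lit 1748) (nat_lit 6071060005) (nat_lit 363) (nat_lit 5) (nat_lit 385) (nat_lit 5) (nat_lit 386) (nat_lit 5) (nat_lit 325) (nat_lit 319) (nat_lit 136)))) (XT.nd (nat_lit 156) (nat_lit 0) (nat_lit 152) (XT.nd (nat_lit 78) (nat_lit 0) (nat_lit 76) (XT.lf (nat_lit 76) (nat_lit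 11543720499) (nat_lit 0) (nat_lit 3107241914) (nat_lit 1748) (nat_lit 11443748366) (nat_lit 364) (nat_lit 5) (nat_lit 363) (nat_lit 5) (nat_lit 386) (nat_lit 5) (nat_lit 326) (nat_lit 319) (nat_lit 135)) (XT.lf (nat_lit 76) (nat_lit 3476144476) (nat_lit 0) (nat_lit 12707488658) (nat_lit 1748) (nat_lit 10316915515) (nat_lit 365) (nat_lit 5) (nat_lit 364) (nat_lit 5) (nat_lit 387) (nat_lit 5) (nat_lit 327) (nat_lit 319) (nat_lit 134))) (XT.nd (nat_lit 78) (nat_lit 0) (nat_lit 0) (XT.lf (nat_lit 0) (nat_lit 17904310233) (nat_lit 1672) (nat_lit 4725896035) (nat_lit 1748) (nat_lit 4285519713) (nat_lit 365) (nat_lit 5) (nat_lit 387) (nat_lit 5) (nat_lit 388) (nat_lit 5) (nat_lit 328) (nat_lit 319) (nat_lit 133)) (XT.lf (nat_lit 76) (nat_lit 14219435887) (nat_lit 0) (nat_lit 5629230440) (nat_lit 1748) (nat_lit 7491255841) (nat_lit 366) (nat_lit 5) (nat_lit 365) (nat_lit 5) (nat_lit 388) (nat_lit 5) (nat_lit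 329) (nat_lit 319) (nat_lit 132)))))) (XT.nd (nat_lit 546) (nat_lit 4332) (nat_lit 0) (XT.nd (nat_lit 234) (nat_lit 1596) (nat_lit 0) (XT.nd (nat_lit 78) (nat_lit 0) (nat_lit 76) (XT.lf (nat_lit 76) (nat_lit 6019504215) (nat_lit 0) (nat_lit 15975207602) (nat_lit 1748) (nat_lit 5779269822) (nat_lit 367) (nat_lit 5) (nat_lit 366) (nat_lit 5) (nat_lit 389) (nat_lit 5) (nat_lit 330) (nat_lit 319) (nat_lit 131)) (XT.nd (nat_lit 78) (nat_lit 0) (nat_lit 0) (XT.lf (nat_lit 0) (nat_lit 24336496688) (nat_lit 1672) (nat_lit 2357166987) (nat_lit 1748) (nat_lit 1524776499) (nat_lit 367) (nat_lit 5) (nat_lit 389) (nat_lit 5) (nat_lit 390) (nat_lit 5) (nat_lit 331) (nat_lit 319) (nat_lit 130)) (XT.lf (nat_lit 76) (nat_lit 17744306758) (nat_lit 0) (nat_lit 9221443471) (nat_lit 1748) (nat_lit 1706142243) (nat_lit 368) (nat_lit 5) (nat_lit 367) (nat_lit 5) (nat_lit 390) (nat_lit 5) (nat_lit 332) (nat_lit 319) (nat_lit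 129)))) (XT.nd (nat_lit 156) (nat_lit 0) (nat_lit 76) (XT.nd (nat_lit 78) (nat_lit 0) (nat_lit 0) (XT.lf (nat_lit 0) (nat_lit 658184048) (nat_lit 1748) (nat_lit 19735652067) (nat_lit 1824) (nat_lit 8742441529) (nat_lit 345) (nat_lit 5) (nat_lit 368) (nat_lit 5) (nat_lit 369) (nat_lit 5) (nat_lit 333) (nat_lit 319) (nat_lit 128)) (XT.lf (nat_lit 76) (nat_lit 808489197) (nat_lit 0) (nat_lit 2398737169) (nat_lit 1824) (nat_lit 26404407115) (nat_lit 346) (nat_lit 5) (nat_lit 345) (nat_lit 5) (nat_lit 369) (nat_lit 5) (nat_lit 334) (nat_lit 319) (nat_lit 127))) (XT.nd (nat_lit 78) (nat_lit 0) (nat_lit 76) (XT.lf (nat_lit 0) (nat_lit 6067621964) (nat_lit 1748) (nat_lit 7968863008) (nat_lit 1824) (nat_lit 16060071249) (nat_lit 346) (nat_lit 5) (nat_lit 369) (nat_lit 5) (nat_lit 370) (nat_lit 5) (nat_lit 335) (nat_lit 319) (nat_lit 126)) (XT.lf (nat_lit 0) (nat_lit 9143568597) (nat_lit 1748) (nat_lit 16973674058)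 (nat_lit 76) (nat_lit 4476192958) (nat_lit 347) (nat_lit 5) (nat_lit 370) (nat_lit 5) (nat_lit 348) (nat_lit 5) (nat_lit 336) (nat_lit 319) (nat_lit 125))))) (XT.nd (nat_lit 234) (nat_lit 2508) (nat_lit 0) (XT.nd (nat_lit 78) (nat_lit 836) (nat_lit 0) (XT.lf (nat_lit 0) (nat_lit 4826395262) (nat_lit 1140) (nat_lit 7660694246) (nat_lit 1216) (nat_lit 18614629606) (nat_lit 332) (nat_lit 5) (nat_lit 347) (nat_lit 5) (nat_lit 348) (nat_lit 5) (nat_lit 337) (nat_lit 319) (nat_lit 124)) (XT.nd (nat_lit 78) (nat_lit 836) (nat_lit 0) (XT.lf (nat_lit 0) (nat_lit 16116224449) (nat_lit 1216) (nat_lit 4188287867) (nat_lit 76) (nat_lit 11317036176) (nat_lit 332) (nat_lit 5) (nat_lit 348) (nat_lit 5) (nat_lit 333) (nat_lit 5) (nat_lit 338) (nat_lit 319) (nat_lit 123)) (XT.lf (nat_lit 0) (nat_lit 18752486909) (nat_lit 836) (nat_lit 1270690666) (nat_lit 912) (nat_lit 12130419728) (nat_lit 321) (nat_lit 5) (nat_lit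 332) (nat_lit 5) (nat_lit 333) (nat_lit 5) (nat_lit 339) (nat_lit 319) (nat_lit 122)))) (XT.nd (nat_lit 156) (nat_lit 912) (nat_lit 0) (XT.nd (nat_lit 78) (nat_lit 760) (nat_lit 0) (XT.lf (nat_lit 0) (nat_lit 9742716120) (nat_lit 836) (nat_lit 14511543494) (nat_lit 912) (nat_lit 8443212894) (nat_lit 310) (nat_lit 5) (nat_lit 321) (nat_lit 5) (nat_lit 322) (nat_lit 5) (nat_lit 340) (nat_lit 319) (nat_lit 121)) (XT.lf (nat_lit 0) (nat_lit 469781173) (nat_lit 760) (nat_lit 28273696303) (nat_lit 836) (nat_lit 4511565664) (nat_lit 300) (nat_lit 5) (nat_lit 310) (nat_lit 5) (nat_lit 311) (nat_lit 5) (nat_lit 341) (nat_lit 319) (nat_lit 120))) (XT.nd (nat_lit 78) (nat_lit 912) (nat_lit 0) (XT.lf (nat_lit 0) (nat_lit 24809352868) (nat_lit 760) (nat_lit 8806214530) (nat_lit 836) (nat_lit 208812728) (nat_lit 300) (nat_lit 5) (nat_lit 310) (nat_lit 5) (nat_lit 311) (nat_lit 5) (nat_lit 342) (nat_lit 319)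 (nat_lit 119)) (XT.lf (nat_lit 0) (nat_lit 4339388322) (nat_lit 912) (nat_lit 18839634090) (nat_lit 76) (nat_lit 11227794404) (nat_lit 288) (nat_lit 5) (nat_lit 300) (nat_lit 5) (nat_lit 289) (nat_lit 5) (nat_lit 343) (nat_lit 319) (nat_lit 118))))))))
noncomputable def xc125 : XT := (XT.nd (nat_lit 40950) (nat_lit 0) (nat_lit 760) (XT.nd (nat_lit 1014) (nat_lit 4484) (nat_lit 0) (XT.nd (nat_lit 468) (nat_lit 0) (nat_lit 304) (XT.nd (nat_lit 234) (nat_lit 0) (nat_lit 152) (XT.nd (nat_lit 78) (nat_lit 0) (nat_lit 0) (XT.lf (nat_lit 0) (nat_lit 4691827067) (nat_lit 1748) (nat_lit 3701706057) (nat_lit 1748) (nat_lit 3701706057) (nat_lit 359) (nat_lit 3) (nat_lit 382) (nat_lit 3) (nat_lit 382) (nat_lit 5) (nat_lit 320) (nat_lit 320) (nat_lit 140)) (XT.nd (nat_lit 78) (nat_lit 0) (nat_lit 76) (XT.lf (nat_lit 76) (nat_lit 8966356073) (nat_lit 0) (nat_lit 775548907) (nat_lit 1748) (nat_lit 14806936545)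 (nat_lit 360) (nat_lit 5) (nat_lit 359) (nat_lit 3) (nat_lit 382) (nat_lit 5) (nat_lit 321) (nat_lit 320) (nat_lit 139)) (XT.lf (nat_lit 76) (nat_lit 917904400) (nat_lit 0) (nat_lit 9345281897) (nat_lit 1748) (nat_lit 14651729248) (nat_lit 361) (nat_lit 5) (nat_lit 360) (nat_lit 5) (nat_lit 383) (nat_lit 5) (nat_lit 322) (nat_lit 320) (nat_lit 138)))) (XT.nd (nat_lit 78) (nat_lit 0) (nat_lit 0) (XT.lf (nat_lit 0) (nat_lit 10951625444) (nat_lit 1672) (nat_lit 7218681244) (nat_lit 1748) (nat_lit 7118640171) (nat_lit 361) (nat_lit 5) (nat_lit 383) (nat_lit 5) (nat_lit 384) (nat_lit 5) (nat_lit 323) (nat_lit 320) (nat_lit 137)) (XT.nd (nat_lit 78) (nat_lit 0) (nat_lit 76) (XT.lf (nat_lit 76) (nat_lit 10130004858) (nat_lit 0) (nat_lit 1653115489) (nat_lit 1748) (nat_lit 13888636012) (nat_lit 362) (nat_lit 5) (nat_lit 361) (nat_lit 5) (nat_lit 384) (nat_lit 5) (nat_lit 324) (nat_lit 320) (nat_lit 136))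 (XT.lf (nat_lit 76) (nat_lit 1955047171) (nat_lit 0) (nat_lit 10840471941) (nat_lit 1748) (nat_lit 13267416999) (nat_lit 363) (nat_lit 5) (nat_lit 362) (nat_lit 5) (nat_lit 385) (nat_lit 5) (nat_lit 325) (nat_lit 320) (nat_lit 135))))) (XT.nd (nat_lit 234) (nat_lit 0) (nat_lit 152) (XT.nd (nat_lit 78) (nat_lit 0) (nat_lit 0) (XT.lf (nat_lit 0) (nat_lit 13989455478) (nat_lit 1672) (nat_lit 6329157624) (nat_lit 1748) (nat_lit 6144219839) (nat_lit 363) (nat_lit 5) (nat_lit 385) (nat_lit 5) (nat_lit 386) (nat_lit 5) (nat_lit 326) (nat_lit 320) (nat_lit 134)) (XT.nd (nat_lit 78) (nat_lit 0) (nat_lit 76) (XT.lf (nat_lit 76) (nat_lit 12065271341) (nat_lit 0) (nat_lit 3299389826) (nat_lit 1748) (nat_lit 11507161334) (nat_lit 364) (nat_lit 5) (nat_lit 363) (nat_lit 5) (nat_lit 386) (nat_lit 5) (nat_lit 327) (nat_lit 320) (nat_lit 133)) (XT.lf (nat_lit 76) (nat_lit 3759093537) (nat_lit 0) (nat_lit 13176769337)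 (nat_lit 1748) (nat_lit 10354128787) (nat_lit 365) (nat_lit 5) (nat_lit 364) (nat_lit 5) (nat_lit 387) (nat_lit 5) (nat_lit 328) (nat_lit 320) (nat_lit 132)))) (XT.nd (nat_lit 156) (nat_lit 0) (nat_lit 76) (XT.nd (nat_lit 78) (nat_lit 0) (nat_lit 0) (XT.lf (nat_lit 0) (nat_lit 18699836653) (nat_lit 1672) (nat_lit 4688245836) (nat_lit 1748) (nat_lit 4329715257) (nat_lit 365) (nat_lit 5) (nat_lit 387) (nat_lit 5) (nat_lit 388) (nat_lit 5) (nat_lit 329) (nat_lit 320) (nat_lit 131)) (XT.lf (nat_lit 76) (nat_lit 14822535052) (nat_lit 0) (nat_lit 5873608308) (nat_lit 1748) (nat_lit 7458710820) (nat_lit 366) (nat_lit 5) (nat_lit 365) (nat_lit 5) (nat_lit 388) (nat_lit 5) (nat_lit 330) (nat_lit 320) (nat_lit 130))) (XT.nd (nat_lit 78) (nat_lit 0) (nat_lit 76) (XT.lf (nat_lit 76) (nat_lit 6379404139) (nat_lit 0) (nat_lit 16520514081) (nat_lit 1748) (nat_lit 5702156819) (nat_lit 367) (nat_lit 5) (nat_lit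 366) (nat_lit 5) (nat_lit 389) (nat_lit 5) (nat_lit 331) (nat_lit 320) (nat_lit 129)) (XT.lf (nat_lit 0) (nat_lit 25304393730) (nat_lit 1672) (nat_lit 2248396861) (nat_lit 1748) (nat_lit 1507234368) (nat_lit 367) (nat_lit 5) (nat_lit 389) (nat_lit 5) (nat_lit 390) (nat_lit 5) (nat_lit 332) (nat_lit 320) (nat_lit 128)))))) (XT.nd (nat_lit 468) (nat_lit 2432) (nat_lit 0) (XT.nd (nat_lit 234) (nat_lit 988) (nat_lit 0) (XT.nd (nat_lit 78) (nat_lit 1672) (nat_lit 0) (XT.lf (nat_lit 76) (nat_lit 18453209163) (nat_lit 0) (nat_lit 9553535869) (nat_lit 1748) (nat_lit 1520457577) (nat_lit 368) (nat_lit 5) (nat_lit 367) (nat_lit 5) (nat_lit 390) (nat_lit 5) (nat_lit 333) (nat_lit 320) (nat_lit 127)) (XT.nd (nat_lit 78) (nat_lit 0) (nat_lit 0) (XT.lf (nat_lit 0) (nat_lit 905700248) (nat_lit 1748) (nat_lit 20145667725) (nat_lit 1824) (nat_lit 8954246325) (nat_lit 345) (nat_lit 5) (nat_lit 368) (nat_lit 5) (nat_lit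 369) (nat_lit 5) (nat_lit 334) (nat_lit 320) (nat_lit 126)) (XT.lf (nat_lit 76) (nat_lit 1011844168) (nat_lit 0) (nat_lit 2513898407) (nat_lit 1824) (nat_lit 26969603377) (nat_lit 346) (nat_lit 5) (nat_lit 345) (nat_lit 5) (nat_lit 369) (nat_lit 5) (nat_lit 335) (nat_lit 320) (nat_lit 125)))) (XT.nd (nat_lit 78) (nat_lit 1064) (nat_lit 0) (XT.lf (nat_lit 0) (nat_lit 6465202993) (nat_lit 1748) (nat_lit 8029271320) (nat_lit 1824) (nat_lit 16500482552) (nat_lit 346) (nat_lit 5) (nat_lit 369) (nat_lit 5) (nat_lit 370) (nat_lit 5) (nat_lit 336) (nat_lit 320) (nat_lit 124)) (XT.nd (nat_lit 78) (nat_lit 1140) (nat_lit 0) (XT.lf (nat_lit 0) (nat_lit 9628065934) (nat_lit 1748) (nat_lit 17302512284) (nat_lit 76) (nat_lit 4576277051) (nat_lit 347) (nat_lit 5) (nat_lit 370) (nat_lit 5) (nat_lit 348) (nat_lit 5) (nat_lit 337) (nat_lit 320) (nat_lit 123)) (XT.lf (nat_lit 0) (nat_lit 5148632793) (nat_lit 1140)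 (nat_lit 7918289727) (nat_lit 1216) (nat_lit 18963569385) (nat_lit 332) (nat_lit 5) (nat_lit 347) (nat_lit 5) (nat_lit 348) (nat_lit 5) (nat_lit 338) (nat_lit 320) (nat_lit 122))))) (XT.nd (nat_lit 234) (nat_lit 760) (nat_lit 0) (XT.nd (nat_lit 78) (nat_lit 1672) (nat_lit 0) (XT.lf (nat_lit 0) (nat_lit 16798779139) (nat_lit 1216) (nat_lit 4137329913) (nat_lit 76) (nat_lit 11629935238) (nat_lit 332) (nat_lit 5) (nat_lit 348) (nat_lit 5) (nat_lit 333) (nat_lit 5) (nat_lit 339) (nat_lit 320) (nat_lit 121)) (XT.nd (nat_lit 78) (nat_lit 836) (nat_lit 0) (XT.lf (nat_lit 0) (nat_lit 19488802874) (nat_lit 836) (nat_lit 1329467934) (nat_lit 912) (nat_lit 12295882091) (nat_lit 321) (nat_lit 5) (nat_lit 332) (nat_lit 5) (nat_lit 333) (nat_lit 5) (nat_lit 340) (nat_lit 320) (nat_lit 120)) (XT.lf (nat_lit 0) (nat_lit 10210038734) (nat_lit 836) (nat_lit 14961590773) (nat_lit 912) (nat_lit 8502812757) (nat_lit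 310) (nat_lit 5) (nat_lit 321) (nat_lit 5) (nat_lit 322) (nat_lit 5) (nat_lit 341) (nat_lit 320) (nat_lit 119)))) (XT.nd (nat_lit 39078) (nat_lit 0) (nat_lit 4484) (XT.nd (nat_lit 39000) (nat_lit 0) (nat_lit 4484) (XT.lf (nat_lit 0) (nat_lit 660060069) (nat_lit 760) (nat_lit 29130988611) (nat_lit 836) (nat_lit 4457785487) (nat_lit 300) (nat_lit 5) (nat_lit 310) (nat_lit 5) (nat_lit 311) (nat_lit 5) (nat_lit 342) (nat_lit 320) (nat_lit 118)) (XT.lf (nat_lit 0) (nat_lit 4990331280) (nat_lit 1748) (nat_lit 3732233690) (nat_lit 1748) (nat_lit 3732233690) (nat_lit 359) (nat_lit 3) (nat_lit 382) (nat_lit 3) (nat_lit 382) (nat_lit 5) (nat_lit 321) (nat_lit 321) (nat_lit 138))) (XT.nd (nat_lit 78) (nat_lit 0) (nat_lit 76) (XT.lf (nat_lit 76) (nat_lit 9393781056) (nat_lit 0) (nat_lit 947719251) (nat_lit 1748) (nat_lit 14937382596) (nat_lit 360) (nat_lit 5) (nat_lit 359) (nat_lit 3) (nat_lit 382) (nat_lit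 5) (nat_lit 322) (nat_lit 321) (nat_lit 137)) (XT.lf (nat_lit 76) (nat_lit 1108576170) (nat_lit 0) (nat_lit 9761012850) (nat_lit 1748) (nat_lit 14786534815) (nat_lit 361) (nat_lit 5) (nat_lit 360) (nat_lit 5) (nat_lit 383) (nat_lit 5) (nat_lit 323) (nat_lit 321) (nat_lit 136))))))) (XT.nd (nat_lit 1014) (nat_lit 2660) (nat_lit 0) (XT.nd (nat_lit 468) (nat_lit 1216) (nat_lit 0) (XT.nd (nat_lit 234) (nat_lit 0) (nat_lit 152) (XT.nd (nat_lit 78) (nat_lit 0) (nat_lit 0) (XT.lf (nat_lit 0) (nat_lit 11569133630) (nat_lit 1672) (nat_lit 7269947756) (nat_lit 1748) (nat_lit 7202493491) (nat_lit 361) (nat_lit 5) (nat_lit 383) (nat_lit 5) (nat_lit 384) (nat_lit 5) (nat_lit 324) (nat_lit 321) (nat_lit 135)) (XT.nd (nat_lit 78) (nat_lit 0) (nat_lit 76) (XT.lf (nat_lit 76) (nat_lit 10596517231) (nat_lit 0) (nat_lit 1821695643) (nat_lit 1748) (nat_lit 14017810608) (nat_lit 362) (nat_lit 5) (nat_lit 361) (nat_lit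 5) (nat_lit 384) (nat_lit 5) (nat_lit 325) (nat_lit 321) (nat_lit 134)) (XT.lf (nat_lit 76) (nat_lit 2180222713) (nat_lit 0) (nat_lit 11272890125) (nat_lit 1748) (nat_lit 13385990591) (nat_lit 363) (nat_lit 5) (nat_lit 362) (nat_lit 5) (nat_lit 385) (nat_lit 5) (nat_lit 326) (nat_lit 321) (nat_lit 133)))) (XT.nd (nat_lit 78) (nat_lit 0) (nat_lit 0) (XT.lf (nat_lit 0) (nat_lit 14674218863) (nat_lit 1672) (nat_lit 6351128534) (nat_lit 1748) (nat_lit 6225829905) (nat_lit 363) (nat_lit 5) (nat_lit 385) (nat_lit 5) (nat_lit 386) (nat_lit 5) (nat_lit 327) (nat_lit 321) (nat_lit 132)) (XT.nd (nat_lit 78) (nat_lit 0) (nat_lit 76) (XT.lf (nat_lit 76) (nat_lit 12592409259) (nat_lit 0) (nat_lit 3491623151) (nat_lit 1748) (nat_lit 11588544067) (nat_lit 364) (nat_lit 5) (nat_lit 363) (nat_lit 5) (nat_lit 386) (nat_lit 5) (nat_lit 328) (nat_lit 321) (nat_lit 131)) (XT.lf (nat_lit 76) (nat_lit 4040274983) (nat_lit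 0) (nat_lit 13655073660) (nat_lit 1748) (nat_lit 10408089258) (nat_lit 365) (nat_lit 5) (nat_lit 364) (nat_lit 5) (nat_lit 387) (nat_lit 5) (nat_lit 329) (nat_lit 321) (nat_lit 130))))) (XT.nd (nat_lit 234) (nat_lit 1520) (nat_lit 0) (XT.nd (nat_lit 78) (nat_lit 0) (nat_lit 0) (XT.lf (nat_lit 0) (nat_lit 19504395816) (nat_lit 1672) (nat_lit 4659765980) (nat_lit 1748) (nat_lit 4380079853) (nat_lit 365) (nat_lit 5) (nat_lit 387) (nat_lit 5) (nat_lit 388) (nat_lit 5) (nat_lit 330) (nat_lit 321) (nat_lit 129)) (XT.nd (nat_lit 78) (nat_lit 0) (nat_lit 76) (XT.lf (nat_lit 76) (nat_lit 15433594447) (nat_lit 0) (nat_lit 6120983449) (nat_lit 1748) (nat_lit 7439958528) (nat_lit 366) (nat_lit 5) (nat_lit 365) (nat_lit 5) (nat_lit 388) (nat_lit 5) (nat_lit 331) (nat_lit 321) (nat_lit 128)) (XT.lf (nat_lit 76) (nat_lit 6739807657) (nat_lit 0) (nat_lit 17078388199) (nat_lit 1748) (nat_lit 5637109640) (nat_lit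 367) (nat_lit 5) (nat_lit 366) (nat_lit 5) (nat_lit 389) (nat_lit 5) (nat_lit 332) (nat_lit 321) (nat_lit 127)))) (XT.nd (nat_lit 156) (nat_lit 1672) (nat_lit 0) (XT.nd (nat_lit 78) (nat_lit 0) (nat_lit 0) (XT.lf (nat_lit 0) (nat_lit 26287676868) (nat_lit 1672) (nat_lit 2146666812) (nat_lit 1748) (nat_lit 1492798814) (nat_lit 367) (nat_lit 5) (nat_lit 389) (nat_lit 5) (nat_lit 390) (nat_lit 5) (nat_lit 333) (nat_lit 321) (nat_lit 126)) (XT.lf (nat_lit 76) (nat_lit 19173242616) (nat_lit 0) (nat_lit 9892408034) (nat_lit 1748) (nat_lit 1342799616) (nat_lit 368) (nat_lit 5) (nat_lit 367) (nat_lit 5) (nat_lit 390) (nat_lit 5) (nat_lit 334) (nat_lit 321) (nat_lit 125))) (XT.nd (nat_lit 78) (nat_lit 0) (nat_lit 0) (XT.lf (nat_lit 0) (nat_lit 1147566965) (nat_lit 1748) (nat_lit 20578434492) (nat_lit 1824) (nat_lit 9175302361) (nat_lit 345) (nat_lit 5) (nat_lit 368) (nat_lit 5) (nat_lit 369) (nat_lit 5)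 (nat_lit 335) (nat_lit 321) (nat_lit 124)) (XT.lf (nat_lit 76) (nat_lit 1211018699) (nat_lit 0) (nat_lit 2630034677) (nat_lit 1824) (nat_lit 27564782578) (nat_lit 346) (nat_lit 5) (nat_lit 345) (nat_lit 5) (nat_lit 369) (nat_lit 5) (nat_lit 336) (nat_lit 321) (nat_lit 123)))))) (XT.nd (nat_lit 39546) (nat_lit 0) (nat_lit 3724) (XT.nd (nat_lit 234) (nat_lit 1672) (nat_lit 0) (XT.nd (nat_lit 78) (nat_lit 1064) (nat_lit 0) (XT.lf (nat_lit 0) (nat_lit 6862337865) (nat_lit 1748) (nat_lit 8101747557) (nat_lit 1824) (nat_lit 16956482198) (nat_lit 346) (nat_lit 5) (nat_lit 369) (nat_lit 5) (nat_lit 370) (nat_lit 5) (nat_lit 337) (nat_lit 321) (nat_lit 122)) (XT.nd (nat_lit 78) (nat_lit 1140) (nat_lit 0) (XT.lf (nat_lit 0) (nat_lit 10115032409) (nat_lit 1748) (nat_lit 17651569748) (nat_lit 76) (nat_lit 4681326983) (nat_lit 347) (nat_lit 5) (nat_lit 370) (nat_lit 5) (nat_lit 348) (nat_lit 5) (nat_lit 338)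 (nat_lit 321) (nat_lit 121)) (XT.lf (nat_lit 0) (nat_lit 5470351344) (nat_lit 1140) (nat_lit 8182018693) (nat_lit 1216) (nat_lit 19335003464) (nat_lit 332) (nat_lit 5) (nat_lit 347) (nat_lit 5) (nat_lit 348) (nat_lit 5) (nat_lit 339) (nat_lit 321) (nat_lit 120)))) (XT.nd (nat_lit 156) (nat_lit 836) (nat_lit 0) (XT.nd (nat_lit 78) (nat_lit 836) (nat_lit 0) (XT.lf (nat_lit 0) (nat_lit 17490383155) (nat_lit 1216) (nat_lit 4094981162) (nat_lit 76) (nat_lit 11953748911) (nat_lit 332) (nat_lit 5) (nat_lit 348) (nat_lit 5) (nat_lit 333) (nat_lit 5) (nat_lit 340) (nat_lit 321) (nat_lit 119)) (XT.lf (nat_lit 0) (nat_lit 20237234853) (nat_lit 836) (nat_lit 1388822749) (nat_lit 912) (nat_lit 12477700180) (nat_lit 321) (nat_lit 5) (nat_lit 332) (nat_lit 5) (nat_lit 333) (nat_lit 5) (nat_lit 341) (nat_lit 321) (nat_lit 118))) (XT.nd (nat_lit 39078) (nat_lit 0) (nat_lit 3724) (XT.lf (nat_lit 0) (nat_lit 10681332949)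 (nat_lit 836) (nat_lit 15424295574) (nat_lit 912) (nat_lit 8575319588) (nat_lit 310) (nat_lit 5) (nat_lit 321) (nat_lit 5) (nat_lit 322) (nat_lit 5) (nat_lit 342) (nat_lit 321) (nat_lit 117)) (XT.lf (nat_lit 0) (nat_lit 5288735159) (nat_lit 1748) (nat_lit 3768299533) (nat_lit 1748) (nat_lit 3768299533) (nat_lit 359) (nat_lit 3) (nat_lit 382) (nat_lit 3) (nat_lit 382) (nat_lit 5) (nat_lit 322) (nat_lit 322) (nat_lit 136))))) (XT.nd (nat_lit 234) (nat_lit 0) (nat_lit 152) (XT.nd (nat_lit 78) (nat_lit 0) (nat_lit 76) (XT.lf (nat_lit 76) (nat_lit 9824934011) (nat_lit 0) (nat_lit 1116507014) (nat_lit 1748) (nat_lit 15089753254) (nat_lit 360) (nat_lit 5) (nat_lit 359) (nat_lit 3) (nat_lit 382) (nat_lit 5) (nat_lit 323) (nat_lit 322) (nat_lit 135)) (XT.nd (nat_lit 78) (nat_lit 0) (nat_lit 76) (XT.lf (nat_lit 76) (nat_lit 1295603498) (nat_lit 0) (nat_lit 10181444796) (nat_lit 1748) (nat_lit 14942878234)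 (nat_lit 361) (nat_lit 5) (nat_lit 360) (nat_lit 5) (nat_lit 383) (nat_lit 5) (nat_lit 324) (nat_lit 322) (nat_lit 134)) (XT.lf (nat_lit 0) (nat_lit 12188579609) (nat_lit 1672) (nat_lit 7332240812) (nat_lit 1748) (nat_lit 7296308060) (nat_lit 361) (nat_lit 5) (nat_lit 383) (nat_lit 5) (nat_lit 384) (nat_lit 5) (nat_lit 325) (nat_lit 322) (nat_lit 133)))) (XT.nd (nat_lit 156) (nat_lit 0) (nat_lit 152) (XT.nd (nat_lit 78) (nat_lit 0) (nat_lit 76) (XT.lf (nat_lit 76) (nat_lit 11067690368) (nat_lit 0) (nat_lit 1988502878) (nat_lit 1748) (nat_lit 14167363228) (nat_lit 362) (nat_lit 5) (nat_lit 361) (nat_lit 5) (nat_lit 384) (nat_lit 5) (nat_lit 326) (nat_lit 322) (nat_lit 132)) (XT.lf (nat_lit 76) (nat_lit 2402594354) (nat_lit 0) (nat_lit 11712126905) (nat_lit 1748) (nat_lit 13524162901) (nat_lit 363) (nat_lit 5) (nat_lit 362) (nat_lit 5) (nat_lit 385) (nat_lit 5) (nat_lit 327) (nat_lit 322) (nat_lit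 131))) (XT.nd (nat_lit 78) (nat_lit 0) (nat_lit 0) (XT.lf (nat_lit 0) (nat_lit 15364308488) (nat_lit 1672) (nat_lit 6383396938) (nat_lit 1748) (nat_lit 6315784621) (nat_lit 363) (nat_lit 5) (nat_lit 385) (nat_lit 5) (nat_lit 386) (nat_lit 5) (nat_lit 328) (nat_lit 322) (nat_lit 130)) (XT.lf (nat_lit 76) (nat_lit 13125879320) (nat_lit 0) (nat_lit 3684270451) (nat_lit 1748) (nat_lit 11687513324) (nat_lit 364) (nat_lit 5) (nat_lit 363) (nat_lit 5) (nat_lit 386) (nat_lit 5) (nat_lit 329) (nat_lit 322) (nat_lit 129))))))))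
noncomputable def xc126 : XT := (XT.nd (nat_lit 41184) (nat_lit 0) (nat_lit 988) (XT.nd (nat_lit 40170) (nat_lit 0) (nat_lit 2052) (XT.nd (nat_lit 468) (nat_lit 2432) (nat_lit 0) (XT.nd (nat_lit 234) (nat_lit 0) (nat_lit 152) (XT.nd (nat_lit 78) (nat_lit 0) (nat_lit 76) (XT.lf (nat_lit 76) (nat_lit 4320224528) (nat_lit 0) (nat_lit 14142962503) (nat_lit 1748) (nat_lit 10478402072) (nat_lit 365) (nat_lit 5) (nat_lit 364) (nat_lit 5) (nat_lit 387) (nat_lit 5) (nat_lit 330) (nat_lit 322) (nat_lit 128)) (XT.nd (nat_lit 78) (nat_lit 0) (nat_lit 0) (XT.lf (nat_lit 0) (nat_lit 20319110179) (nat_lit 1672) (nat_lit 4640140323) (nat_lit 1748) (nat_lit 4436520555) (nat_lit 365) (nat_lit 5) (nat_lit 387) (nat_lit 5) (nat_lit 388) (nat_lit 5) (nat_lit 331) (nat_lit 322) (nat_lit 127)) (XT.lf (nat_lit 76) (nat_lit 16053434539) (nat_lit 0) (nat_lit 6371694573) (nat_lit 1748) (nat_lit 7434564940) (nat_lit 366)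 (nat_lit 5) (nat_lit 365) (nat_lit 5) (nat_lit 388) (nat_lit 5) (nat_lit 332) (nat_lit 322) (nat_lit 126)))) (XT.nd (nat_lit 78) (nat_lit 0) (nat_lit 76) (XT.lf (nat_lit 76) (nat_lit 7101320762) (nat_lit 0) (nat_lit 17649424637) (nat_lit 1748) (nat_lit 5583664833) (nat_lit 367) (nat_lit 5) (nat_lit 366) (nat_lit 5) (nat_lit 389) (nat_lit 5) (nat_lit 333) (nat_lit 322) (nat_lit 125)) (XT.nd (nat_lit 78) (nat_lit 0) (nat_lit 0) (XT.lf (nat_lit 0) (nat_lit 27287591297) (nat_lit 1672) (nat_lit 2051596599) (nat_lit 1748) (nat_lit 1481354497) (nat_lit 367) (nat_lit 5) (nat_lit 389) (nat_lit 5) (nat_lit 390) (nat_lit 5) (nat_lit 334) (nat_lit 322) (nat_lit 124)) (XT.lf (nat_lit 76) (nat_lit 19905322898) (nat_lit 0) (nat_lit 10238446076) (nat_lit 1748) (nat_lit 1172628625) (nat_lit 368) (nat_lit 5) (nat_lit 367) (nat_lit 5) (nat_lit 390) (nat_lit 5) (nat_lit 335) (nat_lit 322) (nat_lit 123))))) (XT.nd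 (nat_lit 234) (nat_lit 988) (nat_lit 0) (XT.nd (nat_lit 78) (nat_lit 0) (nat_lit 0) (XT.lf (nat_lit 0) (nat_lit 1384365272) (nat_lit 1748) (nat_lit 21034034991) (nat_lit 1824) (nat_lit 9405720869) (nat_lit 345) (nat_lit 5) (nat_lit 368) (nat_lit 5) (nat_lit 369) (nat_lit 5) (nat_lit 336) (nat_lit 322) (nat_lit 122)) (XT.nd (nat_lit 78) (nat_lit 0) (nat_lit 76) (XT.lf (nat_lit 76) (nat_lit 1406477553) (nat_lit 0) (nat_lit 2747317578) (nat_lit 1824) (nat_lit 28190096402) (nat_lit 346) (nat_lit 5) (nat_lit 345) (nat_lit 5) (nat_lit 369) (nat_lit 5) (nat_lit 337) (nat_lit 322) (nat_lit 121)) (XT.lf (nat_lit 0) (nat_lit 7259723490) (nat_lit 1748) (nat_lit 8186065039) (nat_lit 1824) (nat_lit 17428401444) (nat_lit 346) (nat_lit 5) (nat_lit 369) (nat_lit 5) (nat_lit 370) (nat_lit 5) (nat_lit 338) (nat_lit 322) (nat_lit 120)))) (XT.nd (nat_lit 156) (nat_lit 0) (nat_lit 0) (XT.nd (nat_lit 78) (nat_lit 1140)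 (nat_lit 0) (XT.lf (nat_lit 0) (nat_lit 10605234722) (nat_lit 1748) (nat_lit 18020858659) (nat_lit 76) (nat_lit 4791379029) (nat_lit 347) (nat_lit 5) (nat_lit 370) (nat_lit 5) (nat_lit 348) (nat_lit 5) (nat_lit 339) (nat_lit 322) (nat_lit 119)) (XT.lf (nat_lit 0) (nat_lit 5792120067) (nat_lit 1140) (nat_lit 8452156674) (nat_lit 1216) (nat_lit 19728916322) (nat_lit 332) (nat_lit 5) (nat_lit 347) (nat_lit 5) (nat_lit 348) (nat_lit 5) (nat_lit 340) (nat_lit 322) (nat_lit 118))) (XT.nd (nat_lit 39234) (nat_lit 0) (nat_lit 2052) (XT.lf (nat_lit 0) (nat_lit 18191963952) (nat_lit 1216) (nat_lit 4060917929) (nat_lit 76) (nat_lit 12288716941) (nat_lit 332) (nat_lit 5) (nat_lit 348) (nat_lit 5) (nat_lit 333) (nat_lit 5) (nat_lit 341) (nat_lit 322) (nat_lit 117)) (XT.lf (nat_lit 0) (nat_lit 5587555513) (nat_lit 1748) (nat_lit 3809804388) (nat_lit 1748) (nat_lit 3809804388) (nat_lit 359) (nat_lit 3) (nat_lit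 382) (nat_lit 3) (nat_lit 382) (nat_lit 5) (nat_lit 323) (nat_lit 323) (nat_lit 134)))))) (XT.nd (nat_lit 468) (nat_lit 0) (nat_lit 304) (XT.nd (nat_lit 234) (nat_lit 0) (nat_lit 152) (XT.nd (nat_lit 78) (nat_lit 0) (nat_lit 76) (XT.lf (nat_lit 76) (nat_lit 10260448854) (nat_lit 0) (nat_lit 1282301390) (nat_lit 1748) (nat_lit 15263672338) (nat_lit 360) (nat_lit 5) (nat_lit 359) (nat_lit 3) (nat_lit 382) (nat_lit 5) (nat_lit 324) (nat_lit 323) (nat_lit 133)) (XT.nd (nat_lit 78) (nat_lit 0) (nat_lit 76) (XT.lf (nat_lit 76) (nat_lit 1479414616) (nat_lit 0) (nat_lit 10607164849) (nat_lit 1748) (nat_lit 15120401432) (nat_lit 361) (nat_lit 5) (nat_lit 360) (nat_lit 5) (nat_lit 383) (nat_lit 5) (nat_lit 325) (nat_lit 323) (nat_lit 132)) (XT.lf (nat_lit 0) (nat_lit 12810973702) (nat_lit 1672) (nat_lit 7405346525) (nat_lit 1748) (nat_lit 7399955303) (nat_lit 361) (nat_lit 5) (nat_lit 383) (nat_lit 5) (nat_lit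 384) (nat_lit 5) (nat_lit 326) (nat_lit 323) (nat_lit 131)))) (XT.nd (nat_lit 78) (nat_lit 0) (nat_lit 76) (XT.lf (nat_lit 76) (nat_lit 11544199937) (nat_lit 0) (nat_lit 2153876096) (nat_lit 1748) (nat_lit 14336957884) (nat_lit 362) (nat_lit 5) (nat_lit 361) (nat_lit 5) (nat_lit 384) (nat_lit 5) (nat_lit 327) (nat_lit 323) (nat_lit 130)) (XT.nd (nat_lit 78) (nat_lit 0) (nat_lit 76) (XT.lf (nat_lit 76) (nat_lit 2622626714) (nat_lit 0) (nat_lit 12158740100) (nat_lit 1748) (nat_lit 13681601044) (nat_lit 363) (nat_lit 5) (nat_lit 362) (nat_lit 5) (nat_lit 385) (nat_lit 5) (nat_lit 328) (nat_lit 323) (nat_lit 129)) (XT.lf (nat_lit 0) (nat_lit 16060757641) (nat_lit 1672) (nat_lit 6425718479) (nat_lit 1748) (nat_lit 6413995854) (nat_lit 363) (nat_lit 5) (nat_lit 385) (nat_lit 5) (nat_lit 386) (nat_lit 5) (nat_lit 329) (nat_lit 323) (nat_lit 128))))) (XT.nd (nat_lit 234) (nat_lit 0) (nat_lit 152) (XT.nd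 (nat_lit 78) (nat_lit 0) (nat_lit 76) (XT.lf (nat_lit 76) (nat_lit 13666415793) (nat_lit 0) (nat_lit 3877651430) (nat_lit 1748) (nat_lit 11803727314) (nat_lit 364) (nat_lit 5) (nat_lit 363) (nat_lit 5) (nat_lit 386) (nat_lit 5) (nat_lit 330) (nat_lit 323) (nat_lit 127)) (XT.nd (nat_lit 78) (nat_lit 0) (nat_lit 76) (XT.lf (nat_lit 76) (nat_lit 4599460159) (nat_lit 0) (nat_lit 14640996907) (nat_lit 1748) (nat_lit 10564712034) (nat_lit 365) (nat_lit 5) (nat_lit 364) (nat_lit 5) (nat_lit 387) (nat_lit 5) (nat_lit 331) (nat_lit 323) (nat_lit 126)) (XT.lf (nat_lit 0) (nat_lit 21145086999) (nat_lit 1672) (nat_lit 4629077178) (nat_lit 1748) (nat_lit 4498957585) (nat_lit 365) (nat_lit 5) (nat_lit 387) (nat_lit 5) (nat_lit 388) (nat_lit 5) (nat_lit 332) (nat_lit 323) (nat_lit 125)))) (XT.nd (nat_lit 156) (nat_lit 0) (nat_lit 152) (XT.nd (nat_lit 78) (nat_lit 0) (nat_lit 76) (XT.lf (nat_lit 76) (nat_lit 16682867020)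 (nat_lit 0) (nat_lit 6626076272) (nat_lit 1748) (nat_lit 7442131681) (nat_lit 366) (nat_lit 5) (nat_lit 365) (nat_lit 5) (nat_lit 388) (nat_lit 5) (nat_lit 333) (nat_lit 323) (nat_lit 124)) (XT.lf (nat_lit 76) (nat_lit 7464533705) (nat_lit 0) (nat_lit 18234223421) (nat_lit 1748) (nat_lit 5541392428) (nat_lit 367) (nat_lit 5) (nat_lit 366) (nat_lit 5) (nat_lit 389) (nat_lit 5) (nat_lit 334) (nat_lit 323) (nat_lit 123))) (XT.nd (nat_lit 78) (nat_lit 0) (nat_lit 0) (XT.lf (nat_lit 0) (nat_lit 28305374585) (nat_lit 1672) (nat_lit 1962828522) (nat_lit 1748) (nat_lit 1472794584) (nat_lit 367) (nat_lit 5) (nat_lit 389) (nat_lit 5) (nat_lit 390) (nat_lit 5) (nat_lit 335) (nat_lit 323) (nat_lit 122)) (XT.lf (nat_lit 76) (nat_lit 20650359862) (nat_lit 0) (nat_lit 10592037202) (nat_lit 1748) (nat_lit 1009433481) (nat_lit 368) (nat_lit 5) (nat_lit 367) (nat_lit 5) (nat_lit 390) (nat_lit 5) (nat_lit 336) (nat_lit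 323) (nat_lit 121))))))) (XT.nd (nat_lit 40404) (nat_lit 0) (nat_lit 0) (XT.nd (nat_lit 39858) (nat_lit 0) (nat_lit 1216) (XT.nd (nat_lit 39624) (nat_lit 0) (nat_lit 1064) (XT.nd (nat_lit 78) (nat_lit 0) (nat_lit 0) (XT.lf (nat_lit 0) (nat_lit 1616650587) (nat_lit 1748) (nat_lit 21512588763) (nat_lit 1824) (nat_lit 9645625963) (nat_lit 345) (nat_lit 5) (nat_lit 368) (nat_lit 5) (nat_lit 369) (nat_lit 5) (nat_lit 337) (nat_lit 323) (nat_lit 120)) (XT.nd (nat_lit 78) (nat_lit 0) (nat_lit 76) (XT.lf (nat_lit 76) (nat_lit 1598665557) (nat_lit 0) (nat_lit 2865915691) (nat_lit 1824) (nat_lit 28845744007) (nat_lit 346) (nat_lit 5) (nat_lit 345) (nat_lit 5) (nat_lit 369) (nat_lit 5) (nat_lit 338) (nat_lit 323) (nat_lit 119)) (XT.lf (nat_lit 0) (nat_lit 7658036912) (nat_lit 1748) (nat_lit 8282024081) (nat_lit 1824) (nat_lit 17916589315) (nat_lit 346) (nat_lit 5) (nat_lit 369) (nat_lit 5) (nat_lit 370) (nat_lit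 5) (nat_lit 339) (nat_lit 323) (nat_lit 118)))) (XT.nd (nat_lit 78) (nat_lit 0) (nat_lit 0) (XT.lf (nat_lit 0) (nat_lit 5887294818) (nat_lit 1748) (nat_lit 3856661316) (nat_lit 1748) (nat_lit 3856661316) (nat_lit 359) (nat_lit 3) (nat_lit 382) (nat_lit 3) (nat_lit 382) (nat_lit 5) (nat_lit 324) (nat_lit 324) (nat_lit 132)) (XT.nd (nat_lit 78) (nat_lit 0) (nat_lit 76) (XT.lf (nat_lit 76) (nat_lit 10700948552) (nat_lit 0) (nat_lit 1445475085) (nat_lit 1748) (nat_lit 15458811735) (nat_lit 360) (nat_lit 5) (nat_lit 359) (nat_lit 3) (nat_lit 382) (nat_lit 5) (nat_lit 325) (nat_lit 324) (nat_lit 131)) (XT.lf (nat_lit 76) (nat_lit 1660419746) (nat_lit 0) (nat_lit 11038752129) (nat_lit 1748) (nat_lit 15318793237) (nat_lit 361) (nat_lit 5) (nat_lit 360) (nat_lit 5) (nat_lit 383) (nat_lit 5) (nat_lit 326) (nat_lit 324) (nat_lit 130))))) (XT.nd (nat_lit 234) (nat_lit 0) (nat_lit 152) (XT.nd (nat_lit 78) (nat_lit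 0) (nat_lit 0) (XT.lf (nat_lit 0) (nat_lit 13437301881) (nat_lit 1672) (nat_lit 7489075861) (nat_lit 1748) (nat_lit 7513327326) (nat_lit 361) (nat_lit 5) (nat_lit 383) (nat_lit 5) (nat_lit 384) (nat_lit 5) (nat_lit 327) (nat_lit 324) (nat_lit 129)) (XT.nd (nat_lit 78) (nat_lit 0) (nat_lit 76) (XT.lf (nat_lit 76) (nat_lit 12026711115) (nat_lit 0) (nat_lit 2318141857) (nat_lit 1748) (nat_lit 14526302891) (nat_lit 362) (nat_lit 5) (nat_lit 361) (nat_lit 5) (nat_lit 384) (nat_lit 5) (nat_lit 328) (nat_lit 324) (nat_lit 128)) (XT.lf (nat_lit 76) (nat_lit 2840766849) (nat_lit 0) (nat_lit 12613283986) (nat_lit 1748) (nat_lit 13858015006) (nat_lit 363) (nat_lit 5) (nat_lit 362) (nat_lit 5) (nat_lit 385) (nat_lit 5) (nat_lit 329) (nat_lit 324) (nat_lit 127)))) (XT.nd (nat_lit 156) (nat_lit 0) (nat_lit 76) (XT.nd (nat_lit 78) (nat_lit 0) (nat_lit 0) (XT.lf (nat_lit 0) (nat_lit 16764580463) (nat_lit 1672)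 (nat_lit 6477873229) (nat_lit 1748) (nat_lit 6520392253) (nat_lit 363) (nat_lit 5) (nat_lit 385) (nat_lit 5) (nat_lit 386) (nat_lit 5) (nat_lit 330) (nat_lit 324) (nat_lit 126)) (XT.lf (nat_lit 76) (nat_lit 14214743730) (nat_lit 0) (nat_lit 4072077745) (nat_lit 1748) (nat_lit 11936883897) (nat_lit 364) (nat_lit 5) (nat_lit 363) (nat_lit 5) (nat_lit 386) (nat_lit 5) (nat_lit 331) (nat_lit 324) (nat_lit 125))) (XT.nd (nat_lit 78) (nat_lit 0) (nat_lit 76) (XT.lf (nat_lit 76) (nat_lit 4878483549) (nat_lit 0) (nat_lit 15149739049) (nat_lit 1748) (nat_lit 10666701844) (nat_lit 365) (nat_lit 5) (nat_lit 364) (nat_lit 5) (nat_lit 387) (nat_lit 5) (nat_lit 332) (nat_lit 324) (nat_lit 124)) (XT.lf (nat_lit 0) (nat_lit 21983420677) (nat_lit 1672) (nat_lit 4626308100) (nat_lit 1748) (nat_lit 4567323818) (nat_lit 365) (nat_lit 5) (nat_lit 387) (nat_lit 5) (nat_lit 388) (nat_lit 5) (nat_lit 333) (nat_lit 324)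 (nat_lit 123)))))) (XT.nd (nat_lit 40014) (nat_lit 0) (nat_lit 1064) (XT.nd (nat_lit 234) (nat_lit 1520) (nat_lit 0) (XT.nd (nat_lit 78) (nat_lit 0) (nat_lit 76) (XT.lf (nat_lit 76) (nat_lit 17322696461) (nat_lit 0) (nat_lit 6884459712) (nat_lit 1748) (nat_lit 7462294295) (nat_lit 366) (nat_lit 5) (nat_lit 365) (nat_lit 5) (nat_lit 388) (nat_lit 5) (nat_lit 334) (nat_lit 324) (nat_lit 122)) (XT.nd (nat_lit 78) (nat_lit 0) (nat_lit 76) (XT.lf (nat_lit 76) (nat_lit 7830022473) (nat_lit 0) (nat_lit 18833390801) (nat_lit 1748) (nat_lit 5509894215) (nat_lit 367) (nat_lit 5) (nat_lit 366) (nat_lit 5) (nat_lit 389) (nat_lit 5) (nat_lit 335) (nat_lit 324) (nat_lit 121)) (XT.lf (nat_lit 0) (nat_lit 29342259029) (nat_lit 1672) (nat_lit 1880026154) (nat_lit 1748) (nat_lit 1467020321) (nat_lit 367) (nat_lit 5) (nat_lit 389) (nat_lit 5) (nat_lit 390) (nat_lit 5) (nat_lit 336) (nat_lit 324) (nat_lit 120))))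 (XT.nd (nat_lit 234) (nat_lit 0) (nat_lit 76) (XT.nd (nat_lit 78) (nat_lit 1672) (nat_lit 0) (XT.lf (nat_lit 76) (nat_lit 21409259174) (nat_lit 0) (nat_lit 10953570344) (nat_lit 1748) (nat_lit 852729962) (nat_lit 368) (nat_lit 5) (nat_lit 367) (nat_lit 5) (nat_lit 390) (nat_lit 5) (nat_lit 337) (nat_lit 324) (nat_lit 119)) (XT.lf (nat_lit 0) (nat_lit 1844954381) (nat_lit 1748) (nat_lit 22014251393) (nat_lit 1824) (nat_lit 9895154482) (nat_lit 345) (nat_lit 5) (nat_lit 368) (nat_lit 5) (nat_lit 369) (nat_lit 5) (nat_lit 338) (nat_lit 324) (nat_lit 118))) (XT.nd (nat_lit 39468) (nat_lit 0) (nat_lit 988) (XT.lf (nat_lit 0) (nat_lit 8057937051) (nat_lit 1748) (nat_lit 8389450861) (nat_lit 1824) (nat_lit 18421412688) (nat_lit 346) (nat_lit 5) (nat_lit 369) (nat_lit 5) (nat_lit 370) (nat_lit 5) (nat_lit 340) (nat_lit 324) (nat_lit 116)) (XT.lf (nat_lit 0) (nat_lit 6188442497) (nat_lit 1748) (nat_lit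 3908795122) (nat_lit 1748) (nat_lit 3908795122) (nat_lit 359) (nat_lit 3) (nat_lit 382) (nat_lit 3) (nat_lit 382) (nat_lit 5) (nat_lit 325) (nat_lit 325) (nat_lit 130))))) (XT.nd (nat_lit 234) (nat_lit 0) (nat_lit 152) (XT.nd (nat_lit 78) (nat_lit 0) (nat_lit 76) (XT.lf (nat_lit 76) (nat_lit 11147046508) (nat_lit 0) (nat_lit 1606385433) (nat_lit 1748) (nat_lit 15674889431) (nat_lit 360) (nat_lit 5) (nat_lit 359) (nat_lit 3) (nat_lit 382) (nat_lit 5) (nat_lit 326) (nat_lit 325) (nat_lit 129)) (XT.nd (nat_lit 78) (nat_lit 0) (nat_lit 76) (XT.lf (nat_lit 76) (nat_lit 1839012328) (nat_lit 0) (nat_lit 11476778991) (nat_lit 1748) (nat_lit 15537787483) (nat_lit 361) (nat_lit 5) (nat_lit 360) (nat_lit 5) (nat_lit 383) (nat_lit 5) (nat_lit 327) (nat_lit 325) (nat_lit 128)) (XT.lf (nat_lit 0) (nat_lit 14068528175) (nat_lit 1672) (nat_lit 7583263586) (nat_lit 1748) (nat_lit 7636336123) (nat_lit 361) (nat_lit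 5) (nat_lit 383) (nat_lit 5) (nat_lit 384) (nat_lit 5) (nat_lit 328) (nat_lit 325) (nat_lit 127)))) (XT.nd (nat_lit 156) (nat_lit 0) (nat_lit 152) (XT.nd (nat_lit 78) (nat_lit 0) (nat_lit 76) (XT.lf (nat_lit 76) (nat_lit 12515880043) (nat_lit 0) (nat_lit 2481615303) (nat_lit 1748) (nat_lit 14735149072) (nat_lit 362) (nat_lit 5) (nat_lit 361) (nat_lit 5) (nat_lit 384) (nat_lit 5) (nat_lit 329) (nat_lit 325) (nat_lit 126)) (XT.lf (nat_lit 76) (nat_lit 3057445537) (nat_lit 0) (nat_lit 13076310353) (nat_lit 1748) (nat_lit 14053155899) (nat_lit 363) (nat_lit 5) (nat_lit 362) (nat_lit 5) (nat_lit 385) (nat_lit 5) (nat_lit 330) (nat_lit 325) (nat_lit 125))) (XT.nd (nat_lit 78) (nat_lit 0) (nat_lit 0) (XT.lf (nat_lit 0) (nat_lit 17476774256) (nat_lit 1672) (nat_lit 6539664602) (nat_lit 1748) (nat_lit 6634918644) (nat_lit 363) (nat_lit 5) (nat_lit 385) (nat_lit 5) (nat_lit 386) (nat_lit 5) (nat_lit 331)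 (nat_lit 325) (nat_lit 124)) (XT.lf (nat_lit 76) (nat_lit 14771580484) (nat_lit 0) (nat_lit 4267853776) (nat_lit 1748) (nat_lit 12086718912) (nat_lit 364) (nat_lit 5) (nat_lit 363) (nat_lit 5) (nat_lit 386) (nat_lit 5) (nat_lit 332) (nat_lit 325) (nat_lit 123))))))))
noncomputable def xc127 : XT := (XT.nd (nat_lit 81432) (nat_lit 0) (nat_lit 1064) (XT.nd (nat_lit 40560) (nat_lit 0) (nat_lit 1064) (XT.nd (nat_lit 468) (nat_lit 1444) (nat_lit 0) (XT.nd (nat_lit 234) (nat_lit 0) (nat_lit 152) (XT.nd (nat_lit 78) (nat_lit 0) (nat_lit 76) (XT.lf (nat_lit 76) (nat_lit 5157781391) (nat_lit 0) (nat_lit 15669753169) (nat_lit 1748) (nat_lit 10784090447) (nat_lit 365) (nat_lit 5) (nat_lit 364) (nat_lit 5) (nat_lit 387) (nat_lit 5) (nat_lit 333) (nat_lit 325) (nat_lit 122)) (XT.nd (nat_lit 78) (nat_lit 0) (nat_lit 0) (XT.lf (nat_lit 0) (nat_lit 22835195018) (nat_lit 1672) (nat_lit 4631586745) (nat_lit 1748)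 (nat_lit 4641564294) (nat_lit 365) (nat_lit 5) (nat_lit 387) (nat_lit 5) (nat_lit 388) (nat_lit 5) (nat_lit 334) (nat_lit 325) (nat_lit 121)) (XT.lf (nat_lit 76) (nat_lit 17973721903) (nat_lit 0) (nat_lit 7147173304) (nat_lit 1748) (nat_lit 7494720635) (nat_lit 366) (nat_lit 5) (nat_lit 365) (nat_lit 5) (nat_lit 388) (nat_lit 5) (nat_lit 335) (nat_lit 325) (nat_lit 120)))) (XT.nd (nat_lit 78) (nat_lit 0) (nat_lit 76) (XT.lf (nat_lit 76) (nat_lit 8198350197) (nat_lit 0) (nat_lit 19447540114) (nat_lit 1748) (nat_lit 5488802140) (nat_lit 367) (nat_lit 5) (nat_lit 366) (nat_lit 5) (nat_lit 389) (nat_lit 5) (nat_lit 336) (nat_lit 325) (nat_lit 119)) (XT.nd (nat_lit 78) (nat_lit 0) (nat_lit 0) (XT.lf (nat_lit 0) (nat_lit 30399473927) (nat_lit 1672) (nat_lit 1802873142) (nat_lit 1748) (nat_lit 1463940630) (nat_lit 367) (nat_lit 5) (nat_lit 389) (nat_lit 5) (nat_lit 390) (nat_lit 5) (nat_lit 337) (nat_lit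 325) (nat_lit 118)) (XT.lf (nat_lit 76) (nat_lit 22182923994) (nat_lit 0) (nat_lit 11323436788) (nat_lit 1748) (nat_lit 702059129) (nat_lit 368) (nat_lit 5) (nat_lit 367) (nat_lit 5) (nat_lit 390) (nat_lit 5) (nat_lit 338) (nat_lit 325) (nat_lit 117))))) (XT.nd (nat_lit 39780) (nat_lit 0) (nat_lit 1140) (XT.nd (nat_lit 39624) (nat_lit 0) (nat_lit 1064) (XT.lf (nat_lit 0) (nat_lit 2069785788) (nat_lit 1748) (nat_lit 22539213733) (nat_lit 1824) (nat_lit 10154455851) (nat_lit 345) (nat_lit 5) (nat_lit 368) (nat_lit 5) (nat_lit 369) (nat_lit 5) (nat_lit 339) (nat_lit 325) (nat_lit 116)) (XT.nd (nat_lit 78) (nat_lit 0) (nat_lit 0) (XT.lf (nat_lit 0) (nat_lit 6491476141) (nat_lit 1748) (nat_lit 3966141893) (nat_lit 1748) (nat_lit 3966141893) (nat_lit 359) (nat_lit 3) (nat_lit 382) (nat_lit 3) (nat_lit 382) (nat_lit 5) (nat_lit 326) (nat_lit 326) (nat_lit 128)) (XT.lf (nat_lit 76) (nat_lit 11599347902)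 (nat_lit 0) (nat_lit 1765375464) (nat_lit 1748) (nat_lit 15911667685) (nat_lit 360) (nat_lit 5) (nat_lit 359) (nat_lit 3) (nat_lit 382) (nat_lit 5) (nat_lit 327) (nat_lit 326) (nat_lit 127)))) (XT.nd (nat_lit 156) (nat_lit 0) (nat_lit 76) (XT.nd (nat_lit 78) (nat_lit 0) (nat_lit 76) (XT.lf (nat_lit 76) (nat_lit 2015570190) (nat_lit 0) (nat_lit 11921812211) (nat_lit 1748) (nat_lit 15777161233) (nat_lit 361) (nat_lit 5) (nat_lit 360) (nat_lit 5) (nat_lit 383) (nat_lit 5) (nat_lit 328) (nat_lit 326) (nat_lit 126)) (XT.lf (nat_lit 0) (nat_lit 14705596968) (nat_lit 1672) (nat_lit 7687767290) (nat_lit 1748) (nat_lit 7768912847) (nat_lit 361) (nat_lit 5) (nat_lit 383) (nat_lit 5) (nat_lit 384) (nat_lit 5) (nat_lit 329) (nat_lit 326) (nat_lit 125))) (XT.nd (nat_lit 78) (nat_lit 0) (nat_lit 76) (XT.lf (nat_lit 76) (nat_lit 13012355213) (nat_lit 0) (nat_lit 2644601033) (nat_lit 1748) (nat_lit 14963288089)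 (nat_lit 362) (nat_lit 5) (nat_lit 361) (nat_lit 5) (nat_lit 384) (nat_lit 5) (nat_lit 330) (nat_lit 326) (nat_lit 124)) (XT.lf (nat_lit 76) (nat_lit 3273078492) (nat_lit 0) (nat_lit 13548369527) (nat_lit 1748) (nat_lit 14266814337) (nat_lit 363) (nat_lit 5) (nat_lit 362) (nat_lit 5) (nat_lit 385) (nat_lit 5) (nat_lit 331) (nat_lit 326) (nat_lit 123)))))) (XT.nd (nat_lit 40326) (nat_lit 0) (nat_lit 0) (XT.nd (nat_lit 234) (nat_lit 304) (nat_lit 0) (XT.nd (nat_lit 78) (nat_lit 0) (nat_lit 0) (XT.lf (nat_lit 0) (nat_lit 18198321690) (nat_lit 1672) (nat_lit 6610918330) (nat_lit 1748) (nat_lit 6757535459) (nat_lit 363) (nat_lit 5) (nat_lit 385) (nat_lit 5) (nat_lit 386) (nat_lit 5) (nat_lit 332) (nat_lit 326) (nat_lit 122)) (XT.nd (nat_lit 78) (nat_lit 0) (nat_lit 76) (XT.lf (nat_lit 76) (nat_lit 15337637166) (nat_lit 0) (nat_lit 4465277360) (nat_lit 1748) (nat_lit 12253004614) (nat_lit 364) (nat_lit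 5) (nat_lit 363) (nat_lit 5) (nat_lit 386) (nat_lit 5) (nat_lit 333) (nat_lit 326) (nat_lit 121)) (XT.lf (nat_lit 76) (nat_lit 5437826677) (nat_lit 0) (nat_lit 16201606484) (nat_lit 1748) (nat_lit 10916631492) (nat_lit 365) (nat_lit 5) (nat_lit 364) (nat_lit 5) (nat_lit 387) (nat_lit 5) (nat_lit 334) (nat_lit 326) (nat_lit 120)))) (XT.nd (nat_lit 156) (nat_lit 456) (nat_lit 0) (XT.nd (nat_lit 78) (nat_lit 0) (nat_lit 0) (XT.lf (nat_lit 0) (nat_lit 23701485405) (nat_lit 1672) (nat_lit 4644687803) (nat_lit 1748) (nat_lit 4721635769) (nat_lit 365) (nat_lit 5) (nat_lit 387) (nat_lit 5) (nat_lit 388) (nat_lit 5) (nat_lit 335) (nat_lit 326) (nat_lit 119)) (XT.lf (nat_lit 76) (nat_lit 18636738393) (nat_lit 0) (nat_lit 7414543355) (nat_lit 1748) (nat_lit 7539109348) (nat_lit 366) (nat_lit 5) (nat_lit 365) (nat_lit 5) (nat_lit 388) (nat_lit 5) (nat_lit 336) (nat_lit 326) (nat_lit 118))) (XT.nd (nat_lit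 39858) (nat_lit 532) (nat_lit 0) (XT.lf (nat_lit 76) (nat_lit 8570068494) (nat_lit 0) (nat_lit 20077292634) (nat_lit 1748) (nat_lit 5477776788) (nat_lit 367) (nat_lit 5) (nat_lit 366) (nat_lit 5) (nat_lit 389) (nat_lit 5) (nat_lit 337) (nat_lit 326) (nat_lit 117)) (XT.lf (nat_lit 0) (nat_lit 6796862681) (nat_lit 1748) (nat_lit 4028648552) (nat_lit 1748) (nat_lit 4028648552) (nat_lit 359) (nat_lit 3) (nat_lit 382) (nat_lit 3) (nat_lit 382) (nat_lit 5) (nat_lit 327) (nat_lit 327) (nat_lit 126))))) (XT.nd (nat_lit 234) (nat_lit 0) (nat_lit 152) (XT.nd (nat_lit 78) (nat_lit 0) (nat_lit 76) (XT.lf (nat_lit 76) (nat_lit 12058450970) (nat_lit 0) (nat_lit 1922774912) (nat_lit 1748) (nat_lit 16168951330) (nat_lit 360) (nat_lit 5) (nat_lit 359) (nat_lit 3) (nat_lit 382) (nat_lit 5) (nat_lit 328) (nat_lit 327) (nat_lit 125)) (XT.nd (nat_lit 78) (nat_lit 0) (nat_lit 76) (XT.lf (nat_lit 76) (nat_lit 2190456648)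 (nat_lit 0) (nat_lit 12374414122) (nat_lit 1748) (nat_lit 16036733139) (nat_lit 361) (nat_lit 5) (nat_lit 360) (nat_lit 5) (nat_lit 383) (nat_lit 5) (nat_lit 329) (nat_lit 327) (nat_lit 124)) (XT.lf (nat_lit 0) (nat_lit 15349435203) (nat_lit 1672) (nat_lit 7802466476) (nat_lit 1748) (nat_lit 7911007134) (nat_lit 361) (nat_lit 5) (nat_lit 383) (nat_lit 5) (nat_lit 384) (nat_lit 5) (nat_lit 330) (nat_lit 327) (nat_lit 123)))) (XT.nd (nat_lit 156) (nat_lit 0) (nat_lit 152) (XT.nd (nat_lit 78) (nat_lit 0) (nat_lit 76) (XT.lf (nat_lit 76) (nat_lit 13516778814) (nat_lit 0) (nat_lit 2807393934) (nat_lit 1748) (nat_lit 15210550898) (nat_lit 362) (nat_lit 5) (nat_lit 361) (nat_lit 5) (nat_lit 384) (nat_lit 5) (nat_lit 331) (nat_lit 327) (nat_lit 122)) (XT.lf (nat_lit 76) (nat_lit 3488067518) (nat_lit 0) (nat_lit 14030011359) (nat_lit 1748) (nat_lit 14498818918) (nat_lit 363) (nat_lit 5) (nat_lit 362) (nat_lit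 5) (nat_lit 385) (nat_lit 5) (nat_lit 332) (nat_lit 327) (nat_lit 121))) (XT.nd (nat_lit 78) (nat_lit 0) (nat_lit 0) (XT.lf (nat_lit 0) (nat_lit 18930192923) (nat_lit 1672) (nat_lit 6691481521) (nat_lit 1748) (nat_lit 6888218216) (nat_lit 363) (nat_lit 5) (nat_lit 385) (nat_lit 5) (nat_lit 386) (nat_lit 5) (nat_lit 333) (nat_lit 327) (nat_lit 120)) (XT.lf (nat_lit 76) (nat_lit 15913620054) (nat_lit 0) (nat_lit 4664640498) (nat_lit 1748) (nat_lit 12435548221) (nat_lit 364) (nat_lit 5) (nat_lit 363) (nat_lit 5) (nat_lit 386) (nat_lit 5) (nat_lit 334) (nat_lit 327) (nat_lit 119))))))) (XT.nd (nat_lit 80964) (nat_lit 0) (nat_lit 0) (XT.nd (nat_lit 40404) (nat_lit 0) (nat_lit 0) (XT.nd (nat_lit 40170) (nat_lit 0) (nat_lit 0) (XT.nd (nat_lit 78) (nat_lit 380) (nat_lit 0) (XT.lf (nat_lit 76) (nat_lit 5719079909) (nat_lit 0) (nat_lit 16745870081) (nat_lit 1748) (nat_lit 11064111897) (nat_lit 365) (nat_lit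 5) (nat_lit 364) (nat_lit 5) (nat_lit 387) (nat_lit 5) (nat_lit 335) (nat_lit 327) (nat_lit 118)) (XT.nd (nat_lit 40014) (nat_lit 456) (nat_lit 0) (XT.lf (nat_lit 0) (nat_lit 24583360900) (nat_lit 1672) (nat_lit 4665406000) (nat_lit 1748) (nat_lit 4807506302) (nat_lit 365) (nat_lit 5) (nat_lit 387) (nat_lit 5) (nat_lit 388) (nat_lit 5) (nat_lit 336) (nat_lit 327) (nat_lit 117)) (XT.lf (nat_lit 0) (nat_lit 7105059500) (nat_lit 1748) (nat_lit 4096272457) (nat_lit 1748) (nat_lit 4096272457) (nat_lit 359) (nat_lit 3) (nat_lit 382) (nat_lit 3) (nat_lit 382) (nat_lit 5) (nat_lit 328) (nat_lit 328) (nat_lit 124)))) (XT.nd (nat_lit 78) (nat_lit 0) (nat_lit 76) (XT.lf (nat_lit 76) (nat_lit 12524948236) (nat_lit 0) (nat_lit 2078901164) (nat_lit 1748) (nat_lit 16446586195) (nat_lit 360) (nat_lit 5) (nat_lit 359) (nat_lit 3) (nat_lit 382) (nat_lit 5) (nat_lit 329) (nat_lit 328) (nat_lit 123)) (XT.nd (nat_lit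 78) (nat_lit 0) (nat_lit 76) (XT.lf (nat_lit 76) (nat_lit 2364021562) (nat_lit 0) (nat_lit 12835143713) (nat_lit 1748) (nat_lit 16316361921) (nat_lit 361) (nat_lit 5) (nat_lit 360) (nat_lit 5) (nat_lit 383) (nat_lit 5) (nat_lit 330) (nat_lit 328) (nat_lit 122)) (XT.lf (nat_lit 0) (nat_lit 16000954479) (nat_lit 1672) (nat_lit 7927261713) (nat_lit 1748) (nat_lit 8062586479) (nat_lit 361) (nat_lit 5) (nat_lit 383) (nat_lit 5) (nat_lit 384) (nat_lit 5) (nat_lit 331) (nat_lit 328) (nat_lit 121))))) (XT.nd (nat_lit 234) (nat_lit 152) (nat_lit 0) (XT.nd (nat_lit 78) (nat_lit 0) (nat_lit 76) (XT.lf (nat_lit 76) (nat_lit 14029788017) (nat_lit 0) (nat_lit 2970279970) (nat_lit 1748) (nat_lit 15476806314) (nat_lit 362) (nat_lit 5) (nat_lit 361) (nat_lit 5) (nat_lit 384) (nat_lit 5) (nat_lit 332) (nat_lit 328) (nat_lit 120)) (XT.nd (nat_lit 78) (nat_lit 0) (nat_lit 76) (XT.lf (nat_lit 76) (nat_lit 3702801609)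 (nat_lit 0) (nat_lit 14521786190) (nat_lit 1748) (nat_lit 14749034830) (nat_lit 363) (nat_lit 5) (nat_lit 362) (nat_lit 5) (nat_lit 385) (nat_lit 5) (nat_lit 333) (nat_lit 328) (nat_lit 119)) (XT.lf (nat_lit 0) (nat_lit 19673347634) (nat_lit 1672) (nat_lit 6781221762) (nat_lit 1748) (nat_lit 7026957036) (nat_lit 363) (nat_lit 5) (nat_lit 385) (nat_lit 5) (nat_lit 386) (nat_lit 5) (nat_lit 334) (nat_lit 328) (nat_lit 118)))) (XT.nd (nat_lit 40170) (nat_lit 304) (nat_lit 0) (XT.nd (nat_lit 156) (nat_lit 0) (nat_lit 152) (XT.lf (nat_lit 76) (nat_lit 16500231948) (nat_lit 0) (nat_lit 4866230026) (nat_lit 1748) (nat_lit 12634190563) (nat_lit 364) (nat_lit 5) (nat_lit 363) (nat_lit 5) (nat_lit 386) (nat_lit 5) (nat_lit 335) (nat_lit 328) (nat_lit 117)) (XT.lf (nat_lit 0) (nat_lit 25481886266) (nat_lit 1672) (nat_lit 4693555156) (nat_lit 1748) (nat_lit 4899154867) (nat_lit 365) (nat_lit 5) (nat_lit 387)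 (nat_lit 5) (nat_lit 388) (nat_lit 5) (nat_lit 337) (nat_lit 328) (nat_lit 115))) (XT.nd (nat_lit 78) (nat_lit 0) (nat_lit 0) (XT.lf (nat_lit 0) (nat_lit 7416515496) (nat_lit 1748) (nat_lit 4168981017) (nat_lit 1748) (nat_lit 4168981017) (nat_lit 359) (nat_lit 3) (nat_lit 382) (nat_lit 3) (nat_lit 382) (nat_lit 5) (nat_lit 329) (nat_lit 329) (nat_lit 122)) (XT.lf (nat_lit 76) (nat_lit 12999427701) (nat_lit 0) (nat_lit 2234060172) (nat_lit 1748) (nat_lit 16744457648) (nat_lit 360) (nat_lit 5) (nat_lit 359) (nat_lit 3) (nat_lit 382) (nat_lit 5) (nat_lit 330) (nat_lit 329) (nat_lit 121)))))) (XT.nd (nat_lit 40638) (nat_lit 0) (nat_lit 0) (XT.nd (nat_lit 234) (nat_lit 76) (nat_lit 0) (XT.nd (nat_lit 78) (nat_lit 0) (nat_lit 76) (XT.lf (nat_lit 76) (nat_lit 2536602322) (nat_lit 0) (nat_lit 13304557688) (nat_lit 1748) (nat_lit 16615944953) (nat_lit 361) (nat_lit 5) (nat_lit 360) (nat_lit 5) (nat_lit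 383) (nat_lit 5) (nat_lit 331) (nat_lit 329) (nat_lit 120)) (XT.nd (nat_lit 78) (nat_lit 0) (nat_lit 0) (XT.lf (nat_lit 0) (nat_lit 16661053073) (nat_lit 1672) (nat_lit 8062073855) (nat_lit 1748) (nat_lit 8223635654) (nat_lit 361) (nat_lit 5) (nat_lit 383) (nat_lit 5) (nat_lit 384) (nat_lit 5) (nat_lit 332) (nat_lit 329) (nat_lit 119)) (XT.lf (nat_lit 76) (nat_lit 14552016221) (nat_lit 0) (nat_lit 3133536940) (nat_lit 1748) (nat_lit 15761959677) (nat_lit 362) (nat_lit 5) (nat_lit 361) (nat_lit 5) (nat_lit 384) (nat_lit 5) (nat_lit 333) (nat_lit 329) (nat_lit 118)))) (XT.nd (nat_lit 156) (nat_lit 228) (nat_lit 0) (XT.nd (nat_lit 78) (nat_lit 0) (nat_lit 76) (XT.lf (nat_lit 76) (nat_lit 3917657987) (nat_lit 0) (nat_lit 15024245780) (nat_lit 1748) (nat_lit 15017362548) (nat_lit 363) (nat_lit 5) (nat_lit 362) (nat_lit 5) (nat_lit 385) (nat_lit 5) (nat_lit 334) (nat_lit 329) (nat_lit 117)) (XT.lf (nat_lit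 0) (nat_lit 20428736980) (nat_lit 1672) (nat_lit 6880026307) (nat_lit 1748) (nat_lit 7173756201) (nat_lit 363) (nat_lit 5) (nat_lit 385) (nat_lit 5) (nat_lit 386) (nat_lit 5) (nat_lit 335) (nat_lit 329) (nat_lit 116))) (XT.nd (nat_lit 40170) (nat_lit 304) (nat_lit 0) (XT.lf (nat_lit 76) (nat_lit 17098173483) (nat_lit 0) (nat_lit 5070328259) (nat_lit 1748) (nat_lit 12848804834) (nat_lit 364) (nat_lit 5) (nat_lit 363) (nat_lit 5) (nat_lit 386) (nat_lit 5) (nat_lit 336) (nat_lit 329) (nat_lit 115)) (XT.lf (nat_lit 0) (nat_lit 7731672108) (nat_lit 1748) (nat_lit 4246751349) (nat_lit 1748) (nat_lit 4246751349) (nat_lit 359) (nat_lit 3) (nat_lit 382) (nat_lit 3) (nat_lit 382) (nat_lit 5) (nat_lit 330) (nat_lit 330) (nat_lit 120))))) (XT.nd (nat_lit 234) (nat_lit 0) (nat_lit 0) (XT.nd (nat_lit 78) (nat_lit 0) (nat_lit 76) (XT.lf (nat_lit 76) (nat_lit 13482473985) (nat_lit 0) (nat_lit 2388547311) (nat_lit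 1748) (nat_lit 17062489244) (nat_lit 360) (nat_lit 5) (nat_lit 359) (nat_lit 3) (nat_lit 382) (nat_lit 5) (nat_lit 331) (nat_lit 330) (nat_lit 119)) (XT.nd (nat_lit 78) (nat_lit 0) (nat_lit 76) (XT.lf (nat_lit 76) (nat_lit 2708524798) (nat_lit 0) (nat_lit 13783211493) (nat_lit 1748) (nat_lit 16935416963) (nat_lit 361) (nat_lit 5) (nat_lit 360) (nat_lit 5) (nat_lit 383) (nat_lit 5) (nat_lit 332) (nat_lit 330) (nat_lit 118)) (XT.lf (nat_lit 0) (nat_lit 17330617872) (nat_lit 1672) (nat_lit 8206843311) (nat_lit 1748) (nat_lit 8394156186) (nat_lit 361) (nat_lit 5) (nat_lit 383) (nat_lit 5) (nat_lit 384) (nat_lit 5) (nat_lit 333) (nat_lit 330) (nat_lit 117)))) (XT.nd (nat_lit 40482) (nat_lit 152) (nat_lit 0) (XT.nd (nat_lit 78) (nat_lit 0) (nat_lit 76) (XT.lf (nat_lit 76) (nat_lit 15084094253) (nat_lit 0) (nat_lit 3297435187) (nat_lit 1748) (nat_lit 16065951632) (nat_lit 362) (nat_lit 5) (nat_lit 361)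 (nat_lit 5) (nat_lit 384) (nat_lit 5) (nat_lit 334) (nat_lit 330) (nat_lit 116)) (XT.lf (nat_lit 76) (nat_lit 4133003100) (nat_lit 0) (nat_lit 15537944220) (nat_lit 1748) (nat_lit 15303736636) (nat_lit 363) (nat_lit 5) (nat_lit 362) (nat_lit 5) (nat_lit 385) (nat_lit 5) (nat_lit 335) (nat_lit 330) (nat_lit 115))) (XT.nd (nat_lit 78) (nat_lit 0) (nat_lit 76) (XT.lf (nat_lit 76) (nat_lit 13974669435) (nat_lit 0) (nat_lit 2542648197) (nat_lit 1748) (nat_lit 17400641484) (nat_lit 360) (nat_lit 5) (nat_lit 359) (nat_lit 3) (nat_lit 382) (nat_lit 5) (nat_lit 332) (nat_lit 331) (nat_lit 117)) (XT.lf (nat_lit 76) (nat_lit 2880104236) (nat_lit 0) (nat_lit 14271660306) (nat_lit 1748) (nat_lit 17274748828) (nat_lit 361) (nat_lit 5) (nat_lit 360) (nat_lit 5) (nat_lit 383) (nat_lit 5) (nat_lit 333) (nat_lit 331) (nat_lit 116))))))))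

set_option maxRecDepth 10000000 in
noncomputable def Tp : PT := (PT.nd (nat_lit 5494710) (PT.nd (nat_lit 4887012) (PT.nd (nat_lit 4319094) (PT.nd (nat_lit 3871920) (PT.nd (nat_lit 3466242) pc0 pc1) (PT.nd (nat_lit 243984) pc2 pc3)) (PT.nd (nat_lit 324558) (PT.nd (nat_lit 202254) pc4 pc5) (PT.nd (nat_lit 121992) pc6 pc7))) (PT.nd (nat_lit 325650) (PT.nd (nat_lit 163410) (PT.nd (nat_lit 81822) pc8 pc9) (PT.nd (nat_lit 81276) pc10 pc11)) (PT.nd (nat_lit 160602) (PT.nd (nat_lit 80574) pc12 pc13) (PT.nd (nat_lit 41964) pc14 pc15)))) (PT.nd (nat_lit 365118) (PT.nd (nat_lit 165516) (PT.nd (nat_lit 82992) (PT.nd (nat_lit 41496) pc16 pc17) (PT.nd (nat_lit 41340) pc18 pc19)) (PT.nd (nat_lit 118560) (PT.nd (nat_lit 77766) pc20 pc21) (PT.nd (nat_lit 40638) pc22 pc23))) (PT.nd (nat_lit 165828) (PT.nd (nat_lit 44382) (PT.nd (nat_lit 40248) pc24 pc25) (PT.nd (nat_lit 77064) pc26 pc27)) (PT.nd (nat_lit 198276)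 (PT.nd (nat_lit 81432) pc28 pc29) (PT.nd (nat_lit 121758) pc30 pc31)))))

set_option maxRecDepth 10000000 in
noncomputable def Tx : XT := (XT.nd (nat_lit 8481174) (nat_lit 0) (nat_lit 304) XT.nil (XT.nd (nat_lit 4996056) (nat_lit 0) (nat_lit 0) (XT.nd (nat_lit 2391480) (nat_lit 0) (nat_lit 2356) (XT.nd (nat_lit 1660698) (nat_lit 0) (nat_lit 988) (XT.nd (nat_lit 1137396) (nat_lit 0) (nat_lit 456) (XT.nd (nat_lit 810264) (nat_lit 0) (nat_lit 228) (XT.nd (nat_lit 566904) (nat_lit 0) (nat_lit 152) (XT.nd (nat_lit 365586) (nat_lit 0) (nat_lit 76) (XT.nd (nat_lit 243750) (nat_lit 0) (nat_lit 76) xc0 xc1) (XT.nd (nat_lit 120432) (nat_lit 0) (nat_lit 76) xc2 xc3)) (XT.nd (nat_lit 122226) (nat_lit 0) (nat_lit 76) (XT.nd (nat_lit 42276) (nat_lit 0) (nat_lit 0) xc4 xc5) (XT.nd (nat_lit 41886) (nat_lit 0) (nat_lit 0) xc6 xc7))) (XT.nd (nat_lit 164814) (nat_lit 0) (nat_lit 76) (XT.nd (nat_lit 82680) (nat_lit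 0) (nat_lit 76) (XT.nd (nat_lit 41418) (nat_lit 0) (nat_lit 0) xc8 xc9) (XT.nd (nat_lit 41106) (nat_lit 0) (nat_lit 0) xc10 xc11)) (XT.nd (nat_lit 81432) (nat_lit 0) (nat_lit 76) (XT.nd (nat_lit 40794) (nat_lit 0) (nat_lit 0) xc12 xc13) (XT.nd (nat_lit 40482) (nat_lit 0) (nat_lit 76) xc14 xc15)))) (XT.nd (nat_lit 282282) (nat_lit 0) (nat_lit 304) (XT.nd (nat_lit 159744) (nat_lit 0) (nat_lit 76) (XT.nd (nat_lit 80184) (nat_lit 0) (nat_lit 0) (XT.nd (nat_lit 40170) (nat_lit 0) (nat_lit 0) xc16 xc17) (XT.nd (nat_lit 39858) (nat_lit 0) (nat_lit 0) xc18 xc19)) (XT.nd (nat_lit 43680) (nat_lit 0) (nat_lit 0) (XT.nd (nat_lit 39546) (nat_lit 0) (nat_lit 228) xc20 xc21) (XT.nd (nat_lit 39468) (nat_lit 0) (nat_lit 152) xc22 xc23))) (XT.nd (nat_lit 121212) (nat_lit 0) (nat_lit 76) (XT.nd (nat_lit 78156) (nat_lit 0) (nat_lit 0) (XT.nd (nat_lit 39156) (nat_lit 0) (nat_lit 0) xc24 xc25) (XT.nd (nat_lit 4134)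 (nat_lit 1596) (nat_lit 0) xc26 xc27)) (XT.nd (nat_lit 42822) (nat_lit 0) (nat_lit 0) (XT.nd (nat_lit 38688) (nat_lit 0) (nat_lit 1140) xc28 xc29) (XT.nd (nat_lit 38532) (nat_lit 0) (nat_lit 0) xc30 xc31))))) (XT.nd (nat_lit 368004) (nat_lit 0) (nat_lit 456) (XT.nd (nat_lit 202176) (nat_lit 0) (nat_lit 304) (XT.nd (nat_lit 84552) (nat_lit 0) (nat_lit 76) (XT.nd (nat_lit 42354) (nat_lit 0) (nat_lit 0) (XT.nd (nat_lit 4134) (nat_lit 1216) (nat_lit 0) xc32 xc33) (XT.nd (nat_lit 38064) (nat_lit 0) (nat_lit 2964) xc34 xc35)) (XT.nd (nat_lit 42042) (nat_lit 0) (nat_lit 76) (XT.nd (nat_lit 37908) (nat_lit 0) (nat_lit 760) xc36 xc37) (XT.nd (nat_lit 37830) (nat_lit 0) (nat_lit 0) xc38 xc39))) (XT.nd (nat_lit 83226) (nat_lit 0) (nat_lit 152) (XT.nd (nat_lit 41652) (nat_lit 0) (nat_lit 0) (XT.nd (nat_lit 4134) (nat_lit 3420) (nat_lit 0) xc40 xc41) (XT.nd (nat_lit 4134) (nat_lit 1520) (nat_lit 0) xc42 xc43))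 (XT.nd (nat_lit 41340) (nat_lit 0) (nat_lit 0) (XT.nd (nat_lit 4134) (nat_lit 152) (nat_lit 0) xc44 xc45) (XT.nd (nat_lit 37050) (nat_lit 0) (nat_lit 6460) xc46 xc47)))) (XT.nd (nat_lit 164190) (nat_lit 0) (nat_lit 380) (XT.nd (nat_lit 81978) (nat_lit 0) (nat_lit 304) (XT.nd (nat_lit 41028) (nat_lit 0) (nat_lit 152) (XT.nd (nat_lit 36894) (nat_lit 0) (nat_lit 5092) xc48 xc49) (XT.nd (nat_lit 36738) (nat_lit 0) (nat_lit 4332) xc50 xc51)) (XT.nd (nat_lit 41028) (nat_lit 0) (nat_lit 76) (XT.nd (nat_lit 36894) (nat_lit 0) (nat_lit 3268) xc52 xc53) (XT.nd (nat_lit 36972) (nat_lit 0) (nat_lit 2128) xc54 xc55))) (XT.nd (nat_lit 82524) (nat_lit 0) (nat_lit 152) (XT.nd (nat_lit 41184) (nat_lit 0) (nat_lit 152) (XT.nd (nat_lit 37050) (nat_lit 0) (nat_lit 1140) xc56 xc57) (XT.nd (nat_lit 37128) (nat_lit 0) (nat_lit 152) xc58 xc59)) (XT.nd (nat_lit 74490) (nat_lit 0) (nat_lit 228) (XT.nd (nat_lit 37206) (nat_lit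 0) (nat_lit 152) xc60 xc61) (XT.nd (nat_lit 4134) (nat_lit 6460) (nat_lit 0) xc62 xc63)))))) (XT.nd (nat_lit 817440) (nat_lit 0) (nat_lit 3496) (XT.nd (nat_lit 369876) (nat_lit 0) (nat_lit 1064) (XT.nd (nat_lit 167154) (nat_lit 0) (nat_lit 456) (XT.nd (nat_lit 83382) (nat_lit 0) (nat_lit 152) (XT.nd (nat_lit 41652) (nat_lit 0) (nat_lit 152) (XT.nd (nat_lit 4134) (nat_lit 3496) (nat_lit 0) xc64 xc65) (XT.nd (nat_lit 4134) (nat_lit 1140) (nat_lit 0) xc66 xc67)) (XT.nd (nat_lit 41808) (nat_lit 0) (nat_lit 304) (XT.nd (nat_lit 37674) (nat_lit 0) (nat_lit 6536) xc68 xc69) (XT.nd (nat_lit 37752) (nat_lit 0) (nat_lit 2508) xc70 xc71))) (XT.nd (nat_lit 118014) (nat_lit 0) (nat_lit 456) (XT.nd (nat_lit 75738) (nat_lit 0) (nat_lit 380) (XT.nd (nat_lit 37830) (nat_lit 0) (nat_lit 152) xc72 xc73) (XT.nd (nat_lit 4134) (nat_lit 7144) (nat_lit 0) xc74 xc75)) (XT.nd (nat_lit 42276) (nat_lit 0) (nat_lit 152) (XT.nd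 (nat_lit 4134) (nat_lit 2052) (nat_lit 0) xc76 xc77) (XT.nd (nat_lit 38220) (nat_lit 0) (nat_lit 4028) xc78 xc79)))) (XT.nd (nat_lit 239694) (nat_lit 0) (nat_lit 1064) (XT.nd (nat_lit 119418) (nat_lit 0) (nat_lit 760) (XT.nd (nat_lit 76674) (nat_lit 0) (nat_lit 532) (XT.nd (nat_lit 38298) (nat_lit 0) (nat_lit 228) xc80 xc81) (XT.nd (nat_lit 4134) (nat_lit 5472) (nat_lit 0) xc82 xc83)) (XT.nd (nat_lit 42744) (nat_lit 0) (nat_lit 0) (XT.nd (nat_lit 38610) (nat_lit 0) (nat_lit 5624) xc84 xc85) (XT.nd (nat_lit 38688) (nat_lit 0) (nat_lit 228) xc86 xc87))) (XT.nd (nat_lit 86190) (nat_lit 0) (nat_lit 456) (XT.nd (nat_lit 42978) (nat_lit 0) (nat_lit 456) (XT.nd (nat_lit 4134) (nat_lit 4560) (nat_lit 0) xc88 xc89) (XT.nd (nat_lit 39000) (nat_lit 0) (nat_lit 1900) xc90 xc91)) (XT.nd (nat_lit 78234) (nat_lit 0) (nat_lit 380) (XT.nd (nat_lit 39078) (nat_lit 0) (nat_lit 380) xc92 xc93) (XT.nd (nat_lit 39234)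 (nat_lit 0) (nat_lit 2888) xc94 xc95))))) (XT.nd (nat_lit 568776) (nat_lit 0) (nat_lit 4408) (XT.nd (nat_lit 281814) (nat_lit 0) (nat_lit 1976) (XT.nd (nat_lit 122538) (nat_lit 0) (nat_lit 608) (XT.nd (nat_lit 78858) (nat_lit 0) (nat_lit 304) (XT.nd (nat_lit 39390) (nat_lit 0) (nat_lit 0) xc96 xc97) (XT.nd (nat_lit 39546) (nat_lit 0) (nat_lit 988) xc98 xc99)) (XT.nd (nat_lit 79404) (nat_lit 0) (nat_lit 684) (XT.nd (nat_lit 39624) (nat_lit 0) (nat_lit 304) xc100 xc101) (XT.nd (nat_lit 39858) (nat_lit 0) (nat_lit 0) xc102 xc103))) (XT.nd (nat_lit 124722) (nat_lit 0) (nat_lit 760) (XT.nd (nat_lit 80262) (nat_lit 0) (nat_lit 380) (XT.nd (nat_lit 40092) (nat_lit 0) (nat_lit 76) xc104 xc105) (XT.nd (nat_lit 4134) (nat_lit 836) (nat_lit 0) xc106 xc107)) (XT.nd (nat_lit 80886) (nat_lit 0) (nat_lit 836) (XT.nd (nat_lit 40404) (nat_lit 0) (nat_lit 456) xc108 xc109) (XT.nd (nat_lit 40560) (nat_lit 0) (nat_lit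 380) xc110 xc111)))) (XT.nd (nat_lit 404976) (nat_lit 0) (nat_lit 5168) (XT.nd (nat_lit 201084) (nat_lit 0) (nat_lit 2356) (XT.nd (nat_lit 81744) (nat_lit 0) (nat_lit 912) (XT.nd (nat_lit 40794) (nat_lit 0) (nat_lit 456) xc112 xc113) (XT.nd (nat_lit 78000) (nat_lit 0) (nat_lit 988) xc114 xc115)) (XT.nd (nat_lit 82836) (nat_lit 0) (nat_lit 1140) (XT.nd (nat_lit 41340) (nat_lit 0) (nat_lit 532) xc116 xc117) (XT.nd (nat_lit 79170) (nat_lit 0) (nat_lit 1064) xc118 xc119))) (XT.nd (nat_lit 245232) (nat_lit 0) (nat_lit 4636) (XT.nd (nat_lit 122070) (nat_lit 0) (nat_lit 1824) (XT.nd (nat_lit 41964) (nat_lit 0) (nat_lit 608) xc120 xc121) (XT.nd (nat_lit 80574) (nat_lit 0) (nat_lit 1444) xc122 xc123)) (XT.nd (nat_lit 202098) (nat_lit 0) (nat_lit 4864) (XT.nd (nat_lit 120042) (nat_lit 0) (nat_lit 2432) xc124 xc125) (XT.nd (nat_lit 122148) (nat_lit 0) (nat_lit 988) xc126 xc127))))))) XT.nil))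

set_option maxRecDepth 10000000 in
noncomputable def Te : XT := XT.nil

set_option maxRecDepth 10000000 in
noncomputable def Tz : ZL := (ZL.cons (nat_lit 76) (nat_lit 3) (nat_lit 100476081042185332159) (ZL.cons (nat_lit 152) (nat_lit 6) (nat_lit 198259379472381623032) (ZL.cons (nat_lit 760) (nat_lit 3) (nat_lit 92681202083883696299) (ZL.cons (nat_lit 836) (nat_lit 6) (nat_lit 182942007893172546468) (ZL.cons (nat_lit 912) (nat_lit 6) (nat_lit 180603216129076239606) (ZL.cons (nat_lit 988) (nat_lit 3) (nat_lit 90263623729873985653) (ZL.cons (nat_lit 1064) (nat_lit 6) (nat_lit 178194260612057043540) (ZL.cons (nat_lit 1140) (nat_lit 6) (nat_lit 175941008817902751688) (ZL.cons (nat_lit 1216) (nat_lit 3) (nat_lit 87933626414131828123) (ZL.cons (nat_lit 1368) (nat_lit 6) (nat_lit 173620159469923831076) (ZL.cons (nat_lit 1444) (nat_lit 6) (nat_lit 171451017057404067214) (ZL.cons (nat_lit 1520) (nat_lit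 3) (nat_lit 85689704650236453296) (ZL.cons (nat_lit 1596) (nat_lit 6) (nat_lit 169357930223547793990) (ZL.cons (nat_lit 1672) (nat_lit 6) (nat_lit 169216800372508710436) (ZL.cons (nat_lit 1748) (nat_lit 6) (nat_lit 167130443027744671946) (ZL.cons (nat_lit 1824) (nat_lit 3) (nat_lit 83530460466818374507) (ZL.cons (nat_lit 1900) (nat_lit 6) (nat_lit 165118514235491191480) (ZL.cons (nat_lit 1976) (nat_lit 6) (nat_lit 164981494962637712304) (ZL.cons (nat_lit 2052) (nat_lit 6) (nat_lit 162976705485362183670) (ZL.cons (nat_lit 2128) (nat_lit 3) (nat_lit 81454604153308313713) (ZL.cons (nat_lit 2204) (nat_lit 6) (nat_lit 161044800744014485468) (ZL.cons (nat_lit 2280) (nat_lit 6) (nat_lit 160911772323768389178) (ZL.cons (nat_lit 2432) (nat_lit 6) (nat_lit 158987441681680800076) (ZL.cons (nat_lit 2508) (nat_lit 3) (nat_lit 79460955220090130015) (ZL.cons (nat_lit 2584) (nat_lit 6) (nat_lit 157134534926394754456)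 (ZL.cons (nat_lit 2660) (nat_lit 6) (nat_lit 157005381120330583298) (ZL.cons (nat_lit 2736) (nat_lit 6) (nat_lit 155351433013172623734) (ZL.cons (nat_lit 2812) (nat_lit 6) (nat_lit 155160509726949587420) (ZL.cons (nat_lit 2888) (nat_lit 3) (nat_lit 77548443581192978154) (ZL.cons (nat_lit 2964) (nat_lit 6) (nat_lit 153385684236489657934) (ZL.cons (nat_lit 3040) (nat_lit 6) (nat_lit 153260292191767161666) (ZL.cons (nat_lit 3116) (nat_lit 6) (nat_lit 151679353830561072568) (ZL.cons (nat_lit 3192) (nat_lit 6) (nat_lit 151493991416752299450) (ZL.cons (nat_lit 3268) (nat_lit 3) (nat_lit 75716110968296717147) (ZL.cons (nat_lit 3420) (nat_lit 6) (nat_lit 149796441467732133376) (ZL.cons (nat_lit 3496) (nat_lit 6) (nat_lit 149674701618486991370) (ZL.cons (nat_lit 3572) (nat_lit 6) (nat_lit 148166159048634704074) (ZL.cons (nat_lit 3648) (nat_lit 6) (nat_lit 147986195540082497164) (ZL.cons (nat_lit 3724) (nat_lit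 3) (nat_lit 73963112585498110157) (ZL.cons (nat_lit 3800) (nat_lit 6) (nat_lit 146601719640841382722) (ZL.cons (nat_lit 3876) (nat_lit 6) (nat_lit 146365228307719209886) (ZL.cons (nat_lit 3952) (nat_lit 6) (nat_lit 146247034279325868132) (ZL.cons (nat_lit 4028) (nat_lit 6) (nat_lit 144810383542262054820) (ZL.cons (nat_lit 4104) (nat_lit 6) (nat_lit 144635661689298747140) (ZL.cons (nat_lit 4180) (nat_lit 3) (nat_lit 72288719014995841118) (ZL.cons (nat_lit 4256) (nat_lit 6) (nat_lit 143320302641488787850) (ZL.cons (nat_lit 4332) (nat_lit 6) (nat_lit 143090699405447843348) (ZL.cons (nat_lit 4408) (nat_lit 6) (nat_lit 142975947921570812518) (ZL.cons (nat_lit 4484) (nat_lit 6) (nat_lit 141893683592961840102) (ZL.cons (nat_lit 4560) (nat_lit 6) (nat_lit 141610797460729015190) (ZL.cons (nat_lit 4636) (nat_lit 6) (nat_lit 141441164593774347538) (ZL.cons (nat_lit 4712) (nat_lit 3) (nat_lit 70692318384602190806)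 (ZL.cons (nat_lit 4788) (nat_lit 6) (nat_lit 140194662736938139420) (ZL.cons (nat_lit 4864) (nat_lit 6) (nat_lit 139971746973791591358) (ZL.cons (nat_lit 4940) (nat_lit 6) (nat_lit 139860337766143988610) (ZL.cons (nat_lit 5016) (nat_lit 6) (nat_lit 138841057834802000704) (ZL.cons (nat_lit 5092) (nat_lit 6) (nat_lit 138566411104478869722) (ZL.cons (nat_lit 5168) (nat_lit 6) (nat_lit 138401719000639386564) (ZL.cons (nat_lit 5244) (nat_lit 3) (nat_lit 69173418808780874871) (ZL.cons (nat_lit 5320) (nat_lit 6) (nat_lit 137548799992755625720) (ZL.cons (nat_lit 5396) (nat_lit 6) (nat_lit 137223929022455229766) (ZL.cons (nat_lit 5472) (nat_lit 6) (nat_lit 137007505951439163688) (ZL.cons (nat_lit 5548) (nat_lit 6) (nat_lit 136899341672169646456) (ZL.cons (nat_lit 5624) (nat_lit 6) (nat_lit 135943127685124728506) (ZL.cons (nat_lit 5700) (nat_lit 6) (nat_lit 135676480374131397456) (ZL.cons (nat_lit 5776)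 (nat_lit 6) (nat_lit 135516585127685297304) (ZL.cons (nat_lit 5852) (nat_lit 3) (nat_lit 67731651115746708447) (ZL.cons (nat_lit 5928) (nat_lit 6) (nat_lit 134722887945687756764) (ZL.cons (nat_lit 6004) (nat_lit 6) (nat_lit 134407479236658246130) (ZL.cons (nat_lit 6080) (nat_lit 6) (nat_lit 134197359750234881006) (ZL.cons (nat_lit 6156) (nat_lit 6) (nat_lit 134092345886866417676) (ZL.cons (nat_lit 6308) (nat_lit 6) (nat_lit 133199393703074344820) (ZL.cons (nat_lit 6384) (nat_lit 6) (nat_lit 132940512818614800112) (ZL.cons (nat_lit 6460) (nat_lit 6) (nat_lit 132785274715269071810) (ZL.cons (nat_lit 6536) (nat_lit 3) (nat_lit 66366771874046244445) (ZL.cons (nat_lit 6612) (nat_lit 6) (nat_lit 132051168164661027984) (ZL.cons (nat_lit 6688) (nat_lit 6) (nat_lit 131744946117059561348) (ZL.cons (nat_lit 6764) (nat_lit 6) (nat_lit 131540946615677653462) (ZL.cons (nat_lit 6840) (nat_lit 6) (nat_lit 131438991408523805570)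 (ZL.cons (nat_lit 6916) (nat_lit 6) (nat_lit 130961799317549779132) (ZL.cons (nat_lit 6992) (nat_lit 6) (nat_lit 130609614975635766934) (ZL.cons (nat_lit 7068) (nat_lit 6) (nat_lit 130358274311111937120) (ZL.cons (nat_lit 7144) (nat_lit 6) (nat_lit 130207557705921909644) (ZL.cons (nat_lit 7220) (nat_lit 3) (nat_lit 65078666732972322336) (ZL.cons (nat_lit 7296) (nat_lit 6) (nat_lit 129930335286048947652) (ZL.cons (nat_lit 7372) (nat_lit 6) (nat_lit 129533527357423726176) (ZL.cons (nat_lit 7448) (nat_lit 6) (nat_lit 129236224398587350800) (ZL.cons (nat_lit 7524) (nat_lit 6) (nat_lit 129038166630255401396) (ZL.cons (nat_lit 7600) (nat_lit 6) (nat_lit 128939180992241956840) (ZL.cons (nat_lit 7676) (nat_lit 6) (nat_lit 128515742991689079034) (ZL.cons (nat_lit 7752) (nat_lit 6) (nat_lit 128173816446141494380) (ZL.cons (nat_lit 7828) (nat_lit 6) (nat_lit 127929796383496999414) (ZL.cons (nat_lit 7904)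 (nat_lit 6) (nat_lit 127783469582341632930) (ZL.cons (nat_lit 7980) (nat_lit 3) (nat_lit 63867354092152726673) (ZL.cons (nat_lit 8056) (nat_lit 6) (nat_lit 127555372552287008832) (ZL.cons (nat_lit 8132) (nat_lit 6) (nat_lit 127170122136146017106) (ZL.cons (nat_lit 8208) (nat_lit 6) (nat_lit 126881478486790312862) (ZL.cons (nat_lit 8284) (nat_lit 6) (nat_lit 126689189391322400816) (ZL.cons (nat_lit 8360) (nat_lit 6) (nat_lit 126593086830144299304) (ZL.cons (nat_lit 8436) (nat_lit 6) (nat_lit 126651576880581144824) (ZL.cons (nat_lit 8512) (nat_lit 6) (nat_lit 126224264454155291866) (ZL.cons (nat_lit 8588) (nat_lit 6) (nat_lit 125892296934206180550) (ZL.cons (nat_lit 8664) (nat_lit 6) (nat_lit 125655384252027059226) (ZL.cons (nat_lit 8740) (nat_lit 6) (nat_lit 125513319396536412152) (ZL.cons (nat_lit 8816) (nat_lit 3) (nat_lit 62732989116697245112) (ZL.cons (nat_lit 8892) (nat_lit 6) (nat_lit 125335416922583113172)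 (ZL.cons (nat_lit 8968) (nat_lit 6) (nat_lit 124961387392349140624) (ZL.cons (nat_lit 9044) (nat_lit 6) (nat_lit 124681150839576612228) (ZL.cons (nat_lit 9120) (nat_lit 6) (nat_lit 124494462397374755876) (ZL.cons (nat_lit 9196) (nat_lit 6) (nat_lit 124401158939920288386) (ZL.cons (nat_lit 9272) (nat_lit 6) (nat_lit 124502802878537816010) (ZL.cons (nat_lit 9348) (nat_lit 6) (nat_lit 124087936445114657800) (ZL.cons (nat_lit 9424) (nat_lit 6) (nat_lit 123765637882057268172) (ZL.cons (nat_lit 9500) (nat_lit 6) (nat_lit 123535625569262004748) (ZL.cons (nat_lit 9576) (nat_lit 6) (nat_lit 123397698525096327980) (ZL.cons (nat_lit 9652) (nat_lit 3) (nat_lit 61675868115391891209) (ZL.cons (nat_lit 9728) (nat_lit 6) (nat_lit 123725694795184797698) (ZL.cons (nat_lit 9804) (nat_lit 6) (nat_lit 123271180882937187386) (ZL.cons (nat_lit 9880) (nat_lit 6) (nat_lit 122908045416690612096) (ZL.cons (nat_lit 9956)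 (nat_lit 6) (nat_lit 122635971093610487440) (ZL.cons (nat_lit 10032) (nat_lit 6) (nat_lit 122454720178851403600) (ZL.cons (nat_lit 10108) (nat_lit 6) (nat_lit 122364134297827648760) (ZL.cons (nat_lit 10184) (nat_lit 6) (nat_lit 123003413646043458508) (ZL.cons (nat_lit 10260) (nat_lit 6) (nat_lit 122510407035908030626) (ZL.cons (nat_lit 10336) (nat_lit 6) (nat_lit 122107624090837003234) (ZL.cons (nat_lit 10412) (nat_lit 6) (nat_lit 121794712864567692916) (ZL.cons (nat_lit 10488) (nat_lit 6) (nat_lit 121571399939523747844) (ZL.cons (nat_lit 10564) (nat_lit 6) (nat_lit 121437490187906585932) (ZL.cons (nat_lit 10640) (nat_lit 3) (nat_lit 60696433300597688327) (ZL.cons (nat_lit 10792) (nat_lit 6) (nat_lit 121804950150180268830) (ZL.cons (nat_lit 10868) (nat_lit 6) (nat_lit 121363674507221423868) (ZL.cons (nat_lit 10944) (nat_lit 6) (nat_lit 121011115802127661448) (ZL.cons (nat_lit 11020) (nat_lit 6)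 (nat_lit 120746965973894530714) (ZL.cons (nat_lit 11096) (nat_lit 6) (nat_lit 120570994211992507570) (ZL.cons (nat_lit 11172) (nat_lit 6) (nat_lit 120483046754687891220) (ZL.cons (nat_lit 11248) (nat_lit 6) (nat_lit 121154193807115887458) (ZL.cons (nat_lit 11324) (nat_lit 6) (nat_lit 120675546612809646794) (ZL.cons (nat_lit 11400) (nat_lit 6) (nat_lit 120284495209828066804) (ZL.cons (nat_lit 11476) (nat_lit 6) (nat_lit 119980697902770483968) (ZL.cons (nat_lit 11552) (nat_lit 6) (nat_lit 119763889237679275162) (ZL.cons (nat_lit 11628) (nat_lit 6) (nat_lit 119633879770089797580) (ZL.cons (nat_lit 11704) (nat_lit 3) (nat_lit 59795277949748195254) (ZL.cons (nat_lit 11780) (nat_lit 6) (nat_lit 120557569384667548696) (ZL.cons (nat_lit 11856) (nat_lit 6) (nat_lit 120042639130800729680) (ZL.cons (nat_lit 11932) (nat_lit 6) (nat_lit 119614216176471753988) (ZL.cons (nat_lit 12008) (nat_lit 6) (nat_lit 119271926171526353582)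 (ZL.cons (nat_lit 12084) (nat_lit 6) (nat_lit 119015470027610692674) (ZL.cons (nat_lit 12160) (nat_lit 6) (nat_lit 118844623656832029430) (ZL.cons (nat_lit 12236) (nat_lit 6) (nat_lit 118759237775953761126) (ZL.cons (nat_lit 12312) (nat_lit 6) (nat_lit 120014555560524375358) (ZL.cons (nat_lit 12388) (nat_lit 6) (nat_lit 119464399035239519108) (ZL.cons (nat_lit 12464) (nat_lit 6) (nat_lit 118999693021349965064) (ZL.cons (nat_lit 12540) (nat_lit 6) (nat_lit 118620031465057168956) (ZL.cons (nat_lit 12616) (nat_lit 6) (nat_lit 118325082623253690478) (ZL.cons (nat_lit 12692) (nat_lit 6) (nat_lit 118114588773650575132) (ZL.cons (nat_lit 12768) (nat_lit 6) (nat_lit 117988365989583121166) (ZL.cons (nat_lit 12844) (nat_lit 3) (nat_lit 58973151989649129967) (ZL.cons (nat_lit 12920) (nat_lit 6) (nat_lit 119524677856587601560) (ZL.cons (nat_lit 12996) (nat_lit 6) (nat_lit 118940321067790087802) (ZL.cons (nat_lit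 13072) (nat_lit 6) (nat_lit 118440388782482496524) (ZL.cons (nat_lit 13148) (nat_lit 6) (nat_lit 118024444166629122064) (ZL.cons (nat_lit 13224) (nat_lit 6) (nat_lit 117692123773478247884) (ZL.cons (nat_lit 13300) (nat_lit 6) (nat_lit 117443137225987314968) (ZL.cons (nat_lit 13376) (nat_lit 6) (nat_lit 117277266963095408900) (ZL.cons (nat_lit 13452) (nat_lit 6) (nat_lit 117194368049621362006) (ZL.cons (nat_lit 13528) (nat_lit 6) (nat_lit 119087508224378059252) (ZL.cons (nat_lit 13604) (nat_lit 6) (nat_lit 118469947296247868300) (ZL.cons (nat_lit 13680) (nat_lit 6) (nat_lit 117935814747427619514) (ZL.cons (nat_lit 13756) (nat_lit 6) (nat_lit 117484643860156207820) (ZL.cons (nat_lit 13832) (nat_lit 6) (nat_lit 117116040407444755288) (ZL.cons (nat_lit 13908) (nat_lit 6) (nat_lit 116829682308606426670) (ZL.cons (nat_lit 13984) (nat_lit 6) (nat_lit 116625319347826703032) (ZL.cons (nat_lit 14060) (nat_lit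 6) (nat_lit 116502772955528204036) (ZL.cons (nat_lit 14136) (nat_lit 3) (nat_lit 58230968026169509187) (ZL.cons (nat_lit 14212) (nat_lit 6) (nat_lit 116600694684562950272) (ZL.cons (nat_lit 14288) (nat_lit 6) (nat_lit 116652354546737245160) (ZL.cons (nat_lit 14364) (nat_lit 6) (nat_lit 116755719410771229948) (ZL.cons (nat_lit 14440) (nat_lit 6) (nat_lit 116910879595478138218) (ZL.cons (nat_lit 14516) (nat_lit 6) (nat_lit 117117970677718393482) (ZL.cons (nat_lit 14592) (nat_lit 6) (nat_lit 117377173610864827030) (ZL.cons (nat_lit 14668) (nat_lit 6) (nat_lit 117688714882917275552) (ZL.cons (nat_lit 14744) (nat_lit 6) (nat_lit 118052866714404716914) (ZL.cons (nat_lit 14820) (nat_lit 6) (nat_lit 117485530026251790934) (ZL.cons (nat_lit 14896) (nat_lit 6) (nat_lit 117000158875467721732) (ZL.cons (nat_lit 14972) (nat_lit 6) (nat_lit 116596329151338231966) (ZL.cons (nat_lit 15048) (nat_lit 6) (nat_lit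 116273687992939324996) (ZL.cons (nat_lit 15124) (nat_lit 6) (nat_lit 116031953480812205656) (ZL.cons (nat_lit 15200) (nat_lit 6) (nat_lit 115870914390625889090) (ZL.cons (nat_lit 15276) (nat_lit 6) (nat_lit 115790430008612251326) (ZL.cons (nat_lit 15352) (nat_lit 3) (nat_lit 57900137579438091228) (ZL.cons (nat_lit 15428) (nat_lit 6) (nat_lit 115826486813082844396) (ZL.cons (nat_lit 15504) (nat_lit 6) (nat_lit 115905144679090001078) (ZL.cons (nat_lit 15580) (nat_lit 6) (nat_lit 116036317487071833516) (ZL.cons (nat_lit 15656) (nat_lit 6) (nat_lit 116220119854045024868) (ZL.cons (nat_lit 15732) (nat_lit 6) (nat_lit 116456712384019551702) (ZL.cons (nat_lit 15808) (nat_lit 6) (nat_lit 116746301808332284968) (ZL.cons (nat_lit 15884) (nat_lit 6) (nat_lit 117089141166286022202) (ZL.cons (nat_lit 15960) (nat_lit 6) (nat_lit 116570565876169275806) (ZL.cons (nat_lit 16036) (nat_lit 6) (nat_lit 116132535888527128532)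 (ZL.cons (nat_lit 16112) (nat_lit 6) (nat_lit 115774668458710184328) (ZL.cons (nat_lit 16188) (nat_lit 6) (nat_lit 115496650887022486636) (ZL.cons (nat_lit 16264) (nat_lit 6) (nat_lit 115298240245488774368) (ZL.cons (nat_lit 16340) (nat_lit 6) (nat_lit 115179263165587319034) (ZL.cons (nat_lit 16416) (nat_lit 3) (nat_lit 57569807843381433466) (ZL.cons (nat_lit 16492) (nat_lit 6) (nat_lit 115074828685432256164) (ZL.cons (nat_lit 16568) (nat_lit 6) (nat_lit 115128038343471779898) (ZL.cons (nat_lit 16644) (nat_lit 6) (nat_lit 115234504153426784230) (ZL.cons (nat_lit 16720) (nat_lit 6) (nat_lit 115394319143674899750) (ZL.cons (nat_lit 16796) (nat_lit 6) (nat_lit 115607622958382362672) (ZL.cons (nat_lit 16872) (nat_lit 6) (nat_lit 115874601979523189224) (ZL.cons (nat_lit 16948) (nat_lit 6) (nat_lit 116195489489737211202) (ZL.cons (nat_lit 17024) (nat_lit 6) (nat_lit 115724255362762386734) (ZL.cons (nat_lit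 17100) (nat_lit 6) (nat_lit 115332187669432785022) (ZL.cons (nat_lit 17176) (nat_lit 6) (nat_lit 115018943826327050096) (ZL.cons (nat_lit 17252) (nat_lit 6) (nat_lit 114784250125232759476) (ZL.cons (nat_lit 17328) (nat_lit 6) (nat_lit 114627901493983908440) (ZL.cons (nat_lit 17404) (nat_lit 6) (nat_lit 114549761317271638768) (ZL.cons (nat_lit 17480) (nat_lit 3) (nat_lit 57198361687565125900) (ZL.cons (nat_lit 17556) (nat_lit 6) (nat_lit 114423721378963113594) (ZL.cons (nat_lit 17632) (nat_lit 6) (nat_lit 114504738980950484978) (ZL.cons (nat_lit 17708) (nat_lit 6) (nat_lit 114639846973171772392) (ZL.cons (nat_lit 17784) (nat_lit 6) (nat_lit 114829163411154159482) (ZL.cons (nat_lit 17860) (nat_lit 6) (nat_lit 115072853717027922122) (ZL.cons (nat_lit 17936) (nat_lit 6) (nat_lit 115371130824070037386) (ZL.cons (nat_lit 18012) (nat_lit 6) (nat_lit 114945858991407758480) (ZL.cons (nat_lit 18088) (nat_lit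 6) (nat_lit 114598414884789366046) (ZL.cons (nat_lit 18164) (nat_lit 6) (nat_lit 114328494912277038192) (ZL.cons (nat_lit 18240) (nat_lit 6) (nat_lit 114135863221467608804) (ZL.cons (nat_lit 18316) (nat_lit 6) (nat_lit 114020351493407943430) (ZL.cons (nat_lit 18392) (nat_lit 3) (nat_lit 56990929397760062930) (ZL.cons (nat_lit 18468) (nat_lit 6) (nat_lit 113791578362973654792) (ZL.cons (nat_lit 18544) (nat_lit 6) (nat_lit 113846384310754364236) (ZL.cons (nat_lit 18620) (nat_lit 6) (nat_lit 113956044095008018702) (ZL.cons (nat_lit 18696) (nat_lit 6) (nat_lit 114120653534963577686) (ZL.cons (nat_lit 18772) (nat_lit 6) (nat_lit 114340356464112264494) (ZL.cons (nat_lit 18848) (nat_lit 6) (nat_lit 114615344855887315846) (ZL.cons (nat_lit 18924) (nat_lit 6) (nat_lit 114234696609936246218) (ZL.cons (nat_lit 19000) (nat_lit 6) (nat_lit 113930576373911260856) (ZL.cons (nat_lit 19076) (nat_lit 6) (nat_lit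 113702718411683794234) (ZL.cons (nat_lit 19152) (nat_lit 6) (nat_lit 113550923624063550508) (ZL.cons (nat_lit 19228) (nat_lit 6) (nat_lit 113475059374828337236) (ZL.cons (nat_lit 19304) (nat_lit 3) (nat_lit 56615528468764133531) (ZL.cons (nat_lit 19380) (nat_lit 6) (nat_lit 113258864881476114712) (ZL.cons (nat_lit 19456) (nat_lit 6) (nat_lit 113342313011523107238) (ZL.cons (nat_lit 19532) (nat_lit 6) (nat_lit 113481474243511033274) (ZL.cons (nat_lit 19608) (nat_lit 6) (nat_lit 113676470174632891976) (ZL.cons (nat_lit 19684) (nat_lit 6) (nat_lit 113927471189682867496) (ZL.cons (nat_lit 19760) (nat_lit 6) (nat_lit 113590146814325204940) (ZL.cons (nat_lit 19836) (nat_lit 6) (nat_lit 113328088588585080810) (ZL.cons (nat_lit 19912) (nat_lit 6) (nat_lit 113141067529546799850) (ZL.cons (nat_lit 19988) (nat_lit 6) (nat_lit 113028920220751008226) (ZL.cons (nat_lit 20064) (nat_lit 3) (nat_lit 56495774334701806262)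 (ZL.cons (nat_lit 20140) (nat_lit 6) (nat_lit 112741667326624134054) (ZL.cons (nat_lit 20216) (nat_lit 6) (nat_lit 112798117452838264786) (ZL.cons (nat_lit 20292) (nat_lit 6) (nat_lit 112911067030619528882) (ZL.cons (nat_lit 20368) (nat_lit 6) (nat_lit 113080614753773754636) (ZL.cons (nat_lit 20444) (nat_lit 6) (nat_lit 113306908770796902050) (ZL.cons (nat_lit 20520) (nat_lit 6) (nat_lit 113011646405724100726) (ZL.cons (nat_lit 20596) (nat_lit 6) (nat_lit 112790425083173162258) (ZL.cons (nat_lit 20672) (nat_lit 6) (nat_lit 112643051502959333400) (ZL.cons (nat_lit 20748) (nat_lit 6) (nat_lit 112569396892051359346) (ZL.cons (nat_lit 20824) (nat_lit 3) (nat_lit 56147169863002431139) (ZL.cons (nat_lit 20900) (nat_lit 6) (nat_lit 112322981908271145360) (ZL.cons (nat_lit 20976) (nat_lit 6) (nat_lit 112408933482219547662) (ZL.cons (nat_lit 21052) (nat_lit 6) (nat_lit 112552269551167111476) (ZL.cons (nat_lit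 21128) (nat_lit 6) (nat_lit 112753115360222625942) (ZL.cons (nat_lit 21204) (nat_lit 6) (nat_lit 112498689898339010280) (ZL.cons (nat_lit 21280) (nat_lit 6) (nat_lit 112317116054612523914) (ZL.cons (nat_lit 21356) (nat_lit 6) (nat_lit 112208235172286512626) (ZL.cons (nat_lit 21432) (nat_lit 3) (nat_lit 56085976056362967137) (ZL.cons (nat_lit 21508) (nat_lit 6) (nat_lit 111916491210841059246) (ZL.cons (nat_lit 21584) (nat_lit 6) (nat_lit 111974634840841613898) (ZL.cons (nat_lit 21660) (nat_lit 6) (nat_lit 112090972905956315918) (ZL.cons (nat_lit 21736) (nat_lit 6) (nat_lit 112265607060805168444) (ZL.cons (nat_lit 21812) (nat_lit 6) (nat_lit 112050829077746004884) (ZL.cons (nat_lit 21888) (nat_lit 6) (nat_lit 111907747931907336088) (ZL.cons (nat_lit 21964) (nat_lit 6) (nat_lit 111836238600928720502) (ZL.cons (nat_lit 22040) (nat_lit 3) (nat_lit 55789145087250854158) (ZL.cons (nat_lit 22116) (nat_lit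 6) (nat_lit 111607791622235979886) (ZL.cons (nat_lit 22192) (nat_lit 6) (nat_lit 111696321743402834256) (ZL.cons (nat_lit 22268) (nat_lit 6) (nat_lit 111843957894418824988) (ZL.cons (nat_lit 22344) (nat_lit 6) (nat_lit 111667672609247478998) (ZL.cons (nat_lit 22420) (nat_lit 6) (nat_lit 111561963014756205904) (ZL.cons (nat_lit 22496) (nat_lit 3) (nat_lit 55763368371669084335) (ZL.cons (nat_lit 22572) (nat_lit 6) (nat_lit 111308083283784446526) (ZL.cons (nat_lit 22648) (nat_lit 6) (nat_lit 111367971222685017814) (ZL.cons (nat_lit 22724) (nat_lit 6) (nat_lit 111487799429753160896) (ZL.cons (nat_lit 22800) (nat_lit 6) (nat_lit 111348885695929210608) (ZL.cons (nat_lit 22876) (nat_lit 6) (nat_lit 111279459160998515866) (ZL.cons (nat_lit 22952) (nat_lit 3) (nat_lit 55537623972207290219) (ZL.cons (nat_lit 23028) (nat_lit 6) (nat_lit 111105634435580880156) (ZL.cons (nat_lit 23104) (nat_lit 6) (nat_lit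 111196820460382740156) (ZL.cons (nat_lit 23180) (nat_lit 6) (nat_lit 111094189786119368220) (ZL.cons (nat_lit 23256) (nat_lit 3) (nat_lit 55529994761303355356) (ZL.cons (nat_lit 23332) (nat_lit 6) (nat_lit 110909082155771592420) (ZL.cons (nat_lit 23408) (nat_lit 6) (nat_lit 110970766732839180850) (ZL.cons (nat_lit 23484) (nat_lit 6) (nat_lit 110903362329993846148) (ZL.cons (nat_lit 23560) (nat_lit 3) (nat_lit 55389071319273320818) (ZL.cons (nat_lit 23636) (nat_lit 6) (nat_lit 110809440724447930348) (ZL.cons (nat_lit 23712) (nat_lit 3) (nat_lit 55388118292557626577) (ZL.cons (nat_lit 23788) (nat_lit 6) (nat_lit 110712701470735637072) (ZL.cons (nat_lit 23864) (nat_lit 1) (nat_lit 18446744073709551617) ZL.nil))))))))))))))))))))))))))))))))))))))))))))))))))))))))))))))))))))))))))))))))))))))))))))))))))))))))))))))))))))))))))))))))))))))))))))))))))))))))))))))))))))))))))))))))))))))))))))))))))))))))))))))))))))))))))))))))))))))))))))))))))))))))))))))))))))))))))))))))))))))))))))))))))))))))))))))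

noncomputable def vl : XL := ⟨(nat_lit 0), (nat_lit 76), (nat_lit 458986841), (nat_lit 152), (nat_lit 68214927), (nat_lit 152), (nat_lit 68214927), (nat_lit 1), (nat_lit 4), (nat_lit 2), (nat_lit 5), (nat_lit 2), (nat_lit 4), (nat_lit 0), (nat_lit 0), (nat_lit 0)⟩

noncomputable def cp0 : Nat := (nat_lit 24339402653890799255586052800972515725567467218010871155942048709359295490948106015244244835498749841686833925732777812311545572828535090624596974850198296190649153513060582372820128352043969316581832419490036336836897022704172143193363804173762093257599076094634609066637864530284894067348688285530909521108042738002662364573279942012464748801171591792281353772576309829856710673425234401481314035741200709505329530367051083052969077555114439036123693345943961189259007531960635105977449218903026382052852239900693085198326803905822945288475741016602541699163806320773088340590891744310232565075609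2406543658064832209733429155471928242085584003574369022526018556207876944708121266818742512671463165590593674611297570511013197691327027076367183089348867607248162721528238796812325667702322647686241880844037789607124398110787072366541739813090226453972219776774473983017465140700588573329154595401255923541662739511039898528066801592314332541149398336617232459565181801280133840040050364144931077766712313116900013070188689769764685549115545899599058818806956907298702623186078686884603040643318422221107099324757830929621793156052518870039421982242648615326103500097426170984321989330166404565083663519022587346027171380608823340166018882206970735127977353415984578357350851259777639593536396462213477067897194603660185404321426106095983788645977803553056596783649308177854614360328235407726879948513046914652750308567205988544044345253218543051699559188113690250400121200007231539678034515912157554449968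6567136774401574801206813966785866588237380413770206583371973815947967030937904393612823699316264851505640543463337803752234291397262962826411080533476440967542213602675665177947327767536659628938420347566414615107639415878764523506649135091190356856093541965949852567233840732148442561393974912956362695977654971277943416108261702151679491249565568873528916678543806276227584864912900396307692245772127928023063293417626085422831028042748807250781502461389804879029505595587027536781323525672834802811290337973188231999828024494490838164808129744315833125998183715887821529247794138847069604228912754959646042298033133629063844063217820534914089669629989855411695670809868266015161561183266269571267072677173762147273408769831931140081880510371090838072384914869365565896712602355186804451554480077296068853662100075379112747202288480357894976508214909887780983466908882890210464599117811821699279196195580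9832020359169007437606908903776597661379373575642135355414048661022237659028161036172599567551772982702128258421014291781496042424883377603772221156960916917604123734347979969497134868711443500960333697096740618419862099835015194891338994460387497354485893384212001840836034692859000457605328642680202478397364898003736184955718475353179992756183651874098759356289091681059132107864104830251974946901415434172582683594649183238856560677752887163668966872363937305569936489104022036796129183481855709387311239648679477738424916350760716639327879976904125803770527492686508541411495549384022846566418101355168649368375454012735865841596227547724074133138102013298728206897183265364165396277792326956783216215462104042930502849158205072664050063486917451653312296041403310089429387291217051778662978643336563398222341308553893104555330122069611019664364359952484001788393969656817892816745608804588101291731413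3394566712632715455272028908817760904419847175495265247804961634152613024463488776094369024732927442862366185217456470498144173043640782787687088030108475076674876858792338499833595315886051233217308950256353418225391529820488000032862858108760921238754783182597346285902376805023333935695902525283187354345849807379981687281082567777743709634510380602209901031764274372395493897896987742609414528968948755370144335933761967747784305367006246711850597368463366267088934321613491491599328677738459389586262562985724872575036881766394959608453730053988276593449065610279715756027142843363224784580142999033661656311426572984880660402204606615411114410782615439939299123431841627826924396499338348532427117652202302628108399002386812880448948624558979197241987090309211202498952486956500371291183995145187828711122719136448971750617163618634563125410473767942613375659690182907543940441494928406677435017278906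8220703550248354492192679869285261873883015063039533598919815177592781346573517929157847185975193590065313145602768135354883896446394345258392663949070615193047287358810551347778747269647649436501443935526863961634580622238516362985880886892665945690206706821258762724925211458811762960601572049659978321448840582784850775044248203004059496162961720321224702282197551248786964890281993815995427279101351807289557742788630851835443765222584404179450919610415075139467184060687562063413908608357548630742485200041070161524147470537583245256548328630027709498130335679368868316615900752409085610027527058966708299760757720776843156364237068218764212528432665654611025596565196747495250410792913550604593491258605023849381392798182297386910120157651178620724166315898560083155415172842526828463457107643898864399295165139396855404078638830835985661448466622489944036628268394459630897005457693060238229813227778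4419432047346164793035630647522257371535265209660639867443205624490596616903024067761377610293234749657014910898403271512804059841734313380257510469755013021293447624828489509891751785504227977930008815630199209926659772950301184247452880120357103765332320706087810398827344666969656467453194401139108245087846115325619852058098992708252262118148109936241914285996118025998980586757516317196102405409189024168605881184140319455517996536495682216862265458400415494502309850642859583034338561966903609975569646259287078062631052785831379747566383617321829067571646838345831451906148703547992763572348012842110970444518014658665826311638387543225041182428261965600561241922948943877528841946227115828422097561644007932352756378308717354449855617205612748098404809024041283416784661591318451098709063454866876537663419662812548769713912088881018804866958360136163707825176896944431384039418844833585227380882555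8283423323884503626855417179584026313470566487215519223180577294254764876193442736766673021504530850266890149264963521641605718362325305919926928675105971732709518506652475897821762370395132656552818472666111326870136567250151404278052856354451398101935560824274198019397763305475343806529456663026235506874486091343875635770092999032439825882254128114328590287610756207367911216734869709534006563734049598753561709011234273817144979361556466265016934858742469111943982103327934566767011511756357716427894816845857311072890126647286028790922735093713103826034141334977375340098299070979415106914667918638227023839833478185652540940807291214625232086195535629954790356329719421892525112745873568792653441280744889818482106500022913247451123462074269094490065994504612810996937547044038948000212756747468551887282356898540734226937140870802872861045928394253867584588043210163211744690963816976161374957993867547591503809959492362801892360973708829437625376811018327209192596188125945904174760910502901818160693135326109725089728261622234758438246678262292273112728950766961602357569390428999085500043081269641150609823452088805192065125315709766620579768473485312)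

noncomputable def cp1 : Nat := (nat_lit 5047138271563440048904505037854256566516638575990204981685423701259976616018538564472605457780850007106213957456297545307012613989477227410828878043633262596245147500989417033097741429562448439477821249579067553777230143078406658982460026246944961009376759869865423662071640908751333310898307345575288715464503891302116483163811009928583616612847071539995769127165422678811574783056163711484842686284281559356443608948080853634976015866734918680934596197770037536469964018860565614506927665369058651607571650100108517724651187552033882818467298825294284832533997659264887737829670987622568229746902138286378921647207056283740540018326703790565191465644766267477367558404682146829291214609641800754538347859140711903104616684195712148844334121806494635329186463455812266866643965793510349404674498330304510869762269962773593429192196152568249631829207942997472360516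2735188887442640860437708113100500520936124549258455726122177320960995648256087880749564747165823588312987007143656471815339950637261971829617181916870755541810344506243968358305400263943176760755723765953133196925113531841614747802275860197024984977973040261211462248343272242189866826924627034498186589648680633755878155911446973686883250876497852538173679483056635800684572786689675411094061572661916660818636547559436320234240523401330331377332325260391411451286114456437585747988384401405239985787374612391701519461311530440997794650481554791734529719739949917362929314050975285051785955336462683499164559668339367478339156853918356489192394362179273672512729239795477492917829620562449027390407212542361200742232577382606859269196150688145634583141639777363986394596826103050247800290767726719276522768534616649075026489347939658726723611618785009264825274517465549177342601093813771290593620604541747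5214689585448343968960694667757016825009876292051177528689559616072647357017666392440606610992950238683136865471165242948877311748626108840317132716567265445767797516748518923066474676332077491839680691554544640767223792641070115527407483920734554315206517990347297483389862496185108719541543489963669400954730377653034648236440714493009451807614288730152556071080256154236078351988383799868318302754029584085160518901862642159321734962862917789561132204877281767659435591808949594306305279650885091079480126248976342333987653819984924110261124952944487278905184135669500126556902458855778323154975210324786627848171680080448280106632518383566852201311589844874254731066145305389467592241281292138383631119164855176939569669654412832299900063101252675486780136218253956091970825477714774707688546398359063097259595247907587454711055675160229966859775185010915962983882968286558064048052063438487949310596870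5984828826324647253360697007654655243349796130469526721357310351538644697580995579869421598501940095774920939974752989541654916152316927232685522775576503706057018385021104838699179719335835546946773973388408922219146093506803852970995624378699134514673131496305151483225641266988250690666960883044422036356030063589031778218271855624790506609817203541962342351587958728358482755168902162579444815954815447510153978407051012689306241281563397444270423774318652343819431967106977768672223906588995489224422299520753322907224748813808954227355191775007360810566966016699327198087664555396828222209354492154013763888949171069072147111112685093735138069803084310698466794844353981208268130244074818530685076736062546936047546730177803610873621843343560852553910336673162707388157630568634789388420356866036069067275557513758183393709288195675192441088555446059305851224648061125554322983381681771508901834696671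7822913395568618055644649193105846828422067843598339385227024828142158469193059575369995488759292022612921005572516368936957721855181993117895332917627099557354523480588890175812974331861527599659776191101135064393200561451593109490254066278187399377760260643200614033778455697128732313258642772624306683303258877900955618082499807505747711823828075508196610919861906414152063128997835377115833238060686009285812665598598634609970482533679209388429164689330449200270554166206478158969154249700042475174190003233990599514441444041633478378566622978465267120779018657666316630462368289812436712542515445315543800956464678147704557470083890517512177578031203843903943810058052182458347886584230137404038637157593235466404520625296196004129769822443173819753908336498226255491912949486101802697325727122618293791507834949156287515834639016150852030436081690043228131122100593645186298242371860548569225051423537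8658934945893261795279817863939562238593616058291507217062815011973001282590531109657515331914137537743040173849845229365260982885391920559293962959448877687581038512133358574841454044635662310231597486722706560648920497993575979259031927658583172786610547701843284071811737896947173014317597844633137952709197956084341924169378935730997411121891351763545586592538644884134474585575563094295462491612310957633725267380179905099388653269102751401234207360377607465308105383112716935303537708773515026062823856371604641617663063527087072688819973844892432375474718191940426505784879422283386965535217507141375316370591415076865212042403528334195682286693930305819881105608864898604123598219136024353474768896213592062773008189196379605940087753828499418648896079181660223236624139056668485368483564777629387741119817292845275322365739399657551243371830981080261146626778937138464820272054420386466598743526900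2343002213059610018297346572575766137166020209082849826348539749057947903742864980391042504050677385122587050129293688167131432112884038664772291284690015216885359890690142615482676977760064363065885717828120873232156241470281133104073311883429282009110182514900572850409206789120646820489638425960030758881262354047295479210012995034574310755715096728497012425343989229765736769811224328581090957800339346920485314579909625193271941661773442450840311408038157709263831883411920996337574149916551626103666643684794548523864780129493786732071071590875862266384432467353357312828738548484889197403440002732825861696839894642518438607602347001500185074357242295937790458203911694097915207249561172252120568506702194914173238409408803452626719600932152819493446628999325494793773246190738924039419952771962857199173491472530706536903456695082363485208503910477015888552610767595789171053232071841547610555230879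1206702251857934491891678377320920134167657279696630634509781680577717978565831732289054329659838589849374300724242399821829856406299404149009535076003210110535056392992531692885637665672141379911945808014006449795810671866281606396702983682890547590212461812716663012677615443137970865957743715021716649055952817158938274224397073943576901923884465517104246365883936564438944281683695420995125390121804569477805783107795333604395867140741722433671044959834914931207634473835763220783610097407465863563214821820037423300539844102138710372330446428421073384026305494311190754688364834883568173942431056620614145816438032481852153314801317057288641466790018534166086457209287210469498353007025352033004546291994400116999870554813124303110000568229922644122271508461330092287666852675844855428851226255788650419586250385560258772277183313361509423152824649354128315842264917191607698026377980535146995860793647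2497382472773333175010160169484065243803267710179861899003613848739287473353255706086066608507391186540976753634569694018487349334199867517148077774630376575006364053663472399772998583434215057983112071552233115653067139844298417193405916930110850698129943796935052994446833301032858296046887310899321378362726860772002349184233798458654720406295749784144855241741338262806865676406221508273583940687638337575460519192734623644221422342438341043429302432347147042397937556894881084756601975172386774543493801481044035016739172708061995601214559632397955752796773603588447899515756192289382421702775906077110086881454010539820970306141945444337790417504615451920159961315383443451945869951529262853026471477889953598493145393950863504032613264915715805326347126923625668282271034335386374281227567511429730751486200749486721114471978093337340711079450214290841470292821117784446933440416845797385497663753874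4507865640205436897676959321756977734256169299030766440719375475676762932416937495150780710182411737066570091671030946772513818434015267225780069803187577116269328361707332039074964913680768143635145908894948258608541951700973854192444080926859416735993332940935397989719136987660966255958378662148621256459731289353054253948419581199783319223697509473719922237495755620274669668086573527199504649246230332120895592134952633052147677193535437806516042437662416797025180214269110284679257043929850390058370476117581800645886191708508490764767560948374269716102134557606499717204663324948622057774381310500900490407516780598375907160693231655259207157766561480331340806426548526238218570843948884562823617643688447073285106204718274416997931406051555413370739332672657420325309633172489561804781237974490214243174100434009703397606687688125806013718722828655965321192734854425437587926295804536702872298311910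1023994761380049972784596928733495202552220762762607730200959250853451351481710917546565387180479782502805971088885898979213868384201616238675816531250829048379058386836247799486113093600284230626206139384652619387984257423244453942758870002298346456440447657659205402355549064563733275899931224031601836474389593334919650566835570171894796813810581423465155336991629559461603497779086870988354591155722022479625497794664322713830331882113740816690604706274606071450323145839519205163782855938444263826670067910056647066498629900291351050075077019847251040676680156537992611374127306385860818161471844637415422195929920340160113494560559185676152585951634950065698753724258658524805806940787674633513067032505772710710922854399688805948296366823509080247321701470300418160269207424780625792466864206275108702531544452317211434726313648863509733415174965732335418922291477228941184813285600920046120314750793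8942827474976844907984114288680435755656860135296924651370138088938035212559449765186420918718383107527836171850582873933777161056418430005176768347423329573573318692427592847043088272284236886901292546918103969101929160311220298964642641020714509189449687827520357891519104916128379437638220067624326881731794391799932368824757451399977678054767214609200115056244434678261693489773558595141754602258644404906587722603978849208326777614400018368418791751635406185073735887676134765412715058408817087542995658483578678080826559722849078419228429632656266877931891205524587023094944835668059651451841441482981221978255867695435124133695346107702217859825267935024170737517034767602115654483214597002859225149120950576924050665802970679025928414521829244599785221483224443422975369598442698525690594375683298904392009767598889630890360903813286375056934368601552059027485839811147980706480579097047467243349490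8150520873003794150194555293150146373696601419860536659010022686849122443486986898197077285751971574980154715130812239595034264221629982051035594464081146766241020211660184611044353514461633462427318322521447116706600194180951784475946238016306927012178284355987694385235429576810085856946535054192889963114263186015362499797965995950323261826670145720144542778549905076997911616094280844732886664594774079848804220467499475068539165616996080339452462603753601960702495968151863826993811389216372675164456567184500763865178291469176881539399058547133635152328684709961047522824168458900771435947761502332896072031540957999960058932739106510058994744936847523806504729345607600605226885387554083676664365100310832238818491194884586077903802822256500383425208157286986272969709645187302954092031796307304603408038193026576281939899418783335449902519191095378895832501800707290828489734042192190798573381425676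8550818391638078499291310046804821589335116374147432953899875099564371046579965377831268036644440906640270269702195046506832466830684084723907104700994386557209977554790721366298491590584994547061978598118396533934286145368323500989841234455374107270167815661207425894898717481470063918222793414113893234347415092494219443003294177639282087337222687269694296918297657065719051676678816059209245710252440615275115457006862454890051064277562684697624059908164045454872017449714016485723131120027203260515463368895745975444815024265067000987024403425902578904505232374924377540120177161991722326166966134944117787448180243977560773779102431474568879486236786294920828510397294977295883515929286259232894229923126843166169892012013669300702203004149275281897713327637917674964874963347440702912361866793664660485098353252483792173954511531484543664206941967591513279379587645901632558104585327000785946389436919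3199051213329560704275480600742494431926528034321835159161847449512436044128925543112350057653706391678264055553604821197791109880043746264298021808007376437324651549772942475411088959212927099537814792177710933444125091888433387174485284325988926759395188604346362349212338573050350893511477033277143259328133825260329356012007257995194765372157391854007198330122124331995652714619567335170704836498977491506236310877467277427080847767332927237229734362273377801881071232941909842110923940244185432732995833937202108256257868389995047187837623824423185532126953714373292988093811887014765838303258581189456802984421768874525863849344736464697002778942250817102056655047668905818077989227781331426563908643221961907182079142655967516969496989655454699014448173049054867300179533110417041358497580599037738256517664050908596025963373271743998893374344296056581737113539621104646089327545738107632401654410710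3969613526797717619322651813860491056862876805251504696304070173983351287009336643723573096585623764143607048202188872127077042808406808219621654698169276686138319548700874943390637856265800129699491990166724935017510006784405801554106555526077311960597062865683662484470569698513709683029620674635746849766711577086479685830578010790980471986732981883679192780912722239581519807067129612802318646007351966160316969524224677546302693318259522599870475831761042302224006316914227727313794483001153704751684181848906197582831092712026783813491326057225829437145568161448665022917179589843568864225027668351121731152191067405713156344518870482815331429748930914320634523746458708988639681429828366470357196996608)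

noncomputable def rc0 : Nat := (nat_lit 5047138271563440048904505037854256566516638575990204981685423701259976616018538564472605457780850007106213957456297545307012613989477227410828878043633262596245147500989417033097741429562448439477821249579067553777230143078406658982460026246944961009376759869865423662071640908751333310898307345575288715464503891302116483163811009928583616612847071539995769127165422678811574783056163711484842686284281559356443608948080853634976015866734918680934596197770037536469964018860565614506927665369058651607571650100108517724651187552033882818467298825294284832533997659264887737829670987622568229746902138286378921647207056283740540018326703790565191465644766267477367558404682146829291214609641800754538347859140711903104616684195712148844334121806494635329186463455812266866643965793510349404674498330304510869762269962773593429192196152568249631829207942997472360516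2735188887442640860437708113100500520936124549258455726122177320960995648256087880749564747165823588312987007143656471815339950637261971829617181916870755541810344506243968358305400263943176760755723765953133196925113531841614747802275860197024984977973040261211462248343272242189866826924627034498186589648680633755878155911446973686883250876497852538173679483056635800684572786689675411094061572661916660818636547559436320234240523401330331377332325260391411451286114456437585747988384401405239985787374612391701519461311530440997794650481554791734529719739949917362929314050975285051785955336462683499164559668339367478339156853918356489192394362179273672512729239795477492917829620562449027390407212542361200742232577382606859269196150688145634583141639777363986394596826103050247800290767726719276522768534616649075026489347939658726723611618785009264825274517465549177342601093813771290593620604541747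5214689585448343968960694667757016825009876292051177528689559616072647357017666392440606610992950238683136865471165242948877311748626108840317132716567265445767797516748518923066474676332077491839680691554544640767223792641070115527407483920734554315206517990347297483389862496185108719541543489963669400954730377653034648236440714493009451807614288730152556071080256154236078351988383799868318302754029584085160518901862642159321734962862917789561132204877281767659435591808949594306305279650885091079480126248976342333987653819984924110261124952944487278905184135669500126556902458855778323154975210324786627848171680080448280106632518383566852201311589844874254731066145305389467592241281292138383631119164855176939569669654412832299900063101252675486780136218253956091970825477714774707688546398359063097259595247907587454711055675160229966859775185010915962983882968286558064048052063438487949310596870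5984828826324647253360697007654655243349796130469526721357310351538644697580995579869421598501940095774920939974752989541654916152316927232685522775576503706057018385021104838699179719335835546946773973388408922219146093506803852970995624378699134514673131496305151483225641266988250690666960883044422036356030063589031778218271855624790506609817203541962342351587958728358482755168902162579444815954815447510153978407051012689306241281563397444270423774318652343819431967106977768672223906588995489224422299520753322907224748813808954227355191775007360810566966016699327198087664555396828222209354492154013763888949171069072147111112685093735138069803084310698466794844353981208268130244074818530685076736062546936047546730177803610873621843343560852553910336673162707388157630568634789388420356866036069067275557513758183393709288195675192441088555446059305851224648061125554322983381681771508901834696671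7822913395568618055644649193105846828422067843598339385227024828142158469193059575369995488759292022612921005572516368936957721855181993117895332917627099557354523480588890175812974331861527599659776191101135064393200561451593109490254066278187399377760260643200614033778455697128732313258642772624306683303258877900955618082499807505747711823828075508196610919861906414152063128997835377115833238060686009285812665598598634609970482533679209388429164689330449200270554166206478158969154249700042475174190003233990599514441444041633478378566622978465267120779018657666316630462368289812436712542515445315543800956464678147704557470083890517512177578031203843903943810058052182458347886584230137404038637157593235466404520625296196004129769822443173819753908336498226255491912949486101802697325727122618293791507834949156287515834639016150852030436081690043228131122100593645186298242371860548569225051423537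8658934945893261795279817863939562238593616058291507217062815011973001282590531109657515331914137537743040173849845229365260982885391920559293962959448877687581038512133358574841454044635662310231597486722706560648920497993575979259031927658583172786610547701843284071811737896947173014317597844633137952709197956084341924169378935730997411121891351763545586592538644884134474585575563094295462491612310957633725267380179905099388653269102751401234207360377607465308105383112716935303537708773515026062823856371604641617663063527087072688819973844892432375474718191940426505784879422283386965535217507141375316370591415076865212042403528334195682286693930305819881105608864898604123598219136024353474768896213592062773008189196379605940087753828499418648896079181660223236624139056668485368483564777629387741119817292845275322365739399657551243371830981080261146626778937138464820272054420386466598743526900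2343002213059610018297346572575766137166020209082849826348539749057947903742864980391042504050677385122587050129293688167131432112884038664772291284690015216885359890690142615482676977760064363065885717828120873232156241470281133104073311883429282009110182514900572850409206789120646820489638425960030758881262354047295479210012995034574310755715096728497012425343989229765736769811224328581090957800339346920485314579909625193271941661773442450840311408038157709263831883411920996337574149916551626103666643684794548523864780129493786732071071590875862266384432467353357312828738548484889197403440002732825861696839894642518438607602347001500185074357242295937790458203911694097915207249561172252120568506702194914173238409408803452626719600932152819493446628999325494793773246190738924039419952771962857199173491472530706536903456695082363485208503910477015888552610767595789171053232071841547610555230879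1206702251857934491891678377320920134167657279696630634509781680577717978565831732289054329659838589849374300724242399821829856406299404149009535076003210110535056392992531692885637665672141379911945808014006449795810671866281606396702983682890547590212461812716663012677615443137970865957743715021716649055952817158938274224397073943576901923884465517104246365883936564438944281683695420995125390121804569477805783107795333604395867140741722433671044959834914931207634473835763220783610097407465863563214821820037423300539844102138710372330446428421073384026305494311190754688364834883568173942431056620614145816438032481852153314801317057288641466790018534166086457209287210469498353007025352033004546291994400116999870554813124303110000568229922644122271508461330092287666852675844855428851226255788650419586250385560258772277183313361509423152824649354128315842264917191607698026377980535146995860793647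2497382472773333175010160169484065243803267710179861899003613848739287473353255706086066608507391186540976753634569694018487349334199867517148077774630376575006364053663472399772998583434215057983112071552233115653067139844298417193405916930110850698129943796935052994446833301032858296046887310899321378362726860772002349184233798458654720406295749784144855241741338262806865676406221508273583940687638337575460519192734623644221422342438341043429302432347147042397937556894881084756601975172386774543493801481044035016739172708061995601214559632397955752796773603588447899515756192289382421702775906077110086881454010539820970306141945444337790417504615451920159961315383443451945869951529262853026471477889953598493145393950863504032613264915715805326347126923625668282271034335386374281227567511429730751486200749486721114471978093337340711079450214290841470292821117784446933440416845797385497663753874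4507865640205436897676959321756977734256169299030766440719375475676762932416937495150780710182411737066570091671030946772513818434015267225780069803187577116269328361707332039074964913680768143635145908894948258608541951700973854192444080926859416735993332940935397989719136987660966255958378662148621256459731289353054253948419581199783319223697509473719922237495755620274669668086573527199504649246230332120895592134952633052147677193535437806516042437662416797025180214269110284679257043929850390058370476117581800645886191708508490764767560948374269716102134557606499717204663324948622057774381310500900490407516780598375907160693231655259207157766561480331340806426548526238218570843948884562823617643688447073285106204718274416997931406051555413370739332672657420325309633172489561804781237974490214243174100434009703397606687688125806013718722828655965321192734854425437587926295804536702872298311910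1023994761380049972784596928733495202552220762762607730200959250853451351481710917546565387180479782502805971088885898979213868384201616238675816531250829048379058386836247799486113093600284230626206139384652619387984257423244453942758870002298346456440447657659205402355549064563733275899931224031601836474389593334919650566835570171894796813810581423465155336991629559461603497779086870988354591155722022479625497794664322713830331882113740816690604706274606071450323145839519205163782855938444263826670067910056647066498629900291351050075077019847251040676680156537992611374127306385860818161471844637415422195929920340160113494560559185676152585951634950065698753724258658524805806940787674633513067032505772710710922854399688805948296366823509080247321701470300418160269207424780625792466864206275108702531544452317211434726313648863509733415174965732335418922291477228941184813285600920046120314750793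8942827474976844907984114288680435755656860135296924651370138088938035212559449765186420918718383107527836171850582873933777161056418430005176768347423329573573318692427592847043088272284236886901292546918103969101929160311220298964642641020714509189449687827520357891519104916128379437638220067624326881731794391799932368824757451399977678054767214609200115056244434678261693489773558595141754602258644404906587722603978849208326777614400018368418791751635406185073735887676134765412715058408817087542995658483578678080826559722849078419228429632656266877931891205524587023094944835668059651451841441482981221978255867695435124133695346107702217859825267935024170737517034767602115654483214597002859225149120950576924050665802970679025928414521829244599785221483224443422975369598442698525690594375683298904392009767598889630890360903813286375056934368601552059027485839811147980706480579097047467243349490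8150520873003794150194555293150146373696601419860536659010022686849122443486986898197077285751971574980154715130812239595034264221629982051035594464081146766241020211660184611044353514461633462427318322521447116706600194180951784475946238016306927012178284355987694385235429576810085856946535054192889963114263186015362499797965995950323261826670145720144542778549905076997911616094280844732886664594774079848804220467499475068539165616996080339452462603753601960702495968151863826993811389216372675164456567184500763865178291469176881539399058547133635152328684709961047522824168458900771435947761502332896072031540957999960058932739106510058994744936847523806504729345607600605226885387554083676664365100310832238818491194884586077903802822256500383425208157286986272969709645187302954092031796307304603408038193026576281939899418783335449902519191095378895832501800707290828489734042192190798573381425676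8550818391638078499291310046804821589335116374147432953899875099564371046579965377831268036644440906640270269702195046506832466830684084723907104700994386557209977554790721366298491590584994547061978598118396533934286145368323500989841234455374107270167815661207425894898717481470063918222793414113893234347415092494219443003294177639282087337222687269694296918297657065719051676678816059209245710252440615275115457006862454890051064277562684697624059908164045454872017449714016485723131120027203260515463368895745975444815024265067000987024403425902578904505232374924377540120177161991722326166966134944117787448180243977560773779102431474568879486236786294920828510397294977295883515929286259232894229923126843166169892012013669300702203004149275281897713327637917674964874963347440702912361866793664660485098353252483792173954511531484543664206941967591513279379587645901632558104585327000785946389436919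3199051213329560704275480600742494431926528034321835159161847449512436044128925543112350057653706391678264055553604821197791109880043746264298021808007376437324651549772942475411088959212927099537814792177710933444125091888433387174485284325988926759395188604346362349212338573050350893511477033277143259328133825260329356012007257995194765372157391854007198330122124331995652714619567335170704836498977491506236310877467277427080847767332927237229734362273377801881071232941909842110923940244185432732995833937202108256257868389995047187837623824423185532126953714373292988093811887014765838303258581189456802984421768874525863849344736464697002778942250817102056655047668905818077989227781331426563908643221961907182079142655967516969496989655454699014448173049054867300179533110417041358497580599037738256517664050908596025963373271743998893374344296056581737113539621104646089327545738107632401654410710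3969613526797717619322651813860491056862876805251504696304070173983351287009336643723573096585623764143607048202188872127077042808406808219621654698169276686138319548700874943390637856265800129699491990166724935017510006784405801554106555526077311960597062865683662484470569698513709683029620674635746849766711577086479685830578010790980471986732981883679192780912722239581519807067129612802318646007351966160316969524224677546302693318259522599870475831761042302224006316914227727313794483001153704751684181848906197582831092712026783813491326057225829437145568161448665022917179589843568864225027668351121731152191067405713156344518870482815331429748930914320634523746458708988639681429828366470357196996608)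

end Vale.Agent.Lib.P154.PChain.BP.S7
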